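import Claimed.Agent.R259.WsBasic

set_option autoImplicit false
set_option linter.unusedSectionVars false

open MeasureTheory Filter Topology ContinuousLinearMap
open scoped ContDiff ENNReal Convolution

namespace Claimed.Agent.R259

variable {E : Type} [NormedAddCommGroup E] [InnerProductSpace ℝ E] [FiniteDimensional ℝ E]
  [MeasurableSpace E] [BorelSpace E]
variable {F : Type} [NormedAddCommGroup F] [NormedSpace ℝ F] [CompleteSpace F]

/-- the `k`-th bump: inner radius `1/(2(k+1))`, outer radius `1/(k+1)`. -/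
noncomputable def wsB (k : ℕ) : ContDiffBump (0 : E) where
  rIn := 1 / (2 * ((k : ℝ) + 1))
  rOut := 1 / ((k : ℝ) + 1)
  rIn_pos := by positivity
  rIn_lt_rOut := by
    have h : (0:ℝ) < (k:ℝ) + 1 := by positivity
    rw [div_lt_div_iff₀ (by positivity) h]
    linarith

/-- the `k`-th mollifier. -/
noncomputable def wsRho (k : ℕ) : E → ℝ := (wsB k : ContDiffBump (0 : E)).normed volume

/-- mollification at scale `1/(k+1)`. -/
noncomputable def wsMol (k : ℕ) (f : E → F) : E → F :=
  (wsRho k : E → ℝ) ⋆[lsmul ℝ ℝ, volume] f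

theorem wsB_rOut (k : ℕ) : (wsB k : ContDiffBump (0 : E)).rOut = 1 / ((k : ℝ) + 1) := rfl

theorem wsB_rOut_le_one (k : ℕ) : (wsB k : ContDiffBump (0 : E)).rOut ≤ 1 := by
  rw [wsB_rOut, div_le_one (by positivity)]
  have : (0:ℝ) ≤ k := Nat.cast_nonneg k
  linarith

theorem wsB_rOut_tendsto :
    Tendsto (fun k : ℕ => (wsB k : ContDiffBump (0 : E)).rOut) atTop (𝓝 0) := by
  simp only [wsB_rOut]
  exact tendsto_one_div_add_atTop_nhds_zero_nat

theorem wsRho_contDiff (k : ℕ) : ContDiff ℝ ∞ (wsRho k : E → ℝ) :=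
  (wsB k).contDiff_normed

theorem wsRho_nonneg (k : ℕ) (x : E) : 0 ≤ wsRho k x := (wsB k).nonneg_normed x

theorem wsRho_integral (k : ℕ) : ∫ x : E, wsRho k x = 1 := (wsB k).integral_normed

theorem wsRho_hasCompactSupport (k : ℕ) : HasCompactSupport (wsRho k : E → ℝ) :=
  (wsB k).hasCompactSupport_normed

theorem wsRho_support (k : ℕ) :
    Function.support (wsRho k : E → ℝ) = Metric.ball 0 (1 / ((k : ℝ) + 1)) :=
  (wsB k).support_normed_eq

theorem wsRho_neg (k : ℕ) (x : E) : wsRho k (-x) = wsRho k x := (wsB k).normed_neg x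

theorem wsRho_integrable (k : ℕ) : Integrable (wsRho k : E → ℝ) volume :=
  (wsB k).integrable_normed

theorem wsRho_isTest (k : ℕ) : IsTest (wsRho k : E → ℝ) :=
  ⟨wsRho_contDiff k, wsRho_hasCompactSupport k⟩

theorem wsRho_eq_zero {k : ℕ} {x : E} (hx : 1 / ((k : ℝ) + 1) ≤ ‖x‖) : wsRho k x = 0 := by
  by_contra h
  have : x ∈ Function.support (wsRho k : E → ℝ) := h
  rw [wsRho_support] at this
  simp at this
  simp at hx
  linarith

theorem wsMol_eq (k : ℕ) (f : E → F) (x : E) : wsMol k f x = ∫ y, wsRho k (x - y) • f y := by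
  unfold wsMol
  rw [convolution_lsmul_swap]

theorem wsMol_eq' (k : ℕ) (f : E → F) (x : E) : wsMol k f x = ∫ y, wsRho k y • f (x - y) := by
  unfold wsMol
  rw [convolution_lsmul]

theorem wsMol_exists (k : ℕ) {f : E → F} (hf : LocallyIntegrable f volume) :
    ConvolutionExists (wsRho k : E → ℝ) f (lsmul ℝ ℝ) volume :=
  (wsRho_hasCompactSupport k).convolutionExists_left _ (wsRho_contDiff k).continuous hf

theorem wsMol_integrable_swap (k : ℕ) {f : E → F} (hf : LocallyIntegrable f volume) (x : E) :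
    Integrable (fun y => wsRho k (x - y) • f y) volume :=
  (wsMol_exists k hf x).integrable_swap

theorem wsMol_integrable' (k : ℕ) {f : E → F} (hf : LocallyIntegrable f volume) (x : E) :
    Integrable (fun y => wsRho k y • f (x - y)) volume :=
  (wsMol_exists k hf x).integrable

theorem wsMol_contDiff (k : ℕ) {f : E → F} (hf : LocallyIntegrable f volume) :
    ContDiff ℝ ∞ (wsMol k f) :=
  (wsRho_hasCompactSupport k).contDiff_convolution_left _ (wsRho_contDiff k) hf

theorem wsMol_hasCompactSupport (k : ℕ) {f : E → F} (hf : HasCompactSupport f) :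
    HasCompactSupport (wsMol k f) :=
  (wsRho_hasCompactSupport k).convolution _ hf

theorem wsMol_tendsto_ae {f : E → F} (hf : LocallyIntegrable f volume) :
    ∀ᵐ x, Tendsto (fun k => wsMol k f x) atTop (𝓝 (f x)) := by
  refine ContDiffBump.ae_convolution_tendsto_right_of_locallyIntegrable (K := 2)
    (φ := fun k => (wsB k : ContDiffBump (0 : E))) wsB_rOut_tendsto ?_ hf
  refine Eventually.of_forall fun k => ?_
  show 1 / ((k : ℝ) + 1) ≤ 2 * (1 / (2 * ((k : ℝ) + 1)))
  have h : (0:ℝ) < (k:ℝ) + 1 := by positivity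
  field_simp
  exact le_refl _

theorem wsMol_congr (k : ℕ) {f f' : E → F} (h : f =ᵐ[volume] f') : wsMol k f = wsMol k f' := by
  funext x
  rw [wsMol_eq, wsMol_eq]
  refine integral_congr_ae ?_
  filter_upwards [h] with y hy
  rw [hy]

theorem wsRho_integral_sub (k : ℕ) (x : E) : ∫ y, wsRho k (x - y) = 1 := by
  rw [integral_sub_left_eq_self (fun y => wsRho k y) volume x]
  exact wsRho_integral k

theorem wsRho_integrable_sub (k : ℕ) (x : E) : Integrable (fun y => wsRho k (x - y)) volume :=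
  (wsRho_integrable k).comp_sub_left x

theorem wsMol_nonneg (k : ℕ) {f : E → ℝ} (hf : ∀ᵐ x, 0 ≤ f x) (x : E) : 0 ≤ wsMol k f x := by
  rw [wsMol_eq]
  refine integral_nonneg_of_ae ?_
  filter_upwards [hf] with y hy
  exact mul_nonneg (wsRho_nonneg k _) hy

theorem wsMol_norm_le (k : ℕ) {f : E → F} {C : ℝ} (hf : ∀ᵐ x, ‖f x‖ ≤ C) (x : E) :
    ‖wsMol k f x‖ ≤ C := by
  rw [wsMol_eq]
  have h1 : ‖∫ y, wsRho k (x - y) • f y‖ ≤ ∫ y, wsRho k (x - y) * C := by
    refine norm_integral_le_of_norm_le ((wsRho_integrable_sub k x).mul_const C) ?_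
    filter_upwards [hf] with y hy
    rw [norm_smul, Real.norm_of_nonneg (wsRho_nonneg k _)]
    exact mul_le_mul_of_nonneg_left hy (wsRho_nonneg k _)
  rw [integral_mul_const, wsRho_integral_sub, one_mul] at h1
  exact h1

theorem wsMol_add (k : ℕ) {f g : E → F} (hf : LocallyIntegrable f volume)
    (hg : LocallyIntegrable g volume) :
    wsMol k (fun x => f x + g x) = fun x => wsMol k f x + wsMol k g x := by
  funext x
  simp only [wsMol_eq, smul_add]
  exact integral_add (wsMol_integrable_swap k hf x) (wsMol_integrable_swap k hg x)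

theorem wsMol_sub (k : ℕ) {f g : E → F} (hf : LocallyIntegrable f volume)
    (hg : LocallyIntegrable g volume) :
    wsMol k (fun x => f x - g x) = fun x => wsMol k f x - wsMol k g x := by
  funext x
  simp only [wsMol_eq, smul_sub]
  exact integral_sub (wsMol_integrable_swap k hf x) (wsMol_integrable_swap k hg x)

theorem wsMol_smul (k : ℕ) (c : ℝ) (f : E → F) :
    wsMol k (fun x => c • f x) = fun x => c • wsMol k f x := by
  funext x
  simp only [wsMol_eq]
  rw [← integral_smul]
  refine integral_congr_ae (Eventually.of_forall fun y => ?_)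
  simp only [smul_comm c]

theorem wsMol_const (k : ℕ) (c : F) : wsMol k (fun _ : E => c) = fun _ => c := by
  funext x
  rw [wsMol_eq, integral_smul_const, wsRho_integral_sub, one_smul]

/-- a continuous linear map commutes with mollification. -/
theorem wsMol_clm {F' : Type} [NormedAddCommGroup F'] [NormedSpace ℝ F'] [CompleteSpace F']
    (k : ℕ) (L : F →L[ℝ] F') {f : E → F} (hf : LocallyIntegrable f volume) :
    wsMol k (fun x => L (f x)) = fun x => L (wsMol k f x) := by
  funext x
  simp only [wsMol_eq]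
  rw [← L.integral_comp_comm (wsMol_integrable_swap k hf x)]
  simp

theorem wsMol_le (k : ℕ) {f : E → ℝ} (hf : LocallyIntegrable f volume) {C : ℝ}
    (hC : ∀ᵐ x, f x ≤ C) (x : E) : wsMol k f x ≤ C := by
  have h := wsMol_nonneg k (f := fun x => C - f x) (by filter_upwards [hC] with y hy; linarith) x
  rw [wsMol_sub k (locallyIntegrable_const C) hf, wsMol_const] at h
  linarith

theorem wsMol_ge (k : ℕ) {f : E → ℝ} (hf : LocallyIntegrable f volume) {C : ℝ}
    (hC : ∀ᵐ x, C ≤ f x) (x : E) : C ≤ wsMol k f x := by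
  have h := wsMol_nonneg k (f := fun x => f x - C) (by filter_upwards [hC] with y hy; linarith) x
  rw [wsMol_sub k hf (locallyIntegrable_const C), wsMol_const] at h
  linarith

theorem wsMol_dist_le (k : ℕ) {f : E → F} (hf : AEStronglyMeasurable f volume) {x : E} {ε : ℝ}
    (h : ∀ y ∈ Metric.ball x (1 / ((k : ℝ) + 1)), dist (f y) (f x) ≤ ε) :
    dist (wsMol k f x) (f x) ≤ ε :=
  (wsB k).dist_normed_convolution_le hf h

theorem wsMol_tendstoUniformly {f : E → F} (hf : UniformContinuous f) :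
    TendstoUniformly (fun k => wsMol k f) f atTop := by
  rw [Metric.tendstoUniformly_iff]
  intro ε hε
  obtain ⟨δ, hδ, hd⟩ := Metric.uniformContinuous_iff.1 hf (ε / 2) (half_pos hε)
  have h1 : ∀ᶠ k : ℕ in atTop, 1 / ((k : ℝ) + 1) < δ :=
    (tendsto_one_div_add_atTop_nhds_zero_nat (𝕜 := ℝ)).eventually (gt_mem_nhds hδ)
  filter_upwards [h1] with k hk x
  rw [dist_comm]
  refine lt_of_le_of_lt (wsMol_dist_le k hf.continuous.aestronglyMeasurable ?_) (half_lt_self hε)
  intro y hy
  exact (hd (lt_trans (Metric.mem_ball.1 hy) hk)).le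

/-- the value of the mollification at `x` depends only on `f` near `x`. -/
theorem wsMol_eq_of_eqOn (k : ℕ) {f f' : E → F} {x : E}
    (h : ∀ y ∈ Metric.ball x (1 / ((k : ℝ) + 1)), f y = f' y) : wsMol k f x = wsMol k f' x := by
  rw [wsMol_eq, wsMol_eq]
  refine integral_congr_ae (Eventually.of_forall fun y => ?_)
  by_cases hy : y ∈ Metric.ball x (1 / ((k : ℝ) + 1))
  · simp only [h y hy]
  · have : wsRho k (x - y) = 0 := by
      apply wsRho_eq_zero
      rw [Metric.mem_ball, dist_comm, dist_eq_norm] at hy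
      exact not_lt.1 hy
    simp only [this, zero_smul]

theorem wsMol_eq_zero_of (k : ℕ) {f : E → F} {x : E}
    (h : ∀ y ∈ Metric.ball x (1 / ((k : ℝ) + 1)), f y = 0) : wsMol k f x = 0 := by
  rw [wsMol_eq_of_eqOn k (f' := fun _ => 0) h, wsMol_const]

/-- support control: the mollification vanishes off the `1`-thickening. -/
theorem wsMol_support_subset (k : ℕ) (f : E → F) :
    Function.support (wsMol k f) ⊆ Metric.cthickening 1 (tsupport f) := by
  intro x hx
  by_contra hx'
  apply hx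
  apply wsMol_eq_zero_of
  intro y hy
  by_contra hy'
  apply hx'
  have h1 : y ∈ tsupport f := subset_tsupport _ hy'
  refine Metric.mem_cthickening_of_dist_le x y 1 _ h1 ?_
  rw [dist_comm]
  exact (Metric.mem_ball.1 hy).le.trans (wsB_rOut_le_one (E := E) k)

/-- the probability measure `ρ_k dx`. -/
noncomputable def wsNu (k : ℕ) : Measure E :=
  volume.withDensity (fun y => ENNReal.ofReal (wsRho k y))

instance wsNu_prob (k : ℕ) : IsProbabilityMeasure (wsNu k : Measure E) := by
  constructor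
  unfold wsNu
  rw [withDensity_apply _ MeasurableSet.univ, Measure.restrict_univ,
    ← ofReal_integral_eq_lintegral_ofReal (wsRho_integrable k)
      (Eventually.of_forall (wsRho_nonneg k)), wsRho_integral, ENNReal.ofReal_one]

theorem wsMol_enorm_le (k : ℕ) {f : E → F} (hf : StronglyMeasurable f) (x : E) :
    ‖wsMol k f x‖ₑ ≤ ∫⁻ y, ‖f (x - y)‖ₑ ∂(wsNu k) := by
  rw [wsMol_eq']
  refine (enorm_integral_le_lintegral_enorm _).trans ?_
  unfold wsNu
  have hm : Measurable fun y => ‖f (x - y)‖ₑ :=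
    (hf.comp_measurable (measurable_const.sub measurable_id)).enorm
  rw [lintegral_withDensity_eq_lintegral_mul _
    (wsRho_contDiff k).continuous.measurable.ennreal_ofReal hm]
  refine le_of_eq (lintegral_congr fun y => ?_)
  rw [enorm_smul, Pi.mul_apply, Real.enorm_of_nonneg (wsRho_nonneg k y)]

theorem wsMol_enorm_rpow_le (k : ℕ) {p : ℝ} (hp : 1 ≤ p) {f : E → F} (hf : StronglyMeasurable f)
    (x : E) : ‖wsMol k f x‖ₑ ^ p ≤ ∫⁻ y, ‖f (x - y)‖ₑ ^ p ∂(wsNu k) := by
  have hp0 : 0 < p := lt_of_lt_of_le one_pos hp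
  have hm : StronglyMeasurable fun y => f (x - y) :=
    hf.comp_measurable (measurable_const.sub measurable_id)
  have h1 := eLpNorm'_le_eLpNorm'_of_exponent_le (f := fun y => f (x - y)) one_pos hp
    (wsNu k : Measure E) hm.aestronglyMeasurable
  simp only [eLpNorm', ENNReal.rpow_one, div_one] at h1
  calc ‖wsMol k f x‖ₑ ^ p ≤ (∫⁻ y, ‖f (x - y)‖ₑ ∂(wsNu k)) ^ p :=
        ENNReal.rpow_le_rpow (wsMol_enorm_le k hf x) hp0.le
    _ ≤ ((∫⁻ y, ‖f (x - y)‖ₑ ^ p ∂(wsNu k)) ^ (1 / p)) ^ p := ENNReal.rpow_le_rpow h1 hp0.le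
    _ = ∫⁻ y, ‖f (x - y)‖ₑ ^ p ∂(wsNu k) := by
        rw [← ENNReal.rpow_mul, one_div, inv_mul_cancel₀ hp0.ne', ENNReal.rpow_one]

/-- YOUNG's inequality for the mollifier. -/
theorem wsMol_lintegral_rpow_le (k : ℕ) {p : ℝ} (hp : 1 ≤ p) {f : E → F}
    (hf : AEStronglyMeasurable f volume) :
    ∫⁻ x, ‖wsMol k f x‖ₑ ^ p ≤ ∫⁻ x, ‖f x‖ₑ ^ p := by
  have hp0 : 0 < p := lt_of_lt_of_le one_pos hp
  set f' := hf.mk f with hf'
  have hsm : StronglyMeasurable f' := hf.stronglyMeasurable_mk
  have hae : f =ᵐ[volume] f' := hf.ae_eq_mk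
  rw [wsMol_congr k hae]
  have hR : ∫⁻ x, ‖f x‖ₑ ^ p = ∫⁻ x, ‖f' x‖ₑ ^ p := by
    refine lintegral_congr_ae ?_
    filter_upwards [hae] with x hx
    rw [hx]
  rw [hR]
  have hm2 : Measurable (Function.uncurry fun (x y : E) => ‖f' (x - y)‖ₑ ^ p) := by
    have : StronglyMeasurable fun z : E × E => f' (z.1 - z.2) :=
      hsm.comp_measurable (measurable_fst.sub measurable_snd)
    exact this.enorm.pow_const p
  calc ∫⁻ x, ‖wsMol k f' x‖ₑ ^ p ≤ ∫⁻ x, ∫⁻ y, ‖f' (x - y)‖ₑ ^ p ∂(wsNu k) :=
        lintegral_mono fun x => wsMol_enorm_rpow_le k hp hsm x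
    _ = ∫⁻ y, (∫⁻ x, ‖f' (x - y)‖ₑ ^ p) ∂(wsNu k) := lintegral_lintegral_swap hm2.aemeasurable
    _ = ∫⁻ y, (∫⁻ x, ‖f' x‖ₑ ^ p) ∂(wsNu k) := by
        refine lintegral_congr fun y => ?_
        exact lintegral_sub_right_eq_self (fun x => ‖f' x‖ₑ ^ p) y
    _ = ∫⁻ x, ‖f' x‖ₑ ^ p := by
        rw [lintegral_const, measure_univ, mul_one]

theorem wsMol_eLpNorm_le (k : ℕ) {p : ℝ≥0∞} (hp : 1 ≤ p) (hp' : p ≠ ⊤) {f : E → F}
    (hf : AEStronglyMeasurable f volume) :
    eLpNorm (wsMol k f) p volume ≤ eLpNorm f p volume := by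
  have hp0 : p ≠ 0 := (lt_of_lt_of_le one_pos hp).ne'
  rw [eLpNorm_eq_lintegral_rpow_enorm_toReal hp0 hp', eLpNorm_eq_lintegral_rpow_enorm_toReal hp0 hp']
  refine ENNReal.rpow_le_rpow (wsMol_lintegral_rpow_le k ?_ hf) (by positivity)
  rw [← ENNReal.toReal_one]
  exact ENNReal.toReal_mono hp' hp


theorem wsMol_aestronglyMeasurable (k : ℕ) {f : E → F} (hf : LocallyIntegrable f volume) :
    AEStronglyMeasurable (wsMol k f) volume :=
  (wsMol_contDiff k hf).continuous.aestronglyMeasurable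

theorem wsMol_memLp (k : ℕ) {p : ℝ≥0∞} (hp : 1 ≤ p) (hp' : p ≠ ⊤) {f : E → F}
    (hf : MemLp f p volume) : MemLp (wsMol k f) p volume :=
  ⟨wsMol_aestronglyMeasurable k (hf.locallyIntegrable hp),
    (wsMol_eLpNorm_le k hp hp' hf.1).trans_lt hf.2⟩

/-- mollification of a continuous compactly supported function converges in `L^p`. -/
theorem wsMol_tendsto_eLpNorm_of_continuous {p : ℝ≥0∞} {h : E → F}
    (hc : Continuous h) (hs : HasCompactSupport h) :
    Tendsto (fun k => eLpNorm (fun x => wsMol k h x - h x) p volume) atTop (𝓝 0) := by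
  set K := Metric.cthickening 1 (tsupport h) with hK
  have hKc : IsCompact K := hs.isCompact.cthickening
  have hsub : ∀ k, Function.support (fun x => wsMol k h x - h x) ⊆ K := by
    intro k x hx
    by_contra hx'
    apply hx
    have h1 : wsMol k h x = 0 := by
      by_contra h0
      exact hx' (wsMol_support_subset k h h0)
    have h2 : h x = 0 := by
      by_contra h0
      exact hx' (Metric.self_subset_cthickening _ (subset_tsupport _ h0))
    simp [h1, h2]
  have hunif := Metric.tendstoUniformly_iff.1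
    (wsMol_tendstoUniformly (hs.uniformContinuous_of_continuous hc))
  have hfin : volume K ^ p.toReal⁻¹ ≠ ⊤ :=
    ENNReal.rpow_ne_top_of_nonneg (by positivity) hKc.measure_lt_top.ne
  rw [ENNReal.tendsto_nhds_zero]
  intro ε hε
  -- choose δ with vol(K)^(1/p) * δ ≤ ε
  obtain ⟨δ, hδ, hδε⟩ : ∃ δ : ℝ, 0 < δ ∧ volume K ^ p.toReal⁻¹ * ENNReal.ofReal δ ≤ ε := by
    have ht : Tendsto (fun δ : ℝ => volume K ^ p.toReal⁻¹ * ENNReal.ofReal δ) (𝓝[>] 0) (𝓝 0) := by
      have h1 : Tendsto (fun δ : ℝ => ENNReal.ofReal δ) (𝓝 0) (𝓝 0) := by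
        simpa using (ENNReal.continuous_ofReal.tendsto 0)
      have h2 := ENNReal.Tendsto.const_mul (a := volume K ^ p.toReal⁻¹) h1 (Or.inr hfin)
      rw [mul_zero] at h2
      exact h2.mono_left nhdsWithin_le_nhds
    have h3 := (ht.eventually (ge_mem_nhds hε)).and self_mem_nhdsWithin
    obtain ⟨δ, h4, h5⟩ := h3.exists
    exact ⟨δ, h5, h4⟩
  filter_upwards [hunif δ hδ] with k hk
  rw [← eLpNorm_restrict_eq_of_support_subset (hsub k)]
  refine (eLpNorm_le_of_ae_bound (C := δ) (Eventually.of_forall fun x => ?_)).trans ?_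
  · have := hk x
    rw [dist_comm, dist_eq_norm] at this
    exact this.le
  · rw [Measure.restrict_apply MeasurableSet.univ, Set.univ_inter]
    exact hδε

/-- mollification converges in `L^p`, `1 ≤ p < ∞`. -/
theorem wsMol_tendsto_eLpNorm {p : ℝ≥0∞} (hp : 1 ≤ p) (hp' : p ≠ ⊤) {f : E → F}
    (hf : MemLp f p volume) :
    Tendsto (fun k => eLpNorm (fun x => wsMol k f x - f x) p volume) atTop (𝓝 0) := by
  rw [ENNReal.tendsto_nhds_zero]
  intro ε hε
  have hε3 : ε / 3 ≠ 0 := (ENNReal.div_pos hε.ne' (by simp)).ne'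
  obtain ⟨h, hs, hfh, hc, hm⟩ := hf.exists_hasCompactSupport_eLpNorm_sub_le hp' hε3
  have hfl := hf.locallyIntegrable hp
  have hhl := hm.locallyIntegrable hp
  have h1 := (ENNReal.tendsto_nhds_zero.1
    (wsMol_tendsto_eLpNorm_of_continuous (p := p) hc hs)) (ε / 3) (pos_iff_ne_zero.2 hε3)
  filter_upwards [h1] with k hk
  have hdec : (fun x => wsMol k f x - f x) =
      (wsMol k (fun x => f x - h x) + (fun x => wsMol k h x - h x)) + (fun x => h x - f x) := by
    funext x
    simp only [Pi.add_apply, wsMol_sub k hfl hhl]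
    abel
  have hfh' : eLpNorm (fun x => f x - h x) p volume ≤ ε / 3 := hfh
  have hfh'' : eLpNorm (fun x => h x - f x) p volume ≤ ε / 3 := by
    have : (fun x => h x - f x) = -(fun x => f x - h x) := by
      funext x; simp
    rw [this, eLpNorm_neg]
    exact hfh'
  have hsubm : AEStronglyMeasurable (fun x => f x - h x) volume := hf.1.sub hm.1
  rw [hdec]
  calc eLpNorm ((wsMol k (fun x => f x - h x) + (fun x => wsMol k h x - h x))
          + (fun x => h x - f x)) p volume
      ≤ eLpNorm (wsMol k (fun x => f x - h x) + (fun x => wsMol k h x - h x)) p volume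
          + eLpNorm (fun x => h x - f x) p volume :=
        eLpNorm_add_le (((wsMol_aestronglyMeasurable k (hfl.sub hhl))).add
          ((wsMol_aestronglyMeasurable k hhl).sub hm.1)) (hm.1.sub hf.1) hp
    _ ≤ (eLpNorm (wsMol k (fun x => f x - h x)) p volume
          + eLpNorm (fun x => wsMol k h x - h x) p volume)
          + eLpNorm (fun x => h x - f x) p volume := by
        gcongr
        exact eLpNorm_add_le (wsMol_aestronglyMeasurable k (hfl.sub hhl))
          ((wsMol_aestronglyMeasurable k hhl).sub hm.1) hp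
    _ ≤ (ε / 3 + ε / 3) + ε / 3 := by
        gcongr
        exact (wsMol_eLpNorm_le k hp hp' hsubm).trans hfh'
    _ = ε := by
        rw [← two_mul, ← add_one_mul]
        norm_num
        exact ENNReal.mul_div_cancel (by simp) (by simp)

end Claimed.Agent.R259
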