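/-
Row 259, kit WS: `L¹_loc` convergence, closure of the weak gradient relation, mollification of weak
gradients.   Owner: helper217.
-/
import Claimed.Agent.R259.WsMol

set_option autoImplicit false
set_option linter.unusedSectionVars false

open MeasureTheory Filter Topology
open scoped ContDiff ENNReal NNReal

namespace Claimed.Agent.R259

variable {E : Type} [NormedAddCommGroup E] [InnerProductSpace ℝ E] [FiniteDimensional ℝ E]
  [MeasurableSpace E] [BorelSpace E]
variable {F : Type} [NormedAddCommGroup F] [NormedSpace ℝ F] [CompleteSpace F]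

/-- convergence in `L¹_loc(dx)`. -/
def WsLoc (f : ℕ → E → F) (g : E → F) : Prop :=
  ∀ K : Set E, IsCompact K → Tendsto (fun k => ∫⁻ x in K, ‖f k x - g x‖ₑ) atTop (𝓝 0)

theorem wsLoc_of_le {F' : Type} [NormedAddCommGroup F'] {f : ℕ → E → F} {g : E → F}
    {f' : ℕ → E → F'} {g' : E → F'} {C : ℝ≥0∞} (hC : C ≠ ⊤) (h : WsLoc f' g')
    (hle : ∀ k, ∀ᵐ x, ‖f k x - g x‖ₑ ≤ C * ‖f' k x - g' x‖ₑ) : WsLoc f g := by
  intro K hK
  have h2 : Tendsto (fun k => C * ∫⁻ x in K, ‖f' k x - g' x‖ₑ) atTop (𝓝 0) := by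
    have := ENNReal.Tendsto.const_mul (a := C) (h K hK) (Or.inr hC)
    simpa using this
  refine tendsto_of_tendsto_of_tendsto_of_le_of_le tendsto_const_nhds h2 (fun _ => zero_le) ?_
  intro k
  show ∫⁻ x in K, ‖f k x - g x‖ₑ ≤ C * ∫⁻ x in K, ‖f' k x - g' x‖ₑ
  rw [← lintegral_const_mul' _ _ hC]
  exact lintegral_mono_ae (ae_restrict_of_ae (hle k))

theorem WsLoc.add {f f' : ℕ → E → F} {g g' : E → F} (h : WsLoc f g) (h' : WsLoc f' g')
    (hm : ∀ k, AEStronglyMeasurable (fun x => f k x - g x) volume) :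
    WsLoc (fun k x => f k x + f' k x) (fun x => g x + g' x) := by
  intro K hK
  have h2 := (h K hK).add (h' K hK)
  rw [add_zero] at h2
  refine tendsto_of_tendsto_of_tendsto_of_le_of_le tendsto_const_nhds h2 (fun _ => zero_le) ?_
  intro k
  show ∫⁻ x in K, ‖f k x + f' k x - (g x + g' x)‖ₑ
    ≤ (∫⁻ x in K, ‖f k x - g x‖ₑ) + ∫⁻ x in K, ‖f' k x - g' x‖ₑ
  rw [← lintegral_add_left' (hm k).restrict.enorm]
  refine lintegral_mono fun x => ?_
  have : f k x + f' k x - (g x + g' x) = (f k x - g x) + (f' k x - g' x) := by abel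
  rw [this]
  exact enorm_add_le _ _

theorem wsLoc_of_dominated {f : ℕ → E → F} {g : E → F} {bound : E → ℝ}
    (hm : ∀ k, AEStronglyMeasurable (f k) volume) (hb : LocallyIntegrable bound volume)
    (hle : ∀ k, ∀ᵐ x, ‖f k x‖ ≤ bound x)
    (hlim : ∀ᵐ x, Tendsto (fun k => f k x) atTop (𝓝 (g x))) : WsLoc f g := by
  intro K hK
  have := tendsto_lintegral_norm_of_dominated_convergence (μ := volume.restrict K)
    (fun k => (hm k).restrict) (hb.integrableOn_isCompact hK).2
    (fun k => ae_restrict_of_ae (hle k)) (ae_restrict_of_ae hlim)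
  simpa only [ofReal_norm] using this

theorem wsLoc_mol {f : E → F} (hf : LocallyIntegrable f volume) :
    WsLoc (fun k => wsMol k f) f := by
  intro K hK
  set K' := Metric.cthickening 1 K with hK'
  have hK'c : IsCompact K' := hK.cthickening
  set f' : E → F := K'.indicator f with hf'
  have hf'i : Integrable f' volume :=
    (hf.integrableOn_isCompact hK'c).integrable_indicator hK'c.measurableSet
  have h1 := wsMol_tendsto_eLpNorm (p := 1) le_rfl (by simp) (memLp_one_iff_integrable.2 hf'i)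
  simp only [eLpNorm_one_eq_lintegral_enorm] at h1
  refine tendsto_of_tendsto_of_tendsto_of_le_of_le tendsto_const_nhds h1 (fun _ => zero_le) ?_
  intro k
  show ∫⁻ x in K, ‖wsMol k f x - f x‖ₑ ≤ ∫⁻ x, ‖wsMol k f' x - f' x‖ₑ
  refine le_trans (le_of_eq ?_) (setLIntegral_le_lintegral K _)
  refine setLIntegral_congr_fun hK.measurableSet fun x hx => ?_
  have e1 : f' x = f x :=
    Set.indicator_of_mem (Metric.self_subset_cthickening K hx) f
  have e2 : wsMol k f x = wsMol k f' x := by
    refine wsMol_eq_of_eqOn k fun y hy => ?_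
    refine (Set.indicator_of_mem ?_ f).symm
    refine Metric.mem_cthickening_of_dist_le y x 1 K hx ?_
    exact (Metric.mem_ball.1 hy).le.trans (wsB_rOut_le_one (E := E) k)
  rw [e1, e2]

theorem WsLoc.tendsto_integral_smul {f : ℕ → E → F} {g : E → F} (h : WsLoc f g)
    (hf : ∀ k, LocallyIntegrable (f k) volume) (hg : LocallyIntegrable g volume) {ζ : E → ℝ}
    (hζ : Continuous ζ) (hc : HasCompactSupport ζ) :
    Tendsto (fun k => ∫ x, ζ x • f k x) atTop (𝓝 (∫ x, ζ x • g x)) := by
  obtain ⟨M, hM⟩ := hc.exists_bound_of_continuous hζ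
  refine tendsto_integral_of_L1 _
    (hg.integrable_smul_left_of_hasCompactSupport hζ hc).aestronglyMeasurable
    (Eventually.of_forall fun k => (hf k).integrable_smul_left_of_hasCompactSupport hζ hc) ?_
  have h2 : Tendsto (fun k => ENNReal.ofReal M * ∫⁻ x in tsupport ζ, ‖f k x - g x‖ₑ) atTop
      (𝓝 0) := by
    have := ENNReal.Tendsto.const_mul (a := ENNReal.ofReal M) (h _ hc.isCompact)
      (Or.inr ENNReal.ofReal_ne_top)
    simpa using this
  refine tendsto_of_tendsto_of_tendsto_of_le_of_le tendsto_const_nhds h2 (fun _ => zero_le) ?_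
  intro k
  show ∫⁻ x, ‖ζ x • f k x - ζ x • g x‖ₑ ≤ ENNReal.ofReal M * ∫⁻ x in tsupport ζ, ‖f k x - g x‖ₑ
  rw [← lintegral_const_mul' _ _ ENNReal.ofReal_ne_top,
    ← lintegral_indicator hc.isCompact.measurableSet]
  refine lintegral_mono fun x => ?_
  by_cases hx : x ∈ tsupport ζ
  · rw [Set.indicator_of_mem hx, ← smul_sub, enorm_smul]
    gcongr
    rw [← ofReal_norm]
    exact ENNReal.ofReal_le_ofReal (hM x)
  · rw [image_eq_zero_of_notMem_tsupport hx]
    simp

theorem WsLoc.tendsto_integral_smul' {u : ℕ → E → ℝ} {v : E → ℝ} (h : WsLoc u v)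
    (hf : ∀ k, LocallyIntegrable (u k) volume) (hg : LocallyIntegrable v volume) {Z : E → F}
    (hZ : Continuous Z) (hc : HasCompactSupport Z) :
    Tendsto (fun k => ∫ x, u k x • Z x) atTop (𝓝 (∫ x, v x • Z x)) := by
  obtain ⟨M, hM⟩ := hc.exists_bound_of_continuous hZ
  refine tendsto_integral_of_L1 _
    (hg.integrable_smul_right_of_hasCompactSupport hZ hc).aestronglyMeasurable
    (Eventually.of_forall fun k => (hf k).integrable_smul_right_of_hasCompactSupport hZ hc) ?_
  have h2 : Tendsto (fun k => ENNReal.ofReal M * ∫⁻ x in tsupport Z, ‖u k x - v x‖ₑ) atTop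
      (𝓝 0) := by
    have := ENNReal.Tendsto.const_mul (a := ENNReal.ofReal M) (h _ hc.isCompact)
      (Or.inr ENNReal.ofReal_ne_top)
    simpa using this
  refine tendsto_of_tendsto_of_tendsto_of_le_of_le tendsto_const_nhds h2 (fun _ => zero_le) ?_
  intro k
  show ∫⁻ x, ‖u k x • Z x - v x • Z x‖ₑ ≤ ENNReal.ofReal M * ∫⁻ x in tsupport Z, ‖u k x - v x‖ₑ
  rw [← lintegral_const_mul' _ _ ENNReal.ofReal_ne_top,
    ← lintegral_indicator hc.isCompact.measurableSet]
  refine lintegral_mono fun x => ?_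
  by_cases hx : x ∈ tsupport Z
  · rw [Set.indicator_of_mem hx, ← sub_smul, enorm_smul, mul_comm]
    gcongr
    rw [← ofReal_norm]
    exact ENNReal.ofReal_le_ofReal (hM x)
  · rw [image_eq_zero_of_notMem_tsupport hx]
    simp

/-- CLOSURE of the weak gradient relation under `L¹_loc` convergence. -/
theorem ws_weakGrad_of_loc {u : ℕ → E → ℝ} {g : ℕ → E → E} {u' : E → ℝ} {g' : E → E}
    (hk : ∀ k, WeakGrad (u k) (g k)) (hu : LocallyIntegrable u' volume)
    (hg : LocallyIntegrable g' volume) (h1 : WsLoc u u') (h2 : WsLoc g g') : WeakGrad u' g' := by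
  refine ⟨hu, hg, fun ζ hζ => ?_⟩
  have hgc : Continuous (gradient ζ) := by
    have : Continuous (fderiv ℝ ζ) := hζ.1.continuous_fderiv (by simp)
    exact (InnerProductSpace.toDual ℝ E).symm.continuous.comp this
  have hgs : HasCompactSupport (gradient ζ) := by
    have : HasCompactSupport (fderiv ℝ ζ) := hζ.2.fderiv ℝ
    exact this.comp_left (g := (InnerProductSpace.toDual ℝ E).symm) (map_zero _)
  have t1 := h1.tendsto_integral_smul' (fun k => (hk k).1) hu hgc hgs
  have t2 := (h2.tendsto_integral_smul (fun k => (hk k).2.1) hg hζ.1.continuous hζ.2).neg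
  have e : (fun k => ∫ x, u k x • gradient ζ x) = fun k => - ∫ x, ζ x • g k x := by
    funext k
    exact (hk k).2.2 ζ hζ
  rw [e] at t1
  exact tendsto_nhds_unique t1 t2

end Claimed.Agent.R259
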