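/-
Row 259, kit WS: weak gradients, local theory.   Owner: helper217.
-/
import Claimed.Agent.R259.WsLoc

set_option autoImplicit false
set_option linter.unusedSectionVars false

open MeasureTheory Filter Topology
open scoped ContDiff ENNReal NNReal Convolution

namespace Claimed.Agent.R259

variable {E : Type} [NormedAddCommGroup E] [InnerProductSpace ℝ E] [FiniteDimensional ℝ E]
  [MeasurableSpace E] [BorelSpace E]

theorem ws_gradient_continuous {ζ : E → ℝ} (hζ : ContDiff ℝ 1 ζ) : Continuous (gradient ζ) := by
  have : Continuous (fderiv ℝ ζ) := hζ.continuous_fderiv (by simp)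
  exact (InnerProductSpace.toDual ℝ E).symm.continuous.comp this

theorem ws_gradient_hasCompactSupport {ζ : E → ℝ} (hc : HasCompactSupport ζ) :
    HasCompactSupport (gradient ζ) := by
  have : HasCompactSupport (fderiv ℝ ζ) := hc.fderiv ℝ
  exact this.comp_left (g := (InnerProductSpace.toDual ℝ E).symm) (map_zero _)

theorem ws_inner_integral_smul {u : E → ℝ} {Z : E → E} (h : Integrable (fun x => u x • Z x) volume)
    (v : E) : inner ℝ (∫ x, u x • Z x) v = ∫ x, u x * inner ℝ (Z x) v := by
  rw [real_inner_comm, ← integral_inner h v]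
  refine integral_congr_ae (Eventually.of_forall fun x => ?_)
  simp only [inner_smul_right, real_inner_comm]

/-- directional form of the weak gradient identity, for `C¹` tests once the vector identity is
known. -/
theorem ws_dir_of_vec {u ζ : E → ℝ} {g : E → E} (hu : LocallyIntegrable u volume)
    (hg : LocallyIntegrable g volume) (hζ : ContDiff ℝ 1 ζ) (hc : HasCompactSupport ζ)
    (h : ∫ x, u x • gradient ζ x = - ∫ x, ζ x • g x) (v : E) :
    ∫ x, u x * fderiv ℝ ζ x v = - ∫ x, ζ x * inner ℝ (g x) v := by
  have i1 : Integrable (fun x => u x • gradient ζ x) volume :=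
    hu.integrable_smul_right_of_hasCompactSupport (ws_gradient_continuous hζ)
      (ws_gradient_hasCompactSupport hc)
  have i2 : Integrable (fun x => ζ x • g x) volume :=
    hg.integrable_smul_left_of_hasCompactSupport hζ.continuous hc
  have := congrArg (fun w => inner ℝ w v) h
  simp only [inner_neg_left, ws_inner_integral_smul i1, ws_inner_integral_smul i2,
    inner_gradient_left] at this
  exact this

theorem ws_vec_of_dir {u ζ : E → ℝ} {g : E → E} (hu : LocallyIntegrable u volume)
    (hg : LocallyIntegrable g volume) (hζ : ContDiff ℝ 1 ζ) (hc : HasCompactSupport ζ)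
    (h : ∀ v : E, ∫ x, u x * fderiv ℝ ζ x v = - ∫ x, ζ x * inner ℝ (g x) v) :
    ∫ x, u x • gradient ζ x = - ∫ x, ζ x • g x := by
  have i1 : Integrable (fun x => u x • gradient ζ x) volume :=
    hu.integrable_smul_right_of_hasCompactSupport (ws_gradient_continuous hζ)
      (ws_gradient_hasCompactSupport hc)
  have i2 : Integrable (fun x => ζ x • g x) volume :=
    hg.integrable_smul_left_of_hasCompactSupport hζ.continuous hc
  refine ext_inner_right ℝ fun v => ?_
  simp only [inner_neg_left, ws_inner_integral_smul i1, ws_inner_integral_smul i2,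
    inner_gradient_left]
  exact h v

theorem ws_weakGrad_dir {u : E → ℝ} {g : E → E} (h : WeakGrad u g) {ζ : E → ℝ} (hζ : IsTest ζ)
    (v : E) : ∫ x, u x * fderiv ℝ ζ x v = - ∫ x, ζ x * inner ℝ (g x) v :=
  ws_dir_of_vec h.1 h.2.1 (hζ.1.of_le (by simp)) hζ.2 (h.2.2 ζ hζ) v

/-- classical integration by parts against a `C¹` compactly supported function. -/
theorem ws_ibp_C1 {u ζ : E → ℝ} (hu : ContDiff ℝ 1 u) (hζ : ContDiff ℝ 1 ζ)
    (hc : HasCompactSupport ζ) : ∫ x, u x • gradient ζ x = - ∫ x, ζ x • gradient u x := by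
  have hul : LocallyIntegrable u volume := hu.continuous.locallyIntegrable
  have hgl : LocallyIntegrable (gradient u) volume :=
    (ws_gradient_continuous hu).locallyIntegrable
  refine ws_vec_of_dir hul hgl hζ hc fun v => ?_
  simp only [inner_gradient_left]
  have hfu : Continuous fun x => fderiv ℝ u x v :=
    (hu.continuous_fderiv (by simp)).clm_apply continuous_const
  have hfz : Continuous fun x => fderiv ℝ ζ x v :=
    (hζ.continuous_fderiv (by simp)).clm_apply continuous_const
  have hcz : HasCompactSupport fun x => fderiv ℝ ζ x v := by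
    have : HasCompactSupport (fderiv ℝ ζ) := hc.fderiv ℝ
    exact this.comp_left (g := fun L : E →L[ℝ] ℝ => L v) (by simp)
  rw [integral_mul_fderiv_eq_neg_fderiv_mul_of_integrable (f := u) (g := ζ) (v := v)]
  · congr 1
    refine integral_congr_ae (Eventually.of_forall fun x => ?_)
    exact mul_comm _ _
  · exact (hfu.mul hζ.continuous).integrable_of_hasCompactSupport hc.mul_left
  · exact (hu.continuous.mul hfz).integrable_of_hasCompactSupport hcz.mul_left
  · exact (hu.continuous.mul hζ.continuous).integrable_of_hasCompactSupport hc.mul_left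
  · exact fun x _ => (hu.differentiable (by simp)).differentiableAt
  · exact fun x _ => (hζ.differentiable (by simp)).differentiableAt

theorem wsg_of_contDiff {u : E → ℝ} (hu : ContDiff ℝ 1 u) : WeakGrad u (gradient u) :=
  ⟨hu.continuous.locallyIntegrable, (ws_gradient_continuous hu).locallyIntegrable,
    fun ζ hζ => ws_ibp_C1 hu (hζ.1.of_le (by simp)) hζ.2⟩

theorem wsg_unique {u : E → ℝ} {g g' : E → E} (h : WeakGrad u g) (h' : WeakGrad u g') :
    g =ᵐ[volume] g' := by
  refine ae_eq_of_integral_contDiff_smul_eq h.2.1 h'.2.1 fun ζ hζ hc => ?_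
  have e1 := h.2.2 ζ ⟨hζ, hc⟩
  have e2 := h'.2.2 ζ ⟨hζ, hc⟩
  rw [e1] at e2
  exact neg_injective e2

theorem wsg_congr {u u' : E → ℝ} {g g' : E → E} (h : WeakGrad u g)
    (hu : u =ᵐ[volume] u') (hg : g =ᵐ[volume] g') : WeakGrad u' g' := by
  refine ⟨h.1.congr hu, h.2.1.congr hg, fun ζ hζ => ?_⟩
  have e1 : ∫ x, u' x • gradient ζ x = ∫ x, u x • gradient ζ x := by
    refine integral_congr_ae ?_
    filter_upwards [hu] with x hx
    rw [hx]
  have e2 : ∫ x, ζ x • g' x = ∫ x, ζ x • g x := by
    refine integral_congr_ae ?_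
    filter_upwards [hg] with x hx
    rw [hx]
  rw [e1, e2]
  exact h.2.2 ζ hζ

theorem wsg_add {u v : E → ℝ} {g k : E → E} (h : WeakGrad u g) (h' : WeakGrad v k) :
    WeakGrad (fun x => u x + v x) (fun x => g x + k x) := by
  refine ⟨h.1.add h'.1, h.2.1.add h'.2.1, fun ζ hζ => ?_⟩
  have hζ1 : ContDiff ℝ 1 ζ := hζ.1.of_le (by simp)
  have hgc := ws_gradient_continuous hζ1
  have hgs := ws_gradient_hasCompactSupport hζ.2
  simp only [add_smul, smul_add]
  rw [integral_add (h.1.integrable_smul_right_of_hasCompactSupport hgc hgs)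
      (h'.1.integrable_smul_right_of_hasCompactSupport hgc hgs),
    integral_add (h.2.1.integrable_smul_left_of_hasCompactSupport hζ.1.continuous hζ.2)
      (h'.2.1.integrable_smul_left_of_hasCompactSupport hζ.1.continuous hζ.2),
    h.2.2 ζ hζ, h'.2.2 ζ hζ]
  abel

theorem wsg_smul {u : E → ℝ} {g : E → E} (c : ℝ) (h : WeakGrad u g) :
    WeakGrad (fun x => c * u x) (fun x => c • g x) := by
  refine ⟨h.1.smul c, h.2.1.smul c, fun ζ hζ => ?_⟩
  have e1 : ∫ x, (c * u x) • gradient ζ x = c • ∫ x, u x • gradient ζ x := by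
    rw [← integral_smul]
    simp only [mul_smul]
  have e2 : ∫ x, ζ x • c • g x = c • ∫ x, ζ x • g x := by
    rw [← integral_smul]
    simp only [smul_comm c]
  rw [e1, e2, h.2.2 ζ hζ, smul_neg]

theorem wsRho_sub_isTest (k : ℕ) (x : E) : IsTest (fun y : E => wsRho k (x - y)) := by
  refine ⟨(wsRho_contDiff k).comp (contDiff_const.sub contDiff_id), ?_⟩
  have := (wsRho_hasCompactSupport (E := E) k).comp_homeomorph (Homeomorph.subLeft x)
  exact this

theorem wsRho_sub_fderiv (k : ℕ) (x y v : E) :
    fderiv ℝ (fun y : E => wsRho k (x - y)) y v = - fderiv ℝ (wsRho k) (x - y) v := by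
  have h1 : HasFDerivAt (wsRho k : E → ℝ) (fderiv ℝ (wsRho k) (x - y)) (x - y) :=
    ((wsRho_contDiff k).differentiable (by simp)).differentiableAt.hasFDerivAt
  have h2 : HasFDerivAt (fun y : E => x - y) (-(ContinuousLinearMap.id ℝ E)) y :=
    (hasFDerivAt_id y).const_sub x
  have h3 := h1.comp y h2
  have : (fun y : E => wsRho k (x - y)) = (wsRho k : E → ℝ) ∘ fun y => x - y := rfl
  rw [this, h3.fderiv]
  simp

theorem wsMol_fderiv_apply (k : ℕ) {u : E → ℝ} (hu : LocallyIntegrable u volume) (x v : E) :
    fderiv ℝ (wsMol k u) x v = ∫ y, u y * fderiv ℝ (wsRho k) (x - y) v := by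
  have e : wsMol k u = u ⋆[(ContinuousLinearMap.lsmul ℝ ℝ).flip, volume] (wsRho k : E → ℝ) := by
    unfold wsMol
    rw [convolution_flip]
  have hρ1 : ContDiff ℝ 1 (wsRho k : E → ℝ) := (wsRho_contDiff k).of_le (by simp)
  have h1 := (wsRho_hasCompactSupport (E := E) k).hasFDerivAt_convolution_right
    ((ContinuousLinearMap.lsmul ℝ ℝ).flip) hu hρ1 x
  rw [e, h1.fderiv, convolution_precompR_apply _ hu ((wsRho_hasCompactSupport k).fderiv ℝ)
    (hρ1.continuous_fderiv (by simp)) x v, convolution_def]
  refine integral_congr_ae (Eventually.of_forall fun y => ?_)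
  simp [mul_comm]

/-- MOLLIFICATION COMMUTES WITH THE WEAK GRADIENT. -/
theorem wsMol_gradient {u : E → ℝ} {g : E → E} (h : WeakGrad u g) (k : ℕ) :
    gradient (wsMol k u) = wsMol k g := by
  funext x
  refine ext_inner_right ℝ fun v => ?_
  rw [inner_gradient_left, wsMol_fderiv_apply k h.1, wsMol_eq,
    ws_inner_integral_smul (wsMol_integrable_swap k h.2.1 x)]
  have h1 := ws_weakGrad_dir h (wsRho_sub_isTest k x) v
  simp only [wsRho_sub_fderiv, mul_neg, integral_neg, neg_inj] at h1
  exact h1

theorem wsMol_isTest (k : ℕ) {u : E → ℝ} (hu : LocallyIntegrable u volume)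
    (hc : HasCompactSupport u) : IsTest (wsMol k u) :=
  ⟨wsMol_contDiff k hu, wsMol_hasCompactSupport k hc⟩

theorem wsMol_weakGrad {u : E → ℝ} {g : E → E} (h : WeakGrad u g) (k : ℕ) :
    WeakGrad (wsMol k u) (wsMol k g) := by
  rw [← wsMol_gradient h k]
  exact wsg_of_contDiff ((wsMol_contDiff k h.1).of_le (by simp))

/-- uniform convergence with supports in a fixed compact set gives `L¹_loc` convergence. -/
theorem wsLoc_of_tendstoUniformly {F : Type} [NormedAddCommGroup F] {f : ℕ → E → F} {g : E → F}
    (h : TendstoUniformly f g atTop) : WsLoc f g := by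
  intro K hK
  rw [ENNReal.tendsto_nhds_zero]
  intro ε hε
  obtain ⟨δ, hδ, hδε⟩ : ∃ δ : ℝ, 0 < δ ∧ ENNReal.ofReal δ * volume K ≤ ε := by
    have ht : Tendsto (fun δ : ℝ => ENNReal.ofReal δ * volume K) (𝓝[>] 0) (𝓝 0) := by
      have h1 : Tendsto (fun δ : ℝ => ENNReal.ofReal δ) (𝓝 0) (𝓝 0) := by
        simpa using (ENNReal.continuous_ofReal.tendsto 0)
      have h2 := ENNReal.Tendsto.mul_const (b := volume K) h1 (Or.inr hK.measure_lt_top.ne)
      rw [zero_mul] at h2
      exact h2.mono_left nhdsWithin_le_nhds
    have h3 := (ht.eventually (ge_mem_nhds hε)).and self_mem_nhdsWithin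
    obtain ⟨δ, h4, h5⟩ := h3.exists
    exact ⟨δ, h5, h4⟩
  filter_upwards [Metric.tendstoUniformly_iff.1 h δ hδ] with k hk
  calc ∫⁻ x in K, ‖f k x - g x‖ₑ ≤ ∫⁻ x in K, ENNReal.ofReal δ := by
        refine lintegral_mono fun x => ?_
        rw [← ofReal_norm]
        refine ENNReal.ofReal_le_ofReal ?_
        have := hk x
        rw [dist_comm, dist_eq_norm] at this
        exact this.le
    _ = ENNReal.ofReal δ * volume K := by
        rw [lintegral_const, Measure.restrict_apply MeasurableSet.univ, Set.univ_inter]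
    _ ≤ ε := hδε

/-- limit of integrals under weighted uniform convergence. -/
theorem ws_tendsto_integral_of_unif {G : Type} [NormedAddCommGroup G] [NormedSpace ℝ G]
    {f : ℕ → E → G} {f' : E → G} {w : E → ℝ} (hw : Integrable w volume)
    (hfi : ∀ k, Integrable (f k) volume) (hf' : Integrable f' volume)
    (hle : ∀ ε : ℝ, 0 < ε → ∀ᶠ k in atTop, ∀ x, ‖f k x - f' x‖ ≤ ε * w x) :
    Tendsto (fun k => ∫ x, f k x) atTop (𝓝 (∫ x, f' x)) := by
  rw [Metric.tendsto_nhds]
  intro ε' hε'
  set W := |∫ x, w x| + 1 with hW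
  have hWpos : 0 < W := by positivity
  filter_upwards [hle (ε' / (2 * W)) (by positivity)] with k hk
  rw [dist_eq_norm, ← integral_sub (hfi k) hf']
  have h1 : ‖∫ x, (f k x - f' x)‖ ≤ ∫ x, ε' / (2 * W) * w x :=
    norm_integral_le_of_norm_le (hw.const_mul _) (Eventually.of_forall hk)
  rw [integral_const_mul] at h1
  have h2 : ε' / (2 * W) * ∫ x, w x ≤ ε' / (2 * W) * W := by
    apply mul_le_mul_of_nonneg_left _ (by positivity)
    rw [hW]
    linarith [le_abs_self (∫ x, w x)]
  have h3 : ε' / (2 * W) * W = ε' / 2 := by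
    field_simp
  linarith

/-- The weak gradient can be tested against `C¹` functions with compact support. -/
theorem wsg_test_C1 {u : E → ℝ} {g : E → E} (h : WeakGrad u g) {ζ : E → ℝ}
    (hζ : ContDiff ℝ 1 ζ) (hc : HasCompactSupport ζ) :
    ∫ x, u x • gradient ζ x = - ∫ x, ζ x • g x := by
  have hgc := ws_gradient_continuous hζ
  have hgs := ws_gradient_hasCompactSupport hc
  have hzl : LocallyIntegrable ζ volume := hζ.continuous.locallyIntegrable
  have hgl : LocallyIntegrable (gradient ζ) volume := hgc.locallyIntegrable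
  set K := Metric.cthickening 1 (tsupport ζ) with hK
  have hKc : IsCompact K := hc.isCompact.cthickening
  have hT : ∀ k, IsTest (wsMol k ζ) := fun k => wsMol_isTest k hzl hc
  have hgk : ∀ k, gradient (wsMol k ζ) = wsMol k (gradient ζ) :=
    fun k => wsMol_gradient (wsg_of_contDiff hζ) k
  have hid : ∀ k, ∫ x, u x • wsMol k (gradient ζ) x = - ∫ x, wsMol k ζ x • g x := by
    intro k
    rw [← hgk k]
    exact h.2.2 _ (hT k)
  -- supports
  have hs1 : ∀ k x, x ∉ K → wsMol k ζ x = 0 := by
    intro k x hx
    by_contra h0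
    exact hx (wsMol_support_subset k ζ h0)
  have hs2 : ∀ x, x ∉ K → ζ x = 0 := by
    intro x hx
    by_contra h0
    exact hx (Metric.self_subset_cthickening _ (subset_tsupport _ h0))
  have hsub : tsupport (gradient ζ) ⊆ tsupport ζ := by
    have h1 : tsupport (fderiv ℝ ζ) ⊆ tsupport ζ := tsupport_fderiv_subset ℝ
    refine subset_trans (closure_mono ?_) h1
    intro x hx
    simp only [Function.mem_support] at hx ⊢
    intro h0
    apply hx
    simp [gradient, h0]
  have hs3 : ∀ k x, x ∉ K → wsMol k (gradient ζ) x = 0 := by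
    intro k x hx
    by_contra h0
    exact hx (Metric.cthickening_subset_of_subset 1 hsub (wsMol_support_subset k _ h0))
  have hs4 : ∀ x, x ∉ K → gradient ζ x = 0 := by
    intro x hx
    by_contra h0
    exact hx (Metric.self_subset_cthickening _ (hsub (subset_tsupport _ h0)))
  have hu1 := Metric.tendstoUniformly_iff.1
    (wsMol_tendstoUniformly (hc.uniformContinuous_of_continuous hζ.continuous))
  have hu2 := Metric.tendstoUniformly_iff.1
    (wsMol_tendstoUniformly (hgs.uniformContinuous_of_continuous hgc))
  have t1 : Tendsto (fun k => ∫ x, u x • wsMol k (gradient ζ) x) atTop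
      (𝓝 (∫ x, u x • gradient ζ x)) := by
    refine ws_tendsto_integral_of_unif (w := K.indicator fun x => ‖u x‖)
      (IntegrableOn.integrable_indicator (h.1.integrableOn_isCompact hKc).norm hKc.measurableSet)
      (fun k => h.1.integrable_smul_right_of_hasCompactSupport
        (wsMol_contDiff k hgl).continuous (wsMol_hasCompactSupport k hgs))
      (h.1.integrable_smul_right_of_hasCompactSupport hgc hgs) ?_
    intro ε hε
    filter_upwards [hu2 ε hε] with k hk x
    by_cases hx : x ∈ K
    · rw [Set.indicator_of_mem hx, ← smul_sub, norm_smul, mul_comm]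
      apply mul_le_mul_of_nonneg_right _ (norm_nonneg _)
      have := hk x
      rw [dist_comm, dist_eq_norm] at this
      exact this.le
    · rw [Set.indicator_of_notMem hx, hs3 k x hx, hs4 x hx]
      simp
  have t2 : Tendsto (fun k => ∫ x, wsMol k ζ x • g x) atTop (𝓝 (∫ x, ζ x • g x)) := by
    refine ws_tendsto_integral_of_unif (w := K.indicator fun x => ‖g x‖)
      (IntegrableOn.integrable_indicator (h.2.1.integrableOn_isCompact hKc).norm hKc.measurableSet)
      (fun k => h.2.1.integrable_smul_left_of_hasCompactSupport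
        (wsMol_contDiff k hzl).continuous (wsMol_hasCompactSupport k hc))
      (h.2.1.integrable_smul_left_of_hasCompactSupport hζ.continuous hc) ?_
    intro ε hε
    filter_upwards [hu1 ε hε] with k hk x
    by_cases hx : x ∈ K
    · rw [Set.indicator_of_mem hx, ← sub_smul, norm_smul]
      apply mul_le_mul_of_nonneg_right _ (norm_nonneg _)
      have := hk x
      rw [dist_comm, dist_eq_norm] at this
      exact this.le
    · rw [Set.indicator_of_notMem hx, hs1 k x hx, hs2 x hx]
      simp
  simp only [hid] at t1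
  exact tendsto_nhds_unique t1 t2.neg

theorem ws_gradient_mul {f g : E → ℝ} {x : E} (hf : DifferentiableAt ℝ f x)
    (hg : DifferentiableAt ℝ g x) :
    gradient (fun y => f y * g y) x = f x • gradient g x + g x • gradient f x := by
  refine ext_inner_right ℝ fun v => ?_
  rw [inner_gradient_left, inner_add_left, inner_smul_left, inner_smul_left, inner_gradient_left,
    inner_gradient_left, fderiv_fun_mul hf hg]
  simp

/-- Leibniz rule with a `C¹` factor. -/
theorem wsg_mul {u χ : E → ℝ} {g : E → E} (h : WeakGrad u g) (hχ : ContDiff ℝ 1 χ) :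
    WeakGrad (fun x => χ x * u x) (fun x => χ x • g x + u x • gradient χ x) := by
  have hχg := ws_gradient_continuous hχ
  have l1 : LocallyIntegrable (fun x => χ x * u x) volume := h.1.continuous_smul hχ.continuous
  have l2 : LocallyIntegrable (fun x => χ x • g x) volume := h.2.1.continuous_smul hχ.continuous
  have l3 : LocallyIntegrable (fun x => u x • gradient χ x) volume := h.1.smul_continuous hχg
  refine ⟨l1, l2.add l3, fun ζ hζ => ?_⟩
  have hζ1 : ContDiff ℝ 1 ζ := hζ.1.of_le (by simp)
  have hζg := ws_gradient_continuous hζ1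
  have hζs := ws_gradient_hasCompactSupport hζ.2
  have hp : ContDiff ℝ 1 (fun x => χ x * ζ x) := hχ.mul hζ1
  have hpc : HasCompactSupport (fun x => χ x * ζ x) := hζ.2.mul_left
  have key := wsg_test_C1 h hp hpc
  have hgr : ∀ x, gradient (fun y => χ y * ζ y) x = χ x • gradient ζ x + ζ x • gradient χ x :=
    fun x => ws_gradient_mul (hχ.differentiable (by simp)).differentiableAt
      (hζ1.differentiable (by simp)).differentiableAt
  simp only [hgr, smul_add] at key
  have i1 : Integrable (fun x => u x • χ x • gradient ζ x) volume := by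
    have := l1.integrable_smul_right_of_hasCompactSupport hζg hζs
    refine this.congr (Eventually.of_forall fun x => ?_)
    simp only [smul_smul, mul_comm]
  have i2 : Integrable (fun x => u x • ζ x • gradient χ x) volume := by
    have := l3.integrable_smul_left_of_hasCompactSupport hζ.1.continuous hζ.2
    refine this.congr (Eventually.of_forall fun x => ?_)
    simp only [smul_smul, mul_comm]
  rw [integral_add i1 i2] at key
  have i3 : Integrable (fun x => ζ x • χ x • g x) volume :=
    l2.integrable_smul_left_of_hasCompactSupport hζ.1.continuous hζ.2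
  have i4 : Integrable (fun x => ζ x • u x • gradient χ x) volume :=
    l3.integrable_smul_left_of_hasCompactSupport hζ.1.continuous hζ.2
  simp only [smul_add]
  rw [integral_add i3 i4]
  have e1 : ∫ x, (χ x * u x) • gradient ζ x = ∫ x, u x • χ x • gradient ζ x := by
    refine integral_congr_ae (Eventually.of_forall fun x => ?_)
    simp only [smul_smul, mul_comm]
  have e2 : ∫ x, ζ x • u x • gradient χ x = ∫ x, u x • ζ x • gradient χ x := by
    refine integral_congr_ae (Eventually.of_forall fun x => ?_)
    simp only [smul_smul, mul_comm]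
  have e3 : ∫ x, (χ x * ζ x) • g x = ∫ x, ζ x • χ x • g x := by
    refine integral_congr_ae (Eventually.of_forall fun x => ?_)
    simp only [smul_smul, mul_comm]
  rw [e1, e2, ← e3, neg_add, ← key]
  abel

end Claimed.Agent.R259
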