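/-
Row 259, kit WS: weak gradients, chain rules, products, truncations.   Owner: helper217.
-/
import Claimed.Agent.R259.WsGrad

set_option autoImplicit false
set_option linter.unusedSectionVars false

open MeasureTheory Filter Topology
open scoped ContDiff ENNReal NNReal

namespace Claimed.Agent.R259

variable {E : Type} [NormedAddCommGroup E] [InnerProductSpace ℝ E] [FiniteDimensional ℝ E]
  [MeasurableSpace E] [BorelSpace E]

theorem ws_li_norm {F : Type} [NormedAddCommGroup F] {f : E → F}
    (hf : LocallyIntegrable f volume) : LocallyIntegrable (fun x => ‖f x‖) volume :=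
  hf.mono hf.aestronglyMeasurable.norm (Eventually.of_forall fun x => by simp)

theorem ws_gradient_comp {Θ : ℝ → ℝ} {f : E → ℝ} {x : E} (hΘ : DifferentiableAt ℝ Θ (f x))
    (hf : DifferentiableAt ℝ f x) :
    gradient (fun y => Θ (f y)) x = deriv Θ (f x) • gradient f x := by
  refine ext_inner_right ℝ fun v => ?_
  have h := hΘ.hasDerivAt.comp_hasFDerivAt x hf.hasFDerivAt
  have e : (fun y => Θ (f y)) = Θ ∘ f := rfl
  rw [inner_gradient_left, inner_smul_left, inner_gradient_left, e, h.fderiv]
  simp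

theorem ws_lip_of_deriv {Θ : ℝ → ℝ} (hΘ : ContDiff ℝ 1 Θ) {C : ℝ} (hC : ∀ z, |deriv Θ z| ≤ C)
    (a b : ℝ) : |Θ a - Θ b| ≤ C * |a - b| := by
  have := Convex.norm_image_sub_le_of_norm_deriv_le (f := Θ) (s := Set.univ) (C := C)
    (fun x _ => (hΘ.differentiable (by simp)).differentiableAt) (fun x _ => hC x) convex_univ
    (Set.mem_univ b) (Set.mem_univ a)
  simpa using this

/-- Chain rule with a `C¹` outer function of bounded derivative. -/
theorem wsg_comp {u : E → ℝ} {g : E → E} (h : WeakGrad u g) {Θ : ℝ → ℝ}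
    (hΘ : ContDiff ℝ 1 Θ) {C : ℝ} (hC : ∀ z, |deriv Θ z| ≤ C) :
    WeakGrad (fun x => Θ (u x)) (fun x => deriv Θ (u x) • g x) := by
  have hC0 : 0 ≤ C := (abs_nonneg _).trans (hC 0)
  have hd : Continuous (deriv Θ) := hΘ.continuous_deriv (by simp)
  have hlip := ws_lip_of_deriv hΘ hC
  have hum : AEStronglyMeasurable u volume := h.1.aestronglyMeasurable
  have hgm : AEStronglyMeasurable g volume := h.2.1.aestronglyMeasurable
  -- local integrability
  have l1 : LocallyIntegrable (fun x => Θ (u x)) volume := by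
    have hb : LocallyIntegrable (fun x => |Θ 0| + C * ‖u x‖) volume :=
      (locallyIntegrable_const _).add ((ws_li_norm h.1).smul C)
    refine hb.mono (hΘ.continuous.comp_aestronglyMeasurable hum) (Eventually.of_forall fun x => ?_)
    have h1 := hlip (u x) 0
    rw [sub_zero] at h1
    have h2 : |Θ (u x)| ≤ |Θ 0| + |Θ (u x) - Θ 0| := by
      have := abs_add_le (Θ 0) (Θ (u x) - Θ 0)
      simpa using this
    rw [Real.norm_eq_abs, Real.norm_eq_abs, Real.norm_eq_abs,
      abs_of_nonneg (by positivity : 0 ≤ |Θ 0| + C * |u x|)]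
    linarith
  have l2 : LocallyIntegrable (fun x => deriv Θ (u x) • g x) volume := by
    refine ((ws_li_norm h.2.1).smul C).mono ((hd.comp_aestronglyMeasurable hum).smul hgm)
      (Eventually.of_forall fun x => ?_)
    rw [norm_smul, Real.norm_eq_abs, Pi.smul_apply, smul_eq_mul, Real.norm_eq_abs,
      abs_of_nonneg (by positivity : 0 ≤ C * ‖g x‖)]
    exact mul_le_mul_of_nonneg_right (hC _) (norm_nonneg _)
  -- the approximating sequence
  have hsm : ∀ k, ContDiff ℝ 1 (wsMol k u) := fun k => (wsMol_contDiff k h.1).of_le (by simp)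
  have hk : ∀ k, WeakGrad (fun x => Θ (wsMol k u x))
      (fun x => deriv Θ (wsMol k u x) • wsMol k g x) := by
    intro k
    have h1 := wsg_of_contDiff (hΘ.comp (hsm k))
    have e : gradient (Θ ∘ wsMol k u) = fun x => deriv Θ (wsMol k u x) • wsMol k g x := by
      funext x
      rw [← wsMol_gradient h k]
      exact ws_gradient_comp (hΘ.differentiable (by simp)).differentiableAt
        ((hsm k).differentiable (by simp)).differentiableAt
    rw [e] at h1
    exact h1
  refine ws_weakGrad_of_loc hk l1 l2 ?_ ?_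
  · refine wsLoc_of_le (C := ENNReal.ofReal C) ENNReal.ofReal_ne_top (wsLoc_mol h.1)
      fun k => Eventually.of_forall fun x => ?_
    rw [← ofReal_norm, ← ofReal_norm, ← ENNReal.ofReal_mul hC0]
    exact ENNReal.ofReal_le_ofReal (hlip _ _)
  · have a1 : WsLoc (fun k x => deriv Θ (wsMol k u x) • (wsMol k g x - g x)) (fun _ => (0 : E)) := by
      refine wsLoc_of_le (C := ENNReal.ofReal C) ENNReal.ofReal_ne_top (wsLoc_mol h.2.1)
        fun k => Eventually.of_forall fun x => ?_
      rw [sub_zero, ← ofReal_norm, ← ofReal_norm, ← ENNReal.ofReal_mul hC0, norm_smul]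
      exact ENNReal.ofReal_le_ofReal (mul_le_mul_of_nonneg_right (hC _) (norm_nonneg _))
    have a2 : WsLoc (fun k x => deriv Θ (wsMol k u x) • g x) (fun x => deriv Θ (u x) • g x) := by
      refine wsLoc_of_dominated (bound := fun x => C * ‖g x‖)
        (fun k => ((hd.comp (hsm k).continuous).aestronglyMeasurable).smul hgm)
        ((ws_li_norm h.2.1).smul C) (fun k => Eventually.of_forall fun x => ?_) ?_
      · rw [norm_smul]
        exact mul_le_mul_of_nonneg_right (hC _) (norm_nonneg _)
      · filter_upwards [wsMol_tendsto_ae h.1] with x hx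
        exact ((hd.tendsto _).comp hx).smul_const _
    have a3 := a1.add a2 (fun k => by
      simp only [sub_zero]
      exact ((hd.comp (hsm k).continuous).aestronglyMeasurable).smul
        ((wsMol_aestronglyMeasurable k h.2.1).sub hgm))
    simp only [zero_add, smul_sub, sub_add_cancel] at a3
    exact a3

/-- extension of a `C¹` function from a neighbourhood of `[a,b]` to a global `C¹` function with
bounded derivative. -/
theorem ws_extend_C1 {Θ : ℝ → ℝ} {a b : ℝ} (hab : a ≤ b)
    (hΘ : ContDiffOn ℝ 1 Θ (Set.Ioo (a - 1) (b + 1))) :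
    ∃ (Θ' : ℝ → ℝ) (C : ℝ), ContDiff ℝ 1 Θ' ∧ (∀ z, |deriv Θ' z| ≤ C) ∧
      ∀ z ∈ Set.Icc a b, Θ' z = Θ z ∧ deriv Θ' z = deriv Θ z := by
  set c : ℝ := (a + b) / 2 with hc
  set r : ℝ := (b - a) / 2 with hr
  have hr0 : 0 ≤ r := by rw [hr]; linarith
  let χ : ContDiffBump c := ⟨r + 1 / 3, r + 2 / 3, by linarith, by linarith⟩
  have hχs : tsupport χ = Metric.closedBall c (r + 2 / 3) := χ.tsupport_eq
  have hsub : tsupport χ ⊆ Set.Ioo (a - 1) (b + 1) := by
    rw [hχs, Real.closedBall_eq_Icc]
    intro z hz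
    constructor
    · have := hz.1
      rw [hc, hr] at this
      linarith
    · have := hz.2
      rw [hc, hr] at this
      linarith
  set Θ' : ℝ → ℝ := fun z => χ z * Θ z with hΘ'
  have h1 : ContDiff ℝ 1 Θ' := by
    refine contDiff_of_contDiffOn_union_of_isOpen (s := Set.Ioo (a - 1) (b + 1))
      (t := (tsupport χ)ᶜ) ?_ ?_ ?_ isOpen_Ioo (isClosed_tsupport _).isOpen_compl
    · exact (χ.contDiff.contDiffOn).mul hΘ
    · refine (contDiffOn_const (c := (0:ℝ))).congr fun z hz => ?_
      simp only [hΘ', image_eq_zero_of_notMem_tsupport hz, zero_mul]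
    · rw [Set.eq_univ_iff_forall]
      intro z
      by_cases hz : z ∈ tsupport χ
      · exact Or.inl (hsub hz)
      · exact Or.inr hz
  have h2 : HasCompactSupport Θ' := χ.hasCompactSupport.mul_right
  obtain ⟨C, hC⟩ := h2.deriv.exists_bound_of_continuous (h1.continuous_deriv (by simp))
  refine ⟨Θ', C, h1, fun z => by simpa using hC z, fun z hz => ?_⟩
  have hev : Θ' =ᶠ[𝓝 z] Θ := by
    have hz' : z ∈ Metric.ball c (r + 1 / 3) := by
      rw [Real.ball_eq_Ioo]
      constructor
      · have := hz.1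
        rw [hc, hr]
        linarith
      · have := hz.2
        rw [hc, hr]
        linarith
    filter_upwards [Metric.isOpen_ball.mem_nhds hz'] with y hy
    have : χ y = 1 := χ.one_of_mem_closedBall (Metric.ball_subset_closedBall hy)
    simp only [hΘ', this, one_mul]
  exact ⟨hev.eq_of_nhds, hev.deriv_eq⟩

/-- Chain rule when `u` takes its values in an interval on which `Θ` is `C¹`. -/
theorem wsg_comp_Icc {u : E → ℝ} {g : E → E} (h : WeakGrad u g) {Θ : ℝ → ℝ} {a b : ℝ}
    (hu : ∀ᵐ x, u x ∈ Set.Icc a b) (hΘ : ContDiffOn ℝ 1 Θ (Set.Ioo (a - 1) (b + 1))) :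
    WeakGrad (fun x => Θ (u x)) (fun x => deriv Θ (u x) • g x) := by
  obtain ⟨x₀, hx₀⟩ := hu.exists
  have hab : a ≤ b := hx₀.1.trans hx₀.2
  obtain ⟨Θ', C, h1, h2, h3⟩ := ws_extend_C1 hab hΘ
  refine wsg_congr (wsg_comp h h1 h2) ?_ ?_
  · filter_upwards [hu] with x hx
    exact (h3 _ hx).1
  · filter_upwards [hu] with x hx
    rw [(h3 _ hx).2]

/-- Product of two bounded functions with weak gradients. -/
theorem wsg_mul_bdd {u v : E → ℝ} {g k : E → E} (h : WeakGrad u g) (h' : WeakGrad v k)
    {C : ℝ} (hu : ∀ᵐ x, |u x| ≤ C) (hv : ∀ᵐ x, |v x| ≤ C) :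
    WeakGrad (fun x => u x * v x) (fun x => u x • k x + v x • g x) := by
  obtain ⟨x₀, hx₀⟩ := hu.exists
  have hC0 : 0 ≤ C := (abs_nonneg _).trans hx₀
  have hum := h.1.aestronglyMeasurable
  have hvm := h'.1.aestronglyMeasurable
  have hgm := h.2.1.aestronglyMeasurable
  have hkm := h'.2.1.aestronglyMeasurable
  have l1 : LocallyIntegrable (fun x => u x * v x) volume := by
    refine ((ws_li_norm h.1).smul C).mono (hum.mul hvm) ?_
    filter_upwards [hv] with x hx
    rw [norm_mul, Pi.smul_apply, smul_eq_mul, Real.norm_eq_abs (C * _),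
      abs_of_nonneg (by positivity : 0 ≤ C * ‖u x‖), mul_comm]
    exact mul_le_mul_of_nonneg_right hx (norm_nonneg _)
  have l2 : LocallyIntegrable (fun x => u x • k x) volume := by
    refine ((ws_li_norm h'.2.1).smul C).mono (hum.smul hkm) ?_
    filter_upwards [hu] with x hx
    rw [norm_smul, Pi.smul_apply, smul_eq_mul, Real.norm_eq_abs (C * _),
      abs_of_nonneg (by positivity : 0 ≤ C * ‖k x‖)]
    exact mul_le_mul_of_nonneg_right hx (norm_nonneg _)
  have l3 : LocallyIntegrable (fun x => v x • g x) volume := by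
    refine ((ws_li_norm h.2.1).smul C).mono (hvm.smul hgm) ?_
    filter_upwards [hv] with x hx
    rw [norm_smul, Pi.smul_apply, smul_eq_mul, Real.norm_eq_abs (C * _),
      abs_of_nonneg (by positivity : 0 ≤ C * ‖g x‖)]
    exact mul_le_mul_of_nonneg_right hx (norm_nonneg _)
  have hsm : ∀ j, ContDiff ℝ 1 (wsMol j v) := fun j => (wsMol_contDiff j h'.1).of_le (by simp)
  have hb : ∀ j x, ‖wsMol j v x‖ ≤ C := fun j x => wsMol_norm_le j hv x
  have hk : ∀ j, WeakGrad (fun x => wsMol j v x * u x)
      (fun x => wsMol j v x • g x + u x • wsMol j k x) := by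
    intro j
    have := wsg_mul h (hsm j)
    rw [wsMol_gradient h' j] at this
    exact this
  have key : WeakGrad (fun x => v x * u x) (fun x => v x • g x + u x • k x) := by
    refine ws_weakGrad_of_loc hk (by simpa only [mul_comm] using l1) (l3.add l2) ?_ ?_
    · refine wsLoc_of_dominated (bound := fun x => C * ‖u x‖)
        (fun j => ((hsm j).continuous.aestronglyMeasurable).mul hum) ((ws_li_norm h.1).smul C)
        (fun j => Eventually.of_forall fun x => ?_) ?_
      · rw [norm_mul]
        exact mul_le_mul_of_nonneg_right (hb j x) (norm_nonneg _)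
      · filter_upwards [wsMol_tendsto_ae h'.1] with x hx
        exact hx.mul_const _
    · refine WsLoc.add ?_ ?_ (fun j => (((hsm j).continuous.aestronglyMeasurable).smul hgm).sub
        (hvm.smul hgm))
      · refine wsLoc_of_dominated (bound := fun x => C * ‖g x‖)
          (fun j => ((hsm j).continuous.aestronglyMeasurable).smul hgm)
          ((ws_li_norm h.2.1).smul C) (fun j => Eventually.of_forall fun x => ?_) ?_
        · rw [norm_smul]
          exact mul_le_mul_of_nonneg_right (hb j x) (norm_nonneg _)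
        · filter_upwards [wsMol_tendsto_ae h'.1] with x hx
          exact hx.smul_const _
      · refine wsLoc_of_le (C := ENNReal.ofReal C) ENNReal.ofReal_ne_top (wsLoc_mol h'.2.1)
          fun j => ?_
        filter_upwards [hu] with x hx
        rw [← smul_sub, ← ofReal_norm, ← ofReal_norm, ← ENNReal.ofReal_mul hC0, norm_smul]
        exact ENNReal.ofReal_le_ofReal (mul_le_mul_of_nonneg_right hx (norm_nonneg _))
  refine wsg_congr key (Eventually.of_forall fun x => mul_comm _ _)
    (Eventually.of_forall fun x => add_comm _ _)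

/-- extension of a `C¹` function from a `δ`-neighbourhood of `[a,b]`. -/
theorem ws_extend_C1' {Θ : ℝ → ℝ} {a b δ : ℝ} (hab : a ≤ b) (hδ : 0 < δ)
    (hΘ : ContDiffOn ℝ 1 Θ (Set.Ioo (a - δ) (b + δ))) :
    ∃ (Θ' : ℝ → ℝ) (C : ℝ), ContDiff ℝ 1 Θ' ∧ (∀ z, |deriv Θ' z| ≤ C) ∧
      ∀ z ∈ Set.Icc a b, Θ' z = Θ z ∧ deriv Θ' z = deriv Θ z := by
  set c : ℝ := (a + b) / 2 with hc
  set r : ℝ := (b - a) / 2 with hr
  have hr0 : 0 ≤ r := by rw [hr]; linarith
  let χ : ContDiffBump c := ⟨r + δ / 3, r + 2 * δ / 3, by linarith, by linarith⟩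
  have hχs : tsupport χ = Metric.closedBall c (r + 2 * δ / 3) := χ.tsupport_eq
  have hsub : tsupport χ ⊆ Set.Ioo (a - δ) (b + δ) := by
    rw [hχs, Real.closedBall_eq_Icc]
    intro z hz
    constructor
    · have := hz.1
      rw [hc, hr] at this
      linarith
    · have := hz.2
      rw [hc, hr] at this
      linarith
  set Θ' : ℝ → ℝ := fun z => χ z * Θ z with hΘ'
  have h1 : ContDiff ℝ 1 Θ' := by
    refine contDiff_of_contDiffOn_union_of_isOpen (s := Set.Ioo (a - δ) (b + δ))
      (t := (tsupport χ)ᶜ) ?_ ?_ ?_ isOpen_Ioo (isClosed_tsupport _).isOpen_compl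
    · exact (χ.contDiff.contDiffOn).mul hΘ
    · refine (contDiffOn_const (c := (0:ℝ))).congr fun z hz => ?_
      simp only [hΘ', image_eq_zero_of_notMem_tsupport hz, zero_mul]
    · rw [Set.eq_univ_iff_forall]
      intro z
      by_cases hz : z ∈ tsupport χ
      · exact Or.inl (hsub hz)
      · exact Or.inr hz
  have h2 : HasCompactSupport Θ' := χ.hasCompactSupport.mul_right
  obtain ⟨C, hC⟩ := h2.deriv.exists_bound_of_continuous (h1.continuous_deriv (by simp))
  refine ⟨Θ', C, h1, fun z => by simpa using hC z, fun z hz => ?_⟩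
  have hev : Θ' =ᶠ[𝓝 z] Θ := by
    have hz' : z ∈ Metric.ball c (r + δ / 3) := by
      rw [Real.ball_eq_Ioo]
      constructor
      · have := hz.1
        rw [hc, hr]
        linarith
      · have := hz.2
        rw [hc, hr]
        linarith
    filter_upwards [Metric.isOpen_ball.mem_nhds hz'] with y hy
    have : χ y = 1 := χ.one_of_mem_closedBall (Metric.ball_subset_closedBall hy)
    simp only [hΘ', this, one_mul]
  exact ⟨hev.eq_of_nhds, hev.deriv_eq⟩

/-- Chain rule when `u` takes its values in `[a,b]` and `Θ` is `C¹` on a `δ`-neighbourhood. -/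
theorem wsg_comp_Icc' {u : E → ℝ} {g : E → E} (h : WeakGrad u g) {Θ : ℝ → ℝ} {a b δ : ℝ}
    (hδ : 0 < δ) (hu : ∀ᵐ x, u x ∈ Set.Icc a b)
    (hΘ : ContDiffOn ℝ 1 Θ (Set.Ioo (a - δ) (b + δ))) :
    WeakGrad (fun x => Θ (u x)) (fun x => deriv Θ (u x) • g x) := by
  obtain ⟨x₀, hx₀⟩ := hu.exists
  have hab : a ≤ b := hx₀.1.trans hx₀.2
  obtain ⟨Θ', C, h1, h2, h3⟩ := ws_extend_C1' hab hδ hΘ
  refine wsg_congr (wsg_comp h h1 h2) ?_ ?_
  · filter_upwards [hu] with x hx
    exact (h3 _ hx).1
  · filter_upwards [hu] with x hx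
    rw [(h3 _ hx).2]

end Claimed.Agent.R259
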