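/-
Row 259, kit OP: pointwise calculus of the classical operator
`opA η g = -Δ g - Dg(∇ log η)` (S3Defs).  Pure calculus, no measure theory.  Sorry-free.
Owner: helper217.
-/
import Claimed.Agent.R259.WsChain

set_option autoImplicit false
set_option linter.unusedSectionVars false

open MeasureTheory Filter Topology
open scoped ContDiff ENNReal

namespace Claimed.Agent.R259

variable {E : Type} [NormedAddCommGroup E] [InnerProductSpace ℝ E] [FiniteDimensional ℝ E]
  [MeasurableSpace E] [BorelSpace E]
variable {F G : Type} [NormedAddCommGroup F] [NormedSpace ℝ F] [NormedAddCommGroup G]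
  [NormedSpace ℝ G]
variable {η : E → ℝ} {x : E}

/-- differentiability of the first derivative. -/
theorem opc_fderiv_differentiableAt {g : E → F} (hg : ContDiffAt ℝ 2 g x) :
    DifferentiableAt ℝ (fderiv ℝ g) x :=
  (hg.fderiv_right (m := 1) (by norm_num)).differentiableAt (by simp)

/-- the derivative of a directional derivative. -/
theorem opc_fderiv_dir {g : E → F} (hg : ContDiffAt ℝ 2 g x) (e v : E) :
    fderiv ℝ (fun y => fderiv ℝ g y e) x v = fderiv ℝ (fderiv ℝ g) x v e := by
  have h := (opc_fderiv_differentiableAt hg).hasFDerivAt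
  have h2 := h.clm_apply (hasFDerivAt_const e x)
  rw [h2.fderiv]
  simp

/-- second derivative form of the Laplacian used below. -/
theorem opc_laplacian_eq (g : E → F) (hg : ContDiffAt ℝ 2 g x) :
    Laplacian.laplacian g x = ∑ i, fderiv ℝ (fun y => fderiv ℝ g y (stdOrthonormalBasis ℝ E i)) x
      (stdOrthonormalBasis ℝ E i) := by
  rw [InnerProductSpace.laplacian_eq_iteratedFDeriv_stdOrthonormalBasis]
  refine Finset.sum_congr rfl fun i _ => ?_
  rw [iteratedFDeriv_two_apply, opc_fderiv_dir hg]
  simp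

theorem opc_scalar (η : E → ℝ) (f : E → ℝ) (x : E) :
    opA η f x = - Laplacian.laplacian f x
      - inner ℝ (gradient (fun y => Real.log (η y)) x) (gradient f x) := by
  unfold opA
  rw [real_inner_comm, inner_gradient_left]

theorem opc_grad_log (hη : DifferentiableAt ℝ η x) (hpos : 0 < η x) :
    gradient (fun y => Real.log (η y)) x = (η x)⁻¹ • gradient η x := by
  rw [ws_gradient_comp (Real.differentiableAt_log hpos.ne') hη, Real.deriv_log]

theorem opc_congr_nhds {f g : E → F} (h : f =ᶠ[𝓝 x] g) : opA η f x = opA η g x := by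
  unfold opA
  rw [(InnerProductSpace.laplacian_congr_nhds h).eq_of_nhds, h.fderiv_eq]

theorem opc_const (c : F) : opA η (fun _ : E => c) x = 0 := by
  unfold opA
  simp

theorem opc_add {f g : E → F} (hf : ContDiffAt ℝ 2 f x) (hg : ContDiffAt ℝ 2 g x) :
    opA η (fun y => f y + g y) x = opA η f x + opA η g x := by
  unfold opA
  have e : (fun y => f y + g y) = f + g := rfl
  rw [e, hf.laplacian_add hg, fderiv_add (hf.differentiableAt (by simp))
    (hg.differentiableAt (by simp))]
  simp only [_root_.add_apply]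
  abel

theorem opc_const_smul (c : ℝ) {f : E → F} (hf : ContDiffAt ℝ 2 f x) :
    opA η (fun y => c • f y) x = c • opA η f x := by
  unfold opA
  have e : (fun y => c • f y) = c • f := rfl
  rw [e, InnerProductSpace.laplacian_smul c hf, fderiv_const_smul (hf.differentiableAt (by simp))]
  simp only [_root_.smul_apply, smul_sub, smul_neg]

theorem opc_sub {f g : E → F} (hf : ContDiffAt ℝ 2 f x) (hg : ContDiffAt ℝ 2 g x) :
    opA η (fun y => f y - g y) x = opA η f x - opA η g x := by
  have h1 : ContDiffAt ℝ 2 (fun y => (-1 : ℝ) • g y) x := contDiffAt_const.smul hg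
  have := opc_add (η := η) hf h1
  rw [opc_const_smul (-1) hg] at this
  simpa [sub_eq_add_neg] using this

theorem opc_sum {ι : Type} (s : Finset ι) {f : ι → E → F} (hf : ∀ i ∈ s, ContDiffAt ℝ 2 (f i) x) :
    opA η (fun y => ∑ i ∈ s, f i y) x = ∑ i ∈ s, opA η (f i) x := by
  classical
  induction s using Finset.induction_on with
  | empty => simpa using opc_const (η := η) (x := x) (0 : F)
  | insert a s ha ih =>
    simp only [Finset.sum_insert ha]
    rw [opc_add (hf a (Finset.mem_insert_self a s))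
      (ContDiffAt.sum fun i hi => hf i (Finset.mem_insert_of_mem hi)),
      ih fun i hi => hf i (Finset.mem_insert_of_mem hi)]

/-- `A_η` commutes with continuous linear maps (componentwise action). -/
theorem opc_clm (L : F →L[ℝ] G) {g : E → F} (hg : ContDiffAt ℝ 2 g x) :
    opA η (fun y => L (g y)) x = L (opA η g x) := by
  unfold opA
  have e : (fun y => L (g y)) = L ∘ g := rfl
  have h1 := (L.hasFDerivAt (x := g x)).comp x (hg.differentiableAt (by simp)).hasFDerivAt
  rw [e, hg.laplacian_CLM_comp_left, h1.fderiv]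
  simp

theorem opc_smul_const {f : E → ℝ} (hf : ContDiffAt ℝ 2 f x) (c : F) :
    opA η (fun y => f y • c) x = opA η f x • c := by
  have := opc_clm (η := η) (ContinuousLinearMap.toSpanSingleton ℝ c) hf
  simpa using this

/-- `∑ i, Df(e i) • T (e i) = T (∇ f)`. -/
theorem opc_sum_basis (f : E → ℝ) (T : E →L[ℝ] F) (x : E) :
    ∑ i, fderiv ℝ f x (stdOrthonormalBasis ℝ E i) • T (stdOrthonormalBasis ℝ E i)
      = T (gradient f x) := by
  conv_rhs => rw [← (stdOrthonormalBasis ℝ E).sum_repr' (gradient f x)]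
  rw [map_sum]
  refine Finset.sum_congr rfl fun i _ => ?_
  rw [map_smul, real_inner_comm, inner_gradient_left]

/-- Leibniz rule for the Laplacian, scalar times field. -/
theorem opc_laplacian_smul {f : E → ℝ} {g : E → F} (hf : ContDiffAt ℝ 2 f x)
    (hg : ContDiffAt ℝ 2 g x) :
    Laplacian.laplacian (fun y => f y • g y) x
      = f x • Laplacian.laplacian g x + Laplacian.laplacian f x • g x
        + (2 : ℝ) • fderiv ℝ g x (gradient f x) := by
  have hfg : ContDiffAt ℝ 2 (fun y => f y • g y) x := hf.smul hg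
  rw [opc_laplacian_eq _ hfg, opc_laplacian_eq _ hf, opc_laplacian_eq _ hg,
    ← opc_sum_basis f (fderiv ℝ g x) x, Finset.smul_sum, Finset.sum_smul, Finset.smul_sum,
    ← Finset.sum_add_distrib, ← Finset.sum_add_distrib]
  refine Finset.sum_congr rfl fun i _ => ?_
  set e := stdOrthonormalBasis ℝ E i with he
  have hev : (fun y => fderiv ℝ (fun z => f z • g z) y e)
      =ᶠ[𝓝 x] fun y => f y • fderiv ℝ g y e + fderiv ℝ f y e • g y := by
    filter_upwards [hf.eventually (by simp), hg.eventually (by simp)] with y h1 h2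
    rw [fderiv_fun_smul (h1.differentiableAt (by simp)) (h2.differentiableAt (by simp))]
    simp
  rw [hev.fderiv_eq]
  have d1 : HasFDerivAt f (fderiv ℝ f x) x := (hf.differentiableAt (by simp)).hasFDerivAt
  have d2 : HasFDerivAt g (fderiv ℝ g x) x := (hg.differentiableAt (by simp)).hasFDerivAt
  have d3 : HasFDerivAt (fun y => fderiv ℝ f y e) (fderiv ℝ (fun y => fderiv ℝ f y e) x) x :=
    ((opc_fderiv_differentiableAt hf).clm_apply (differentiableAt_const e)).hasFDerivAt
  have d4 : HasFDerivAt (fun y => fderiv ℝ g y e) (fderiv ℝ (fun y => fderiv ℝ g y e) x) x :=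
    ((opc_fderiv_differentiableAt hg).clm_apply (differentiableAt_const e)).hasFDerivAt
  have d5 := (d1.smul d4).add (d3.smul d2)
  have e5 : (fun y => f y • fderiv ℝ g y e + fderiv ℝ f y e • g y)
      = (f • fun y => fderiv ℝ g y e) + (fun y => fderiv ℝ f y e) • g := rfl
  rw [e5, d5.fderiv]
  simp only [_root_.add_apply, _root_.smul_apply, ContinuousLinearMap.smulRight_apply, two_smul]
  abel

/-- product rule, scalar times field. -/
theorem opc_smul {f : E → ℝ} {g : E → F} (hf : ContDiffAt ℝ 2 f x) (hg : ContDiffAt ℝ 2 g x) :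
    opA η (fun y => f y • g y) x
      = f x • opA η g x + opA η f x • g x - (2 : ℝ) • fderiv ℝ g x (gradient f x) := by
  unfold opA
  rw [opc_laplacian_smul hf hg,
    fderiv_fun_smul (hf.differentiableAt (by simp)) (hg.differentiableAt (by simp))]
  simp only [_root_.add_apply, _root_.smul_apply, ContinuousLinearMap.smulRight_apply, smul_sub,
    sub_smul, smul_neg, neg_smul]
  abel

/-- product rule (carré du champ). -/
theorem opc_mul {f g : E → ℝ} (hf : ContDiffAt ℝ 2 f x) (hg : ContDiffAt ℝ 2 g x) :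
    opA η (fun y => f y * g y) x
      = f x * opA η g x + g x * opA η f x - 2 * inner ℝ (gradient f x) (gradient g x) := by
  have := opc_smul (η := η) hf hg
  simp only [smul_eq_mul] at this
  rw [this, real_inner_comm, inner_gradient_left]
  ring


theorem opc_deriv_hasDerivAt {Θ : ℝ → ℝ} {t : ℝ} (hΘ : ContDiffAt ℝ 2 Θ t) :
    HasDerivAt (deriv Θ) (deriv (deriv Θ) t) t := by
  have h1 : DifferentiableAt ℝ (fun y => fderiv ℝ Θ y 1) t :=
    (opc_fderiv_differentiableAt (E := ℝ) hΘ).clm_apply (differentiableAt_const 1)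
  have e : (fun y => fderiv ℝ Θ y 1) = deriv Θ := by
    funext y
    simp
  rw [e] at h1
  exact h1.hasDerivAt

/-- chain rule for the Laplacian. -/
theorem opc_laplacian_comp {Θ : ℝ → ℝ} {f : E → ℝ} (hΘ : ContDiffAt ℝ 2 Θ (f x))
    (hf : ContDiffAt ℝ 2 f x) :
    Laplacian.laplacian (fun y => Θ (f y)) x
      = deriv Θ (f x) * Laplacian.laplacian f x + deriv (deriv Θ) (f x) * ‖gradient f x‖ ^ 2 := by
  have hc : ContDiffAt ℝ 2 (fun y => Θ (f y)) x := hΘ.comp x hf
  have hn : ‖gradient f x‖ ^ 2
      = ∑ i, fderiv ℝ f x (stdOrthonormalBasis ℝ E i) * fderiv ℝ f x (stdOrthonormalBasis ℝ E i) := by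
    have := opc_sum_basis f (fderiv ℝ f x) x
    simp only [smul_eq_mul] at this
    rw [this, ← inner_gradient_left, real_inner_self_eq_norm_sq]
  rw [opc_laplacian_eq _ hc, opc_laplacian_eq _ hf, hn, Finset.mul_sum, Finset.mul_sum,
    ← Finset.sum_add_distrib]
  refine Finset.sum_congr rfl fun i _ => ?_
  set e := stdOrthonormalBasis ℝ E i with he
  have hev : (fun y => fderiv ℝ (fun z => Θ (f z)) y e)
      =ᶠ[𝓝 x] fun y => deriv Θ (f y) * fderiv ℝ f y e := by
    have h0 : ∀ᶠ y in 𝓝 x, ContDiffAt ℝ 2 Θ (f y) :=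
      hf.continuousAt.eventually (hΘ.eventually (by simp))
    filter_upwards [hf.eventually (by simp), h0] with y h1 h2
    have h3 := (h2.differentiableAt (by simp)).hasDerivAt.comp_hasFDerivAt y
      (h1.differentiableAt (by simp)).hasFDerivAt
    have e3 : (fun z => Θ (f z)) = Θ ∘ f := rfl
    rw [e3, h3.fderiv]
    simp
  rw [hev.fderiv_eq]
  have d1 : HasFDerivAt f (fderiv ℝ f x) x := (hf.differentiableAt (by simp)).hasFDerivAt
  have d3 : HasFDerivAt (fun y => fderiv ℝ f y e) (fderiv ℝ (fun y => fderiv ℝ f y e) x) x :=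
    ((opc_fderiv_differentiableAt hf).clm_apply (differentiableAt_const e)).hasFDerivAt
  have d4 := (opc_deriv_hasDerivAt hΘ).comp_hasFDerivAt x d1
  have d5 := d4.mul d3
  have e5 : (fun y => deriv Θ (f y) * fderiv ℝ f y e)
      = (deriv Θ ∘ f) * fun y => fderiv ℝ f y e := rfl
  rw [e5, d5.fderiv]
  simp only [_root_.add_apply, _root_.smul_apply, Function.comp, smul_eq_mul]
  ring

/-- chain rule. -/
theorem opc_comp {Θ : ℝ → ℝ} {f : E → ℝ} (hΘ : ContDiffAt ℝ 2 Θ (f x)) (hf : ContDiffAt ℝ 2 f x) :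
    opA η (fun y => Θ (f y)) x
      = deriv Θ (f x) * opA η f x - deriv (deriv Θ) (f x) * ‖gradient f x‖ ^ 2 := by
  unfold opA
  have h3 := (hΘ.differentiableAt (by simp)).hasDerivAt.comp_hasFDerivAt x
    (hf.differentiableAt (by simp)).hasFDerivAt
  have e3 : (fun z => Θ (f z)) = Θ ∘ f := rfl
  rw [opc_laplacian_comp hΘ hf, e3, h3.fderiv]
  simp only [_root_.smul_apply, smul_eq_mul]
  ring

theorem opc_id (η : E → ℝ) (x : E) :
    opA η (fun y : E => y) x = - gradient (fun y => Real.log (η y)) x := by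
  unfold opA
  have h0 : Laplacian.laplacian (fun y : E => y) x = 0 := by
    rw [opc_laplacian_eq (fun y : E => y) contDiffAt_id]
    refine Finset.sum_eq_zero fun i _ => ?_
    have : (fun y : E => fderiv ℝ (fun y : E => y) y (stdOrthonormalBasis ℝ E i))
        = fun _ => stdOrthonormalBasis ℝ E i := by
      funext y
      simp
    rw [this]
    simp
  rw [h0]
  simp

/-- flat case. -/
theorem opc_one (g : E → F) (x : E) : opA (fun _ : E => (1 : ℝ)) g x = - Laplacian.laplacian g x := by
  unfold opA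
  simp

theorem opc_laplacian_contDiff {g : E → F} (hg : ContDiff ℝ ∞ g) :
    ContDiff ℝ ∞ (Laplacian.laplacian g) := by
  have e : Laplacian.laplacian g = fun x => ∑ i, fderiv ℝ
      (fun y => fderiv ℝ g y (stdOrthonormalBasis ℝ E i)) x (stdOrthonormalBasis ℝ E i) := by
    funext x
    exact opc_laplacian_eq g (hg.contDiffAt.of_le (WithTop.coe_le_coe.2 le_top))
  rw [e]
  refine ContDiff.sum fun i _ => ?_
  have h1 : ContDiff ℝ ∞ (fun y => fderiv ℝ g y (stdOrthonormalBasis ℝ E i)) :=
    (hg.fderiv_right (m := ∞) (by simp)).clm_apply contDiff_const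
  exact (h1.fderiv_right (m := ∞) (by simp)).clm_apply contDiff_const

theorem opc_gradient_contDiff {f : E → ℝ} (hf : ContDiff ℝ ∞ f) : ContDiff ℝ ∞ (gradient f) :=
  (InnerProductSpace.toDual ℝ E).symm.contDiff.comp (hf.fderiv_right (m := ∞) (by simp))

theorem opc_contDiff (hη : ContDiff ℝ ∞ η) (hpos : ∀ x, 0 < η x) {g : E → F}
    (hg : ContDiff ℝ ∞ g) : ContDiff ℝ ∞ (opA η g) := by
  unfold opA
  have h1 : ContDiff ℝ ∞ (fun y => Real.log (η y)) := hη.log fun x => (hpos x).ne'
  exact (opc_laplacian_contDiff hg).neg.sub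
    ((hg.fderiv_right (m := ∞) (by simp)).clm_apply (opc_gradient_contDiff h1))

theorem opc_tsupport_subset (η : E → ℝ) (g : E → F) : tsupport (opA η g) ⊆ tsupport g := by
  refine closure_minimal ?_ (isClosed_tsupport g)
  intro x hx
  by_contra hx'
  apply hx
  have h1 : g =ᶠ[𝓝 x] fun _ => (0 : F) := by
    rw [notMem_tsupport_iff_eventuallyEq] at hx'
    exact hx'
  rw [opc_congr_nhds h1, opc_const]

theorem opc_hasCompactSupport (η : E → ℝ) {g : E → F} (hg : HasCompactSupport g) :
    HasCompactSupport (opA η g) :=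
  hg.of_isClosed_subset (isClosed_tsupport _) (opc_tsupport_subset η g)

theorem opc_isTest (hη : ContDiff ℝ ∞ η) (hpos : ∀ x, 0 < η x) {f : E → ℝ} (hf : IsTest f) :
    IsTest (opA η f) :=
  ⟨opc_contDiff hη hpos hf.1, opc_hasCompactSupport η hf.2⟩

/-- divergence form: `η A_η f = - div (η ∇ f)`. -/
theorem opc_div_form (hη : DifferentiableAt ℝ η x) (hpos : 0 < η x) {f : E → ℝ}
    (hf : ContDiffAt ℝ 2 f x) :
    η x * opA η f x = - ∑ i, fderiv ℝ (fun y => η y * fderiv ℝ f y (stdOrthonormalBasis ℝ E i)) x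
      (stdOrthonormalBasis ℝ E i) := by
  unfold opA
  rw [opc_grad_log hη hpos, opc_laplacian_eq _ hf, map_smul, ← opc_sum_basis η (fderiv ℝ f x) x]
  have key : ∀ i, fderiv ℝ (fun y => η y * fderiv ℝ f y (stdOrthonormalBasis ℝ E i)) x
      (stdOrthonormalBasis ℝ E i)
      = η x * fderiv ℝ (fun y => fderiv ℝ f y (stdOrthonormalBasis ℝ E i)) x
          (stdOrthonormalBasis ℝ E i)
        + fderiv ℝ η x (stdOrthonormalBasis ℝ E i) * fderiv ℝ f x (stdOrthonormalBasis ℝ E i) := by
    intro i
    set e := stdOrthonormalBasis ℝ E i with he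
    have d3 : HasFDerivAt (fun y => fderiv ℝ f y e) (fderiv ℝ (fun y => fderiv ℝ f y e) x) x :=
      ((opc_fderiv_differentiableAt hf).clm_apply (differentiableAt_const e)).hasFDerivAt
    have d5 := hη.hasFDerivAt.mul d3
    have e5 : (fun y => η y * fderiv ℝ f y e) = η * fun y => fderiv ℝ f y e := rfl
    rw [e5, d5.fderiv]
    simp only [_root_.add_apply, _root_.smul_apply, smul_eq_mul]
    ring
  simp only [key, Finset.sum_add_distrib, smul_eq_mul, ← Finset.mul_sum]
  field_simp
  ring

/-- components of a field. -/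
theorem opc_inner_left {F' : Type} [NormedAddCommGroup F'] [InnerProductSpace ℝ F'] (e : F')
    {g : E → F'} (hg : ContDiffAt ℝ 2 g x) :
    opA η (fun y => inner ℝ e (g y)) x = inner ℝ e (opA η g x) :=
  opc_clm (innerSL ℝ e) hg

/-- coordinates. -/
theorem opc_inner_id (η : E → ℝ) (e x : E) :
    opA η (fun y => inner ℝ e y) x = - inner ℝ e (gradient (fun y => Real.log (η y)) x) := by
  rw [opc_inner_left (g := fun y : E => y) e contDiffAt_id, opc_id, inner_neg_right]

end Claimed.Agent.R259
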