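/-
Row 259 (S0499), sections 2-3 of the paper: shared definitions of the analytic layer.
Owner: helper83.

Conventions.  `E` is a finite dimensional real inner product space with its Borel structure and its
volume measure, `EE n = EuclideanSpace ℝ (Fin n)`.  All cross-section interfaces are CLASSICAL:
honest smooth functions, pointwise identities, integrals.
-/
import Mathlib

set_option autoImplicit false

open MeasureTheory Filter Topology
open scoped ContDiff ENNReal

namespace Claimed.Agent.R259

/-- Euclidean space. -/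
abbrev EE (n : ℕ) := EuclideanSpace ℝ (Fin n)

section generic

variable {E : Type} [NormedAddCommGroup E] [InnerProductSpace ℝ E] [FiniteDimensional ℝ E]
  [MeasurableSpace E] [BorelSpace E]

/-- The measure with Lebesgue density `ρ` (negative values of `ρ` are cut off). -/
noncomputable def dm (ρ : E → ℝ) : Measure E :=
  volume.withDensity (fun x => ENNReal.ofReal (ρ x))

/-- Test functions: smooth with compact support. -/
def IsTest (f : E → ℝ) : Prop := ContDiff ℝ ∞ f ∧ HasCompactSupport f

/-- Entropy functional `∫ g log g - (∫ g) log ∫ g`. -/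
noncomputable def ent {α : Type} [MeasurableSpace α] (m : Measure α) (g : α → ℝ) : ℝ :=
  (∫ x, g x * Real.log (g x) ∂m) - (∫ x, g x ∂m) * Real.log (∫ x, g x ∂m)

/-- Variance functional `∫ g² - (∫ g)²`. -/
noncomputable def vari {α : Type} [MeasurableSpace α] (m : Measure α) (g : α → ℝ) : ℝ :=
  (∫ x, g x ^ 2 ∂m) - (∫ x, g x ∂m) ^ 2

/-- Dirichlet energy `∫ |∇f|²`. -/
noncomputable def nrg (m : Measure E) (f : E → ℝ) : ℝ := ∫ x, ‖gradient f x‖ ^ 2 ∂m

/-- Logarithmic Sobolev inequality `Ent(f²) ≤ 2 R ∫ |∇f|²` on test functions (paper's convention). -/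
def LSI (m : Measure E) (R : ℝ) : Prop :=
  ∀ f : E → ℝ, IsTest f → ent m (fun x => f x ^ 2) ≤ 2 * R * nrg m f

/-- Poincare inequality `Var(f) ≤ R ∫ |∇f|²` on test functions. -/
def PI (m : Measure E) (R : ℝ) : Prop :=
  ∀ f : E → ℝ, IsTest f → vari m f ≤ R * nrg m f

/-- `R` is the optimal LSI constant. -/
def LSIsharp (m : Measure E) (R : ℝ) : Prop := LSI m R ∧ ∀ R' < R, ¬ LSI m R'

/-- `R` is the optimal Poincare constant. -/
def PIsharp (m : Measure E) (R : ℝ) : Prop := PI m R ∧ ∀ R' < R, ¬ PI m R'

/-- Log-concave function (multiplicative form; no semicontinuity is required). -/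
def LogConc (q : E → ℝ) : Prop :=
  Measurable q ∧ (∀ x, 0 ≤ q x) ∧
    ∀ x y : E, ∀ t : ℝ, 0 < t → t < 1 → q x ^ (1 - t) * q y ^ t ≤ q ((1 - t) • x + t • y)

/-- Smooth strictly positive probability density. -/
def SPD (η : E → ℝ) : Prop := ContDiff ℝ ∞ η ∧ (∀ x, 0 < η x) ∧ ∫ x, η x = 1

/-- The diffusion operator `A_η g = -Δ g - ⟨∇ log η, ∇ g⟩` on classical functions with values in any
normed space (scalars, vector fields, tensor fields: componentwise action). -/
noncomputable def opA {F : Type} [NormedAddCommGroup F] [NormedSpace ℝ F]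
    (η : E → ℝ) (g : E → F) (x : E) : F :=
  - (Laplacian.laplacian g x) - fderiv ℝ g x (gradient (fun y => Real.log (η y)) x)

/-- Squared Hilbert-Schmidt norm of a linear map into a normed space. -/
noncomputable def hsSq {F : Type} [NormedAddCommGroup F] [NormedSpace ℝ F] (T : E →L[ℝ] F) : ℝ :=
  ∑ i, ‖T (stdOrthonormalBasis ℝ E i)‖ ^ 2

/-- The centred Gaussian density of covariance `s • Id`. -/
noncomputable def gk (s : ℝ) (z : E) : ℝ :=
  (2 * Real.pi * s) ^ (-(Module.finrank ℝ E : ℝ) / 2) * Real.exp (-‖z‖ ^ 2 / (2 * s))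

/-- Density of `μ * N(0, s Id)`. -/
noncomputable def gconv (μ : Measure E) (s : ℝ) (y : E) : ℝ := ∫ x, gk s (y - x) ∂μ

/-- Posterior mean `b_s(y) = E[X | X + √s G = y]`. -/
noncomputable def postMean (μ : Measure E) (s : ℝ) (y : E) : E :=
  (gconv μ s y)⁻¹ • ∫ x, gk s (y - x) • x ∂μ

/-- Posterior covariance quadratic form `⟨u, Cov(X | y) v⟩`. -/
noncomputable def postCov (μ : Measure E) (s : ℝ) (y u v : E) : ℝ :=
  (gconv μ s y)⁻¹ * ∫ x, gk s (y - x) * (inner ℝ (x - postMean μ s y) u *
    inner ℝ (x - postMean μ s y) v) ∂μ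

/-- The potential `V_s = - log μ_s`. -/
noncomputable def potV (μ : Measure E) (s : ℝ) (y : E) : ℝ := - Real.log (gconv μ s y)

/-- `K_s = D² V_s` as a continuous linear map. -/
noncomputable def hessK (μ : Measure E) (s : ℝ) (y : E) : E →L[ℝ] E :=
  fderiv ℝ (gradient (potV μ s)) y

/-- Bounded support. -/
def BddSupp (μ : Measure E) : Prop := ∃ r : ℝ, μ (Metric.closedBall 0 r)ᶜ = 0

/-- `g` is the weak (distributional, with respect to Lebesgue measure) gradient of `u`. -/
def WeakGrad (u : E → ℝ) (g : E → E) : Prop :=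
  LocallyIntegrable u volume ∧ LocallyIntegrable g volume ∧
    ∀ ζ : E → ℝ, IsTest ζ → ∫ x, u x • gradient ζ x = - ∫ x, ζ x • g x

/-- The weighted Sobolev space `H¹(m)`: `u ∈ L²(m)` with weak gradient `g ∈ L²(m)`. -/
def H1 (m : Measure E) (u : E → ℝ) (g : E → E) : Prop :=
  WeakGrad u g ∧ MemLp u 2 m ∧ MemLp g 2 m

end generic

/-- The regularisation time fixed by the paper. -/
noncomputable def s0 : ℝ := 1 / 8

/-- generates the equation lemmas of the definitions above in this file (rule 6: unique names) -/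
theorem s3defs_eqns_cite : True := by
  have := @dm.eq_1
  have := @IsTest.eq_1
  have := @ent.eq_1
  have := @vari.eq_1
  have := @nrg.eq_1
  have := @LSI.eq_1
  have := @PI.eq_1
  have := @LSIsharp.eq_1
  have := @PIsharp.eq_1
  have := @LogConc.eq_1
  have := @SPD.eq_1
  have := @opA.eq_1
  have := @hsSq.eq_1
  have := @gk.eq_1
  have := @gconv.eq_1
  have := @postMean.eq_1
  have := @postCov.eq_1
  have := @potV.eq_1
  have := @hessK.eq_1
  have := @BddSupp.eq_1
  have := @WeakGrad.eq_1
  have := @H1.eq_1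
  have := @s0.eq_1
  have := @hsSq.congr_simp
  have := @dm.congr_simp
  have := @LSI.congr_simp
  have := @nrg.congr_simp
  have := @opA.congr_simp
  trivial

end Claimed.Agent.R259
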