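/- Packed by merge_tool.py (helper293): 4 modules of Claimed.Agent.R259 in one file, same declarations.
   Old modules, in this order: GcKernel, GcSmoothPar, GcSmoothKer, GcSmooth -/
import Claimed.Agent.R259.S3Defs
import Mathlib

/- ===== packed: Claimed.Agent.R259.GcKernel ===== -/
section
/-
Row 259, kit GC-A (Gaussian kernel, law of X + sqrt(s) G, disintegration, semigroup).  EXPORTS (statements fixed by sub-captain helper83).
DONE (helper221): all statements proved, Mathlib only.  Extra exports (prefix `gck_`): gck_continuous, gck_measurable,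
gck_integrable, gck_le (sup bound), gck_dm_prob, gck_integral_dm (integral against `dm ρ`), gck_mul_gen (completing the
square), gck_conv (Gaussian convolution identity), gck_joint_lintegral, gck_joint_law (joint law of (X, X + sqrt(s) G) as a
density w.r.t. μ x volume), gck_gconv_integrable, gck_gconv_ofReal, gck_gconv_nonneg, gck_gconv_measurable.
-/
set_option autoImplicit false
set_option linter.unusedSectionVars false
set_option linter.style.haveILetI false

open MeasureTheory Filter Topology ProbabilityTheory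
open scoped ContDiff ENNReal

namespace Claimed.Agent.R259

variable {E : Type} [NormedAddCommGroup E] [InnerProductSpace ℝ E] [FiniteDimensional ℝ E]
  [MeasurableSpace E] [BorelSpace E]

theorem gc_gk_pos {s : ℝ} (hs : 0 < s) (z : E) : 0 < gk s z := by
  unfold gk
  have : 0 < 2 * Real.pi * s := by positivity
  exact mul_pos (Real.rpow_pos_of_pos this _) (Real.exp_pos _)

theorem gc_gk_contDiff {s : ℝ} (hs : 0 < s) : ContDiff ℝ ∞ (gk s : E → ℝ) := by
  unfold gk
  exact contDiff_const.mul (Real.contDiff_exp.comp ((contDiff_norm_sq ℝ).neg.div_const _))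

theorem gck_continuous (s : ℝ) : Continuous (gk s : E → ℝ) := by
  unfold gk
  fun_prop

theorem gck_measurable (s : ℝ) : Measurable (gk s : E → ℝ) := (gck_continuous s).measurable

theorem gck_exp_form (s : ℝ) (z : E) :
    Real.exp (-‖z‖ ^ 2 / (2 * s)) = Real.exp (-(1 / (2 * s)) * ‖z‖ ^ 2) := by
  congr 1
  ring

theorem gck_integrable {s : ℝ} (hs : 0 < s) : Integrable (gk s : E → ℝ) := by
  unfold gk
  apply Integrable.const_mul
  have hb : 0 < ((1 / (2 * s) : ℝ) : ℂ).re := by
    rw [Complex.ofReal_re]; positivity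
  have h := (GaussianFourier.integrable_cexp_neg_mul_sq_norm_add (V := E) hb 0 0).re
  refine h.congr (Eventually.of_forall fun z => ?_)
  simp only [zero_mul, add_zero]
  rw [gck_exp_form]
  have : -((1 / (2 * s) : ℝ) : ℂ) * (‖z‖ : ℂ) ^ 2 = ((-(1 / (2 * s)) * ‖z‖ ^ 2 : ℝ) : ℂ) := by
    push_cast; ring
  rw [this]
  show (Complex.exp _).re = _
  rw [← Complex.ofReal_exp, Complex.ofReal_re]

theorem gc_gk_integral {s : ℝ} (hs : 0 < s) : ∫ z : E, gk s z = 1 := by
  unfold gk
  rw [integral_const_mul]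
  simp_rw [gck_exp_form]
  rw [GaussianFourier.integral_rexp_neg_mul_sq_norm (V := E) (by positivity : 0 < 1 / (2 * s))]
  have h1 : Real.pi / (1 / (2 * s)) = 2 * Real.pi * s := by
    field_simp
  rw [h1, ← Real.rpow_add (by positivity)]
  have : -(Module.finrank ℝ E : ℝ) / 2 + (Module.finrank ℝ E : ℝ) / 2 = 0 := by ring
  rw [this, Real.rpow_zero]

theorem gck_le {s : ℝ} (hs : 0 < s) (z : E) :
    gk s z ≤ (2 * Real.pi * s) ^ (-(Module.finrank ℝ E : ℝ) / 2) := by
  unfold gk
  have h0 : 0 < (2 * Real.pi * s) ^ (-(Module.finrank ℝ E : ℝ) / 2) :=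
    Real.rpow_pos_of_pos (by positivity) _
  have h1 : Real.exp (-‖z‖ ^ 2 / (2 * s)) ≤ 1 := by
    rw [Real.exp_le_one_iff]
    have : 0 ≤ ‖z‖ ^ 2 / (2 * s) := by positivity
    rw [neg_div]
    linarith
  calc _ ≤ (2 * Real.pi * s) ^ (-(Module.finrank ℝ E : ℝ) / 2) * 1 :=
        mul_le_mul_of_nonneg_left h1 h0.le
    _ = _ := mul_one _

theorem gck_dm_prob {s : ℝ} (hs : 0 < s) : IsProbabilityMeasure (dm (gk s : E → ℝ)) := by
  constructor
  unfold dm
  rw [withDensity_apply _ MeasurableSet.univ, Measure.restrict_univ,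
    ← ofReal_integral_eq_lintegral_ofReal (gck_integrable hs)
      (Eventually.of_forall fun z => (gc_gk_pos hs z).le), gc_gk_integral hs,
    ENNReal.ofReal_one]

/-- integral against `dm ρ` -/
theorem gck_integral_dm {F : Type} [NormedAddCommGroup F] [NormedSpace ℝ F] {ρ : E → ℝ}
    (hρ : Measurable ρ) (h0 : ∀ x, 0 ≤ ρ x) (g : E → F) :
    ∫ x, g x ∂(dm ρ) = ∫ x, ρ x • g x := by
  unfold dm
  rw [integral_withDensity_eq_integral_toReal_smul (by fun_prop)
    (Eventually.of_forall fun x => ENNReal.ofReal_lt_top)]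
  simp_rw [ENNReal.toReal_ofReal (h0 _)]

/-- `dm (gk s)` is the law of `√s G`. -/
theorem gc_dm_gk {s : ℝ} (hs : 0 < s) :
    dm (gk s : E → ℝ) = (stdGaussian E).map (fun z => Real.sqrt s • z) := by
  haveI := gck_dm_prob (E := E) hs
  haveI : IsProbabilityMeasure ((stdGaussian E).map (fun z => Real.sqrt s • z)) :=
    Measure.isProbabilityMeasure_map (by fun_prop)
  apply Measure.ext_of_charFun
  ext t
  have hR : charFun ((stdGaussian E).map (fun z => Real.sqrt s • z)) t
      = Complex.exp (-(s * ‖t‖ ^ 2 : ℝ) / 2) := by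
    rw [charFun_apply, integral_map (by fun_prop) (by fun_prop)]
    have : ∀ z : E, inner ℝ (Real.sqrt s • z) t = inner ℝ z (Real.sqrt s • t) := by
      intro z
      rw [real_inner_smul_left, real_inner_smul_right]
    simp_rw [this]
    rw [← charFun_apply, charFun_stdGaussian, norm_smul, Real.norm_eq_abs,
      abs_of_nonneg (Real.sqrt_nonneg s)]
    congr 2
    push_cast
    rw [mul_pow, ← Complex.ofReal_pow, Real.sq_sqrt hs.le]
  rw [hR, charFun_apply, gck_integral_dm (gck_measurable s) (fun z => (gc_gk_pos hs z).le)]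
  have hpos : (0 : ℝ) < 2 * Real.pi * s := by positivity
  have e : ∀ x : E, gk s x • Complex.exp ((inner ℝ x t : ℝ) * Complex.I)
      = (((2 * Real.pi * s) ^ (-(Module.finrank ℝ E : ℝ) / 2) : ℝ) : ℂ)
        * Complex.exp (-((1 / (2 * s) : ℝ) : ℂ) * (‖x‖ : ℂ) ^ 2 + Complex.I * (inner ℝ t x : ℝ)) := by
    intro x
    unfold gk
    rw [Complex.real_smul, Complex.exp_add, real_inner_comm, gck_exp_form]
    push_cast
    rw [mul_comm Complex.I, mul_assoc]
  simp_rw [e]
  rw [integral_const_mul, GaussianFourier.integral_cexp_neg_mul_sq_norm_add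
    (by rw [Complex.ofReal_re]; positivity)]
  have h1 : ((Real.pi : ℂ) / ((1 / (2 * s) : ℝ) : ℂ)) ^ ((Module.finrank ℝ E : ℂ) / 2)
      = (((2 * Real.pi * s) ^ ((Module.finrank ℝ E : ℝ) / 2) : ℝ) : ℂ) := by
    rw [Complex.ofReal_cpow hpos.le]
    push_cast
    congr 1
    field_simp
  have h2 : Complex.I ^ 2 * (‖t‖ : ℂ) ^ 2 / (4 * ((1 / (2 * s) : ℝ) : ℂ))
      = -((s * ‖t‖ ^ 2 : ℝ) : ℂ) / 2 := by
    rw [Complex.I_sq]
    push_cast
    have : (s : ℂ) ≠ 0 := by exact_mod_cast hs.ne'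
    field_simp
    ring
  rw [h1, h2, ← mul_assoc, ← Complex.ofReal_mul, ← Real.rpow_add hpos]
  have : -(Module.finrank ℝ E : ℝ) / 2 + (Module.finrank ℝ E : ℝ) / 2 = 0 := by ring
  rw [this, Real.rpow_zero, Complex.ofReal_one, one_mul]


/-- general product formula (completing the square) -/
theorem gck_mul_gen {s t : ℝ} (hs : 0 < s) (ht : 0 < t) (a w : E) :
    gk t (a - w) * gk s w = gk (s + t) a * gk (s * t / (s + t)) (w - (s / (s + t)) • a) := by
  unfold gk
  have hst : 0 < s + t := by positivity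
  have hc : (2 * Real.pi * t) ^ (-(Module.finrank ℝ E : ℝ) / 2)
        * (2 * Real.pi * s) ^ (-(Module.finrank ℝ E : ℝ) / 2)
      = (2 * Real.pi * (s + t)) ^ (-(Module.finrank ℝ E : ℝ) / 2)
        * (2 * Real.pi * (s * t / (s + t))) ^ (-(Module.finrank ℝ E : ℝ) / 2) := by
    rw [← Real.mul_rpow (by positivity) (by positivity),
      ← Real.mul_rpow (by positivity) (by positivity)]
    congr 1
    field_simp
  have he : -‖a - w‖ ^ 2 / (2 * t) + -‖w‖ ^ 2 / (2 * s)
      = -‖a‖ ^ 2 / (2 * (s + t)) + -‖w - (s / (s + t)) • a‖ ^ 2 / (2 * (s * t / (s + t))) := by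
    rw [norm_sub_sq_real, norm_sub_sq_real, norm_smul, real_inner_smul_right, Real.norm_eq_abs,
      mul_pow, sq_abs, real_inner_comm]
    field_simp
    ring
  calc _ = ((2 * Real.pi * t) ^ (-(Module.finrank ℝ E : ℝ) / 2)
        * (2 * Real.pi * s) ^ (-(Module.finrank ℝ E : ℝ) / 2))
        * Real.exp (-‖a - w‖ ^ 2 / (2 * t) + -‖w‖ ^ 2 / (2 * s)) := by
        rw [Real.exp_add]; ring
    _ = _ := by
        rw [hc, he, Real.exp_add]; ring

/-- product formula `φ_h(y-x) φ_h(y'-x) = φ_{2h}(y-y') φ_{h/2}(x-(y+y')/2)`. -/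
theorem gc_gk_mul {h : ℝ} (hh : 0 < h) (x y y' : E) :
    gk h (y - x) * gk h (y' - x) = gk (2 * h) (y - y') * gk (h / 2) (x - (1 / 2 : ℝ) • (y + y')) := by
  have hneg : ∀ (r : ℝ) (z : E), gk r (-z) = gk r z := by
    intro r z
    unfold gk
    rw [norm_neg]
  have h1 := gck_mul_gen hh hh (y - y') (x - y')
  have e1 : y - y' - (x - y') = y - x := by abel
  have e2 : h + h = 2 * h := by ring
  have e3 : h * h / (2 * h) = h / 2 := by field_simp
  have e4 : h / (2 * h) = 1 / 2 := by field_simp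
  have e5 : x - y' - (1 / 2 : ℝ) • (y - y') = x - (1 / 2 : ℝ) • (y + y') := by
    have : y' = (1 / 2 : ℝ) • y' + (1 / 2 : ℝ) • y' := by
      rw [← add_smul]; norm_num
    rw [smul_sub, smul_add]
    nth_rewrite 1 [this]
    abel
  rw [e1, e2, e3, e4, e5] at h1
  rw [← h1, ← hneg h (x - y'), neg_sub]

/-- Gaussian convolution identity -/
theorem gck_conv {s t : ℝ} (hs : 0 < s) (ht : 0 < t) (a : E) :
    ∫ w : E, gk t (a - w) * gk s w = gk (s + t) a := by
  simp_rw [gck_mul_gen hs ht]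
  rw [integral_const_mul, integral_sub_right_eq_self (fun w => gk (s * t / (s + t)) w),
    gc_gk_integral (by positivity), mul_one]

variable {μ : Measure E} [IsProbabilityMeasure μ]

/-- the joint law of `(X, X + √s G)` -/
theorem gck_joint_lintegral {s : ℝ} (hs : 0 < s) {f : E × E → ℝ≥0∞} (hf : Measurable f) :
    ∫⁻ p, f (p.1, p.1 + Real.sqrt s • p.2) ∂(μ.prod (stdGaussian E))
      = ∫⁻ p, ENNReal.ofReal (gk s (p.2 - p.1)) * f p ∂(μ.prod volume) := by
  rw [lintegral_prod _ (by fun_prop), lintegral_prod _ (by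
    have := gck_measurable (E := E) s
    fun_prop)]
  refine lintegral_congr fun x => ?_
  have h1 : ∫⁻ z, f (x, x + Real.sqrt s • z) ∂(stdGaussian E)
      = ∫⁻ w, f (x, x + w) ∂(dm (gk s : E → ℝ)) := by
    rw [gc_dm_gk hs, lintegral_map (by fun_prop) (by fun_prop)]
  rw [h1]
  unfold dm
  rw [lintegral_withDensity_eq_lintegral_mul _ (by
    have := gck_measurable (E := E) s
    fun_prop) (by fun_prop)]
  rw [← lintegral_sub_right_eq_self _ x]
  refine lintegral_congr fun y => ?_
  simp only [Pi.mul_apply, add_sub_cancel]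

theorem gck_joint_law {s : ℝ} (hs : 0 < s) :
    (μ.prod (stdGaussian E)).map (fun p => (p.1, p.1 + Real.sqrt s • p.2))
      = (μ.prod volume).withDensity (fun p => ENNReal.ofReal (gk s (p.2 - p.1))) := by
  have hm := gck_measurable (E := E) s
  apply Measure.ext_of_lintegral
  intro f hf
  rw [lintegral_map hf (by fun_prop), gck_joint_lintegral hs hf,
    lintegral_withDensity_eq_lintegral_mul _ (by fun_prop) hf]
  rfl

theorem gck_gconv_integrable {s : ℝ} (hs : 0 < s) (y : E) :
    Integrable (fun x => gk s (y - x)) μ := by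
  have hm := gck_measurable (E := E) s
  refine Integrable.mono' (integrable_const ((2 * Real.pi * s) ^ (-(Module.finrank ℝ E : ℝ) / 2)))
    (hm.comp (by fun_prop)).aestronglyMeasurable (Eventually.of_forall fun x => ?_)
  rw [Real.norm_eq_abs, abs_of_pos (gc_gk_pos hs _)]
  exact gck_le hs _

theorem gck_gconv_ofReal {s : ℝ} (hs : 0 < s) (y : E) :
    ENNReal.ofReal (gconv μ s y) = ∫⁻ x, ENNReal.ofReal (gk s (y - x)) ∂μ := by
  unfold gconv
  exact ofReal_integral_eq_lintegral_ofReal (gck_gconv_integrable hs y)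
    (Eventually.of_forall fun x => (gc_gk_pos hs _).le)

/-- `μ_s` is the law of `X + √s G`. -/
theorem gc_law {s : ℝ} (hs : 0 < s) :
    dm (gconv μ s) = (μ.prod (stdGaussian E)).map (fun p => p.1 + Real.sqrt s • p.2) := by
  have hm := gck_measurable (E := E) s
  apply Measure.ext_of_lintegral
  intro f hf
  rw [lintegral_map hf (by fun_prop)]
  have h := gck_joint_lintegral (μ := μ) hs (f := fun p => f p.2) (by fun_prop)
  rw [h, lintegral_prod_symm _ (by fun_prop)]
  unfold dm
  simp_rw [gck_gconv_ofReal hs]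
  rw [lintegral_withDensity_eq_lintegral_mul _ (by fun_prop) hf]
  refine lintegral_congr fun y => ?_
  simp only [Pi.mul_apply]
  rw [lintegral_mul_const _ (by fun_prop)]

theorem gc_isProb {s : ℝ} (hs : 0 < s) : IsProbabilityMeasure (dm (gconv μ s)) := by
  rw [gc_law hs]
  exact Measure.isProbabilityMeasure_map (by fun_prop)


/-- Disintegration: integrals against the joint law of `(X, X + √s G)`. -/
theorem gc_joint {s : ℝ} (hs : 0 < s) {F : E × E → ℝ}
    (hF : Integrable F ((μ.prod (stdGaussian E)).map (fun p => (p.1, p.1 + Real.sqrt s • p.2)))) :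
    ∫ p, F (p.1, p.1 + Real.sqrt s • p.2) ∂(μ.prod (stdGaussian E)) =
      ∫ y, (∫ x, gk s (y - x) * F (x, y) ∂μ) := by
  have hm := gck_measurable (E := E) s
  have hd : Measurable (fun p : E × E => ENNReal.ofReal (gk s (p.2 - p.1))) := by fun_prop
  rw [← integral_map (φ := fun p : E × E => (p.1, p.1 + Real.sqrt s • p.2)) (by fun_prop)
    hF.aestronglyMeasurable]
  rw [gck_joint_law hs] at hF ⊢
  rw [integral_withDensity_eq_integral_toReal_smul hd
    (Eventually.of_forall fun x => ENNReal.ofReal_lt_top)]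
  rw [integrable_withDensity_iff_integrable_smul' hd
    (Eventually.of_forall fun x => ENNReal.ofReal_lt_top)] at hF
  rw [integral_prod_symm _ hF]
  refine integral_congr_ae (Eventually.of_forall fun y => ?_)
  refine integral_congr_ae (Eventually.of_forall fun x => ?_)
  simp only [ENNReal.toReal_ofReal (gc_gk_pos hs _).le, smul_eq_mul]

theorem gck_gconv_nonneg {s : ℝ} (hs : 0 < s) (y : E) : 0 ≤ gconv μ s y :=
  integral_nonneg fun x => (gc_gk_pos hs _).le

theorem gck_gconv_measurable (s : ℝ) : Measurable (gconv μ s) := by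
  have hm := gck_measurable (E := E) s
  unfold gconv
  have : StronglyMeasurable (fun y => ∫ x, gk s (y - x) ∂μ) :=
    StronglyMeasurable.integral_prod_right (f := fun (y : E) (x : E) => gk s (y - x))
      (Measurable.stronglyMeasurable (by fun_prop))
  exact this.measurable

/-- semigroup property (no support condition). -/
theorem gc_semigroup {s t : ℝ} (hs : 0 < s) (ht : 0 < t) :
    gconv (dm (gconv μ s)) t = gconv μ (s + t) := by
  have hms := gck_measurable (E := E) s
  have hmt := gck_measurable (E := E) t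
  funext y
  show ∫ x', gk t (y - x') ∂(dm (gconv μ s)) = ∫ x, gk (s + t) (y - x) ∂μ
  rw [gck_integral_dm (gck_gconv_measurable s) (gck_gconv_nonneg hs)]
  have h1 : ∀ x' : E, gconv μ s x' • gk t (y - x') = ∫ x, gk t (y - x') * gk s (x' - x) ∂μ := by
    intro x'
    rw [integral_const_mul, smul_eq_mul, mul_comm]
    rfl
  simp_rw [h1]
  rw [integral_integral_swap]
  · refine integral_congr_ae (Eventually.of_forall fun x => ?_)
    show ∫ x', gk t (y - x') * gk s (x' - x) = gk (s + t) (y - x)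
    rw [← gck_conv hs ht (y - x),
      ← integral_sub_right_eq_self (fun w => gk t (y - x - w) * gk s w) x]
    refine integral_congr_ae (Eventually.of_forall fun x' => ?_)
    show _ = gk t (y - x - (x' - x)) * gk s (x' - x)
    rw [sub_sub_sub_cancel_right]
  · have hb : Integrable (fun p : E × E => gk t (y - p.1)
        * (2 * Real.pi * s) ^ (-(Module.finrank ℝ E : ℝ) / 2)) (volume.prod μ) := by
      refine Integrable.mul_prod (f := fun x' : E => gk t (y - x'))
        (g := fun _ : E => (2 * Real.pi * s) ^ (-(Module.finrank ℝ E : ℝ) / 2)) ?_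
        (integrable_const _)
      exact (gck_integrable ht).comp_sub_left y
    refine hb.mono' (Measurable.aestronglyMeasurable (by
      unfold Function.uncurry
      fun_prop)) (Eventually.of_forall fun p => ?_)
    show ‖gk t (y - p.1) * gk s (p.1 - p.2)‖ ≤ _
    rw [Real.norm_eq_abs, abs_of_pos (mul_pos (gc_gk_pos ht _) (gc_gk_pos hs _))]
    exact mul_le_mul_of_nonneg_left (gck_le hs _) (gc_gk_pos ht _).le

end Claimed.Agent.R259
end

/- ===== packed: Claimed.Agent.R259.GcSmoothPar ===== -/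
section
/-
Row 259, kit GC-B, leaf PAR: integrals depending on a parameter, against a finite measure which is carried by
a compact set: differentiation under the integral sign and smoothness.  Owner: helper72.  Mathlib only.
-/
set_option autoImplicit false
set_option linter.unusedSectionVars false

open MeasureTheory Filter Topology Set
open scoped ContDiff ENNReal

namespace Claimed.Agent.R259

variable {P X F : Type} [NormedAddCommGroup P] [NormedSpace ℝ P] [FiniteDimensional ℝ P]
  [NormedAddCommGroup X] [NormedSpace ℝ X] [FiniteDimensional ℝ X] [MeasurableSpace X] [BorelSpace X]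
  [NormedAddCommGroup F] [NormedSpace ℝ F]
  {μ : Measure X} [IsFiniteMeasure μ] {K : Set X}

theorem gcs_ae_mem (hμ : μ Kᶜ = 0) : ∀ᵐ x ∂μ, x ∈ K := by
  exact mem_ae_iff.mpr hμ

theorem gcs_integrable (hK : IsCompact K) (hμ : μ Kᶜ = 0) {f : X → F} (hf : Continuous f) :
    Integrable f μ := by
  obtain ⟨C, hC⟩ := hK.exists_bound_of_continuousOn hf.continuousOn
  refine Integrable.of_bound hf.aestronglyMeasurable C ?_
  filter_upwards [gcs_ae_mem hμ] with x hx using hC x hx

/-- continuity of `x ↦ φ (p, x)`. -/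
theorem gcs_continuous_slice {U : Set P} {φ : P × X → F} (hφ : ContinuousOn φ (U ×ˢ univ)) {p : P}
    (hp : p ∈ U) : Continuous fun x => φ (p, x) := by
  rw [← continuousOn_univ]
  exact hφ.comp (by fun_prop) fun x _ => ⟨hp, mem_univ _⟩

/-- local uniform bound -/
theorem gcs_exists_bound (hK : IsCompact K) {U : Set P} (hU : IsOpen U) {φ : P × X → F}
    (hφ : ContinuousOn φ (U ×ˢ univ)) {p0 : P} (hp0 : p0 ∈ U) :
    ∃ ε > 0, ∃ C : ℝ, Metric.ball p0 ε ⊆ U ∧ ∀ p ∈ Metric.ball p0 ε, ∀ x ∈ K, ‖φ (p, x)‖ ≤ C := by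
  obtain ⟨ε, hε, hsub⟩ := Metric.nhds_basis_closedBall.mem_iff.1 (hU.mem_nhds hp0)
  have hc : IsCompact (Metric.closedBall p0 ε ×ˢ K) := (isCompact_closedBall p0 ε).prod hK
  obtain ⟨C, hC⟩ := hc.exists_bound_of_continuousOn
    (hφ.mono (prod_mono hsub (subset_univ K)))
  exact ⟨ε, hε, C, Metric.ball_subset_closedBall.trans hsub,
    fun p hp x hx => hC (p, x) ⟨Metric.ball_subset_closedBall hp, hx⟩⟩

theorem gcs_continuousOn (hK : IsCompact K) (hμ : μ Kᶜ = 0) {U : Set P} (hU : IsOpen U)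
    {φ : P × X → F} (hφ : ContinuousOn φ (U ×ˢ univ)) :
    ContinuousOn (fun p => ∫ x, φ (p, x) ∂μ) U := by
  intro p0 hp0
  obtain ⟨ε, hε, C, hsub, hC⟩ := gcs_exists_bound hK hU hφ hp0
  refine ContinuousAt.continuousWithinAt ?_
  have hball : ∀ᶠ p in 𝓝 p0, p ∈ Metric.ball p0 ε := Metric.ball_mem_nhds p0 hε
  refine continuousAt_of_dominated (bound := fun _ => C) ?_ ?_ (integrable_const C) ?_
  · filter_upwards [hball] with p hp
    exact (gcs_continuous_slice hφ (hsub hp)).aestronglyMeasurable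
  · filter_upwards [hball] with p hp
    filter_upwards [gcs_ae_mem hμ] with x hx using hC p hp x hx
  · refine Eventually.of_forall fun x => ?_
    have h1 : ContinuousAt φ (p0, x) :=
      hφ.continuousAt ((hU.prod isOpen_univ).mem_nhds ⟨hp0, mem_univ _⟩)
    exact h1.comp (f := fun p => (p, x)) (by fun_prop)

/-- Differentiation under the integral sign. -/
theorem gcs_hasFDerivAt (hK : IsCompact K) (hμ : μ Kᶜ = 0) {U : Set P} (hU : IsOpen U)
    {φ : P → X → F} {φ' : P → X → P →L[ℝ] F} (hφ : ∀ p ∈ U, Continuous (φ p))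
    (hd : ∀ p ∈ U, ∀ x, HasFDerivAt (fun q => φ q x) (φ' p x) p)
    (hc : ContinuousOn (fun q : P × X => φ' q.1 q.2) (U ×ˢ univ)) {p0 : P} (hp0 : p0 ∈ U) :
    HasFDerivAt (fun p => ∫ x, φ p x ∂μ) (∫ x, φ' p0 x ∂μ) p0 := by
  obtain ⟨ε, hε, C, hsub, hC⟩ := gcs_exists_bound hK hU hc hp0
  refine hasFDerivAt_integral_of_dominated_of_fderiv_le (bound := fun _ => C)
    (Metric.ball_mem_nhds p0 hε) ?_ (gcs_integrable hK hμ (hφ p0 hp0))
    (gcs_continuous_slice hc hp0).aestronglyMeasurable ?_ (integrable_const C) ?_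
  · filter_upwards [Metric.ball_mem_nhds p0 hε] with p hp
    exact (hφ p (hsub hp)).aestronglyMeasurable
  · filter_upwards [gcs_ae_mem hμ] with x hx p hp using hC p hp x hx
  · exact Eventually.of_forall fun x p hp => hd p (hsub hp) x

/-- Differentiation under the integral sign, real parameter. -/
theorem gcs_hasDerivAt (hK : IsCompact K) (hμ : μ Kᶜ = 0) {U : Set ℝ} (hU : IsOpen U)
    {φ : ℝ → X → F} {φ' : ℝ → X → F} (hφ : ∀ p ∈ U, Continuous (φ p))
    (hd : ∀ p ∈ U, ∀ x, HasDerivAt (fun q => φ q x) (φ' p x) p)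
    (hc : ContinuousOn (fun q : ℝ × X => φ' q.1 q.2) (U ×ˢ univ)) {p0 : ℝ} (hp0 : p0 ∈ U) :
    HasDerivAt (fun p => ∫ x, φ p x ∂μ) (∫ x, φ' p0 x ∂μ) p0 := by
  obtain ⟨ε, hε, C, hsub, hC⟩ := gcs_exists_bound hK hU hc hp0
  refine (hasDerivAt_integral_of_dominated_loc_of_deriv_le (bound := fun _ => C)
    (Metric.ball_mem_nhds p0 hε) ?_ (gcs_integrable hK hμ (hφ p0 hp0))
    (gcs_continuous_slice hc hp0).aestronglyMeasurable ?_ (integrable_const C) ?_).2
  · filter_upwards [Metric.ball_mem_nhds p0 hε] with p hp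
    exact (hφ p (hsub hp)).aestronglyMeasurable
  · filter_upwards [gcs_ae_mem hμ] with x hx p hp using hC p hp x hx
  · exact Eventually.of_forall fun x p hp => hd p (hsub hp) x

theorem gcs_contDiffOn_nat (hK : IsCompact K) (hμ : μ Kᶜ = 0) {U : Set P} (hU : IsOpen U) (n : ℕ) :
    ∀ {F : Type} [NormedAddCommGroup F] [NormedSpace ℝ F] {φ : P × X → F},
      ContDiffOn ℝ n φ (U ×ˢ univ) → ContDiffOn ℝ n (fun p => ∫ x, φ (p, x) ∂μ) U := by
  induction n with
  | zero =>
    intro F _ _ φ hφ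
    simp only [Nat.cast_zero, contDiffOn_zero] at hφ ⊢
    exact gcs_continuousOn hK hμ hU hφ
  | succ n ih =>
    intro F _ _ φ hφ
    have hUo : IsOpen (U ×ˢ (univ : Set X)) := hU.prod isOpen_univ
    have hcast : ((n + 1 : ℕ) : WithTop ℕ∞) = (n : WithTop ℕ∞) + 1 := by push_cast; rfl
    rw [hcast] at hφ ⊢
    obtain ⟨ψ, hψd⟩ : ∃ ψ : P × X → P →L[ℝ] F,
        ψ = fun q => (fderiv ℝ φ q).comp (ContinuousLinearMap.inl ℝ P X) := ⟨_, rfl⟩
    have hψ : ContDiffOn ℝ n ψ (U ×ˢ univ) := by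
      have h1 : ContDiffOn ℝ n (fderiv ℝ φ) (U ×ˢ univ) :=
        ((contDiffOn_succ_iff_fderiv_of_isOpen hUo).1 hφ).2.2
      rw [hψd]
      exact ((ContinuousLinearMap.compL ℝ P (P × X) F).flip
        (ContinuousLinearMap.inl ℝ P X)).contDiff.comp_contDiffOn h1
    have hder : ∀ p ∈ U, HasFDerivAt (fun p => ∫ x, φ (p, x) ∂μ) (∫ x, ψ (p, x) ∂μ) p := by
      intro p hp
      refine gcs_hasFDerivAt hK hμ hU (φ := fun p x => φ (p, x)) (φ' := fun p x => ψ (p, x))
        ?_ ?_ hψ.continuousOn hp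
      · intro p hp
        exact gcs_continuous_slice hφ.continuousOn hp
      · intro p hp x
        have hd : DifferentiableAt ℝ φ (p, x) :=
          (hφ.differentiableOn (by simp)).differentiableAt (hUo.mem_nhds ⟨hp, mem_univ _⟩)
        rw [hψd]
        exact hd.hasFDerivAt.comp p (hasFDerivAt_prodMk_left p x)
    rw [contDiffOn_succ_iff_fderiv_of_isOpen hU]
    refine ⟨fun p hp => (hder p hp).differentiableAt.differentiableWithinAt, by simp, ?_⟩
    exact (ih hψ).congr fun p hp => (hder p hp).fderiv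

/-- Smoothness of an integral depending on a parameter. -/
theorem gcs_contDiffOn (hK : IsCompact K) (hμ : μ Kᶜ = 0) {U : Set P} (hU : IsOpen U)
    {φ : P × X → F} (hφ : ContDiffOn ℝ ∞ φ (U ×ˢ univ)) :
    ContDiffOn ℝ ∞ (fun p => ∫ x, φ (p, x) ∂μ) U :=
  contDiffOn_infty.2 fun n => gcs_contDiffOn_nat hK hμ hU n (hφ.of_le (by exact_mod_cast le_top))

theorem gcs_contDiff (hK : IsCompact K) (hμ : μ Kᶜ = 0) {φ : P × X → F} (hφ : ContDiff ℝ ∞ φ) :
    ContDiff ℝ ∞ (fun p => ∫ x, φ (p, x) ∂μ) :=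
  contDiffOn_univ.1 (gcs_contDiffOn hK hμ isOpen_univ hφ.contDiffOn)

/-! ### convolution type integrals -/

section conv

variable {E : Type} [NormedAddCommGroup E] [InnerProductSpace ℝ E] [FiniteDimensional ℝ E]
  [MeasurableSpace E] [BorelSpace E] {μ : Measure E} [IsFiniteMeasure μ] {K : Set E}

theorem gcs_hasFDerivAt_comp_sub {k : E → F} (hk : ContDiff ℝ 1 k) (p x : E) :
    HasFDerivAt (fun q => k (q - x)) (fderiv ℝ k (p - x)) p := by
  have h1 := (hk.differentiable one_ne_zero (p - x)).hasFDerivAt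
  have h2 : HasFDerivAt (fun q => k (q - x))
      ((fderiv ℝ k (p - x)).comp (ContinuousLinearMap.id ℝ E)) p :=
    h1.comp p ((hasFDerivAt_id p).sub_const x)
  rwa [ContinuousLinearMap.comp_id] at h2

theorem gcs_conv_hasFDerivAt (hK : IsCompact K) (hμ : μ Kᶜ = 0) {k : E → F} (hk : ContDiff ℝ 1 k)
    (y : E) :
    HasFDerivAt (fun y => ∫ x, k (y - x) ∂μ) (∫ x, fderiv ℝ k (y - x) ∂μ) y := by
  refine gcs_hasFDerivAt hK hμ isOpen_univ (φ := fun y x => k (y - x))
    (φ' := fun y x => fderiv ℝ k (y - x)) ?_ ?_ ?_ (mem_univ y)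
  · intro p _
    exact hk.continuous.comp (by fun_prop)
  · intro p _ x
    exact gcs_hasFDerivAt_comp_sub hk p x
  · exact ((hk.continuous_fderiv one_ne_zero).comp (by fun_prop)).continuousOn

theorem gcs_conv_fderiv_apply (hK : IsCompact K) (hμ : μ Kᶜ = 0) {k : E → F} (hk : ContDiff ℝ 1 k)
    (y u : E) :
    fderiv ℝ (fun y => ∫ x, k (y - x) ∂μ) y u = ∫ x, fderiv ℝ k (y - x) u ∂μ := by
  have hint : Integrable (fun x => fderiv ℝ k (y - x)) μ :=
    gcs_integrable hK hμ ((hk.continuous_fderiv one_ne_zero).comp (by fun_prop))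
  rw [(gcs_conv_hasFDerivAt hK hμ hk y).fderiv, ContinuousLinearMap.integral_apply hint]

theorem gcs_conv_smul_hasFDerivAt (hK : IsCompact K) (hμ : μ Kᶜ = 0) {k : E → ℝ}
    (hk : ContDiff ℝ 1 k) {c : E → F} (hc : Continuous c) (y : E) :
    HasFDerivAt (fun y => ∫ x, k (y - x) • c x ∂μ)
      (∫ x, (fderiv ℝ k (y - x)).smulRight (c x) ∂μ) y := by
  refine gcs_hasFDerivAt hK hμ isOpen_univ (φ := fun y x => k (y - x) • c x)
    (φ' := fun y x => (fderiv ℝ k (y - x)).smulRight (c x)) ?_ ?_ ?_ (mem_univ y)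
  · intro p _
    exact (hk.continuous.comp (by fun_prop)).smul hc
  · intro p _ x
    exact (gcs_hasFDerivAt_comp_sub hk p x).smul_const (c x)
  · have h1 : Continuous fun q : E × E => fderiv ℝ k (q.1 - q.2) :=
      (hk.continuous_fderiv one_ne_zero).comp (by fun_prop)
    have h2 : Continuous fun q : E × E => c q.2 := hc.comp continuous_snd
    exact ((ContinuousLinearMap.smulRightL ℝ E F).continuous₂.comp (h1.prodMk h2)).continuousOn

theorem gcs_conv_smul_fderiv_apply (hK : IsCompact K) (hμ : μ Kᶜ = 0) {k : E → ℝ}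
    (hk : ContDiff ℝ 1 k) {c : E → F} (hc : Continuous c) (y u : E) :
    fderiv ℝ (fun y => ∫ x, k (y - x) • c x ∂μ) y u = ∫ x, fderiv ℝ k (y - x) u • c x ∂μ := by
  have h1 : Continuous fun x : E => fderiv ℝ k (y - x) :=
    (hk.continuous_fderiv one_ne_zero).comp (by fun_prop)
  have hint : Integrable (fun x => (fderiv ℝ k (y - x)).smulRight (c x)) μ :=
    gcs_integrable hK hμ ((ContinuousLinearMap.smulRightL ℝ E F).continuous₂.comp (h1.prodMk hc))
  rw [(gcs_conv_smul_hasFDerivAt hK hμ hk hc y).fderiv, ContinuousLinearMap.integral_apply hint]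
  rfl

theorem gcs_conv_laplacian (hK : IsCompact K) (hμ : μ Kᶜ = 0) {k : E → ℝ} (hk : ContDiff ℝ 2 k)
    (y : E) :
    Laplacian.laplacian (fun y => ∫ x, k (y - x) ∂μ) y
      = ∫ x, Laplacian.laplacian k (y - x) ∂μ := by
  have h1 : fderiv ℝ (fun y => ∫ x, k (y - x) ∂μ) = fun y => ∫ x, fderiv ℝ k (y - x) ∂μ :=
    funext fun y => (gcs_conv_hasFDerivAt hK hμ (hk.of_le one_le_two) y).fderiv
  have hk' : ContDiff ℝ 1 (fderiv ℝ k) := hk.fderiv_right (by norm_num)
  have hint : ∀ u, Integrable (fun x => fderiv ℝ (fderiv ℝ k) (y - x) u) μ := fun u =>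
    gcs_integrable hK hμ
      (((hk'.continuous_fderiv one_ne_zero).comp (by fun_prop : Continuous fun x => y - x)).clm_apply
        continuous_const)
  simp only [InnerProductSpace.laplacian_eq_iteratedFDeriv_orthonormalBasis _
    (stdOrthonormalBasis ℝ E), iteratedFDeriv_two_apply]
  rw [h1, integral_finsetSum]
  · refine Finset.sum_congr rfl fun i _ => ?_
    rw [gcs_conv_fderiv_apply hK hμ hk', ContinuousLinearMap.integral_apply (hint _)]
  · intro i _
    exact (hint _).apply_continuousLinearMap _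

end conv

end Claimed.Agent.R259
end

/- ===== packed: Claimed.Agent.R259.GcSmoothKer ===== -/
section
/-
Row 259, kit GC-B, leaf KER: calculus of the Gaussian kernel `gk s z` (joint smoothness, gradient, Laplacian,
heat equation).  Blueprint: helper72.  Mathlib + S3Defs only.  DONE (helper221), statements verbatim; extra: gcs_gk_fderiv.
-/
set_option autoImplicit false
set_option linter.unusedSectionVars false

open MeasureTheory Filter Topology
open scoped ContDiff ENNReal

namespace Claimed.Agent.R259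

variable {E : Type} [NormedAddCommGroup E] [InnerProductSpace ℝ E] [FiniteDimensional ℝ E]
  [MeasurableSpace E] [BorelSpace E]

/-- joint smoothness in time and space -/
theorem gcs_gk_contDiffOn :
    ContDiffOn ℝ ∞ (fun q : ℝ × E => gk q.1 q.2) (Set.Ioi 0 ×ˢ Set.univ) := by
  intro q hq
  have hq1 : 0 < q.1 := hq.1
  apply ContDiffAt.contDiffWithinAt
  unfold gk
  have h1 : ContDiffAt ℝ ∞ (fun q : ℝ × E => 2 * Real.pi * q.1) q := by fun_prop
  have h2 : ContDiffAt ℝ ∞ (fun q : ℝ × E => (2 * Real.pi * q.1) ^ (-(Module.finrank ℝ E : ℝ) / 2)) q :=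
    h1.rpow_const_of_ne (by positivity)
  have h3 : ContDiffAt ℝ ∞ (fun q : ℝ × E => -‖q.2‖ ^ 2 / (2 * q.1)) q := by
    apply ContDiffAt.div
    · exact ((contDiff_norm_sq ℝ).comp contDiff_snd).neg.contDiffAt
    · fun_prop
    · positivity
  exact h2.mul (Real.contDiff_exp.contDiffAt.comp q h3)

theorem gcs_gk_hasFDerivAt {s : ℝ} (hs : 0 < s) (z : E) :
    HasFDerivAt (gk s : E → ℝ) (-(gk s z / s) • innerSL ℝ z) z := by
  unfold gk
  have h1 : HasFDerivAt (fun z : E => -‖z‖ ^ 2 / (2 * s))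
      ((-(1 / (2 * s))) • (2 • (innerSL ℝ (id z)).comp (ContinuousLinearMap.id ℝ E))) z := by
    have h := ((hasFDerivAt_id z).norm_sq).const_mul (-(1 / (2 * s)))
    refine h.congr_of_eventuallyEq (Eventually.of_forall fun w => ?_)
    simp only [id_eq]
    ring
  have h2 := (h1.exp).const_mul ((2 * Real.pi * s) ^ (-(Module.finrank ℝ E : ℝ) / 2))
  refine h2.congr_fderiv ?_
  ext u
  simp only [_root_.smul_apply, ContinuousLinearMap.comp_apply, innerSL_apply_apply,
    ContinuousLinearMap.id_apply, id_eq, smul_eq_mul, nsmul_eq_mul, Nat.cast_ofNat]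
  field_simp

theorem gcs_gk_fderiv {s : ℝ} (hs : 0 < s) :
    fderiv ℝ (gk s : E → ℝ) = fun z => -(gk s z / s) • innerSL ℝ z :=
  funext fun z => (gcs_gk_hasFDerivAt hs z).fderiv

/-- second derivative -/
theorem gcs_gk_fderiv2 {s : ℝ} (hs : 0 < s) (z u v : E) :
    fderiv ℝ (fderiv ℝ (gk s : E → ℝ)) z u v
      = (inner ℝ z u * inner ℝ z v / s ^ 2 - inner ℝ u v / s) * gk s z := by
  rw [gcs_gk_fderiv hs]
  have h1 : HasFDerivAt (fun z : E => -(gk s z / s)) (-(s⁻¹ • (-(gk s z / s) • innerSL ℝ z))) z := by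
    have h := ((gcs_gk_hasFDerivAt hs z).const_mul s⁻¹).neg
    refine h.congr_of_eventuallyEq (Eventually.of_forall fun w => ?_)
    show -(gk s w / s) = -(s⁻¹ * gk s w)
    rw [div_eq_inv_mul]
  have h2 : HasFDerivAt (fun z : E => innerSL ℝ z) (innerSL ℝ : E →L[ℝ] E →L[ℝ] ℝ) z :=
    (innerSL ℝ : E →L[ℝ] E →L[ℝ] ℝ).hasFDerivAt
  have h3 : HasFDerivAt (fun z : E => -(gk s z / s) • innerSL ℝ z) _ z := h1.smul h2
  rw [h3.fderiv]
  simp only [_root_.add_apply, _root_.smul_apply,
    ContinuousLinearMap.smulRight_apply, _root_.neg_apply, innerSL_apply_apply,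
    smul_eq_mul]
  have e : ((innerSL ℝ : E →L[ℝ] E →L[ℝ] ℝ) u) v = inner ℝ u v := innerSL_apply_apply ℝ u v
  rw [e]
  field_simp
  ring

theorem gcs_gk_laplacian {s : ℝ} (hs : 0 < s) (z : E) :
    Laplacian.laplacian (gk s : E → ℝ) z
      = (‖z‖ ^ 2 / s ^ 2 - (Module.finrank ℝ E : ℝ) / s) * gk s z := by
  rw [InnerProductSpace.laplacian_eq_iteratedFDeriv_stdOrthonormalBasis]
  simp only [iteratedFDeriv_two_apply, Matrix.cons_val_zero, Matrix.cons_val_one]
  simp_rw [gcs_gk_fderiv2 hs]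
  rw [← Finset.sum_mul]
  congr 1
  rw [Finset.sum_sub_distrib, ← Finset.sum_div, ← Finset.sum_div]
  congr 2
  · have := (stdOrthonormalBasis ℝ E).sum_sq_inner_right z
    simp_rw [← pow_two]
    simp_rw [real_inner_comm] at this ⊢
    exact this
  · simp

/-- time derivative -/
theorem gcs_gk_hasDerivAt {s : ℝ} (hs : 0 < s) (z : E) :
    HasDerivAt (fun r => gk r z)
      ((1 / 2) * ((‖z‖ ^ 2 / s ^ 2 - (Module.finrank ℝ E : ℝ) / s) * gk s z)) s := by
  unfold gk
  set n : ℝ := (Module.finrank ℝ E : ℝ) with hn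
  have hpos : 0 < 2 * Real.pi * s := by positivity
  have h0 : HasDerivAt (fun r : ℝ => 2 * Real.pi * r) (2 * Real.pi) s := by
    simpa using (hasDerivAt_id s).const_mul (2 * Real.pi)
  have h1 : HasDerivAt (fun r : ℝ => (2 * Real.pi * r) ^ (-n / 2))
      ((2 * Real.pi) * (-n / 2) * (2 * Real.pi * s) ^ (-n / 2 - 1)) s :=
    h0.rpow_const (Or.inl hpos.ne')
  have h2 : HasDerivAt (fun r : ℝ => -‖z‖ ^ 2 / (2 * r)) (‖z‖ ^ 2 / (2 * s ^ 2)) s := by
    have h := ((hasDerivAt_id s).const_mul 2).inv (by simp [hs.ne'] : (2 : ℝ) * id s ≠ 0)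
    have h' := h.const_mul (-‖z‖ ^ 2)
    refine (h'.congr_deriv ?_).congr_of_eventuallyEq (Eventually.of_forall fun r => ?_)
    · simp only [id_eq, mul_one]
      field_simp
    · simp only [id_eq, Pi.inv_apply]
      rw [div_eq_mul_inv]
  have h3 : HasDerivAt (fun r : ℝ => (2 * Real.pi * r) ^ (-n / 2) * Real.exp (-‖z‖ ^ 2 / (2 * r))) _ s :=
    h1.mul h2.exp
  refine h3.congr_deriv ?_
  rw [Real.rpow_sub_one hpos.ne']
  field_simp
  ring

end Claimed.Agent.R259
end

/- ===== packed: Claimed.Agent.R259.GcSmooth ===== -/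
section
/-
Row 259, kit GC-B (smoothness of the regularised density, heat equation, posterior mean/covariance formulas).  EXPORTS (statements fixed by sub-captain helper83; the kit owner owns this file,
replaces every `sorry`, and may add helper files `GcSmooth*.lean`).
`μ` probability measure with bounded support: differentiate under the integral sign.
Owner: helper72.  `GcSmoothPar` = integrals depending on a parameter (measure carried by a compact set),
`GcSmoothKer` = calculus of the Gaussian kernel.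
-/
set_option autoImplicit false
set_option linter.unusedSectionVars false

open MeasureTheory Filter Topology ProbabilityTheory
open scoped ContDiff ENNReal

namespace Claimed.Agent.R259

variable {E : Type} [NormedAddCommGroup E] [InnerProductSpace ℝ E] [FiniteDimensional ℝ E]
  [MeasurableSpace E] [BorelSpace E]

variable {μ : Measure E} [IsProbabilityMeasure μ]

/-- joint smoothness in time and space. -/
theorem gc_contDiffOn_joint (hb : BddSupp μ) :
    ContDiffOn ℝ ∞ (fun p : ℝ × E => gconv μ p.1 p.2) (Set.Ioi 0 ×ˢ Set.univ) := by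
  obtain ⟨ρ, hρ⟩ := hb
  have hU : IsOpen (Set.Ioi (0 : ℝ) ×ˢ (Set.univ : Set E)) := isOpen_Ioi.prod isOpen_univ
  refine gcs_contDiffOn (P := ℝ × E) (isCompact_closedBall 0 ρ) hρ hU
    (φ := fun q : (ℝ × E) × E => gk q.1.1 (q.1.2 - q.2)) ?_
  refine gcs_gk_contDiffOn.comp (f := fun q : (ℝ × E) × E => (q.1.1, q.1.2 - q.2))
    (by fun_prop : ContDiff ℝ ∞ fun q : (ℝ × E) × E => (q.1.1, q.1.2 - q.2)).contDiffOn ?_
  intro q hq
  exact ⟨hq.1.1, Set.mem_univ _⟩

theorem gcs_gconv_contDiff (hb : BddSupp μ) {s : ℝ} (hs : 0 < s) : ContDiff ℝ ∞ (gconv μ s) := by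
  rw [← contDiffOn_univ]
  refine (gc_contDiffOn_joint hb).comp (f := fun y : E => (s, y))
    (by fun_prop : ContDiff ℝ ∞ fun y : E => (s, y)).contDiffOn ?_
  intro y _
  exact ⟨hs, Set.mem_univ _⟩

/-- continuous functions are `μ`-integrable -/
theorem gcs_int (hb : BddSupp μ) {F : Type} [NormedAddCommGroup F] [NormedSpace ℝ F] {f : E → F}
    (hf : Continuous f) : Integrable f μ := by
  obtain ⟨ρ, hρ⟩ := hb
  exact gcs_integrable (isCompact_closedBall 0 ρ) hρ hf

theorem gcs_gk_cont {s : ℝ} (hs : 0 < s) (y : E) : Continuous fun x : E => gk s (y - x) :=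
  (gc_gk_contDiff hs).continuous.comp (by fun_prop)

theorem gcs_gconv_pos (hb : BddSupp μ) {s : ℝ} (hs : 0 < s) (y : E) : 0 < gconv μ s y := by
  unfold gconv
  rw [integral_pos_iff_support_of_nonneg (fun x => (gc_gk_pos hs _).le)
    (gcs_int hb (gcs_gk_cont hs y))]
  have : Function.support (fun x : E => gk s (y - x)) = Set.univ := by
    ext x
    simp [(gc_gk_pos hs (y - x)).ne']
  rw [this]
  simp

theorem gc_spd (hb : BddSupp μ) {s : ℝ} (hs : 0 < s) : SPD (gconv μ s) := by
  refine ⟨gcs_gconv_contDiff hb hs, gcs_gconv_pos hb hs, ?_⟩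
  have hp : IsProbabilityMeasure (dm (gconv μ s)) := gc_isProb hs
  have h1 : (dm (gconv μ s)) Set.univ = 1 := measure_univ
  rw [dm, withDensity_apply _ MeasurableSet.univ, Measure.restrict_univ] at h1
  rw [integral_eq_lintegral_of_nonneg_ae (Eventually.of_forall fun x => (gcs_gconv_pos hb hs x).le)
    (gcs_gconv_contDiff hb hs).continuous.aestronglyMeasurable, h1]
  simp

/-- heat equation. -/
theorem gc_heat (hb : BddSupp μ) {s : ℝ} (hs : 0 < s) (y : E) :
    HasDerivAt (fun r => gconv μ r y) ((1 / 2) * Laplacian.laplacian (gconv μ s) y) s := by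
  obtain ⟨ρ, hρ⟩ := hb
  have hK := isCompact_closedBall (0 : E) ρ
  have h1 : Laplacian.laplacian (gconv μ s) y = ∫ x, Laplacian.laplacian (gk s : E → ℝ) (y - x) ∂μ :=
    gcs_conv_laplacian hK hρ ((gc_gk_contDiff hs).of_le ENat.LEInfty.out) y
  rw [h1, ← integral_const_mul]
  simp only [gcs_gk_laplacian hs]
  refine gcs_hasDerivAt hK hρ isOpen_Ioi (φ := fun r x => gk r (y - x))
    (φ' := fun r x => (1 / 2) * ((‖y - x‖ ^ 2 / r ^ 2 - (Module.finrank ℝ E : ℝ) / r) * gk r (y - x)))
    ?_ ?_ ?_ hs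
  · intro r hr
    exact gcs_gk_cont hr y
  · intro r hr x
    exact gcs_gk_hasDerivAt hr (y - x)
  · have hg : ContinuousOn (fun q : ℝ × E => gk q.1 (y - q.2)) (Set.Ioi 0 ×ˢ Set.univ) :=
      gcs_gk_contDiffOn.continuousOn.comp (f := fun q : ℝ × E => (q.1, y - q.2))
        (by fun_prop : Continuous fun q : ℝ × E => (q.1, y - q.2)).continuousOn
        (fun q hq => ⟨hq.1, Set.mem_univ _⟩)
    have hne : ∀ q ∈ Set.Ioi (0 : ℝ) ×ˢ (Set.univ : Set E), q.1 ≠ 0 := fun q hq => (hq.1 : 0 < q.1).ne'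
    have hne2 : ∀ q ∈ Set.Ioi (0 : ℝ) ×ˢ (Set.univ : Set E), q.1 ^ 2 ≠ 0 :=
      fun q hq => pow_ne_zero 2 (hne q hq)
    refine ContinuousOn.mul continuousOn_const (ContinuousOn.mul (ContinuousOn.sub ?_ ?_) hg)
    · exact ContinuousOn.div (by fun_prop) (by fun_prop) hne2
    · exact ContinuousOn.div continuousOn_const continuousOn_fst hne

/-! ### Posterior mean, covariance, curvature -/

/-- the numerator of the posterior mean -/
noncomputable def gcsN (μ : Measure E) (s : ℝ) (y : E) : E := ∫ x, gk s (y - x) • x ∂μ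

theorem gcs_postMean_eq (s : ℝ) (y : E) : postMean μ s y = (gconv μ s y)⁻¹ • gcsN μ s y := rfl

theorem gcsN_contDiff (hb : BddSupp μ) {s : ℝ} (hs : 0 < s) : ContDiff ℝ ∞ (gcsN μ s) := by
  obtain ⟨ρ, hρ⟩ := hb
  refine gcs_contDiff (isCompact_closedBall 0 ρ) hρ (φ := fun q : E × E => gk s (q.1 - q.2) • q.2) ?_
  exact ((gc_gk_contDiff hs).comp (by fun_prop : ContDiff ℝ ∞ fun q : E × E => q.1 - q.2)).smul
    contDiff_snd

theorem gc_postMean_contDiff (hb : BddSupp μ) {s : ℝ} (hs : 0 < s) :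
    ContDiff ℝ ∞ (postMean μ s) :=
  ((gcs_gconv_contDiff hb hs).inv fun y => (gcs_gconv_pos hb hs y).ne').smul (gcsN_contDiff hb hs)

theorem gc_potV_contDiff (hb : BddSupp μ) {s : ℝ} (hs : 0 < s) : ContDiff ℝ ∞ (potV μ s) :=
  ((gcs_gconv_contDiff hb hs).log fun y => (gcs_gconv_pos hb hs y).ne').neg

/-- first and second moments of the weight `gk s (y - x) dμ(x)` -/
noncomputable def gcsM1 (μ : Measure E) (s : ℝ) (y u : E) : ℝ := ∫ x, gk s (y - x) * inner ℝ x u ∂μ

noncomputable def gcsM2 (μ : Measure E) (s : ℝ) (y u v : E) : ℝ :=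
  ∫ x, gk s (y - x) * (inner ℝ x u * inner ℝ x v) ∂μ

theorem gcs_inner_N (hb : BddSupp μ) {s : ℝ} (hs : 0 < s) (y u : E) :
    inner ℝ (gcsN μ s y) u = gcsM1 μ s y u := by
  have hi : Integrable (fun x => gk s (y - x) • x) μ :=
    gcs_int hb ((gcs_gk_cont hs y).smul continuous_id)
  rw [gcsN, real_inner_comm, ← integral_inner hi, gcsM1]
  refine integral_congr_ae (Eventually.of_forall fun x => ?_)
  simp only [inner_smul_right, real_inner_comm]

theorem gcs_fderiv_gk {s : ℝ} (hs : 0 < s) (z u : E) :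
    fderiv ℝ (gk s : E → ℝ) z u = -(gk s z / s) * inner ℝ z u := by
  rw [(gcs_gk_hasFDerivAt hs z).fderiv]
  simp

theorem gcs_fderiv_gconv (hb : BddSupp μ) {s : ℝ} (hs : 0 < s) (y u : E) :
    fderiv ℝ (gconv μ s) y u = -s⁻¹ * (inner ℝ y u * gconv μ s y - gcsM1 μ s y u) := by
  have hb' := hb
  obtain ⟨ρ, hρ⟩ := hb
  have h1 : fderiv ℝ (gconv μ s) y u = ∫ x, fderiv ℝ (gk s : E → ℝ) (y - x) u ∂μ :=
    gcs_conv_fderiv_apply (isCompact_closedBall 0 ρ) hρ
      ((gc_gk_contDiff hs).of_le ENat.LEInfty.out) y u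
  have i1 : Integrable (fun x => gk s (y - x)) μ := gcs_int hb' (gcs_gk_cont hs y)
  have i2 : Integrable (fun x => gk s (y - x) * inner ℝ x u) μ :=
    gcs_int hb' ((gcs_gk_cont hs y).mul (by fun_prop))
  rw [h1, gconv, gcsM1, ← integral_const_mul, ← integral_sub (i1.const_mul _) i2,
    ← integral_const_mul]
  refine integral_congr_ae (Eventually.of_forall fun x => ?_)
  simp only [gcs_fderiv_gk hs, inner_sub_left]
  field_simp

theorem gcs_inner_fderiv_N (hb : BddSupp μ) {s : ℝ} (hs : 0 < s) (y u v : E) :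
    inner ℝ (fderiv ℝ (gcsN μ s) y u) v
      = -s⁻¹ * (inner ℝ y u * gcsM1 μ s y v - gcsM2 μ s y u v) := by
  have hb' := hb
  obtain ⟨ρ, hρ⟩ := hb
  have h1 : fderiv ℝ (gcsN μ s) y u = ∫ x, fderiv ℝ (gk s : E → ℝ) (y - x) u • x ∂μ :=
    gcs_conv_smul_fderiv_apply (isCompact_closedBall 0 ρ) hρ
      ((gc_gk_contDiff hs).of_le ENat.LEInfty.out) continuous_id y u
  have hc : Continuous fun x : E => fderiv ℝ (gk s : E → ℝ) (y - x) u := by
    simp only [gcs_fderiv_gk hs]
    exact ((gcs_gk_cont hs y).div_const s).neg.mul (by fun_prop)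
  have i0 : Integrable (fun x => fderiv ℝ (gk s : E → ℝ) (y - x) u • x) μ :=
    gcs_int hb' (hc.smul continuous_id)
  have i1 : Integrable (fun x => gk s (y - x) * inner ℝ x v) μ :=
    gcs_int hb' ((gcs_gk_cont hs y).mul (by fun_prop))
  have i2 : Integrable (fun x => gk s (y - x) * (inner ℝ x u * inner ℝ x v)) μ :=
    gcs_int hb' ((gcs_gk_cont hs y).mul (by fun_prop))
  rw [h1, real_inner_comm, ← integral_inner i0, gcsM1, gcsM2, ← integral_const_mul,
    ← integral_sub (i1.const_mul _) i2, ← integral_const_mul]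
  refine integral_congr_ae (Eventually.of_forall fun x => ?_)
  simp only [gcs_fderiv_gk hs, inner_sub_left, inner_smul_right, real_inner_comm v x]
  field_simp

theorem gcs_inner_postMean (hb : BddSupp μ) {s : ℝ} (hs : 0 < s) (y u : E) :
    inner ℝ (postMean μ s y) u = (gconv μ s y)⁻¹ * gcsM1 μ s y u := by
  rw [gcs_postMean_eq, inner_smul_left, gcs_inner_N hb hs]
  simp

/-- `D log μ_s = -(y - b_s)/s`. -/
theorem gc_grad_log (hb : BddSupp μ) {s : ℝ} (hs : 0 < s) (y : E) :
    gradient (fun z => Real.log (gconv μ s z)) y = - (s⁻¹ • (y - postMean μ s y)) := by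
  have hG := gcs_gconv_pos hb hs y
  have hd : HasFDerivAt (gconv μ s) (fderiv ℝ (gconv μ s) y) y :=
    ((gcs_gconv_contDiff hb hs).differentiable (by simp) y).hasFDerivAt
  refine ext_inner_right ℝ fun u => ?_
  rw [inner_gradient_left, (hd.log hG.ne').fderiv, inner_neg_left, inner_smul_left, inner_sub_left,
    gcs_inner_postMean hb hs]
  simp only [smul_apply, smul_eq_mul, gcs_fderiv_gconv hb hs, conj_trivial]
  field_simp

/-- `D V_s = (y - b_s)/s`. -/
theorem gc_grad_potV (hb : BddSupp μ) {s : ℝ} (hs : 0 < s) (y : E) :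
    gradient (potV μ s) y = s⁻¹ • (y - postMean μ s y) := by
  have h := gc_grad_log hb hs y
  have hd : DifferentiableAt ℝ (fun z => Real.log (gconv μ s z)) y :=
    (((gcs_gconv_contDiff hb hs).log fun y => (gcs_gconv_pos hb hs y).ne').differentiable
      (by simp)) y
  have e : gradient (potV μ s) y = - gradient (fun z => Real.log (gconv μ s z)) y := by
    unfold gradient potV
    rw [fderiv_fun_neg, map_neg]
  rw [e, h, neg_neg]

theorem gcs_postCov_eq (hb : BddSupp μ) {s : ℝ} (hs : 0 < s) (y u v : E) :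
    postCov μ s y u v = (gconv μ s y)⁻¹ *
      (gcsM2 μ s y u v - gcsM1 μ s y u * gcsM1 μ s y v / gconv μ s y) := by
  have hG := gcs_gconv_pos hb hs y
  have i0 : Integrable (fun x => gk s (y - x)) μ := gcs_int hb (gcs_gk_cont hs y)
  have i1 : ∀ w : E, Integrable (fun x => gk s (y - x) * inner ℝ x w) μ := fun w =>
    gcs_int hb ((gcs_gk_cont hs y).mul (by fun_prop))
  have i2 : Integrable (fun x => gk s (y - x) * (inner ℝ x u * inner ℝ x v)) μ :=
    gcs_int hb ((gcs_gk_cont hs y).mul (by fun_prop))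
  obtain ⟨a, ha⟩ : ∃ a, a = inner ℝ (postMean μ s y) u := ⟨_, rfl⟩
  obtain ⟨b, hb2⟩ : ∃ b, b = inner ℝ (postMean μ s y) v := ⟨_, rfl⟩
  have e : ∫ x, gk s (y - x) * (inner ℝ (x - postMean μ s y) u * inner ℝ (x - postMean μ s y) v) ∂μ
      = gcsM2 μ s y u v - b * gcsM1 μ s y u - a * gcsM1 μ s y v + a * b * gconv μ s y := by
    have j1 : Integrable (fun x => gk s (y - x) * (inner ℝ x u * inner ℝ x v)
        - b * (gk s (y - x) * inner ℝ x u)) μ := i2.sub ((i1 u).const_mul b)
    have j2 : Integrable (fun x => gk s (y - x) * (inner ℝ x u * inner ℝ x v)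
        - b * (gk s (y - x) * inner ℝ x u) - a * (gk s (y - x) * inner ℝ x v)) μ :=
      j1.sub ((i1 v).const_mul a)
    have e3 : ∫ x, (gk s (y - x) * (inner ℝ x u * inner ℝ x v)
        - b * (gk s (y - x) * inner ℝ x u) - a * (gk s (y - x) * inner ℝ x v)
        + a * b * gk s (y - x)) ∂μ
        = gcsM2 μ s y u v - b * gcsM1 μ s y u - a * gcsM1 μ s y v + a * b * gconv μ s y := by
      rw [integral_add j2 (i0.const_mul (a * b)), integral_sub j1 ((i1 v).const_mul a),
        integral_sub i2 ((i1 u).const_mul b), integral_const_mul, integral_const_mul,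
        integral_const_mul]
      rfl
    rw [← e3]
    refine integral_congr_ae (Eventually.of_forall fun x => ?_)
    simp only [inner_sub_left, ← ha, ← hb2]
    ring
  rw [postCov, e, ha, hb2, gcs_inner_postMean hb hs, gcs_inner_postMean hb hs]
  field_simp
  ring

/-- `D b_s = Cov(X | y)/s`. -/
theorem gc_fderiv_postMean (hb : BddSupp μ) {s : ℝ} (hs : 0 < s) (y u v : E) :
    inner ℝ (fderiv ℝ (postMean μ s) y u) v = s⁻¹ * postCov μ s y u v := by
  have hG := gcs_gconv_pos hb hs y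
  have hd : HasFDerivAt (gconv μ s) (fderiv ℝ (gconv μ s) y) y :=
    ((gcs_gconv_contDiff hb hs).differentiable (by simp) y).hasFDerivAt
  have hN : HasFDerivAt (gcsN μ s) (fderiv ℝ (gcsN μ s) y) y :=
    ((gcsN_contDiff hb hs).differentiable (by simp) y).hasFDerivAt
  have hinv : HasFDerivAt (fun z => (gconv μ s z)⁻¹)
      ((-(gconv μ s y ^ 2)⁻¹) • fderiv ℝ (gconv μ s) y) y :=
    (hasDerivAt_inv hG.ne').comp_hasFDerivAt y hd
  have hb3 : HasFDerivAt (postMean μ s) ((gconv μ s y)⁻¹ • fderiv ℝ (gcsN μ s) y +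
      ((-(gconv μ s y ^ 2)⁻¹) • fderiv ℝ (gconv μ s) y).smulRight (gcsN μ s y)) y := hinv.smul hN
  rw [hb3.fderiv, gcs_postCov_eq hb hs]
  simp only [add_apply, smul_apply,
    ContinuousLinearMap.smulRight_apply, inner_add_left, inner_smul_left, conj_trivial, smul_eq_mul,
    gcs_inner_fderiv_N hb hs, gcs_inner_N hb hs, gcs_fderiv_gconv hb hs]
  field_simp
  ring

theorem gcs_grad_potV_eq (hb : BddSupp μ) {s : ℝ} (hs : 0 < s) :
    gradient (potV μ s) = fun y => s⁻¹ • (y - postMean μ s y) :=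
  funext fun y => gc_grad_potV hb hs y

theorem gcs_hessK_apply (hb : BddSupp μ) {s : ℝ} (hs : 0 < s) (y u : E) :
    hessK μ s y u = s⁻¹ • (u - fderiv ℝ (postMean μ s) y u) := by
  have hd : HasFDerivAt (postMean μ s) (fderiv ℝ (postMean μ s) y) y :=
    ((gc_postMean_contDiff hb hs).differentiable (by simp) y).hasFDerivAt
  have h1 : HasFDerivAt (fun y => s⁻¹ • (y - postMean μ s y))
      (s⁻¹ • (ContinuousLinearMap.id ℝ E - fderiv ℝ (postMean μ s) y)) y :=
    ((hasFDerivAt_id y).sub hd).const_smul s⁻¹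
  rw [hessK, gcs_grad_potV_eq hb hs, h1.fderiv]
  simp

/-- `D b_s = Id - s K_s`. -/
theorem gc_fderiv_postMean_hessK (hb : BddSupp μ) {s : ℝ} (hs : 0 < s) (y u : E) :
    fderiv ℝ (postMean μ s) y u = u - s • hessK μ s y u := by
  rw [gcs_hessK_apply hb hs, smul_smul, mul_inv_cancel₀ hs.ne', one_smul, sub_sub_cancel]

theorem gcs_postCov_comm (s : ℝ) (y u v : E) : postCov μ s y u v = postCov μ s y v u := by
  unfold postCov
  congr 1
  refine integral_congr_ae (Eventually.of_forall fun x => ?_)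
  simp only
  ring

theorem gc_hessK_symm (hb : BddSupp μ) {s : ℝ} (hs : 0 < s) (y u v : E) :
    inner ℝ (hessK μ s y u) v = inner ℝ u (hessK μ s y v) := by
  rw [gcs_hessK_apply hb hs, gcs_hessK_apply hb hs, inner_smul_left, inner_smul_right,
    inner_sub_left, inner_sub_right, gc_fderiv_postMean hb hs,
    real_inner_comm (fderiv ℝ (postMean μ s) y v) u, gc_fderiv_postMean hb hs,
    gcs_postCov_comm s y u v]
  simp

theorem gc_hessK_contDiff (hb : BddSupp μ) {s : ℝ} (hs : 0 < s) : ContDiff ℝ ∞ (hessK μ s) := by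
  have h1 : ContDiff ℝ ∞ (gradient (potV μ s)) := by
    rw [gcs_grad_potV_eq hb hs]
    exact (contDiff_id.sub (gc_postMean_contDiff hb hs)).const_smul s⁻¹
  exact h1.fderiv_right (by simp)

/-- generates the equation lemmas of the definitions above in this file (rule 6: unique names) -/
theorem gcs_eqns_cite : True := by
  have := @gcsN.eq_1
  have := @gcsM1.eq_1
  have := @gcsM2.eq_1
  trivial

end Claimed.Agent.R259
end
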