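/- Packed by merge_tool.py (helper293): 10 modules of Claimed.Agent.R259 in one file, same declarations.
   Old modules, in this order: LsiDefs, LsiCalcA, PlsiCore, CptGHOne, CptGHProd, CptGHComplete, CptGHBasis, OpParamA, ImmseRiem, MetB1 -/
import Claimed.Agent.R259.S3Defs
import Mathlib
import Claimed.Agent.R260.Defs

/- ===== packed: Claimed.Agent.R259.LsiDefs ===== -/
section
/-
R259 / LsiDefs.lean  (owner: helper26).  Extra definitions for the kit PLSI (paper, Section 2, Lemma 2.1), on top of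
`S3Defs.lean` (helper83), whose `ent`, `vari`, `IsTest`, `dm`, `LSI`, `PI`, `LogConc` are used.
Only definitions; no sorry.
-/
set_option autoImplicit false

namespace Claimed.Agent.R259

open MeasureTheory
open scoped ENNReal ContDiff

section Inner

variable {E : Type} [NormedAddCommGroup E] [InnerProductSpace ℝ E] [MeasurableSpace E]

/-- smooth functions which are constant outside a compact set. -/
def IsTestC (f : E → ℝ) : Prop := ∃ c : ℝ, IsTest fun x => f x - c

/-- logarithmic Sobolev inequality with a general energy density `Q (Df)`:  `Ent_μ(f²) ≤ 2 ∫ Q(Df) dμ`,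
for all smooth functions which are constant outside a compact set. -/
def HasLSIq (μ : Measure E) (Q : (E →L[ℝ] ℝ) → ℝ) : Prop :=
  ∀ f : E → ℝ, IsTestC f → ent μ (fun x => f x ^ 2) ≤ 2 * ∫ x, Q (fderiv ℝ f x) ∂μ

/-- Poincare inequality with a general energy density. -/
def HasPIq (μ : Measure E) (Q : (E →L[ℝ] ℝ) → ℝ) : Prop :=
  ∀ f : E → ℝ, IsTestC f → vari μ f ≤ ∫ x, Q (fderiv ℝ f x) ∂μ

/-- the optimal logarithmic Sobolev constant. -/
noncomputable def Ropt [FiniteDimensional ℝ E] (m : Measure E) : ℝ := sInf {R | LSI m R}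

/-- bounded `C¹` functions with bounded derivative. -/
def IsBddC1 (f : E → ℝ) : Prop :=
  ContDiff ℝ 1 f ∧ (∃ C, ∀ x, |f x| ≤ C) ∧ ∃ C, ∀ x, ‖fderiv ℝ f x‖ ≤ C

end Inner

section Space

variable {E : Type} [NormedAddCommGroup E] [NormedSpace ℝ E] [MeasurableSpace E]

/-- **curved Prekopa-Leindler property** of a measure: PL with the gain `exp (t (1-t) q(x-y) / 2)`.
For `q = 0` this is `PLProp`; a density `ρ` with `ρ(x)^{1-t} ρ(y)^t e^{t(1-t) q(x-y)/2} ≤ ρ((1-t)x+ty)` has it. -/
def PLq (μ : Measure E) (q : E → ℝ) : Prop :=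
  ∀ t : ℝ, 0 < t → t < 1 → ∀ u v w : E → ℝ≥0∞, Measurable u → Measurable v → Measurable w →
    (∀ x y, u x ^ (1 - t) * v y ^ t * ENNReal.ofReal (Real.exp (-(t * (1 - t) * q (x - y) / 2)))
      ≤ w ((1 - t) • x + t • y)) →
    (∫⁻ x, u x ∂μ) ^ (1 - t) * (∫⁻ x, v x ∂μ) ^ t ≤ ∫⁻ x, w x ∂μ

/-- the pair (`q` on vectors, `qs` on covectors) is a pair of dual quadratic energies. -/
structure DualEnergy (q : E → ℝ) (qs : (E →L[ℝ] ℝ) → ℝ) : Prop where
  /-- coercivity -/
  coer : ∃ c : ℝ, 0 < c ∧ ∀ h, c * ‖h‖ ^ 2 ≤ q h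
  /-- `q` is `2`-homogeneous -/
  hom : ∀ (a : ℝ) (h : E), q (a • h) = a ^ 2 * q h
  /-- `qs` is `2`-homogeneous -/
  homs : ∀ (a : ℝ) (L : E →L[ℝ] ℝ), qs (a • L) = a ^ 2 * qs L
  /-- `qs ≥ 0` -/
  nonneg : ∀ L, 0 ≤ qs L
  /-- `qs` is continuous -/
  cont : Continuous qs
  /-- Young's inequality -/
  young : ∀ (L : E →L[ℝ] ℝ) (h : E), L h ≤ q h / 2 + qs L / 2

/-- strong log-concavity of a density with respect to the quadratic energy `q` (zeros of `ρ` are allowed). -/
def StrongLC (q : E → ℝ) (ρ : E → ℝ) : Prop :=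
  ∀ (x y : E) (t : ℝ), 0 < t → t < 1 →
    ρ x ^ (1 - t) * ρ y ^ t * Real.exp (t * (1 - t) * q (x - y) / 2) ≤ ρ ((1 - t) • x + t • y)

end Space

/-- generates the equation lemmas of the definitions above in this file (unique names) -/
theorem lsidefs_eqns_cite : True := by
  have := @IsTestC.eq_1
  have := @HasLSIq.eq_1
  have := @HasPIq.eq_1
  have := @PLq.eq_1
  have := @StrongLC.eq_1
  have := @Ropt.eq_1
  have := @IsBddC1.eq_1
  trivial

end Claimed.Agent.R259
end

/- ===== packed: Claimed.Agent.R259.LsiCalcA ===== -/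
section
/-
R259 / LsiCalcA.lean  (owner: helper26).  Kit LSIcalc, part A: API of the test classes `IsTest`, `IsTestC`,
bounded convergence for `ent`, second order Taylor bound.  Prefix `lsic`.
-/
set_option autoImplicit false
set_option linter.unusedSectionVars false

namespace Claimed.Agent.R259

open MeasureTheory Filter Topology
open scoped ENNReal ContDiff NNReal

section TestAPI

variable {E : Type} [NormedAddCommGroup E] [InnerProductSpace ℝ E]

theorem IsTest.isTestC {f : E → ℝ} (h : IsTest f) : IsTestC f := ⟨0, by simpa using h⟩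

theorem IsTestC.contDiff {f : E → ℝ} (h : IsTestC f) : ContDiff ℝ ∞ f := by
  obtain ⟨c, h1, -⟩ := h
  have : f = fun x => (f x - c) + c := by ext; ring
  rw [this]; exact h1.add contDiff_const

theorem IsTestC.continuous {f : E → ℝ} (h : IsTestC f) : Continuous f := h.contDiff.continuous

theorem IsTestC.differentiable {f : E → ℝ} (h : IsTestC f) : Differentiable ℝ f :=
  h.contDiff.differentiable (by simp)

theorem IsTestC.continuous_fderiv {f : E → ℝ} (h : IsTestC f) : Continuous (fderiv ℝ f) :=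
  h.contDiff.continuous_fderiv (by simp)

theorem IsTestC.hasCompactSupport_fderiv {f : E → ℝ} (h : IsTestC f) : HasCompactSupport (fderiv ℝ f) := by
  obtain ⟨c, -, h2⟩ := h
  have h3 := h2.fderiv ℝ
  have h4 : fderiv ℝ (fun x => f x - c) = fderiv ℝ f := by ext1 x; exact fderiv_sub_const c
  rwa [h4] at h3

theorem IsTestC.exists_bound {f : E → ℝ} (h : IsTestC f) : ∃ C : ℝ, 0 ≤ C ∧ ∀ x, |f x| ≤ C := by
  obtain ⟨c, h1, h2⟩ := h
  obtain ⟨C, hC⟩ := h1.continuous.bounded_above_of_compact_support h2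
  refine ⟨C + |c|, ?_, fun x => ?_⟩
  · have := (norm_nonneg _).trans (hC 0); positivity
  · have h3 := hC x
    rw [Real.norm_eq_abs] at h3
    calc |f x| = |(f x - c) + c| := by ring_nf
      _ ≤ |f x - c| + |c| := abs_add_le _ _
      _ ≤ C + |c| := by linarith

theorem IsTestC.exists_lipschitz_fderiv {f : E → ℝ} (h : IsTestC f) : ∃ K : ℝ≥0, LipschitzWith K (fderiv ℝ f) :=
  ContDiff.lipschitzWith_of_hasCompactSupport (n := ∞) (𝕂 := ℝ) h.hasCompactSupport_fderiv
    (h.contDiff.fderiv_right (by simp)) (by simp)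

theorem IsTestC.exists_bound_fderiv {f : E → ℝ} (h : IsTestC f) : ∃ C : ℝ, 0 ≤ C ∧ ∀ x, ‖fderiv ℝ f x‖ ≤ C := by
  obtain ⟨C, hC⟩ := h.continuous_fderiv.bounded_above_of_compact_support h.hasCompactSupport_fderiv
  exact ⟨C, (norm_nonneg _).trans (hC 0), hC⟩

theorem IsTestC.add_const {f : E → ℝ} (h : IsTestC f) (a : ℝ) : IsTestC fun x => f x + a := by
  obtain ⟨c, h1⟩ := h
  refine ⟨c + a, ?_⟩
  have : (fun x => f x + a - (c + a)) = fun x => f x - c := by ext; ring
  rwa [this]

theorem IsTestC.sub_const {f : E → ℝ} (h : IsTestC f) (a : ℝ) : IsTestC fun x => f x - a := by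
  simpa [sub_eq_add_neg] using h.add_const (-a)

theorem IsTestC.const_mul {f : E → ℝ} (h : IsTestC f) (a : ℝ) : IsTestC fun x => a * f x := by
  obtain ⟨c, h1, h2⟩ := h
  refine ⟨a * c, ?_, ?_⟩
  · have : (fun x => a * f x - a * c) = fun x => a * (f x - c) := by ext; ring
    rw [this]; exact contDiff_const.mul h1
  · have : (fun x => a * f x - a * c) = fun x => a * (f x - c) := by ext; ring
    rw [this]; exact h2.mul_left

/-- composition of a function of class `IsTestC` with a function that is smooth near its range. -/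
theorem IsTestC.comp {f : E → ℝ} (h : IsTestC f) {φ : ℝ → ℝ} (hφ : ContDiff ℝ ∞ fun x => φ (f x)) :
    IsTestC fun x => φ (f x) := by
  obtain ⟨c, h1, h2⟩ := h
  refine ⟨φ c, hφ.sub contDiff_const, ?_⟩
  have h3 : (fun x => φ (f x) - φ c) = (fun u => φ (u + c) - φ c) ∘ fun x => f x - c := by
    ext x; simp
  rw [h3]
  exact h2.comp_left (by simp)

/-- second order Taylor bound from a Lipschitz derivative. -/
theorem lsic_taylor2 {g : E → ℝ} (hd : Differentiable ℝ g) {K : ℝ≥0} (hK : LipschitzWith K (fderiv ℝ g))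
    (z v : E) : |g (z + v) - g z - fderiv ℝ g z v| ≤ K * ‖v‖ ^ 2 := by
  set φ : E → ℝ := fun w => g w - fderiv ℝ g z w with hφ
  have hφd : ∀ w, DifferentiableAt ℝ φ w := fun w => (hd w).sub (fderiv ℝ g z).differentiableAt
  have hφf : ∀ w, fderiv ℝ φ w = fderiv ℝ g w - fderiv ℝ g z := fun w => by
    rw [hφ, fderiv_fun_sub (hd w) (fderiv ℝ g z).differentiableAt, ContinuousLinearMap.fderiv]
  have h1 := Convex.norm_image_sub_le_of_norm_fderiv_le (𝕜 := ℝ) (f := φ) (C := K * ‖v‖)
    (s := Metric.closedBall z ‖v‖) (x := z) (y := z + v) (fun w _ => hφd w) (fun w hw => ?_)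
    (convex_closedBall _ _) (by simp) (by simp)
  · have h2 : φ (z + v) - φ z = g (z + v) - g z - fderiv ℝ g z v := by
      simp only [hφ, map_add]; ring
    rw [h2, Real.norm_eq_abs] at h1
    calc _ ≤ _ := h1
      _ = K * ‖v‖ ^ 2 := by simp; ring
  · rw [hφf, ← dist_eq_norm]
    refine (hK.dist_le_mul _ _).trans ?_
    exact mul_le_mul_of_nonneg_left (by simpa using hw) K.2

theorem lsic_norm_gradient [CompleteSpace E] (f : E → ℝ) (x : E) : ‖gradient f x‖ = ‖fderiv ℝ f x‖ := by
  unfold gradient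
  exact LinearIsometryEquiv.norm_map _ _

end TestAPI

section EntAPI

variable {α : Type} [MeasurableSpace α] {μ : Measure α}

/-- bounded convergence for integrals of `φ ∘ F_i`, `φ` continuous. -/
theorem lsic_tendsto_integral_comp [IsFiniteMeasure μ] {ι : Type} {l : Filter ι} [l.IsCountablyGenerated]
    {F : ι → α → ℝ} {f : α → ℝ} {A B : ℝ} {φ : ℝ → ℝ} (hφ : Continuous φ)
    (hm : ∀ᶠ i in l, AEStronglyMeasurable (F i) μ) (hb : ∀ᶠ i in l, ∀ᵐ x ∂μ, A ≤ F i x ∧ F i x ≤ B)
    (hlim : ∀ᵐ x ∂μ, Tendsto (fun i => F i x) l (𝓝 (f x))) :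
    Tendsto (fun i => ∫ x, φ (F i x) ∂μ) l (𝓝 (∫ x, φ (f x) ∂μ)) := by
  obtain ⟨C, hC⟩ := (isCompact_Icc (a := A) (b := B)).exists_bound_of_continuousOn hφ.continuousOn
  refine tendsto_integral_filter_of_dominated_convergence (fun _ => C) ?_ ?_ (integrable_const C) ?_
  · filter_upwards [hm] with i hi using hφ.comp_aestronglyMeasurable hi
  · filter_upwards [hb] with i hi
    filter_upwards [hi] with x hx using hC _ ⟨hx.1, hx.2⟩
  · filter_upwards [hlim] with x hx using (hφ.tendsto _).comp hx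

/-- bounded convergence for the entropy functional. -/
theorem lsic_tendsto_ent [IsFiniteMeasure μ] {ι : Type} {l : Filter ι} [l.IsCountablyGenerated]
    {F : ι → α → ℝ} {f : α → ℝ} {A B : ℝ}
    (hm : ∀ᶠ i in l, AEStronglyMeasurable (F i) μ) (hb : ∀ᶠ i in l, ∀ᵐ x ∂μ, A ≤ F i x ∧ F i x ≤ B)
    (hlim : ∀ᵐ x ∂μ, Tendsto (fun i => F i x) l (𝓝 (f x))) :
    Tendsto (fun i => ent μ (F i)) l (𝓝 (ent μ f)) := by
  unfold ent
  have h1 := lsic_tendsto_integral_comp Real.continuous_mul_log hm hb hlim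
  have h2 := lsic_tendsto_integral_comp continuous_id hm hb hlim
  simp only [id] at h2
  exact h1.sub ((Real.continuous_mul_log.tendsto _).comp h2)

end EntAPI

end Claimed.Agent.R259
end

/- ===== packed: Claimed.Agent.R259.PlsiCore ===== -/
section
/-
R259 / PlsiCore.lean  (owner: helper26).  Kit PLSI, part 1: from the curved Prekopa-Leindler property to the
logarithmic Sobolev inequality for `e^g`, `g` bounded and semiconcave (Bobkov-Ledoux).  Prefix `plsi`.
-/
set_option autoImplicit false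
set_option linter.unusedSectionVars false

namespace Claimed.Agent.R259

open MeasureTheory Filter Topology
open scoped ENNReal

variable {E : Type} [NormedAddCommGroup E] [NormedSpace ℝ E] [MeasurableSpace E]

theorem DualEnergy.young_scaled {q : E → ℝ} {qs : (E →L[ℝ] ℝ) → ℝ} (h : DualEnergy q qs)
    (L : E →L[ℝ] ℝ) (k : E) {lam : ℝ} (hl : 0 < lam) : L k - lam / 2 * q k ≤ qs L / (2 * lam) := by
  have h1 := h.young L (lam • k)
  rw [h.hom, map_smul, smul_eq_mul] at h1
  rw [le_div_iff₀ (by positivity)]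
  nlinarith

theorem plsi_integrable_of_bdd {Ω : Type*} [MeasurableSpace Ω] {μ : Measure Ω} [IsFiniteMeasure μ] {f : Ω → ℝ}
    (hf : Measurable f) {C : ℝ} (hC : ∀ x, |f x| ≤ C) : Integrable f μ :=
  Integrable.of_bound hf.aestronglyMeasurable C (Eventually.of_forall fun x => by simpa using hC x)

/-- the data of the core theorem: a bounded measurable `g` with a field `D` of "supergradients". -/
structure PlsiData (qs : (E →L[ℝ] ℝ) → ℝ) (g : E → ℝ) (D : E → E →L[ℝ] ℝ) (G M Qb : ℝ) : Prop where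
  meas : Measurable g
  bdd : ∀ x, |g x| ≤ G
  M_nonneg : 0 ≤ M
  semi : ∀ z v, g (z + v) ≤ g z + D z v + M * ‖v‖ ^ 2
  measQ : Measurable fun z => qs (D z)
  Q_nonneg : ∀ z, 0 ≤ qs (D z)
  Q_le : ∀ z, qs (D z) ≤ Qb

section Core

variable {μ : Measure E} [IsProbabilityMeasure μ] {q : E → ℝ} {qs : (E →L[ℝ] ℝ) → ℝ}
  {g : E → ℝ} {D : E → E →L[ℝ] ℝ} {G M Qb : ℝ}

/-- **Step A**: Prekopa-Leindler. -/
theorem plsi_stepA (hμ : PLq μ q) (hE : DualEnergy q qs) {c : ℝ} (hc : 0 < c) (hq : ∀ h, c * ‖h‖ ^ 2 ≤ q h)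
    (hd : PlsiData qs g D G M Qb) {s : ℝ} (hs0 : 0 < s) (hs1 : s < 1) {lam : ℝ}
    (hlam : lam = 1 - s * (1 + 2 * M / c)) (hlam0 : 0 < lam) :
    (∫ x, Real.exp (g x / (1 - s)) ∂μ) ^ (1 - s) ≤ ∫ z, Real.exp (g z + s * qs (D z) / (2 * lam)) ∂μ := by
  have h1s : 0 < 1 - s := by linarith
  have hm1 : Measurable fun x => Real.exp (g x / (1 - s)) := (hd.meas.div_const _).exp
  have hm2 : Measurable fun z => Real.exp (g z + s * qs (D z) / (2 * lam)) :=
    (hd.meas.add ((hd.measQ.const_mul s).div_const _)).exp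
  have hi1 : Integrable (fun x => Real.exp (g x / (1 - s))) μ := by
    refine plsi_integrable_of_bdd hm1 (C := Real.exp (G / (1 - s))) fun x => ?_
    rw [abs_of_pos (Real.exp_pos _)]
    apply Real.exp_le_exp.2
    exact div_le_div_of_nonneg_right ((le_abs_self _).trans (hd.bdd x)) h1s.le
  have hi2 : Integrable (fun z => Real.exp (g z + s * qs (D z) / (2 * lam))) μ := by
    refine plsi_integrable_of_bdd hm2 (C := Real.exp (G + s * Qb / (2 * lam))) fun x => ?_
    rw [abs_of_pos (Real.exp_pos _)]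
    apply Real.exp_le_exp.2
    have h1 := (le_abs_self _).trans (hd.bdd x)
    have h2 : s * qs (D x) / (2 * lam) ≤ s * Qb / (2 * lam) :=
      div_le_div_of_nonneg_right (mul_le_mul_of_nonneg_left (hd.Q_le x) hs0.le) (by positivity)
    linarith
  have key := hμ s hs0 hs1 (fun x => ENNReal.ofReal (Real.exp (g x / (1 - s)))) (fun _ => 1)
    (fun z => ENNReal.ofReal (Real.exp (g z + s * qs (D z) / (2 * lam))))
    hm1.ennreal_ofReal measurable_const hm2.ennreal_ofReal ?_
  · rw [lintegral_one, measure_univ, ENNReal.one_rpow, mul_one,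
      ← ofReal_integral_eq_lintegral_ofReal hi1 (Eventually.of_forall fun _ => (Real.exp_pos _).le),
      ← ofReal_integral_eq_lintegral_ofReal hi2 (Eventually.of_forall fun _ => (Real.exp_pos _).le),
      ENNReal.ofReal_rpow_of_nonneg (integral_nonneg fun _ => (Real.exp_pos _).le) h1s.le] at key
    exact (ENNReal.ofReal_le_ofReal_iff (integral_nonneg fun _ => (Real.exp_pos _).le)).1 key
  · intro x y
    rw [ENNReal.ofReal_rpow_of_nonneg (Real.exp_pos _).le h1s.le, ENNReal.one_rpow, mul_one,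
      ← ENNReal.ofReal_mul (Real.rpow_nonneg (Real.exp_pos _).le _)]
    apply ENNReal.ofReal_le_ofReal
    rw [← Real.exp_mul, ← Real.exp_add]
    apply Real.exp_le_exp.2
    set z := (1 - s) • x + s • y with hz
    have hx : z + s • (x - y) = x := by
      rw [hz]; module
    have h1 := hd.semi z (s • (x - y))
    rw [hx, map_smul, smul_eq_mul, norm_smul, mul_pow, Real.norm_eq_abs, sq_abs] at h1
    have h2 := hE.young_scaled (D z) (x - y) hlam0
    have h3 := hq (x - y)
    have h4 : ‖x - y‖ ^ 2 ≤ q (x - y) / c := by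
      rw [le_div_iff₀ hc]; linarith
    have h5 : M * (s ^ 2 * ‖x - y‖ ^ 2) ≤ M * (s ^ 2 * (q (x - y) / c)) :=
      mul_le_mul_of_nonneg_left (mul_le_mul_of_nonneg_left h4 (sq_nonneg s)) hd.M_nonneg
    have h6 := mul_le_mul_of_nonneg_left h2 hs0.le
    have h7 : g x / (1 - s) * (1 - s) = g x := by field_simp
    have h8 : s * (qs (D z) / (2 * lam)) = s * qs (D z) / (2 * lam) := by ring
    have h9 : s * ((D z) (x - y) - lam / 2 * q (x - y)) =
        s * (D z) (x - y) - s * (1 - s) * q (x - y) / 2 + M * (s ^ 2 * (q (x - y) / c)) := by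
      rw [hlam]; field_simp; ring
    rw [h7]
    linarith

theorem PlsiData.integrable_exp (hd : PlsiData qs g D G M Qb) : Integrable (fun x => Real.exp (g x)) μ := by
  refine plsi_integrable_of_bdd hd.meas.exp (C := Real.exp G) fun x => ?_
  rw [abs_of_pos (Real.exp_pos _)]
  exact Real.exp_le_exp.2 ((le_abs_self _).trans (hd.bdd x))

theorem PlsiData.integrable_mul_exp (hd : PlsiData qs g D G M Qb) :
    Integrable (fun x => g x * Real.exp (g x)) μ := by
  refine plsi_integrable_of_bdd (hd.meas.mul hd.meas.exp) (C := G * Real.exp G) fun x => ?_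
  rw [abs_mul, abs_of_pos (Real.exp_pos _)]
  have hG : 0 ≤ G := (abs_nonneg _).trans (hd.bdd x)
  exact mul_le_mul (hd.bdd x) (Real.exp_le_exp.2 ((le_abs_self _).trans (hd.bdd x))) (Real.exp_pos _).le hG

theorem PlsiData.integrable_Q_exp (hd : PlsiData qs g D G M Qb) :
    Integrable (fun x => qs (D x) * Real.exp (g x)) μ := by
  refine plsi_integrable_of_bdd (hd.measQ.mul hd.meas.exp) (C := Qb * Real.exp G) fun x => ?_
  rw [abs_mul, abs_of_pos (Real.exp_pos _), abs_of_nonneg (hd.Q_nonneg x)]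
  have hQ : 0 ≤ Qb := (hd.Q_nonneg x).trans (hd.Q_le x)
  exact mul_le_mul (hd.Q_le x) (Real.exp_le_exp.2 ((le_abs_self _).trans (hd.bdd x))) (Real.exp_pos _).le hQ

theorem plsi_ent_exp (μ : Measure E) (g : E → ℝ) :
    ent μ (fun x => Real.exp (g x)) =
      ∫ x, g x * Real.exp (g x) ∂μ - (∫ x, Real.exp (g x) ∂μ) * Real.log (∫ x, Real.exp (g x) ∂μ) := by
  unfold ent
  congr 1
  refine integral_congr_ae (Eventually.of_forall fun x => ?_)
  simp only [Real.log_exp]
  ring

/-- **Step B**: the tangent line inequality (Jensen). -/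
theorem plsi_stepB (hd : PlsiData qs g D G M Qb) {s : ℝ} (hs1 : s < 1) :
    Real.log (∫ x, Real.exp (g x) ∂μ) + s * (ent μ (fun x => Real.exp (g x)) / ∫ x, Real.exp (g x) ∂μ)
      ≤ (1 - s) * Real.log (∫ x, Real.exp (g x / (1 - s)) ∂μ) := by
  have h1s : 0 < 1 - s := by linarith
  set m := ∫ x, Real.exp (g x) ∂μ with hm
  set A := ∫ x, g x * Real.exp (g x) ∂μ with hA
  have hmpos : 0 < m := integral_exp_pos (hd.integrable_exp (μ := μ))
  set θ := A / m with hθ
  set r := s / (1 - s) with hr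
  have hi1 : Integrable (fun x => Real.exp (g x / (1 - s))) μ := by
    refine plsi_integrable_of_bdd (hd.meas.div_const _).exp (C := Real.exp (G / (1 - s))) fun x => ?_
    rw [abs_of_pos (Real.exp_pos _)]
    apply Real.exp_le_exp.2
    exact div_le_div_of_nonneg_right ((le_abs_self _).trans (hd.bdd x)) h1s.le
  have hlow : Real.exp (r * θ) * m ≤ ∫ x, Real.exp (g x / (1 - s)) ∂μ := by
    have hi2 : Integrable (fun x => Real.exp (r * θ) *
        ((1 - r * θ) * Real.exp (g x) + r * (g x * Real.exp (g x)))) μ :=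
      (((hd.integrable_exp (μ := μ)).const_mul _).add ((hd.integrable_mul_exp (μ := μ)).const_mul _)).const_mul _
    have h1 : ∫ x, Real.exp (r * θ) * ((1 - r * θ) * Real.exp (g x) + r * (g x * Real.exp (g x))) ∂μ
        = Real.exp (r * θ) * m := by
      rw [integral_const_mul, integral_add ((hd.integrable_exp (μ := μ)).const_mul _)
        ((hd.integrable_mul_exp (μ := μ)).const_mul _), integral_const_mul, integral_const_mul, ← hm, ← hA]
      congr 1
      rw [hθ]; field_simp; ring
    rw [← h1]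
    refine integral_mono hi2 hi1 fun x => ?_
    have h2 : g x / (1 - s) = g x + r * θ + r * (g x - θ) := by
      rw [hr]; field_simp; ring
    have h3 := Real.add_one_le_exp (r * (g x - θ))
    change Real.exp (r * θ) * ((1 - r * θ) * Real.exp (g x) + r * (g x * Real.exp (g x))) ≤
      Real.exp (g x / (1 - s))
    rw [h2, Real.exp_add, Real.exp_add]
    have h4 : 0 < Real.exp (g x) * Real.exp (r * θ) := by positivity
    nlinarith [mul_le_mul_of_nonneg_left h3 h4.le]
  have hlog : r * θ + Real.log m ≤ Real.log (∫ x, Real.exp (g x / (1 - s)) ∂μ) := by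
    have := Real.log_le_log (by positivity) hlow
    rwa [Real.log_mul (Real.exp_pos _).ne' hmpos.ne', Real.log_exp] at this
  have hent : ent μ (fun x => Real.exp (g x)) / m = θ - Real.log m := by
    rw [plsi_ent_exp, ← hm, ← hA, hθ]; field_simp
  rw [hent]
  have h5 := mul_le_mul_of_nonneg_left hlog h1s.le
  have h6 : (1 - s) * (r * θ + Real.log m) = Real.log m + s * (θ - Real.log m) := by
    rw [hr]; field_simp; ring
  linarith

/-- **Step C**: second order expansion of the exponential. -/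
theorem plsi_stepC (hd : PlsiData qs g D G M Qb) {s : ℝ} (hs0 : 0 ≤ s) {lam : ℝ} (hlam : 1 / 2 ≤ lam)
    (hsQ : s * Qb ≤ 1) :
    Real.log (∫ z, Real.exp (g z + s * qs (D z) / (2 * lam)) ∂μ) ≤
      Real.log (∫ x, Real.exp (g x) ∂μ) +
        (s / (2 * lam) * ∫ x, qs (D x) * Real.exp (g x) ∂μ + s ^ 2 * Qb ^ 2 * ∫ x, Real.exp (g x) ∂μ)
          / ∫ x, Real.exp (g x) ∂μ := by
  set m := ∫ x, Real.exp (g x) ∂μ with hm
  set B := ∫ x, qs (D x) * Real.exp (g x) ∂μ with hB
  have hmpos : 0 < m := integral_exp_pos (hd.integrable_exp (μ := μ))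
  have hlam0 : 0 < lam := by linarith
  have hB0 : 0 ≤ B := integral_nonneg fun x => mul_nonneg (hd.Q_nonneg x) (Real.exp_pos _).le
  have hi2 : Integrable (fun z => Real.exp (g z + s * qs (D z) / (2 * lam))) μ := by
    refine plsi_integrable_of_bdd (hd.meas.add ((hd.measQ.const_mul s).div_const _)).exp
      (C := Real.exp (G + s * Qb / (2 * lam))) fun x => ?_
    rw [abs_of_pos (Real.exp_pos _)]
    apply Real.exp_le_exp.2
    have h1 := (le_abs_self _).trans (hd.bdd x)
    have h2 : s * qs (D x) / (2 * lam) ≤ s * Qb / (2 * lam) :=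
      div_le_div_of_nonneg_right (mul_le_mul_of_nonneg_left (hd.Q_le x) hs0) (by positivity)
    linarith
  have hup : ∫ z, Real.exp (g z + s * qs (D z) / (2 * lam)) ∂μ ≤ m + (s / (2 * lam) * B + s ^ 2 * Qb ^ 2 * m) := by
    have hi3 : Integrable (fun x => (1 + s ^ 2 * Qb ^ 2) * Real.exp (g x)
        + s / (2 * lam) * (qs (D x) * Real.exp (g x))) μ :=
      ((hd.integrable_exp (μ := μ)).const_mul _).add ((hd.integrable_Q_exp (μ := μ)).const_mul _)
    have h1 : ∫ x, ((1 + s ^ 2 * Qb ^ 2) * Real.exp (g x) + s / (2 * lam) * (qs (D x) * Real.exp (g x))) ∂μ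
        = m + (s / (2 * lam) * B + s ^ 2 * Qb ^ 2 * m) := by
      rw [integral_add ((hd.integrable_exp (μ := μ)).const_mul _) ((hd.integrable_Q_exp (μ := μ)).const_mul _),
        integral_const_mul, integral_const_mul, ← hm, ← hB]
      ring
    rw [← h1]
    refine integral_mono hi2 hi3 fun x => ?_
    change Real.exp (g x + s * qs (D x) / (2 * lam)) ≤
      (1 + s ^ 2 * Qb ^ 2) * Real.exp (g x) + s / (2 * lam) * (qs (D x) * Real.exp (g x))
    set y := s * qs (D x) / (2 * lam) with hy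
    have hy0 : 0 ≤ y := div_nonneg (mul_nonneg hs0 (hd.Q_nonneg x)) (by positivity)
    have hy1 : y ≤ s * Qb := by
      rw [hy, div_le_iff₀ (by positivity)]
      have h2 : s * qs (D x) ≤ s * Qb := mul_le_mul_of_nonneg_left (hd.Q_le x) hs0
      have h3 : 0 ≤ s * Qb := (mul_nonneg hs0 (hd.Q_nonneg x)).trans h2
      nlinarith
    have hy2 : |y| ≤ 1 := by rw [abs_of_nonneg hy0]; linarith
    have h4 := (abs_le.1 (Real.abs_exp_sub_one_sub_id_le hy2)).2
    have h5 : y ^ 2 ≤ s ^ 2 * Qb ^ 2 := by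
      rw [← mul_pow]; exact pow_le_pow_left₀ hy0 hy1 2
    rw [Real.exp_add]
    have h6 : Real.exp y ≤ 1 + s ^ 2 * Qb ^ 2 + y := by linarith
    have h7 := mul_le_mul_of_nonneg_left h6 (Real.exp_pos (g x)).le
    have h8 : s / (2 * lam) * (qs (D x) * Real.exp (g x)) = Real.exp (g x) * y := by rw [hy]; ring
    rw [h8]
    linarith
  have hpos : 0 < ∫ z, Real.exp (g z + s * qs (D z) / (2 * lam)) ∂μ := integral_exp_pos hi2
  set Y := (s / (2 * lam) * B + s ^ 2 * Qb ^ 2 * m) / m with hY
  have hY0 : 0 ≤ Y := by positivity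
  have h9 : m + (s / (2 * lam) * B + s ^ 2 * Qb ^ 2 * m) = m * (1 + Y) := by
    rw [hY]; field_simp
  calc Real.log (∫ z, Real.exp (g z + s * qs (D z) / (2 * lam)) ∂μ)
      ≤ Real.log (m * (1 + Y)) := by rw [← h9]; exact Real.log_le_log hpos hup
    _ = Real.log m + Real.log (1 + Y) := Real.log_mul hmpos.ne' (by positivity)
    _ ≤ Real.log m + Y := by
        have := Real.log_le_sub_one_of_pos (show 0 < 1 + Y by positivity)
        linarith

/-- **Core theorem** (Bobkov-Ledoux): `Ent_μ(e^g) ≤ ½ ∫ qs(D) e^g dμ`. -/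
theorem plsi_core (hμ : PLq μ q) (hE : DualEnergy q qs) (hd : PlsiData qs g D G M Qb) :
    ent μ (fun x => Real.exp (g x)) ≤ 1 / 2 * ∫ x, qs (D x) * Real.exp (g x) ∂μ := by
  obtain ⟨c, hc, hq⟩ := hE.coer
  set m := ∫ x, Real.exp (g x) ∂μ with hm
  set B := ∫ x, qs (D x) * Real.exp (g x) ∂μ with hB
  set k := 1 + 2 * M / c with hk
  have hM0 := hd.M_nonneg
  have hk1 : 1 ≤ k := by
    have : 0 ≤ 2 * M / c := by positivity
    linarith
  have hmpos : 0 < m := integral_exp_pos (hd.integrable_exp (μ := μ))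
  have hQb0 : 0 ≤ Qb := (hd.Q_nonneg 0).trans (hd.Q_le 0)
  -- the inequality for small `s`
  have hsmall : ∀ s : ℝ, 0 < s → s * k ≤ 1 / 2 → s * Qb ≤ 1 →
      ent μ (fun x => Real.exp (g x)) ≤ B / (2 * (1 - s * k)) + s * (Qb ^ 2 * m) := by
    intro s hs0 hsk hsQ
    have hs1 : s < 1 := by nlinarith
    have h1s : 0 < 1 - s := by linarith
    have hlam : (1 : ℝ) / 2 ≤ 1 - s * k := by linarith
    have hlam0 : 0 < 1 - s * k := by linarith
    have hA := plsi_stepA hμ hE hc hq hd hs0 hs1 (lam := 1 - s * k) rfl hlam0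
    have hBb := plsi_stepB (μ := μ) hd hs1
    have hC := plsi_stepC (μ := μ) hd hs0.le hlam hsQ
    have hi1 : Integrable (fun x => Real.exp (g x / (1 - s))) μ := by
      refine plsi_integrable_of_bdd (hd.meas.div_const _).exp (C := Real.exp (G / (1 - s))) fun x => ?_
      rw [abs_of_pos (Real.exp_pos _)]
      apply Real.exp_le_exp.2
      exact div_le_div_of_nonneg_right ((le_abs_self _).trans (hd.bdd x)) h1s.le
    have hpos1 : 0 < ∫ x, Real.exp (g x / (1 - s)) ∂μ := integral_exp_pos hi1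
    have hA' := Real.log_le_log (Real.rpow_pos_of_pos hpos1 _) hA
    rw [Real.log_rpow hpos1] at hA'
    rw [← hm, ← hB] at hC
    rw [← hm] at hBb
    have h1 : s * (ent μ (fun x => Real.exp (g x)) / m) ≤
        (s / (2 * (1 - s * k)) * B + s ^ 2 * Qb ^ 2 * m) / m := by linarith
    have h2 : s * (ent μ (fun x => Real.exp (g x)) / m) = s / m * ent μ (fun x => Real.exp (g x)) := by ring
    have h3 : (s / (2 * (1 - s * k)) * B + s ^ 2 * Qb ^ 2 * m) / m =
        s / m * (B / (2 * (1 - s * k)) + s * (Qb ^ 2 * m)) := by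
      field_simp
    rw [h2, h3] at h1
    exact le_of_mul_le_mul_left h1 (by positivity)
  -- the limit `s → 0+`
  have hlim : Tendsto (fun s : ℝ => B / (2 * (1 - s * k)) + s * (Qb ^ 2 * m)) (𝓝[>] 0) (𝓝 (1 / 2 * B)) := by
    have hcont : ContinuousAt (fun s : ℝ => B / (2 * (1 - s * k)) + s * (Qb ^ 2 * m)) 0 := by
      apply ContinuousAt.add
      · apply ContinuousAt.div continuousAt_const (by fun_prop)
        simp
      · fun_prop
    have h0 : B / (2 * (1 - (0 : ℝ) * k)) + (0 : ℝ) * (Qb ^ 2 * m) = 1 / 2 * B := by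
      simp; ring
    have := hcont.tendsto
    rw [h0] at this
    exact this.mono_left nhdsWithin_le_nhds
  refine ge_of_tendsto hlim ?_
  have hk0 : 0 < k := by linarith
  have hev : ∀ᶠ s : ℝ in 𝓝[>] 0, s < min (1 / (2 * k)) (1 / (Qb + 1)) := by
    apply Filter.Eventually.filter_mono nhdsWithin_le_nhds
    exact Iio_mem_nhds (lt_min (by positivity) (by positivity))
  filter_upwards [hev, self_mem_nhdsWithin] with s hs hs0
  have hs0' : 0 < s := hs0
  refine hsmall s hs0' ?_ ?_
  · have := (lt_min_iff.1 hs).1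
    rw [lt_div_iff₀ (by positivity)] at this
    linarith
  · have := (lt_min_iff.1 hs).2
    rw [lt_div_iff₀ (by positivity)] at this
    nlinarith

end Core

end Claimed.Agent.R259
end

/- ===== packed: Claimed.Agent.R259.CptGHOne ===== -/
section
/-
Row 259, kit CPT: Hermite library (written by helper181 for row 260 as R260/GHOne.lean, removed there as
unused; restored here verbatim by helper72, namespace moved to R259).
One-dimensional Hermite polynomials: derivative, Stein identity, orthogonality.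
-/
set_option autoImplicit false
open MeasureTheory ProbabilityTheory Polynomial Filter Topology

namespace Claimed.Agent.R259

/-- The standard Gaussian on `ℝ`. -/
noncomputable abbrev ghG1 : Measure ℝ := gaussianReal 0 1

/-- The real Hermite polynomial. -/
noncomputable def ghHr (n : ℕ) : ℝ[X] := (hermite n).map (Int.castRingHom ℝ)

theorem ghHr_zero : ghHr 0 = 1 := by simp [ghHr]

theorem ghHr_succ (n : ℕ) : ghHr (n + 1) = X * ghHr n - derivative (ghHr n) := by
  simp [ghHr, hermite_succ, derivative_map]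

theorem gh_derivative_hermite (n : ℕ) :
    derivative (hermite (n + 1)) = ((n : ℤ[X]) + 1) * hermite n := by
  induction n with
  | zero => simp [hermite_one]
  | succ n ih =>
    rw [hermite_succ (n + 1), derivative_sub, derivative_mul, derivative_X, ih, derivative_mul]
    have h1 : derivative ((n : ℤ[X]) + 1) = 0 := by
      rw [derivative_add, derivative_one, derivative_natCast, add_zero]
    rw [h1, hermite_succ n]
    push_cast
    ring

theorem ghHr_derivative (n : ℕ) : derivative (ghHr (n + 1)) = ((n : ℝ[X]) + 1) * ghHr n := by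
  simp only [ghHr, derivative_map, gh_derivative_hermite]
  simp

theorem ghHr_degree (n : ℕ) : (ghHr n).degree = n := by
  rw [ghHr, (hermite_monic n).degree_map, degree_hermite]

theorem ghHr_monic (n : ℕ) : (ghHr n).Monic := (hermite_monic n).map _

/-- The Hermite polynomials span all real polynomials. -/
theorem ghHr_span : Submodule.span ℝ (Set.range ghHr) = ⊤ := by
  let S : Polynomial.Sequence ℝ := ⟨ghHr, ghHr_degree⟩
  have := S.span (fun i => by
    have : (S i).leadingCoeff = 1 := ghHr_monic i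
    rw [this]; exact isUnit_one)
  exact this

/-! ### Integrability of polynomials -/

theorem gh_integrable_pow (n : ℕ) : Integrable (fun x : ℝ => x ^ n) ghG1 := by
  have h : MemLp (id : ℝ → ℝ) (n : NNReal) ghG1 := memLp_id_gaussianReal n
  rcases Nat.eq_zero_or_pos n with rfl | hn
  · simp
  · have h2 := h.integrable_norm_pow (p := n) (by exact_mod_cast hn.ne')
    have h3 : Integrable (fun x : ℝ => ‖x‖ ^ n) ghG1 := by simpa using h2
    refine h3.mono' (by fun_prop) (Eventually.of_forall fun x => ?_)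
    simp

theorem gh_integrable_eval (p : ℝ[X]) : Integrable (fun x : ℝ => p.eval x) ghG1 := by
  induction p using Polynomial.induction_on' with
  | add p q hp hq =>
    have := hp.add hq
    refine this.congr (Eventually.of_forall fun x => ?_)
    simp
  | monomial n a =>
    refine ((gh_integrable_pow n).const_mul a).congr (Eventually.of_forall fun x => ?_)
    simp

/-! ### Stein's identity -/

theorem gh_hasDerivAt_pdf (x : ℝ) :
    HasDerivAt (gaussianPDFReal 0 1) (-x * gaussianPDFReal 0 1 x) x := by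
  have h : gaussianPDFReal 0 1 = fun x : ℝ =>
      (Real.sqrt (2 * Real.pi))⁻¹ * Real.exp (-x ^ 2 / 2) := by
    ext y; simp [gaussianPDFReal]
  rw [h]
  have h1 : HasDerivAt (fun y : ℝ => -y ^ 2 / 2) (-x) x := by
    have := ((hasDerivAt_pow 2 x).neg).div_const 2
    refine (this.congr_deriv ?_)
    simp
    ring
  have h2 := (h1.exp).const_mul (Real.sqrt (2 * Real.pi))⁻¹
  refine h2.congr_deriv ?_
  ring

theorem gh_integrable_iff (f : ℝ → ℝ) :
    Integrable f ghG1 ↔ Integrable (fun x => gaussianPDFReal 0 1 x * f x) := by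
  rw [ghG1, gaussianReal_of_var_ne_zero 0 one_ne_zero,
    integrable_withDensity_iff_integrable_smul' (measurable_gaussianPDF 0 1)
      (Eventually.of_forall fun x => gaussianPDF_lt_top)]
  simp [toReal_gaussianPDF]

theorem gh_integral_eq (f : ℝ → ℝ) :
    ∫ x, f x ∂ghG1 = ∫ x, gaussianPDFReal 0 1 x * f x := by
  rw [integral_gaussianReal_eq_integral_smul one_ne_zero]
  simp

/-- **Stein's identity** for polynomials. -/
theorem gh_stein (p : ℝ[X]) :
    ∫ x, (derivative p).eval x ∂ghG1 = ∫ x, x * p.eval x ∂ghG1 := by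
  rw [gh_integral_eq, gh_integral_eq]
  have key := integral_mul_deriv_eq_deriv_mul_of_integrable
    (u := gaussianPDFReal 0 1) (v := fun x => p.eval x)
    (u' := fun x => -x * gaussianPDFReal 0 1 x) (v' := fun x => (derivative p).eval x)
    (fun x _ => gh_hasDerivAt_pdf x) (fun x _ => p.hasDerivAt x)
    ((gh_integrable_iff _).mp (gh_integrable_eval (derivative p)))
    (by
      have := (gh_integrable_iff _).mp (gh_integrable_eval (-(X * p)))
      refine this.congr (Eventually.of_forall fun x => ?_)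
      simp; ring)
    ((gh_integrable_iff _).mp (gh_integrable_eval p))
  rw [key, ← integral_neg]
  congr 1
  ext x
  ring

/-- Gaussian integration by parts for polynomials. -/
theorem gh_ibp (p q : ℝ[X]) :
    ∫ x, (derivative p).eval x * q.eval x ∂ghG1
      = ∫ x, p.eval x * (x * q.eval x - (derivative q).eval x) ∂ghG1 := by
  have h := gh_stein (p * q)
  have e1 : (fun x : ℝ => (derivative (p * q)).eval x)
      = fun x => (derivative p).eval x * q.eval x + p.eval x * (derivative q).eval x := by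
    ext x; simp [derivative_mul]
  have i1 : Integrable (fun x : ℝ => (derivative p).eval x * q.eval x) ghG1 := by
    simpa using gh_integrable_eval (derivative p * q)
  have i2 : Integrable (fun x : ℝ => p.eval x * (derivative q).eval x) ghG1 := by
    simpa using gh_integrable_eval (p * derivative q)
  have i3 : Integrable (fun x : ℝ => x * (p * q).eval x) ghG1 := by
    refine (gh_integrable_eval (X * (p * q))).congr (Eventually.of_forall fun x => ?_)
    simp
  rw [e1, integral_add i1 i2] at h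
  have e2 : (fun x : ℝ => p.eval x * (x * q.eval x - (derivative q).eval x))
      = fun x => x * (p * q).eval x - p.eval x * (derivative q).eval x := by
    ext x; simp; ring
  rw [e2, integral_sub i3 i2]
  linarith

/-- `∫ He_{n+1} q = ∫ He_n q'`. -/
theorem gh_hermite_succ_integral (n : ℕ) (q : ℝ[X]) :
    ∫ x, (ghHr (n + 1)).eval x * q.eval x ∂ghG1
      = ∫ x, (ghHr n).eval x * (derivative q).eval x ∂ghG1 := by
  have h := gh_ibp q (ghHr n)
  have e1 : (fun x : ℝ => (ghHr (n + 1)).eval x * q.eval x)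
      = fun x => q.eval x * (x * (ghHr n).eval x - (derivative (ghHr n)).eval x) := by
    ext x; rw [ghHr_succ]; simp; ring
  rw [e1, ← h]
  congr 1
  ext x
  ring

/-- **Orthogonality** of the Hermite polynomials. -/
theorem gh_hermite_orthogonal (n k : ℕ) :
    ∫ x, (ghHr n).eval x * (ghHr k).eval x ∂ghG1 = if n = k then (n.factorial : ℝ) else 0 := by
  induction n generalizing k with
  | zero =>
    cases k with
    | zero => simp [ghHr_zero]
    | succ k =>
      have h := gh_hermite_succ_integral k (ghHr 0)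
      have e : (fun x : ℝ => (ghHr 0).eval x * (ghHr (k + 1)).eval x)
          = fun x => (ghHr (k + 1)).eval x * (ghHr 0).eval x := by ext x; ring
      rw [e, h]
      simp [ghHr_zero]
  | succ n ih =>
    rw [gh_hermite_succ_integral]
    cases k with
    | zero => simp [ghHr_zero]
    | succ k =>
      rw [ghHr_derivative]
      have e : (fun x : ℝ => (ghHr n).eval x * (((k : ℝ[X]) + 1) * ghHr k).eval x)
          = fun x => ((k : ℝ) + 1) * ((ghHr n).eval x * (ghHr k).eval x) := by
        ext x; simp; ring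
      rw [e, integral_const_mul, ih k]
      by_cases hnk : n = k
      · subst hnk
        simp [Nat.factorial_succ]
      · have : n + 1 ≠ k + 1 := by omega
        simp [hnk]

end Claimed.Agent.R259
end

/- ===== packed: Claimed.Agent.R259.CptGHProd ===== -/
section
/-
Row 259, kit CPT: Hermite library (written by helper181 for row 260 as R260/GHProd.lean, removed there as
unused; restored here verbatim by helper72, namespace moved to R259).
Product structure of `gam m`, multi-index Hermite functions, orthonormality.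
-/
set_option autoImplicit false
open MeasureTheory ProbabilityTheory Polynomial Filter Topology

namespace Claimed.Agent.R259

open Claimed.Agent.R260

variable {m : ℕ}

/-! ### `gam m` as a product measure -/

theorem gh_gam_eq_map :
    gam m = (Measure.pi fun _ : Fin m => ghG1).map (MeasurableEquiv.toLp 2 (Fin m → ℝ)) :=
  (map_pi_eq_stdGaussian (ι := Fin m)).symm

theorem gh_integral_gam {G : Type*} [NormedAddCommGroup G] [NormedSpace ℝ G] (F : EE m → G) :
    ∫ x, F x ∂gam m = ∫ y : Fin m → ℝ, F (WithLp.toLp 2 y) ∂(Measure.pi fun _ : Fin m => ghG1) := by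
  rw [gh_gam_eq_map]
  exact integral_map_equiv (MeasurableEquiv.toLp 2 (Fin m → ℝ)) F

theorem gh_integrable_gam {G : Type*} [NormedAddCommGroup G] (F : EE m → G) :
    Integrable F (gam m) ↔
      Integrable (fun y : Fin m → ℝ => F (WithLp.toLp 2 y)) (Measure.pi fun _ : Fin m => ghG1) := by
  rw [gh_gam_eq_map]
  exact integrable_map_equiv (MeasurableEquiv.toLp 2 (Fin m → ℝ)) F

theorem gh_integral_prod {𝕜 : Type*} [RCLike 𝕜] (f : Fin m → ℝ → 𝕜) :
    ∫ x : EE m, ∏ i, f i (x i) ∂gam m = ∏ i, ∫ t, f i t ∂ghG1 := by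
  rw [gh_integral_gam]
  exact integral_fintype_prod_eq_prod (μ := fun _ : Fin m => ghG1) f

theorem gh_integrable_prod {𝕜 : Type*} [RCLike 𝕜] {f : Fin m → ℝ → 𝕜}
    (hf : ∀ i, Integrable (f i) ghG1) : Integrable (fun x : EE m => ∏ i, f i (x i)) (gam m) := by
  rw [gh_integrable_gam]
  exact Integrable.fintype_prod (μ := fun _ : Fin m => ghG1) hf

/-! ### Normalised Hermite functions -/

/-- The normalised Hermite polynomial function `He_n / √(n!)`. -/
noncomputable def ghh (n : ℕ) (x : ℝ) : ℝ := (ghHr n).eval x / Real.sqrt n.factorial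

theorem ghh_zero (x : ℝ) : ghh 0 x = 1 := by simp [ghh, ghHr_zero]

theorem gh_sqrt_factorial_pos (n : ℕ) : 0 < Real.sqrt n.factorial :=
  Real.sqrt_pos.mpr (by exact_mod_cast n.factorial_pos)

theorem ghh_continuous (n : ℕ) : Continuous (ghh n) := by
  unfold ghh
  exact ((ghHr n).continuous).div_const _

theorem ghh_mul_integrable (n k : ℕ) : Integrable (fun x => ghh n x * ghh k x) ghG1 := by
  have := (gh_integrable_eval (ghHr n * ghHr k)).div_const
    (Real.sqrt n.factorial * Real.sqrt k.factorial)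
  refine this.congr (Eventually.of_forall fun x => ?_)
  simp only [ghh, eval_mul]
  have h1 := (gh_sqrt_factorial_pos n).ne'
  have h2 := (gh_sqrt_factorial_pos k).ne'
  field_simp

theorem ghh_orthonormal (n k : ℕ) :
    ∫ x, ghh n x * ghh k x ∂ghG1 = if n = k then 1 else 0 := by
  have e : (fun x => ghh n x * ghh k x) = fun x =>
      ((ghHr n).eval x * (ghHr k).eval x) / (Real.sqrt n.factorial * Real.sqrt k.factorial) := by
    ext x
    simp only [ghh]
    have h1 := (gh_sqrt_factorial_pos n).ne'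
    have h2 := (gh_sqrt_factorial_pos k).ne'
    field_simp
  rw [e, integral_div, gh_hermite_orthogonal]
  by_cases h : n = k
  · subst h
    have h0 : (0 : ℝ) ≤ n.factorial := by positivity
    have h1 : (n.factorial : ℝ) ≠ 0 := by positivity
    simp [Real.mul_self_sqrt h0, h1]
  · simp [h]

/-- Multi-index Hermite function on `EE m`. -/
noncomputable def ghH (α : Fin m → ℕ) (x : EE m) : ℝ := ∏ i, ghh (α i) (x i)

theorem ghH_zero (x : EE m) : ghH (0 : Fin m → ℕ) x = 1 := by simp [ghH, ghh_zero]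

theorem ghH_continuous (α : Fin m → ℕ) : Continuous (ghH α) := by
  unfold ghH
  refine continuous_finset_prod _ fun i _ => (ghh_continuous _).comp ?_
  fun_prop

theorem ghH_mul_integrable (α β : Fin m → ℕ) :
    Integrable (fun x => ghH α x * ghH β x) (gam m) := by
  have := gh_integrable_prod (m := m) (f := fun i t => ghh (α i) t * ghh (β i) t)
    (fun i => ghh_mul_integrable _ _)
  refine this.congr (Eventually.of_forall fun x => ?_)
  simp only [ghH, Finset.prod_mul_distrib]

theorem ghH_orthonormal (α β : Fin m → ℕ) :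
    ∫ x, ghH α x * ghH β x ∂gam m = if α = β then 1 else 0 := by
  have e : (fun x : EE m => ghH α x * ghH β x)
      = fun x => ∏ i, (ghh (α i) (x i) * ghh (β i) (x i)) := by
    ext x; simp only [ghH, Finset.prod_mul_distrib]
  rw [e, gh_integral_prod (fun i t => ghh (α i) t * ghh (β i) t)]
  simp only [ghh_orthonormal]
  by_cases h : α = β
  · subst h; simp
  · rw [if_neg h]
    obtain ⟨i, hi⟩ := Function.ne_iff.mp h
    exact Finset.prod_eq_zero (Finset.mem_univ i) (by simp [hi])

theorem ghH_memLp (α : Fin m → ℕ) : MemLp (ghH α) 2 (gam m) := by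
  rw [memLp_two_iff_integrable_sq (ghH_continuous α).aestronglyMeasurable]
  refine (ghH_mul_integrable α α).congr (Eventually.of_forall fun x => ?_)
  simp [sq]

/-- Hermite coefficient. -/
noncomputable def ghC (u : EE m → ℝ) (α : Fin m → ℕ) : ℝ := ∫ x, u x * ghH α x ∂gam m

theorem ghC_zero (u : EE m → ℝ) : ghC u 0 = ∫ x, u x ∂gam m := by simp [ghC, ghH_zero]

theorem gh_integrable_mul_ghH {u : EE m → ℝ} (hu : MemLp u 2 (gam m)) (α : Fin m → ℕ) :
    Integrable (fun x => u x * ghH α x) (gam m) := hu.integrable_mul (ghH_memLp α)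

end Claimed.Agent.R259
end

/- ===== packed: Claimed.Agent.R259.CptGHComplete ===== -/
section
/-
Row 259, kit CPT: Hermite library (written by helper181 for row 260 as R260/GHComplete.lean, removed there as
unused; restored here verbatim by helper72, namespace moved to R259).
Completeness of the Hermite functions: a function with exponential integrability all of whose
Hermite coefficients vanish is zero a.e.
-/
set_option autoImplicit false
open MeasureTheory ProbabilityTheory Polynomial Filter Topology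

namespace Claimed.Agent.R259

open Claimed.Agent.R260

variable {m : ℕ}

/-- The exponential weight `exp (c ∑ |x_i|)`. -/
noncomputable def ghW (c : ℝ) (x : EE m) : ℝ := Real.exp (c * ∑ i, |x i|)

theorem ghW_continuous (c : ℝ) : Continuous (ghW (m := m) c) := by
  unfold ghW
  fun_prop

theorem ghW_pos (c : ℝ) (x : EE m) : 0 < ghW c x := Real.exp_pos _

/-- A polynomial is dominated by `exp |t|`. -/
theorem gh_poly_le_exp (p : ℝ[X]) : ∃ C : ℝ, 0 ≤ C ∧ ∀ t : ℝ, |p.eval t| ≤ C * Real.exp |t| := by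
  induction p using Polynomial.induction_on' with
  | add p q hp hq =>
    obtain ⟨C1, h1, hp⟩ := hp
    obtain ⟨C2, h2, hq⟩ := hq
    refine ⟨C1 + C2, by positivity, fun t => ?_⟩
    rw [eval_add, add_mul]
    exact (abs_add_le _ _).trans (add_le_add (hp t) (hq t))
  | monomial n a =>
    refine ⟨|a| * n.factorial, by positivity, fun t => ?_⟩
    rw [eval_monomial, abs_mul, abs_pow]
    have h := Real.pow_div_factorial_le_exp |t| (abs_nonneg t) n
    rw [div_le_iff₀ (by positivity)] at h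
    calc |a| * |t| ^ n ≤ |a| * (Real.exp |t| * n.factorial) := by gcongr
      _ = _ := by ring

theorem gh_polyprod_le (p : Fin m → ℝ[X]) :
    ∃ C : ℝ, 0 ≤ C ∧ ∀ x : EE m, |∏ j, (p j).eval (x j)| ≤ C * ghW 1 x := by
  choose C hC0 hC using fun j => gh_poly_le_exp (p j)
  refine ⟨∏ j, C j, Finset.prod_nonneg fun j _ => hC0 j, fun x => ?_⟩
  rw [Finset.abs_prod, ghW, one_mul, Real.exp_sum, ← Finset.prod_mul_distrib]
  exact Finset.prod_le_prod (fun j _ => abs_nonneg _) (fun j _ => hC j (x j))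

theorem gh_polyprod_continuous (p : Fin m → ℝ[X]) :
    Continuous (fun x : EE m => ∏ j, (p j).eval (x j)) := by
  refine continuous_finset_prod _ fun j _ => ((p j).continuous).comp ?_
  fun_prop

section
variable {f : EE m → ℝ}

theorem gh_integrable_mul_polyprod (hfm : AEStronglyMeasurable f (gam m))
    (hf : Integrable (fun x => f x * ghW 1 x) (gam m)) (p : Fin m → ℝ[X]) :
    Integrable (fun x => f x * ∏ j, (p j).eval (x j)) (gam m) := by
  obtain ⟨C, hC0, hC⟩ := gh_polyprod_le p
  refine (hf.norm.const_mul C).mono' (hfm.mul (gh_polyprod_continuous p).aestronglyMeasurable)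
    (Eventually.of_forall fun x => ?_)
  rw [norm_mul, norm_mul, Real.norm_eq_abs, Real.norm_eq_abs, Real.norm_eq_abs,
    abs_of_pos (ghW_pos 1 x)]
  calc |f x| * |∏ j, (p j).eval (x j)| ≤ |f x| * (C * ghW 1 x) := by
        gcongr; exact hC x
    _ = _ := by ring

theorem ghH_eq_polyprod (κ : Fin m → ℕ) (x : EE m) :
    ∏ j, (ghHr (κ j)).eval (x j) = (∏ j, Real.sqrt (κ j).factorial) * ghH κ x := by
  rw [ghH, ← Finset.prod_mul_distrib]
  refine Finset.prod_congr rfl fun j _ => ?_
  rw [ghh, mul_div_cancel₀ _ (gh_sqrt_factorial_pos _).ne']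

/-- If all Hermite coefficients vanish, so do all integrals against products of polynomials. -/
theorem gh_polyprod_integral_zero (hfm : AEStronglyMeasurable f (gam m))
    (hf : Integrable (fun x => f x * ghW 1 x) (gam m))
    (h0 : ∀ α, ∫ x, f x * ghH α x ∂gam m = 0) (p : Fin m → ℝ[X]) :
    ∫ x, f x * ∏ j, (p j).eval (x j) ∂gam m = 0 := by
  have hspan : ∀ j, ∃ c : ℕ →₀ ℝ, (c.sum fun k a => a • ghHr k) = p j := fun j => by
    rw [← Finsupp.mem_span_range_iff_exists_finsupp, ghHr_span]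
    trivial
  choose c hc using hspan
  have hev : ∀ j (t : ℝ), (p j).eval t = ∑ k ∈ (c j).support, c j k * (ghHr k).eval t := by
    intro j t
    rw [← hc j, Finsupp.sum, eval_finset_sum]
    simp
  have hexp : ∀ x : EE m, f x * ∏ j, (p j).eval (x j)
      = ∑ κ ∈ Fintype.piFinset (fun j => (c j).support),
          (∏ j, c j (κ j)) * (f x * ∏ j, (ghHr (κ j)).eval (x j)) := by
    intro x
    simp only [hev]
    rw [Finset.prod_univ_sum, Finset.mul_sum]
    refine Finset.sum_congr rfl fun κ _ => ?_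
    rw [Finset.prod_mul_distrib]
    ring
  simp only [hexp]
  rw [integral_finset_sum _ (fun κ _ =>
    (gh_integrable_mul_polyprod hfm hf (fun j => ghHr (κ j))).const_mul _)]
  refine Finset.sum_eq_zero fun κ _ => ?_
  rw [integral_const_mul]
  have : (fun x : EE m => f x * ∏ j, (ghHr (κ j)).eval (x j))
      = fun x => (∏ j, Real.sqrt (κ j).factorial) * (f x * ghH κ x) := by
    ext x; rw [ghH_eq_polyprod]; ring
  rw [this, integral_const_mul, h0 κ]
  simp

end

/-! ### The Fourier transform of `f γ` vanishes -/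

/-- Partial sums of the exponential series. -/
noncomputable def ghS (N : ℕ) (z : ℂ) : ℂ := ∑ n ∈ Finset.range N, z ^ n / (n.factorial : ℂ)

theorem ghS_norm_le (N : ℕ) (z : ℂ) : ‖ghS N z‖ ≤ Real.exp ‖z‖ := by
  calc ‖ghS N z‖ ≤ ∑ n ∈ Finset.range N, ‖z ^ n / (n.factorial : ℂ)‖ := norm_sum_le _ _
    _ = ∑ n ∈ Finset.range N, ‖z‖ ^ n / (n.factorial : ℝ) := by
        refine Finset.sum_congr rfl fun n _ => ?_
        rw [norm_div, norm_pow, Complex.norm_natCast]
    _ ≤ Real.exp ‖z‖ := Real.sum_le_exp_of_nonneg (norm_nonneg z) N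

theorem ghS_tendsto (z : ℂ) : Tendsto (fun N => ghS N z) atTop (𝓝 (Complex.exp z)) := by
  have h := (NormedSpace.expSeries_div_hasSum_exp z).tendsto_sum_nat
  rw [← Complex.exp_eq_exp_ℂ] at h
  exact h

section
variable {f : EE m → ℝ}

theorem gh_partial_integral_zero (hfm : AEStronglyMeasurable f (gam m))
    (hf : Integrable (fun x => f x * ghW 1 x) (gam m))
    (h0 : ∀ α, ∫ x, f x * ghH α x ∂gam m = 0) (t : EE m) (N : ℕ) :
    ∫ x, (f x : ℂ) * ∏ j, ghS N (((x j * t j : ℝ) : ℂ) * Complex.I) ∂gam m = 0 := by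
  have hexp : ∀ x : EE m, (f x : ℂ) * ∏ j, ghS N (((x j * t j : ℝ) : ℂ) * Complex.I)
      = ∑ κ ∈ Fintype.piFinset (fun _ : Fin m => Finset.range N),
          (∏ j, ((t j : ℂ) * Complex.I) ^ (κ j) / ((κ j).factorial : ℂ)) *
            ((f x * ∏ j, (X ^ (κ j) : ℝ[X]).eval (x j) : ℝ) : ℂ) := by
    intro x
    simp only [ghS]
    rw [Finset.prod_univ_sum, Finset.mul_sum]
    refine Finset.sum_congr rfl fun κ _ => ?_
    simp only [eval_pow, eval_X]
    push_cast
    rw [mul_left_comm, ← Finset.prod_mul_distrib]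
    congr 1
    refine Finset.prod_congr rfl fun j _ => ?_
    rw [mul_assoc, mul_pow]
    ring
  simp only [hexp]
  rw [integral_finset_sum _ (fun κ _ =>
    ((gh_integrable_mul_polyprod hfm hf (fun j => X ^ (κ j))).ofReal).const_mul _)]
  refine Finset.sum_eq_zero fun κ _ => ?_
  rw [integral_const_mul, integral_complex_ofReal, gh_polyprod_integral_zero hfm hf h0]
  simp

theorem gh_fourier_zero (hfm : AEStronglyMeasurable f (gam m))
    (hf : ∀ c : ℝ, Integrable (fun x => f x * ghW c x) (gam m))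
    (h0 : ∀ α, ∫ x, f x * ghH α x ∂gam m = 0) (t : EE m) :
    ∫ x, (f x : ℂ) * Complex.exp ((inner ℝ x t : ℝ) * Complex.I) ∂gam m = 0 := by
  set c : ℝ := ∑ k, |t k| with hc
  have hlim := tendsto_integral_of_dominated_convergence
    (μ := gam m)
    (F := fun N x => (f x : ℂ) * ∏ j, ghS N (((x j * t j : ℝ) : ℂ) * Complex.I))
    (f := fun x => (f x : ℂ) * Complex.exp ((inner ℝ x t : ℝ) * Complex.I))
    (fun x => ‖f x * ghW c x‖) ?_ (hf c).norm ?_ ?_
  · simp only [gh_partial_integral_zero hfm (hf 1) h0 t] at hlim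
    exact (tendsto_nhds_unique hlim tendsto_const_nhds)
  · intro N
    refine (Complex.measurable_ofReal.comp_aemeasurable hfm.aemeasurable).aestronglyMeasurable.mul ?_
    refine Continuous.aestronglyMeasurable ?_
    refine continuous_finset_prod _ fun j _ => ?_
    unfold ghS
    fun_prop
  · intro N
    refine Eventually.of_forall fun x => ?_
    rw [norm_mul, norm_mul, Complex.norm_real, Real.norm_eq_abs (ghW c x), abs_of_pos (ghW_pos c x)]
    gcongr
    rw [norm_prod, ghW, Finset.mul_sum, Real.exp_sum]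
    refine Finset.prod_le_prod (fun j _ => norm_nonneg _) (fun j _ => ?_)
    refine (ghS_norm_le N _).trans (Real.exp_le_exp.mpr ?_)
    rw [norm_mul, Complex.norm_I, mul_one, Complex.norm_real, Real.norm_eq_abs, abs_mul, mul_comm]
    gcongr
    exact Finset.single_le_sum (f := fun k => |t k|) (fun k _ => abs_nonneg _) (Finset.mem_univ j)
  · refine Eventually.of_forall fun x => ?_
    refine Tendsto.const_mul _ ?_
    have h1 : Complex.exp ((inner ℝ x t : ℝ) * Complex.I)
        = ∏ j, Complex.exp (((x j * t j : ℝ) : ℂ) * Complex.I) := by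
      rw [← Complex.exp_sum, ← Finset.sum_mul, ← Complex.ofReal_sum]
      congr 3
      simp [PiLp.inner_apply, mul_comm]
    rw [h1]
    exact tendsto_finset_prod _ fun j _ => ghS_tendsto _

/-- **Completeness of the Hermite functions.** -/
theorem gh_complete (hfm : AEStronglyMeasurable f (gam m))
    (hf : ∀ c : ℝ, Integrable (fun x => f x * ghW c x) (gam m))
    (h0 : ∀ α, ∫ x, f x * ghH α x ∂gam m = 0) : f =ᵐ[gam m] 0 := by
  have hfi : Integrable f (gam m) := by
    have := hf 0
    simpa [ghW] using this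
  set μp : Measure (EE m) := (gam m).withDensity (fun x => ENNReal.ofReal (f x)) with hμp
  set μn : Measure (EE m) := (gam m).withDensity (fun x => ENNReal.ofReal (-f x)) with hμn
  have hmp : AEMeasurable (fun x => ENNReal.ofReal (f x)) (gam m) :=
    hfm.aemeasurable.ennreal_ofReal
  have hmn : AEMeasurable (fun x => ENNReal.ofReal (-f x)) (gam m) :=
    hfm.aemeasurable.neg.ennreal_ofReal
  have hfinp : ∫⁻ x, ENNReal.ofReal (f x) ∂gam m ≠ ⊤ :=
    (hfi.lintegral_lt_top).ne
  have hfinn : ∫⁻ x, ENNReal.ofReal (-f x) ∂gam m ≠ ⊤ :=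
    (hfi.neg.lintegral_lt_top).ne
  haveI : IsFiniteMeasure μp := isFiniteMeasure_withDensity hfinp
  haveI : IsFiniteMeasure μn := isFiniteMeasure_withDensity hfinn
  have hchar : μp = μn := by
    apply Measure.ext_of_charFun
    ext t
    rw [charFun_apply, charFun_apply, hμp, hμn,
      integral_withDensity_eq_integral_toReal_smul₀ hmp (Eventually.of_forall fun x => by simp),
      integral_withDensity_eq_integral_toReal_smul₀ hmn (Eventually.of_forall fun x => by simp)]
    rw [← sub_eq_zero, ← integral_sub]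
    · rw [← gh_fourier_zero hfm hf h0 t]
      congr 1
      ext x
      rw [← sub_smul, ENNReal.toReal_ofReal', ENNReal.toReal_ofReal']
      have : max (f x) 0 - max (-f x) 0 = f x := by
        rcases le_total 0 (f x) with h | h
        · rw [max_eq_left h, max_eq_right (by linarith)]; ring
        · rw [max_eq_right h, max_eq_left (by linarith)]; ring
      rw [this]
      simp
    · refine (hfi.norm).mono' ?_ (Eventually.of_forall fun x => ?_)
      · exact ((hmp.ennreal_toReal).aestronglyMeasurable).smul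
          (Continuous.aestronglyMeasurable (by fun_prop))
      · rw [norm_smul, Complex.norm_exp_ofReal_mul_I, mul_one, ENNReal.toReal_ofReal',
          Real.norm_eq_abs, Real.norm_eq_abs]
        rcases le_total 0 (f x) with h | h
        · rw [max_eq_left h]
        · rw [max_eq_right h]; simp
    · refine (hfi.norm).mono' ?_ (Eventually.of_forall fun x => ?_)
      · exact ((hmn.ennreal_toReal).aestronglyMeasurable).smul
          (Continuous.aestronglyMeasurable (by fun_prop))
      · rw [norm_smul, Complex.norm_exp_ofReal_mul_I, mul_one, ENNReal.toReal_ofReal',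
          Real.norm_eq_abs, Real.norm_eq_abs]
        rcases le_total 0 (f x) with h | h
        · rw [max_eq_right (by linarith)]; simp
        · rw [max_eq_left (by linarith), abs_neg]
  have hae := (withDensity_eq_iff hmp hmn hfinp).mp hchar
  filter_upwards [hae] with x hx
  by_contra hne
  rcases lt_or_gt_of_ne hne with h | h
  · have h1 : ENNReal.ofReal (f x) = 0 := ENNReal.ofReal_eq_zero.mpr h.le
    have h2 : 0 < ENNReal.ofReal (-f x) := ENNReal.ofReal_pos.mpr (by simpa using h)
    rw [← hx, h1] at h2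
    exact lt_irrefl _ h2
  · have h1 : ENNReal.ofReal (-f x) = 0 := ENNReal.ofReal_eq_zero.mpr (by simpa using h.le)
    have h2 : 0 < ENNReal.ofReal (f x) := ENNReal.ofReal_pos.mpr h
    rw [hx, h1] at h2
    exact lt_irrefl _ h2

end

end Claimed.Agent.R259
end

/- ===== packed: Claimed.Agent.R259.CptGHBasis ===== -/
section
/-
Row 259, kit CPT: Hermite library (written by helper181 for row 260 as R260/GHBasis.lean, removed there as
unused; restored here verbatim by helper72, namespace moved to R259).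
The Hermite functions form a Hilbert basis of `L²(gam m)`: Parseval, uniqueness, synthesis.
-/
set_option autoImplicit false
open MeasureTheory ProbabilityTheory Polynomial Filter Topology

namespace Claimed.Agent.R259

open Claimed.Agent.R260

variable {m : ℕ}

/-! ### Integrability of the exponential weights -/

theorem gh_integrable_exp_abs (c : ℝ) : Integrable (fun t : ℝ => Real.exp (c * |t|)) ghG1 := by
  have h1 : Integrable (fun t : ℝ => Real.exp (c * t)) ghG1 := integrable_exp_mul_gaussianReal c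
  have h2 : Integrable (fun t : ℝ => Real.exp (-c * t)) ghG1 := integrable_exp_mul_gaussianReal (-c)
  refine (h1.add h2).mono' (by fun_prop) (Eventually.of_forall fun t => ?_)
  rw [Real.norm_eq_abs, abs_of_pos (Real.exp_pos _)]
  simp only [Pi.add_apply]
  rcases le_total 0 t with h | h
  · rw [abs_of_nonneg h]
    have := Real.exp_pos (-c * t)
    linarith
  · rw [abs_of_nonpos h]
    have := Real.exp_pos (c * t)
    have e : c * -t = -c * t := by ring
    rw [e]
    linarith

theorem ghW_integrable (c : ℝ) : Integrable (ghW (m := m) c) (gam m) := by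
  have := gh_integrable_prod (m := m) (f := fun _ t => Real.exp (c * |t|))
    (fun _ => gh_integrable_exp_abs c)
  refine this.congr (Eventually.of_forall fun x => ?_)
  simp only [ghW, Finset.mul_sum, Real.exp_sum]

theorem ghW_mul (c c' : ℝ) (x : EE m) : ghW c x * ghW c' x = ghW (c + c') x := by
  simp only [ghW, ← Real.exp_add, add_mul]

theorem ghW_memLp (c : ℝ) : MemLp (ghW (m := m) c) 2 (gam m) := by
  rw [memLp_two_iff_integrable_sq (ghW_continuous c).aestronglyMeasurable]
  refine (ghW_integrable (c + c)).congr (Eventually.of_forall fun x => ?_)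
  show ghW (c + c) x = ghW c x ^ 2
  rw [sq, ghW_mul]

theorem gh_integrable_mul_ghW {u : EE m → ℝ} (hu : MemLp u 2 (gam m)) (c : ℝ) :
    Integrable (fun x => u x * ghW c x) (gam m) := hu.integrable_mul (ghW_memLp c)

/-! ### Uniqueness -/

theorem gh_ae_eq_zero_of_coef {u : EE m → ℝ} (hu : MemLp u 2 (gam m)) (h : ∀ α, ghC u α = 0) :
    u =ᵐ[gam m] 0 :=
  gh_complete hu.aestronglyMeasurable (gh_integrable_mul_ghW hu) h

theorem ghC_sub {u v : EE m → ℝ} (hu : MemLp u 2 (gam m)) (hv : MemLp v 2 (gam m))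
    (α : Fin m → ℕ) : ghC (fun x => u x - v x) α = ghC u α - ghC v α := by
  simp only [ghC, sub_mul]
  exact integral_sub (gh_integrable_mul_ghH hu α) (gh_integrable_mul_ghH hv α)

theorem ghC_add {u v : EE m → ℝ} (hu : MemLp u 2 (gam m)) (hv : MemLp v 2 (gam m))
    (α : Fin m → ℕ) : ghC (fun x => u x + v x) α = ghC u α + ghC v α := by
  simp only [ghC, add_mul]
  exact integral_add (gh_integrable_mul_ghH hu α) (gh_integrable_mul_ghH hv α)

theorem ghC_const_mul (a : ℝ) (u : EE m → ℝ) (α : Fin m → ℕ) :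
    ghC (fun x => a * u x) α = a * ghC u α := by
  simp only [ghC, mul_assoc]
  exact integral_const_mul _ _

theorem ghC_congr {u v : EE m → ℝ} (h : u =ᵐ[gam m] v) (α : Fin m → ℕ) : ghC u α = ghC v α := by
  simp only [ghC]
  refine integral_congr_ae ?_
  filter_upwards [h] with x hx
  rw [hx]

theorem gh_ae_eq_of_coef {u v : EE m → ℝ} (hu : MemLp u 2 (gam m)) (hv : MemLp v 2 (gam m))
    (h : ∀ α, ghC u α = ghC v α) : u =ᵐ[gam m] v := by
  have := gh_ae_eq_zero_of_coef (hu.sub hv) (fun α => by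
    have := ghC_sub hu hv α
    simp only [Pi.sub_def] at *
    rw [this, h α, sub_self])
  filter_upwards [this] with x hx
  simpa [sub_eq_zero] using hx

/-! ### The Hilbert basis -/

theorem gh_inner_toLp {u v : EE m → ℝ} (hu : MemLp u 2 (gam m)) (hv : MemLp v 2 (gam m)) :
    inner ℝ (hu.toLp u) (hv.toLp v) = ∫ x, u x * v x ∂gam m := by
  rw [L2.inner_def]
  refine integral_congr_ae ?_
  filter_upwards [hu.coeFn_toLp, hv.coeFn_toLp] with x h1 h2
  rw [h1, h2]
  simp [mul_comm]

/-- The Hermite functions as elements of `L²`. -/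
noncomputable def ghE (α : Fin m → ℕ) : Lp ℝ 2 (gam m) := (ghH_memLp α).toLp (ghH α)

theorem ghE_orthonormal : Orthonormal ℝ (ghE (m := m)) := by
  rw [orthonormal_iff_ite]
  intro α β
  rw [ghE, ghE, gh_inner_toLp, ghH_orthonormal]

theorem ghE_orthogonal_eq_bot : (Submodule.span ℝ (Set.range (ghE (m := m))))ᗮ = ⊥ := by
  rw [Submodule.eq_bot_iff]
  intro x hx
  rw [Submodule.mem_orthogonal] at hx
  have hxm : MemLp x 2 (gam m) := Lp.memLp x
  have h0 : ∀ α, ghC x α = 0 := by
    intro α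
    have h1 := hx (ghE α) (Submodule.subset_span ⟨α, rfl⟩)
    have h2 : x = hxm.toLp x := (Lp.toLp_coeFn x hxm).symm
    rw [h2, ghE, gh_inner_toLp] at h1
    rw [ghC, ← h1]
    congr 1
    ext y
    ring
  exact (Lp.eq_zero_iff_ae_eq_zero).mpr (gh_ae_eq_zero_of_coef hxm h0)

/-- The Hermite Hilbert basis of `L²(gam m)`. -/
noncomputable def ghB : HilbertBasis (Fin m → ℕ) ℝ (Lp ℝ 2 (gam m)) :=
  HilbertBasis.mkOfOrthogonalEqBot ghE_orthonormal ghE_orthogonal_eq_bot

theorem ghB_apply (α : Fin m → ℕ) : ghB α = ghE α := by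
  rw [ghB, HilbertBasis.coe_mkOfOrthogonalEqBot]

theorem gh_inner_ghB {u : EE m → ℝ} (hu : MemLp u 2 (gam m)) (α : Fin m → ℕ) :
    inner ℝ (hu.toLp u) (ghB α) = ghC u α := by
  rw [ghB_apply, ghE, gh_inner_toLp, ghC]

/-- **Parseval.** -/
theorem gh_parseval {u v : EE m → ℝ} (hu : MemLp u 2 (gam m)) (hv : MemLp v 2 (gam m)) :
    HasSum (fun α => ghC u α * ghC v α) (∫ x, u x * v x ∂gam m) := by
  have h := ghB.hasSum_inner_mul_inner (hu.toLp u) (hv.toLp v)
  rw [gh_inner_toLp] at h
  have e : (fun α => ghC u α * ghC v α)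
      = fun i => inner ℝ (hu.toLp u) (ghB i) * inner ℝ (ghB i) (hv.toLp v) := by
    ext α
    rw [gh_inner_ghB, real_inner_comm, gh_inner_ghB]
  rw [e]
  exact h

theorem gh_parseval_sq {u : EE m → ℝ} (hu : MemLp u 2 (gam m)) :
    HasSum (fun α => ghC u α ^ 2) (∫ x, u x ^ 2 ∂gam m) := by
  have := gh_parseval hu hu
  simpa only [← sq] using this

/-- **Riesz–Fischer**: every square summable family is the family of Hermite coefficients of an
`L²` function. -/
theorem gh_exists_of_summable (c : (Fin m → ℕ) → ℝ) (hc : Summable fun α => c α ^ 2) :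
    ∃ u : EE m → ℝ, Measurable u ∧ MemLp u 2 (gam m) ∧ ∀ α, ghC u α = c α := by
  have hmem : Memℓp c 2 := by
    refine memℓp_gen ?_
    simpa using hc
  let w : lp (fun _ : Fin m → ℕ => ℝ) 2 := ⟨c, hmem⟩
  let U : Lp ℝ 2 (gam m) := ghB.repr.symm w
  have hU : MemLp U 2 (gam m) := Lp.memLp U
  refine ⟨U, (Lp.stronglyMeasurable U).measurable, hU, fun α => ?_⟩
  have h1 : ghB.repr U α = c α := by
    simp only [U, LinearIsometryEquiv.apply_symm_apply]
    rfl
  rw [HilbertBasis.repr_apply_apply, real_inner_comm] at h1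
  have h2 : U = hU.toLp U := (Lp.toLp_coeFn U hU).symm
  rw [h2, gh_inner_ghB] at h1
  exact h1

end Claimed.Agent.R259
end

/- ===== packed: Claimed.Agent.R259.OpParamA ===== -/
section
/-
Row 259, kit OP, LEAF L-op-paramA (MATHLIB ONLY): finite sums of tensors `c(l) w(y)` are dense in
`L²(Λ ⊗ μ)`, in the explicit form needed for the jointly measurable resolvent; plus the
"a.e. convergent subsequence" lemma for `ℝ≥0∞`-valued functions.

PROOF of `opp_subseq`.  Choose `ns` strictly increasing with `∫⁻ a (ns j) ≤ 2^{-j}`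
(`Filter.extraction_of_eventually_atTop` / `extraction_forall_of_eventually'`).  Then
`∫⁻ ∑' j, a (ns j) = ∑' j ∫⁻ a (ns j) < ∞` (`lintegral_tsum`, `ENNReal.tsum_geometric`...), so
`∑' j, a (ns j) l < ∞` for a.e. `l` (`ae_lt_top'`), hence `a (ns j) l → 0`
(`ENNReal.tendsto_atTop_zero_of_tsum_ne_top`).

PROOF of `opp_tensor_approx` (suggested).  `H := Lp ℝ 2 μ` is a separable Hilbert space
(`Lp.SecondCountableTopology`; `E` is countably generated, `μ` s-finite).
`exists_hilbertBasis ℝ H` gives `w : Set H`, `b : HilbertBasis w ℝ H`.  `w` is countable: the balls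
`ball (b i) (1/2)` are pairwise disjoint (`‖b i - b j‖² = 2`), `Set.PairwiseDisjoint.countable_of_isOpen`.
So `atTop : Filter (Finset w)` is countably generated: `exists_seq_tendsto` gives `s : ℕ → Finset w`
tending to `atTop`.   `ι := w`, `w i := b i` (the strongly measurable representative
`Lp.stronglyMeasurable`), `c i l := ∫ y, b i y * k (l, y) ∂μ`
(measurable: `StronglyMeasurable.integral_prod_right`).
For a.e. `l`, `k (l, ·) ∈ L²(μ)` (`Integrable.prod_right_ae`); for such `l`, with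
`x := toLp (k (l, ·))`: `c i l = ⟪b i, x⟫` (`L2.inner_def`), `∑ i ∈ s n, c i l • b i → x`
(`HilbertBasis.hasSum_repr`, `HilbertBasis.repr_apply_apply`) and `‖∑ i ∈ s n, c i l • b i‖ ≤ ‖x‖`
(`Orthonormal.sum_inner_products_le` + `Orthonormal.inner_sum`/Pythagoras).
So `A n l := ∫⁻ y, ‖∑ i ∈ s n, c i l * b i y - k (l, y)‖ₑ ^ 2 ∂μ → 0` for a.e. `l`, dominated by
`4 ∫⁻ y, ‖k (l, y)‖ₑ ^ 2 ∂μ`, whose `Λ`-integral is finite: `tendsto_lintegral_of_dominated_convergence`,
`lintegral_prod`, and `eLpNorm_eq_lintegral_rpow_enorm` / `eLpNorm_nnreal_pow_eq_lintegral` to come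
back to `eLpNorm`.
-/
set_option autoImplicit false
set_option linter.unusedSectionVars false

open MeasureTheory Filter Topology
open scoped ENNReal NNReal

namespace Claimed.Agent.R259

theorem opp_subseq {α : Type} [MeasurableSpace α] {ν : Measure α} {a : ℕ → α → ℝ≥0∞}
    (ha : ∀ n, AEMeasurable (a n) ν) (h : Tendsto (fun n => ∫⁻ l, a n l ∂ν) atTop (𝓝 0)) :
    ∃ ns : ℕ → ℕ, StrictMono ns ∧ ∀ᵐ l ∂ν, Tendsto (fun j => a (ns j) l) atTop (𝓝 0) := by
  have hev : ∀ j : ℕ, ∀ᶠ n in atTop, ∫⁻ l, a n l ∂ν ≤ (2⁻¹ : ℝ≥0∞) ^ j := by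
    intro j
    have hpos : (0 : ℝ≥0∞) < (2⁻¹ : ℝ≥0∞) ^ j := by
      apply ENNReal.pow_pos
      simp
    exact (h.eventually (gt_mem_nhds hpos)).mono fun n hn => hn.le
  obtain ⟨ns, hns, hle⟩ := extraction_forall_of_eventually hev
  refine ⟨ns, hns, ?_⟩
  have hsum : ∫⁻ l, ∑' j, a (ns j) l ∂ν ≠ ∞ := by
    rw [lintegral_tsum (fun j => ha (ns j))]
    have : ∑' j, ∫⁻ l, a (ns j) l ∂ν ≤ ∑' j : ℕ, (2⁻¹ : ℝ≥0∞) ^ j := ENNReal.tsum_le_tsum hle
    refine ne_top_of_le_ne_top ?_ this
    rw [ENNReal.tsum_geometric]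
    simp
  have hae : ∀ᵐ l ∂ν, ∑' j, a (ns j) l < ∞ :=
    ae_lt_top' (AEMeasurable.tsum fun j => ha (ns j)) hsum
  filter_upwards [hae] with l hl
  exact ENNReal.tendsto_atTop_zero_of_tsum_ne_top hl.ne

theorem opp_basis_seq (H : Type) [NormedAddCommGroup H] [InnerProductSpace ℝ H] [CompleteSpace H]
    [TopologicalSpace.SeparableSpace H] :
    ∃ (ι : Type) (s : ℕ → Finset ι) (b : ι → H),
      (∀ x : H, Tendsto (fun n => ∑ i ∈ s n, (inner ℝ (b i) x) • b i) atTop (𝓝 x)) ∧
      (∀ (x : H) (n : ℕ), ‖∑ i ∈ s n, (inner ℝ (b i) x) • b i‖ ≤ ‖x‖) := by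
  obtain ⟨w, b, hb⟩ := exists_hilbertBasis ℝ H
  have hon : Orthonormal ℝ b := b.orthonormal
  have hcount : Countable w := by
    refine Pairwise.countable_of_isOpen_disjoint (s := fun i : w => Metric.ball (b i) (1 / 2)) ?_
      (fun i => Metric.isOpen_ball) (fun i => ⟨b i, Metric.mem_ball_self (by norm_num)⟩)
    intro i j hij
    apply Metric.ball_disjoint_ball
    have h2 : ‖b i - b j‖ ^ 2 = 2 := by
      rw [@norm_sub_sq_real, hon.1 i, hon.1 j, hon.2 hij]
      norm_num
    rw [dist_eq_norm]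
    nlinarith [norm_nonneg (b i - b j)]
  obtain ⟨s, hs⟩ := exists_seq_tendsto (atTop : Filter (Finset w))
  refine ⟨w, s, b, fun x => ?_, fun x n => ?_⟩
  · have h := b.hasSum_repr x
    simp only [b.repr_apply_apply] at h
    exact h.comp hs
  · have h1 : ‖∑ i ∈ s n, (inner ℝ (b i) x) • b i‖ ^ 2 = ∑ i ∈ s n, ‖inner ℝ (b i) x‖ ^ 2 := by
      rw [← real_inner_self_eq_norm_sq, hon.inner_sum]
      refine Finset.sum_congr rfl fun i _ => ?_
      simp [sq]
    have h2 := hon.sum_inner_products_le x (s := s n)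
    rw [← h1] at h2
    exact (sq_le_sq₀ (norm_nonneg _) (norm_nonneg _)).1 h2
theorem opp_sq_enorm {α : Type} [MeasurableSpace α] (ν : Measure α) (f : α → ℝ) :
    eLpNorm f 2 ν ^ 2 = ∫⁻ x, ‖f x‖ₑ ^ 2 ∂ν := by
  have h := eLpNorm_nnreal_pow_eq_lintegral (μ := ν) (f := f) (p := 2) (by norm_num)
  simpa using h

theorem opp_fiber {E : Type} [MeasurableSpace E] (μ : Measure E) {ι : Type} (b : ι → Lp ℝ 2 μ)
    (t : Finset ι) {g : E → ℝ} (hg : MemLp g 2 μ) :
    ∫⁻ y, ‖∑ i ∈ t, (∫ y, b i y * g y ∂μ) * b i y - g y‖ₑ ^ 2 ∂μ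
      = ‖∑ i ∈ t, (inner ℝ (b i) (hg.toLp g)) • b i - hg.toLp g‖ₑ ^ 2 := by
  have hin : ∀ i, inner ℝ (b i) (hg.toLp g) = ∫ y, b i y * g y ∂μ := by
    intro i
    rw [L2.inner_def]
    refine integral_congr_ae ?_
    filter_upwards [hg.coeFn_toLp] with y hy
    rw [hy]
    simp [mul_comm]
  rw [Lp.enorm_def, opp_sq_enorm]
  refine lintegral_congr_ae ?_
  have h1 := Lp.coeFn_sub (∑ i ∈ t, (inner ℝ (b i) (hg.toLp g)) • b i) (hg.toLp g)
  have h2 := Lp.coeFn_fun_finsetSum t (fun i => (inner ℝ (b i) (hg.toLp g)) • b i)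
  have h3 : ∀ᵐ y ∂μ, ∀ i ∈ t, ((inner ℝ (b i) (hg.toLp g)) • b i : Lp ℝ 2 μ) y
      = (inner ℝ (b i) (hg.toLp g)) * b i y := by
    refine (ae_ball_iff t.countable_toSet).2 ?_
    intro i _
    filter_upwards [Lp.coeFn_smul (inner ℝ (b i) (hg.toLp g)) (b i)] with y hy
    rw [hy]
    simp
  filter_upwards [h1, h2, h3, hg.coeFn_toLp] with y hy1 hy2 hy3 hy4
  rw [hy1, Pi.sub_apply, hy2, hy4]
  congr 3
  refine Finset.sum_congr rfl fun i hi => ?_
  rw [hy3 i hi, hin]

theorem opp_tensor_approx {E : Type} [MeasurableSpace E] [MeasurableSpace.CountablyGenerated E]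
    (μ : Measure E) [SFinite μ] {L : Type} [MeasurableSpace L] (Lam : Measure L)
    [IsFiniteMeasure Lam] {k : L × E → ℝ} (hk : Measurable k)
    (hk2 : Integrable (fun p => k p ^ 2) (Lam.prod μ)) :
    ∃ (ι : Type) (s : ℕ → Finset ι) (c : ι → L → ℝ) (w : ι → E → ℝ),
      (∀ i, Measurable (c i)) ∧ (∀ i, Measurable (w i)) ∧ (∀ i, MemLp (w i) 2 μ) ∧
      (∀ n, MemLp (fun p : L × E => ∑ i ∈ s n, c i p.1 * w i p.2) 2 (Lam.prod μ)) ∧
      Tendsto (fun n => eLpNorm (fun p : L × E => ∑ i ∈ s n, c i p.1 * w i p.2 - k p) 2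
        (Lam.prod μ)) atTop (𝓝 0) := by
  have : Fact ((2 : ℝ≥0∞) ≠ ∞) := ⟨by norm_num⟩
  obtain ⟨ι, s, b, hlim, hbd⟩ := opp_basis_seq (Lp ℝ 2 μ)
  obtain ⟨c, hcdef⟩ : ∃ c : ι → L → ℝ, c = fun i l => ∫ y, b i y * k (l, y) ∂μ := ⟨_, rfl⟩
  obtain ⟨w, hwdef⟩ : ∃ w : ι → E → ℝ, w = fun i => (b i : E → ℝ) := ⟨_, rfl⟩
  have hw : ∀ i, Measurable (w i) := fun i => by
    rw [hwdef]; exact (Lp.stronglyMeasurable (b i)).measurable
  have hc : ∀ i, Measurable (c i) := by
    intro i
    have h1 : StronglyMeasurable (fun p : L × E => w i p.2 * k p) :=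
      (((hw i).comp measurable_snd).mul hk).stronglyMeasurable
    have h2 := h1.integral_prod_right' (ν := μ)
    rw [hcdef]
    simpa [hwdef] using h2.measurable
  obtain ⟨F, hFdef⟩ : ∃ F : ℕ → L × E → ℝ,
    F = fun n p => ∑ i ∈ s n, c i p.1 * w i p.2 - k p := ⟨_, rfl⟩
  have hF : ∀ n, Measurable (F n) := by
    intro n
    rw [hFdef]
    refine Measurable.sub ?_ hk
    exact Finset.measurable_fun_sum _ fun i _ =>
      ((hc i).comp measurable_fst).mul ((hw i).comp measurable_snd)
  obtain ⟨A, hAdef⟩ : ∃ A : ℕ → L → ℝ≥0∞, A = fun n l => ∫⁻ y, ‖F n (l, y)‖ₑ ^ 2 ∂μ := ⟨_, rfl⟩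
  obtain ⟨B, hBdef⟩ : ∃ B : L → ℝ≥0∞, B = fun l => 4 * ∫⁻ y, ‖k (l, y)‖ₑ ^ 2 ∂μ := ⟨_, rfl⟩
  have hA : ∀ n, Measurable (A n) := fun n => by
    rw [hAdef]
    exact ((hF n).enorm.pow_const 2).lintegral_prod_right'
  have hgood : ∀ᵐ l ∂Lam, MemLp (fun y => k (l, y)) 2 μ := by
    filter_upwards [hk2.prod_right_ae] with l hl
    exact (memLp_two_iff_integrable_sq (hk.comp measurable_prodMk_left).aestronglyMeasurable).2 hl
  have hkmem : MemLp k 2 (Lam.prod μ) :=
    (memLp_two_iff_integrable_sq hk.aestronglyMeasurable).2 hk2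
  have hBfin : ∫⁻ l, B l ∂Lam ≠ ∞ := by
    rw [hBdef]
    rw [lintegral_const_mul _ (hk.enorm.pow_const 2).lintegral_prod_right',
      ← lintegral_prod _ (hk.enorm.pow_const 2).aemeasurable, ← opp_sq_enorm]
    exact ENNReal.mul_ne_top (by norm_num) (ENNReal.pow_ne_top hkmem.2.ne)
  have hAeq : ∀ᵐ l ∂Lam, ∀ n, ∃ hl : MemLp (fun y => k (l, y)) 2 μ,
      A n l = ‖∑ i ∈ s n, (inner ℝ (b i) (hl.toLp _)) • b i - hl.toLp _‖ₑ ^ 2 := by
    filter_upwards [hgood] with l hl n
    refine ⟨hl, ?_⟩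
    rw [← opp_fiber μ b (s n) hl, hAdef, hFdef, hcdef, hwdef]
  have hAB : ∀ n, A n ≤ᵐ[Lam] B := by
    intro n
    filter_upwards [hAeq] with l hl
    obtain ⟨hl', he⟩ := hl n
    rw [he, hBdef]
    have h1 : ∫⁻ y, ‖k (l, y)‖ₑ ^ 2 ∂μ = ‖hl'.toLp _‖ₑ ^ 2 := by
      rw [Lp.enorm_def, opp_sq_enorm]
      refine lintegral_congr_ae ?_
      filter_upwards [hl'.coeFn_toLp] with y hy
      rw [hy]
    simp only [h1]
    have h2 : ‖∑ i ∈ s n, (inner ℝ (b i) (hl'.toLp _)) • b i - hl'.toLp _‖ₑ
        ≤ 2 * ‖hl'.toLp _‖ₑ := by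
      refine (enorm_sub_le).trans ?_
      rw [two_mul]
      gcongr
      rw [← ofReal_norm, ← ofReal_norm]
      exact ENNReal.ofReal_le_ofReal (hbd _ n)
    calc _ ≤ (2 * ‖hl'.toLp _‖ₑ) ^ 2 := by gcongr
      _ = 4 * ‖hl'.toLp _‖ₑ ^ 2 := by rw [mul_pow]; norm_num
  have hAlim : ∀ᵐ l ∂Lam, Tendsto (fun n => A n l) atTop (𝓝 0) := by
    filter_upwards [hAeq, hgood] with l hl hl'
    have he : ∀ n, A n l = ‖∑ i ∈ s n, (inner ℝ (b i) (hl'.toLp _)) • b i - hl'.toLp _‖ₑ ^ 2 :=
      fun n => (hl n).2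
    simp only [he]
    have h1 : Tendsto (fun n => ∑ i ∈ s n, (inner ℝ (b i) (hl'.toLp _)) • b i - hl'.toLp _)
        atTop (𝓝 0) := by
      have := (hlim (hl'.toLp _)).sub_const (hl'.toLp _)
      simpa using this
    have h2 := ((ENNReal.continuous_pow 2).tendsto _).comp h1.enorm
    simpa [Function.comp_def] using h2
  have hint : Tendsto (fun n => ∫⁻ l, A n l ∂Lam) atTop (𝓝 0) := by
    have := tendsto_lintegral_of_dominated_convergence B hA hAB hBfin hAlim
    simpa using this
  have hnorm : ∀ n, eLpNorm (F n) 2 (Lam.prod μ) ^ 2 = ∫⁻ l, A n l ∂Lam := by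
    intro n
    rw [opp_sq_enorm, lintegral_prod _ ((hF n).enorm.pow_const 2).aemeasurable, hAdef]
  have hFmem : ∀ n, MemLp (F n) 2 (Lam.prod μ) := by
    intro n
    refine ⟨(hF n).aestronglyMeasurable, ?_⟩
    have h1 : eLpNorm (F n) 2 (Lam.prod μ) ^ 2 < ∞ := by
      rw [hnorm]
      exact lt_of_le_of_lt (lintegral_mono_ae (hAB n)) hBfin.lt_top
    by_contra hcon
    rw [not_lt, top_le_iff] at hcon
    rw [hcon] at h1
    simp at h1
  refine ⟨ι, s, c, w, hc, hw, fun i => ?_, fun n => ?_, ?_⟩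
  · rw [hwdef]; exact Lp.memLp (b i)
  · have := (hFmem n).add hkmem
    refine this.congr_norm (this.1.congr ?_) ?_ <;>
    · refine Filter.Eventually.of_forall fun p => ?_
      simp [hFdef]
  · have h1 : ∀ n, eLpNorm (F n) 2 (Lam.prod μ) = (∫⁻ l, A n l ∂Lam) ^ (1 / 2 : ℝ) := by
      intro n
      rw [← hnorm, ← ENNReal.rpow_natCast, ← ENNReal.rpow_mul]
      norm_num
    have h2 : Tendsto (fun n => (∫⁻ l, A n l ∂Lam) ^ (1 / 2 : ℝ)) atTop (𝓝 (0 ^ (1 / 2 : ℝ))) :=
      (ENNReal.continuous_rpow_const.tendsto 0).comp hint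
    rw [ENNReal.zero_rpow_of_pos (by norm_num)] at h2
    simp only [← h1] at h2
    rw [hFdef] at h2
    exact h2

end Claimed.Agent.R259
end

/- ===== packed: Claimed.Agent.R259.ImmseRiem ===== -/
section
/-
Row 259, kit IMMSE, leaf RIEM: a function whose increments are squeezed between the left and right Riemann rectangles of `g` is the
integral of `g`.   Statement: helper147.   Mathlib only.
Proof.  `h` forces `g` to be monotone on `[0,T]` (so interval integrable: `MonotoneOn.intervalIntegrable`).  For the uniform partition with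
`N` pieces both `D T - D 0` and `∫ g` lie between `∑ (T/N) g(t_i)` and `∑ (T/N) g(t_{i+1})`, whose difference telescopes to `(T/N)(g T - g 0)`.
-/
set_option autoImplicit false

open MeasureTheory

namespace Claimed.Agent.R259

theorem immriem_mono {D g : ℝ → ℝ} {T : ℝ}
    (h : ∀ a b, 0 ≤ a → a < b → b ≤ T → (b - a) * g a ≤ D b - D a ∧ D b - D a ≤ (b - a) * g b) :
    MonotoneOn g (Set.Icc 0 T) := by
  intro a ha b hb hab
  rcases hab.eq_or_lt with rfl | hlt
  · exact le_rfl
  · obtain ⟨h1, h2⟩ := h a b ha.1 hlt hb.2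
    exact le_of_mul_le_mul_left (h1.trans h2) (sub_pos.mpr hlt)

theorem immriem_ii {g : ℝ → ℝ} {T : ℝ} (hg : MonotoneOn g (Set.Icc 0 T)) {a b : ℝ} (ha : 0 ≤ a) (hab : a ≤ b)
    (hb : b ≤ T) : IntervalIntegrable g volume a b := by
  apply MonotoneOn.intervalIntegrable
  rw [Set.uIcc_of_le hab]
  exact hg.mono (Set.Icc_subset_Icc ha hb)

theorem immriem_int_bounds {g : ℝ → ℝ} {T : ℝ} (hg : MonotoneOn g (Set.Icc 0 T)) {a b : ℝ} (ha : 0 ≤ a)
    (hab : a ≤ b) (hb : b ≤ T) :
    (b - a) * g a ≤ ∫ v in a..b, g v ∧ ∫ v in a..b, g v ≤ (b - a) * g b := by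
  have hi := immriem_ii hg ha hab hb
  constructor
  · have h1 : ∫ _v in a..b, g a = (b - a) * g a := by simp
    rw [← h1]
    exact intervalIntegral.integral_mono_on hab intervalIntegrable_const hi fun x hx =>
      hg ⟨ha, hab.trans hb⟩ ⟨ha.trans hx.1, hx.2.trans hb⟩ hx.1
  · have h1 : ∫ _v in a..b, g b = (b - a) * g b := by simp
    rw [← h1]
    exact intervalIntegral.integral_mono_on hab hi intervalIntegrable_const fun x hx =>
      hg ⟨ha.trans hx.1, hx.2.trans hb⟩ ⟨ha.trans hab, hb⟩ hx.2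

theorem imm_riemann {D g : ℝ → ℝ} {T : ℝ} (hT : 0 ≤ T)
    (h : ∀ a b, 0 ≤ a → a < b → b ≤ T → (b - a) * g a ≤ D b - D a ∧ D b - D a ≤ (b - a) * g b) :
    IntervalIntegrable g volume 0 T ∧ D T - D 0 = ∫ v in (0 : ℝ)..T, g v := by
  have hg := immriem_mono h
  refine ⟨immriem_ii hg le_rfl hT le_rfl, ?_⟩
  rcases hT.eq_or_lt with rfl | hTpos
  · simp
  -- error function
  set Er : ℝ → ℝ := fun x => D x - ∫ v in (0 : ℝ)..x, g v with hEr
  have hstep : ∀ a b, 0 ≤ a → a < b → b ≤ T → |Er b - Er a| ≤ (b - a) * (g b - g a) := by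
    intro a b ha hab hb
    obtain ⟨h1, h2⟩ := h a b ha hab hb
    obtain ⟨h3, h4⟩ := immriem_int_bounds hg ha hab.le hb
    have h5 : (∫ v in (0 : ℝ)..b, g v) - ∫ v in (0 : ℝ)..a, g v = ∫ v in a..b, g v :=
      intervalIntegral.integral_interval_sub_left (immriem_ii hg le_rfl (ha.trans hab.le) hb)
        (immriem_ii hg le_rfl ha (hab.le.trans hb))
    have h6 : Er b - Er a = (D b - D a) - ∫ v in a..b, g v := by
      rw [← h5]
      simp only [hEr]
      ring
    rw [h6, abs_le]
    constructor <;> nlinarith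
  have hN : ∀ N : ℕ, 0 < N → |Er T - Er 0| ≤ T / N * (g T - g 0) := by
    intro N hNpos
    have hN' : (0 : ℝ) < N := by exact_mod_cast hNpos
    set p : ℕ → ℝ := fun i => i * (T / N) with hp
    have hp0 : p 0 = 0 := by simp [hp]
    have hpN : p N = T := by
      simp only [hp]
      field_simp
    have hd : ∀ i, p (i + 1) - p i = T / N := by
      intro i
      simp only [hp]
      push_cast
      ring
    have hpos : 0 < T / N := by positivity
    have h1 : Er T - Er 0 = ∑ i ∈ Finset.range N, (Er (p (i + 1)) - Er (p i)) := by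
      rw [Finset.sum_range_sub (fun i => Er (p i)), hp0, hpN]
    have h2 : T / N * (g T - g 0) = ∑ i ∈ Finset.range N, T / N * (g (p (i + 1)) - g (p i)) := by
      rw [← Finset.mul_sum, Finset.sum_range_sub (fun i => g (p i)), hp0, hpN]
    rw [h1, h2]
    refine (Finset.abs_sum_le_sum_abs _ _).trans (Finset.sum_le_sum fun i hi => ?_)
    have hi' : i + 1 ≤ N := Finset.mem_range.mp hi
    have h3 := hstep (p i) (p (i + 1)) (by simp only [hp]; positivity) (by linarith [hd i]) (by
      rw [← hpN]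
      simp only [hp]
      have : ((i + 1 : ℕ) : ℝ) ≤ N := by exact_mod_cast hi'
      exact mul_le_mul_of_nonneg_right this hpos.le)
    rw [hd i] at h3
    exact h3
  have hlim : Filter.Tendsto (fun N : ℕ => T / N * (g T - g 0)) Filter.atTop (nhds 0) := by
    have := (tendsto_const_div_atTop_nhds_zero_nat T).mul_const (g T - g 0)
    simpa using this
  have hle : |Er T - Er 0| ≤ 0 :=
    ge_of_tendsto hlim (Filter.eventually_atTop.mpr ⟨1, fun N hN1 => hN N hN1⟩)
  have hz : Er T - Er 0 = 0 := abs_eq_zero.mp (le_antisymm hle (abs_nonneg _))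
  simp only [hEr, intervalIntegral.integral_same, sub_zero] at hz
  linarith

end Claimed.Agent.R259
end

/- ===== packed: Claimed.Agent.R259.MetB1 ===== -/
section
/-
Row 259 (S0499), kit MET, block B, part 1: Taylor estimates of order 1, 2, 3 on a convex set
(no symmetry of the second derivative needed; Lipschitz hypotheses on the last derivative).
Owner: helper236.
-/
set_option autoImplicit false
set_option linter.unusedSectionVars false

namespace Claimed.Agent.R259

section taylor

variable {E F : Type*} [NormedAddCommGroup E] [NormedSpace ℝ E]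
  [NormedAddCommGroup F] [NormedSpace ℝ F]

theorem metb_line_deriv {f : E → F} (hf : Differentiable ℝ f) (y ξ : E) (t : ℝ) :
    HasDerivAt (fun t : ℝ => f (y + t • ξ)) (fderiv ℝ f (y + t • ξ) ξ) t := by
  have h1 : HasDerivAt (fun t : ℝ => y + t • ξ) ξ t := by
    simpa using ((hasDerivAt_id t).smul_const ξ).const_add y
  exact (hf (y + t • ξ)).hasFDerivAt.comp_hasDerivAt t h1

theorem metb_tay1 {f : E → F} (hf : Differentiable ℝ f) {s : Set E} (hs : Convex ℝ s) {M : ℝ}
    (hM : ∀ x ∈ s, ‖fderiv ℝ f x‖ ≤ M) {y ξ : E} (hy : y ∈ s) (hyξ : y + ξ ∈ s) :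
    ‖f (y + ξ) - f y‖ ≤ M * ‖ξ‖ := by
  have key := norm_image_sub_le_of_norm_deriv_le_segment_01'
    (f := fun t : ℝ => f (y + t • ξ)) (f' := fun t => fderiv ℝ f (y + t • ξ) ξ) (C := M * ‖ξ‖)
    (fun t _ => (metb_line_deriv hf y ξ t).hasDerivWithinAt)
    (fun t ht => by
      have hmem : y + t • ξ ∈ s := hs.add_smul_mem hy hyξ ⟨ht.1, ht.2.le⟩
      exact (ContinuousLinearMap.le_opNorm _ _).trans
        (mul_le_mul_of_nonneg_right (hM _ hmem) (norm_nonneg _)))
  simpa using key

theorem metb_tay2 {f : E → F} (hf : Differentiable ℝ f)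
    {s : Set E} (hs : Convex ℝ s) {M : ℝ} (hM0 : 0 ≤ M) {y ξ : E}
    (hM : ∀ x ∈ s, ‖fderiv ℝ f x - fderiv ℝ f y‖ ≤ M * ‖x - y‖) (hy : y ∈ s) (hyξ : y + ξ ∈ s) :
    ‖f (y + ξ) - f y - fderiv ℝ f y ξ‖ ≤ M * ‖ξ‖ ^ 2 := by
  have key := norm_image_sub_le_of_norm_deriv_le_segment_01'
    (f := fun t : ℝ => f (y + t • ξ) - t • fderiv ℝ f y ξ)
    (f' := fun t => fderiv ℝ f (y + t • ξ) ξ - fderiv ℝ f y ξ) (C := M * ‖ξ‖ ^ 2)
    (fun t _ => by
      have h2 : HasDerivAt (fun t : ℝ => t • fderiv ℝ f y ξ) (fderiv ℝ f y ξ) t := by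
        simpa using (hasDerivAt_id t).smul_const (fderiv ℝ f y ξ)
      exact ((metb_line_deriv hf y ξ t).sub h2).hasDerivWithinAt)
    (fun t ht => by
      have hmem : y + t • ξ ∈ s := hs.add_smul_mem hy hyξ ⟨ht.1, ht.2.le⟩
      have h1 := hM _ hmem
      rw [add_sub_cancel_left] at h1
      have h3 : ‖t • ξ‖ ≤ ‖ξ‖ := by
        rw [norm_smul, Real.norm_eq_abs, abs_of_nonneg ht.1]
        exact mul_le_of_le_one_left (norm_nonneg _) ht.2.le
      calc ‖fderiv ℝ f (y + t • ξ) ξ - fderiv ℝ f y ξ‖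
          = ‖(fderiv ℝ f (y + t • ξ) - fderiv ℝ f y) ξ‖ := by simp
        _ ≤ ‖fderiv ℝ f (y + t • ξ) - fderiv ℝ f y‖ * ‖ξ‖ := ContinuousLinearMap.le_opNorm _ _
        _ ≤ (M * ‖ξ‖) * ‖ξ‖ := by
            refine mul_le_mul_of_nonneg_right (h1.trans ?_) (norm_nonneg _)
            exact mul_le_mul_of_nonneg_left h3 hM0
        _ = M * ‖ξ‖ ^ 2 := by ring)
  have e : (fun t : ℝ => f (y + t • ξ) - t • fderiv ℝ f y ξ) 1
      - (fun t : ℝ => f (y + t • ξ) - t • fderiv ℝ f y ξ) 0
      = f (y + ξ) - f y - fderiv ℝ f y ξ := by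
    simp only [one_smul, zero_smul, add_zero, sub_zero]
    abel
  rwa [e] at key

theorem metb_tay3 {f : E → F} (hf : Differentiable ℝ f) (Q : E →L[ℝ] E →L[ℝ] F)
    {s : Set E} (hs : Convex ℝ s) {M : ℝ} (hM0 : 0 ≤ M) {y ξ : E}
    (hM : ∀ x ∈ s, ‖fderiv ℝ f x - fderiv ℝ f y - Q (x - y)‖ ≤ M * ‖x - y‖ ^ 2) (hy : y ∈ s)
    (hyξ : y + ξ ∈ s) :
    ‖f (y + ξ) - f y - fderiv ℝ f y ξ - (1 / 2 : ℝ) • Q ξ ξ‖ ≤ M * ‖ξ‖ ^ 3 := by
  have key := norm_image_sub_le_of_norm_deriv_le_segment_01'
    (f := fun t : ℝ => f (y + t • ξ) - t • fderiv ℝ f y ξ - (t ^ 2 / 2) • Q ξ ξ)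
    (f' := fun t => fderiv ℝ f (y + t • ξ) ξ - fderiv ℝ f y ξ - t • Q ξ ξ) (C := M * ‖ξ‖ ^ 3)
    (fun t _ => by
      have h2 : HasDerivAt (fun t : ℝ => t • fderiv ℝ f y ξ) (fderiv ℝ f y ξ) t := by
        simpa using (hasDerivAt_id t).smul_const (fderiv ℝ f y ξ)
      have h3 : HasDerivAt (fun t : ℝ => t ^ 2 / 2) t t := by
        have := ((hasDerivAt_id t).pow 2).div_const 2
        simpa using this
      have h4 := h3.smul_const (Q ξ ξ)
      exact (((metb_line_deriv hf y ξ t).sub h2).sub h4).hasDerivWithinAt)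
    (fun t ht => by
      have hmem : y + t • ξ ∈ s := hs.add_smul_mem hy hyξ ⟨ht.1, ht.2.le⟩
      have h1 := hM _ hmem
      rw [add_sub_cancel_left] at h1
      have h3 : ‖t • ξ‖ ≤ ‖ξ‖ := by
        rw [norm_smul, Real.norm_eq_abs, abs_of_nonneg ht.1]
        exact mul_le_of_le_one_left (norm_nonneg _) ht.2.le
      calc ‖fderiv ℝ f (y + t • ξ) ξ - fderiv ℝ f y ξ - t • Q ξ ξ‖
          = ‖(fderiv ℝ f (y + t • ξ) - fderiv ℝ f y - Q (t • ξ)) ξ‖ := by simp
        _ ≤ ‖fderiv ℝ f (y + t • ξ) - fderiv ℝ f y - Q (t • ξ)‖ * ‖ξ‖ :=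
            ContinuousLinearMap.le_opNorm _ _
        _ ≤ (M * ‖ξ‖ ^ 2) * ‖ξ‖ := by
            refine mul_le_mul_of_nonneg_right (h1.trans ?_) (norm_nonneg _)
            exact mul_le_mul_of_nonneg_left (pow_le_pow_left₀ (norm_nonneg _) h3 2) hM0
        _ = M * ‖ξ‖ ^ 3 := by ring)
  have e : (fun t : ℝ => f (y + t • ξ) - t • fderiv ℝ f y ξ - (t ^ 2 / 2) • Q ξ ξ) 1
      - (fun t : ℝ => f (y + t • ξ) - t • fderiv ℝ f y ξ - (t ^ 2 / 2) • Q ξ ξ) 0
      = f (y + ξ) - f y - fderiv ℝ f y ξ - (1 / 2 : ℝ) • Q ξ ξ := by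
    simp only [one_smul, zero_smul, add_zero, sub_zero, one_pow]
    norm_num
    abel
  rwa [e] at key

/-- a `C¹` map is Lipschitz on a compact convex set -/
theorem metb_lip_on {g : E → F} (hg : ContDiff ℝ 1 g) {K : Set E} (hK : IsCompact K)
    (hKc : Convex ℝ K) : ∃ M : ℝ, 0 ≤ M ∧ ∀ x ∈ K, ∀ y ∈ K, ‖g x - g y‖ ≤ M * ‖x - y‖ := by
  have hcont : Continuous (fun x => ‖fderiv ℝ g x‖) := (hg.continuous_fderiv one_ne_zero).norm
  obtain ⟨M, hM⟩ := (hK.image hcont).bddAbove
  refine ⟨max M 0, le_max_right _ _, fun x hx y hy => ?_⟩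
  have h := metb_tay1 (hg.differentiable one_ne_zero) hKc (M := max M 0)
    (fun z hz => (hM ⟨z, hz, rfl⟩).trans (le_max_left _ _)) (y := y) (ξ := x - y) hy (by simpa using hx)
  simpa using h

/-- a `C¹` map with compact support is globally Lipschitz -/
theorem metb_lip_cs {g : E → F} (hg : ContDiff ℝ 1 g) (hc : HasCompactSupport g) :
    ∃ M : ℝ, 0 ≤ M ∧ ∀ x y, ‖g x - g y‖ ≤ M * ‖x - y‖ := by
  obtain ⟨M, hM⟩ := (hg.continuous_fderiv one_ne_zero).bounded_above_of_compact_support
    (hc.fderiv (𝕜 := ℝ))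
  refine ⟨max M 0, le_max_right _ _, fun x y => ?_⟩
  have h := metb_tay1 (hg.differentiable one_ne_zero) convex_univ (M := max M 0)
    (fun z _ => (hM z).trans (le_max_left _ _)) (y := y) (ξ := x - y) (Set.mem_univ _)
    (Set.mem_univ _)
  simpa using h

/-- a continuous map with compact support is bounded -/
theorem metb_bdd_cs {g : E → F} (hg : Continuous g) (hc : HasCompactSupport g) :
    ∃ M : ℝ, 0 ≤ M ∧ ∀ x, ‖g x‖ ≤ M := by
  obtain ⟨M, hM⟩ := hg.bounded_above_of_compact_support hc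
  exact ⟨max M 0, le_max_right _ _, fun x => (hM x).trans (le_max_left _ _)⟩

end taylor

end Claimed.Agent.R259
end
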