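/- Packed by merge_tool.py (helper293): 7 modules of Claimed.Agent.R259 in one file, same declarations.
   Old modules, in this order: PlsiDens, PlsiTest, LsiCalcB, Plsi, PlsiMgf, LsiSharp, LsiKer -/
import Claimed.Agent.Lib.PLProp
import Claimed.Agent.R259.Pack021
import Claimed.Agent.R259.Pack003

/- ===== packed: Claimed.Agent.R259.PlsiDens ===== -/
section
/-
R259 / PlsiDens.lean  (owner: helper26).  Kit PLSI, part 2: strongly log-concave densities have the curved
Prekopa-Leindler property; instances (Gaussian posteriors of log-concave laws; isotropic and anisotropic energies).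
-/
set_option autoImplicit false
set_option linter.unusedSectionVars false

namespace Claimed.Agent.R259

open MeasureTheory Filter Topology
open scoped ENNReal

variable {E : Type} [NormedAddCommGroup E] [InnerProductSpace ℝ E] [FiniteDimensional ℝ E]
  [MeasurableSpace E] [BorelSpace E]

/-- a strongly log-concave density has the curved Prekopa-Leindler property. -/
theorem plsi_PLq_of_strongLC {q ρ : E → ℝ} (hm : Measurable ρ) (h0 : ∀ x, 0 ≤ ρ x) (h : StrongLC q ρ) :
    PLq (dm ρ) q := by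
  intro t ht0 ht1 u v w hu hv hw H
  have h1t : 0 < 1 - t := by linarith
  have hr : Measurable fun x => ENNReal.ofReal (ρ x) := hm.ennreal_ofReal
  unfold dm
  rw [lintegral_withDensity_eq_lintegral_mul _ hr hu, lintegral_withDensity_eq_lintegral_mul _ hr hv,
    lintegral_withDensity_eq_lintegral_mul _ hr hw]
  refine Claimed.Agent.PL.plProp_addHaar (volume : Measure E) t ht0 ht1 _ _ _ (hr.mul hu) (hr.mul hv) (hr.mul hw) ?_
  intro x y
  simp only [Pi.mul_apply]
  rw [ENNReal.mul_rpow_of_nonneg _ _ h1t.le, ENNReal.mul_rpow_of_nonneg _ _ ht0.le,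
    ENNReal.ofReal_rpow_of_nonneg (h0 x) h1t.le, ENNReal.ofReal_rpow_of_nonneg (h0 y) ht0.le]
  set e : ℝ := t * (1 - t) * q (x - y) / 2 with he
  have h1 : ρ x ^ (1 - t) * ρ y ^ t ≤ ρ ((1 - t) • x + t • y) * Real.exp (-e) := by
    have h2 := h x y t ht0 ht1
    rw [← he] at h2
    have h3 : ρ x ^ (1 - t) * ρ y ^ t = ρ x ^ (1 - t) * ρ y ^ t * Real.exp e * Real.exp (-e) := by
      rw [mul_assoc _ (Real.exp e), ← Real.exp_add]; simp
    rw [h3]
    exact mul_le_mul_of_nonneg_right h2 (Real.exp_pos _).le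
  calc ENNReal.ofReal (ρ x ^ (1 - t)) * u x ^ (1 - t) * (ENNReal.ofReal (ρ y ^ t) * v y ^ t)
      = ENNReal.ofReal (ρ x ^ (1 - t) * ρ y ^ t) * (u x ^ (1 - t) * v y ^ t) := by
        rw [ENNReal.ofReal_mul (Real.rpow_nonneg (h0 x) _)]; ring
    _ ≤ ENNReal.ofReal (ρ ((1 - t) • x + t • y) * Real.exp (-e)) * (u x ^ (1 - t) * v y ^ t) := by
        gcongr
    _ = ENNReal.ofReal (ρ ((1 - t) • x + t • y)) * (u x ^ (1 - t) * v y ^ t * ENNReal.ofReal (Real.exp (-e))) := by
        rw [ENNReal.ofReal_mul (h0 _)]; ring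
    _ ≤ ENNReal.ofReal (ρ ((1 - t) • x + t • y)) * w ((1 - t) • x + t • y) := by
        gcongr
        exact H x y

/-- the parallelogram identity of a quadratic energy. -/
def IsQuadEnergy {F : Type} [AddCommGroup F] [Module ℝ F] (q : F → ℝ) : Prop :=
  ∀ (x y : F) (t : ℝ), (1 - t) * q x + t * q y - q ((1 - t) • x + t • y) = t * (1 - t) * q (x - y)

/-- log-concave times Gaussian is strongly log-concave. -/
theorem plsi_strongLC_of_logConc {q ρ0 : E → ℝ} (hq : IsQuadEnergy q) (h : LogConc ρ0) (a : E) :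
    StrongLC q fun x => ρ0 x * Real.exp (-(q (x - a) / 2)) := by
  intro x y t ht0 ht1
  have h1t : 0 < 1 - t := by linarith
  obtain ⟨-, h0, hc⟩ := h
  have h1 := hc x y t ht0 ht1
  have h2 := hq (x - a) (y - a) t
  have h3 : (1 - t) • (x - a) + t • (y - a) = (1 - t) • x + t • y - a := by
    simp only [smul_sub, sub_smul, one_smul]; abel
  have h4 : x - a - (y - a) = x - y := by abel
  rw [h3, h4] at h2
  simp only []
  rw [Real.mul_rpow (h0 x) (Real.exp_pos _).le, Real.mul_rpow (h0 y) (Real.exp_pos _).le,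
    ← Real.exp_mul, ← Real.exp_mul]
  calc ρ0 x ^ (1 - t) * Real.exp (-(q (x - a) / 2) * (1 - t)) * (ρ0 y ^ t * Real.exp (-(q (y - a) / 2) * t)) *
        Real.exp (t * (1 - t) * q (x - y) / 2)
      = ρ0 x ^ (1 - t) * ρ0 y ^ t * (Real.exp (-(q (x - a) / 2) * (1 - t)) * Real.exp (-(q (y - a) / 2) * t) *
        Real.exp (t * (1 - t) * q (x - y) / 2)) := by ring
    _ = ρ0 x ^ (1 - t) * ρ0 y ^ t * Real.exp (-(q ((1 - t) • x + t • y - a) / 2)) := by
        rw [← Real.exp_add, ← Real.exp_add]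
        congr 2
        linarith
    _ ≤ _ := mul_le_mul_of_nonneg_right h1 (Real.exp_pos _).le

theorem plsi_isQuadEnergy_iso (κ : ℝ) : IsQuadEnergy fun h : E => κ * ‖h‖ ^ 2 := by
  intro x y t
  have e1 : ‖(1 - t) • x + t • y‖ ^ 2 = (1 - t) ^ 2 * ‖x‖ ^ 2 + 2 * ((1 - t) * t) * inner ℝ x y + t ^ 2 * ‖y‖ ^ 2 := by
    rw [norm_add_sq_real, norm_smul, norm_smul, inner_smul_left, inner_smul_right, mul_pow, mul_pow]
    simp only [Real.norm_eq_abs, sq_abs, RCLike.conj_to_real]
    ring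
  have e2 : ‖x - y‖ ^ 2 = ‖x‖ ^ 2 - 2 * inner ℝ x y + ‖y‖ ^ 2 := norm_sub_sq_real x y
  simp only []
  rw [e1, e2]; ring

theorem plsi_dualEnergy_iso {κ : ℝ} (hκ : 0 < κ) :
    DualEnergy (fun h : E => κ * ‖h‖ ^ 2) (fun L : E →L[ℝ] ℝ => ‖L‖ ^ 2 / κ) where
  coer := ⟨κ, hκ, fun h => le_rfl⟩
  hom a h := by rw [norm_smul, mul_pow, Real.norm_eq_abs, sq_abs]; ring
  homs a L := by rw [norm_smul, mul_pow, Real.norm_eq_abs, sq_abs]; ring
  nonneg L := by positivity
  cont := by fun_prop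
  young L h := by
    have h1 : L h ≤ ‖L‖ * ‖h‖ := (le_abs_self _).trans (by simpa using L.le_opNorm h)
    have h2 : ‖L‖ ^ 2 / κ = (‖L‖ / κ) ^ 2 * κ := by field_simp
    rw [h2]
    have h3 : ‖L‖ = (‖L‖ / κ) * κ := by field_simp
    nlinarith [sq_nonneg (‖L‖ / κ - ‖h‖), norm_nonneg L, norm_nonneg h]

/-- anisotropic energies `q h = ⟨h, S h⟩`, `qs L = ⟨∇L, T ∇L⟩` with `T = S⁻¹`. -/
theorem plsi_isQuadEnergy_aniso (S : E →L[ℝ] E) : IsQuadEnergy fun h : E => inner ℝ h (S h) := by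
  intro x y t
  simp only [map_add, map_sub, map_smul, inner_add_left, inner_add_right, inner_sub_left, inner_sub_right,
    inner_smul_left, inner_smul_right, RCLike.conj_to_real]
  ring

theorem plsi_dualEnergy_aniso {S T : E →L[ℝ] E} (hsym : ∀ x y, inner ℝ (S x) y = inner ℝ x (S y))
    {c : ℝ} (hc : 0 < c) (hpos : ∀ h, c * ‖h‖ ^ 2 ≤ inner ℝ h (S h)) (hST : ∀ x, S (T x) = x) :
    DualEnergy (fun h : E => inner ℝ h (S h))
      (fun L : E →L[ℝ] ℝ => L (T ((InnerProductSpace.toDual ℝ E).symm L))) where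
  coer := ⟨c, hc, hpos⟩
  hom a h := by simp only [map_smul, inner_smul_left, inner_smul_right, RCLike.conj_to_real]; ring
  homs a L := by
    simp only [map_smul, smul_apply, smul_eq_mul]
    ring
  nonneg L := by
    set g := (InnerProductSpace.toDual ℝ E).symm L with hg
    have hL : ∀ v, L v = inner ℝ g v := fun v => by rw [hg, InnerProductSpace.toDual_symm_apply]
    rw [hL]
    have h1 := hpos (T g)
    rw [hST] at h1
    rw [real_inner_comm]
    exact le_trans (by positivity) h1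
  cont := by
    have h1 : Continuous fun L : E →L[ℝ] ℝ => T ((InnerProductSpace.toDual ℝ E).symm L) := by fun_prop
    exact continuous_id.clm_apply h1
  young L h := by
    set g := (InnerProductSpace.toDual ℝ E).symm L with hg
    have hL : ∀ v, L v = inner ℝ g v := fun v => by rw [hg, InnerProductSpace.toDual_symm_apply]
    rw [hL, hL]
    have h1 := hpos (T g - h)
    have h2 : inner ℝ (T g - h) (S (T g - h)) = inner ℝ g (T g) - 2 * inner ℝ g h + inner ℝ h (S h) := by
      rw [map_sub, hST, inner_sub_left, inner_sub_right, inner_sub_right, ← hsym (T g) h, hST,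
        real_inner_comm g (T g), real_inner_comm g h]
      ring
    have h3 : 0 ≤ c * ‖T g - h‖ ^ 2 := by positivity
    linarith

theorem plsidens_eqns_cite : True := by
  have := @IsQuadEnergy.eq_1
  trivial

end Claimed.Agent.R259
end

/- ===== packed: Claimed.Agent.R259.PlsiTest ===== -/
section
/-
R259 / PlsiTest.lean  (owner: helper26).  Kit PLSI, part 3: the logarithmic Sobolev inequality of Lemma 2.1 on the
test classes (smooth, constant outside a compact set).
-/
set_option autoImplicit false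
set_option linter.unusedSectionVars false

namespace Claimed.Agent.R259

open MeasureTheory Filter Topology
open scoped ENNReal ContDiff NNReal

variable {E : Type} [NormedAddCommGroup E] [InnerProductSpace ℝ E] [MeasurableSpace E] [BorelSpace E]

theorem DualEnergy.qs_zero {q : E → ℝ} {qs : (E →L[ℝ] ℝ) → ℝ} (h : DualEnergy q qs) : qs 0 = 0 := by
  have := h.homs 0 0
  simpa using this

theorem plsi_continuous_Q {q : E → ℝ} {qs : (E →L[ℝ] ℝ) → ℝ} (hE : DualEnergy q qs) {g : E → ℝ} (hg : IsTestC g) :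
    Continuous fun z => qs (fderiv ℝ g z) := hE.cont.comp hg.continuous_fderiv

theorem plsi_exists_bound_Q {q : E → ℝ} {qs : (E →L[ℝ] ℝ) → ℝ} (hE : DualEnergy q qs) {g : E → ℝ} (hg : IsTestC g) :
    ∃ Qb : ℝ, ∀ z, qs (fderiv ℝ g z) ≤ Qb := by
  obtain ⟨C, hC⟩ := (plsi_continuous_Q hE hg).bounded_above_of_compact_support
    (hg.hasCompactSupport_fderiv.comp_left hE.qs_zero)
  exact ⟨C, fun z => (le_abs_self _).trans (hC z)⟩

theorem plsi_integrable_Q {q : E → ℝ} {qs : (E →L[ℝ] ℝ) → ℝ} (hE : DualEnergy q qs) {g : E → ℝ} (hg : IsTestC g)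
    (μ : Measure E) [IsFiniteMeasure μ] : Integrable (fun z => qs (fderiv ℝ g z)) μ := by
  obtain ⟨Qb, hQ⟩ := plsi_exists_bound_Q hE hg
  refine plsi_integrable_of_bdd (plsi_continuous_Q hE hg).measurable (C := Qb) fun x => ?_
  rw [abs_of_nonneg (hE.nonneg _)]
  exact hQ x

theorem plsi_data_of_testC {q : E → ℝ} {qs : (E →L[ℝ] ℝ) → ℝ} (hE : DualEnergy q qs) {g : E → ℝ} (hg : IsTestC g) :
    ∃ G M Qb, PlsiData qs g (fderiv ℝ g) G M Qb := by
  obtain ⟨G, -, hG⟩ := hg.exists_bound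
  obtain ⟨K, hK⟩ := hg.exists_lipschitz_fderiv
  obtain ⟨Qb, hQ⟩ := plsi_exists_bound_Q hE hg
  refine ⟨G, K, Qb, hg.continuous.measurable, hG, K.2, fun z v => ?_, (plsi_continuous_Q hE hg).measurable,
    fun z => hE.nonneg _, hQ⟩
  have := (le_abs_self _).trans (lsic_taylor2 hg.differentiable hK z v)
  linarith

/-- the inequality for `f² + ε`. -/
theorem plsi_lsi_eps {μ : Measure E} [IsProbabilityMeasure μ] {q : E → ℝ} {qs : (E →L[ℝ] ℝ) → ℝ}
    (hμ : PLq μ q) (hE : DualEnergy q qs) {f : E → ℝ} (hf : IsTestC f) {ε : ℝ} (hε : 0 < ε) :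
    ent μ (fun x => f x ^ 2 + ε) ≤ 2 * ∫ x, qs (fderiv ℝ f x) ∂μ := by
  have hpos : ∀ x, 0 < f x ^ 2 + ε := fun x => by positivity
  set g : E → ℝ := fun x => Real.log (f x ^ 2 + ε) with hg
  have hgC : IsTestC g :=
    hf.comp (φ := fun u => Real.log (u ^ 2 + ε)) (((hf.contDiff.pow 2).add contDiff_const).log fun x => (hpos x).ne')
  obtain ⟨G, M, Qb, hd⟩ := plsi_data_of_testC hE hgC
  have h1 := plsi_core hμ hE hd
  have hexp : ∀ x, Real.exp (g x) = f x ^ 2 + ε := fun x => Real.exp_log (hpos x)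
  have hfd : ∀ x, fderiv ℝ g x = (2 * f x / (f x ^ 2 + ε)) • fderiv ℝ f x := fun x => by
    have hdx : DifferentiableAt ℝ f x := hf.differentiable x
    have h2 : fderiv ℝ (fun y => f y ^ 2 + ε) x = (2 * f x) • fderiv ℝ f x := by
      rw [fderiv_add_const, fderiv_fun_pow 2 hdx]
      simp
    have hd2 : DifferentiableAt ℝ (fun y => f y ^ 2 + ε) x := (hdx.fun_pow 2).add_const ε
    rw [hg, fderiv.log hd2 (hpos x).ne', h2, smul_smul]
    congr 1
    field_simp
  simp only [hexp] at h1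
  refine h1.trans ?_
  rw [show (2 : ℝ) * ∫ x, qs (fderiv ℝ f x) ∂μ = 1 / 2 * ∫ x, 4 * qs (fderiv ℝ f x) ∂μ by
    rw [integral_const_mul]; ring]
  refine mul_le_mul_of_nonneg_left ?_ (by norm_num)
  refine integral_mono ?_ ((plsi_integrable_Q hE hf μ).const_mul 4) fun x => ?_
  · have := hd.integrable_Q_exp (μ := μ)
    simpa only [hexp] using this
  · simp only []
    rw [hfd, hE.homs]
    have hq := hE.nonneg (fderiv ℝ f x)
    have h3 : (2 * f x / (f x ^ 2 + ε)) ^ 2 * (f x ^ 2 + ε) ≤ 4 := by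
      have : (2 * f x / (f x ^ 2 + ε)) ^ 2 * (f x ^ 2 + ε) = 4 * (f x ^ 2 / (f x ^ 2 + ε)) := by
        field_simp
        ring
      rw [this]
      have : f x ^ 2 / (f x ^ 2 + ε) ≤ 1 := by
        rw [div_le_one (hpos x)]; linarith
      linarith
    calc (2 * f x / (f x ^ 2 + ε)) ^ 2 * qs (fderiv ℝ f x) * (f x ^ 2 + ε)
        = ((2 * f x / (f x ^ 2 + ε)) ^ 2 * (f x ^ 2 + ε)) * qs (fderiv ℝ f x) := by ring
      _ ≤ 4 * qs (fderiv ℝ f x) := mul_le_mul_of_nonneg_right h3 hq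

/-- **Lemma 2.1, entropy part, abstract form**: the curved Prekopa-Leindler property implies the logarithmic Sobolev
inequality with the dual energy. -/
theorem plsi_hasLSIq {μ : Measure E} [IsProbabilityMeasure μ] {q : E → ℝ} {qs : (E →L[ℝ] ℝ) → ℝ}
    (hμ : PLq μ q) (hE : DualEnergy q qs) : HasLSIq μ qs := by
  intro f hf
  obtain ⟨C, hC0, hC⟩ := hf.exists_bound
  have hlim : Tendsto (fun ε : ℝ => ent μ (fun x => f x ^ 2 + ε)) (𝓝[>] 0) (𝓝 (ent μ fun x => f x ^ 2)) := by
    refine lsic_tendsto_ent (A := 0) (B := C ^ 2 + 1) ?_ ?_ ?_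
    · exact Eventually.of_forall fun ε => ((hf.continuous.pow 2).add continuous_const).aestronglyMeasurable
    · have h1 : ∀ᶠ ε : ℝ in 𝓝[>] 0, ε < 1 := by
        have : ∀ᶠ ε : ℝ in 𝓝 0, ε < 1 := eventually_lt_nhds (by norm_num)
        exact this.filter_mono nhdsWithin_le_nhds
      filter_upwards [h1, self_mem_nhdsWithin] with ε h2 h3
      refine Eventually.of_forall fun x => ⟨?_, ?_⟩
      · have : (0:ℝ) < ε := h3
        positivity
      · have : f x ^ 2 ≤ C ^ 2 := by
          rw [← sq_abs]; exact pow_le_pow_left₀ (abs_nonneg _) (hC x) 2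
        linarith
    · refine Eventually.of_forall fun x => ?_
      have : Tendsto (fun ε : ℝ => f x ^ 2 + ε) (𝓝 0) (𝓝 (f x ^ 2 + 0)) := tendsto_const_nhds.add tendsto_id
      rw [add_zero] at this
      exact this.mono_left nhdsWithin_le_nhds
  refine le_of_tendsto hlim ?_
  filter_upwards [self_mem_nhdsWithin] with ε hε
  exact plsi_lsi_eps hμ hE hf hε

end Claimed.Agent.R259
end

/- ===== packed: Claimed.Agent.R259.LsiCalcB ===== -/
section
/-
R259 / LsiCalcB.lean  (owner: helper26).  Kit LSIcalc, part B: linearisation (LSI implies Poincare).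
-/
set_option autoImplicit false
set_option linter.unusedSectionVars false

namespace Claimed.Agent.R259

open MeasureTheory Filter Topology
open scoped ENNReal ContDiff NNReal

/-- scalar Taylor bound. -/
theorem lsic_scalar_log {x : ℝ} (hx : |x| ≤ 1 / 2) : x - x ^ 2 / 2 - 2 * |x| ^ 3 ≤ Real.log (1 + x) := by
  have h1 := Real.abs_log_sub_add_sum_range_le (x := -x) (by rw [abs_neg]; linarith) 2
  simp only [Finset.sum_range_succ, Finset.sum_range_zero, abs_neg, sub_neg_eq_add] at h1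
  have h2 : |x| ^ (2 + 1) / (1 - |x|) ≤ 2 * |x| ^ 3 := by
    rw [div_le_iff₀ (by linarith)]
    have h0 : 0 ≤ |x| ^ 3 := by positivity
    have h00 : |x| ^ (2 + 1) = |x| ^ 3 := by norm_num
    rw [h00]
    nlinarith [mul_nonneg h0 (sub_nonneg.2 hx)]
  have h3 := (neg_abs_le _).trans (le_refl _) |>.trans (le_refl (0 + (-x) ^ (0 + 1) / ((0:ℕ) + 1 : ℝ) + (-x) ^ (1 + 1) / ((1:ℕ) + 1 : ℝ) + Real.log (1 + x)))
  have h4 : (0 + (-x) ^ (0 + 1) / ((0:ℕ) + 1 : ℝ) + (-x) ^ (1 + 1) / ((1:ℕ) + 1 : ℝ) + Real.log (1 + x))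
      = -x + x ^ 2 / 2 + Real.log (1 + x) := by
    norm_num
  rw [h4] at h3 h1
  linarith

theorem lsic_scalar_sq_log {x : ℝ} (hx : |x| ≤ 1 / 2) :
    2 * x + 3 * x ^ 2 - 10 * |x| ^ 3 ≤ (1 + x) ^ 2 * Real.log ((1 + x) ^ 2) := by
  have h1 := lsic_scalar_log hx
  have hx' := abs_le.1 hx
  have hpos : 0 < 1 + x := by linarith
  rw [Real.log_pow]
  have h2 : (1 + x) ^ 2 * (x - x ^ 2 / 2 - 2 * |x| ^ 3) ≤ (1 + x) ^ 2 * Real.log (1 + x) :=
    mul_le_mul_of_nonneg_left h1 (by positivity)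
  have h3 : (1 + x) ^ 2 ≤ 9 / 4 := by nlinarith
  have h4 : 0 ≤ |x| ^ 3 := by positivity
  have h5 : x ^ 4 ≤ |x| ^ 3 / 2 := by
    have : x ^ 4 = |x| ^ 3 * |x| := by
      have h44 : x ^ 4 = |x| ^ 4 := by rw [← abs_pow]; exact (abs_of_nonneg (by positivity)).symm
      rw [h44]; ring
    rw [this]; nlinarith
  have h6 : (1 + x) ^ 2 * (x - x ^ 2 / 2 - 2 * |x| ^ 3) = x + 3 / 2 * x ^ 2 - x ^ 4 / 2 - 2 * ((1 + x) ^ 2 * |x| ^ 3) := by
    ring
  have h7 : (1 + x) ^ 2 * |x| ^ 3 ≤ 9 / 4 * |x| ^ 3 := mul_le_mul_of_nonneg_right h3 h4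
  push_cast
  nlinarith

section

variable {α : Type} [MeasurableSpace α] {μ : Measure α} [IsProbabilityMeasure μ]

theorem lsic_integrable_of_bdd {f : α → ℝ} (hf : AEStronglyMeasurable f μ) {C : ℝ} (hC : ∀ x, |f x| ≤ C) :
    Integrable f μ :=
  Integrable.of_bound hf C (Eventually.of_forall fun x => by simpa using hC x)

theorem lsic_vari_eq {g : α → ℝ} (hg : AEStronglyMeasurable g μ) {C : ℝ} (hC : ∀ x, |g x| ≤ C) :
    vari μ g = ∫ x, (g x - ∫ y, g y ∂μ) ^ 2 ∂μ := by
  unfold vari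
  set m := ∫ y, g y ∂μ with hm
  have hi : Integrable g μ := lsic_integrable_of_bdd hg hC
  have hi2 : Integrable (fun x => g x ^ 2) μ := by
    refine lsic_integrable_of_bdd (hg.pow 2) (C := C ^ 2) fun x => ?_
    rw [abs_pow]; exact pow_le_pow_left₀ (abs_nonneg _) (hC x) 2
  have : ∀ x, (g x - m) ^ 2 = g x ^ 2 - 2 * m * g x + m ^ 2 := fun x => by ring
  simp only [this]
  have hA : Integrable (fun x => g x ^ 2 - 2 * m * g x) μ := hi2.sub (hi.const_mul _)
  rw [integral_add hA (integrable_const _), integral_sub hi2 (hi.const_mul _),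
    integral_const_mul, integral_const, ← hm]
  simp
  ring

/-- quantitative linearisation of the entropy at the constant `1`. -/
theorem lsic_ent_linearise {h : α → ℝ} (hm : AEStronglyMeasurable h μ) {B : ℝ} (hB : ∀ x, |h x| ≤ B)
    (h0 : ∫ x, h x ∂μ = 0) {ε : ℝ} (hε : 0 ≤ ε) (hεB : ε * B ≤ 1 / 2) :
    2 * ε ^ 2 * (∫ x, h x ^ 2 ∂μ) - 10 * ε ^ 3 * B ^ 3 - ε ^ 4 * (∫ x, h x ^ 2 ∂μ) ^ 2
      ≤ ent μ fun x => (1 + ε * h x) ^ 2 := by
  set σ := ∫ x, h x ^ 2 ∂μ with hσ
  have hB0 : 0 ≤ B := (abs_nonneg _).trans (hB (Classical.choice (by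
    have : μ ≠ 0 := IsProbabilityMeasure.ne_zero μ
    by_contra hne
    rw [not_nonempty_iff] at hne
    exact this (Measure.eq_zero_of_isEmpty μ))))
  have hi : Integrable h μ := lsic_integrable_of_bdd hm hB
  have hi2 : Integrable (fun x => h x ^ 2) μ := by
    refine lsic_integrable_of_bdd (hm.pow 2) (C := B ^ 2) fun x => ?_
    rw [abs_pow]; exact pow_le_pow_left₀ (abs_nonneg _) (hB x) 2
  have hσ0 : 0 ≤ σ := integral_nonneg fun x => by positivity
  have hx : ∀ x, |ε * h x| ≤ 1 / 2 := fun x => by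
    rw [abs_mul, abs_of_nonneg hε]
    exact (mul_le_mul_of_nonneg_left (hB x) hε).trans hεB
  -- the mass
  have hmass : ∫ x, (1 + ε * h x) ^ 2 ∂μ = 1 + ε ^ 2 * σ := by
    have : ∀ x, (1 + ε * h x) ^ 2 = 1 + 2 * ε * h x + ε ^ 2 * h x ^ 2 := fun x => by ring
    simp only [this]
    have hA : Integrable (fun x => 1 + 2 * ε * h x) μ := (integrable_const _).add (hi.const_mul _)
    rw [integral_add hA (hi2.const_mul _),
      integral_add (integrable_const _) (hi.const_mul _), integral_const_mul, integral_const_mul, h0, integral_const,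
      ← hσ]
    simp
  have hmeas : AEStronglyMeasurable (fun x => (1 + ε * h x) ^ 2) μ :=
    ((hm.const_mul ε).const_add 1).pow 2
  -- the first term
  have hfirst : 3 * ε ^ 2 * σ - 10 * ε ^ 3 * B ^ 3 ≤ ∫ x, (1 + ε * h x) ^ 2 * Real.log ((1 + ε * h x) ^ 2) ∂μ := by
    have hint : Integrable (fun x => (1 + ε * h x) ^ 2 * Real.log ((1 + ε * h x) ^ 2)) μ := by
      obtain ⟨C, hC⟩ := (isCompact_Icc (a := (0:ℝ)) (b := 4)).exists_bound_of_continuousOn
        Real.continuous_mul_log.continuousOn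
      refine lsic_integrable_of_bdd (Real.continuous_mul_log.comp_aestronglyMeasurable hmeas) (C := C) fun x => ?_
      refine hC _ ⟨by positivity, ?_⟩
      have := abs_le.1 (hx x)
      nlinarith
    have hlow : Integrable (fun x => 2 * ε * h x + 3 * ε ^ 2 * h x ^ 2 - 10 * ε ^ 3 * B ^ 3) μ :=
      ((hi.const_mul _).add (hi2.const_mul _)).sub (integrable_const _)
    have h1 : ∫ x, (2 * ε * h x + 3 * ε ^ 2 * h x ^ 2 - 10 * ε ^ 3 * B ^ 3) ∂μ = 3 * ε ^ 2 * σ - 10 * ε ^ 3 * B ^ 3 := by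
      have hA : Integrable (fun x => 2 * ε * h x + 3 * ε ^ 2 * h x ^ 2) μ := (hi.const_mul _).add (hi2.const_mul _)
      rw [integral_sub hA (integrable_const _),
        integral_add (hi.const_mul _) (hi2.const_mul _), integral_const_mul, integral_const_mul, h0, integral_const,
        ← hσ]
      simp
    rw [← h1]
    refine integral_mono hlow hint fun x => ?_
    have h2 := lsic_scalar_sq_log (hx x)
    have h3 : |ε * h x| ^ 3 ≤ ε ^ 3 * B ^ 3 := by
      rw [abs_mul, abs_of_nonneg hε, mul_pow]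
      exact mul_le_mul_of_nonneg_left (pow_le_pow_left₀ (abs_nonneg _) (hB x) 3) (by positivity)
    simp only []
    nlinarith
  -- the second term
  have hsecond : (1 + ε ^ 2 * σ) * Real.log (1 + ε ^ 2 * σ) ≤ ε ^ 2 * σ + ε ^ 4 * σ ^ 2 := by
    have hpos : 0 < 1 + ε ^ 2 * σ := by positivity
    have h1 := Real.log_le_sub_one_of_pos hpos
    have h2 := mul_le_mul_of_nonneg_left h1 hpos.le
    nlinarith
  unfold ent
  rw [hmass]
  linarith

end

section

variable {E : Type} [NormedAddCommGroup E] [InnerProductSpace ℝ E] [MeasurableSpace E] [BorelSpace E]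

/-- **linearisation**: a logarithmic Sobolev inequality (on `IsTestC`) implies the Poincare inequality with the same
energy. -/
theorem lsic_hasPIq_of_hasLSIq {μ : Measure E} [IsProbabilityMeasure μ] {Q : (E →L[ℝ] ℝ) → ℝ}
    (hom : ∀ (a : ℝ) (L : E →L[ℝ] ℝ), Q (a • L) = a ^ 2 * Q L) (hL : HasLSIq μ Q) : HasPIq μ Q := by
  intro g hg
  obtain ⟨C, hC0, hC⟩ := hg.exists_bound
  rw [lsic_vari_eq hg.continuous.aestronglyMeasurable hC]
  set m := ∫ y, g y ∂μ with hm
  set h : E → ℝ := fun x => g x - m with hh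
  have hhC : IsTestC h := hg.sub_const m
  obtain ⟨B, hB0, hB⟩ := hhC.exists_bound
  have hi : Integrable g μ := lsic_integrable_of_bdd hg.continuous.aestronglyMeasurable hC
  have h0 : ∫ x, h x ∂μ = 0 := by
    rw [hh, integral_sub hi (integrable_const _), integral_const]; simp [hm]
  set σ := ∫ x, h x ^ 2 ∂μ with hσ
  set I := ∫ x, Q (fderiv ℝ g x) ∂μ with hI
  have key : ∀ ε : ℝ, 0 < ε → ε * B ≤ 1 / 2 → σ ≤ I + ε * (5 * B ^ 3) + ε ^ 2 * (σ ^ 2 / 2) := by
    intro ε hε hεB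
    have h1 := lsic_ent_linearise hhC.continuous.aestronglyMeasurable hB h0 hε.le hεB
    have hfC : IsTestC fun x => 1 + ε * h x := by
      have := (hhC.const_mul ε).add_const 1
      simpa [add_comm] using this
    have h2 := hL _ hfC
    have h3 : ∀ x, fderiv ℝ (fun x => 1 + ε * h x) x = ε • fderiv ℝ g x := fun x => by
      rw [fderiv_const_add, fderiv_const_mul (hhC.differentiable x), hh, fderiv_sub_const]
    simp only [h3, hom] at h2
    rw [integral_const_mul, ← hI] at h2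
    have h4 := h1.trans h2
    have h5 : 0 < ε ^ 2 := by positivity
    have h6 : ε ^ 2 * (2 * σ) ≤ ε ^ 2 * (2 * (I + ε * (5 * B ^ 3) + ε ^ 2 * (σ ^ 2 / 2))) := by nlinarith
    have := le_of_mul_le_mul_left h6 h5
    linarith
  refine le_of_forall_pos_le_add fun δ hδ => ?_
  set K := 5 * B ^ 3 + σ ^ 2 / 2 + 2 * B + 1 with hK
  have hK1 : 1 ≤ K := by
    have : 0 ≤ B ^ 3 := by positivity
    have : 0 ≤ σ ^ 2 := by positivity
    linarith
  have hKpos : 0 < K := by linarith
  set ε := min 1 δ / K with hεd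
  have hmin : 0 < min 1 δ := lt_min one_pos hδ
  have hε : 0 < ε := div_pos hmin hKpos
  have hε1 : ε ≤ 1 := by
    rw [hεd, div_le_one hKpos]; exact (min_le_left _ _).trans hK1
  have hεK : ε * K ≤ δ := by
    rw [hεd, div_mul_cancel₀ _ hKpos.ne']; exact min_le_right _ _
  have hεK1 : ε * K ≤ 1 := by
    rw [hεd, div_mul_cancel₀ _ hKpos.ne']; exact min_le_left _ _
  have hεB : ε * B ≤ 1 / 2 := by
    have h1 : ε * (2 * B) ≤ ε * K := by
      refine mul_le_mul_of_nonneg_left ?_ hε.le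
      have : 0 ≤ B ^ 3 := by positivity
      have : 0 ≤ σ ^ 2 := by positivity
      linarith
    linarith
  have h7 := key ε hε hεB
  have h8 : ε ^ 2 * (σ ^ 2 / 2) ≤ ε * (σ ^ 2 / 2) := by
    refine mul_le_mul_of_nonneg_right ?_ (by positivity)
    nlinarith
  have h9 : ε * (5 * B ^ 3) + ε * (σ ^ 2 / 2) ≤ ε * K := by
    rw [← mul_add]
    refine mul_le_mul_of_nonneg_left ?_ hε.le
    linarith
  linarith

end

end Claimed.Agent.R259
end

/- ===== packed: Claimed.Agent.R259.Plsi ===== -/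
section
/-
R259 / Plsi.lean  (owner: helper26).  Kit PLSI, EXPORTS: Lemma 2.1 of the paper (positive curvature), proved from
Prekopa-Leindler.  No smoothness, no semicontinuity, no positivity of the density is required.

* `plsi_LSIq_dens`, `plsi_PIq_dens`   : general energies, test class `IsTestC` (smooth, constant outside a compact set)
* `plsi_LSI_iso`, `plsi_PI_iso`       : `p = ρ0 · exp(-κ|x-y|²/2)`, `ρ0` log-concave:  `LSI (dm p) κ⁻¹`, `PI (dm p) κ⁻¹`
* `plsi_LSI_post`, `plsi_PI_post`     : Gaussian posteriors `p = c · gk s (y - x) · ρ0 x`:  `LSI (dm p) s`, `PI (dm p) s`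
* `plsi_LSIq_aniso`, `plsi_PIq_aniso` : `p = ρ0 · exp(-⟨x-a,S(x-a)⟩/2)`: energy `⟨Df, S⁻¹ Df⟩`
-/
set_option autoImplicit false
set_option linter.unusedSectionVars false

namespace Claimed.Agent.R259

open MeasureTheory Filter Topology
open scoped ENNReal ContDiff NNReal

variable {E : Type} [NormedAddCommGroup E] [InnerProductSpace ℝ E] [FiniteDimensional ℝ E]
  [MeasurableSpace E] [BorelSpace E]

/-- **Lemma 2.1 (entropy), general form.** -/
theorem plsi_LSIq_dens {q ρ : E → ℝ} {qs : (E →L[ℝ] ℝ) → ℝ} (hm : Measurable ρ) (h0 : ∀ x, 0 ≤ ρ x)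
    [IsProbabilityMeasure (dm ρ)] (h : StrongLC q ρ) (hE : DualEnergy q qs) : HasLSIq (dm ρ) qs :=
  plsi_hasLSIq (plsi_PLq_of_strongLC hm h0 h) hE

/-- **Lemma 2.1 (variance), general form.** -/
theorem plsi_PIq_dens {q ρ : E → ℝ} {qs : (E →L[ℝ] ℝ) → ℝ} (hm : Measurable ρ) (h0 : ∀ x, 0 ≤ ρ x)
    [IsProbabilityMeasure (dm ρ)] (h : StrongLC q ρ) (hE : DualEnergy q qs) : HasPIq (dm ρ) qs :=
  lsic_hasPIq_of_hasLSIq hE.homs (plsi_LSIq_dens hm h0 h hE)

theorem lsic_LSI_of_hasLSIq {m : Measure E} {R : ℝ} (h : HasLSIq m fun L => R * ‖L‖ ^ 2) : LSI m R := by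
  intro f hf
  have h1 := h f hf.isTestC
  rw [integral_const_mul] at h1
  unfold nrg
  simp only [lsic_norm_gradient]
  linarith

theorem lsic_PI_of_hasPIq {m : Measure E} {R : ℝ} (h : HasPIq m fun L => R * ‖L‖ ^ 2) : PI m R := by
  intro f hf
  have h1 := h f hf.isTestC
  rw [integral_const_mul] at h1
  unfold nrg
  simp only [lsic_norm_gradient]
  linarith

theorem plsi_measurable_iso {ρ0 : E → ℝ} (h : LogConc ρ0) (κ : ℝ) (y : E) :
    Measurable fun x => ρ0 x * Real.exp (-(κ * ‖x - y‖ ^ 2 / 2)) := by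
  have h1 : Continuous fun x : E => Real.exp (-(κ * ‖x - y‖ ^ 2 / 2)) := by fun_prop
  exact h.1.mul h1.measurable

/-- isotropic form on `IsTestC`. -/
theorem plsi_LSIq_iso {ρ0 p : E → ℝ} (h : LogConc ρ0) {κ : ℝ} (hκ : 0 < κ) (y : E)
    (hp : ∀ x, p x = ρ0 x * Real.exp (-(κ * ‖x - y‖ ^ 2 / 2))) [IsProbabilityMeasure (dm p)] :
    HasLSIq (dm p) fun L => κ⁻¹ * ‖L‖ ^ 2 := by
  have hp' : p = fun x => ρ0 x * Real.exp (-(κ * ‖x - y‖ ^ 2 / 2)) := funext hp
  have h1 : StrongLC (fun h : E => κ * ‖h‖ ^ 2) p := by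
    rw [hp']; exact plsi_strongLC_of_logConc (plsi_isQuadEnergy_iso κ) h y
  have h2 : Measurable p := by rw [hp']; exact plsi_measurable_iso h κ y
  have h3 : ∀ x, 0 ≤ p x := fun x => by rw [hp]; exact mul_nonneg (h.2.1 x) (Real.exp_pos _).le
  have h4 := plsi_LSIq_dens h2 h3 h1 (plsi_dualEnergy_iso hκ)
  have h5 : (fun L : E →L[ℝ] ℝ => ‖L‖ ^ 2 / κ) = fun L => κ⁻¹ * ‖L‖ ^ 2 := by
    ext L; rw [div_eq_mul_inv, mul_comm]
  rwa [h5] at h4

theorem plsi_PIq_iso {ρ0 p : E → ℝ} (h : LogConc ρ0) {κ : ℝ} (hκ : 0 < κ) (y : E)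
    (hp : ∀ x, p x = ρ0 x * Real.exp (-(κ * ‖x - y‖ ^ 2 / 2))) [IsProbabilityMeasure (dm p)] :
    HasPIq (dm p) fun L => κ⁻¹ * ‖L‖ ^ 2 :=
  lsic_hasPIq_of_hasLSIq (fun a L => by rw [norm_smul, mul_pow, Real.norm_eq_abs, sq_abs]; ring)
    (plsi_LSIq_iso h hκ y hp)

/-- **Lemma 2.1, isotropic**: `p = ρ0 · exp(-κ|x-y|²/2)` with `ρ0` log-concave satisfies `LSI` with constant `1/κ`. -/
theorem plsi_LSI_iso {ρ0 p : E → ℝ} (h : LogConc ρ0) {κ : ℝ} (hκ : 0 < κ) (y : E)
    (hp : ∀ x, p x = ρ0 x * Real.exp (-(κ * ‖x - y‖ ^ 2 / 2))) [IsProbabilityMeasure (dm p)] :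
    LSI (dm p) κ⁻¹ := lsic_LSI_of_hasLSIq (plsi_LSIq_iso h hκ y hp)

theorem plsi_PI_iso {ρ0 p : E → ℝ} (h : LogConc ρ0) {κ : ℝ} (hκ : 0 < κ) (y : E)
    (hp : ∀ x, p x = ρ0 x * Real.exp (-(κ * ‖x - y‖ ^ 2 / 2))) [IsProbabilityMeasure (dm p)] :
    PI (dm p) κ⁻¹ := lsic_PI_of_hasPIq (plsi_PIq_iso h hκ y hp)

theorem LogConc.const_mul {ρ0 : E → ℝ} (h : LogConc ρ0) {c : ℝ} (hc : 0 ≤ c) : LogConc fun x => c * ρ0 x := by
  obtain ⟨h1, h2, h3⟩ := h
  refine ⟨h1.const_mul c, fun x => mul_nonneg hc (h2 x), fun x y t ht0 ht1 => ?_⟩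
  have h1t : 0 < 1 - t := by linarith
  rw [Real.mul_rpow hc (h2 x), Real.mul_rpow hc (h2 y)]
  have h4 : c ^ (1 - t) * c ^ t = c := by
    rcases hc.eq_or_lt with rfl | hc'
    · rw [Real.zero_rpow ht0.ne']; simp
    · rw [← Real.rpow_add hc']; simp
  calc c ^ (1 - t) * ρ0 x ^ (1 - t) * (c ^ t * ρ0 y ^ t) = (c ^ (1 - t) * c ^ t) * (ρ0 x ^ (1 - t) * ρ0 y ^ t) := by ring
    _ = c * (ρ0 x ^ (1 - t) * ρ0 y ^ t) := by rw [h4]
    _ ≤ _ := mul_le_mul_of_nonneg_left (h3 x y t ht0 ht1) hc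

theorem plsi_post_eq {ρ0 : E → ℝ} {s : ℝ} (hs : 0 < s) (y : E) (c : ℝ) (x : E) :
    c * (gk s (y - x) * ρ0 x) =
      (c * (2 * Real.pi * s) ^ (-(Module.finrank ℝ E : ℝ) / 2)) * ρ0 x * Real.exp (-(s⁻¹ * ‖x - y‖ ^ 2 / 2)) := by
  unfold gk
  have : -‖y - x‖ ^ 2 / (2 * s) = -(s⁻¹ * ‖x - y‖ ^ 2 / 2) := by
    rw [norm_sub_rev]; field_simp
  rw [this]; ring

/-- Gaussian posteriors on `IsTestC`. -/
theorem plsi_LSIq_post {ρ0 : E → ℝ} (h : LogConc ρ0) {s : ℝ} (hs : 0 < s) (y : E) {c : ℝ} (hc : 0 ≤ c)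
    [IsProbabilityMeasure (dm fun x => c * (gk s (y - x) * ρ0 x))] :
    HasLSIq (dm fun x => c * (gk s (y - x) * ρ0 x)) fun L => s * ‖L‖ ^ 2 := by
  have hc' : 0 ≤ c * (2 * Real.pi * s) ^ (-(Module.finrank ℝ E : ℝ) / 2) :=
    mul_nonneg hc (Real.rpow_nonneg (by positivity) _)
  have := plsi_LSIq_iso (h.const_mul hc') (inv_pos.2 hs) y (p := fun x => c * (gk s (y - x) * ρ0 x))
    (fun x => plsi_post_eq hs y c x)
  simpa using this

theorem plsi_PIq_post {ρ0 : E → ℝ} (h : LogConc ρ0) {s : ℝ} (hs : 0 < s) (y : E) {c : ℝ} (hc : 0 ≤ c)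
    [IsProbabilityMeasure (dm fun x => c * (gk s (y - x) * ρ0 x))] :
    HasPIq (dm fun x => c * (gk s (y - x) * ρ0 x)) fun L => s * ‖L‖ ^ 2 :=
  lsic_hasPIq_of_hasLSIq (fun a L => by rw [norm_smul, mul_pow, Real.norm_eq_abs, sq_abs]; ring)
    (plsi_LSIq_post h hs y hc)

/-- **Gaussian posteriors** of a log-concave law: `LSI` with constant `s`. -/
theorem plsi_LSI_post {ρ0 : E → ℝ} (h : LogConc ρ0) {s : ℝ} (hs : 0 < s) (y : E) {c : ℝ} (hc : 0 ≤ c)
    [IsProbabilityMeasure (dm fun x => c * (gk s (y - x) * ρ0 x))] :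
    LSI (dm fun x => c * (gk s (y - x) * ρ0 x)) s := lsic_LSI_of_hasLSIq (plsi_LSIq_post h hs y hc)

theorem plsi_PI_post {ρ0 : E → ℝ} (h : LogConc ρ0) {s : ℝ} (hs : 0 < s) (y : E) {c : ℝ} (hc : 0 ≤ c)
    [IsProbabilityMeasure (dm fun x => c * (gk s (y - x) * ρ0 x))] :
    PI (dm fun x => c * (gk s (y - x) * ρ0 x)) s := lsic_PI_of_hasPIq (plsi_PIq_post h hs y hc)

/-- **Lemma 2.1, anisotropic**: `p = ρ0 · exp(-⟨x-a, S (x-a)⟩/2)`, `T = S⁻¹`: energy `⟨∇f, T ∇f⟩`. -/
theorem plsi_LSIq_aniso {ρ0 p : E → ℝ} (h : LogConc ρ0) {S T : E →L[ℝ] E}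
    (hsym : ∀ x y, inner ℝ (S x) y = inner ℝ x (S y)) {c : ℝ} (hc : 0 < c)
    (hpos : ∀ h, c * ‖h‖ ^ 2 ≤ inner ℝ h (S h)) (hST : ∀ x, S (T x) = x) (a : E)
    (hp : ∀ x, p x = ρ0 x * Real.exp (-(inner ℝ (x - a) (S (x - a)) / 2))) [IsProbabilityMeasure (dm p)] :
    HasLSIq (dm p) fun L => L (T ((InnerProductSpace.toDual ℝ E).symm L)) := by
  have hp' : p = fun x => ρ0 x * Real.exp (-(inner ℝ (x - a) (S (x - a)) / 2)) := funext hp
  have h1 : StrongLC (fun h : E => inner ℝ h (S h)) p := by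
    rw [hp']; exact plsi_strongLC_of_logConc (plsi_isQuadEnergy_aniso S) h a
  have h2 : Measurable p := by
    rw [hp']
    have h1 : Continuous fun x : E => Real.exp (-(inner ℝ (x - a) (S (x - a)) / 2)) := by fun_prop
    exact h.1.mul h1.measurable
  have h3 : ∀ x, 0 ≤ p x := fun x => by rw [hp]; exact mul_nonneg (h.2.1 x) (Real.exp_pos _).le
  exact plsi_LSIq_dens h2 h3 h1 (plsi_dualEnergy_aniso hsym hc hpos hST)

theorem plsi_PIq_aniso {ρ0 p : E → ℝ} (h : LogConc ρ0) {S T : E →L[ℝ] E}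
    (hsym : ∀ x y, inner ℝ (S x) y = inner ℝ x (S y)) {c : ℝ} (hc : 0 < c)
    (hpos : ∀ h, c * ‖h‖ ^ 2 ≤ inner ℝ h (S h)) (hST : ∀ x, S (T x) = x) (a : E)
    (hp : ∀ x, p x = ρ0 x * Real.exp (-(inner ℝ (x - a) (S (x - a)) / 2))) [IsProbabilityMeasure (dm p)] :
    HasPIq (dm p) fun L => L (T ((InnerProductSpace.toDual ℝ E).symm L)) :=
  lsic_hasPIq_of_hasLSIq (plsi_dualEnergy_aniso hsym hc hpos hST).homs (plsi_LSIq_aniso h hsym hc hpos hST a hp)

end Claimed.Agent.R259
end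

/- ===== packed: Claimed.Agent.R259.PlsiMgf ===== -/
section
/-
R259 / PlsiMgf.lean  (owner: helper26).  Kit PLSI, part 4: sharp subgaussian moment generating function of Lipschitz
functions under a measure with the curved Prekopa-Leindler property (no Herbst argument), entropy duality, and the
resulting covariance inequality.
-/
set_option autoImplicit false
set_option linter.unusedSectionVars false

namespace Claimed.Agent.R259

open MeasureTheory Filter Topology
open scoped ENNReal ContDiff NNReal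

section Mgf

variable {E : Type} [NormedAddCommGroup E] [NormedSpace ℝ E] [MeasurableSpace E]
  {π : Measure E} [IsProbabilityMeasure π] {κ : ℝ} {u : E → ℝ}

/-- the Prekopa-Leindler step. -/
theorem plsi_mgf_PL (hκ : 0 < κ) (hπ : PLq π fun h => κ * ‖h‖ ^ 2) (hum : Measurable u)
    (hu : ∀ x y, u x - u y ≤ ‖x - y‖) {t : ℝ} (ht0 : 0 < t) (ht1 : t < 1) (α : ℝ) :
    (∫⁻ x, ENNReal.ofReal (Real.exp (α * u x)) ∂π) ^ (1 - t) *
      (∫⁻ x, ENNReal.ofReal (Real.exp (-((1 - t) * α / t) * u x)) ∂π) ^ t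
      ≤ ENNReal.ofReal (Real.exp ((1 - t) * α ^ 2 / (2 * κ * t))) := by
  have h1t : 0 < 1 - t := by linarith
  have h := hπ t ht0 ht1 (fun x => ENNReal.ofReal (Real.exp (α * u x)))
    (fun x => ENNReal.ofReal (Real.exp (-((1 - t) * α / t) * u x)))
    (fun _ => ENNReal.ofReal (Real.exp ((1 - t) * α ^ 2 / (2 * κ * t))))
    (hum.const_mul α).exp.ennreal_ofReal (hum.const_mul _).exp.ennreal_ofReal measurable_const ?_
  · simpa using h
  intro x y
  rw [ENNReal.ofReal_rpow_of_pos (Real.exp_pos _), ENNReal.ofReal_rpow_of_pos (Real.exp_pos _),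
    ← Real.exp_mul, ← Real.exp_mul, ← ENNReal.ofReal_mul (Real.exp_pos _).le,
    ← ENNReal.ofReal_mul (mul_pos (Real.exp_pos _) (Real.exp_pos _)).le, ← Real.exp_add, ← Real.exp_add]
  apply ENNReal.ofReal_le_ofReal
  apply Real.exp_le_exp.2
  set r := ‖x - y‖ with hr
  have hr0 : 0 ≤ r := norm_nonneg _
  have h1 : α * (u x - u y) ≤ |α| * r := by
    have h2 : |u x - u y| ≤ r := by
      rw [abs_le]
      refine ⟨?_, hu x y⟩
      have := hu y x
      rw [norm_sub_rev] at this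
      linarith
    calc α * (u x - u y) ≤ |α * (u x - u y)| := le_abs_self _
      _ = |α| * |u x - u y| := abs_mul _ _
      _ ≤ |α| * r := mul_le_mul_of_nonneg_left h2 (abs_nonneg _)
  have h3 : |α| * r ≤ t * κ * r ^ 2 / 2 + α ^ 2 / (2 * κ * t) := by
    have hkt : 0 < κ * t := by positivity
    have h4 : α ^ 2 / (2 * κ * t) = (|α| / (κ * t)) ^ 2 * (κ * t) / 2 := by
      rw [div_pow, sq_abs]; field_simp
    have h5 : |α| = (|α| / (κ * t)) * (κ * t) := by field_simp
    rw [h4]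
    set w := |α| / (κ * t) with hw
    rw [h5]
    nlinarith [mul_nonneg hkt.le (sq_nonneg (w - r))]
  have h6 : α * u x * (1 - t) + -((1 - t) * α / t) * u y * t + -(t * (1 - t) * (κ * r ^ 2) / 2)
      = (1 - t) * (α * (u x - u y) - t * κ * r ^ 2 / 2) := by
    field_simp
    ring
  rw [h6]
  have h7 : (1 - t) * α ^ 2 / (2 * κ * t) = (1 - t) * (α ^ 2 / (2 * κ * t)) := by ring
  rw [h7]
  exact mul_le_mul_of_nonneg_left (by linarith) h1t.le

theorem plsi_mgf_integrable_exp (hκ : 0 < κ) (hπ : PLq π fun h => κ * ‖h‖ ^ 2) (hum : Measurable u)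
    (hu : ∀ x y, u x - u y ≤ ‖x - y‖) (α : ℝ) : Integrable (fun x => Real.exp (α * u x)) π := by
  have h := plsi_mgf_PL hκ hπ hum hu (t := 1 / 2) (by norm_num) (by norm_num) α
  set A := ∫⁻ x, ENNReal.ofReal (Real.exp (α * u x)) ∂π with hA
  set B := ∫⁻ x, ENNReal.ofReal (Real.exp (-((1 - 1 / 2) * α / (1 / 2)) * u x)) ∂π with hB
  have hBpos : B ≠ 0 := by
    rw [hB]
    intro h0
    rw [lintegral_eq_zero_iff (hum.const_mul _).exp.ennreal_ofReal] at h0
    have : ∀ᵐ x ∂π, False := by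
      filter_upwards [h0] with x hx
      simp only [Pi.zero_apply, ENNReal.ofReal_eq_zero] at hx
      exact absurd hx (not_le.2 (Real.exp_pos _))
    have h1 : π Set.univ = 0 := by
      have := ae_iff.1 this
      simp at this
    simp at h1
  have hAtop : A ≠ ⊤ := by
    intro htop
    rw [htop, ENNReal.top_rpow_of_pos (by norm_num), ENNReal.top_mul] at h
    · exact absurd h (not_le.2 ENNReal.ofReal_lt_top)
    · intro h0
      rw [ENNReal.rpow_eq_zero_iff] at h0
      rcases h0 with ⟨h1, -⟩ | ⟨-, h2⟩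
      · exact hBpos h1
      · norm_num at h2
  refine ⟨(hum.const_mul α).exp.aestronglyMeasurable, ?_⟩
  rw [hasFiniteIntegral_iff_ofReal (Eventually.of_forall fun x => (Real.exp_pos _).le)]
  exact lt_top_iff_ne_top.2 hAtop

theorem plsi_mgf_integrable (hκ : 0 < κ) (hπ : PLq π fun h => κ * ‖h‖ ^ 2) (hum : Measurable u)
    (hu : ∀ x y, u x - u y ≤ ‖x - y‖) : Integrable u π := by
  have h1 := plsi_mgf_integrable_exp hκ hπ hum hu 1
  have h2 := plsi_mgf_integrable_exp hκ hπ hum hu (-1)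
  refine (h1.add h2).mono hum.aestronglyMeasurable (Eventually.of_forall fun x => ?_)
  simp only [Pi.add_apply, one_mul, neg_mul, Real.norm_eq_abs]
  rw [abs_of_pos (add_pos (Real.exp_pos _) (Real.exp_pos _))]
  rcases le_total 0 (u x) with h | h
  · rw [abs_of_nonneg h]
    have := Real.add_one_le_exp (u x)
    have := Real.exp_pos (-u x)
    linarith
  · rw [abs_of_nonpos h]
    have := Real.add_one_le_exp (-u x)
    have := Real.exp_pos (u x)
    linarith

/-- Jensen for the exponential, by `1 + x ≤ e^x`. -/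
theorem plsi_exp_integral_le {Ω : Type} [MeasurableSpace Ω] {P : Measure Ω} [IsProbabilityMeasure P] {v : Ω → ℝ}
    (hv : Integrable v P) (he : Integrable (fun x => Real.exp (v x)) P) :
    Real.exp (∫ x, v x ∂P) ≤ ∫ x, Real.exp (v x) ∂P := by
  set m := ∫ x, v x ∂P with hm
  have h1 : ∫ x, Real.exp m * (v x - m + 1) ∂P = Real.exp m := by
    have hA : Integrable (fun x => v x - m) P := hv.sub (integrable_const _)
    rw [integral_const_mul, integral_add hA (integrable_const _),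
      integral_sub hv (integrable_const _)]
    simp [hm]
  rw [← h1]
  refine integral_mono (((hv.sub (integrable_const _)).add (integrable_const _)).const_mul _) he fun x => ?_
  have h2 := Real.add_one_le_exp (v x - m)
  have h3 : Real.exp (v x) = Real.exp m * Real.exp (v x - m) := by rw [← Real.exp_add]; congr 1; ring
  simp only []
  rw [h3]
  exact mul_le_mul_of_nonneg_left h2 (Real.exp_pos _).le

theorem plsi_mgf_t (hκ : 0 < κ) (hπ : PLq π fun h => κ * ‖h‖ ^ 2) (hum : Measurable u)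
    (hu : ∀ x y, u x - u y ≤ ‖x - y‖) {t : ℝ} (ht0 : 0 < t) (ht1 : t < 1) (α : ℝ) :
    Real.log (∫ x, Real.exp (α * u x) ∂π) ≤ α * ∫ x, u x ∂π + α ^ 2 / (2 * κ * t) := by
  have h1t : 0 < 1 - t := by linarith
  have h := plsi_mgf_PL hκ hπ hum hu ht0 ht1 α
  set β := (1 - t) * α / t with hβ
  have hiA := plsi_mgf_integrable_exp hκ hπ hum hu α
  have hiB := plsi_mgf_integrable_exp hκ hπ hum hu (-β)
  have hiu := plsi_mgf_integrable hκ hπ hum hu
  rw [← ofReal_integral_eq_lintegral_ofReal hiA (Eventually.of_forall fun x => (Real.exp_pos _).le),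
    ← ofReal_integral_eq_lintegral_ofReal hiB (Eventually.of_forall fun x => (Real.exp_pos _).le)] at h
  set A := ∫ x, Real.exp (α * u x) ∂π with hA
  set B := ∫ x, Real.exp (-β * u x) ∂π with hB
  have hApos : 0 < A := integral_exp_pos hiA
  have hBpos : 0 < B := integral_exp_pos hiB
  rw [ENNReal.ofReal_rpow_of_pos hApos, ENNReal.ofReal_rpow_of_pos hBpos,
    ← ENNReal.ofReal_mul (Real.rpow_nonneg hApos.le _),
    ENNReal.ofReal_le_ofReal_iff (Real.exp_pos _).le] at h
  have h2 := Real.log_le_log (mul_pos (Real.rpow_pos_of_pos hApos _) (Real.rpow_pos_of_pos hBpos _)) h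
  rw [Real.log_mul (Real.rpow_pos_of_pos hApos _).ne' (Real.rpow_pos_of_pos hBpos _).ne', Real.log_rpow hApos,
    Real.log_rpow hBpos, Real.log_exp] at h2
  have h3 : -β * ∫ x, u x ∂π ≤ Real.log B := by
    have h4 := plsi_exp_integral_le (hiu.const_mul (-β)) hiB
    rw [integral_const_mul] at h4
    have := Real.log_le_log (Real.exp_pos _) h4
    rwa [Real.log_exp] at this
  have h5 : t * (-β * ∫ x, u x ∂π) ≤ t * Real.log B := mul_le_mul_of_nonneg_left h3 ht0.le
  have h6 : t * (-β * ∫ x, u x ∂π) = -((1 - t) * (α * ∫ x, u x ∂π)) := by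
    rw [hβ]; field_simp
  have h7 : (1 - t) * Real.log A ≤ (1 - t) * (α * ∫ x, u x ∂π + α ^ 2 / (2 * κ * t)) := by
    have : (1 - t) * α ^ 2 / (2 * κ * t) = (1 - t) * (α ^ 2 / (2 * κ * t)) := by ring
    nlinarith
  exact le_of_mul_le_mul_left h7 h1t

/-- **sharp subgaussian bound** for `1`-Lipschitz functions under a `κ`-strongly log-concave law. -/
theorem plsi_mgf (hκ : 0 < κ) (hπ : PLq π fun h => κ * ‖h‖ ^ 2) (hum : Measurable u)
    (hu : ∀ x y, u x - u y ≤ ‖x - y‖) (α : ℝ) :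
    Real.log (∫ x, Real.exp (α * u x) ∂π) ≤ α * ∫ x, u x ∂π + α ^ 2 / (2 * κ) := by
  have hlim : Tendsto (fun t : ℝ => α * ∫ x, u x ∂π + α ^ 2 / (2 * κ * t)) (𝓝[<] 1)
      (𝓝 (α * ∫ x, u x ∂π + α ^ 2 / (2 * κ * 1))) := by
    have : ContinuousAt (fun t : ℝ => α * ∫ x, u x ∂π + α ^ 2 / (2 * κ * t)) 1 := by
      refine continuousAt_const.add (continuousAt_const.div (continuousAt_const.mul continuousAt_id) ?_)
      positivity
    exact this.tendsto.mono_left nhdsWithin_le_nhds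
  rw [mul_one] at hlim
  refine ge_of_tendsto hlim ?_
  have h0 : ∀ᶠ t : ℝ in 𝓝[<] 1, 0 < t := by
    have : ∀ᶠ t : ℝ in 𝓝 1, 0 < t := eventually_gt_nhds (by norm_num)
    exact this.filter_mono nhdsWithin_le_nhds
  filter_upwards [h0, self_mem_nhdsWithin] with t ht0 ht1
  exact plsi_mgf_t hκ hπ hum hu ht0 ht1 α

/-- centred form. -/
theorem plsi_mgf_centred (hκ : 0 < κ) (hπ : PLq π fun h => κ * ‖h‖ ^ 2) (hum : Measurable u)
    (hu : ∀ x y, u x - u y ≤ ‖x - y‖) (α : ℝ) :
    Integrable (fun x => Real.exp (α * (u x - ∫ y, u y ∂π))) π ∧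
    Real.log (∫ x, Real.exp (α * (u x - ∫ y, u y ∂π)) ∂π) ≤ α ^ 2 / (2 * κ) := by
  set m := ∫ y, u y ∂π with hm
  have h1 := plsi_mgf hκ hπ hum hu α
  have hi := plsi_mgf_integrable_exp hκ hπ hum hu α
  have h2 : ∀ x, Real.exp (α * (u x - m)) = Real.exp (-(α * m)) * Real.exp (α * u x) := fun x => by
    rw [← Real.exp_add]; congr 1; ring
  simp only [h2]
  refine ⟨hi.const_mul _, ?_⟩
  rw [integral_const_mul, Real.log_mul (Real.exp_pos _).ne' (integral_exp_pos hi).ne', Real.log_exp]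
  linarith

end Mgf

section Dual

variable {α : Type} [MeasurableSpace α] {m : Measure α}

theorem lsic_young_log {a : ℝ} (ha : 0 ≤ a) (b : ℝ) : a * b ≤ a * Real.log a - a + Real.exp b := by
  rcases ha.eq_or_lt with rfl | ha
  · simpa using (Real.exp_pos b).le
  have h1 := Real.add_one_le_exp (b - Real.log a)
  rw [Real.exp_sub, Real.exp_log ha] at h1
  have h2 : a * (b - Real.log a + 1) ≤ a * (Real.exp b / a) := mul_le_mul_of_nonneg_left h1 ha.le
  rw [mul_div_cancel₀ _ ha.ne'] at h2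
  linarith

/-- **entropy duality** (Gibbs variational inequality). -/
theorem lsic_ent_dual [NeZero m] {g φ : α → ℝ} (hg0 : ∀ x, 0 ≤ g x) (hgi : Integrable g m)
    (hgl : Integrable (fun x => g x * Real.log (g x)) m) (hφ : Integrable (fun x => Real.exp (φ x)) m)
    (hgφ : Integrable (fun x => g x * φ x) m) :
    ∫ x, g x * φ x ∂m ≤ ent m g + (∫ x, g x ∂m) * Real.log (∫ x, Real.exp (φ x) ∂m) := by
  set M := ∫ x, g x ∂m with hM
  set Z := ∫ x, Real.exp (φ x) ∂m with hZ
  have hZpos : 0 < Z := integral_exp_pos hφ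
  have hM0 : 0 ≤ M := integral_nonneg hg0
  rcases hM0.eq_or_lt with hM' | hMpos
  · -- `g = 0` a.e.
    have h0 : g =ᵐ[m] 0 := (integral_eq_zero_iff_of_nonneg hg0 hgi).1 hM'.symm
    have h1 : ∫ x, g x * φ x ∂m = 0 := by
      rw [integral_eq_zero_of_ae]
      filter_upwards [h0] with x hx
      simp [hx]
    have h2 : ∫ x, g x * Real.log (g x) ∂m = 0 := by
      rw [integral_eq_zero_of_ae]
      filter_upwards [h0] with x hx
      simp [hx]
    unfold ent
    rw [h1, h2, ← hM, ← hM']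
    simp
  set c := Real.log M - Real.log Z with hc
  have hpt : ∀ x, g x * (φ x + c) ≤ g x * Real.log (g x) - g x + Real.exp (φ x) * (M / Z) := fun x => by
    have := lsic_young_log (hg0 x) (φ x + c)
    rw [Real.exp_add, hc, Real.exp_sub, Real.exp_log hMpos, Real.exp_log hZpos] at this
    exact this
  have hL : Integrable (fun x => g x * (φ x + c)) m := by
    have : (fun x => g x * (φ x + c)) = fun x => g x * φ x + c * g x := by ext x; ring
    rw [this]; exact hgφ.add (hgi.const_mul c)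
  have hR : Integrable (fun x => g x * Real.log (g x) - g x + Real.exp (φ x) * (M / Z)) m :=
    (hgl.sub hgi).add (hφ.mul_const _)
  have h1 := integral_mono hL hR hpt
  have h2 : ∫ x, g x * (φ x + c) ∂m = ∫ x, g x * φ x ∂m + c * M := by
    have : (fun x => g x * (φ x + c)) = fun x => g x * φ x + c * g x := by ext x; ring
    rw [this, integral_add hgφ (hgi.const_mul c), integral_const_mul]
  have h3 : ∫ x, (g x * Real.log (g x) - g x + Real.exp (φ x) * (M / Z)) ∂m
      = ∫ x, g x * Real.log (g x) ∂m - M + Z * (M / Z) := by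
    have hA : Integrable (fun x => g x * Real.log (g x) - g x) m := hgl.sub hgi
    rw [integral_add hA (hφ.mul_const _), integral_sub hgl hgi, integral_mul_const]
  rw [h2, h3, mul_div_cancel₀ _ hZpos.ne'] at h1
  unfold ent
  rw [← hM]
  rw [hc] at h1
  nlinarith

/-- optimisation of `A ≤ Een / α + B α`. -/
theorem lsic_opt_scalar {A Een B : ℝ} (hE : 0 ≤ Een) (hB : 0 ≤ B) (h : ∀ α : ℝ, 0 < α → α * A ≤ Een + B * α ^ 2) :
    A ^ 2 ≤ 4 * Een * B ∨ A ≤ 0 := by
  by_cases hA : A ≤ 0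
  · exact Or.inr hA
  left
  push Not at hA
  rcases hB.eq_or_lt with rfl | hBpos
  · -- `α A ≤ Een` for all `α`: impossible unless ...
    exfalso
    have := h ((Een + 1) / A) (by positivity)
    rw [div_mul_cancel₀ _ hA.ne'] at this
    linarith
  have h1 := h (A / (2 * B)) (by positivity)
  have h2 : A / (2 * B) * A = A ^ 2 / (2 * B) := by ring
  have h3 : B * (A / (2 * B)) ^ 2 = A ^ 2 / (4 * B) := by field_simp; ring
  rw [h2, h3] at h1
  have h4 : A ^ 2 / (2 * B) - A ^ 2 / (4 * B) = A ^ 2 / (4 * B) := by field_simp; ring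
  have h5 : A ^ 2 / (4 * B) ≤ Een := by linarith
  rw [div_le_iff₀ (by positivity)] at h5
  linarith

/-- `ent ≥ 0` (duality with `φ = 0`). -/
theorem lsic_ent_nonneg' [IsProbabilityMeasure m] {g : α → ℝ} (hg0 : ∀ x, 0 ≤ g x) (hgi : Integrable g m)
    (hgl : Integrable (fun x => g x * Real.log (g x)) m) : 0 ≤ ent m g := by
  have h := lsic_ent_dual (φ := fun _ => 0) hg0 hgi hgl (by simp) (by simp)
  simpa using h

end Dual

section Cov

variable {E : Type} [NormedAddCommGroup E] [NormedSpace ℝ E] [MeasurableSpace E]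
  {π : Measure E} [IsProbabilityMeasure π] {κ : ℝ} {u : E → ℝ}

theorem lsic_integrable_mul_log {α : Type} [MeasurableSpace α] {m : Measure α} [IsFiniteMeasure m] {g : α → ℝ}
    (hgm : AEStronglyMeasurable g m) (hg0 : ∀ x, 0 ≤ g x) {C : ℝ} (hgb : ∀ x, g x ≤ C) :
    Integrable (fun x => g x * Real.log (g x)) m := by
  obtain ⟨K, hK⟩ := (isCompact_Icc (a := (0:ℝ)) (b := C)).exists_bound_of_continuousOn
    Real.continuous_mul_log.continuousOn
  exact Integrable.of_bound (Real.continuous_mul_log.comp_aestronglyMeasurable hgm) K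
    (Eventually.of_forall fun x => hK _ ⟨hg0 x, hgb x⟩)

theorem plsi_cov_half (hκ : 0 < κ) (hπ : PLq π fun h => κ * ‖h‖ ^ 2) (hum : Measurable u)
    (hu : ∀ x y, u x - u y ≤ ‖x - y‖) {g : E → ℝ} (hgm : Measurable g) (hg0 : ∀ x, 0 ≤ g x) {C : ℝ}
    (hgb : ∀ x, g x ≤ C) :
    (∫ x, g x * (u x - ∫ y, u y ∂π) ∂π) ^ 2 ≤ 2 / κ * (∫ x, g x ∂π) * ent π g ∨
      ∫ x, g x * (u x - ∫ y, u y ∂π) ∂π ≤ 0 := by
  set mu := ∫ y, u y ∂π with hmu
  have hiu := plsi_mgf_integrable hκ hπ hum hu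
  have hgabs : ∀ x, |g x| ≤ C := fun x => by rw [abs_of_nonneg (hg0 x)]; exact hgb x
  have hgi : Integrable g π := plsi_integrable_of_bdd hgm hgabs
  have hgl := lsic_integrable_mul_log (m := π) hgm.aestronglyMeasurable hg0 hgb
  have hE0 : 0 ≤ ent π g := lsic_ent_nonneg' hg0 hgi hgl
  have hM0 : 0 ≤ ∫ x, g x ∂π := integral_nonneg hg0
  have hgu : Integrable (fun x => g x * (u x - mu)) π :=
    (hiu.sub (integrable_const _)).bdd_mul hgm.aestronglyMeasurable
      (Eventually.of_forall fun x => by simpa using hgabs x)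
  have key : ∀ α : ℝ, 0 < α → α * (∫ x, g x * (u x - mu) ∂π) ≤ ent π g + (∫ x, g x ∂π) / (2 * κ) * α ^ 2 := by
    intro α hα
    obtain ⟨h1, h2⟩ := plsi_mgf_centred hκ hπ hum hu α
    have h3 := lsic_ent_dual (φ := fun x => α * (u x - mu)) hg0 hgi hgl h1 (by
      have : (fun x => g x * (α * (u x - mu))) = fun x => α * (g x * (u x - mu)) := by ext x; ring
      rw [this]; exact hgu.const_mul α)
    have h4 : ∫ x, g x * (α * (u x - mu)) ∂π = α * ∫ x, g x * (u x - mu) ∂π := by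
      rw [← integral_const_mul]; congr 1; ext x; ring
    rw [h4] at h3
    have h5 := mul_le_mul_of_nonneg_left h2 hM0
    calc _ ≤ _ := h3
      _ ≤ ent π g + (∫ x, g x ∂π) * (α ^ 2 / (2 * κ)) := by linarith
      _ = _ := by ring
  rcases lsic_opt_scalar hE0 (by positivity) key with h | h
  · left
    calc _ ≤ _ := h
      _ = _ := by field_simp; ring
  · exact Or.inr h

/-- **covariance inequality**: `Cov_π(g, u)² ≤ (2/κ) (∫ g) Ent_π(g)` for `u` `1`-Lipschitz, `g ≥ 0` bounded. -/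
theorem plsi_cov_le (hκ : 0 < κ) (hπ : PLq π fun h => κ * ‖h‖ ^ 2) (hum : Measurable u)
    (hu : ∀ x y, u x - u y ≤ ‖x - y‖) {g : E → ℝ} (hgm : Measurable g) (hg0 : ∀ x, 0 ≤ g x) {C : ℝ}
    (hgb : ∀ x, g x ≤ C) :
    (∫ x, g x * (u x - ∫ y, u y ∂π) ∂π) ^ 2 ≤ 2 / κ * (∫ x, g x ∂π) * ent π g := by
  have h1 := plsi_cov_half hκ hπ hum hu hgm hg0 hgb
  have h2 := plsi_cov_half (u := fun x => -u x) hκ hπ hum.neg (fun x y => by
    have := hu y x
    rw [norm_sub_rev] at this
    linarith) hgm hg0 hgb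
  have h3 : ∫ x, g x * (-u x - ∫ y, -u y ∂π) ∂π = -∫ x, g x * (u x - ∫ y, u y ∂π) ∂π := by
    have e1 : ∫ y, -u y ∂π = -∫ y, u y ∂π := integral_neg _
    rw [e1, ← integral_neg (fun x => g x * (u x - ∫ y, u y ∂π))]
    refine integral_congr_ae (Eventually.of_forall fun x => ?_)
    simp only []
    ring
  rw [h3, neg_sq] at h2
  rcases h1 with h1 | h1
  · exact h1
  rcases h2 with h2 | h2
  · exact h2
  have h0 : ∫ x, g x * (u x - ∫ y, u y ∂π) ∂π = 0 := by linarith
  rw [h0]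
  have hgabs : ∀ x, |g x| ≤ C := fun x => by rw [abs_of_nonneg (hg0 x)]; exact hgb x
  have hgi : Integrable g π := plsi_integrable_of_bdd hgm hgabs
  have hgl := lsic_integrable_mul_log (m := π) hgm.aestronglyMeasurable hg0 hgb
  have hE0 : 0 ≤ ent π g := lsic_ent_nonneg' hg0 hgi hgl
  have hM0 : 0 ≤ ∫ x, g x ∂π := integral_nonneg hg0
  have : 0 ≤ 2 / κ * (∫ x, g x ∂π) * ent π g := by positivity
  simpa using this

theorem lsic_two_add_sq_le (x : ℝ) : 2 + x ^ 2 ≤ Real.exp x + Real.exp (-x) := by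
  have h1 : Real.exp x + Real.exp (-x) - 2 = (2 * Real.sinh (x / 2)) ^ 2 := by
    rw [Real.sinh_eq]
    have e1 : Real.exp x = Real.exp (x / 2) ^ 2 := by rw [← Real.exp_nat_mul]; congr 1; ring
    have e2 : Real.exp (-x) = Real.exp (-(x / 2)) ^ 2 := by rw [← Real.exp_nat_mul]; congr 1; ring
    have e3 : Real.exp (x / 2) * Real.exp (-(x / 2)) = 1 := by rw [← Real.exp_add]; simp
    rw [e1, e2]
    nlinarith
  have h2 : (x / 2) ^ 2 ≤ Real.sinh (x / 2) ^ 2 := by
    rcases le_total 0 (x / 2) with h | h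
    · exact pow_le_pow_left₀ h (Real.self_le_sinh_iff.2 h) 2
    · have h3 : -(x / 2) ≤ Real.sinh (-(x / 2)) := Real.self_le_sinh_iff.2 (by linarith)
      rw [Real.sinh_neg] at h3
      nlinarith
  nlinarith

/-- **variance bound** for `1`-Lipschitz functions:  `Var_π(u) ≤ 1/κ`. -/
theorem plsi_var_lipschitz (hκ : 0 < κ) (hπ : PLq π fun h => κ * ‖h‖ ^ 2) (hum : Measurable u)
    (hu : ∀ x y, u x - u y ≤ ‖x - y‖) :
    Integrable (fun x => (u x - ∫ y, u y ∂π) ^ 2) π ∧ ∫ x, (u x - ∫ y, u y ∂π) ^ 2 ∂π ≤ 1 / κ := by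
  set mu := ∫ y, u y ∂π with hmu
  have hint : Integrable (fun x => (u x - mu) ^ 2) π := by
    have h1 := (plsi_mgf_centred hκ hπ hum hu 1).1
    have h2 := (plsi_mgf_centred hκ hπ hum hu (-1)).1
    refine (h1.add h2).mono ((hum.sub_const _).pow_const 2).aestronglyMeasurable (Eventually.of_forall fun x => ?_)
    simp only [Pi.add_apply, one_mul, neg_mul, Real.norm_eq_abs]
    rw [abs_of_pos (add_pos (Real.exp_pos _) (Real.exp_pos _)), abs_of_nonneg (sq_nonneg _)]
    have := lsic_two_add_sq_le (u x - mu)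
    linarith
  refine ⟨hint, ?_⟩
  set V := ∫ x, (u x - mu) ^ 2 ∂π with hV
  have key : ∀ α : ℝ, 0 < α → α ^ 2 / (2 * κ) ≤ 1 → V ≤ (1 + α ^ 2 / (2 * κ)) / κ := by
    intro α hα hs
    obtain ⟨i1, l1⟩ := plsi_mgf_centred hκ hπ hum hu α
    obtain ⟨i2, l2⟩ := plsi_mgf_centred hκ hπ hum hu (-α)
    rw [neg_sq] at l2
    set s := α ^ 2 / (2 * κ) with hs'
    have e1 : ∫ x, Real.exp (α * (u x - mu)) ∂π ≤ Real.exp s := by
      rw [← Real.log_le_iff_le_exp (integral_exp_pos i1)]; exact l1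
    have e2 : ∫ x, Real.exp (-α * (u x - mu)) ∂π ≤ Real.exp s := by
      rw [← Real.log_le_iff_le_exp (integral_exp_pos i2)]; exact l2
    have h3 : ∫ x, (2 + α ^ 2 * (u x - mu) ^ 2) ∂π ≤
        ∫ x, (Real.exp (α * (u x - mu)) + Real.exp (-α * (u x - mu))) ∂π := by
      refine integral_mono ((integrable_const _).add (hint.const_mul _)) (i1.add i2) fun x => ?_
      have := lsic_two_add_sq_le (α * (u x - mu))
      simp only []
      rw [mul_pow] at this
      rw [neg_mul]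
      exact this
    rw [integral_add (integrable_const _) (hint.const_mul _), integral_add i1 i2, integral_const_mul,
      integral_const] at h3
    simp only [probReal_univ, smul_eq_mul, one_mul] at h3
    have hs0 : 0 ≤ s := by positivity
    have h4 : Real.exp s ≤ 1 + s + s ^ 2 := by
      have := Real.abs_exp_sub_one_sub_id_le (x := s) (by rw [abs_of_nonneg hs0]; exact hs)
      have := (abs_le.1 this).2
      linarith
    have h5 : α ^ 2 * V ≤ 2 * (s + s ^ 2) := by linarith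
    have h6 : α ^ 2 = 2 * κ * s := by rw [hs']; field_simp
    rw [h6] at h5
    have hspos : 0 < s := by positivity
    have h7 : s * (κ * V) ≤ s * (1 + s) := by nlinarith
    have h8 := le_of_mul_le_mul_left h7 hspos
    rw [le_div_iff₀ hκ]
    linarith
  refine le_of_forall_pos_le_add fun δ hδ => ?_
  -- choose `α` with `α²/(2κ) = min 1 (κ δ)`
  set s := min 1 (κ * δ) with hs
  have hspos : 0 < s := lt_min one_pos (by positivity)
  have h1 := key (Real.sqrt (2 * κ * s)) (Real.sqrt_pos.2 (by positivity)) (by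
    rw [Real.sq_sqrt (by positivity)]
    have : 2 * κ * s / (2 * κ) = s := by field_simp
    rw [this]; exact min_le_left _ _)
  rw [Real.sq_sqrt (by positivity)] at h1
  have h2 : 2 * κ * s / (2 * κ) = s := by field_simp
  rw [h2] at h1
  have h3 : s / κ ≤ δ := by
    rw [div_le_iff₀ hκ, mul_comm]; exact min_le_right _ _
  calc V ≤ (1 + s) / κ := h1
    _ = 1 / κ + s / κ := by ring
    _ ≤ 1 / κ + δ := by linarith

end Cov

end Claimed.Agent.R259
end

/- ===== packed: Claimed.Agent.R259.LsiSharp ===== -/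
section
/-
R259 / LsiSharp.lean  (owner: helper26).  Kit LSIcalc, package L-LSIC-sharp.  Monotonicity, `ent ≥ 0`, sharp constants.
-/
set_option autoImplicit false
set_option linter.unusedSectionVars false

namespace Claimed.Agent.R259

open MeasureTheory Filter Topology
open scoped ENNReal ContDiff NNReal

variable {E : Type} [NormedAddCommGroup E] [InnerProductSpace ℝ E] [FiniteDimensional ℝ E]
  [MeasurableSpace E] [BorelSpace E]

theorem lsic_nrg_nonneg (m : Measure E) (f : E → ℝ) : 0 ≤ nrg m f :=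
  integral_nonneg fun x => by positivity

theorem LSI.mono {m : Measure E} {R R' : ℝ} (h : LSI m R) (hR : R ≤ R') : LSI m R' := fun f hf =>
  (h f hf).trans (by have := lsic_nrg_nonneg m f; nlinarith)

theorem PI.mono {m : Measure E} {R R' : ℝ} (h : PI m R) (hR : R ≤ R') : PI m R' := fun f hf =>
  (h f hf).trans (by have := lsic_nrg_nonneg m f; nlinarith)

/-- Jensen. -/
theorem lsic_ent_nonneg {α : Type} [MeasurableSpace α] {m : Measure α} [IsProbabilityMeasure m] {g : α → ℝ}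
    (h0 : ∀ x, 0 ≤ g x) (hi : Integrable g m) (hi2 : Integrable (fun x => g x * Real.log (g x)) m) :
    0 ≤ ent m g := lsic_ent_nonneg' h0 hi hi2

theorem lsic_ent_sq_nonneg {m : Measure E} [IsProbabilityMeasure m] {f : E → ℝ} (hf : IsTestC f) :
    0 ≤ ent m fun x => f x ^ 2 := by
  obtain ⟨C, hC0, hC⟩ := hf.exists_bound
  have hb : ∀ x, f x ^ 2 ≤ C ^ 2 := fun x => by
    rw [← sq_abs]; exact pow_le_pow_left₀ (abs_nonneg _) (hC x) 2
  have hm := (hf.continuous.pow 2).aestronglyMeasurable (μ := m)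
  refine lsic_ent_nonneg (fun x => sq_nonneg _) ?_ (lsic_integrable_mul_log hm (fun x => sq_nonneg _) hb)
  exact Integrable.of_bound hm (C ^ 2) (Eventually.of_forall fun x => by
    rw [Real.norm_eq_abs, abs_of_nonneg (sq_nonneg _)]; exact hb x)

/-- every probability measure on a nontrivial space sees the energy of some test function. -/
theorem lsic_exists_nrg_pos [Nontrivial E] (m : Measure E) [IsProbabilityMeasure m] :
    ∃ f, IsTest f ∧ 0 < nrg m f := by
  obtain ⟨e, he⟩ := exists_ne (0 : E)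
  -- a ball of positive measure
  obtain ⟨k, hk⟩ : ∃ k : ℕ, 0 < m (Metric.ball (0 : E) (k + 1)) := by
    by_contra hcon
    push Not at hcon
    have h1 : m (⋃ k : ℕ, Metric.ball (0 : E) (k + 1)) = 0 :=
      measure_iUnion_null fun k => le_antisymm (hcon k) zero_le
    have h2 : (⋃ k : ℕ, Metric.ball (0 : E) (k + 1)) = Set.univ := by
      ext x
      simp only [Set.mem_iUnion, Metric.mem_ball, dist_zero_right, Set.mem_univ, iff_true]
      obtain ⟨k, hk⟩ := exists_nat_gt ‖x‖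
      exact ⟨k, by linarith⟩
    rw [h2] at h1
    simp at h1
  let χ : ContDiffBump (0 : E) := ⟨k + 1, k + 2, by positivity, by linarith⟩
  set f : E → ℝ := fun x => inner ℝ e x * χ x with hf
  have hfT : IsTest f := by
    refine ⟨?_, χ.hasCompactSupport.mul_left⟩
    have h1 : ContDiff ℝ ∞ fun x : E => inner ℝ e x := contDiff_const.inner ℝ contDiff_id
    exact h1.mul χ.contDiff
  refine ⟨f, hfT, ?_⟩
  obtain ⟨C, hC0, hC⟩ := hfT.isTestC.exists_bound_fderiv
  unfold nrg
  simp only [lsic_norm_gradient]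
  have hint : Integrable (fun x => ‖fderiv ℝ f x‖ ^ 2) m :=
    Integrable.of_bound (hfT.isTestC.continuous_fderiv.norm.pow 2).aestronglyMeasurable (C ^ 2)
      (Eventually.of_forall fun x => by
        rw [Real.norm_eq_abs, abs_of_nonneg (sq_nonneg _)]
        exact pow_le_pow_left₀ (norm_nonneg _) (hC x) 2)
  rw [integral_pos_iff_support_of_nonneg (fun x => sq_nonneg _) hint]
  refine lt_of_lt_of_le hk (measure_mono fun x hx => ?_)
  have h1 : f =ᶠ[𝓝 x] fun z => inner ℝ e z := by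
    have h2 : (χ : E → ℝ) =ᶠ[𝓝 x] 1 := χ.eventuallyEq_one_of_mem_ball hx
    filter_upwards [h2] with z hz
    simp only [hf, hz, Pi.one_apply, mul_one]
  have h3 : fderiv ℝ f x = innerSL ℝ e := by
    rw [h1.fderiv_eq]
    exact (innerSL ℝ e).fderiv
  simp only [Function.mem_support, h3, innerSL_apply_norm]
  have : 0 < ‖e‖ := norm_pos_iff.2 he
  positivity

theorem lsic_nonneg_of_LSI [Nontrivial E] {m : Measure E} [IsProbabilityMeasure m] {R : ℝ} (h : LSI m R) : 0 ≤ R := by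
  obtain ⟨f, hf, hpos⟩ := lsic_exists_nrg_pos m
  by_contra hcon
  push Not at hcon
  have h1 := h f hf
  have h2 := lsic_ent_sq_nonneg (m := m) hf.isTestC
  nlinarith

theorem lsic_nonneg_of_PI [Nontrivial E] {m : Measure E} [IsProbabilityMeasure m] {R : ℝ} (h : PI m R) : 0 ≤ R := by
  obtain ⟨f, hf, hpos⟩ := lsic_exists_nrg_pos m
  by_contra hcon
  push Not at hcon
  have h1 := h f hf
  obtain ⟨C, -, hC⟩ := hf.isTestC.exists_bound
  have h2 : 0 ≤ vari m f := by
    rw [lsic_vari_eq hf.isTestC.continuous.aestronglyMeasurable hC]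
    exact integral_nonneg fun x => sq_nonneg _
  nlinarith

theorem lsic_bddBelow [Nontrivial E] (m : Measure E) [IsProbabilityMeasure m] : BddBelow {R | LSI m R} :=
  ⟨0, fun _ hR => lsic_nonneg_of_LSI hR⟩

theorem lsic_Ropt_le [Nontrivial E] {m : Measure E} [IsProbabilityMeasure m] {R : ℝ} (h : LSI m R) : Ropt m ≤ R :=
  csInf_le (lsic_bddBelow m) h

theorem lsic_sharp [Nontrivial E] {m : Measure E} [IsProbabilityMeasure m] (h : ∃ R, LSI m R) :
    LSIsharp m (Ropt m) := by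
  refine ⟨fun f hf => ?_, fun R' hR' hL => ?_⟩
  · have hn := lsic_nrg_nonneg m f
    refine le_of_forall_pos_le_add fun δ hδ => ?_
    obtain ⟨R, hR, hlt⟩ := exists_lt_of_csInf_lt (s := {R | LSI m R}) h
      (b := Ropt m + δ / (2 * (nrg m f + 1))) (by
        have : 0 < δ / (2 * (nrg m f + 1)) := by positivity
        unfold Ropt; linarith)
    have h1 : ent m (fun x => f x ^ 2) ≤ 2 * R * nrg m f := hR f hf
    have h2 : 2 * R * nrg m f ≤ 2 * (Ropt m + δ / (2 * (nrg m f + 1))) * nrg m f := by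
      refine mul_le_mul_of_nonneg_right ?_ hn
      linarith
    have h3 : 2 * (Ropt m + δ / (2 * (nrg m f + 1))) * nrg m f = 2 * Ropt m * nrg m f + δ * (nrg m f / (nrg m f + 1)) := by
      field_simp
    have h4 : nrg m f / (nrg m f + 1) ≤ 1 := by
      rw [div_le_one (by positivity)]; linarith
    have h5 : δ * (nrg m f / (nrg m f + 1)) ≤ δ := by nlinarith
    linarith
  · have := lsic_Ropt_le hL
    linarith

end Claimed.Agent.R259
end

/- ===== packed: Claimed.Agent.R259.LsiKer ===== -/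
section
/-
R259 / LsiKer.lean  (owner: helper26).  Kit LSIcalc: calculus of the Gaussian kernel averages
`kN ν h φ y = ∫ φ x * gk h (y - x) ∂ν`  for a finite measure `ν` and bounded measurable `φ`  (first order only).
Prefix `lsik`.
-/
set_option autoImplicit false
set_option linter.unusedSectionVars false

namespace Claimed.Agent.R259

open MeasureTheory Filter Topology
open scoped ENNReal ContDiff NNReal

variable {E : Type} [NormedAddCommGroup E] [InnerProductSpace ℝ E] [FiniteDimensional ℝ E]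
  [MeasurableSpace E] [BorelSpace E]

/-! ### the kernel -/

/-- the normalising constant of `gk`. -/
noncomputable def gkc (E : Type) [NormedAddCommGroup E] [InnerProductSpace ℝ E] (h : ℝ) : ℝ :=
  (2 * Real.pi * h) ^ (-(Module.finrank ℝ E : ℝ) / 2)

theorem lsik_gkc_pos {h : ℝ} (hh : 0 < h) : 0 < gkc E h := Real.rpow_pos_of_pos (by positivity) _

theorem lsik_gk_eq (h : ℝ) (z : E) : gk h z = gkc E h * Real.exp (-‖z‖ ^ 2 / (2 * h)) := rfl

theorem lsik_gk_pos {h : ℝ} (hh : 0 < h) (z : E) : 0 < gk h z :=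
  mul_pos (lsik_gkc_pos hh) (Real.exp_pos _)

theorem lsik_gk_neg (h : ℝ) (z : E) : gk h (-z) = gk h z := by
  rw [lsik_gk_eq, lsik_gk_eq, norm_neg]

theorem lsik_gk_le {h : ℝ} (hh : 0 < h) (z : E) : gk h z ≤ gkc E h := by
  rw [lsik_gk_eq]
  have : Real.exp (-‖z‖ ^ 2 / (2 * h)) ≤ 1 := by
    rw [Real.exp_le_one_iff]
    have : 0 ≤ ‖z‖ ^ 2 / (2 * h) := by positivity
    rw [neg_div]; linarith
  have := mul_le_mul_of_nonneg_left this (lsik_gkc_pos (E := E) hh).le
  linarith

theorem lsik_gk_continuous (h : ℝ) : Continuous (gk h : E → ℝ) := by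
  unfold gk; fun_prop

theorem lsik_gk_mul_norm_le {h : ℝ} (hh : 0 < h) (z : E) : gk h z * ‖z‖ ≤ gkc E h * (1 + 2 * h) := by
  rw [lsik_gk_eq, mul_assoc]
  refine mul_le_mul_of_nonneg_left ?_ (lsik_gkc_pos hh).le
  set s := ‖z‖ ^ 2 / (2 * h) with hs
  have hs0 : 0 ≤ s := by positivity
  have h1 : -‖z‖ ^ 2 / (2 * h) = -s := by rw [hs]; ring
  rw [h1, Real.exp_neg]
  have h2 : 1 + s ≤ Real.exp s := by linarith [Real.add_one_le_exp s]
  have h3 : ‖z‖ ≤ (1 + 2 * h) * Real.exp s := by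
    have h4 : ‖z‖ ^ 2 = 2 * h * s := by rw [hs]; field_simp
    have h5 : ‖z‖ ≤ 1 + ‖z‖ ^ 2 := by nlinarith [sq_nonneg (‖z‖ - 1), norm_nonneg z]
    have h6 : 1 + ‖z‖ ^ 2 ≤ (1 + 2 * h) * (1 + s) := by rw [h4]; nlinarith
    have h7 : (1 + 2 * h) * (1 + s) ≤ (1 + 2 * h) * Real.exp s := mul_le_mul_of_nonneg_left h2 (by positivity)
    linarith
  rw [inv_mul_le_iff₀ (Real.exp_pos _)]
  linarith

theorem lsik_gk_hasFDerivAt (h : ℝ) (z : E) :
    HasFDerivAt (gk h : E → ℝ) ((-(gk h z / h)) • innerSL ℝ z) z := by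
  have h1 : HasFDerivAt (fun x : E => ‖x‖ ^ 2) (2 • innerSL ℝ z) z := (hasStrictFDerivAt_norm_sq z).hasFDerivAt
  have h2 : HasFDerivAt (fun x : E => -‖x‖ ^ 2 / (2 * h)) ((-(2 * h)⁻¹) • (2 • innerSL ℝ z)) z := by
    have h0 := h1.const_mul (-(2 * h)⁻¹)
    have e : (fun x : E => -‖x‖ ^ 2 / (2 * h)) = fun y => -(2 * h)⁻¹ * ‖y‖ ^ 2 := by
      ext x; rw [div_eq_mul_inv]; ring
    rw [e]; exact h0
  have h3 := (h2.exp).const_mul (gkc E h)
  have e : (gk h : E → ℝ) = fun y => gkc E h * Real.exp (-‖y‖ ^ 2 / (2 * h)) := by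
    ext y; exact lsik_gk_eq h y
  rw [e]
  refine h3.congr_fderiv ?_
  ext v
  simp only [smul_apply, innerSL_apply_apply, smul_eq_mul, nsmul_eq_mul]
  by_cases hh : h = 0
  · simp [hh]
  field_simp
  push_cast
  ring

/-! ### kernel averages -/

/-- `∫ φ x * gk h (y - x) ∂ν`. -/
noncomputable def kN (ν : Measure E) (h : ℝ) (φ : E → ℝ) (y : E) : ℝ := ∫ x, φ x * gk h (y - x) ∂ν

/-- `∫ (φ x * gk h (y - x)) • (x - y) ∂ν`. -/
noncomputable def kV (ν : Measure E) (h : ℝ) (φ : E → ℝ) (y : E) : E := ∫ x, (φ x * gk h (y - x)) • (x - y) ∂ν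

section

variable {ν : Measure E} [IsFiniteMeasure ν] {h : ℝ} {φ : E → ℝ} {C : ℝ}

theorem lsik_integrable_N (hh : 0 < h) (hφm : Measurable φ) (hφ : ∀ x, |φ x| ≤ C) (y : E) :
    Integrable (fun x => φ x * gk h (y - x)) ν := by
  have hm : Measurable fun x => φ x * gk h (y - x) :=
    hφm.mul ((lsik_gk_continuous h).measurable.comp (measurable_const.sub measurable_id))
  refine Integrable.of_bound hm.aestronglyMeasurable (C * gkc E h) (Eventually.of_forall fun x => ?_)
  rw [Real.norm_eq_abs, abs_mul, abs_of_pos (lsik_gk_pos hh _)]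
  exact mul_le_mul (hφ x) (lsik_gk_le hh _) (lsik_gk_pos hh _).le ((abs_nonneg _).trans (hφ x))

theorem lsik_norm_V_le (hh : 0 < h) (hφ : ∀ x, |φ x| ≤ C) (y x : E) :
    ‖(φ x * gk h (y - x)) • (x - y)‖ ≤ C * (gkc E h * (1 + 2 * h)) := by
  rw [norm_smul, Real.norm_eq_abs, abs_mul, abs_of_pos (lsik_gk_pos hh _), mul_assoc, norm_sub_rev x y]
  exact mul_le_mul (hφ x) (lsik_gk_mul_norm_le hh _) (by have := lsik_gk_pos (E := E) hh (y - x); positivity)
    ((abs_nonneg _).trans (hφ x))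

theorem lsik_measurable_V (hφm : Measurable φ) (y : E) :
    Measurable fun x => (φ x * gk h (y - x)) • (x - y) :=
  (hφm.mul ((lsik_gk_continuous h).measurable.comp (measurable_const.sub measurable_id))).smul
    (measurable_id.sub measurable_const)

theorem lsik_integrable_V (hh : 0 < h) (hφm : Measurable φ) (hφ : ∀ x, |φ x| ≤ C) (y : E) :
    Integrable (fun x => (φ x * gk h (y - x)) • (x - y)) ν :=
  Integrable.of_bound (lsik_measurable_V hφm y).aestronglyMeasurable _
    (Eventually.of_forall fun x => lsik_norm_V_le hh hφ y x)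

theorem lsik_continuous_N (hh : 0 < h) (hφm : Measurable φ) (hφ : ∀ x, |φ x| ≤ C) : Continuous (kN ν h φ) := by
  unfold kN
  refine continuous_of_dominated (bound := fun _ => C * gkc E h) (fun y => ?_) (fun y => ?_) (integrable_const _) ?_
  · exact (lsik_integrable_N hh hφm hφ y).aestronglyMeasurable
  · refine Eventually.of_forall fun x => ?_
    rw [Real.norm_eq_abs, abs_mul, abs_of_pos (lsik_gk_pos hh _)]
    exact mul_le_mul (hφ x) (lsik_gk_le hh _) (lsik_gk_pos hh _).le ((abs_nonneg _).trans (hφ x))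
  · refine Eventually.of_forall fun x => ?_
    have := lsik_gk_continuous (E := E) h
    fun_prop

theorem lsik_continuous_V (hh : 0 < h) (hφm : Measurable φ) (hφ : ∀ x, |φ x| ≤ C) : Continuous (kV ν h φ) := by
  unfold kV
  refine continuous_of_dominated (bound := fun _ => C * (gkc E h * (1 + 2 * h))) (fun y => ?_) (fun y => ?_)
    (integrable_const _) ?_
  · exact (lsik_integrable_V hh hφm hφ y).aestronglyMeasurable
  · exact Eventually.of_forall fun x => lsik_norm_V_le hh hφ y x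
  · refine Eventually.of_forall fun x => ?_
    have := lsik_gk_continuous (E := E) h
    fun_prop

/-- differentiation under the integral sign. -/
theorem lsik_hasFDerivAt_N (hh : 0 < h) (hφm : Measurable φ) (hφ : ∀ x, |φ x| ≤ C) (y : E) :
    HasFDerivAt (kN ν h φ) (h⁻¹ • innerSL ℝ (kV ν h φ y)) y := by
  have hF' : ∀ (y x : E), HasFDerivAt (fun y => φ x * gk h (y - x))
      (h⁻¹ • innerSL ℝ ((φ x * gk h (y - x)) • (x - y))) y := by
    intro y x
    have h1 := (lsik_gk_hasFDerivAt h (y - x)).comp y ((hasFDerivAt_id y).sub_const x)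
    have h2 := h1.const_mul (φ x)
    refine h2.congr_fderiv ?_
    ext v
    simp only [smul_apply, innerSL_apply_apply, smul_eq_mul, ContinuousLinearMap.comp_apply,
      inner_smul_left, RCLike.conj_to_real, ContinuousLinearMap.id_apply]
    have : inner ℝ (x - y) v = -inner ℝ (y - x) v := by rw [← inner_neg_left]; congr 1; abel
    rw [this]
    field_simp
  have key := hasFDerivAt_integral_of_dominated_of_fderiv_le (μ := ν) (𝕜 := ℝ)
    (F := fun y x => φ x * gk h (y - x))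
    (F' := fun y x => h⁻¹ • innerSL ℝ ((φ x * gk h (y - x)) • (x - y))) (x₀ := y)
    (bound := fun _ => h⁻¹ * (C * (gkc E h * (1 + 2 * h)))) (s := Set.univ) univ_mem
    (Eventually.of_forall fun y => (lsik_integrable_N hh hφm hφ y).aestronglyMeasurable)
    (lsik_integrable_N hh hφm hφ y) ?_ ?_ (integrable_const _)
    (Eventually.of_forall fun x y _ => hF' y x)
  · have h3 : ∫ x, h⁻¹ • innerSL ℝ ((φ x * gk h (y - x)) • (x - y)) ∂ν = h⁻¹ • innerSL ℝ (kV ν h φ y) := by
      rw [integral_smul]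
      congr 1
      exact (innerSL ℝ : E →L[ℝ] E →L[ℝ] ℝ).integral_comp_comm (lsik_integrable_V hh hφm hφ y)
    rw [h3] at key
    exact key
  · exact (((innerSL ℝ : E →L[ℝ] E →L[ℝ] ℝ).continuous.measurable.comp
      (lsik_measurable_V hφm y)).const_smul h⁻¹).aestronglyMeasurable
  · refine Eventually.of_forall fun x y _ => ?_
    rw [norm_smul, innerSL_apply_norm, Real.norm_eq_abs, abs_of_pos (inv_pos.2 hh)]
    exact mul_le_mul_of_nonneg_left (lsik_norm_V_le hh hφ y x) (inv_pos.2 hh).le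

theorem lsik_contDiff_N (hh : 0 < h) (hφm : Measurable φ) (hφ : ∀ x, |φ x| ≤ C) : ContDiff ℝ 1 (kN ν h φ) := by
  rw [contDiff_one_iff_fderiv]
  refine ⟨fun y => (lsik_hasFDerivAt_N hh hφm hφ y).differentiableAt, ?_⟩
  have : fderiv ℝ (kN ν h φ) = fun y => h⁻¹ • innerSL ℝ (kV ν h φ y) := by
    ext1 y; exact (lsik_hasFDerivAt_N hh hφm hφ y).fderiv
  rw [this]
  exact ((innerSL ℝ : E →L[ℝ] E →L[ℝ] ℝ).continuous.comp (lsik_continuous_V (ν := ν) hh hφm hφ)).const_smul h⁻¹

theorem lsik_gconv_eq (ν : Measure E) (h : ℝ) : gconv ν h = kN ν h fun _ => 1 := by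
  ext y; unfold gconv kN; simp

theorem lsik_gconv_pos [NeZero ν] (hh : 0 < h) (y : E) : 0 < gconv ν h y := by
  unfold gconv
  have hi : Integrable (fun x => gk h (y - x)) ν := by
    have := lsik_integrable_N (ν := ν) (φ := fun _ => 1) (C := 1) hh measurable_const (by simp) y
    simpa using this
  rw [integral_pos_iff_support_of_nonneg (fun x => (lsik_gk_pos hh _).le) hi]
  have : Function.support (fun x => gk h (y - x)) = Set.univ := by
    ext x; simp [(lsik_gk_pos (E := E) hh (y - x)).ne']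
  rw [this]
  exact Measure.measure_univ_pos.2 (NeZero.ne ν)

/-- Fubini: the total mass of a kernel average. -/
theorem lsik_integral_N (hh : 0 < h) (hφm : Measurable φ) (hφ : ∀ x, |φ x| ≤ C) :
    Integrable (kN ν h φ) volume ∧ ∫ y, kN ν h φ y = ∫ x, φ x ∂ν := by
  have hgi : Integrable (gk h : E → ℝ) volume := by
    by_contra hcon
    have := gc_gk_integral (E := E) hh
    rw [integral_undef hcon] at this
    norm_num at this
  have hmeas : Measurable (Function.uncurry fun (y x : E) => φ x * gk h (y - x)) :=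
    (hφm.comp measurable_snd).mul ((lsik_gk_continuous h).measurable.comp (measurable_fst.sub measurable_snd))
  have hint : Integrable (Function.uncurry fun (y x : E) => φ x * gk h (y - x)) (volume.prod ν) := by
    rw [integrable_prod_iff' hmeas.aestronglyMeasurable]
    refine ⟨Eventually.of_forall fun x => ?_, ?_⟩
    · exact (hgi.comp_sub_right x).const_mul (φ x)
    · have : (fun x => ∫ y, ‖Function.uncurry (fun (y x : E) => φ x * gk h (y - x)) (y, x)‖) = fun x => |φ x| := by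
        ext x
        simp only [Function.uncurry_apply_pair, Real.norm_eq_abs, abs_mul]
        rw [integral_const_mul]
        have : ∫ y, |gk h (y - x)| = 1 := by
          simp only [abs_of_pos (lsik_gk_pos (E := E) hh _)]
          rw [integral_sub_right_eq_self (fun z => gk h z) x]
          exact gc_gk_integral hh
        rw [this, mul_one]
      rw [this]
      exact Integrable.of_bound hφm.abs.aestronglyMeasurable C
        (Eventually.of_forall fun x => by simpa using hφ x)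
  refine ⟨hint.integral_prod_left, ?_⟩
  unfold kN
  rw [integral_integral_swap hint]
  refine integral_congr_ae (Eventually.of_forall fun x => ?_)
  simp only []
  rw [integral_const_mul, integral_sub_right_eq_self (fun z => gk h z) x, gc_gk_integral hh, mul_one]

end

theorem lsiker_eqns_cite : True := by
  have := @gkc.eq_1
  have := @kN.eq_1
  have := @kV.eq_1
  trivial

end Claimed.Agent.R259
end
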