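/- Packed by merge_tool.py (helper293): 5 modules of Claimed.Agent.R259 in one file, same declarations.
   Old modules, in this order: LsiExt, LsiRevA, LsiConv, LsiRevB, LsiRev -/
import Claimed.Agent.R259.Pack001

/- ===== packed: Claimed.Agent.R259.LsiExt ===== -/
section
/-
R259 / LsiExt.lean  (owner: helper26).  Kit LSIcalc, package L-LSIC-ext.  Extension of `LSI`/`PI` from tests to bounded `C¹`
functions with bounded derivative, for ANY finite measure: cutoff, mollification, bounded convergence.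
-/
set_option autoImplicit false
set_option linter.unusedSectionVars false

namespace Claimed.Agent.R259

open MeasureTheory Filter Topology
open scoped ENNReal ContDiff NNReal Convolution

variable {E : Type} [NormedAddCommGroup E] [InnerProductSpace ℝ E] [FiniteDimensional ℝ E]
  [MeasurableSpace E] [BorelSpace E]

/-- bounded pointwise `C¹` convergence implies convergence of entropy, variance and energy. -/
theorem lsic_limits {m : Measure E} [IsFiniteMeasure m] {ι : Type} {l : Filter ι} [l.IsCountablyGenerated]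
    {F : ι → E → ℝ} {f : E → ℝ} {C C' : ℝ} (hF : ∀ i, ContDiff ℝ 1 (F i)) (hb : ∀ i x, |F i x| ≤ C)
    (hb' : ∀ i x, ‖fderiv ℝ (F i) x‖ ≤ C') (hl : ∀ x, Tendsto (fun i => F i x) l (𝓝 (f x)))
    (hl' : ∀ x, Tendsto (fun i => fderiv ℝ (F i) x) l (𝓝 (fderiv ℝ f x))) :
    Tendsto (fun i => ent m fun x => F i x ^ 2) l (𝓝 (ent m fun x => f x ^ 2)) ∧
    Tendsto (fun i => vari m (F i)) l (𝓝 (vari m f)) ∧
    Tendsto (fun i => nrg m (F i)) l (𝓝 (nrg m f)) := by
  refine ⟨?_, ?_, ?_⟩
  · refine lsic_tendsto_ent (A := 0) (B := C ^ 2) ?_ ?_ ?_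
    · exact Eventually.of_forall fun i => ((hF i).continuous.pow 2).aestronglyMeasurable
    · refine Eventually.of_forall fun i => Eventually.of_forall fun x => ⟨sq_nonneg _, ?_⟩
      rw [← sq_abs]; exact pow_le_pow_left₀ (abs_nonneg _) (hb i x) 2
    · exact Eventually.of_forall fun x => (hl x).pow 2
  · unfold vari
    have hm : ∀ᶠ i in l, AEStronglyMeasurable (F i) m :=
      Eventually.of_forall fun i => (hF i).continuous.aestronglyMeasurable
    have hbb : ∀ᶠ i in l, ∀ᵐ x ∂m, -C ≤ F i x ∧ F i x ≤ C :=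
      Eventually.of_forall fun i => Eventually.of_forall fun x => abs_le.1 (hb i x)
    have h1 := lsic_tendsto_integral_comp (φ := fun u => u ^ 2) (by fun_prop) hm hbb (Eventually.of_forall hl)
    have h2 := lsic_tendsto_integral_comp (φ := fun u => u) continuous_id hm hbb (Eventually.of_forall hl)
    exact h1.sub (h2.pow 2)
  · unfold nrg
    simp only [lsic_norm_gradient]
    refine lsic_tendsto_integral_comp (F := fun i x => ‖fderiv ℝ (F i) x‖) (f := fun x => ‖fderiv ℝ f x‖)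
      (φ := fun u => u ^ 2) (A := 0) (B := C') (by fun_prop) ?_ ?_ ?_
    · exact Eventually.of_forall fun i => ((hF i).continuous_fderiv (by simp)).norm.aestronglyMeasurable
    · exact Eventually.of_forall fun i => Eventually.of_forall fun x => ⟨norm_nonneg _, hb' i x⟩
    · exact Eventually.of_forall fun x => (hl' x).norm

/-! ### mollification -/

/-- approximation of a compactly supported `C¹` function by tests. -/
theorem lsic_mollify {g : E → ℝ} (hg : ContDiff ℝ 1 g) (hc : HasCompactSupport g) :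
    ∃ (F : ℕ → E → ℝ) (C C' : ℝ), (∀ i, IsTest (F i)) ∧ (∀ i x, |F i x| ≤ C) ∧ (∀ i x, ‖fderiv ℝ (F i) x‖ ≤ C') ∧
      (∀ x, Tendsto (fun i => F i x) atTop (𝓝 (g x))) ∧
      ∀ x, Tendsto (fun i => fderiv ℝ (F i) x) atTop (𝓝 (fderiv ℝ g x)) := by
  let φ : ℕ → ContDiffBump (0 : E) := fun i => ⟨1 / (2 * ((i : ℝ) + 1)), 1 / ((i : ℝ) + 1), by positivity, by
    apply one_div_lt_one_div_of_lt <;> [positivity; linarith [(Nat.cast_nonneg i : (0:ℝ) ≤ i)]]⟩
  have hφ : Tendsto (fun i => (φ i).rOut) atTop (𝓝 0) := tendsto_one_div_add_atTop_nhds_zero_nat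
  obtain ⟨C, hC⟩ := hg.continuous.bounded_above_of_compact_support hc
  have hg' : Continuous (fderiv ℝ g) := hg.continuous_fderiv (by simp)
  obtain ⟨C', hC'⟩ := hg'.bounded_above_of_compact_support (hc.fderiv ℝ)
  set F : ℕ → E → ℝ := fun i => (φ i).normed volume ⋆[ContinuousLinearMap.lsmul ℝ ℝ, volume] g with hF
  have hpre : (ContinuousLinearMap.precompR E (ContinuousLinearMap.lsmul ℝ ℝ : ℝ →L[ℝ] ℝ →L[ℝ] ℝ))
      = (ContinuousLinearMap.lsmul ℝ ℝ : ℝ →L[ℝ] (E →L[ℝ] ℝ) →L[ℝ] (E →L[ℝ] ℝ)) := by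
    ext a L
    simp [ContinuousLinearMap.precompR_apply]
  have hder : ∀ i x, fderiv ℝ (F i) x
      = ((φ i).normed volume ⋆[ContinuousLinearMap.lsmul ℝ ℝ, volume] fderiv ℝ g) x := by
    intro i x
    have h1 := hc.hasFDerivAt_convolution_right (ContinuousLinearMap.lsmul ℝ ℝ : ℝ →L[ℝ] ℝ →L[ℝ] ℝ) (μ := volume)
      (f := (φ i).normed volume) ((φ i).contDiff_normed (n := 0)).continuous.locallyIntegrable hg x
    rw [hpre] at h1
    exact h1.fderiv
  refine ⟨F, 3 * C, 3 * C', fun i => ⟨?_, ?_⟩, fun i x => ?_, fun i x => ?_, fun x => ?_, fun x => ?_⟩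
  · exact (φ i).hasCompactSupport_normed.contDiff_convolution_left _ (n := ⊤) (φ i).contDiff_normed
      hg.continuous.locallyIntegrable
  · exact (φ i).hasCompactSupport_normed.convolution _ hc
  · have h1 := ContDiffBump.dist_normed_convolution_le (φ := φ i) (μ := volume) (g := g) (x₀ := x) (ε := 2 * C)
      hg.continuous.aestronglyMeasurable (fun z _ => by
        rw [dist_eq_norm]
        calc ‖g z - g x‖ ≤ ‖g z‖ + ‖g x‖ := norm_sub_le _ _
          _ ≤ 2 * C := by linarith [hC z, hC x])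
    rw [dist_eq_norm] at h1
    have h2 : ‖F i x‖ ≤ ‖F i x - g x‖ + ‖g x‖ := by
      have := norm_add_le (F i x - g x) (g x)
      simpa using this
    rw [← Real.norm_eq_abs]
    linarith [hC x]
  · rw [hder]
    have h1 := ContDiffBump.dist_normed_convolution_le (φ := φ i) (μ := volume) (g := fderiv ℝ g) (x₀ := x)
      (ε := 2 * C') hg'.aestronglyMeasurable (fun z _ => by
        rw [dist_eq_norm]
        calc ‖fderiv ℝ g z - fderiv ℝ g x‖ ≤ ‖fderiv ℝ g z‖ + ‖fderiv ℝ g x‖ := norm_sub_le _ _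
          _ ≤ 2 * C' := by linarith [hC' z, hC' x])
    rw [dist_eq_norm] at h1
    set w := ((φ i).normed volume ⋆[ContinuousLinearMap.lsmul ℝ ℝ, volume] fderiv ℝ g) x with hw
    have h2 : ‖w‖ ≤ ‖w - fderiv ℝ g x‖ + ‖fderiv ℝ g x‖ := by
      have := norm_add_le (w - fderiv ℝ g x) (fderiv ℝ g x)
      simpa using this
    linarith [hC' x]
  · exact ContDiffBump.convolution_tendsto_right_of_continuous hφ hg.continuous x
  · simp only [hder]
    exact ContDiffBump.convolution_tendsto_right_of_continuous hφ hg' x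

/-! ### cutoff -/

/-- approximation of a bounded `C¹` function with bounded derivative by compactly supported `C¹` functions. -/
theorem lsic_cutoff {f : E → ℝ} (hf : IsBddC1 f) :
    ∃ (F : ℕ → E → ℝ) (C C' : ℝ), (∀ i, ContDiff ℝ 1 (F i) ∧ HasCompactSupport (F i)) ∧ (∀ i x, |F i x| ≤ C) ∧
      (∀ i x, ‖fderiv ℝ (F i) x‖ ≤ C') ∧ (∀ x, Tendsto (fun i => F i x) atTop (𝓝 (f x))) ∧
      ∀ x, Tendsto (fun i => fderiv ℝ (F i) x) atTop (𝓝 (fderiv ℝ f x)) := by
  obtain ⟨hf1, ⟨C, hC⟩, ⟨C', hC'⟩⟩ := hf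
  let χ : ContDiffBump (0 : E) := ⟨1, 2, by norm_num, by norm_num⟩
  have hχT : IsTest (χ : E → ℝ) := ⟨χ.contDiff, χ.hasCompactSupport⟩
  obtain ⟨K, hK0, hK⟩ := hχT.isTestC.exists_bound_fderiv
  have hC0 : 0 ≤ C := (abs_nonneg _).trans (hC 0)
  have hC'0 : 0 ≤ C' := (norm_nonneg _).trans (hC' 0)
  set c : ℕ → ℝ := fun i => ((i : ℝ) + 1)⁻¹ with hc
  have hcpos : ∀ i, 0 < c i := fun i => by positivity
  have hc1 : ∀ i, c i ≤ 1 := fun i => by
    apply inv_le_one_of_one_le₀
    linarith [(Nat.cast_nonneg i : (0:ℝ) ≤ i)]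
  set X : ℕ → E → ℝ := fun i x => χ (c i • x) with hX
  have hXs : ∀ i, ContDiff ℝ ∞ (X i) := fun i => χ.contDiff.comp (contDiff_const_smul _)
  have hXd : ∀ i x, fderiv ℝ (X i) x = c i • fderiv ℝ χ (c i • x) := fun i x => fderiv_comp_smul (c i)
  have hXb : ∀ i x, |X i x| ≤ 1 := fun i x => by
    rw [abs_of_nonneg χ.nonneg]; exact χ.le_one
  have hXdb : ∀ i x, ‖fderiv ℝ (X i) x‖ ≤ K := fun i x => by
    rw [hXd, norm_smul, Real.norm_eq_abs, abs_of_pos (hcpos i)]
    calc c i * ‖fderiv ℝ χ (c i • x)‖ ≤ 1 * K := mul_le_mul (hc1 i) (hK _) (norm_nonneg _) (by norm_num)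
      _ = K := one_mul _
  have hXc : ∀ i, HasCompactSupport (X i) := fun i => by
    have := χ.hasCompactSupport.comp_homeomorph (Homeomorph.smulOfNeZero (c i) (hcpos i).ne' : E ≃ₜ E)
    exact this
  -- eventually equal to one near every point
  have hev : ∀ x : E, ∀ᶠ i in atTop, X i =ᶠ[𝓝 x] 1 := by
    intro x
    obtain ⟨N, hN⟩ := exists_nat_gt ‖x‖
    filter_upwards [eventually_ge_atTop N] with i hi
    have h1 : c i • x ∈ Metric.ball (0 : E) χ.rIn := by
      rw [mem_ball_zero_iff, norm_smul, Real.norm_eq_abs, abs_of_pos (hcpos i)]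
      show ((i : ℝ) + 1)⁻¹ * ‖x‖ < 1
      rw [inv_mul_lt_iff₀ (by positivity)]
      have : (N : ℝ) ≤ i := by exact_mod_cast hi
      linarith
    have h2 := χ.eventuallyEq_one_of_mem_ball h1
    have h3 : Tendsto (fun z : E => c i • z) (𝓝 x) (𝓝 (c i • x)) := (continuous_const_smul (c i)).tendsto x
    exact h3.eventually h2
  have hfd : Differentiable ℝ f := hf1.differentiable (by simp)
  have hXdiff : ∀ i, Differentiable ℝ (X i) := fun i => (hXs i).differentiable (by simp)
  have hFd : ∀ i x, fderiv ℝ (fun z => X i z * f z) x = X i x • fderiv ℝ f x + f x • fderiv ℝ (X i) x :=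
    fun i x => fderiv_fun_mul (hXdiff i x) (hfd x)
  refine ⟨fun i x => X i x * f x, C, C' + C * K, fun i => ⟨((hXs i).of_le (by simp)).mul hf1, (hXc i).mul_right⟩,
    fun i x => ?_, fun i x => ?_, fun x => ?_, fun x => ?_⟩
  · rw [abs_mul]
    calc |X i x| * |f x| ≤ 1 * C := mul_le_mul (hXb i x) (hC x) (abs_nonneg _) (by norm_num)
      _ = C := one_mul _
  · rw [hFd]
    refine (norm_add_le _ _).trans ?_
    rw [norm_smul, norm_smul, Real.norm_eq_abs, Real.norm_eq_abs]
    have h1 : |X i x| * ‖fderiv ℝ f x‖ ≤ 1 * C' := mul_le_mul (hXb i x) (hC' x) (norm_nonneg _) (by norm_num)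
    have h2 : |f x| * ‖fderiv ℝ (X i) x‖ ≤ C * K := mul_le_mul (hC x) (hXdb i x) (norm_nonneg _) hC0
    linarith
  · refine tendsto_const_nhds.congr' ?_
    filter_upwards [hev x] with i hi
    have := hi.self_of_nhds
    simp only [Pi.one_apply] at this
    rw [this, one_mul]
  · refine tendsto_const_nhds.congr' ?_
    filter_upwards [hev x] with i hi
    have h1 := hi.self_of_nhds
    simp only [Pi.one_apply] at h1
    have h2 : fderiv ℝ (X i) x = 0 := by
      rw [hi.fderiv_eq]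
      exact fderiv_const_apply (1 : ℝ)
    rw [hFd, h1, h2]
    simp

theorem lsic_LSI_ext_cpt {m : Measure E} [IsFiniteMeasure m] {R : ℝ} (h : LSI m R) {g : E → ℝ} (hg : ContDiff ℝ 1 g)
    (hc : HasCompactSupport g) : ent m (fun x => g x ^ 2) ≤ 2 * R * nrg m g := by
  obtain ⟨F, C, C', hT, hb, hb', hl, hl'⟩ := lsic_mollify hg hc
  obtain ⟨h1, -, h3⟩ := lsic_limits (m := m) (fun i => (hT i).1.of_le (by simp)) hb hb' hl hl'
  exact le_of_tendsto_of_tendsto' h1 (h3.const_mul (2 * R)) fun i => h (F i) (hT i)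

theorem lsic_PI_ext_cpt {m : Measure E} [IsFiniteMeasure m] {R : ℝ} (h : PI m R) {g : E → ℝ} (hg : ContDiff ℝ 1 g)
    (hc : HasCompactSupport g) : vari m g ≤ R * nrg m g := by
  obtain ⟨F, C, C', hT, hb, hb', hl, hl'⟩ := lsic_mollify hg hc
  obtain ⟨-, h2, h3⟩ := lsic_limits (m := m) (fun i => (hT i).1.of_le (by simp)) hb hb' hl hl'
  exact le_of_tendsto_of_tendsto' h2 (h3.const_mul R) fun i => h (F i) (hT i)

theorem lsic_LSI_ext {m : Measure E} [IsFiniteMeasure m] {R : ℝ} (h : LSI m R) {f : E → ℝ} (hf : IsBddC1 f) :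
    ent m (fun x => f x ^ 2) ≤ 2 * R * nrg m f := by
  obtain ⟨F, C, C', hT, hb, hb', hl, hl'⟩ := lsic_cutoff hf
  obtain ⟨h1, -, h3⟩ := lsic_limits (m := m) (fun i => (hT i).1) hb hb' hl hl'
  exact le_of_tendsto_of_tendsto' h1 (h3.const_mul (2 * R)) fun i => lsic_LSI_ext_cpt h (hT i).1 (hT i).2

theorem lsic_PI_ext {m : Measure E} [IsFiniteMeasure m] {R : ℝ} (h : PI m R) {f : E → ℝ} (hf : IsBddC1 f) :
    vari m f ≤ R * nrg m f := by
  obtain ⟨F, C, C', hT, hb, hb', hl, hl'⟩ := lsic_cutoff hf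
  obtain ⟨-, h2, h3⟩ := lsic_limits (m := m) (fun i => (hT i).1) hb hb' hl hl'
  exact le_of_tendsto_of_tendsto' h2 (h3.const_mul R) fun i => lsic_PI_ext_cpt h (hT i).1 (hT i).2

theorem IsTestC.isBddC1 {f : E → ℝ} (h : IsTestC f) : IsBddC1 f := by
  obtain ⟨C, -, hC⟩ := h.exists_bound
  obtain ⟨C', -, hC'⟩ := h.exists_bound_fderiv
  exact ⟨h.contDiff.of_le (by simp), ⟨C, hC⟩, ⟨C', hC'⟩⟩

theorem lsic_hasLSIq_of_LSI {m : Measure E} [IsFiniteMeasure m] {R : ℝ} (h : LSI m R) :
    HasLSIq m fun L => R * ‖L‖ ^ 2 := by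
  intro f hf
  have h1 := lsic_LSI_ext h hf.isBddC1
  rw [integral_const_mul]
  unfold nrg at h1
  simp only [lsic_norm_gradient] at h1
  linarith

/-- linearisation for the test class `IsTest`: `R^P ≤ R`. -/
theorem lsic_PI_of_LSI {m : Measure E} [IsProbabilityMeasure m] {R : ℝ} (h : LSI m R) : PI m R := by
  have h1 := lsic_hasPIq_of_hasLSIq (fun a L => by rw [norm_smul, mul_pow, Real.norm_eq_abs, sq_abs]; ring)
    (lsic_hasLSIq_of_LSI h)
  intro f hf
  have h2 := h1 f hf.isTestC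
  rw [integral_const_mul] at h2
  unfold nrg
  simp only [lsic_norm_gradient]
  linarith

end Claimed.Agent.R259
end

/- ===== packed: Claimed.Agent.R259.LsiRevA ===== -/
section
/-
R259 / LsiRevA.lean  (owner: helper26).  Kit LSIcalc, package L-LSIC-rev, part A: Gaussian posteriors of a log-concave law
`ν = dm ρ`: probability, integrals, tower property, curved PL property, gradient of posterior averages.  Prefix `rev`.
-/
set_option autoImplicit false
set_option linter.unusedSectionVars false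

namespace Claimed.Agent.R259

open MeasureTheory Filter Topology
open scoped ENNReal ContDiff NNReal

variable {E : Type} [NormedAddCommGroup E] [InnerProductSpace ℝ E] [FiniteDimensional ℝ E]
  [MeasurableSpace E] [BorelSpace E]

/-- integrals against `dm ρ`. -/
theorem lsic_integral_dm {G : Type} [NormedAddCommGroup G] [NormedSpace ℝ G] {ρ : E → ℝ} (hm : Measurable ρ)
    (h0 : ∀ x, 0 ≤ ρ x) (F : E → G) : ∫ x, F x ∂(dm ρ) = ∫ x, ρ x • F x := by
  unfold dm
  rw [integral_withDensity_eq_integral_toReal_smul hm.ennreal_ofReal (Eventually.of_forall fun x => ENNReal.ofReal_lt_top)]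
  refine integral_congr_ae (Eventually.of_forall fun x => ?_)
  simp only [ENNReal.toReal_ofReal (h0 x)]

theorem lsic_isProb_dm {ρ : E → ℝ} (h0 : ∀ x, 0 ≤ ρ x) (h1 : ∫ x, ρ x = 1) : IsProbabilityMeasure (dm ρ) := by
  have hi : Integrable ρ volume := by
    by_contra hcon
    rw [integral_undef hcon] at h1
    norm_num at h1
  refine ⟨?_⟩
  unfold dm
  rw [withDensity_apply _ MeasurableSet.univ, Measure.restrict_univ,
    ← ofReal_integral_eq_lintegral_ofReal hi (Eventually.of_forall h0), h1]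
  simp

/-- the curved Prekopa-Leindler property of Gaussian posteriors. -/
theorem plsi_PLq_post {ρ0 : E → ℝ} (h : LogConc ρ0) {s : ℝ} (hs : 0 < s) (y : E) {c : ℝ} (hc : 0 ≤ c) :
    PLq (dm fun x => c * (gk s (y - x) * ρ0 x)) fun v => s⁻¹ * ‖v‖ ^ 2 := by
  have hc' : 0 ≤ c * (2 * Real.pi * s) ^ (-(Module.finrank ℝ E : ℝ) / 2) :=
    mul_nonneg hc (Real.rpow_nonneg (by positivity) _)
  have hp' : (fun x => c * (gk s (y - x) * ρ0 x)) = fun x =>
      (c * (2 * Real.pi * s) ^ (-(Module.finrank ℝ E : ℝ) / 2)) * ρ0 x * Real.exp (-(s⁻¹ * ‖x - y‖ ^ 2 / 2)) :=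
    funext fun x => plsi_post_eq hs y c x
  rw [hp']
  refine plsi_PLq_of_strongLC (plsi_measurable_iso (h.const_mul hc') s⁻¹ y)
    (fun x => mul_nonneg (mul_nonneg hc' (h.2.1 x)) (Real.exp_pos _).le) ?_
  exact plsi_strongLC_of_logConc (plsi_isQuadEnergy_iso s⁻¹) (h.const_mul hc') y

/-- the posterior density of `X` given `X + √h G = y`. -/
noncomputable def postD (ρ : E → ℝ) (h : ℝ) (y x : E) : ℝ := (gconv (dm ρ) h y)⁻¹ * (gk h (y - x) * ρ x)

section

variable {ρ : E → ℝ} {h : ℝ}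

theorem rev_postD_measurable (hρ : LogConc ρ) (y : E) : Measurable (postD ρ h y) :=
  (((lsik_gk_continuous h).measurable.comp (measurable_const.sub measurable_id)).mul hρ.1).const_mul _

theorem rev_postD_nonneg (hρ : LogConc ρ) [IsProbabilityMeasure (dm ρ)] (hh : 0 < h) (y x : E) :
    0 ≤ postD ρ h y x :=
  mul_nonneg (inv_nonneg.2 (lsik_gconv_pos hh y).le) (mul_nonneg (lsik_gk_pos hh _).le (hρ.2.1 x))

/-- integrals against the posterior. -/
theorem rev_integral_post {G : Type} [NormedAddCommGroup G] [NormedSpace ℝ G] (hρ : LogConc ρ)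
    [IsProbabilityMeasure (dm ρ)] (hh : 0 < h) (y : E) (ψ : E → G) :
    ∫ x, ψ x ∂(dm (postD ρ h y)) = (gconv (dm ρ) h y)⁻¹ • ∫ x, gk h (y - x) • ψ x ∂(dm ρ) := by
  rw [lsic_integral_dm (rev_postD_measurable hρ y) (rev_postD_nonneg hρ hh y), lsic_integral_dm hρ.1 hρ.2.1,
    ← integral_smul]
  refine integral_congr_ae (Eventually.of_forall fun x => ?_)
  simp only [postD, smul_smul]
  congr 1
  ring

theorem rev_isProb_post (hρ : LogConc ρ) [IsProbabilityMeasure (dm ρ)] (hh : 0 < h) (y : E) :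
    IsProbabilityMeasure (dm (postD ρ h y)) := by
  refine lsic_isProb_dm (rev_postD_nonneg hρ hh y) ?_
  have h1 : ∫ x, postD ρ h y x = (gconv (dm ρ) h y)⁻¹ * ∫ x, ρ x • gk h (y - x) := by
    rw [← integral_const_mul]
    refine integral_congr_ae (Eventually.of_forall fun x => ?_)
    simp only [postD, smul_eq_mul]
    ring
  rw [h1, ← lsic_integral_dm hρ.1 hρ.2.1]
  exact inv_mul_cancel₀ (lsik_gconv_pos hh y).ne'

theorem rev_avg_eq (hρ : LogConc ρ) [IsProbabilityMeasure (dm ρ)] (hh : 0 < h) (y : E) (F : E → ℝ) :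
    ∫ x, F x ∂(dm (postD ρ h y)) = (gconv (dm ρ) h y)⁻¹ * kN (dm ρ) h F y := by
  rw [rev_integral_post hρ hh y F, smul_eq_mul]
  congr 1
  unfold kN
  refine integral_congr_ae (Eventually.of_forall fun x => ?_)
  simp only [smul_eq_mul]; ring

theorem rev_avgV_eq (hρ : LogConc ρ) [IsProbabilityMeasure (dm ρ)] (hh : 0 < h) (y : E) (F : E → ℝ) :
    ∫ x, F x • (x - y) ∂(dm (postD ρ h y)) = (gconv (dm ρ) h y)⁻¹ • kV (dm ρ) h F y := by
  rw [rev_integral_post hρ hh y]
  congr 1
  unfold kV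
  refine integral_congr_ae (Eventually.of_forall fun x => ?_)
  simp only [smul_smul]; congr 1; ring

theorem rev_gconv_continuous [IsProbabilityMeasure (dm ρ)] (hh : 0 < h) : Continuous (gconv (dm ρ) h) := by
  rw [lsik_gconv_eq]
  exact lsik_continuous_N (C := 1) hh measurable_const (by simp)

theorem rev_avg_continuous (hρ : LogConc ρ) [IsProbabilityMeasure (dm ρ)] (hh : 0 < h) {F : E → ℝ} {C : ℝ}
    (hFm : Measurable F) (hF : ∀ x, |F x| ≤ C) : Continuous fun y => ∫ x, F x ∂(dm (postD ρ h y)) := by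
  simp only [rev_avg_eq hρ hh]
  exact ((rev_gconv_continuous hh).inv₀ fun y => (lsik_gconv_pos hh y).ne').mul (lsik_continuous_N hh hFm hF)

theorem rev_avg_abs_le (hρ : LogConc ρ) [IsProbabilityMeasure (dm ρ)] (hh : 0 < h) {F : E → ℝ} {C : ℝ}
    (hF : ∀ x, |F x| ≤ C) (y : E) : |∫ x, F x ∂(dm (postD ρ h y))| ≤ C := by
  have := rev_isProb_post hρ hh y
  have h1 := norm_integral_le_of_norm_le_const (μ := dm (postD ρ h y)) (f := F) (C := C)
    (Eventually.of_forall fun x => by simpa using hF x)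
  simpa using h1

/-- **tower property**. -/
theorem rev_tower (hρ : LogConc ρ) [IsProbabilityMeasure (dm ρ)] (hh : 0 < h) {F : E → ℝ} {C : ℝ}
    (hFm : Measurable F) (hF : ∀ x, |F x| ≤ C) :
    ∫ y, (∫ x, F x ∂(dm (postD ρ h y))) ∂(dm (gconv (dm ρ) h)) = ∫ x, F x ∂(dm ρ) := by
  rw [lsic_integral_dm (rev_gconv_continuous hh).measurable fun y => (lsik_gconv_pos hh y).le,
    ← (lsik_integral_N (ν := dm ρ) hh hFm hF).2]
  refine integral_congr_ae (Eventually.of_forall fun y => ?_)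
  simp only [rev_avg_eq hρ hh, smul_eq_mul]
  rw [← mul_assoc, mul_inv_cancel₀ (lsik_gconv_pos hh y).ne', one_mul]

theorem rev_avg_integrable (hρ : LogConc ρ) [IsProbabilityMeasure (dm ρ)] (hh : 0 < h) {F : E → ℝ} {C : ℝ}
    (hFm : Measurable F) (hF : ∀ x, |F x| ≤ C) :
    Integrable (fun y => ∫ x, F x ∂(dm (postD ρ h y))) (dm (gconv (dm ρ) h)) := by
  have := gc_isProb (μ := dm ρ) hh
  exact Integrable.of_bound (rev_avg_continuous hρ hh hFm hF).aestronglyMeasurable C
    (Eventually.of_forall fun y => by simpa using rev_avg_abs_le hρ hh hF y)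

end

theorem lsireva_eqns_cite : True := by
  have := @postD.eq_1
  trivial

end Claimed.Agent.R259
end

/- ===== packed: Claimed.Agent.R259.LsiConv ===== -/
section
/-
R259 / LsiConv.lean  (owner: helper26).  Kit LSIcalc, package L-LSIC-conv.
(2.convolution) with a Gaussian:  `R(μ * γ_h) ≤ R(μ) + h`  for ANY probability measure `μ`, and the Poincare analogue.
-/
set_option autoImplicit false
set_option linter.unusedSectionVars false

namespace Claimed.Agent.R259

open MeasureTheory Filter Topology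
open scoped ENNReal ContDiff NNReal

variable {E : Type} [NormedAddCommGroup E] [InnerProductSpace ℝ E] [FiniteDimensional ℝ E]
  [MeasurableSpace E] [BorelSpace E]

/-- Cauchy-Schwarz for integrals. -/
theorem lsic_cauchy_schwarz {α : Type} [MeasurableSpace α] {m : Measure α} {f g : α → ℝ}
    (hf : Integrable (fun x => f x ^ 2) m) (hg : Integrable (fun x => g x ^ 2) m)
    (hfg : Integrable (fun x => f x * g x) m) :
    (∫ x, f x * g x ∂m) ^ 2 ≤ (∫ x, f x ^ 2 ∂m) * ∫ x, g x ^ 2 ∂m := by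
  set a := ∫ x, f x ^ 2 ∂m with ha
  set b := ∫ x, g x ^ 2 ∂m with hb
  set c := ∫ x, f x * g x ∂m with hc
  have ha0 : 0 ≤ a := integral_nonneg fun x => sq_nonneg _
  have hb0 : 0 ≤ b := integral_nonneg fun x => sq_nonneg _
  have hquad : ∀ t : ℝ, 0 ≤ a + 2 * t * c + t ^ 2 * b := by
    intro t
    have h1 : 0 ≤ ∫ x, (f x + t * g x) ^ 2 ∂m := integral_nonneg fun x => sq_nonneg _
    have h2 : ∀ x, (f x + t * g x) ^ 2 = f x ^ 2 + 2 * t * (f x * g x) + t ^ 2 * g x ^ 2 := fun x => by ring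
    simp only [h2] at h1
    have hA : Integrable (fun x => f x ^ 2 + 2 * t * (f x * g x)) m := hf.add (hfg.const_mul _)
    rw [integral_add hA (hg.const_mul _), integral_add hf (hfg.const_mul _), integral_const_mul,
      integral_const_mul] at h1
    exact h1
  rcases hb0.eq_or_lt with hb' | hbpos
  · have h1 := hquad (-(a + 1) / (2 * c))
    by_cases hc0 : c = 0
    · rw [hc0, ← hb']; simp
    · rw [← hb'] at h1
      have : 2 * (-(a + 1) / (2 * c)) * c = -(a + 1) := by field_simp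
      rw [this] at h1
      linarith
  · have h1 := hquad (-c / b)
    have h2 : a + 2 * (-c / b) * c + (-c / b) ^ 2 * b = a - c ^ 2 / b := by field_simp; ring
    rw [h2] at h1
    have h3 : c ^ 2 / b ≤ a := by linarith
    rwa [div_le_iff₀ hbpos] at h3

/-! ### averages over shifts -/

section Shift

variable {γ : Measure E} [IsFiniteMeasure γ] {u : E → ℝ} {C C' : ℝ}

theorem cnv_hasFDerivAt_shift (hu : ContDiff ℝ 1 u) (hC : ∀ x, |u x| ≤ C) (hC' : ∀ x, ‖fderiv ℝ u x‖ ≤ C') (x : E) :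
    HasFDerivAt (fun x => ∫ z, u (x - z) ∂γ) (∫ z, fderiv ℝ u (x - z) ∂γ) x := by
  have hc : Continuous u := hu.continuous
  have hc' : Continuous (fderiv ℝ u) := hu.continuous_fderiv (by simp)
  refine hasFDerivAt_integral_of_dominated_of_fderiv_le (μ := γ) (𝕜 := ℝ) (F := fun x z => u (x - z))
    (F' := fun x z => fderiv ℝ u (x - z)) (x₀ := x) (bound := fun _ => C') (s := Set.univ) univ_mem
    (Eventually.of_forall fun x => (hc.comp (continuous_const.sub continuous_id)).aestronglyMeasurable)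
    ?_ (hc'.comp (continuous_const.sub continuous_id)).aestronglyMeasurable
    (Eventually.of_forall fun z x _ => hC' _) (integrable_const _) (Eventually.of_forall fun z x _ => ?_)
  · exact Integrable.of_bound (hc.comp (continuous_const.sub continuous_id)).aestronglyMeasurable C
      (Eventually.of_forall fun z => by simpa using hC (x - z))
  · have h1 := ((hu.differentiable (by simp)) (x - z)).hasFDerivAt.comp x ((hasFDerivAt_id x).sub_const z)
    have h2 : HasFDerivAt (u ∘ fun x => x - z) (fderiv ℝ u (x - z)) x := by simpa using h1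
    exact h2

theorem cnv_contDiff_shift (hu : ContDiff ℝ 1 u) (hC : ∀ x, |u x| ≤ C) (hC' : ∀ x, ‖fderiv ℝ u x‖ ≤ C') :
    ContDiff ℝ 1 fun x => ∫ z, u (x - z) ∂γ := by
  rw [contDiff_one_iff_fderiv]
  refine ⟨fun x => (cnv_hasFDerivAt_shift hu hC hC' x).differentiableAt, ?_⟩
  have : fderiv ℝ (fun x => ∫ z, u (x - z) ∂γ) = fun x => ∫ z, fderiv ℝ u (x - z) ∂γ := by
    ext1 x; exact (cnv_hasFDerivAt_shift hu hC hC' x).fderiv
  rw [this]
  have hc' : Continuous (fderiv ℝ u) := hu.continuous_fderiv (by simp)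
  refine continuous_of_dominated (bound := fun _ => C') (fun x => ?_) (fun x => Eventually.of_forall fun z => hC' _)
    (integrable_const _) (Eventually.of_forall fun z => ?_)
  · exact (hc'.comp (continuous_const.sub continuous_id)).aestronglyMeasurable
  · exact hc'.comp (continuous_id.sub continuous_const)

end Shift

/-! ### the Gaussian laws `N(x, h)` -/

/-- density of `N(x, h)`. -/
noncomputable def gaussD (h : ℝ) (x y : E) : ℝ := gk h (x - y)

section Gauss

variable {h : ℝ}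

theorem cnv_gaussD_measurable (x : E) : Measurable (gaussD h x) :=
  ((lsik_gk_continuous h).comp (continuous_const.sub continuous_id)).measurable

theorem cnv_isProb_gauss (hh : 0 < h) (x : E) : IsProbabilityMeasure (dm (gaussD h x)) := by
  refine lsic_isProb_dm (fun _ => (lsik_gk_pos hh _).le) ?_
  unfold gaussD
  rw [integral_sub_left_eq_self (fun z => gk h z) volume x]
  exact gc_gk_integral hh

theorem cnv_isProb_gk (hh : 0 < h) : IsProbabilityMeasure (dm (gk h : E → ℝ)) :=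
  lsic_isProb_dm (fun _ => (lsik_gk_pos hh _).le) (gc_gk_integral hh)

theorem cnv_logConc_one : LogConc fun _ : E => (1 : ℝ) :=
  ⟨measurable_const, fun _ => zero_le_one, fun _ _ _ _ _ => by simp⟩

theorem cnv_gaussD_eq (x : E) : gaussD h x = fun y => (1 : ℝ) * (gk h (x - y) * 1) := by
  ext y; simp [gaussD]

theorem cnv_LSI_gauss (hh : 0 < h) (x : E) : LSI (dm (gaussD h x)) h := by
  have h1 : IsProbabilityMeasure (dm fun y => (1 : ℝ) * (gk h (x - y) * 1)) := by
    rw [← cnv_gaussD_eq]; exact cnv_isProb_gauss hh x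
  rw [cnv_gaussD_eq]
  exact plsi_LSI_post cnv_logConc_one hh x zero_le_one

theorem cnv_PI_gauss (hh : 0 < h) (x : E) : PI (dm (gaussD h x)) h := by
  have h1 : IsProbabilityMeasure (dm fun y => (1 : ℝ) * (gk h (x - y) * 1)) := by
    rw [← cnv_gaussD_eq]; exact cnv_isProb_gauss hh x
  rw [cnv_gaussD_eq]
  exact plsi_PI_post cnv_logConc_one hh x zero_le_one

/-- integrals against `N(x, h)` as averages over shifts. -/
theorem cnv_integral_gauss {G : Type} [NormedAddCommGroup G] [NormedSpace ℝ G] (hh : 0 < h) (x : E) (F : E → G) :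
    ∫ y, F y ∂(dm (gaussD h x)) = ∫ z, F (x - z) ∂(dm (gk h : E → ℝ)) := by
  rw [lsic_integral_dm (cnv_gaussD_measurable x) (fun y => (lsik_gk_pos hh _).le),
    lsic_integral_dm (lsik_gk_continuous h).measurable (fun y => (lsik_gk_pos hh _).le),
    ← integral_sub_left_eq_self (fun z => gk h z • F (x - z)) volume x]
  refine integral_congr_ae (Eventually.of_forall fun y => ?_)
  simp only [gaussD, sub_sub_cancel]

variable {μ : Measure E} [IsProbabilityMeasure μ]

/-- **tower property**. -/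
theorem cnv_tower (hh : 0 < h) {F : E → ℝ} {C : ℝ} (hFm : Measurable F) (hF : ∀ x, |F x| ≤ C) :
    ∫ x, (∫ y, F y ∂(dm (gaussD h x))) ∂μ = ∫ y, F y ∂(dm (gconv μ h)) := by
  have hgi : Integrable (gk h : E → ℝ) volume := by
    by_contra hcon
    have := gc_gk_integral (E := E) hh
    rw [integral_undef hcon] at this
    norm_num at this
  have hpm : Measurable (gconv μ h) := by
    rw [lsik_gconv_eq]
    exact (lsik_continuous_N (C := 1) hh measurable_const (by simp)).measurable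
  rw [lsic_integral_dm hpm fun y => (lsik_gconv_pos hh y).le]
  have hmeas : Measurable (Function.uncurry fun (x y : E) => gk h (x - y) * F y) :=
    ((lsik_gk_continuous h).measurable.comp (measurable_fst.sub measurable_snd)).mul (hFm.comp measurable_snd)
  have hint : Integrable (Function.uncurry fun (x y : E) => gk h (x - y) * F y) (μ.prod volume) := by
    rw [integrable_prod_iff hmeas.aestronglyMeasurable]
    refine ⟨Eventually.of_forall fun x => ?_, ?_⟩
    · exact (hgi.comp_sub_left x).mul_bdd (c := C) hFm.aestronglyMeasurable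
        (Eventually.of_forall fun y => by simpa using hF y)
    · refine Integrable.of_bound (C := C) ?_ (Eventually.of_forall fun x => ?_)
      · exact hmeas.norm.aestronglyMeasurable.integral_prod_right'
      · have hC0 : 0 ≤ C := (abs_nonneg _).trans (hF 0)
        rw [Real.norm_eq_abs, abs_of_nonneg (integral_nonneg fun y => norm_nonneg _)]
        calc ∫ y, ‖Function.uncurry (fun (x y : E) => gk h (x - y) * F y) (x, y)‖
            ≤ ∫ y, C * gk h (x - y) := by
              refine integral_mono_of_nonneg (Eventually.of_forall fun y => norm_nonneg _)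
                ((hgi.comp_sub_left x).const_mul C) (Eventually.of_forall fun y => ?_)
              simp only [Function.uncurry_apply_pair, Real.norm_eq_abs, abs_mul,
                abs_of_pos (lsik_gk_pos (E := E) hh _)]
              rw [mul_comm]
              exact mul_le_mul_of_nonneg_right (hF y) (lsik_gk_pos hh _).le
          _ = C := by
              rw [integral_const_mul, integral_sub_left_eq_self (fun z => gk h z) volume x, gc_gk_integral hh,
                mul_one]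
  have h1 : ∀ x, ∫ y, F y ∂(dm (gaussD h x)) = ∫ y, gk h (x - y) * F y := fun x => by
    rw [lsic_integral_dm (cnv_gaussD_measurable x) (fun y => (lsik_gk_pos hh _).le)]
    rfl
  simp only [h1]
  rw [integral_integral_swap hint]
  refine integral_congr_ae (Eventually.of_forall fun y => ?_)
  simp only [smul_eq_mul]
  rw [integral_mul_const]
  congr 1
  unfold gconv
  refine integral_congr_ae (Eventually.of_forall fun x => ?_)
  simp only []
  rw [← lsik_gk_neg]
  congr 1
  abel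

theorem cnv_avg_abs_le (hh : 0 < h) {F : E → ℝ} {C : ℝ} (hF : ∀ x, |F x| ≤ C) (x : E) :
    |∫ y, F y ∂(dm (gaussD h x))| ≤ C := by
  have := cnv_isProb_gauss (E := E) hh x
  have h1 := norm_integral_le_of_norm_le_const (μ := dm (gaussD h x)) (f := F) (C := C)
    (Eventually.of_forall fun x => by simpa using hF x)
  simpa using h1

theorem cnv_avg_continuous (hh : 0 < h) {F : E → ℝ} {C : ℝ} (hFc : Continuous F) (hF : ∀ x, |F x| ≤ C) :
    Continuous fun x => ∫ y, F y ∂(dm (gaussD h x)) := by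
  have := cnv_isProb_gk (E := E) hh
  simp only [cnv_integral_gauss hh]
  refine continuous_of_dominated (bound := fun _ => C) (fun x => ?_)
    (fun x => Eventually.of_forall fun z => by simpa using hF (x - z)) (integrable_const _)
    (Eventually.of_forall fun z => hFc.comp (continuous_id.sub continuous_const))
  exact (hFc.comp (continuous_const.sub continuous_id)).aestronglyMeasurable

theorem cnv_avg_integrable (hh : 0 < h) {F : E → ℝ} {C : ℝ} (hFc : Continuous F) (hF : ∀ x, |F x| ≤ C) :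
    Integrable (fun x => ∫ y, F y ∂(dm (gaussD h x))) μ :=
  Integrable.of_bound (cnv_avg_continuous hh hFc hF).aestronglyMeasurable C
    (Eventually.of_forall fun y => by simpa using cnv_avg_abs_le hh hF y)

end Gauss

section Main

variable {h : ℝ} {μ : Measure E} [IsProbabilityMeasure μ]

theorem cnv_nrg_tower (hh : 0 < h) {g : E → ℝ} (hg : IsTest g) :
    Integrable (fun x => nrg (dm (gaussD h x)) g) μ ∧
      ∫ x, nrg (dm (gaussD h x)) g ∂μ = nrg (dm (gconv μ h)) g := by
  obtain ⟨C, hC0, hC⟩ := hg.isTestC.exists_bound_fderiv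
  have hc : Continuous fun x => ‖gradient g x‖ ^ 2 := by
    simp only [lsic_norm_gradient]
    exact hg.isTestC.continuous_fderiv.norm.pow 2
  have hb : ∀ x, |‖gradient g x‖ ^ 2| ≤ C ^ 2 := fun x => by
    rw [abs_of_nonneg (sq_nonneg _), lsic_norm_gradient]
    exact pow_le_pow_left₀ (norm_nonneg _) (hC x) 2
  exact ⟨cnv_avg_integrable hh hc hb, cnv_tower hh hc.measurable hb⟩

theorem cnv_nrg_le (hh : 0 < h) {g : E → ℝ} {C' : ℝ} (hC' : ∀ x, ‖fderiv ℝ g x‖ ≤ C') (x : E) :
    nrg (dm (gaussD h x)) g ≤ C' ^ 2 := by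
  have := cnv_isProb_gauss (E := E) hh x
  unfold nrg
  have h3 : ∫ y, ‖gradient g y‖ ^ 2 ∂(dm (gaussD h x)) ≤ ∫ _y, C' ^ 2 ∂(dm (gaussD h x)) := by
    refine integral_mono_of_nonneg (Eventually.of_forall fun x => sq_nonneg _) (integrable_const _)
      (Eventually.of_forall fun x => ?_)
    simp only [lsic_norm_gradient]
    exact pow_le_pow_left₀ (norm_nonneg _) (hC' x) 2
  simpa using h3

/-- derivative of the heat average of `g²` and its Cauchy-Schwarz bound. -/
theorem cnv_fderiv_sq_le (hh : 0 < h) {g : E → ℝ} (hg : IsTest g) (x : E) :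
    ‖fderiv ℝ (fun x => ∫ y, g y ^ 2 ∂(dm (gaussD h x))) x‖ ^ 2
      ≤ 4 * (∫ y, g y ^ 2 ∂(dm (gaussD h x))) * nrg (dm (gaussD h x)) g := by
  have hprob := cnv_isProb_gk (E := E) hh
  obtain ⟨C, hC0, hC⟩ := hg.isTestC.exists_bound
  obtain ⟨C', hC'0, hC'⟩ := hg.isTestC.exists_bound_fderiv
  set γ := dm (gk h : E → ℝ) with hγ
  have hgd := hg.isTestC.differentiable
  have hu : ContDiff ℝ 1 fun y => g y ^ 2 := (hg.1.pow 2).of_le (by simp)
  have hfd : ∀ w, fderiv ℝ (fun y => g y ^ 2) w = (2 * g w) • fderiv ℝ g w := fun w => by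
    rw [fderiv_fun_pow 2 (hgd w)]; simp
  have hub : ∀ w, |g w ^ 2| ≤ C ^ 2 := fun w => by
    rw [abs_of_nonneg (sq_nonneg _), ← sq_abs]; exact pow_le_pow_left₀ (abs_nonneg _) (hC w) 2
  have hub' : ∀ w, ‖fderiv ℝ (fun y => g y ^ 2) w‖ ≤ 2 * C * C' := fun w => by
    rw [hfd, norm_smul, Real.norm_eq_abs, abs_mul]
    have : |(2:ℝ)| = 2 := by norm_num
    rw [this]
    exact mul_le_mul (by linarith [hC w]) (hC' w) (norm_nonneg _) (by positivity)
  have e : (fun x => ∫ y, g y ^ 2 ∂(dm (gaussD h x))) = fun x => ∫ z, g (x - z) ^ 2 ∂γ := by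
    ext x; exact cnv_integral_gauss hh x _
  rw [e, (cnv_hasFDerivAt_shift (γ := γ) hu hub hub' x).fderiv]
  unfold nrg
  rw [cnv_integral_gauss hh x, cnv_integral_gauss hh x, ← hγ]
  simp only [lsic_norm_gradient, hfd]
  have hgc := hg.isTestC.continuous
  have hgc' := hg.isTestC.continuous_fderiv
  have hsh : Continuous fun z : E => x - z := continuous_const.sub continuous_id
  have i1 : Integrable (fun z => |g (x - z)| ^ 2) γ :=
    Integrable.of_bound ((hgc.comp hsh).abs.pow 2).aestronglyMeasurable (C ^ 2) (Eventually.of_forall fun z => by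
      rw [Real.norm_eq_abs, abs_of_nonneg (sq_nonneg _)]
      exact pow_le_pow_left₀ (abs_nonneg _) (hC _) 2)
  have i2 : Integrable (fun z => ‖fderiv ℝ g (x - z)‖ ^ 2) γ :=
    Integrable.of_bound ((hgc'.comp hsh).norm.pow 2).aestronglyMeasurable (C' ^ 2) (Eventually.of_forall fun z => by
      rw [Real.norm_eq_abs, abs_of_nonneg (sq_nonneg _)]
      exact pow_le_pow_left₀ (norm_nonneg _) (hC' _) 2)
  have i3 : Integrable (fun z => |g (x - z)| * ‖fderiv ℝ g (x - z)‖) γ :=
    Integrable.of_bound ((hgc.comp hsh).abs.mul (hgc'.comp hsh).norm).aestronglyMeasurable (C * C')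
      (Eventually.of_forall fun z => by
        rw [Real.norm_eq_abs, abs_of_nonneg (by positivity)]
        exact mul_le_mul (hC _) (hC' _) (norm_nonneg _) hC0)
  have h1 : ‖∫ z, (2 * g (x - z)) • fderiv ℝ g (x - z) ∂γ‖ ≤ 2 * ∫ z, |g (x - z)| * ‖fderiv ℝ g (x - z)‖ ∂γ := by
    refine (norm_integral_le_integral_norm _).trans (le_of_eq ?_)
    rw [← integral_const_mul]
    refine integral_congr_ae (Eventually.of_forall fun z => ?_)
    simp only [norm_smul, Real.norm_eq_abs, abs_mul]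
    have : |(2:ℝ)| = 2 := by norm_num
    rw [this]; ring
  have h2 := lsic_cauchy_schwarz i1 i2 i3
  simp only [sq_abs] at h2
  have h0 : 0 ≤ ∫ z, |g (x - z)| * ‖fderiv ℝ g (x - z)‖ ∂γ := integral_nonneg fun z => by positivity
  calc ‖∫ z, (2 * g (x - z)) • fderiv ℝ g (x - z) ∂γ‖ ^ 2
      ≤ (2 * ∫ z, |g (x - z)| * ‖fderiv ℝ g (x - z)‖ ∂γ) ^ 2 := pow_le_pow_left₀ (norm_nonneg _) h1 2
    _ = 4 * (∫ z, |g (x - z)| * ‖fderiv ℝ g (x - z)‖ ∂γ) ^ 2 := by ring
    _ ≤ 4 * ((∫ z, g (x - z) ^ 2 ∂γ) * ∫ z, ‖fderiv ℝ g (x - z)‖ ^ 2 ∂γ) := by linarith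
    _ = _ := by ring

theorem cnv_contDiff_avg (hh : 0 < h) {u : E → ℝ} {C C' : ℝ} (hu : ContDiff ℝ 1 u) (hC : ∀ x, |u x| ≤ C)
    (hC' : ∀ x, ‖fderiv ℝ u x‖ ≤ C') : ContDiff ℝ 1 fun x => ∫ y, u y ∂(dm (gaussD h x)) := by
  have hprob := cnv_isProb_gk (E := E) hh
  have e : (fun x => ∫ y, u y ∂(dm (gaussD h x))) = fun x => ∫ z, u (x - z) ∂(dm (gk h : E → ℝ)) := by
    ext x; exact cnv_integral_gauss hh x _
  rw [e]
  exact cnv_contDiff_shift hu hC hC'

/-- the regularised root of the heat average of `g²`. -/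
theorem cnv_root (hh : 0 < h) {g : E → ℝ} (hg : IsTest g) {ε : ℝ} (hε : 0 < ε) :
    IsBddC1 (fun x => Real.sqrt (∫ y, g y ^ 2 ∂(dm (gaussD h x)) + ε)) ∧
      ∀ x, ‖fderiv ℝ (fun x => Real.sqrt (∫ y, g y ^ 2 ∂(dm (gaussD h x)) + ε)) x‖ ^ 2
        ≤ nrg (dm (gaussD h x)) g := by
  obtain ⟨C, hC0, hC⟩ := hg.isTestC.exists_bound
  obtain ⟨C', hC'0, hC'⟩ := hg.isTestC.exists_bound_fderiv
  have hgd := hg.isTestC.differentiable
  have hu : ContDiff ℝ 1 fun y => g y ^ 2 := (hg.1.pow 2).of_le (by simp)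
  have hfd : ∀ w, fderiv ℝ (fun y => g y ^ 2) w = (2 * g w) • fderiv ℝ g w := fun w => by
    rw [fderiv_fun_pow 2 (hgd w)]; simp
  have hub : ∀ w, |g w ^ 2| ≤ C ^ 2 := fun w => by
    rw [abs_of_nonneg (sq_nonneg _), ← sq_abs]; exact pow_le_pow_left₀ (abs_nonneg _) (hC w) 2
  have hub' : ∀ w, ‖fderiv ℝ (fun y => g y ^ 2) w‖ ≤ 2 * C * C' := fun w => by
    rw [hfd, norm_smul, Real.norm_eq_abs, abs_mul]
    have : |(2:ℝ)| = 2 := by norm_num
    rw [this]
    exact mul_le_mul (by linarith [hC w]) (hC' w) (norm_nonneg _) (by positivity)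
  set A : E → ℝ := fun x => ∫ y, g y ^ 2 ∂(dm (gaussD h x)) with hA
  have hA1 : ContDiff ℝ 1 A := cnv_contDiff_avg hh hu hub hub'
  have hA0 : ∀ x, 0 ≤ A x := fun x => integral_nonneg fun y => sq_nonneg _
  have hAb : ∀ x, A x ≤ C ^ 2 := fun x => (le_abs_self _).trans (cnv_avg_abs_le hh hub x)
  have hpos : ∀ x, 0 < A x + ε := fun x => by linarith [hA0 x]
  have hder : ∀ x, HasFDerivAt (fun x => Real.sqrt (A x + ε)) ((1 / (2 * Real.sqrt (A x + ε))) • fderiv ℝ A x) x :=
    fun x => (((hA1.differentiable (by simp)) x).hasFDerivAt.add_const ε).sqrt (hpos x).ne'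
  have hbound : ∀ x, ‖fderiv ℝ (fun x => Real.sqrt (A x + ε)) x‖ ^ 2 ≤ nrg (dm (gaussD h x)) g := by
    intro x
    rw [(hder x).fderiv, norm_smul, mul_pow, Real.norm_eq_abs, sq_abs]
    have h1 := cnv_fderiv_sq_le hh hg x
    have hD0 : 0 ≤ nrg (dm (gaussD h x)) g := lsic_nrg_nonneg _ _
    have h3 : ‖fderiv ℝ A x‖ ^ 2 ≤ 4 * (A x + ε) * nrg (dm (gaussD h x)) g := by
      refine h1.trans (mul_le_mul_of_nonneg_right ?_ hD0)
      linarith
    have h4 : (1 / (2 * Real.sqrt (A x + ε))) ^ 2 = 1 / (4 * (A x + ε)) := by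
      rw [div_pow, mul_pow, Real.sq_sqrt (hpos x).le]; norm_num
    rw [h4]
    calc 1 / (4 * (A x + ε)) * ‖fderiv ℝ A x‖ ^ 2
        ≤ 1 / (4 * (A x + ε)) * (4 * (A x + ε) * nrg (dm (gaussD h x)) g) := by
          refine mul_le_mul_of_nonneg_left h3 ?_
          have := hpos x
          positivity
      _ = nrg (dm (gaussD h x)) g := by
          have := (hpos x).ne'
          field_simp
  refine ⟨⟨?_, ⟨Real.sqrt (C ^ 2 + ε), fun x => ?_⟩, ⟨C', fun x => ?_⟩⟩, hbound⟩
  · exact (hA1.add contDiff_const).sqrt fun x => (hpos x).ne'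
  · rw [abs_of_nonneg (Real.sqrt_nonneg _)]
    exact Real.sqrt_le_sqrt (by linarith [hAb x])
  · exact abs_le_of_sq_le_sq' ((hbound x).trans (cnv_nrg_le hh hC' x)) hC'0 |>.2

/-- (2.convolution) with a Gaussian:  `R(μ * γ_h) ≤ R(μ) + h`. -/
theorem lsic_conv {μ : Measure E} [IsProbabilityMeasure μ] {R h : ℝ} (hR0 : 0 ≤ R) (hR : LSI μ R) (hh : 0 < h) :
    LSI (dm (gconv μ h)) (R + h) := by
  intro f hf
  set m := dm (gconv μ h) with hm
  obtain ⟨C, hC0, hC⟩ := hf.isTestC.exists_bound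
  have hFc : Continuous fun x => f x ^ 2 := hf.isTestC.continuous.pow 2
  have hF0 : ∀ x, 0 ≤ f x ^ 2 := fun x => sq_nonneg _
  have hFb : ∀ x, f x ^ 2 ≤ C ^ 2 := fun x => by
    rw [← sq_abs]; exact pow_le_pow_left₀ (abs_nonneg _) (hC x) 2
  have hFabs : ∀ x, |f x ^ 2| ≤ C ^ 2 := fun x => by rw [abs_of_nonneg (hF0 x)]; exact hFb x
  set A : E → ℝ := fun x => ∫ y, f y ^ 2 ∂(dm (gaussD h x)) with hA
  have hA0 : ∀ y, 0 ≤ A y := fun y => integral_nonneg hF0
  have hAb : ∀ y, A y ≤ C ^ 2 := fun y => (le_abs_self _).trans (cnv_avg_abs_le hh hFabs y)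
  have hAc : Continuous A := cnv_avg_continuous hh hFc hFabs
  obtain ⟨hDi, hDt⟩ := cnv_nrg_tower (μ := μ) hh hf
  rw [← hm] at hDt
  have hentA : ent μ A ≤ 2 * R * nrg m f := by
    have heps : ∀ ε : ℝ, 0 < ε → ent μ (fun y => A y + ε) ≤ 2 * R * nrg m f := by
      intro ε hε
      obtain ⟨h1, h2⟩ := cnv_root hh hf hε
      have h3 := lsic_LSI_ext hR h1
      have e : (fun x => Real.sqrt (∫ y, f y ^ 2 ∂(dm (gaussD h x)) + ε) ^ 2) = fun y => A y + ε := by
        ext y; exact Real.sq_sqrt (by linarith [hA0 y])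
      rw [e] at h3
      refine h3.trans ?_
      have h4 : nrg μ (fun x => Real.sqrt (∫ y, f y ^ 2 ∂(dm (gaussD h x)) + ε)) ≤ nrg m f := by
        rw [← hDt]
        unfold nrg
        refine integral_mono_of_nonneg (Eventually.of_forall fun y => sq_nonneg _) hDi
          (Eventually.of_forall fun y => ?_)
        simp only [lsic_norm_gradient]
        have := h2 y
        unfold nrg at this
        simpa only [lsic_norm_gradient] using this
      have : 0 ≤ 2 * R := by positivity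
      exact mul_le_mul_of_nonneg_left h4 this
    have hlim : Tendsto (fun ε : ℝ => ent μ (fun y => A y + ε)) (𝓝[>] 0) (𝓝 (ent μ A)) := by
      refine lsic_tendsto_ent (A := 0) (B := C ^ 2 + 1) ?_ ?_ ?_
      · exact Eventually.of_forall fun ε => (hAc.add continuous_const).aestronglyMeasurable
      · have h1 : ∀ᶠ ε : ℝ in 𝓝[>] 0, ε < 1 := by
          have : ∀ᶠ ε : ℝ in 𝓝 0, ε < 1 := eventually_lt_nhds (by norm_num)
          exact this.filter_mono nhdsWithin_le_nhds
        filter_upwards [h1, self_mem_nhdsWithin] with ε h2 h3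
        refine Eventually.of_forall fun y => ⟨?_, ?_⟩
        · have : (0:ℝ) < ε := h3
          linarith [hA0 y]
        · linarith [hAb y]
      · refine Eventually.of_forall fun y => ?_
        have : Tendsto (fun ε : ℝ => A y + ε) (𝓝 0) (𝓝 (A y + 0)) := tendsto_const_nhds.add tendsto_id
        rw [add_zero] at this
        exact this.mono_left nhdsWithin_le_nhds
    refine le_of_tendsto hlim ?_
    filter_upwards [self_mem_nhdsWithin] with ε hε
    exact heps ε hε
  obtain ⟨K, hK⟩ := (isCompact_Icc (a := (0:ℝ)) (b := C ^ 2)).exists_bound_of_continuousOn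
    Real.continuous_mul_log.continuousOn
  have hLc : Continuous fun x => f x ^ 2 * Real.log (f x ^ 2) := Real.continuous_mul_log.comp hFc
  have hLb : ∀ x, |f x ^ 2 * Real.log (f x ^ 2)| ≤ K := fun x => hK _ ⟨hF0 x, hFb x⟩
  set B : E → ℝ := fun x => ∫ y, f y ^ 2 * Real.log (f y ^ 2) ∂(dm (gaussD h x)) with hB
  have hBi : Integrable B μ := cnv_avg_integrable hh hLc hLb
  have hBt : ∫ y, B y ∂μ = ∫ x, f x ^ 2 * Real.log (f x ^ 2) ∂m := cnv_tower hh hLc.measurable hLb
  have hAt : ∫ y, A y ∂μ = ∫ x, f x ^ 2 ∂m := cnv_tower hh hFc.measurable hFabs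
  have hALi : Integrable (fun y => A y * Real.log (A y)) μ :=
    lsic_integrable_mul_log hAc.aestronglyMeasurable hA0 hAb
  have hcond : ∫ y, (B y - A y * Real.log (A y)) ∂μ ≤ 2 * h * nrg m f := by
    rw [← hDt, ← integral_const_mul]
    exact integral_mono (hBi.sub hALi) (hDi.const_mul _) fun y => cnv_LSI_gauss hh y f hf
  rw [integral_sub hBi hALi] at hcond
  have hfinal : ent m (fun x => f x ^ 2) = (∫ y, B y ∂μ - ∫ y, A y * Real.log (A y) ∂μ) + ent μ A := by
    unfold ent
    rw [hBt, hAt]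
    ring
  rw [hfinal]
  nlinarith

theorem lsic_conv_PI {μ : Measure E} [IsProbabilityMeasure μ] {R h : ℝ} (hR0 : 0 ≤ R) (hR : PI μ R) (hh : 0 < h) :
    PI (dm (gconv μ h)) (R + h) := by
  intro f hf
  have hprob := cnv_isProb_gk (E := E) hh
  set m := dm (gconv μ h) with hm
  obtain ⟨C, hC0, hC⟩ := hf.isTestC.exists_bound
  obtain ⟨C', hC'0, hC'⟩ := hf.isTestC.exists_bound_fderiv
  have hfc : Continuous f := hf.isTestC.continuous
  have hfc' := hf.isTestC.continuous_fderiv
  have hFc : Continuous fun x => f x ^ 2 := hfc.pow 2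
  have hF0 : ∀ x, 0 ≤ f x ^ 2 := fun x => sq_nonneg _
  have hFabs : ∀ x, |f x ^ 2| ≤ C ^ 2 := fun x => by
    rw [abs_of_nonneg (hF0 x), ← sq_abs]; exact pow_le_pow_left₀ (abs_nonneg _) (hC x) 2
  set A : E → ℝ := fun x => ∫ y, f y ∂(dm (gaussD h x)) with hA
  set B : E → ℝ := fun x => ∫ y, f y ^ 2 ∂(dm (gaussD h x)) with hB
  have hAb : ∀ y, |A y| ≤ C := fun y => cnv_avg_abs_le hh hC y
  have hAc : Continuous A := cnv_avg_continuous hh hfc hC
  obtain ⟨hDi, hDt⟩ := cnv_nrg_tower (μ := μ) hh hf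
  rw [← hm] at hDt
  have hf1 : ContDiff ℝ 1 f := hf.1.of_le (by simp)
  have hgrad : ∀ x, ‖fderiv ℝ A x‖ ^ 2 ≤ nrg (dm (gaussD h x)) f := by
    intro x
    set γ := dm (gk h : E → ℝ) with hγ
    have e : A = fun x => ∫ z, f (x - z) ∂γ := by
      ext x; exact cnv_integral_gauss hh x _
    rw [e, (cnv_hasFDerivAt_shift (γ := γ) hf1 hC hC' x).fderiv]
    unfold nrg
    rw [cnv_integral_gauss hh x, ← hγ]
    simp only [lsic_norm_gradient]
    have hsh : Continuous fun z : E => x - z := continuous_const.sub continuous_id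
    have i2 : Integrable (fun z => ‖fderiv ℝ f (x - z)‖ ^ 2) γ :=
      Integrable.of_bound ((hfc'.comp hsh).norm.pow 2).aestronglyMeasurable (C' ^ 2) (Eventually.of_forall fun z => by
        rw [Real.norm_eq_abs, abs_of_nonneg (sq_nonneg _)]
        exact pow_le_pow_left₀ (norm_nonneg _) (hC' _) 2)
    have i3 : Integrable (fun z => (1:ℝ) * ‖fderiv ℝ f (x - z)‖) γ :=
      Integrable.of_bound (continuous_const.mul (hfc'.comp hsh).norm).aestronglyMeasurable C'
        (Eventually.of_forall fun z => by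
          rw [Real.norm_eq_abs, abs_of_nonneg (by positivity), one_mul]
          exact hC' _)
    have h2 := lsic_cauchy_schwarz (f := fun _ => (1:ℝ)) (integrable_const _) i2 i3
    simp only [one_mul, one_pow, integral_const, probReal_univ, smul_eq_mul, mul_one] at h2
    calc ‖∫ z, fderiv ℝ f (x - z) ∂γ‖ ^ 2 ≤ (∫ z, ‖fderiv ℝ f (x - z)‖ ∂γ) ^ 2 :=
          pow_le_pow_left₀ (norm_nonneg _) (norm_integral_le_integral_norm _) 2
      _ ≤ _ := h2
  have hAC1 : IsBddC1 A :=
    ⟨cnv_contDiff_avg hh hf1 hC hC', ⟨C, hAb⟩, ⟨C', fun x =>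
      abs_le_of_sq_le_sq' ((hgrad x).trans (cnv_nrg_le hh hC' x)) hC'0 |>.2⟩⟩
  have hvarA : vari μ A ≤ R * nrg m f := by
    refine (lsic_PI_ext hR hAC1).trans (mul_le_mul_of_nonneg_left ?_ hR0)
    rw [← hDt]
    unfold nrg
    refine integral_mono_of_nonneg (Eventually.of_forall fun y => sq_nonneg _) hDi
      (Eventually.of_forall fun y => ?_)
    simp only [lsic_norm_gradient]
    have := hgrad y
    unfold nrg at this
    simpa only [lsic_norm_gradient] using this
  have hBi : Integrable B μ := cnv_avg_integrable hh hFc hFabs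
  have hBt : ∫ y, B y ∂μ = ∫ x, f x ^ 2 ∂m := cnv_tower hh hFc.measurable hFabs
  have hAt : ∫ y, A y ∂μ = ∫ x, f x ∂m := cnv_tower hh hfc.measurable hC
  have hA2i : Integrable (fun y => A y ^ 2) μ :=
    Integrable.of_bound (hAc.pow 2).aestronglyMeasurable (C ^ 2) (Eventually.of_forall fun y => by
      rw [Real.norm_eq_abs, abs_pow]; exact pow_le_pow_left₀ (abs_nonneg _) (hAb y) 2)
  have hcond : ∫ y, (B y - A y ^ 2) ∂μ ≤ h * nrg m f := by
    rw [← hDt, ← integral_const_mul]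
    exact integral_mono (hBi.sub hA2i) (hDi.const_mul _) fun y => cnv_PI_gauss hh y f hf
  rw [integral_sub hBi hA2i] at hcond
  have hfinal : vari m f = (∫ y, B y ∂μ - ∫ y, A y ^ 2 ∂μ) + vari μ A := by
    unfold vari
    rw [hBt, hAt]
    ring
  rw [hfinal]
  nlinarith

end Main

theorem lsiconv_eqns_cite : True := by
  have := @gaussD.eq_1
  trivial

end Claimed.Agent.R259
end

/- ===== packed: Claimed.Agent.R259.LsiRevB ===== -/
section
/-
R259 / LsiRevB.lean  (owner: helper26).  Kit LSIcalc, package L-LSIC-rev, part B: gradient of posterior averages and the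
covariance bounds.
-/
set_option autoImplicit false
set_option linter.unusedSectionVars false

namespace Claimed.Agent.R259

open MeasureTheory Filter Topology
open scoped ENNReal ContDiff NNReal

variable {E : Type} [NormedAddCommGroup E] [InnerProductSpace ℝ E] [FiniteDimensional ℝ E]
  [MeasurableSpace E] [BorelSpace E] {ρ : E → ℝ} {h : ℝ}

/-- the covariance vector `∫ F (x - y) dπ_y - (∫ F dπ_y) ∫ (x - y) dπ_y`. -/
noncomputable def revW (ρ : E → ℝ) (h : ℝ) (F : E → ℝ) (y : E) : E :=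
  ∫ x, F x • (x - y) ∂(dm (postD ρ h y)) -
    (∫ x, F x ∂(dm (postD ρ h y))) • ∫ x, (x - y) ∂(dm (postD ρ h y))

/-- derivative of a posterior average. -/
theorem rev_hasFDerivAt_avg (hρ : LogConc ρ) [IsProbabilityMeasure (dm ρ)] (hh : 0 < h) {F : E → ℝ} {C : ℝ}
    (hFm : Measurable F) (hF : ∀ x, |F x| ≤ C) (y : E) :
    HasFDerivAt (fun y => ∫ x, F x ∂(dm (postD ρ h y))) (h⁻¹ • innerSL ℝ (revW ρ h F y)) y := by
  have hp : 0 < gconv (dm ρ) h y := lsik_gconv_pos hh y
  have e : (fun y => ∫ x, F x ∂(dm (postD ρ h y))) = fun y => (gconv (dm ρ) h y)⁻¹ * kN (dm ρ) h F y := by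
    ext y; exact rev_avg_eq hρ hh y F
  rw [e]
  have hN := lsik_hasFDerivAt_N (ν := dm ρ) hh hFm hF y
  have hP : HasFDerivAt (gconv (dm ρ) h) (h⁻¹ • innerSL ℝ (kV (dm ρ) h (fun _ => 1) y)) y := by
    rw [lsik_gconv_eq]
    exact lsik_hasFDerivAt_N (ν := dm ρ) (C := 1) hh measurable_const (by simp) y
  have hPi := (hasDerivAt_inv hp.ne').comp_hasFDerivAt y hP
  have hmul := hPi.mul hN
  refine hmul.congr_fderiv ?_
  have e1 : ∫ x, (x - y) ∂(dm (postD ρ h y)) = (gconv (dm ρ) h y)⁻¹ • kV (dm ρ) h (fun _ => 1) y := by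
    have := rev_avgV_eq hρ hh y (fun _ => (1:ℝ))
    simpa using this
  unfold revW
  rw [rev_avgV_eq hρ hh y F, e1, rev_avg_eq hρ hh y F]
  ext v
  simp only [smul_apply, add_apply, innerSL_apply_apply, smul_eq_mul, inner_sub_left, inner_smul_left,
    RCLike.conj_to_real, Function.comp_apply]
  field_simp
  ring

theorem rev_contDiff_avg (hρ : LogConc ρ) [IsProbabilityMeasure (dm ρ)] (hh : 0 < h) {F : E → ℝ} {C : ℝ}
    (hFm : Measurable F) (hF : ∀ x, |F x| ≤ C) : ContDiff ℝ 1 fun y => ∫ x, F x ∂(dm (postD ρ h y)) := by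
  have e : (fun y => ∫ x, F x ∂(dm (postD ρ h y))) = fun y => (gconv (dm ρ) h y)⁻¹ * kN (dm ρ) h F y := by
    ext y; exact rev_avg_eq hρ hh y F
  rw [e]
  have hP : ContDiff ℝ 1 (gconv (dm ρ) h) := by
    rw [lsik_gconv_eq]
    exact lsik_contDiff_N (ν := dm ρ) (C := 1) hh measurable_const (by simp)
  exact (hP.inv fun y => (lsik_gconv_pos hh y).ne').mul (lsik_contDiff_N hh hFm hF)

theorem rev_PLq (hρ : LogConc ρ) [IsProbabilityMeasure (dm ρ)] (hh : 0 < h) (y : E) :
    PLq (dm (postD ρ h y)) fun v => h⁻¹ * ‖v‖ ^ 2 :=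
  plsi_PLq_post hρ hh y (inv_nonneg.2 (lsik_gconv_pos hh y).le)

theorem rev_integrable_sub (hρ : LogConc ρ) [IsProbabilityMeasure (dm ρ)] (hh : 0 < h) (y : E) :
    Integrable (fun x => x - y) (dm (postD ρ h y)) := by
  have := rev_isProb_post hρ hh y
  have h1 := plsi_mgf_integrable (u := fun x => ‖x - y‖) (inv_pos.2 hh) (rev_PLq hρ hh y)
    (by fun_prop) (fun x x' => by
      have := norm_sub_norm_le (x - y) (x' - y)
      simpa using this)
  exact (integrable_norm_iff (measurable_id.sub measurable_const).aestronglyMeasurable).1 h1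

theorem rev_integrable_smul_sub (hρ : LogConc ρ) [IsProbabilityMeasure (dm ρ)] (hh : 0 < h) {F : E → ℝ} {C : ℝ}
    (hFm : Measurable F) (hF : ∀ x, |F x| ≤ C) (y : E) :
    Integrable (fun x => F x • (x - y)) (dm (postD ρ h y)) := by
  refine ((rev_integrable_sub hρ hh y).norm.const_mul C).mono
    (hFm.smul (measurable_id.sub measurable_const)).aestronglyMeasurable (Eventually.of_forall fun x => ?_)
  rw [norm_smul, Real.norm_eq_abs, Real.norm_eq_abs, abs_mul, abs_norm]
  exact mul_le_mul_of_nonneg_right ((hF x).trans (le_abs_self C)) (norm_nonneg _)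

/-- pairing of the covariance vector with a direction. -/
theorem rev_inner_W (hρ : LogConc ρ) [IsProbabilityMeasure (dm ρ)] (hh : 0 < h) {F : E → ℝ} {C : ℝ}
    (hFm : Measurable F) (hF : ∀ x, |F x| ≤ C) (y θ : E) :
    inner ℝ θ (revW ρ h F y) =
      ∫ x, F x * (inner ℝ θ (x - y) - ∫ x', inner ℝ θ (x' - y) ∂(dm (postD ρ h y))) ∂(dm (postD ρ h y)) := by
  have := rev_isProb_post hρ hh y
  have i1 := rev_integrable_sub hρ hh y
  have i2 := rev_integrable_smul_sub hρ hh hFm hF y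
  have iF : Integrable F (dm (postD ρ h y)) :=
    Integrable.of_bound hFm.aestronglyMeasurable C (Eventually.of_forall fun x => by simpa using hF x)
  unfold revW
  rw [inner_sub_right, inner_smul_right, ← integral_inner i2, ← integral_inner i1]
  set mθ := ∫ x', inner ℝ θ (x' - y) ∂(dm (postD ρ h y)) with hmθ
  have e : ∀ x, F x * (inner ℝ θ (x - y) - mθ) = inner ℝ θ (F x • (x - y)) - mθ * F x := fun x => by
    rw [inner_smul_right]; ring
  simp only [e]
  rw [integral_sub (i2.inner_const θ |>.congr (Eventually.of_forall fun x => real_inner_comm _ _))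
    (iF.const_mul _), integral_const_mul]
  ring

/-- choice of the direction. -/
theorem rev_exists_dir (w : E) : ∃ θ : E, ‖θ‖ ≤ 1 ∧ inner ℝ θ w = ‖w‖ := by
  by_cases hw : w = 0
  · exact ⟨0, by simp, by simp [hw]⟩
  refine ⟨‖w‖⁻¹ • w, ?_, ?_⟩
  · rw [norm_smul, norm_inv, norm_norm, inv_mul_cancel₀ (norm_ne_zero_iff.2 hw)]
  · rw [inner_smul_left, real_inner_self_eq_norm_sq, RCLike.conj_to_real]
    field_simp

theorem rev_lip_dir {θ : E} (hθ : ‖θ‖ ≤ 1) (y x x' : E) :
    inner ℝ θ (x - y) - inner ℝ θ (x' - y) ≤ ‖x - x'‖ := by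
  rw [← inner_sub_right]
  have : x - y - (x' - y) = x - x' := by abel
  rw [this]
  calc inner ℝ θ (x - x') ≤ ‖θ‖ * ‖x - x'‖ := real_inner_le_norm _ _
    _ ≤ 1 * ‖x - x'‖ := mul_le_mul_of_nonneg_right hθ (norm_nonneg _)
    _ = _ := one_mul _

/-- **entropy form of the covariance bound**. -/
theorem rev_norm_W_sq_le (hρ : LogConc ρ) [IsProbabilityMeasure (dm ρ)] (hh : 0 < h) {F : E → ℝ} {C : ℝ}
    (hFm : Measurable F) (hF0 : ∀ x, 0 ≤ F x) (hF : ∀ x, F x ≤ C) (y : E) :
    ‖revW ρ h F y‖ ^ 2 ≤ 2 * h * (∫ x, F x ∂(dm (postD ρ h y))) * ent (dm (postD ρ h y)) F := by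
  have := rev_isProb_post hρ hh y
  obtain ⟨θ, hθ, hθw⟩ := rev_exists_dir (revW ρ h F y)
  have hFabs : ∀ x, |F x| ≤ C := fun x => by rw [abs_of_nonneg (hF0 x)]; exact hF x
  rw [← hθw, rev_inner_W hρ hh hFm hFabs y θ]
  have h1 := plsi_cov_le (u := fun x => inner ℝ θ (x - y)) (inv_pos.2 hh) (rev_PLq hρ hh y)
    (by fun_prop) (rev_lip_dir hθ y) hFm hF0 hF
  calc _ ≤ _ := h1
    _ = _ := by rw [div_inv_eq_mul]

/-- **variance form of the covariance bound**. -/
theorem rev_norm_W_sq_le_var (hρ : LogConc ρ) [IsProbabilityMeasure (dm ρ)] (hh : 0 < h) {F : E → ℝ} {C : ℝ}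
    (hFm : Measurable F) (hF : ∀ x, |F x| ≤ C) (y : E) :
    ‖revW ρ h F y‖ ^ 2 ≤ h * vari (dm (postD ρ h y)) F := by
  have := rev_isProb_post hρ hh y
  set π := dm (postD ρ h y) with hπ
  obtain ⟨θ, hθ, hθw⟩ := rev_exists_dir (revW ρ h F y)
  rw [← hθw, rev_inner_W hρ hh hFm hF y θ, ← hπ]
  obtain ⟨iv, hv⟩ := plsi_var_lipschitz (u := fun x => inner ℝ θ (x - y)) (inv_pos.2 hh) (rev_PLq hρ hh y)
    (by fun_prop) (rev_lip_dir hθ y)
  rw [← hπ] at iv hv
  set mθ := ∫ x', inner ℝ θ (x' - y) ∂π with hmθ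
  set mF := ∫ x, F x ∂π with hmF
  have iF : Integrable F π :=
    Integrable.of_bound hFm.aestronglyMeasurable C (Eventually.of_forall fun x => by simpa using hF x)
  have iu : Integrable (fun x => inner ℝ θ (x - y)) π :=
    plsi_mgf_integrable (inv_pos.2 hh) (rev_PLq hρ hh y) (by fun_prop) (rev_lip_dir hθ y)
  have iuc : Integrable (fun x => inner ℝ θ (x - y) - mθ) π := iu.sub (integrable_const _)
  have e0 : ∫ x, (inner ℝ θ (x - y) - mθ) ∂π = 0 := by
    rw [integral_sub iu (integrable_const _), integral_const]; simp [hmθ]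
  have e1 : ∫ x, F x * (inner ℝ θ (x - y) - mθ) ∂π = ∫ x, (F x - mF) * (inner ℝ θ (x - y) - mθ) ∂π := by
    have : ∀ x, (F x - mF) * (inner ℝ θ (x - y) - mθ)
        = F x * (inner ℝ θ (x - y) - mθ) - mF * (inner ℝ θ (x - y) - mθ) := fun x => by ring
    simp only [this]
    rw [integral_sub (iuc.bdd_mul hFm.aestronglyMeasurable (Eventually.of_forall fun x => by simpa using hF x))
      (iuc.const_mul _), integral_const_mul, e0]
    ring
  rw [e1, lsic_vari_eq hFm.aestronglyMeasurable hF, ← hmF]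
  -- Cauchy-Schwarz
  have iF2 : Integrable (fun x => (F x - mF) ^ 2) π := by
    refine Integrable.of_bound ((hFm.sub_const _).pow_const 2).aestronglyMeasurable ((C + |mF|) ^ 2)
      (Eventually.of_forall fun x => ?_)
    rw [Real.norm_eq_abs, abs_pow]
    refine pow_le_pow_left₀ (abs_nonneg _) ?_ 2
    calc |F x - mF| ≤ |F x| + |mF| := abs_sub _ _
      _ ≤ C + |mF| := by linarith [hF x]
  have iprod : Integrable (fun x => (F x - mF) * (inner ℝ θ (x - y) - mθ)) π :=
    iuc.bdd_mul (c := C + |mF|) (hFm.sub_const _).aestronglyMeasurable (Eventually.of_forall fun x => by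
      rw [Real.norm_eq_abs]
      calc |F x - mF| ≤ |F x| + |mF| := abs_sub _ _
        _ ≤ C + |mF| := by linarith [hF x])
  set a := ∫ x, (F x - mF) ^ 2 ∂π with ha
  set b := ∫ x, (inner ℝ θ (x - y) - mθ) ^ 2 ∂π with hb
  set c := ∫ x, (F x - mF) * (inner ℝ θ (x - y) - mθ) ∂π with hc
  have ha0 : 0 ≤ a := integral_nonneg fun x => sq_nonneg _
  have hb0 : 0 ≤ b := integral_nonneg fun x => sq_nonneg _
  have hquad : ∀ t : ℝ, 0 ≤ a + 2 * t * c + t ^ 2 * b := by
    intro t
    have h1 : 0 ≤ ∫ x, ((F x - mF) + t * (inner ℝ θ (x - y) - mθ)) ^ 2 ∂π := integral_nonneg fun x => sq_nonneg _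
    have h2 : ∀ x, ((F x - mF) + t * (inner ℝ θ (x - y) - mθ)) ^ 2 = (F x - mF) ^ 2 +
        2 * t * ((F x - mF) * (inner ℝ θ (x - y) - mθ)) + t ^ 2 * (inner ℝ θ (x - y) - mθ) ^ 2 := fun x => by ring
    simp only [h2] at h1
    have hA : Integrable (fun x => (F x - mF) ^ 2 + 2 * t * ((F x - mF) * (inner ℝ θ (x - y) - mθ))) π :=
      iF2.add (iprod.const_mul _)
    rw [integral_add hA (iv.const_mul _), integral_add iF2 (iprod.const_mul _), integral_const_mul,
      integral_const_mul] at h1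
    exact h1
  have hCS : c ^ 2 ≤ a * b := by
    rcases hb0.eq_or_lt with hb' | hbpos
    · -- `b = 0`: then `c = 0`
      have h1 := hquad (-(a + 1) / (2 * c))
      by_cases hc0 : c = 0
      · rw [hc0, ← hb']; simp
      · rw [← hb'] at h1
        have : 2 * (-(a + 1) / (2 * c)) * c = -(a + 1) := by field_simp
        rw [this] at h1
        linarith
    · have h1 := hquad (-c / b)
      have h2 : a + 2 * (-c / b) * c + (-c / b) ^ 2 * b = a - c ^ 2 / b := by field_simp; ring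
      rw [h2] at h1
      have h3 : c ^ 2 / b ≤ a := by linarith
      rwa [div_le_iff₀ hbpos] at h3
  have hbh : b ≤ h := by simpa using hv
  calc c ^ 2 ≤ a * b := hCS
    _ ≤ a * h := mul_le_mul_of_nonneg_left hbh ha0
    _ = h * a := mul_comm _ _

theorem lsirevb_eqns_cite : True := by
  have := @revW.eq_1
  trivial

end Claimed.Agent.R259
end

/- ===== packed: Claimed.Agent.R259.LsiRev ===== -/
section
/-
R259 / LsiRev.lean  (owner: helper26).  Kit LSIcalc, package L-LSIC-rev.   helper220's F1: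
`R(ν) ≤ R(ν * γ_h) + h` for log-concave `ν`, and the Poincare analogue.
-/
set_option autoImplicit false
set_option linter.unusedSectionVars false

namespace Claimed.Agent.R259

open MeasureTheory Filter Topology
open scoped ENNReal ContDiff NNReal

variable {E : Type} [NormedAddCommGroup E] [InnerProductSpace ℝ E] [FiniteDimensional ℝ E]
  [MeasurableSpace E] [BorelSpace E] {ρ : E → ℝ} {h : ℝ}

theorem rev_LSI_post (hρ : LogConc ρ) [IsProbabilityMeasure (dm ρ)] (hh : 0 < h) (y : E) :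
    LSI (dm (postD ρ h y)) h := by
  have h1 : IsProbabilityMeasure (dm fun x => (gconv (dm ρ) h y)⁻¹ * (gk h (y - x) * ρ x)) :=
    rev_isProb_post hρ hh y
  exact plsi_LSI_post hρ hh y (inv_nonneg.2 (lsik_gconv_pos hh y).le)

theorem rev_PI_post (hρ : LogConc ρ) [IsProbabilityMeasure (dm ρ)] (hh : 0 < h) (y : E) :
    PI (dm (postD ρ h y)) h := by
  have h1 : IsProbabilityMeasure (dm fun x => (gconv (dm ρ) h y)⁻¹ * (gk h (y - x) * ρ x)) :=
    rev_isProb_post hρ hh y
  exact plsi_PI_post hρ hh y (inv_nonneg.2 (lsik_gconv_pos hh y).le)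

theorem rev_nrg_tower (hρ : LogConc ρ) [IsProbabilityMeasure (dm ρ)] (hh : 0 < h) {f : E → ℝ} (hf : IsTest f) :
    Integrable (fun y => nrg (dm (postD ρ h y)) f) (dm (gconv (dm ρ) h)) ∧
      ∫ y, nrg (dm (postD ρ h y)) f ∂(dm (gconv (dm ρ) h)) = nrg (dm ρ) f := by
  obtain ⟨C, hC0, hC⟩ := hf.isTestC.exists_bound_fderiv
  have hm : Measurable fun x => ‖gradient f x‖ ^ 2 := by
    simp only [lsic_norm_gradient]
    exact (hf.isTestC.continuous_fderiv.norm.pow 2).measurable
  have hb : ∀ x, |‖gradient f x‖ ^ 2| ≤ C ^ 2 := fun x => by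
    rw [abs_of_nonneg (sq_nonneg _), lsic_norm_gradient]
    exact pow_le_pow_left₀ (norm_nonneg _) (hC x) 2
  exact ⟨rev_avg_integrable hρ hh hm hb, rev_tower hρ hh hm hb⟩

/-- the regularised root of the posterior average of `f²`. -/
theorem rev_root (hρ : LogConc ρ) [IsProbabilityMeasure (dm ρ)] (hh : 0 < h) {f : E → ℝ} (hf : IsTest f)
    {ε : ℝ} (hε : 0 < ε) :
    IsBddC1 (fun y => Real.sqrt (∫ x, f x ^ 2 ∂(dm (postD ρ h y)) + ε)) ∧
      ∀ y, ‖fderiv ℝ (fun y => Real.sqrt (∫ x, f x ^ 2 ∂(dm (postD ρ h y)) + ε)) y‖ ^ 2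
        ≤ nrg (dm (postD ρ h y)) f := by
  obtain ⟨C, hC0, hC⟩ := hf.isTestC.exists_bound
  obtain ⟨C', hC'0, hC'⟩ := hf.isTestC.exists_bound_fderiv
  have hFm : Measurable fun x => f x ^ 2 := (hf.isTestC.continuous.pow 2).measurable
  have hF0 : ∀ x, 0 ≤ f x ^ 2 := fun x => sq_nonneg _
  have hFb : ∀ x, f x ^ 2 ≤ C ^ 2 := fun x => by
    rw [← sq_abs]; exact pow_le_pow_left₀ (abs_nonneg _) (hC x) 2
  have hFabs : ∀ x, |f x ^ 2| ≤ C ^ 2 := fun x => by rw [abs_of_nonneg (hF0 x)]; exact hFb x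
  set A : E → ℝ := fun y => ∫ x, f x ^ 2 ∂(dm (postD ρ h y)) with hA
  have hA0 : ∀ y, 0 ≤ A y := fun y => integral_nonneg hF0
  have hAb : ∀ y, A y ≤ C ^ 2 := fun y => (le_abs_self _).trans (rev_avg_abs_le hρ hh hFabs y)
  have hpos : ∀ y, 0 < A y + ε := fun y => by linarith [hA0 y]
  have hder : ∀ y, HasFDerivAt (fun y => Real.sqrt (A y + ε))
      ((1 / (2 * Real.sqrt (A y + ε))) • (h⁻¹ • innerSL ℝ (revW ρ h (fun x => f x ^ 2) y))) y := fun y =>
    ((rev_hasFDerivAt_avg hρ hh hFm hFabs y).add_const ε).sqrt (hpos y).ne'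
  have hbound : ∀ y, ‖fderiv ℝ (fun y => Real.sqrt (A y + ε)) y‖ ^ 2 ≤ nrg (dm (postD ρ h y)) f := by
    intro y
    have := rev_isProb_post hρ hh y
    rw [(hder y).fderiv, norm_smul, norm_smul, innerSL_apply_norm, mul_pow, mul_pow, Real.norm_eq_abs,
      Real.norm_eq_abs, sq_abs, sq_abs]
    have h1 := rev_norm_W_sq_le hρ hh hFm hF0 hFb y
    have h2 : ent (dm (postD ρ h y)) (fun x => f x ^ 2) ≤ 2 * h * nrg (dm (postD ρ h y)) f :=
      rev_LSI_post hρ hh y f hf
    have hD0 : 0 ≤ nrg (dm (postD ρ h y)) f := lsic_nrg_nonneg _ _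
    have h3 : ‖revW ρ h (fun x => f x ^ 2) y‖ ^ 2 ≤ 4 * h ^ 2 * (A y + ε) * nrg (dm (postD ρ h y)) f := by
      calc _ ≤ 2 * h * A y * ent (dm (postD ρ h y)) (fun x => f x ^ 2) := h1
        _ ≤ 2 * h * A y * (2 * h * nrg (dm (postD ρ h y)) f) :=
            mul_le_mul_of_nonneg_left h2 (by have := hA0 y; positivity)
        _ = 4 * h ^ 2 * A y * nrg (dm (postD ρ h y)) f := by ring
        _ ≤ 4 * h ^ 2 * (A y + ε) * nrg (dm (postD ρ h y)) f := by
            refine mul_le_mul_of_nonneg_right ?_ hD0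
            refine mul_le_mul_of_nonneg_left (by linarith) (by positivity)
    have h4 : (1 / (2 * Real.sqrt (A y + ε))) ^ 2 = 1 / (4 * (A y + ε)) := by
      rw [div_pow, mul_pow, Real.sq_sqrt (hpos y).le]; norm_num
    rw [h4]
    calc 1 / (4 * (A y + ε)) * (h⁻¹ ^ 2 * ‖revW ρ h (fun x => f x ^ 2) y‖ ^ 2)
        ≤ 1 / (4 * (A y + ε)) * (h⁻¹ ^ 2 * (4 * h ^ 2 * (A y + ε) * nrg (dm (postD ρ h y)) f)) := by
          refine mul_le_mul_of_nonneg_left (mul_le_mul_of_nonneg_left h3 (by positivity)) ?_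
          have := hpos y
          positivity
      _ = nrg (dm (postD ρ h y)) f := by
          have := (hpos y).ne'
          field_simp
  refine ⟨⟨?_, ⟨Real.sqrt (C ^ 2 + ε), fun y => ?_⟩, ⟨C', fun y => ?_⟩⟩, hbound⟩
  · exact ((rev_contDiff_avg hρ hh hFm hFabs).add contDiff_const).sqrt fun y => (hpos y).ne'
  · rw [abs_of_nonneg (Real.sqrt_nonneg _)]
    exact Real.sqrt_le_sqrt (by linarith [hAb y])
  · have := rev_isProb_post hρ hh y
    have h1 := hbound y
    have h2 : nrg (dm (postD ρ h y)) f ≤ C' ^ 2 := by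
      unfold nrg
      have h3 : ∫ x, ‖gradient f x‖ ^ 2 ∂(dm (postD ρ h y)) ≤ ∫ _x, C' ^ 2 ∂(dm (postD ρ h y)) := by
        refine integral_mono_of_nonneg (Eventually.of_forall fun x => sq_nonneg _) (integrable_const _)
          (Eventually.of_forall fun x => ?_)
        simp only [lsic_norm_gradient]
        exact pow_le_pow_left₀ (norm_nonneg _) (hC' x) 2
      simpa using h3
    exact abs_le_of_sq_le_sq' (h1.trans h2) hC'0 |>.2

/-- helper220's F1:  `R(ν) ≤ R(ν * γ_h) + h`  for log-concave `ν`. -/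
theorem lsic_rev_conv {ρ : E → ℝ} (hρ : LogConc ρ) [IsProbabilityMeasure (dm ρ)] {R h : ℝ} (hh : 0 < h)
    (hR0 : 0 ≤ R) (hR : LSI (dm (gconv (dm ρ) h)) R) : LSI (dm ρ) (R + h) := by
  intro f hf
  have hprob := gc_isProb (μ := dm ρ) hh
  set m := dm (gconv (dm ρ) h) with hm
  obtain ⟨C, hC0, hC⟩ := hf.isTestC.exists_bound
  have hFm : Measurable fun x => f x ^ 2 := (hf.isTestC.continuous.pow 2).measurable
  have hF0 : ∀ x, 0 ≤ f x ^ 2 := fun x => sq_nonneg _
  have hFb : ∀ x, f x ^ 2 ≤ C ^ 2 := fun x => by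
    rw [← sq_abs]; exact pow_le_pow_left₀ (abs_nonneg _) (hC x) 2
  have hFabs : ∀ x, |f x ^ 2| ≤ C ^ 2 := fun x => by rw [abs_of_nonneg (hF0 x)]; exact hFb x
  set A : E → ℝ := fun y => ∫ x, f x ^ 2 ∂(dm (postD ρ h y)) with hA
  have hA0 : ∀ y, 0 ≤ A y := fun y => integral_nonneg hF0
  have hAb : ∀ y, A y ≤ C ^ 2 := fun y => (le_abs_self _).trans (rev_avg_abs_le hρ hh hFabs y)
  have hAc : Continuous A := rev_avg_continuous hρ hh hFm hFabs
  obtain ⟨hDi, hDt⟩ := rev_nrg_tower hρ hh hf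
  rw [← hm] at hDi hDt
  -- the entropy of the averaged function
  have hentA : ent m A ≤ 2 * R * nrg (dm ρ) f := by
    have heps : ∀ ε : ℝ, 0 < ε → ent m (fun y => A y + ε) ≤ 2 * R * nrg (dm ρ) f := by
      intro ε hε
      obtain ⟨h1, h2⟩ := rev_root hρ hh hf hε
      have h3 := lsic_LSI_ext hR h1
      have e : (fun y => Real.sqrt (∫ x, f x ^ 2 ∂(dm (postD ρ h y)) + ε) ^ 2) = fun y => A y + ε := by
        ext y; exact Real.sq_sqrt (by linarith [hA0 y])
      rw [e] at h3
      refine h3.trans ?_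
      have h4 : nrg m (fun y => Real.sqrt (∫ x, f x ^ 2 ∂(dm (postD ρ h y)) + ε)) ≤ nrg (dm ρ) f := by
        rw [← hDt]
        unfold nrg
        refine integral_mono_of_nonneg (Eventually.of_forall fun y => sq_nonneg _) hDi
          (Eventually.of_forall fun y => ?_)
        simp only [lsic_norm_gradient]
        have := h2 y
        unfold nrg at this
        simpa only [lsic_norm_gradient] using this
      have : 0 ≤ 2 * R := by positivity
      exact mul_le_mul_of_nonneg_left h4 this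
    have hlim : Tendsto (fun ε : ℝ => ent m (fun y => A y + ε)) (𝓝[>] 0) (𝓝 (ent m A)) := by
      refine lsic_tendsto_ent (A := 0) (B := C ^ 2 + 1) ?_ ?_ ?_
      · exact Eventually.of_forall fun ε => (hAc.add continuous_const).aestronglyMeasurable
      · have h1 : ∀ᶠ ε : ℝ in 𝓝[>] 0, ε < 1 := by
          have : ∀ᶠ ε : ℝ in 𝓝 0, ε < 1 := eventually_lt_nhds (by norm_num)
          exact this.filter_mono nhdsWithin_le_nhds
        filter_upwards [h1, self_mem_nhdsWithin] with ε h2 h3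
        refine Eventually.of_forall fun y => ⟨?_, ?_⟩
        · have : (0:ℝ) < ε := h3
          linarith [hA0 y]
        · linarith [hAb y]
      · refine Eventually.of_forall fun y => ?_
        have : Tendsto (fun ε : ℝ => A y + ε) (𝓝 0) (𝓝 (A y + 0)) := tendsto_const_nhds.add tendsto_id
        rw [add_zero] at this
        exact this.mono_left nhdsWithin_le_nhds
    refine le_of_tendsto hlim ?_
    filter_upwards [self_mem_nhdsWithin] with ε hε
    exact heps ε hε
  -- the conditional entropies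
  obtain ⟨K, hK⟩ := (isCompact_Icc (a := (0:ℝ)) (b := C ^ 2)).exists_bound_of_continuousOn
    Real.continuous_mul_log.continuousOn
  have hLm : Measurable fun x => f x ^ 2 * Real.log (f x ^ 2) :=
    (Real.continuous_mul_log.comp (hf.isTestC.continuous.pow 2)).measurable
  have hLb : ∀ x, |f x ^ 2 * Real.log (f x ^ 2)| ≤ K := fun x => hK _ ⟨hF0 x, hFb x⟩
  set B : E → ℝ := fun y => ∫ x, f x ^ 2 * Real.log (f x ^ 2) ∂(dm (postD ρ h y)) with hB
  have hBi : Integrable B m := rev_avg_integrable hρ hh hLm hLb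
  have hBt : ∫ y, B y ∂m = ∫ x, f x ^ 2 * Real.log (f x ^ 2) ∂(dm ρ) := rev_tower hρ hh hLm hLb
  have hAt : ∫ y, A y ∂m = ∫ x, f x ^ 2 ∂(dm ρ) := rev_tower hρ hh hFm hFabs
  have hALi : Integrable (fun y => A y * Real.log (A y)) m :=
    lsic_integrable_mul_log hAc.aestronglyMeasurable hA0 hAb
  have hcond : ∫ y, (B y - A y * Real.log (A y)) ∂m ≤ 2 * h * nrg (dm ρ) f := by
    rw [← hDt, ← integral_const_mul]
    refine integral_mono (hBi.sub hALi) (hDi.const_mul _) fun y => ?_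
    have := rev_isProb_post hρ hh y
    have h2 : ent (dm (postD ρ h y)) (fun x => f x ^ 2) ≤ 2 * h * nrg (dm (postD ρ h y)) f :=
      rev_LSI_post hρ hh y f hf
    exact h2
  rw [integral_sub hBi hALi] at hcond
  have hfinal : ent (dm ρ) (fun x => f x ^ 2) = (∫ y, B y ∂m - ∫ y, A y * Real.log (A y) ∂m) + ent m A := by
    unfold ent
    rw [hBt, hAt]
    ring
  rw [hfinal]
  nlinarith

/-- the Poincare analogue of F1. -/
theorem lsic_rev_conv_PI {ρ : E → ℝ} (hρ : LogConc ρ) [IsProbabilityMeasure (dm ρ)] {R h : ℝ} (hh : 0 < h)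
    (hR0 : 0 ≤ R) (hR : PI (dm (gconv (dm ρ) h)) R) : PI (dm ρ) (R + h) := by
  intro f hf
  have hprob := gc_isProb (μ := dm ρ) hh
  set m := dm (gconv (dm ρ) h) with hm
  obtain ⟨C, hC0, hC⟩ := hf.isTestC.exists_bound
  obtain ⟨C', hC'0, hC'⟩ := hf.isTestC.exists_bound_fderiv
  have hfm : Measurable f := hf.isTestC.continuous.measurable
  have hFm : Measurable fun x => f x ^ 2 := (hf.isTestC.continuous.pow 2).measurable
  have hF0 : ∀ x, 0 ≤ f x ^ 2 := fun x => sq_nonneg _
  have hFabs : ∀ x, |f x ^ 2| ≤ C ^ 2 := fun x => by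
    rw [abs_of_nonneg (hF0 x), ← sq_abs]; exact pow_le_pow_left₀ (abs_nonneg _) (hC x) 2
  set A : E → ℝ := fun y => ∫ x, f x ∂(dm (postD ρ h y)) with hA
  set B : E → ℝ := fun y => ∫ x, f x ^ 2 ∂(dm (postD ρ h y)) with hB
  have hAb : ∀ y, |A y| ≤ C := fun y => rev_avg_abs_le hρ hh hC y
  have hAc : Continuous A := rev_avg_continuous hρ hh hfm hC
  obtain ⟨hDi, hDt⟩ := rev_nrg_tower hρ hh hf
  rw [← hm] at hDi hDt
  have hpostPI : ∀ y, vari (dm (postD ρ h y)) f ≤ h * nrg (dm (postD ρ h y)) f := fun y => by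
    have := rev_isProb_post hρ hh y
    exact rev_PI_post hρ hh y f hf
  have hgrad : ∀ y, ‖fderiv ℝ A y‖ ^ 2 ≤ nrg (dm (postD ρ h y)) f := by
    intro y
    rw [(rev_hasFDerivAt_avg hρ hh hfm hC y).fderiv, norm_smul, innerSL_apply_norm, mul_pow, Real.norm_eq_abs, sq_abs]
    have h1 := rev_norm_W_sq_le_var hρ hh hfm hC y
    have h2 := hpostPI y
    have h3 : ‖revW ρ h f y‖ ^ 2 ≤ h ^ 2 * nrg (dm (postD ρ h y)) f := by
      calc _ ≤ _ := h1
        _ ≤ h * (h * nrg (dm (postD ρ h y)) f) := mul_le_mul_of_nonneg_left h2 hh.le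
        _ = _ := by ring
    calc h⁻¹ ^ 2 * ‖revW ρ h f y‖ ^ 2 ≤ h⁻¹ ^ 2 * (h ^ 2 * nrg (dm (postD ρ h y)) f) :=
          mul_le_mul_of_nonneg_left h3 (by positivity)
      _ = _ := by field_simp
  have hAC1 : IsBddC1 A := by
    refine ⟨rev_contDiff_avg hρ hh hfm hC, ⟨C, hAb⟩, ⟨C', fun y => ?_⟩⟩
    have := rev_isProb_post hρ hh y
    have h2 : nrg (dm (postD ρ h y)) f ≤ C' ^ 2 := by
      unfold nrg
      have h3 : ∫ x, ‖gradient f x‖ ^ 2 ∂(dm (postD ρ h y)) ≤ ∫ _x, C' ^ 2 ∂(dm (postD ρ h y)) := by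
        refine integral_mono_of_nonneg (Eventually.of_forall fun x => sq_nonneg _) (integrable_const _)
          (Eventually.of_forall fun x => ?_)
        simp only [lsic_norm_gradient]
        exact pow_le_pow_left₀ (norm_nonneg _) (hC' x) 2
      simpa using h3
    exact abs_le_of_sq_le_sq' ((hgrad y).trans h2) hC'0 |>.2
  have hvarA : vari m A ≤ R * nrg (dm ρ) f := by
    refine (lsic_PI_ext hR hAC1).trans (mul_le_mul_of_nonneg_left ?_ hR0)
    rw [← hDt]
    unfold nrg
    refine integral_mono_of_nonneg (Eventually.of_forall fun y => sq_nonneg _) hDi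
      (Eventually.of_forall fun y => ?_)
    simp only [lsic_norm_gradient]
    have := hgrad y
    unfold nrg at this
    simpa only [lsic_norm_gradient] using this
  have hBi : Integrable B m := rev_avg_integrable hρ hh hFm hFabs
  have hBt : ∫ y, B y ∂m = ∫ x, f x ^ 2 ∂(dm ρ) := rev_tower hρ hh hFm hFabs
  have hAt : ∫ y, A y ∂m = ∫ x, f x ∂(dm ρ) := rev_tower hρ hh hfm hC
  have hA2i : Integrable (fun y => A y ^ 2) m :=
    Integrable.of_bound (hAc.pow 2).aestronglyMeasurable (C ^ 2) (Eventually.of_forall fun y => by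
      rw [Real.norm_eq_abs, abs_pow]; exact pow_le_pow_left₀ (abs_nonneg _) (hAb y) 2)
  have hcond : ∫ y, (B y - A y ^ 2) ∂m ≤ h * nrg (dm ρ) f := by
    rw [← hDt, ← integral_const_mul]
    exact integral_mono (hBi.sub hA2i) (hDi.const_mul _) fun y => hpostPI y
  rw [integral_sub hBi hA2i] at hcond
  have hfinal : vari (dm ρ) f = (∫ y, B y ∂m - ∫ y, A y ^ 2 ∂m) + vari m A := by
    unfold vari
    rw [hBt, hAt]
    ring
  rw [hfinal]
  nlinarith

end Claimed.Agent.R259
end
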