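/-
Row 259, kit WS: basic measure theory of `dm η` (`η` continuous, positive) and the dictionary
between function level `L²` statements (`∫ ‖g‖² → 0`) and `eLpNorm`.   Owner: helper217.
-/
import Claimed.Agent.R259.S3Defs

set_option autoImplicit false
set_option linter.unusedSectionVars false

open MeasureTheory Filter Topology
open scoped ContDiff ENNReal NNReal

namespace Claimed.Agent.R259

/-! ### `∫ ‖g‖²` versus `eLpNorm g 2` -/

section dict

variable {α : Type} [MeasurableSpace α] {m : Measure α}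
variable {F : Type} [NormedAddCommGroup F]

theorem ws_integral_sq_eq {g : α → F} (hg : MemLp g 2 m) :
    ∫ x, ‖g x‖ ^ 2 ∂m = (eLpNorm g 2 m).toReal ^ 2 := by
  have h0 : 0 ≤ ∫ x, ‖g x‖ ^ 2 ∂m := integral_nonneg fun x => by positivity
  rw [hg.eLpNorm_eq_integral_rpow_norm (by norm_num) (by norm_num)]
  simp only [ENNReal.toReal_ofNat, Real.rpow_ofNat]
  rw [ENNReal.toReal_ofReal (by positivity), ← Real.rpow_natCast, ← Real.rpow_mul h0]
  norm_num

theorem ws_integrable_sq {g : α → F} (hg : MemLp g 2 m) : Integrable (fun x => ‖g x‖ ^ 2) m :=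
  hg.integrable_norm_pow (by norm_num)

theorem ws_tendsto_sq_iff {g : ℕ → α → F} (hg : ∀ k, MemLp (g k) 2 m) :
    Tendsto (fun k => ∫ x, ‖g k x‖ ^ 2 ∂m) atTop (𝓝 0) ↔
      Tendsto (fun k => eLpNorm (g k) 2 m) atTop (𝓝 0) := by
  simp only [fun k => ws_integral_sq_eq (hg k)]
  constructor
  · intro h
    have h1 : Tendsto (fun k => (eLpNorm (g k) 2 m).toReal) atTop (𝓝 0) := by
      have := h.sqrt
      simpa [Real.sqrt_sq ENNReal.toReal_nonneg] using this
    rw [← ENNReal.tendsto_toReal_iff (fun k => (hg k).2.ne) (by simp)]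
    simpa using h1
  · intro h
    have h1 := (ENNReal.tendsto_toReal_iff (fun k => (hg k).2.ne) (by simp)).2 h
    have := h1.pow 2
    simpa using this

end dict

/-! ### the measure `dm η` -/

section dmfacts

variable {E : Type} [NormedAddCommGroup E] [InnerProductSpace ℝ E] [FiniteDimensional ℝ E]
  [MeasurableSpace E] [BorelSpace E]
variable {F : Type} [NormedAddCommGroup F] [NormedSpace ℝ F]
variable {η : E → ℝ}

theorem ws_dm_ac (η : E → ℝ) : dm η ≪ (volume : Measure E) :=
  withDensity_absolutelyContinuous _ _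

theorem ws_vol_ac_dm (hη : Measurable η) (hpos : ∀ x, 0 < η x) : (volume : Measure E) ≪ dm η := by
  refine withDensity_absolutelyContinuous' hη.ennreal_ofReal.aemeasurable ?_
  exact Eventually.of_forall fun x => by simpa using hpos x

theorem ws_ae_dm_iff (hη : Measurable η) (hpos : ∀ x, 0 < η x) {p : E → Prop} :
    (∀ᵐ x ∂(dm η), p x) ↔ ∀ᵐ x, p x :=
  ⟨fun h => (ws_vol_ac_dm hη hpos).ae_le h, fun h => (ws_dm_ac η).ae_le h⟩

theorem ws_aesm_dm_iff (hη : Measurable η) (hpos : ∀ x, 0 < η x) {f : E → F} :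
    AEStronglyMeasurable f (dm η) ↔ AEStronglyMeasurable f volume :=
  ⟨fun h => h.mono_ac (ws_vol_ac_dm hη hpos), fun h => h.mono_ac (ws_dm_ac η)⟩

theorem ws_integral_dm (hη : Measurable η) (h0 : ∀ x, 0 ≤ η x) (f : E → F) :
    ∫ x, f x ∂(dm η) = ∫ x, η x • f x := by
  unfold dm
  rw [integral_withDensity_eq_integral_toReal_smul hη.ennreal_ofReal
    (Eventually.of_forall fun x => ENNReal.ofReal_lt_top)]
  simp only [ENNReal.toReal_ofReal (h0 _)]

theorem ws_integrable_dm_iff (hη : Measurable η) (h0 : ∀ x, 0 ≤ η x) {f : E → F} :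
    Integrable f (dm η) ↔ Integrable (fun x => η x • f x) volume := by
  unfold dm
  rw [integrable_withDensity_iff_integrable_smul' hη.ennreal_ofReal
    (Eventually.of_forall fun x => ENNReal.ofReal_lt_top)]
  simp only [ENNReal.toReal_ofReal (h0 _)]

theorem ws_dm_locallyFinite (hη : Continuous η) : IsLocallyFiniteMeasure (dm η) :=
  IsLocallyFiniteMeasure.withDensity_ofReal hη

/-- on a compact set Lebesgue measure is dominated by a multiple of `dm η`. -/
theorem ws_restrict_le_dm (hη : Continuous η) (hpos : ∀ x, 0 < η x) {K : Set E}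
    (hK : IsCompact K) : ∃ c : ℝ≥0∞, c ≠ ⊤ ∧ (volume : Measure E).restrict K ≤ c • dm η := by
  rcases K.eq_empty_or_nonempty with rfl | hne
  · exact ⟨0, by simp, by simp⟩
  obtain ⟨x₀, -, hx₀⟩ := hK.exists_isMinOn hne hη.continuousOn
  set a : ℝ := η x₀ with ha
  have ha0 : 0 < a := hpos x₀
  have ha1 : ENNReal.ofReal a ≠ 0 := by simpa using ha0
  refine ⟨(ENNReal.ofReal a)⁻¹, by simpa using ha0, ?_⟩
  have h1 : (volume : Measure E).restrict K ≤ (ENNReal.ofReal a)⁻¹ • (dm η).restrict K := by
    unfold dm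
    rw [restrict_withDensity hK.measurableSet]
    have h2 : ((volume : Measure E).restrict K).withDensity (fun _ => ENNReal.ofReal a)
        ≤ ((volume : Measure E).restrict K).withDensity (fun x => ENNReal.ofReal (η x)) := by
      refine withDensity_mono ?_
      filter_upwards [ae_restrict_mem hK.measurableSet] with x hx
      exact ENNReal.ofReal_le_ofReal (hx₀ hx)
    rw [withDensity_const] at h2
    calc (volume : Measure E).restrict K
        = (ENNReal.ofReal a)⁻¹ • (ENNReal.ofReal a • (volume : Measure E).restrict K) := by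
          rw [smul_smul, ENNReal.inv_mul_cancel ha1 ENNReal.ofReal_ne_top, one_smul]
      _ ≤ _ := by
          gcongr
  refine h1.trans ?_
  gcongr
  exact Measure.restrict_le_self

/-- on a compact set `dm η` is dominated by a multiple of Lebesgue measure. -/
theorem ws_dm_restrict_le (hη : Continuous η) {K : Set E} (hK : IsCompact K) :
    ∃ C : ℝ≥0∞, C ≠ ⊤ ∧ (dm η).restrict K ≤ C • (volume : Measure E) := by
  rcases K.eq_empty_or_nonempty with rfl | hne
  · exact ⟨0, by simp, by simp⟩
  obtain ⟨x₀, -, hx₀⟩ := hK.exists_isMaxOn hne hη.continuousOn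
  refine ⟨ENNReal.ofReal (η x₀), ENNReal.ofReal_ne_top, ?_⟩
  unfold dm
  rw [restrict_withDensity hK.measurableSet]
  have h2 : ((volume : Measure E).restrict K).withDensity (fun x => ENNReal.ofReal (η x))
      ≤ ((volume : Measure E).restrict K).withDensity (fun _ => ENNReal.ofReal (η x₀)) := by
    refine withDensity_mono ?_
    filter_upwards [ae_restrict_mem hK.measurableSet] with x hx
    exact ENNReal.ofReal_le_ofReal (hx₀ hx)
  rw [withDensity_const] at h2
  refine h2.trans ?_
  gcongr
  exact Measure.restrict_le_self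

/-- `L^p(η)` functions are in `L^p` of every compact set. -/
theorem ws_memLp_restrict (hη : Continuous η) (hpos : ∀ x, 0 < η x) {p : ℝ≥0∞} {f : E → F}
    (hf : MemLp f p (dm η)) {K : Set E} (hK : IsCompact K) :
    MemLp f p ((volume : Measure E).restrict K) := by
  obtain ⟨c, hc, hle⟩ := ws_restrict_le_dm hη hpos hK
  exact hf.of_measure_le_smul hc hle

theorem ws_locallyIntegrable_of_memLp (hη : Continuous η) (hpos : ∀ x, 0 < η x) {p : ℝ≥0∞}
    (hp : 1 ≤ p) {f : E → F} (hf : MemLp f p (dm η)) : LocallyIntegrable f volume := by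
  rw [locallyIntegrable_iff]
  intro K hK
  have : IsFiniteMeasure ((volume : Measure E).restrict K) :=
    ⟨by rw [Measure.restrict_apply MeasurableSet.univ, Set.univ_inter]; exact hK.measure_lt_top⟩
  exact (ws_memLp_restrict hη hpos hf hK).integrable hp

/-- compactly supported `L^p(dx)` functions are in `L^p(η)`. -/
theorem ws_memLp_dm_of_support (hη : Continuous η) {p : ℝ≥0∞} {f : E → F}
    (hf : MemLp f p volume) {K : Set E} (hK : IsCompact K) (hs : Function.support f ⊆ K) :
    MemLp f p (dm η) := by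
  obtain ⟨C, hC, hle⟩ := ws_dm_restrict_le hη hK
  have h1 : MemLp f p ((dm η).restrict K) := hf.of_measure_le_smul hC hle
  refine ⟨hf.1.mono_ac (ws_dm_ac η), ?_⟩
  rw [← eLpNorm_restrict_eq_of_support_subset hs]
  exact h1.2

/-- compactly supported `L^p(η)` functions are in `L^p(dx)`. -/
theorem ws_memLp_vol_of_support (hη : Continuous η) (hpos : ∀ x, 0 < η x) {p : ℝ≥0∞} {f : E → F}
    (hf : MemLp f p (dm η)) {K : Set E} (hK : IsCompact K) (hs : Function.support f ⊆ K) :
    MemLp f p volume := by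
  have h1 := ws_memLp_restrict hη hpos hf hK
  refine ⟨(ws_aesm_dm_iff hη.measurable hpos).1 hf.1, ?_⟩
  rw [← eLpNorm_restrict_eq_of_support_subset hs]
  exact h1.2

/-- convergence in `L^p(dx)` with supports in a fixed compact set gives convergence in
`L^p(η)`. -/
theorem ws_tendsto_dm_of_support (hη : Continuous η) {p : ℝ≥0∞} {f : ℕ → E → F}
    {K : Set E} (hK : IsCompact K) (hs : ∀ k, Function.support (f k) ⊆ K)
    (h : Tendsto (fun k => eLpNorm (f k) p volume) atTop (𝓝 0)) :
    Tendsto (fun k => eLpNorm (f k) p (dm η)) atTop (𝓝 0) := by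
  obtain ⟨C, hC, hle⟩ := ws_dm_restrict_le hη hK
  have h1 : ∀ k, eLpNorm (f k) p (dm η) ≤ C ^ (1 / p).toReal • eLpNorm (f k) p volume := by
    intro k
    rw [← eLpNorm_restrict_eq_of_support_subset (hs k)]
    exact eLpNorm_le_of_measure_le_smul hle
  have h2 : Tendsto (fun k => C ^ (1 / p).toReal • eLpNorm (f k) p volume) atTop (𝓝 0) := by
    have := ENNReal.Tendsto.const_mul (a := C ^ (1 / p).toReal) h
      (Or.inr (ENNReal.rpow_ne_top_of_nonneg ENNReal.toReal_nonneg hC))
    simpa using this
  exact tendsto_of_tendsto_of_tendsto_of_le_of_le tendsto_const_nhds h2 (fun _ => zero_le) h1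

/-- convergence in `L^p(η)` gives convergence in `L^p` of every compact set. -/
theorem ws_tendsto_restrict_of_dm (hη : Continuous η) (hpos : ∀ x, 0 < η x) {p : ℝ≥0∞}
    {f : ℕ → E → F} {K : Set E} (hK : IsCompact K)
    (h : Tendsto (fun k => eLpNorm (f k) p (dm η)) atTop (𝓝 0)) :
    Tendsto (fun k => eLpNorm (f k) p ((volume : Measure E).restrict K)) atTop (𝓝 0) := by
  obtain ⟨C, hC, hle⟩ := ws_restrict_le_dm hη hpos hK
  have h1 : ∀ k, eLpNorm (f k) p ((volume : Measure E).restrict K)
      ≤ C ^ (1 / p).toReal • eLpNorm (f k) p (dm η) :=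
    fun k => eLpNorm_le_of_measure_le_smul hle
  have h2 : Tendsto (fun k => C ^ (1 / p).toReal • eLpNorm (f k) p (dm η)) atTop (𝓝 0) := by
    have := ENNReal.Tendsto.const_mul (a := C ^ (1 / p).toReal) h
      (Or.inr (ENNReal.rpow_ne_top_of_nonneg ENNReal.toReal_nonneg hC))
    simpa using this
  exact tendsto_of_tendsto_of_tendsto_of_le_of_le tendsto_const_nhds h2 (fun _ => zero_le) h1

end dmfacts

end Claimed.Agent.R259
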