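/- Packed by merge_tool.py (helper293): 6 modules of Claimed.Agent.R259 in one file, same declarations.
   Old modules, in this order: GcBounds, GcMoments, GC, CptHerm, CptGauss, CptWeight -/
import Claimed.Agent.Lib.PLProp
import Claimed.Agent.R260.GKIbp
import Claimed.Agent.R259.WsBasic
import Claimed.Agent.R259.Pack003
import Claimed.Agent.R259.Pack021

/- ===== packed: Claimed.Agent.R259.GcBounds ===== -/
section
/-
Row 259, kit GC-C (bounds: |b_s| <= r, 0 <= K_s <= 1/s, log-concavity of mu_s by Prekopa = Lib/PLProp).  EXPORTS (statements fixed by sub-captain helper83).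
DONE (helper221): all 8 statements proved from the statements of GcSmooth + GcKernel + Lib/PLProp.
Extra exports (prefix `gcb_`): gcb_sq_le / gcb_norm_le (symmetric 0 <= T <= c: |Tu|^2 <= c <Tu,u>, |T| <= c),
gcb_inner_gradient, gcb_gradient_contDiff, gcb_hess_nonneg (smooth convex => Hessian >= 0), gcb_gk_logConc,
gcb_gconv_pos (no support condition), gcb_potV_convex, gcb_hessK_inner.
-/
set_option autoImplicit false
set_option linter.unusedSectionVars false

open MeasureTheory Filter Topology ProbabilityTheory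
open scoped ContDiff ENNReal

namespace Claimed.Agent.R259

variable {E : Type} [NormedAddCommGroup E] [InnerProductSpace ℝ E] [FiniteDimensional ℝ E]
  [MeasurableSpace E] [BorelSpace E]

/-! ### abstract linear algebra -/

/-- symmetric `0 ≤ T ≤ c` implies `‖T u‖² ≤ c ⟨T u, u⟩` (Cauchy-Schwarz for the form of `T`). -/
theorem gcb_sq_le (T : E →L[ℝ] E) {c : ℝ} (hc : 0 ≤ c)
    (hsym : ∀ u v, inner ℝ (T u) v = inner ℝ u (T v))
    (h0 : ∀ u, 0 ≤ inner ℝ (T u) u) (h1 : ∀ u, inner ℝ (T u) u ≤ c * ‖u‖ ^ 2) (u : E) :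
    ‖T u‖ ^ 2 ≤ c * inner ℝ (T u) u := by
  set w := T u with hw
  set a := inner ℝ w u with ha
  set d := inner ℝ (T w) w with hd
  set b := ‖w‖ ^ 2 with hb
  have hb0 : 0 ≤ b := by positivity
  have ha0 : 0 ≤ a := h0 u
  have hdc : d ≤ c * b := h1 w
  have hq : ∀ t : ℝ, 0 ≤ d * (t * t) + (2 * b) * t + a := by
    intro t
    have h := h0 (u + t • w)
    rw [map_add, map_smul, inner_add_left, inner_add_right, inner_add_right, real_inner_smul_left,
      real_inner_smul_right, real_inner_smul_left, real_inner_smul_right, ← hw, hsym w u, ← hw,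
      real_inner_self_eq_norm_sq] at h
    nlinarith
  have hdis := discrim_le_zero hq
  unfold discrim at hdis
  have h2 : b * b ≤ a * (c * b) := by nlinarith
  rcases hb0.eq_or_lt with h | h
  · rw [← h]; positivity
  · have : b ≤ a * c := by
      by_contra hcon
      have hcon := not_le.1 hcon
      nlinarith
    linarith

theorem gcb_norm_le (T : E →L[ℝ] E) {c : ℝ} (hc : 0 ≤ c)
    (hsym : ∀ u v, inner ℝ (T u) v = inner ℝ u (T v))
    (h0 : ∀ u, 0 ≤ inner ℝ (T u) u) (h1 : ∀ u, inner ℝ (T u) u ≤ c * ‖u‖ ^ 2) : ‖T‖ ≤ c := by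
  refine ContinuousLinearMap.opNorm_le_bound _ hc fun u => ?_
  have h := gcb_sq_le T hc hsym h0 h1 u
  have h2 : inner ℝ (T u) u ≤ ‖T u‖ * ‖u‖ := real_inner_le_norm _ _
  have h3 : ‖T u‖ ^ 2 ≤ c * (‖T u‖ * ‖u‖) := h.trans (mul_le_mul_of_nonneg_left h2 hc)
  rcases (norm_nonneg (T u)).eq_or_lt with h4 | h4
  · rw [← h4]; positivity
  · by_contra hcon
    have hcon := not_le.1 hcon
    nlinarith

/-! ### convex functions have positive semidefinite Hessians -/

theorem gcb_inner_gradient (V : E → ℝ) (z u : E) : inner ℝ (gradient V z) u = fderiv ℝ V z u := by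
  unfold gradient
  exact InnerProductSpace.toDual_symm_apply

theorem gcb_gradient_contDiff {V : E → ℝ} (hV : ContDiff ℝ ∞ V) : ContDiff ℝ ∞ (gradient V) := by
  have h : gradient V = fun z => (InnerProductSpace.toDual ℝ E).symm (fderiv ℝ V z) := rfl
  rw [h]
  exact (InnerProductSpace.toDual ℝ E).symm.contDiff.comp (hV.fderiv_right (by simp))

theorem gcb_hess_nonneg {V : E → ℝ} (hV : ContDiff ℝ ∞ V) (hc : ConvexOn ℝ Set.univ V) (y u : E) :
    0 ≤ inner ℝ (fderiv ℝ (gradient V) y u) u := by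
  have hline : ∀ t : ℝ, HasDerivAt (fun t : ℝ => y + t • u) u t := by
    intro t
    simpa using ((hasDerivAt_id t).smul_const u).const_add y
  have hd1 : ∀ t : ℝ, HasDerivAt (fun t : ℝ => V (y + t • u)) (inner ℝ (gradient V (y + t • u)) u) t := by
    intro t
    rw [gcb_inner_gradient]
    exact ((hV.differentiable (by simp)) _).hasFDerivAt.comp_hasDerivAt t (hline t)
  have hconv : ConvexOn ℝ Set.univ (fun t : ℝ => V (y + t • u)) := by
    refine ⟨convex_univ, fun a _ b _ p q hp hq hpq => ?_⟩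
    have := hc.2 (Set.mem_univ (y + a • u)) (Set.mem_univ (y + b • u)) hp hq hpq
    have e : p • (y + a • u) + q • (y + b • u) = y + (p • a + q • b) • u := by
      rw [smul_add, smul_add, add_smul, smul_smul, smul_smul]
      have : y = p • y + q • y := by rw [← add_smul, hpq, one_smul]
      nth_rewrite 3 [this]
      simp only [smul_eq_mul]
      abel
    rw [e] at this
    exact this
  have hmono : Monotone (fun t : ℝ => inner ℝ (gradient V (y + t • u)) u) := by
    have h := hconv.monotoneOn_deriv (fun t _ => (hd1 t).differentiableAt)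
    have e : deriv (fun t : ℝ => V (y + t • u)) = fun t : ℝ => inner ℝ (gradient V (y + t • u)) u :=
      funext fun t => (hd1 t).deriv
    rw [e] at h
    exact fun a b hab => h (Set.mem_univ a) (Set.mem_univ b) hab
  have hd2 : HasDerivAt (fun t : ℝ => inner ℝ (gradient V (y + t • u)) u)
      (inner ℝ (fderiv ℝ (gradient V) y u) u) 0 := by
    have hg : HasDerivAt (fun t : ℝ => gradient V (y + t • u)) (fderiv ℝ (gradient V) y u) 0 := by
      have h1 := (((gcb_gradient_contDiff hV).differentiable (by simp)) (y + (0 : ℝ) • u)).hasFDerivAt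
      have h2 := h1.comp_hasDerivAt 0 (hline 0)
      rw [zero_smul, add_zero] at h2
      exact h2
    simpa using hg.inner ℝ (hasDerivAt_const (0 : ℝ) u)
  rw [← hd2.deriv]
  exact hmono.deriv_nonneg


/-! ### log-concavity -/

theorem gcb_gk_logConc {s : ℝ} (hs : 0 < s) : LogConc (gk s : E → ℝ) := by
  refine ⟨gck_measurable s, fun x => (gc_gk_pos hs x).le, fun x y t ht0 ht1 => ?_⟩
  unfold gk
  set C := (2 * Real.pi * s) ^ (-(Module.finrank ℝ E : ℝ) / 2) with hC
  have hC0 : 0 < C := Real.rpow_pos_of_pos (by positivity) _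
  rw [Real.mul_rpow hC0.le (Real.exp_pos _).le, Real.mul_rpow hC0.le (Real.exp_pos _).le,
    ← Real.exp_mul, ← Real.exp_mul]
  have h1 : C ^ (1 - t) * C ^ t = C := by
    rw [← Real.rpow_add hC0]; simp
  have h2 : -‖x‖ ^ 2 / (2 * s) * (1 - t) + -‖y‖ ^ 2 / (2 * s) * t
      ≤ -‖(1 - t) • x + t • y‖ ^ 2 / (2 * s) := by
    have e : ‖(1 - t) • x + t • y‖ ^ 2
        = (1 - t) * ‖x‖ ^ 2 + t * ‖y‖ ^ 2 - t * (1 - t) * ‖x - y‖ ^ 2 := by
      rw [norm_add_sq_real, norm_sub_sq_real, norm_smul, norm_smul, real_inner_smul_left,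
        real_inner_smul_right, Real.norm_eq_abs, Real.norm_eq_abs, mul_pow, mul_pow, sq_abs, sq_abs]
      ring
    rw [e, div_mul_eq_mul_div, div_mul_eq_mul_div, ← add_div]
    apply div_le_div_of_nonneg_right _ (by positivity)
    have : 0 ≤ t * (1 - t) * ‖x - y‖ ^ 2 :=
      mul_nonneg (mul_nonneg ht0.le (by linarith)) (by positivity)
    linarith
  calc C ^ (1 - t) * Real.exp (-‖x‖ ^ 2 / (2 * s) * (1 - t))
        * (C ^ t * Real.exp (-‖y‖ ^ 2 / (2 * s) * t))
      = (C ^ (1 - t) * C ^ t)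
        * Real.exp (-‖x‖ ^ 2 / (2 * s) * (1 - t) + -‖y‖ ^ 2 / (2 * s) * t) := by
        rw [Real.exp_add]; ring
    _ ≤ C * Real.exp (-‖(1 - t) • x + t • y‖ ^ 2 / (2 * s)) := by
        rw [h1]
        exact mul_le_mul_of_nonneg_left (Real.exp_le_exp.2 h2) hC0.le

variable {μ : Measure E} [IsProbabilityMeasure μ]

theorem gcb_gconv_pos {s : ℝ} (hs : 0 < s) (y : E) : 0 < gconv μ s y := by
  unfold gconv
  rw [integral_pos_iff_support_of_nonneg (fun x => (gc_gk_pos hs _).le)
    (gck_gconv_integrable hs y)]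
  have : Function.support (fun x => gk s (y - x)) = Set.univ := by
    ext x
    simp [(gc_gk_pos hs (y - x)).ne']
  rw [this]
  simp

/-- `μ_s` is log-concave. -/
theorem gc_logConc (hlc : ∃ ρ : E → ℝ, LogConc ρ ∧ μ = dm ρ) {s : ℝ} (hs : 0 < s) :
    LogConc (gconv μ s) := by
  obtain ⟨ρ, ⟨hρm, hρ0, hρc⟩, hμ⟩ := hlc
  have hm := gck_measurable (E := E) s
  refine ⟨gck_gconv_measurable s, gck_gconv_nonneg hs, fun y₀ y₁ t ht0 ht1 => ?_⟩
  have h1t : 0 < 1 - t := by linarith
  have hrep : ∀ y : E, ENNReal.ofReal (gconv μ s y)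
      = ∫⁻ x, ENNReal.ofReal (gk s (y - x)) * ENNReal.ofReal (ρ x) := by
    intro y
    rw [gck_gconv_ofReal hs y]
    conv_lhs => rw [hμ]
    unfold dm
    rw [lintegral_withDensity_eq_lintegral_mul _ (by fun_prop) (by fun_prop)]
    refine lintegral_congr fun x => ?_
    simp only [Pi.mul_apply]
    exact mul_comm _ _
  have key := Claimed.Agent.PL.PLProp.marginal (E := E)
    (Claimed.Agent.PL.plProp_addHaar (volume : Measure E))
    (f := fun y x => ENNReal.ofReal (gk s (y - x)) * ENNReal.ofReal (ρ x))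
    (fun y => by fun_prop) ht0 ht1 (x₀ := y₀) (x₁ := y₁) ?_
  · rw [← hrep, ← hrep, ← hrep,
      ENNReal.ofReal_rpow_of_nonneg (gck_gconv_nonneg hs _) h1t.le,
      ENNReal.ofReal_rpow_of_nonneg (gck_gconv_nonneg hs _) ht0.le,
      ← ENNReal.ofReal_mul (Real.rpow_nonneg (gck_gconv_nonneg hs _) _)] at key
    exact (ENNReal.ofReal_le_ofReal_iff (gck_gconv_nonneg hs _)).1 key
  · intro x₀ x₁
    have hg := (gcb_gk_logConc (E := E) hs).2.2 (y₀ - x₀) (y₁ - x₁) t ht0 ht1
    have e : (1 - t) • (y₀ - x₀) + t • (y₁ - x₁)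
        = (1 - t) • y₀ + t • y₁ - ((1 - t) • x₀ + t • x₁) := by
      rw [smul_sub, smul_sub]; abel
    rw [e] at hg
    have hr := hρc x₀ x₁ t ht0 ht1
    rw [← ENNReal.ofReal_mul (gc_gk_pos hs _).le, ← ENNReal.ofReal_mul (gc_gk_pos hs _).le,
      ← ENNReal.ofReal_mul (gc_gk_pos hs _).le,
      ENNReal.ofReal_rpow_of_nonneg (mul_nonneg (gc_gk_pos hs _).le (hρ0 _)) h1t.le,
      ENNReal.ofReal_rpow_of_nonneg (mul_nonneg (gc_gk_pos hs _).le (hρ0 _)) ht0.le,
      ← ENNReal.ofReal_mul (Real.rpow_nonneg (mul_nonneg (gc_gk_pos hs _).le (hρ0 _)) _)]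
    apply ENNReal.ofReal_le_ofReal
    rw [Real.mul_rpow (gc_gk_pos hs _).le (hρ0 _), Real.mul_rpow (gc_gk_pos hs _).le (hρ0 _)]
    calc gk s (y₀ - x₀) ^ (1 - t) * ρ x₀ ^ (1 - t) * (gk s (y₁ - x₁) ^ t * ρ x₁ ^ t)
        = (gk s (y₀ - x₀) ^ (1 - t) * gk s (y₁ - x₁) ^ t) * (ρ x₀ ^ (1 - t) * ρ x₁ ^ t) := by ring
      _ ≤ _ := mul_le_mul hg hr
          (mul_nonneg (Real.rpow_nonneg (hρ0 _) _) (Real.rpow_nonneg (hρ0 _) _))
          (gc_gk_pos hs _).le

theorem gcb_potV_convex (hlc : ∃ ρ : E → ℝ, LogConc ρ ∧ μ = dm ρ) {s : ℝ} (hs : 0 < s) :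
    ConvexOn ℝ Set.univ (potV μ s) := by
  obtain ⟨-, -, hq⟩ := gc_logConc hlc hs
  refine ⟨convex_univ, fun x _ y _ a b ha hb hab => ?_⟩
  unfold potV
  rcases ha.eq_or_lt with h | ha'
  · have hb1 : b = 1 := by linarith
    simp [← h, hb1]
  rcases hb.eq_or_lt with h | hb'
  · have ha1 : a = 1 := by linarith
    simp [← h, ha1]
  have ea : a = 1 - b := by linarith
  have h := hq x y b hb' (by linarith)
  rw [← ea] at h
  have hx := gcb_gconv_pos (μ := μ) hs x
  have hy := gcb_gconv_pos (μ := μ) hs y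
  have h2 := Real.log_le_log (mul_pos (Real.rpow_pos_of_pos hx a) (Real.rpow_pos_of_pos hy b)) h
  rw [Real.log_mul (Real.rpow_pos_of_pos hx a).ne' (Real.rpow_pos_of_pos hy b).ne',
    Real.log_rpow hx, Real.log_rpow hy] at h2
  simp only [smul_eq_mul]
  linarith


/-! ### the exports -/

theorem gc_postMean_norm_le {r : ℝ} (hr : μ (Metric.closedBall 0 r)ᶜ = 0) {s : ℝ} (hs : 0 < s)
    (y : E) : ‖postMean μ s y‖ ≤ r := by
  have hm := gck_measurable (E := E) s
  have hZ := gcb_gconv_pos (μ := μ) hs y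
  have hae : ∀ᵐ x ∂μ, ‖x‖ ≤ r := by
    rw [ae_iff]
    convert hr using 2
    ext x
    simp
  unfold postMean
  rw [norm_smul, norm_inv, Real.norm_eq_abs, abs_of_pos hZ, inv_mul_le_iff₀ hZ]
  calc ‖∫ x, gk s (y - x) • x ∂μ‖ ≤ ∫ x, gk s (y - x) * r ∂μ := by
        refine norm_integral_le_of_norm_le ((gck_gconv_integrable hs y).mul_const r) ?_
        filter_upwards [hae] with x hx
        rw [norm_smul, Real.norm_eq_abs, abs_of_pos (gc_gk_pos hs _)]
        exact mul_le_mul_of_nonneg_left hx (gc_gk_pos hs _).le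
    _ = gconv μ s y * r := by
        rw [integral_mul_const]; rfl

theorem gc_postCov_nonneg {s : ℝ} (hs : 0 < s) (y u : E) : 0 ≤ postCov μ s y u u := by
  unfold postCov
  refine mul_nonneg (inv_nonneg.2 (gck_gconv_nonneg hs y)) (integral_nonneg fun x => ?_)
  exact mul_nonneg (gc_gk_pos hs _).le (mul_self_nonneg _)

theorem gcb_hessK_inner (hb : BddSupp μ) {s : ℝ} (hs : 0 < s) (y u v : E) :
    inner ℝ (hessK μ s y u) v = s⁻¹ * (inner ℝ u v - s⁻¹ * postCov μ s y u v) := by
  have h1 := gc_fderiv_postMean_hessK hb hs y u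
  have h2 := gc_fderiv_postMean hb hs y u v
  rw [h1, inner_sub_left, real_inner_smul_left] at h2
  rw [← h2]
  field_simp
  ring

/-- `K_s ≤ 1/s`. -/
theorem gc_hessK_le (hb : BddSupp μ) {s : ℝ} (hs : 0 < s) (y u : E) :
    inner ℝ (hessK μ s y u) u ≤ s⁻¹ * ‖u‖ ^ 2 := by
  rw [gcb_hessK_inner hb hs, real_inner_self_eq_norm_sq]
  have h := gc_postCov_nonneg (μ := μ) hs y u
  have hs' : 0 < s⁻¹ := inv_pos.2 hs
  apply mul_le_mul_of_nonneg_left _ hs'.le
  have : 0 ≤ s⁻¹ * postCov μ s y u u := mul_nonneg hs'.le h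
  linarith

/-- `K_s ≥ 0` for log-concave `μ` (Prekopa, or the variance inequality of Lemma 2.1). -/
theorem gc_hessK_nonneg (hb : BddSupp μ) (hlc : ∃ ρ : E → ℝ, LogConc ρ ∧ μ = dm ρ) {s : ℝ}
    (hs : 0 < s) (y u : E) : 0 ≤ inner ℝ (hessK μ s y u) u :=
  gcb_hess_nonneg (gc_potV_contDiff hb hs) (gcb_potV_convex hlc hs) y u

/-- consequences for the operator norm and for `K²  ≤ K/s`. -/
theorem gc_hessK_norm_le (hb : BddSupp μ) (hlc : ∃ ρ : E → ℝ, LogConc ρ ∧ μ = dm ρ) {s : ℝ}
    (hs : 0 < s) (y : E) : ‖hessK μ s y‖ ≤ s⁻¹ :=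
  gcb_norm_le _ (inv_pos.2 hs).le (gc_hessK_symm hb hs y) (gc_hessK_nonneg hb hlc hs y)
    (gc_hessK_le hb hs y)

theorem gc_hessK_sq_le (hb : BddSupp μ) (hlc : ∃ ρ : E → ℝ, LogConc ρ ∧ μ = dm ρ) {s : ℝ}
    (hs : 0 < s) (y u : E) : ‖hessK μ s y u‖ ^ 2 ≤ s⁻¹ * inner ℝ (hessK μ s y u) u :=
  gcb_sq_le _ (inv_pos.2 hs).le (gc_hessK_symm hb hs y) (gc_hessK_nonneg hb hlc hs y)
    (gc_hessK_le hb hs y) u

/-- `0 ≤ D b_s ≤ Id`: monotone and 1-Lipschitz; the form used in the translation lemma. -/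
theorem gc_postMean_diff_sq_le (hb : BddSupp μ) (hlc : ∃ ρ : E → ℝ, LogConc ρ ∧ μ = dm ρ) {s : ℝ}
    (hs : 0 < s) (y p : E) :
    ‖postMean μ s y - postMean μ s (y - p)‖ ^ 2 ≤
      inner ℝ p (postMean μ s y - postMean μ s (y - p)) := by
  obtain ⟨d, hd⟩ : ∃ d, d = postMean μ s y - postMean μ s (y - p) := ⟨_, rfl⟩
  rw [← hd]
  set M : E → E →L[ℝ] E := fun z => fderiv ℝ (postMean μ s) z with hM
  have hMsym : ∀ z u v, inner ℝ (M z u) v = inner ℝ u (M z v) := by
    intro z u v
    simp only [hM]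
    rw [gc_fderiv_postMean_hessK hb hs, gc_fderiv_postMean_hessK hb hs, inner_sub_left,
      inner_sub_right, real_inner_smul_left, real_inner_smul_right, gc_hessK_symm hb hs]
  have hM0 : ∀ z u, 0 ≤ inner ℝ (M z u) u := by
    intro z u
    simp only [hM]
    rw [gc_fderiv_postMean hb hs]
    exact mul_nonneg (inv_pos.2 hs).le (gc_postCov_nonneg hs z u)
  have hM1 : ∀ z u, inner ℝ (M z u) u ≤ ‖u‖ ^ 2 := by
    intro z u
    simp only [hM]
    rw [gc_fderiv_postMean_hessK hb hs, inner_sub_left, real_inner_smul_left,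
      real_inner_self_eq_norm_sq]
    have := mul_nonneg hs.le (gc_hessK_nonneg hb hlc hs z u)
    linarith
  have hline : ∀ t : ℝ, HasDerivAt (fun t : ℝ => y - p + t • p) p t := by
    intro t
    simpa using ((hasDerivAt_id t).smul_const p).const_add (y - p)
  have hbd : ∀ t : ℝ, HasDerivAt (fun t : ℝ => postMean μ s (y - p + t • p))
      (M (y - p + t • p) p) t := by
    intro t
    exact (((gc_postMean_contDiff hb hs).differentiable (by simp)) _).hasFDerivAt.comp_hasDerivAt t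
      (hline t)
  set h : ℝ → ℝ := fun t => inner ℝ (postMean μ s (y - p + t • p)) d
    - (1 / 2) * inner ℝ (postMean μ s (y - p + t • p)) p - t * (‖d‖ ^ 2 / 2) with hh
  have hder : ∀ t : ℝ, HasDerivAt h (inner ℝ (M (y - p + t • p) p) d
      - (1 / 2) * inner ℝ (M (y - p + t • p) p) p - ‖d‖ ^ 2 / 2) t := by
    intro t
    have h1 : HasDerivAt (fun t : ℝ => inner ℝ (postMean μ s (y - p + t • p)) d)
        (inner ℝ (M (y - p + t • p) p) d) t := by
      simpa using (hbd t).inner ℝ (hasDerivAt_const t d)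
    have h2 : HasDerivAt (fun t : ℝ => inner ℝ (postMean μ s (y - p + t • p)) p)
        (inner ℝ (M (y - p + t • p) p) p) t := by
      simpa using (hbd t).inner ℝ (hasDerivAt_const t p)
    have h3 : HasDerivAt (fun t : ℝ => t * (‖d‖ ^ 2 / 2)) (‖d‖ ^ 2 / 2) t := by
      simpa using (hasDerivAt_id t).mul_const (‖d‖ ^ 2 / 2)
    exact (h1.sub (h2.const_mul (1 / 2))).sub h3
  have hanti : Antitone h := by
    apply antitone_of_deriv_nonpos (fun t => (hder t).differentiableAt)
    intro t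
    rw [(hder t).deriv]
    set z := y - p + t • p
    have h1 := hM0 z (p - d)
    rw [map_sub, inner_sub_left, inner_sub_right, inner_sub_right, hMsym z d p,
      real_inner_comm (M z p) d] at h1
    have h2 := hM1 z d
    linarith
  have h01 := hanti (zero_le_one)
  simp only [hh, one_smul, zero_smul, add_zero, sub_add_cancel, one_mul, zero_mul, sub_zero] at h01
  have e1 : inner ℝ (postMean μ s y) d - inner ℝ (postMean μ s (y - p)) d = ‖d‖ ^ 2 := by
    rw [← inner_sub_left, ← hd, real_inner_self_eq_norm_sq]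
  have e2 : inner ℝ (postMean μ s y) p - inner ℝ (postMean μ s (y - p)) p = inner ℝ p d := by
    rw [← inner_sub_left, ← hd, real_inner_comm]
  linarith

end Claimed.Agent.R259
end

/- ===== packed: Claimed.Agent.R259.GcMoments ===== -/
section
/-
Row 259, kit GC-D (moments of mu_s and of b_s(Y): mgf, conditional Jensen, Gaussian tails, comparison with gamma_s).  EXPORTS (statements fixed by sub-captain helper83).
DONE (helper221): all 7 statements proved (only gc_spd and gc_grad_log of GcSmooth are used as black boxes, in gc_grad_log_ratio).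
Extra exports (prefix `gcm_`): gcm_ae_norm_le, gcm_integrable_of_continuous (continuous functions are integrable for BddSupp mu),
gcm_gconv_pos, gcm_kernel_integrable / gcm_kernel_integral / gcm_kernel_integrable_right (Fubini for (x,y) -> gk s (y-x) • psi x,
psi integrable, Banach valued, NO support condition), gcm_gconv_smul_postMean, gcm_jensen (pointwise conditional Jensen by tangent
lines), gcm_jensen_int, gcm_shift (Cameron-Martin), gcm_mgf_aux, gcm_gk_ratio.
-/
set_option autoImplicit false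
set_option linter.unusedSectionVars false

open MeasureTheory Filter Topology ProbabilityTheory
open scoped ContDiff ENNReal

namespace Claimed.Agent.R259

variable {E : Type} [NormedAddCommGroup E] [InnerProductSpace ℝ E] [FiniteDimensional ℝ E]
  [MeasurableSpace E] [BorelSpace E]

variable {μ : Measure E} [IsProbabilityMeasure μ]

/-! ### tools -/

theorem gcm_ae_norm_le {r : ℝ} (hr : μ (Metric.closedBall 0 r)ᶜ = 0) : ∀ᵐ x ∂μ, ‖x‖ ≤ r := by
  rw [ae_iff]
  convert hr using 2
  ext x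
  simp

theorem gcm_integrable_of_continuous {F : Type} [NormedAddCommGroup F] (hb : BddSupp μ) {ψ : E → F}
    (hψ : Continuous ψ) : Integrable ψ μ := by
  obtain ⟨r, hr⟩ := hb
  obtain ⟨C, hC⟩ := (isCompact_closedBall (0 : E) r).exists_bound_of_continuousOn hψ.continuousOn
  refine Integrable.mono' (integrable_const C) hψ.aestronglyMeasurable ?_
  filter_upwards [gcm_ae_norm_le hr] with x hx
  exact hC x (by simpa using hx)

theorem gcm_gconv_pos {s : ℝ} (hs : 0 < s) (y : E) : 0 < gconv μ s y := by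
  unfold gconv
  rw [integral_pos_iff_support_of_nonneg (fun x => (gc_gk_pos hs _).le)
    (gck_gconv_integrable hs y)]
  have : Function.support (fun x => gk s (y - x)) = Set.univ := by
    ext x
    simp [(gc_gk_pos hs (y - x)).ne']
  rw [this]
  simp

/-- Fubini for the kernel: integrability. -/
theorem gcm_kernel_integrable {F : Type} [NormedAddCommGroup F] [NormedSpace ℝ F]
    {s : ℝ} (hs : 0 < s) {ψ : E → F} (hψ : Integrable ψ μ) :
    Integrable (fun p : E × E => gk s (p.2 - p.1) • ψ p.1) (μ.prod volume) := by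
  have hm := gck_measurable (E := E) s
  have hmeas : AEStronglyMeasurable (fun p : E × E => gk s (p.2 - p.1) • ψ p.1) (μ.prod volume) := by
    refine AEStronglyMeasurable.smul (Measurable.aestronglyMeasurable (by fun_prop)) ?_
    exact hψ.aestronglyMeasurable.comp_fst
  rw [integrable_prod_iff hmeas]
  refine ⟨Eventually.of_forall fun x => ?_, ?_⟩
  · exact Integrable.smul_const ((gck_integrable (E := E) hs).comp_sub_right x) (ψ x)
  · have : (fun x => ∫ y, ‖gk s (y - x) • ψ x‖) = fun x => ‖ψ x‖ := by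
      funext x
      simp_rw [norm_smul, Real.norm_eq_abs, abs_of_pos (gc_gk_pos hs _)]
      rw [integral_mul_const, integral_sub_right_eq_self (fun w => gk s w), gc_gk_integral hs,
        one_mul]
    rw [this]
    exact hψ.norm

/-- Fubini for the kernel: the integral. -/
theorem gcm_kernel_integral {F : Type} [NormedAddCommGroup F] [NormedSpace ℝ F] [CompleteSpace F]
    {s : ℝ} (hs : 0 < s) {ψ : E → F} (hψ : Integrable ψ μ) :
    ∫ y, ∫ x, gk s (y - x) • ψ x ∂μ = ∫ x, ψ x ∂μ := by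
  have h := integral_prod_symm _ (gcm_kernel_integrable hs hψ)
  rw [← h, integral_prod _ (gcm_kernel_integrable hs hψ)]
  refine integral_congr_ae (Eventually.of_forall fun x => ?_)
  show ∫ y, gk s (y - x) • ψ x = ψ x
  rw [integral_smul_const, integral_sub_right_eq_self (fun w => gk s w), gc_gk_integral hs,
    one_smul]

theorem gcm_kernel_integrable_right {F : Type} [NormedAddCommGroup F] [NormedSpace ℝ F]
    {s : ℝ} (hs : 0 < s) {ψ : E → F} (hψ : Integrable ψ μ) :
    Integrable (fun y => ∫ x, gk s (y - x) • ψ x ∂μ) volume :=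
  (gcm_kernel_integrable hs hψ).integral_prod_right

/-- `Z(y) b(y) = ∫ φ_s(y - x) x dμ`. -/
theorem gcm_gconv_smul_postMean {s : ℝ} (hs : 0 < s) (y : E) :
    gconv μ s y • postMean μ s y = ∫ x, gk s (y - x) • x ∂μ := by
  unfold postMean
  rw [smul_smul, mul_inv_cancel₀ (gcm_gconv_pos hs y).ne', one_smul]

/-- pointwise conditional Jensen by the tangent line. -/
theorem gcm_jensen (hb : BddSupp μ) {s : ℝ} (hs : 0 < s) (v : E) {φ φ' : ℝ → ℝ}
    (hφ : Continuous φ) (htan : ∀ a m, φ m + φ' m * (a - m) ≤ φ a) (y : E) :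
    gconv μ s y * φ (inner ℝ v (postMean μ s y)) ≤ ∫ x, gk s (y - x) * φ (inner ℝ v x) ∂μ := by
  have hc := gck_continuous (E := E) s
  set m := inner ℝ v (postMean μ s y) with hm
  have hi1 : Integrable (fun x => gk s (y - x)) μ := gck_gconv_integrable hs y
  have hi2 : Integrable (fun x => gk s (y - x) • x) μ :=
    gcm_integrable_of_continuous hb (by fun_prop)
  have hi3 : Integrable (fun x => gk s (y - x) * inner ℝ v x) μ :=
    gcm_integrable_of_continuous hb (by fun_prop)
  have hi4 : Integrable (fun x => gk s (y - x) * φ (inner ℝ v x)) μ :=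
    gcm_integrable_of_continuous hb (by fun_prop)
  have e1 : ∫ x, gk s (y - x) * inner ℝ v x ∂μ = gconv μ s y * m := by
    have := integral_inner (𝕜 := ℝ) hi2 v
    simp_rw [real_inner_smul_right] at this
    rw [this, ← gcm_gconv_smul_postMean hs, real_inner_smul_right]
  have e2 : ∫ x, gk s (y - x) * (φ m + φ' m * (inner ℝ v x - m)) ∂μ = gconv μ s y * φ m := by
    have : ∀ x, gk s (y - x) * (φ m + φ' m * (inner ℝ v x - m))
        = (φ m - φ' m * m) * gk s (y - x) + φ' m * (gk s (y - x) * inner ℝ v x) := by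
      intro x; ring
    simp_rw [this]
    rw [integral_add (hi1.const_mul _) (hi3.const_mul _), integral_const_mul, integral_const_mul,
      e1]
    show (φ m - φ' m * m) * gconv μ s y + _ = _
    ring
  rw [← e2]
  refine integral_mono ?_ hi4 fun x => mul_le_mul_of_nonneg_left (htan _ _) (gc_gk_pos hs _).le
  exact gcm_integrable_of_continuous hb (by fun_prop)

theorem gcm_jensen_int (hb : BddSupp μ) {s : ℝ} (hs : 0 < s) (v : E) {φ φ' : ℝ → ℝ}
    (hφ : Continuous φ) (h0 : ∀ a, 0 ≤ φ a) (htan : ∀ a m, φ m + φ' m * (a - m) ≤ φ a) :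
    ∫ y, φ (inner ℝ v (postMean μ s y)) ∂(dm (gconv μ s)) ≤ ∫ x, φ (inner ℝ v x) ∂μ := by
  have hψ : Integrable (fun x => φ (inner ℝ v x)) μ :=
    gcm_integrable_of_continuous hb (by fun_prop)
  rw [gck_integral_dm (gck_gconv_measurable s) (gck_gconv_nonneg hs),
    ← gcm_kernel_integral hs hψ]
  refine integral_mono_of_nonneg (Eventually.of_forall fun y => ?_)
    (gcm_kernel_integrable_right hs hψ) (Eventually.of_forall fun y => ?_)
  · exact mul_nonneg (gck_gconv_nonneg hs y) (h0 _)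
  · exact gcm_jensen hb hs v hφ htan y

/-- Cameron-Martin shift of the kernel. -/
theorem gcm_shift {s : ℝ} (hs : 0 < s) (v w : E) :
    gk s w * Real.exp (inner ℝ v w) = Real.exp (s * ‖v‖ ^ 2 / 2) * gk s (w - s • v) := by
  unfold gk
  have e : -‖w‖ ^ 2 / (2 * s) + inner ℝ v w = s * ‖v‖ ^ 2 / 2 + -‖w - s • v‖ ^ 2 / (2 * s) := by
    rw [norm_sub_sq_real, norm_smul, real_inner_smul_right, Real.norm_eq_abs, mul_pow, sq_abs,
      real_inner_comm]
    field_simp
    ring
  rw [mul_assoc, ← Real.exp_add, e, Real.exp_add]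
  ring


/-! ### Moments -/

theorem gcm_mgf_aux {s : ℝ} (hs : 0 < s) (v y : E) :
    gconv μ s y • Real.exp (inner ℝ v y)
      = Real.exp (s * ‖v‖ ^ 2 / 2) * ∫ x, gk s (y - s • v - x) • Real.exp (inner ℝ v x) ∂μ := by
  rw [← integral_const_mul, smul_eq_mul]
  unfold gconv
  rw [← integral_mul_const]
  refine integral_congr_ae (Eventually.of_forall fun x => ?_)
  show gk s (y - x) * Real.exp (inner ℝ v y)
    = Real.exp (s * ‖v‖ ^ 2 / 2) * (gk s (y - s • v - x) * Real.exp (inner ℝ v x))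
  have e : inner ℝ v y = inner ℝ v (y - x) + inner ℝ v x := by
    rw [← inner_add_right, sub_add_cancel]
  rw [e, Real.exp_add, ← mul_assoc, gcm_shift hs, sub_right_comm, mul_assoc]

/-- `E exp⟨v, Y⟩ = exp(s|v|²/2) E exp⟨v, X⟩`. -/
theorem gc_mgf (hb : BddSupp μ) {s : ℝ} (hs : 0 < s) (v : E) :
    Integrable (fun y => Real.exp (inner ℝ v y)) (dm (gconv μ s)) ∧
    ∫ y, Real.exp (inner ℝ v y) ∂(dm (gconv μ s)) =
      Real.exp (s * ‖v‖ ^ 2 / 2) * ∫ x, Real.exp (inner ℝ v x) ∂μ := by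
  have hψ : Integrable (fun x => Real.exp (inner ℝ v x)) μ :=
    gcm_integrable_of_continuous hb (by fun_prop)
  have hmz : Measurable (fun y => ENNReal.ofReal (gconv μ s y)) :=
    (gck_gconv_measurable s).ennreal_ofReal
  constructor
  · unfold dm
    rw [integrable_withDensity_iff_integrable_smul' hmz
      (Eventually.of_forall fun x => ENNReal.ofReal_lt_top)]
    simp_rw [ENNReal.toReal_ofReal (gck_gconv_nonneg hs _), gcm_mgf_aux hs v]
    exact ((gcm_kernel_integrable_right hs hψ).comp_sub_right (s • v)).const_mul _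
  · rw [gck_integral_dm (gck_gconv_measurable s) (gck_gconv_nonneg hs)]
    simp_rw [gcm_mgf_aux hs v]
    rw [integral_const_mul,
      integral_sub_right_eq_self (fun y => ∫ x, gk s (y - x) • Real.exp (inner ℝ v x) ∂μ) (s • v),
      gcm_kernel_integral hs hψ]

/-- conditional Jensen: `E exp⟨v, b_s(Y)⟩ ≤ E exp⟨v, X⟩`. -/
theorem gc_mgf_postMean (hb : BddSupp μ) {s : ℝ} (hs : 0 < s) (v : E) :
    ∫ y, Real.exp (inner ℝ v (postMean μ s y)) ∂(dm (gconv μ s)) ≤
      ∫ x, Real.exp (inner ℝ v x) ∂μ := by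
  refine gcm_jensen_int hb hs v (φ := Real.exp) (φ' := Real.exp) Real.continuous_exp
    (fun a => (Real.exp_pos a).le) fun a m => ?_
  have h := Real.add_one_le_exp (a - m)
  have e : Real.exp a = Real.exp m * Real.exp (a - m) := by
    rw [← Real.exp_add]; congr 1; ring
  rw [e]
  nlinarith [Real.exp_pos m]

/-- conditional Jensen: `E ⟨v, b_s(Y)⟩² ≤ E ⟨v, X⟩²`. -/
theorem gc_second_postMean (hb : BddSupp μ) {s : ℝ} (hs : 0 < s) (v : E) :
    ∫ y, inner ℝ v (postMean μ s y) ^ 2 ∂(dm (gconv μ s)) ≤ ∫ x, inner ℝ v x ^ 2 ∂μ := by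
  refine gcm_jensen_int hb hs v (φ := fun a => a ^ 2) (φ' := fun m => 2 * m) (by fun_prop)
    (fun a => sq_nonneg a) fun a m => ?_
  nlinarith [sq_nonneg (a - m)]

/-- tower property: `E b_s(Y) = E X`, `E Y = E X`. -/
theorem gc_mean (hb : BddSupp μ) {s : ℝ} (hs : 0 < s) :
    ∫ y, postMean μ s y ∂(dm (gconv μ s)) = ∫ x, x ∂μ ∧ ∫ y, y ∂(dm (gconv μ s)) = ∫ x, x ∂μ := by
  have hid : Integrable (fun x : E => x) μ := gcm_integrable_of_continuous hb continuous_id
  constructor
  · rw [gck_integral_dm (gck_gconv_measurable s) (gck_gconv_nonneg hs)]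
    simp_rw [gcm_gconv_smul_postMean hs]
    exact gcm_kernel_integral hs hid
  · rw [gc_law hs, integral_map (by fun_prop) (by fun_prop)]
    have h1 : Integrable (fun p : E × E => p.1) (μ.prod (stdGaussian E)) := hid.comp_fst _
    have h2 : Integrable (fun p : E × E => Real.sqrt s • p.2) (μ.prod (stdGaussian E)) :=
      (Integrable.comp_snd (IsGaussian.integrable_id (μ := stdGaussian E)) μ).smul _
    rw [integral_add h1 h2, integral_fun_fst (fun x : E => x), integral_smul,
      integral_fun_snd (fun x : E => x), integral_id_stdGaussian]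
    simp

/-- Gaussian tails of `μ_s`. -/
theorem gc_exp_sq (hb : BddSupp μ) {s : ℝ} (hs : 0 < s) :
    ∃ c > 0, Integrable (fun y => Real.exp (c * ‖y‖ ^ 2)) (dm (gconv μ s)) := by
  obtain ⟨r, hr⟩ := hb
  obtain ⟨C, hC0, hC⟩ := IsGaussian.exists_integrable_exp_sq (stdGaussian E)
  refine ⟨C / (2 * s), by positivity, ?_⟩
  rw [gc_law hs, integrable_map_measure (by fun_prop) (by fun_prop)]
  have hbound : Integrable (fun p : E × E => Real.exp (C / (2 * s) * (2 * r ^ 2))
      * Real.exp (C * ‖p.2‖ ^ 2)) (μ.prod (stdGaussian E)) := (hC.comp_snd μ).const_mul _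
  refine hbound.mono' (by fun_prop) ?_
  have hae : ∀ᵐ p ∂(μ.prod (stdGaussian E)), ‖p.1‖ ≤ r :=
    Measure.quasiMeasurePreserving_fst.ae (gcm_ae_norm_le hr)
  filter_upwards [hae] with p hp
  simp only [Function.comp_apply]
  rw [Real.norm_eq_abs, abs_of_pos (Real.exp_pos _), ← Real.exp_add]
  apply Real.exp_le_exp.2
  have h1 : ‖p.1 + Real.sqrt s • p.2‖ ^ 2 ≤ 2 * ‖p.1‖ ^ 2 + 2 * (s * ‖p.2‖ ^ 2) := by
    have h := parallelogram_law_with_norm ℝ p.1 (Real.sqrt s • p.2)
    have h2 : ‖Real.sqrt s • p.2‖ ^ 2 = s * ‖p.2‖ ^ 2 := by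
      rw [norm_smul, mul_pow, Real.norm_eq_abs, sq_abs, Real.sq_sqrt hs.le]
    nlinarith [sq_nonneg ‖p.1 - Real.sqrt s • p.2‖]
  have h2 : ‖p.1‖ ^ 2 ≤ r ^ 2 := pow_le_pow_left₀ (norm_nonneg _) hp 2
  have h3 : 0 < C / (2 * s) := by positivity
  calc C / (2 * s) * ‖p.1 + Real.sqrt s • p.2‖ ^ 2
      ≤ C / (2 * s) * (2 * r ^ 2 + 2 * (s * ‖p.2‖ ^ 2)) := by
        apply mul_le_mul_of_nonneg_left _ h3.le
        linarith
    _ = C / (2 * s) * (2 * r ^ 2) + C * ‖p.2‖ ^ 2 := by
        field_simp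

theorem gcm_gk_ratio {s : ℝ} (hs : 0 < s) (y x : E) :
    gk s (y - x) = gk s y * Real.exp ((2 * inner ℝ y x - ‖x‖ ^ 2) / (2 * s)) := by
  unfold gk
  rw [mul_assoc ((2 * Real.pi * s) ^ (-(Module.finrank ℝ E : ℝ) / 2)), ← Real.exp_add]
  congr 2
  rw [norm_sub_sq_real]
  field_simp
  ring

/-- two-sided comparison with the Gaussian: `r = dμ_s/dγ_s`, `|log r(y)| ≤ C (1 + |y|)`. -/
theorem gc_log_ratio (hb : BddSupp μ) {s : ℝ} (hs : 0 < s) :
    ∃ C : ℝ, ∀ y : E, |Real.log (gconv μ s y / gk s y)| ≤ C * (1 + ‖y‖) := by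
  obtain ⟨r, hr⟩ := hb
  set R := max r 0 with hR
  have hR0 : 0 ≤ R := le_max_right _ _
  have hae : ∀ᵐ x ∂μ, ‖x‖ ≤ R := by
    filter_upwards [gcm_ae_norm_le hr] with x hx
    exact hx.trans (le_max_left _ _)
  refine ⟨(2 * R + R ^ 2) / (2 * s), fun y => ?_⟩
  set a := (2 * R * ‖y‖ + R ^ 2) / (2 * s) with ha
  have hgy := gc_gk_pos hs y
  have hbd : ∀ᵐ x ∂μ, gk s y * Real.exp (-a) ≤ gk s (y - x) ∧ gk s (y - x) ≤ gk s y * Real.exp a := by
    filter_upwards [hae] with x hx
    rw [gcm_gk_ratio hs]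
    have h1 : |inner ℝ y x| ≤ ‖y‖ * R :=
      (abs_real_inner_le_norm y x).trans (mul_le_mul_of_nonneg_left hx (norm_nonneg _))
    have h2 : ‖x‖ ^ 2 ≤ R ^ 2 := pow_le_pow_left₀ (norm_nonneg _) hx 2
    have h3 := abs_le.1 h1
    constructor
    · apply mul_le_mul_of_nonneg_left _ hgy.le
      apply Real.exp_le_exp.2
      rw [ha, ← neg_div]
      apply div_le_div_of_nonneg_right _ (by positivity)
      nlinarith [h3.1]
    · apply mul_le_mul_of_nonneg_left _ hgy.le
      apply Real.exp_le_exp.2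
      rw [ha]
      apply div_le_div_of_nonneg_right _ (by positivity)
      nlinarith [h3.2, sq_nonneg ‖x‖]
  have hlo : gk s y * Real.exp (-a) ≤ gconv μ s y := by
    have := integral_mono_ae (integrable_const (gk s y * Real.exp (-a)))
      (gck_gconv_integrable (μ := μ) hs y) (hbd.mono fun x hx => hx.1)
    unfold gconv
    simpa using this
  have hhi : gconv μ s y ≤ gk s y * Real.exp a := by
    have := integral_mono_ae (gck_gconv_integrable (μ := μ) hs y)
      (integrable_const (gk s y * Real.exp a)) (hbd.mono fun x hx => hx.2)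
    unfold gconv
    simpa using this
  have hq0 : 0 < gconv μ s y / gk s y := div_pos (gcm_gconv_pos hs y) hgy
  have h1 : Real.exp (-a) ≤ gconv μ s y / gk s y := by
    rw [le_div_iff₀ hgy]; linarith
  have h2 : gconv μ s y / gk s y ≤ Real.exp a := by
    rw [div_le_iff₀ hgy]; linarith
  have h3 : -a ≤ Real.log (gconv μ s y / gk s y) := by
    rw [Real.le_log_iff_exp_le hq0]; exact h1
  have h4 : Real.log (gconv μ s y / gk s y) ≤ a := by
    rw [Real.log_le_iff_le_exp hq0]; exact h2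
  have h5 : a ≤ (2 * R + R ^ 2) / (2 * s) * (1 + ‖y‖) := by
    rw [ha, div_mul_eq_mul_div]
    apply div_le_div_of_nonneg_right _ (by positivity)
    nlinarith [norm_nonneg y, mul_nonneg (sq_nonneg R) (norm_nonneg y)]
  exact abs_le.2 ⟨by linarith, by linarith⟩

/-- `D log r = b_s/s`. -/
theorem gc_grad_log_ratio (hb : BddSupp μ) {s : ℝ} (hs : 0 < s) (y : E) :
    gradient (fun z => Real.log (gconv μ s z / gk s z)) y = s⁻¹ • postMean μ s y := by
  obtain ⟨hZc, hZ0, -⟩ := gc_spd hb hs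
  have e : (fun z => Real.log (gconv μ s z / gk s z))
      = fun z => Real.log (gconv μ s z) - Real.log (gk s z) := by
    funext z
    exact Real.log_div (hZ0 z).ne' (gc_gk_pos hs z).ne'
  have hd1 : DifferentiableAt ℝ (fun z => Real.log (gconv μ s z)) y :=
    ((hZc.differentiable (by simp)) y).log (hZ0 y).ne'
  have h1 : HasGradientAt (fun z => Real.log (gconv μ s z)) (-(s⁻¹ • (y - postMean μ s y))) y := by
    rw [← gc_grad_log hb hs y]
    exact hd1.hasGradientAt
  have h2 : HasGradientAt (fun z : E => Real.log (gk s z)) (-(s⁻¹ • y)) y := by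
    have e2 : (fun z : E => Real.log (gk s z))
        = fun z => Real.log ((2 * Real.pi * s) ^ (-(Module.finrank ℝ E : ℝ) / 2))
          + -(1 / (2 * s)) * ‖z‖ ^ 2 := by
      funext z
      unfold gk
      rw [Real.log_mul (Real.rpow_pos_of_pos (by positivity) _).ne' (Real.exp_pos _).ne',
        Real.log_exp]
      ring
    rw [e2, hasGradientAt_iff_hasFDerivAt]
    have h := (((hasFDerivAt_id y).norm_sq).const_mul (-(1 / (2 * s)))).const_add
      (Real.log ((2 * Real.pi * s) ^ (-(Module.finrank ℝ E : ℝ) / 2)))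
    have hL : (InnerProductSpace.toDual ℝ E) (-(s⁻¹ • y))
        = -(1 / (2 * s)) • (2 • (innerSL ℝ (id y)).comp (ContinuousLinearMap.id ℝ E)) := by
      ext u
      simp only [InnerProductSpace.toDual_apply_apply, inner_neg_left, real_inner_smul_left,
        ContinuousLinearMap.smul_apply, ContinuousLinearMap.comp_apply, innerSL_apply_apply,
        ContinuousLinearMap.id_apply, id_eq, smul_eq_mul, nsmul_eq_mul, Nat.cast_ofNat]
      field_simp
    rw [hL]
    exact h
  rw [hasGradientAt_iff_hasFDerivAt] at h1 h2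
  have h3 := h1.sub h2
  rw [← map_sub, ← hasGradientAt_iff_hasFDerivAt] at h3
  rw [e]
  have h4 := h3.gradient
  rw [show (fun z => Real.log (gconv μ s z) - Real.log (gk s z))
    = (fun z => Real.log (gconv μ s z)) - fun z => Real.log (gk s z) from rfl, h4, smul_sub]
  abel

end Claimed.Agent.R259
end

/- ===== packed: Claimed.Agent.R259.GC ===== -/
section
/-
Row 259, kit GC (Gaussian convolution and posterior calculus; (3.posterior), (3.curvature)):
aggregator.  Sub-captain: helper83.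
-/

end

/- ===== packed: Claimed.Agent.R259.CptHerm ===== -/
section
/-
Row 259, kit CPT, leaf HERM: Hermite defect inequality for the standard Gaussian on `EE m`.
Owner: helper72.  Uses the Hermite basis `CptGH*` and the Gaussian integration by parts of row 260 (frozen).
-/
set_option autoImplicit false

open MeasureTheory Filter Topology ProbabilityTheory
open Claimed.Agent.R260

namespace Claimed.Agent.R259

/-- the box `{α : ∀ r, α r ≤ N}` of multi-indices -/
def cptBox (m N : ℕ) : Finset (Fin m → ℕ) := Fintype.piFinset fun _ => Finset.range (N + 1)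

variable {m : ℕ}

/-- a `C¹` function with compact support is of class `C1P` -/
theorem cpt_C1P_of_compact {u : EE m → ℝ} (hu : ContDiff ℝ 1 u) (hc : HasCompactSupport u) :
    C1P u := by
  obtain ⟨C1, h1⟩ := hc.exists_bound_of_continuous hu.continuous
  obtain ⟨C2, h2⟩ := (hc.fderiv (𝕜 := ℝ)).exists_bound_of_continuous (hu.continuous_fderiv one_ne_zero)
  refine ⟨hu, C1 + C2, 0, fun x => ?_⟩
  have a1 := h1 x
  have a2 := h2 x
  rw [Real.norm_eq_abs] at a1
  simp only [pow_zero, mul_one]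
  linarith only [a1, a2]

/-- derivative of the normalised Hermite function -/
noncomputable def cptDh (n : ℕ) (t : ℝ) : ℝ :=
  (Polynomial.derivative (ghHr n)).eval t / Real.sqrt n.factorial

theorem cpt_ghh_hasDerivAt (n : ℕ) (t : ℝ) : HasDerivAt (ghh n) (cptDh n t) t := by
  have := ((ghHr n).hasDerivAt t).div_const (Real.sqrt n.factorial)
  exact this

theorem cpt_ghh_rec (n : ℕ) (t : ℝ) :
    t * ghh n t - cptDh n t = Real.sqrt ((n : ℝ) + 1) * ghh (n + 1) t := by
  have h1 := (gh_sqrt_factorial_pos n).ne'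
  have h2 : Real.sqrt ((n : ℝ) + 1) ≠ 0 := (Real.sqrt_pos.mpr (by positivity)).ne'
  have h3 : Real.sqrt ((n + 1).factorial : ℝ) = Real.sqrt ((n : ℝ) + 1) * Real.sqrt n.factorial := by
    rw [Nat.factorial_succ, Nat.cast_mul, Real.sqrt_mul (by positivity)]
    push_cast
    rfl
  simp only [ghh, cptDh, ghHr_succ, Polynomial.eval_sub, Polynomial.eval_mul, Polynomial.eval_X, h3]
  field_simp

theorem cpt_ghh_contDiff (n : ℕ) : ContDiff ℝ 1 (ghh n) := by
  unfold ghh
  exact (Polynomial.contDiff_aeval (ghHr n) 1).div_const _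

theorem cpt_ghH_contDiff (β : Fin m → ℕ) : ContDiff ℝ 1 (ghH β) := by
  unfold ghH
  refine contDiff_prod fun i _ => (cpt_ghh_contDiff (β i)).comp ?_
  exact (EuclideanSpace.proj i : EE m →L[ℝ] ℝ).contDiff

theorem cpt_ghH_split (β : Fin m → ℕ) (r : Fin m) (x : EE m) :
    ghH β x = ghh (β r) (x r) * ∏ i ∈ Finset.univ.erase r, ghh (β i) (x i) := by
  unfold ghH
  rw [Finset.mul_prod_erase Finset.univ (fun i => ghh (β i) (x i)) (Finset.mem_univ r)]

theorem cpt_pd_ghH (β : Fin m → ℕ) (r : Fin m) (x : EE m) :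
    pd r (ghH β) x = cptDh (β r) (x r) * ∏ i ∈ Finset.univ.erase r, ghh (β i) (x i) := by
  have hd : DifferentiableAt ℝ (ghH β) x := ((cpt_ghH_contDiff β).differentiable one_ne_zero) x
  have h1 : HasDerivAt (fun t : ℝ => ghH β (x + t • eb r)) (fderiv ℝ (ghH β) x (eb r)) 0 :=
    hd.hasFDerivAt.hasLineDerivAt (eb r)
  have h2 : (fun t : ℝ => ghH β (x + t • eb r))
      = fun t => ghh (β r) (x r + t) * ∏ i ∈ Finset.univ.erase r, ghh (β i) (x i) := by
    funext t
    rw [cpt_ghH_split β r]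
    congr 1
    · simp [eb]
    · refine Finset.prod_congr rfl fun i hi => ?_
      have : i ≠ r := Finset.ne_of_mem_erase hi
      simp [eb, this]
  have h3 : HasDerivAt (fun t => ghh (β r) (x r + t) * ∏ i ∈ Finset.univ.erase r, ghh (β i) (x i))
      (cptDh (β r) (x r) * ∏ i ∈ Finset.univ.erase r, ghh (β i) (x i)) 0 := by
    have a := HasDerivAt.comp_const_add (x r) 0 (cpt_ghh_hasDerivAt (β r) (x r + 0))
    rw [add_zero] at a
    exact a.mul_const _
  rw [h2] at h1
  exact h1.unique h3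

theorem cpt_ghH_rec (β : Fin m → ℕ) (r : Fin m) (x : EE m) :
    x r * ghH β x - pd r (ghH β) x
      = Real.sqrt ((β r : ℝ) + 1) * ghH (Function.update β r (β r + 1)) x := by
  rw [cpt_pd_ghH, cpt_ghH_split β r, cpt_ghH_split (Function.update β r (β r + 1)) r,
    Function.update_self]
  have e : ∏ i ∈ Finset.univ.erase r, ghh (Function.update β r (β r + 1) i) (x i)
      = ∏ i ∈ Finset.univ.erase r, ghh (β i) (x i) := by
    refine Finset.prod_congr rfl fun i hi => ?_
    rw [Function.update_of_ne (Finset.ne_of_mem_erase hi)]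
  rw [e, ← mul_assoc, ← mul_assoc, ← sub_mul, cpt_ghh_rec]

/-- Hermite coefficients of a partial derivative. -/
theorem cpt_ghC_pd {w : EE m → ℝ} (hw : ContDiff ℝ 1 w) (hc : HasCompactSupport w) (r : Fin m)
    (β : Fin m → ℕ) :
    ghC (pd r w) β = Real.sqrt ((β r : ℝ) + 1) * ghC w (Function.update β r (β r + 1)) := by
  have hH := cpt_ghH_contDiff β
  have hC : C1P (fun x => w x * ghH β x) := cpt_C1P_of_compact (hw.mul hH) hc.mul_right
  have h1 := gk_ibp hC r
  have i1 : Integrable (fun x => pd r (fun x => w x * ghH β x) x) (gam m) := (hC.pd_PG r).integrable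
  have i2 : Integrable (fun x => x r * (w x * ghH β x)) (gam m) :=
    ((gk_PG_coord r).mul hC.toPG).integrable
  have i3 : Integrable (fun x => w x * pd r (ghH β) x) (gam m) :=
    (hw.continuous.mul (gk_continuous_pd hH r)).integrable_of_hasCompactSupport hc.mul_right
  have e1 : ghC (pd r w) β
      = ∫ x, (pd r (fun x => w x * ghH β x) x - w x * pd r (ghH β) x) ∂gam m := by
    unfold ghC
    refine integral_congr_ae (Eventually.of_forall fun x => ?_)
    simp only [gk_pd_mul hw hH r x]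
    ring
  have e2 : Real.sqrt ((β r : ℝ) + 1) * ghC w (Function.update β r (β r + 1))
      = ∫ x, (x r * (w x * ghH β x) - w x * pd r (ghH β) x) ∂gam m := by
    unfold ghC
    rw [← integral_const_mul]
    refine integral_congr_ae (Eventually.of_forall fun x => ?_)
    have := cpt_ghH_rec β r x
    simp only
    calc Real.sqrt ((β r : ℝ) + 1) * (w x * ghH (Function.update β r (β r + 1)) x)
        = w x * (Real.sqrt ((β r : ℝ) + 1) * ghH (Function.update β r (β r + 1)) x) := by ring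
      _ = w x * (x r * ghH β x - pd r (ghH β) x) := by rw [this]
      _ = _ := by ring
  rw [e1, e2, integral_sub i1 i3, integral_sub i2 i3, h1]

theorem cpt_update_injective (r : Fin m) :
    Function.Injective fun β : Fin m → ℕ => Function.update β r (β r + 1) := by
  intro β β' h
  funext i
  have hi := congrFun h i
  by_cases hir : i = r
  · subst hir
    simpa using hi
  · simpa [Function.update_of_ne hir] using hi

/-- weighted Parseval identity: `∑_α α_r c_α(w)² = ∫ (∂_r w)² dγ`. -/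
theorem cpt_hasSum_weight {w : EE m → ℝ} (hw : ContDiff ℝ 1 w) (hc : HasCompactSupport w)
    (r : Fin m) :
    HasSum (fun α : Fin m → ℕ => (α r : ℝ) * ghC w α ^ 2) (∫ x, pd r w x ^ 2 ∂gam m) := by
  have hpd : MemLp (pd r w) 2 (gam m) :=
    (gk_continuous_pd hw r).memLp_of_hasCompactSupport (hc.fderiv_apply ℝ (eb r))
  have hp := gh_parseval_sq hpd
  refine (Function.Injective.hasSum_iff (cpt_update_injective r) fun α hα => ?_).1 ?_
  · by_cases h0 : α r = 0
    · simp [h0]
    · exfalso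
      refine hα ⟨Function.update α r (α r - 1), ?_⟩
      simp only [Function.update_self, Function.update_idem]
      rw [Nat.sub_add_cancel (Nat.one_le_iff_ne_zero.mpr h0), Function.update_eq_self]
  · have e : ((fun α : Fin m → ℕ => (α r : ℝ) * ghC w α ^ 2) ∘
        fun β : Fin m → ℕ => Function.update β r (β r + 1)) = fun β => ghC (pd r w) β ^ 2 := by
      funext β
      simp only [Function.comp_apply, Function.update_self]
      rw [cpt_ghC_pd hw hc, mul_pow, Real.sq_sqrt (by positivity)]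
      push_cast
      rfl
    rw [e]
    exact hp

/-- `∫ w² dγ ≤ ∑_{α ∈ box N} c_α(w)² + (N+1)⁻¹ ∑_r ∫ (∂_r w)² dγ`. -/
theorem cpt_hermite_defect (N : ℕ) {w : EuclideanSpace ℝ (Fin m) → ℝ}
    (hw : ContDiff ℝ 1 w) (hc : HasCompactSupport w) :
    ∫ x, w x ^ 2 ∂gam m ≤ ∑ α ∈ cptBox m N, ghC w α ^ 2
      + 1 / ((N : ℝ) + 1) * ∑ r, ∫ x, pd r w x ^ 2 ∂gam m := by
  classical
  have hw2 : MemLp w 2 (gam m) := hw.continuous.memLp_of_hasCompactSupport hc
  have h1 := gh_parseval_sq hw2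
  have h2 : HasSum (fun α => if α ∈ cptBox m N then ghC w α ^ 2 else 0)
      (∑ α ∈ cptBox m N, ghC w α ^ 2) := by
    have := hasSum_sum_of_ne_finset_zero (L := SummationFilter.unconditional _)
      (f := fun α => if α ∈ cptBox m N then ghC w α ^ 2 else 0)
      (s := cptBox m N) (fun b hb => by simp [hb])
    have e : ∑ b ∈ cptBox m N, (if b ∈ cptBox m N then ghC w b ^ 2 else 0)
        = ∑ α ∈ cptBox m N, ghC w α ^ 2 :=
      Finset.sum_congr rfl fun α hα => by simp only [hα, if_true]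
    rwa [e] at this
  have h3 : HasSum (fun α : Fin m → ℕ => ∑ r, (α r : ℝ) * ghC w α ^ 2)
      (∑ r, ∫ x, pd r w x ^ 2 ∂gam m) :=
    hasSum_sum fun r _ => cpt_hasSum_weight hw hc r
  have h4 := h2.add (h3.mul_left (1 / ((N : ℝ) + 1)))
  refine hasSum_le (fun α => ?_) h1 h4
  have hN : (0 : ℝ) < (N : ℝ) + 1 := by positivity
  have hnn : 0 ≤ ∑ r, (α r : ℝ) * ghC w α ^ 2 :=
    Finset.sum_nonneg fun r _ => by positivity
  by_cases hα : α ∈ cptBox m N
  · simp only [hα, if_true]
    have : 0 ≤ 1 / ((N : ℝ) + 1) * ∑ r, (α r : ℝ) * ghC w α ^ 2 := by positivity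
    linarith only [this]
  · simp only [hα, if_false, zero_add]
    have : ∃ r, N + 1 ≤ α r := by
      by_contra hcon
      refine hα ?_
      simp only [cptBox, Fintype.mem_piFinset, Finset.mem_range]
      intro r
      by_contra hr
      exact hcon ⟨r, not_lt.mp hr⟩
    obtain ⟨r, hr⟩ := this
    have hr' : (N : ℝ) + 1 ≤ (α r : ℝ) := by exact_mod_cast hr
    have a1 : (α r : ℝ) * ghC w α ^ 2 ≤ ∑ r, (α r : ℝ) * ghC w α ^ 2 :=
      Finset.single_le_sum (f := fun r => (α r : ℝ) * ghC w α ^ 2)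
        (fun i _ => by positivity) (Finset.mem_univ r)
    have a2 : ((N : ℝ) + 1) * ghC w α ^ 2 ≤ (α r : ℝ) * ghC w α ^ 2 :=
      mul_le_mul_of_nonneg_right hr' (sq_nonneg _)
    rw [one_div, ← div_eq_inv_mul, le_div_iff₀ hN]
    linarith only [a1, a2]

end Claimed.Agent.R259
end

/- ===== packed: Claimed.Agent.R259.CptGauss ===== -/
section
/-
Row 259, kit CPT, leaf GAUSS: the Hermite defect inequality transported to `(E, γ_s)`,
`γ_s = dm (gk s)`.  Owner: helper72.
-/
set_option autoImplicit false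
set_option linter.unusedSectionVars false

open MeasureTheory Filter Topology ProbabilityTheory
open scoped ContDiff ENNReal

namespace Claimed.Agent.R259

variable {E : Type} [NormedAddCommGroup E] [InnerProductSpace ℝ E] [FiniteDimensional ℝ E]
  [MeasurableSpace E] [BorelSpace E]

/-- Hermite functions of `γ_s` on `E` (in the coordinates of the standard orthonormal basis). -/
noncomputable def cptH (s : ℝ) (α : Fin (Module.finrank ℝ E) → ℕ) (y : E) : ℝ :=
  ghH α ((stdOrthonormalBasis ℝ E).repr ((Real.sqrt s)⁻¹ • y))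

/-- the chart `z ↦ √s • e⁻¹ z` as a continuous linear map -/
noncomputable def cptL (E : Type) [NormedAddCommGroup E] [InnerProductSpace ℝ E]
    [FiniteDimensional ℝ E] (s : ℝ) : EuclideanSpace ℝ (Fin (Module.finrank ℝ E)) →L[ℝ] E :=
  Real.sqrt s • ((stdOrthonormalBasis ℝ E).repr.symm.toContinuousLinearEquiv :
    EuclideanSpace ℝ (Fin (Module.finrank ℝ E)) →L[ℝ] E)

theorem cptL_apply (s : ℝ) (z : EuclideanSpace ℝ (Fin (Module.finrank ℝ E))) :
    cptL E s z = Real.sqrt s • (stdOrthonormalBasis ℝ E).repr.symm z := rfl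

/-- the chart as a homeomorphism -/
noncomputable def cptT (E : Type) [NormedAddCommGroup E] [InnerProductSpace ℝ E]
    [FiniteDimensional ℝ E] {s : ℝ} (hs : 0 < s) :
    EuclideanSpace ℝ (Fin (Module.finrank ℝ E)) ≃ₜ E :=
  (stdOrthonormalBasis ℝ E).repr.symm.toHomeomorph.trans
    (Homeomorph.smulOfNeZero (Real.sqrt s) (Real.sqrt_pos.mpr hs).ne')

theorem cptT_coe {s : ℝ} (hs : 0 < s) : (cptT E hs : _ → E) = cptL E s := rfl

theorem cpt_dm_gk_eq_map {s : ℝ} (hs : 0 < s) :
    dm (gk s : E → ℝ) = (Claimed.Agent.R260.gam (Module.finrank ℝ E)).map (cptL E s) := by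
  rw [gc_dm_gk hs, ← stdGaussian_map (stdOrthonormalBasis ℝ E).repr.symm,
    Measure.map_map (by fun_prop) (by fun_prop)]
  rfl

theorem cpt_integral_gk {s : ℝ} (hs : 0 < s) (F : E → ℝ) :
    ∫ y, F y ∂(dm (gk s)) = ∫ z, F (cptL E s z) ∂(Claimed.Agent.R260.gam (Module.finrank ℝ E)) := by
  rw [cpt_dm_gk_eq_map hs, ← cptT_coe hs]
  exact (cptT E hs).measurableEmbedding.integral_map F

theorem cptH_cptL {s : ℝ} (hs : 0 < s) (α : Fin (Module.finrank ℝ E) → ℕ)
    (z : EuclideanSpace ℝ (Fin (Module.finrank ℝ E))) : cptH s α (cptL E s z) = ghH α z := by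
  have h := (Real.sqrt_pos.mpr hs).ne'
  rw [cptH, cptL_apply, smul_smul, inv_mul_cancel₀ h, one_smul, LinearIsometryEquiv.apply_symm_apply]

theorem cptH_continuous (s : ℝ) (α : Fin (Module.finrank ℝ E) → ℕ) :
    Continuous (cptH s α : E → ℝ) := by
  unfold cptH
  exact (ghH_continuous α).comp (by fun_prop)

theorem cptH_memLp {s : ℝ} (hs : 0 < s) (α : Fin (Module.finrank ℝ E) → ℕ) :
    MemLp (cptH s α : E → ℝ) 2 (dm (gk s)) := by
  rw [cpt_dm_gk_eq_map hs, ← cptT_coe hs, (cptT E hs).measurableEmbedding.memLp_map_measure_iff]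
  have e : (cptH s α : E → ℝ) ∘ (cptT E hs) = ghH α := by
    funext z
    rw [Function.comp_apply, cptT_coe hs, cptH_cptL hs]
  rw [e]
  exact ghH_memLp α

theorem cpt_pd_comp {s : ℝ} {w : E → ℝ} (hw : ContDiff ℝ 1 w) (r : Fin (Module.finrank ℝ E))
    (z : EuclideanSpace ℝ (Fin (Module.finrank ℝ E))) :
    Claimed.Agent.R260.pd r (fun z => w (cptL E s z)) z
      = Real.sqrt s * inner ℝ (stdOrthonormalBasis ℝ E r) (gradient w (cptL E s z)) := by
  have hd : DifferentiableAt ℝ w (cptL E s z) := (hw.differentiable one_ne_zero) _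
  have h1 : fderiv ℝ (fun z => w (cptL E s z)) z = (fderiv ℝ w (cptL E s z)).comp (cptL E s) := by
    have := fderiv_comp z hd (cptL E s).differentiableAt
    rw [ContinuousLinearMap.fderiv] at this
    exact this
  unfold Claimed.Agent.R260.pd
  rw [h1, ContinuousLinearMap.comp_apply, Claimed.Agent.R260.eb,
    cptL_apply s (EuclideanSpace.single r (1 : ℝ)),
    OrthonormalBasis.repr_symm_single, map_smul, smul_eq_mul, real_inner_comm, inner_gradient_left]

theorem cpt_gauss_defect {s : ℝ} (hs : 0 < s) (N : ℕ) {w : E → ℝ}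
    (hw : ContDiff ℝ 1 w) (hc : HasCompactSupport w) :
    ∫ x, w x ^ 2 ∂(dm (gk s)) ≤
      ∑ α ∈ cptBox (Module.finrank ℝ E) N, (∫ x, w x * cptH s α x ∂(dm (gk s))) ^ 2
      + s / ((N : ℝ) + 1) * ∫ x, ‖gradient w x‖ ^ 2 ∂(dm (gk s)) := by
  have hW : ContDiff ℝ 1 (fun z => w (cptL E s z)) := hw.comp (cptL E s).contDiff
  have hWc : HasCompactSupport (fun z => w (cptL E s z)) := hc.comp_homeomorph (cptT E hs)
  have key := cpt_hermite_defect N hW hWc
  have e1 : ∀ α, ∫ x, w x * cptH s α x ∂(dm (gk s)) = ghC (fun z => w (cptL E s z)) α := by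
    intro α
    rw [cpt_integral_gk hs, ghC]
    simp only [cptH_cptL hs]
  have e2 : ∑ r, ∫ z, Claimed.Agent.R260.pd r (fun z => w (cptL E s z)) z ^ 2
        ∂(Claimed.Agent.R260.gam (Module.finrank ℝ E))
      = s * ∫ x, ‖gradient w x‖ ^ 2 ∂(dm (gk s)) := by
    rw [cpt_integral_gk hs, ← integral_const_mul, ← integral_finsetSum]
    · refine integral_congr_ae (Eventually.of_forall fun z => ?_)
      simp only [cpt_pd_comp hw, mul_pow, Real.sq_sqrt hs.le, ← Finset.mul_sum,
        OrthonormalBasis.sum_sq_inner_right]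
    · intro r _
      exact ((Claimed.Agent.R260.gk_continuous_pd hW r).memLp_of_hasCompactSupport
        (hWc.fderiv_apply ℝ (Claimed.Agent.R260.eb r))).integrable_sq
  rw [cpt_integral_gk hs]
  simp only [e1]
  rw [e2] at key
  calc _ ≤ _ := key
    _ = _ := by ring

/-- generates the equation lemmas of the definitions above in this file (rule 6: unique names) -/
theorem cpt_gauss_eqns_cite : True := by
  have := @cptH.eq_1
  have := @cptL.eq_1
  have := @cptT.eq_1
  trivial

end Claimed.Agent.R259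
end

/- ===== packed: Claimed.Agent.R259.CptWeight ===== -/
section
/-
Row 259, kit CPT, leaf WEIGHT: the defect inequality for `ν = μ * γ_s` on test functions, by the
substitution `w = f √r`, `r = dν/dγ_s`, `D log r = b_s / s` bounded.  Owner: helper72.
-/
set_option autoImplicit false
set_option linter.unusedSectionVars false

open MeasureTheory Filter Topology ProbabilityTheory
open scoped ContDiff ENNReal

namespace Claimed.Agent.R259

variable {E : Type} [NormedAddCommGroup E] [InnerProductSpace ℝ E] [FiniteDimensional ℝ E]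
  [MeasurableSpace E] [BorelSpace E]

/-- the dual family `h_α / √r`. -/
noncomputable def cptPsi (μ : Measure E) (s : ℝ) (α : Fin (Module.finrank ℝ E) → ℕ) (y : E) : ℝ :=
  cptH s α y / Real.sqrt (gconv μ s y / gk s y)

/-! ### change of reference density -/

theorem cpt_integral_ratio {ν γ : E → ℝ} (hν : Measurable ν) (hγ : Measurable γ)
    (h0 : ∀ x, 0 ≤ ν x) (h1 : ∀ x, 0 < γ x) (F : E → ℝ) :
    ∫ y, ν y / γ y * F y ∂(dm γ) = ∫ y, F y ∂(dm ν) := by
  rw [ws_integral_dm hγ (fun x => (h1 x).le), ws_integral_dm hν h0]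
  refine integral_congr_ae (Eventually.of_forall fun y => ?_)
  have := (h1 y).ne'
  simp only [smul_eq_mul]
  field_simp

theorem cpt_integrable_ratio {ν γ : E → ℝ} (hν : Measurable ν) (hγ : Measurable γ)
    (h0 : ∀ x, 0 ≤ ν x) (h1 : ∀ x, 0 < γ x) (F : E → ℝ) :
    Integrable (fun y => ν y / γ y * F y) (dm γ) ↔ Integrable F (dm ν) := by
  rw [ws_integrable_dm_iff hγ (fun x => (h1 x).le), ws_integrable_dm_iff hν h0]
  refine integrable_congr (Eventually.of_forall fun y => ?_)
  have := (h1 y).ne'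
  simp only [smul_eq_mul]
  field_simp

/-- gradient of `f √r`. -/
theorem cpt_grad_mul_sqrt {f r : E → ℝ} (hf : ContDiff ℝ 1 f) (hr : ContDiff ℝ 1 r)
    (hpos : ∀ y, 0 < r y) (y : E) :
    gradient (fun z => f z * Real.sqrt (r z)) y
      = Real.sqrt (r y) • (gradient f y + (f y / 2) • gradient (fun z => Real.log (r z)) y) := by
  have hr' := (hr.differentiable one_ne_zero y).hasFDerivAt
  have hf' := (hf.differentiable one_ne_zero y).hasFDerivAt
  have h1 := hr'.sqrt (hpos y).ne'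
  have h2 := hr'.log (hpos y).ne'
  have h3 : HasFDerivAt (fun z => f z * Real.sqrt (r z))
      (f y • (1 / (2 * Real.sqrt (r y))) • fderiv ℝ r y + Real.sqrt (r y) • fderiv ℝ f y) y :=
    hf'.mul h1
  have hq : 0 < Real.sqrt (r y) := Real.sqrt_pos.mpr (hpos y)
  have hq2 : Real.sqrt (r y) * Real.sqrt (r y) = r y := Real.mul_self_sqrt (hpos y).le
  unfold gradient
  rw [h3.fderiv, h2.fderiv]
  simp only [map_add, map_smulₛₗ, conj_trivial, smul_add, smul_smul]
  rw [add_comm]
  congr 2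
  have e : (r y)⁻¹ = (Real.sqrt (r y) * Real.sqrt (r y))⁻¹ := by rw [hq2]
  rw [e]
  field_simp

theorem cpt_continuous_gradient {f : E → ℝ} (hf : ContDiff ℝ 1 f) : Continuous (gradient f) := by
  unfold gradient
  exact (LinearIsometryEquiv.continuous _).comp (hf.continuous_fderiv one_ne_zero)

theorem cpt_hasCompactSupport_gradient {f : E → ℝ} (hc : HasCompactSupport f) :
    HasCompactSupport (gradient f) := by
  have := (hc.fderiv (𝕜 := ℝ)).comp_left (g := (InnerProductSpace.toDual ℝ E).symm) (map_zero _)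
  exact this

section abs

variable {ν γ : E → ℝ} (hν : ContDiff ℝ 1 ν) (hγ : ContDiff ℝ 1 γ) (hν0 : ∀ x, 0 < ν x)
  (hγ0 : ∀ x, 0 < γ x)

include hν hγ hν0 hγ0

theorem cpt_ratio_contDiff : ContDiff ℝ 1 (fun z => ν z / γ z) :=
  hν.div hγ fun x => (hγ0 x).ne'

theorem cpt_sqrt_ratio_contDiff : ContDiff ℝ 1 (fun z => Real.sqrt (ν z / γ z)) :=
  (cpt_ratio_contDiff hν hγ hν0 hγ0).sqrt fun x => (div_pos (hν0 x) (hγ0 x)).ne'

theorem cpt_weight_sq (f : E → ℝ) :
    ∫ y, (f y * Real.sqrt (ν y / γ y)) ^ 2 ∂(dm γ) = ∫ y, f y ^ 2 ∂(dm ν) := by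
  rw [← cpt_integral_ratio hν.continuous.measurable hγ.continuous.measurable
    (fun x => (hν0 x).le) hγ0]
  refine integral_congr_ae (Eventually.of_forall fun y => ?_)
  simp only
  rw [mul_pow, Real.sq_sqrt (div_pos (hν0 y) (hγ0 y)).le, mul_comm]

theorem cpt_weight_mul (f h : E → ℝ) :
    ∫ y, f y * Real.sqrt (ν y / γ y) * h y ∂(dm γ)
      = ∫ y, f y * (h y / Real.sqrt (ν y / γ y)) ∂(dm ν) := by
  rw [← cpt_integral_ratio hν.continuous.measurable hγ.continuous.measurable
    (fun x => (hν0 x).le) hγ0]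
  refine integral_congr_ae (Eventually.of_forall fun y => ?_)
  have hr := div_pos (hν0 y) (hγ0 y)
  have hq : 0 < Real.sqrt (ν y / γ y) := Real.sqrt_pos.mpr hr
  have hq2 : Real.sqrt (ν y / γ y) * Real.sqrt (ν y / γ y) = ν y / γ y := Real.mul_self_sqrt hr.le
  simp only
  obtain ⟨q, hqdef⟩ : ∃ q, q = Real.sqrt (ν y / γ y) := ⟨_, rfl⟩
  rw [← hqdef] at hq hq2 ⊢
  rw [← hq2]
  field_simp

theorem cpt_weight_grad {c : ℝ} (hc : ∀ y, ‖gradient (fun z => Real.log (ν z / γ z)) y‖ ≤ c)
    {f : E → ℝ} (hf : ContDiff ℝ 1 f) (hfc : HasCompactSupport f) :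
    ∫ y, ‖gradient (fun z => f z * Real.sqrt (ν z / γ z)) y‖ ^ 2 ∂(dm γ)
      ≤ 2 * ∫ y, ‖gradient f y‖ ^ 2 ∂(dm ν) + c ^ 2 / 2 * ∫ y, f y ^ 2 ∂(dm ν) := by
  have hlf : IsLocallyFiniteMeasure (dm ν) := ws_dm_locallyFinite hν.continuous
  have m1 : MemLp (gradient f) 2 (dm ν) :=
    (cpt_continuous_gradient hf).memLp_of_hasCompactSupport (cpt_hasCompactSupport_gradient hfc)
  have i1 : Integrable (fun y => ‖gradient f y‖ ^ 2) (dm ν) :=
    (memLp_two_iff_integrable_sq_norm m1.1).1 m1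
  have i2 : Integrable (fun y => f y ^ 2) (dm ν) :=
    (hf.continuous.memLp_of_hasCompactSupport hfc).integrable_sq
  have i3 : Integrable (fun y => 2 * ‖gradient f y‖ ^ 2 + c ^ 2 / 2 * f y ^ 2) (dm ν) :=
    (i1.const_mul 2).add (i2.const_mul (c ^ 2 / 2))
  rw [← integral_const_mul, ← integral_const_mul, ← integral_add (i1.const_mul 2)
    (i2.const_mul (c ^ 2 / 2)), ← cpt_integral_ratio hν.continuous.measurable
    hγ.continuous.measurable (fun x => (hν0 x).le) hγ0]
  refine integral_mono_of_nonneg (Eventually.of_forall fun y => sq_nonneg _)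
    ((cpt_integrable_ratio hν.continuous.measurable hγ.continuous.measurable
      (fun x => (hν0 x).le) hγ0 _).2 i3) (Eventually.of_forall fun y => ?_)
  have hr := div_pos (hν0 y) (hγ0 y)
  simp only
  rw [cpt_grad_mul_sqrt hf (cpt_ratio_contDiff hν hγ hν0 hγ0) (fun y => div_pos (hν0 y) (hγ0 y)),
    norm_smul, mul_pow, Real.norm_eq_abs, sq_abs, Real.sq_sqrt hr.le]
  refine mul_le_mul_of_nonneg_left ?_ hr.le
  obtain ⟨G, hG⟩ : ∃ G, G = gradient (fun z => Real.log (ν z / γ z)) y := ⟨_, rfl⟩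
  have hcy := hc y
  rw [← hG] at hcy ⊢
  have h1 : ‖gradient f y + (f y / 2) • G‖ ≤ ‖gradient f y‖ + |f y| / 2 * c := by
    refine (norm_add_le _ _).trans ?_
    rw [norm_smul, Real.norm_eq_abs, abs_div, abs_two]
    gcongr
  have h2 : ‖gradient f y + (f y / 2) • G‖ ^ 2 ≤ (‖gradient f y‖ + |f y| / 2 * c) ^ 2 := by
    gcongr
  have h3 : f y ^ 2 = |f y| ^ 2 := (sq_abs _).symm
  rw [h3]
  nlinarith only [h2, sq_nonneg (‖gradient f y‖ - |f y| / 2 * c)]

end abs

variable {μ : Measure E} [IsProbabilityMeasure μ]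

theorem cptPsi_memLp (hb : BddSupp μ) {s : ℝ} (hs : 0 < s) (α : Fin (Module.finrank ℝ E) → ℕ) :
    MemLp (cptPsi μ s α) 2 (dm (gconv μ s)) := by
  have hspd := gc_spd (μ := μ) hb hs
  have hν : ContDiff ℝ 1 (gconv μ s) := hspd.1.of_le (by exact_mod_cast le_top)
  have hγ : ContDiff ℝ 1 (gk s : E → ℝ) := (gc_gk_contDiff hs).of_le (by exact_mod_cast le_top)
  have hγ0 : ∀ x : E, 0 < gk s x := gc_gk_pos hs
  have hq := cpt_sqrt_ratio_contDiff hν hγ hspd.2.1 hγ0
  have hqpos : ∀ y, 0 < Real.sqrt (gconv μ s y / gk s y) :=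
    fun y => Real.sqrt_pos.mpr (div_pos (hspd.2.1 y) (hγ0 y))
  have hcont : Continuous (cptPsi μ s α) := by
    unfold cptPsi
    exact (cptH_continuous s α).div hq.continuous fun y => (hqpos y).ne'
  rw [memLp_two_iff_integrable_sq hcont.aestronglyMeasurable,
    ← cpt_integrable_ratio hν.continuous.measurable hγ.continuous.measurable
      (fun x => (hspd.2.1 x).le) hγ0]
  refine (cptH_memLp hs α).integrable_sq.congr (Eventually.of_forall fun y => ?_)
  have hr := div_pos (hspd.2.1 y) (hγ0 y)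
  simp only [cptPsi]
  rw [div_pow, Real.sq_sqrt hr.le, mul_div_cancel₀ _ hr.ne']

theorem cpt_defect_test (hb : BddSupp μ) {s : ℝ} (hs : 0 < s) :
    ∃ K : ℝ, 0 ≤ K ∧ ∀ (N : ℕ) (f : E → ℝ), IsTest f →
      ∫ x, f x ^ 2 ∂(dm (gconv μ s)) ≤
        ∑ α ∈ cptBox (Module.finrank ℝ E) N, (∫ x, f x * cptPsi μ s α x ∂(dm (gconv μ s))) ^ 2
        + K / ((N : ℝ) + 1) *
          (∫ x, f x ^ 2 ∂(dm (gconv μ s)) + ∫ x, ‖gradient f x‖ ^ 2 ∂(dm (gconv μ s))) := by
  have hspd := gc_spd (μ := μ) hb hs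
  have hν : ContDiff ℝ 1 (gconv μ s) := hspd.1.of_le (by exact_mod_cast le_top)
  have hγ : ContDiff ℝ 1 (gk s : E → ℝ) := (gc_gk_contDiff hs).of_le (by exact_mod_cast le_top)
  have hγ0 : ∀ x : E, 0 < gk s x := gc_gk_pos hs
  obtain ⟨ρ, hρ⟩ := hb
  have hc : ∀ y, ‖gradient (fun z => Real.log (gconv μ s z / gk s z)) y‖ ≤ s⁻¹ * ρ := by
    intro y
    rw [gc_grad_log_ratio ⟨ρ, hρ⟩ hs, norm_smul, Real.norm_eq_abs, abs_of_pos (inv_pos.mpr hs)]
    exact mul_le_mul_of_nonneg_left (gc_postMean_norm_le hρ hs y) (inv_pos.mpr hs).le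
  refine ⟨s * (2 + (s⁻¹ * ρ) ^ 2 / 2), by positivity, fun N f hf => ?_⟩
  have hf1 : ContDiff ℝ 1 f := hf.1.of_le (by exact_mod_cast le_top)
  have hw : ContDiff ℝ 1 (fun z => f z * Real.sqrt (gconv μ s z / gk s z)) :=
    hf1.mul (cpt_sqrt_ratio_contDiff hν hγ hspd.2.1 hγ0)
  have hwc : HasCompactSupport (fun z => f z * Real.sqrt (gconv μ s z / gk s z)) := hf.2.mul_right
  have key := cpt_gauss_defect hs N hw hwc
  rw [cpt_weight_sq hν hγ hspd.2.1 hγ0] at key
  simp only [cpt_weight_mul hν hγ hspd.2.1 hγ0] at key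
  have hg := cpt_weight_grad hν hγ hspd.2.1 hγ0 hc hf1 hf.2
  have hN : (0 : ℝ) < (N : ℝ) + 1 := by positivity
  have hA : 0 ≤ ∫ x, ‖gradient f x‖ ^ 2 ∂(dm (gconv μ s)) := integral_nonneg fun x => sq_nonneg _
  have hB : 0 ≤ ∫ x, f x ^ 2 ∂(dm (gconv μ s)) := integral_nonneg fun x => sq_nonneg _
  obtain ⟨A, hAd⟩ : ∃ A, A = ∫ x, ‖gradient f x‖ ^ 2 ∂(dm (gconv μ s)) := ⟨_, rfl⟩
  obtain ⟨B, hBd⟩ : ∃ B, B = ∫ x, f x ^ 2 ∂(dm (gconv μ s)) := ⟨_, rfl⟩
  obtain ⟨G, hGd⟩ : ∃ G, G = ∫ y, ‖gradient (fun z => f z * Real.sqrt (gconv μ s z / gk s z)) y‖ ^ 2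
      ∂(dm (gk s)) := ⟨_, rfl⟩
  obtain ⟨c, hcd⟩ : ∃ c, c = (s⁻¹ * ρ) ^ 2 / 2 := ⟨_, rfl⟩
  have hc0 : 0 ≤ c := by rw [hcd]; positivity
  rw [← hAd, ← hBd, ← hGd, ← hcd] at hg
  rw [← hGd, ← hBd] at key
  rw [← hAd] at hA ⊢
  rw [← hBd] at hB ⊢
  rw [← hcd]
  have h1 : s / ((N : ℝ) + 1) * G ≤ s * (2 + c) / ((N : ℝ) + 1) * (B + A) := by
    rw [div_mul_eq_mul_div, div_mul_eq_mul_div]
    refine div_le_div_of_nonneg_right ?_ hN.le
    have : G ≤ (2 + c) * (B + A) := by nlinarith only [hg, hA, hB, hc0]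
    calc s * G ≤ s * ((2 + c) * (B + A)) := mul_le_mul_of_nonneg_left this hs.le
      _ = _ := by ring
  exact key.trans (add_le_add_right h1 (∑ α ∈ cptBox (Module.finrank ℝ E) N,
      (∫ x, f x * cptPsi μ s α x ∂(dm (gconv μ s))) ^ 2))

/-- generates the equation lemmas of the definitions above in this file (rule 6: unique names) -/
theorem cpt_weight_eqns_cite : True := by
  have := @cptPsi.eq_1
  trivial

end Claimed.Agent.R259
end
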