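/-
Row 259, kit WS: truncations (positive part, absolute value, min, max, clipping).
Owner: helper217.
-/
import Claimed.Agent.R259.WsChain

set_option autoImplicit false
set_option linter.unusedSectionVars false

open MeasureTheory Filter Topology
open scoped ContDiff ENNReal NNReal

namespace Claimed.Agent.R259

variable {E : Type} [NormedAddCommGroup E] [InnerProductSpace ℝ E] [FiniteDimensional ℝ E]
  [MeasurableSpace E] [BorelSpace E]

/-- LIMIT CHAIN RULE: `Θ_k ∈ C¹`, `|Θ_k'| ≤ C`, `Θ_k → Θ` and `Θ_k' → θ` pointwise. -/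
theorem wsg_comp_limit {u : E → ℝ} {g : E → E} (h : WeakGrad u g) {Θk : ℕ → ℝ → ℝ}
    {Θ θ : ℝ → ℝ} (hΘ : ∀ k, ContDiff ℝ 1 (Θk k)) {C : ℝ} (hC : ∀ k z, |deriv (Θk k) z| ≤ C)
    (h1 : ∀ z, Tendsto (fun k => Θk k z) atTop (𝓝 (Θ z)))
    (h2 : ∀ z, Tendsto (fun k => deriv (Θk k) z) atTop (𝓝 (θ z))) :
    WeakGrad (fun x => Θ (u x)) (fun x => θ (u x) • g x) := by
  have hC0 : 0 ≤ C := (abs_nonneg _).trans (hC 0 0)
  have hum : AEStronglyMeasurable u volume := h.1.aestronglyMeasurable
  have hgm : AEStronglyMeasurable g volume := h.2.1.aestronglyMeasurable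
  have hk : ∀ k, WeakGrad (fun x => Θk k (u x)) (fun x => deriv (Θk k) (u x) • g x) :=
    fun k => wsg_comp h (hΘ k) (hC k)
  obtain ⟨B, hB⟩ : ∃ B : ℝ, ∀ k, |Θk k 0| ≤ B := by
    obtain ⟨B, hB⟩ := (Metric.isBounded_range_of_tendsto _ (h1 0)).exists_norm_le
    exact ⟨B, fun k => hB _ ⟨k, rfl⟩⟩
  have hbd : ∀ k z, |Θk k z| ≤ B + C * |z| := by
    intro k z
    have e1 := ws_lip_of_deriv (hΘ k) (hC k) z 0
    rw [sub_zero] at e1
    have e2 : |Θk k z| ≤ |Θk k 0| + |Θk k z - Θk k 0| := by
      have := abs_add_le (Θk k 0) (Θk k z - Θk k 0)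
      simpa using this
    linarith [hB k]
  have m1 : ∀ k, AEStronglyMeasurable (fun x => Θk k (u x)) volume :=
    fun k => (hΘ k).continuous.comp_aestronglyMeasurable hum
  have m2 : ∀ k, AEStronglyMeasurable (fun x => deriv (Θk k) (u x) • g x) volume :=
    fun k => (((hΘ k).continuous_deriv (by simp)).comp_aestronglyMeasurable hum).smul hgm
  have b1 : LocallyIntegrable (fun x => B + C * ‖u x‖) volume :=
    (locallyIntegrable_const _).add ((ws_li_norm h.1).smul C)
  have b2 : LocallyIntegrable (fun x => C * ‖g x‖) volume := (ws_li_norm h.2.1).smul C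
  have t1 : ∀ x, Tendsto (fun k => Θk k (u x)) atTop (𝓝 (Θ (u x))) := fun x => h1 _
  have t2 : ∀ x, Tendsto (fun k => deriv (Θk k) (u x) • g x) atTop (𝓝 (θ (u x) • g x)) :=
    fun x => (h2 _).smul_const _
  have l1 : LocallyIntegrable (fun x => Θ (u x)) volume := by
    refine b1.mono (aestronglyMeasurable_of_tendsto_ae atTop m1 (Eventually.of_forall t1))
      (Eventually.of_forall fun x => ?_)
    have e1 : |Θ (u x)| ≤ B + C * |u x| :=
      le_of_tendsto (t1 x).abs (Eventually.of_forall fun k => hbd k _)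
    rw [Real.norm_eq_abs, Real.norm_eq_abs, Real.norm_eq_abs]
    exact e1.trans (le_abs_self _)
  have l2 : LocallyIntegrable (fun x => θ (u x) • g x) volume := by
    refine b2.mono (aestronglyMeasurable_of_tendsto_ae atTop m2 (Eventually.of_forall t2))
      (Eventually.of_forall fun x => ?_)
    have e1 : ‖θ (u x) • g x‖ ≤ C * ‖g x‖ := by
      refine le_of_tendsto (t2 x).norm (Eventually.of_forall fun k => ?_)
      rw [norm_smul]
      exact mul_le_mul_of_nonneg_right (hC k _) (norm_nonneg _)
    exact e1.trans (le_abs_self _)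
  refine ws_weakGrad_of_loc hk l1 l2 ?_ ?_
  · exact wsLoc_of_dominated m1 b1 (fun k => Eventually.of_forall fun x => hbd k _)
      (Eventually.of_forall t1)
  · refine wsLoc_of_dominated m2 b2 (fun k => Eventually.of_forall fun x => ?_)
      (Eventually.of_forall t2)
    rw [norm_smul]
    exact mul_le_mul_of_nonneg_right (hC k _) (norm_nonneg _)

/-! ### smooth approximation of the positive part: `t ↦ t · smoothTransition ((k+1) t)` -/

theorem ws_sT_deriv_neg {s : ℝ} (hs : s < 0) : deriv Real.smoothTransition s = 0 := by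
  have : Real.smoothTransition =ᶠ[𝓝 s] fun _ => (0:ℝ) := by
    filter_upwards [Iio_mem_nhds hs] with y hy
    exact Real.smoothTransition.zero_of_nonpos (le_of_lt hy)
  rw [this.deriv_eq, deriv_const]

theorem ws_sT_deriv_gt {s : ℝ} (hs : 1 < s) : deriv Real.smoothTransition s = 0 := by
  have : Real.smoothTransition =ᶠ[𝓝 s] fun _ => (1:ℝ) := by
    filter_upwards [Ioi_mem_nhds hs] with y hy
    exact Real.smoothTransition.one_of_one_le (le_of_lt hy)
  rw [this.deriv_eq, deriv_const]

theorem ws_sT_bound : ∃ M : ℝ, ∀ s : ℝ, |s * deriv Real.smoothTransition s| ≤ M := by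
  have hc : Continuous (deriv Real.smoothTransition) :=
    (Real.smoothTransition.contDiff (n := 1)).continuous_deriv (by simp)
  obtain ⟨M, hM⟩ := (isCompact_Icc (a := (0:ℝ)) (b := 1)).exists_bound_of_continuousOn
    hc.continuousOn
  refine ⟨M, fun s => ?_⟩
  have hM0 : 0 ≤ M := (norm_nonneg _).trans (hM 0 ⟨le_rfl, zero_le_one⟩)
  rcases lt_or_ge s 0 with h | h
  · simp [ws_sT_deriv_neg h, hM0]
  rcases lt_or_ge 1 s with h' | h'
  · simp [ws_sT_deriv_gt h', hM0]
  · rw [abs_mul]
    have h1 : |s| ≤ 1 := by rw [abs_of_nonneg h]; exact h'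
    have h2 := hM s ⟨h, h'⟩
    rw [Real.norm_eq_abs] at h2
    calc |s| * |deriv Real.smoothTransition s| ≤ 1 * M :=
          mul_le_mul h1 h2 (abs_nonneg _) zero_le_one
      _ = M := one_mul _

/-- the approximants. -/
noncomputable def wsPos (k : ℕ) (t : ℝ) : ℝ := t * Real.smoothTransition (((k : ℝ) + 1) * t)

theorem wsPos_contDiff (k : ℕ) : ContDiff ℝ 1 (wsPos k) :=
  contDiff_id.mul (Real.smoothTransition.contDiff.comp (contDiff_const.mul contDiff_id))

theorem wsPos_deriv (k : ℕ) (t : ℝ) :
    deriv (wsPos k) t = Real.smoothTransition (((k : ℝ) + 1) * t)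
      + (((k : ℝ) + 1) * t) * deriv Real.smoothTransition (((k : ℝ) + 1) * t) := by
  have h1 : HasDerivAt Real.smoothTransition (deriv Real.smoothTransition (((k : ℝ) + 1) * t))
      (((k : ℝ) + 1) * t) :=
    ((Real.smoothTransition.contDiff (n := 1)).differentiable (by simp)).differentiableAt.hasDerivAt
  have h2 : HasDerivAt (fun t : ℝ => ((k : ℝ) + 1) * t) (((k : ℝ) + 1) * 1) t :=
    (hasDerivAt_id t).const_mul _
  have h3 := (hasDerivAt_id t).mul (h1.comp t h2)
  have e : wsPos k = id * (Real.smoothTransition ∘ fun t : ℝ => ((k : ℝ) + 1) * t) := rfl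
  rw [e, h3.deriv]
  simp only [id, Function.comp]
  ring

theorem wsPos_deriv_bound : ∃ C : ℝ, ∀ k z, |deriv (wsPos k) z| ≤ C := by
  obtain ⟨M, hM⟩ := ws_sT_bound
  refine ⟨1 + M, fun k z => ?_⟩
  rw [wsPos_deriv]
  refine (abs_add_le _ _).trans (add_le_add ?_ (hM _))
  rw [abs_of_nonneg (Real.smoothTransition.nonneg _)]
  exact Real.smoothTransition.le_one _

theorem wsPos_eventually {t : ℝ} (ht : 0 < t) : ∀ᶠ k : ℕ in atTop, 1 < ((k : ℝ) + 1) * t := by
  obtain ⟨N, hN⟩ := exists_nat_gt (1 / t)
  filter_upwards [eventually_ge_atTop N] with k hk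
  have h1 : (N : ℝ) ≤ k := by exact_mod_cast hk
  have h2 : 1 / t < (k : ℝ) + 1 := by linarith
  rwa [div_lt_iff₀ ht] at h2

theorem wsPos_tendsto (t : ℝ) : Tendsto (fun k => wsPos k t) atTop (𝓝 (max t 0)) := by
  rcases le_or_gt t 0 with h | h
  · have : ∀ k, wsPos k t = max t 0 := by
      intro k
      have h1 : ((k : ℝ) + 1) * t ≤ 0 := mul_nonpos_of_nonneg_of_nonpos (by positivity) h
      rw [wsPos, Real.smoothTransition.zero_of_nonpos h1, mul_zero, max_eq_right h]
    simp only [this]
    exact tendsto_const_nhds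
  · refine tendsto_const_nhds.congr' ?_
    filter_upwards [wsPos_eventually h] with k hk
    rw [wsPos, Real.smoothTransition.one_of_one_le hk.le, mul_one, max_eq_left h.le]

theorem wsPos_deriv_tendsto (t : ℝ) :
    Tendsto (fun k => deriv (wsPos k) t) atTop (𝓝 (if 0 < t then 1 else 0)) := by
  rcases le_or_gt t 0 with h | h
  · have : ∀ k, deriv (wsPos k) t = if 0 < t then 1 else 0 := by
      intro k
      have h1 : ((k : ℝ) + 1) * t ≤ 0 := mul_nonpos_of_nonneg_of_nonpos (by positivity) h
      rw [wsPos_deriv, Real.smoothTransition.zero_of_nonpos h1, if_neg (not_lt.2 h), zero_add]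
      rcases h1.lt_or_eq with h2 | h2
      · rw [ws_sT_deriv_neg h2, mul_zero]
      · rw [h2, zero_mul]
    simp only [this]
    exact tendsto_const_nhds
  · refine tendsto_const_nhds.congr' ?_
    filter_upwards [wsPos_eventually h] with k hk
    rw [wsPos_deriv, Real.smoothTransition.one_of_one_le hk.le, ws_sT_deriv_gt hk, mul_zero,
      add_zero, if_pos h]

/-- POSITIVE PART. -/
theorem wsg_posPart {u : E → ℝ} {g : E → E} (h : WeakGrad u g) :
    WeakGrad (fun x => max (u x) 0) ({x | 0 < u x}.indicator g) := by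
  obtain ⟨C, hC⟩ := wsPos_deriv_bound
  have := wsg_comp_limit h wsPos_contDiff hC wsPos_tendsto wsPos_deriv_tendsto
  refine wsg_congr this (Eventually.of_forall fun x => rfl) (Eventually.of_forall fun x => ?_)
  by_cases hx : 0 < u x
  · simp [Set.indicator, hx]
  · simp [Set.indicator, hx]

theorem wsg_const (c : ℝ) : WeakGrad (fun _ : E => c) (fun _ => 0) := by
  have := wsg_of_contDiff (E := E) (u := fun _ => c) contDiff_const
  rwa [gradient_fun_const'] at this

theorem wsg_neg {u : E → ℝ} {g : E → E} (h : WeakGrad u g) :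
    WeakGrad (fun x => - u x) (fun x => - g x) := by
  have := wsg_smul (-1) h
  simpa using this

theorem wsg_sub {u v : E → ℝ} {g k : E → E} (h : WeakGrad u g) (h' : WeakGrad v k) :
    WeakGrad (fun x => u x - v x) (fun x => g x - k x) := by
  have := wsg_add h (wsg_neg h')
  simpa only [sub_eq_add_neg] using this

theorem wsg_add_const {u : E → ℝ} {g : E → E} (h : WeakGrad u g) (c : ℝ) :
    WeakGrad (fun x => u x + c) g := by
  have := wsg_add h (wsg_const c)
  simpa using this

theorem wsg_max_const {u : E → ℝ} {g : E → E} (h : WeakGrad u g) (m : ℝ) :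
    WeakGrad (fun x => max (u x) m) ({x | m < u x}.indicator g) := by
  have h1 := wsg_add_const (wsg_posPart (wsg_add_const h (-m))) m
  refine wsg_congr h1 (Eventually.of_forall fun x => ?_) (Eventually.of_forall fun x => ?_)
  · show max (u x + -m) 0 + m = max (u x) m
    rw [← max_add_add_right]
    simp
  · have : {x | 0 < u x + -m} = {x | m < u x} := by
      ext y
      simp only [Set.mem_ofPred_eq]
      constructor <;> intro hy <;> linarith
    rw [this]

theorem wsg_min_const {u : E → ℝ} {g : E → E} (h : WeakGrad u g) (M : ℝ) :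
    WeakGrad (fun x => min (u x) M) ({x | u x < M}.indicator g) := by
  have h1 := wsg_neg (wsg_max_const (wsg_neg h) (-M))
  refine wsg_congr h1 (Eventually.of_forall fun x => ?_) (Eventually.of_forall fun x => ?_)
  · show -max (-u x) (-M) = min (u x) M
    rw [max_neg_neg, neg_neg]
  · show -({x | -M < -u x}.indicator (fun x => -g x) x) = {x | u x < M}.indicator g x
    have : {x | -M < -u x} = {x | u x < M} := by
      ext y
      simp only [Set.mem_ofPred_eq, neg_lt_neg_iff]
    rw [this]
    by_cases hx : x ∈ {x | u x < M}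
    · rw [Set.indicator_of_mem hx, Set.indicator_of_mem hx, neg_neg]
    · rw [Set.indicator_of_notMem hx, Set.indicator_of_notMem hx, neg_zero]

/-- the weak gradient vanishes a.e. on level sets. -/
theorem wsg_level {u : E → ℝ} {g : E → E} (h : WeakGrad u g) (c : ℝ) :
    ∀ᵐ x, u x = c → g x = 0 := by
  have h1 := wsg_add_const (wsg_add (wsg_max_const h c) (wsg_min_const h c)) (-c)
  have h2 : WeakGrad u (fun x => {x | c < u x}.indicator g x + {x | u x < c}.indicator g x) := by
    refine wsg_congr h1 (Eventually.of_forall fun x => ?_) (Eventually.of_forall fun x => rfl)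
    show max (u x) c + min (u x) c + -c = u x
    rw [max_add_min]
    ring
  filter_upwards [wsg_unique h h2] with x hx hc
  rw [hx, Set.indicator_of_notMem (by simp [hc]), Set.indicator_of_notMem (by simp [hc]), add_zero]

theorem wsg_negPart {u : E → ℝ} {g : E → E} (h : WeakGrad u g) :
    WeakGrad (fun x => max (- u x) 0) (fun x => - {x | u x < 0}.indicator g x) := by
  have h1 := wsg_posPart (wsg_neg h)
  refine wsg_congr h1 (Eventually.of_forall fun x => rfl) (Eventually.of_forall fun x => ?_)
  have : {x | 0 < -u x} = {x | u x < 0} := by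
    ext y
    simp only [Set.mem_ofPred_eq, Left.neg_pos_iff]
  rw [this]
  show {x | u x < 0}.indicator (fun x => -g x) x = -{x | u x < 0}.indicator g x
  by_cases hx : x ∈ {x | u x < 0}
  · rw [Set.indicator_of_mem hx, Set.indicator_of_mem hx]
  · rw [Set.indicator_of_notMem hx, Set.indicator_of_notMem hx, neg_zero]

theorem wsg_abs {u : E → ℝ} {g : E → E} (h : WeakGrad u g) :
    WeakGrad (fun x => |u x|) (fun x => Real.sign (u x) • g x) := by
  have h1 := wsg_add (wsg_posPart h) (wsg_negPart h)
  refine wsg_congr h1 (Eventually.of_forall fun x => ?_) (Eventually.of_forall fun x => ?_)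
  · show max (u x) 0 + max (-u x) 0 = |u x|
    rcases le_total 0 (u x) with hx | hx
    · rw [max_eq_left hx, max_eq_right (by linarith), abs_of_nonneg hx, add_zero]
    · rw [max_eq_right hx, max_eq_left (by linarith), abs_of_nonpos hx, zero_add]
  · show {x | 0 < u x}.indicator g x + -{x | u x < 0}.indicator g x = Real.sign (u x) • g x
    rcases lt_trichotomy (u x) 0 with hx | hx | hx
    · rw [Set.indicator_of_notMem (by simp [hx.le]), Set.indicator_of_mem (by simpa using hx),
        Real.sign_of_neg hx]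
      simp
    · rw [Set.indicator_of_notMem (by simp [hx]), Set.indicator_of_notMem (by simp [hx]), hx,
        Real.sign_zero]
      simp
    · rw [Set.indicator_of_mem (by simpa using hx), Set.indicator_of_notMem (by simp [hx.le]),
        Real.sign_of_pos hx]
      simp

theorem wsg_clip {u : E → ℝ} {g : E → E} (h : WeakGrad u g) (m M : ℝ) :
    WeakGrad (fun x => max (min (u x) M) m) ({x | m < u x ∧ u x < M}.indicator g) := by
  have h1 := wsg_max_const (wsg_min_const h M) m
  refine wsg_congr h1 (Eventually.of_forall fun x => rfl) (Eventually.of_forall fun x => ?_)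
  by_cases hx : m < u x ∧ u x < M
  · have h2 : m < min (u x) M := lt_min hx.1 (hx.1.trans hx.2)
    rw [Set.indicator_of_mem (by simpa using h2), Set.indicator_of_mem (by simpa using hx.2),
      Set.indicator_of_mem (by simpa using hx)]
  · rw [Set.indicator_of_notMem (s := {x | m < u x ∧ u x < M}) (by simpa using hx)]
    by_cases h2 : m < min (u x) M
    · have h3 : ¬ u x < M := fun h4 => hx ⟨lt_of_lt_of_le h2 (min_le_left _ _), h4⟩
      rw [Set.indicator_of_mem (by simpa using h2), Set.indicator_of_notMem (by simpa using h3)]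
    · rw [Set.indicator_of_notMem (by simpa using h2)]

/-! ### truncations in `H¹(m)` -/

section H1

variable {m : Measure E}

theorem ws_memLp_indicator_lt {F : Type} [NormedAddCommGroup F] {p : ℝ≥0∞} {a b : E → ℝ}
    {g : E → F} (ha : AEStronglyMeasurable a m) (hb : AEStronglyMeasurable b m)
    (hg : MemLp g p m) : MemLp ({x | a x < b x}.indicator g) p m := by
  refine hg.mono (hg.1.indicator₀ (nullMeasurableSet_lt ha.aemeasurable hb.aemeasurable))
    (Eventually.of_forall fun x => ?_)
  exact norm_indicator_le_norm_self _ _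

theorem ws_H1_posPart {u : E → ℝ} {g : E → E} (h : H1 m u g) :
    H1 m (fun x => max (u x) 0) ({x | 0 < u x}.indicator g) := by
  refine ⟨wsg_posPart h.1, ?_, ws_memLp_indicator_lt aestronglyMeasurable_const h.2.1.1 h.2.2⟩
  refine h.2.1.mono ((continuous_id.max continuous_const).comp_aestronglyMeasurable h.2.1.1)
    (Eventually.of_forall fun x => ?_)
  simp only [Real.norm_eq_abs]
  rcases le_total 0 (u x) with hx | hx
  · rw [max_eq_left hx]
  · rw [max_eq_right hx, abs_zero]
    exact abs_nonneg _

theorem ws_H1_negPart {u : E → ℝ} {g : E → E} (h : H1 m u g) :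
    H1 m (fun x => max (- u x) 0) (fun x => - {x | u x < 0}.indicator g x) := by
  refine ⟨wsg_negPart h.1, ?_,
    (ws_memLp_indicator_lt h.2.1.1 aestronglyMeasurable_const h.2.2).neg⟩
  refine h.2.1.mono ((continuous_neg.max continuous_const).comp_aestronglyMeasurable h.2.1.1)
    (Eventually.of_forall fun x => ?_)
  simp only [Real.norm_eq_abs]
  rcases le_total 0 (u x) with hx | hx
  · rw [max_eq_right (by linarith), abs_zero]
    exact abs_nonneg _
  · rw [max_eq_left (by linarith), abs_neg]

theorem ws_measurable_sign : Measurable Real.sign := by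
  unfold Real.sign
  exact Measurable.ite measurableSet_Iio measurable_const
    (Measurable.ite measurableSet_Ioi measurable_const measurable_const)

theorem ws_H1_abs {u : E → ℝ} {g : E → E} (h : H1 m u g) :
    H1 m (fun x => |u x|) (fun x => Real.sign (u x) • g x) := by
  refine ⟨wsg_abs h.1, h.2.1.norm, ?_⟩
  have hm : AEStronglyMeasurable (fun x => Real.sign (u x)) m :=
    (ws_measurable_sign.comp_aemeasurable h.2.1.1.aemeasurable).aestronglyMeasurable
  refine h.2.2.mono (hm.smul h.2.2.1) (Eventually.of_forall fun x => ?_)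
  rw [norm_smul]
  have : ‖Real.sign (u x)‖ ≤ 1 := by
    rcases Real.sign_apply_eq (u x) with h | h | h <;> simp [h]
  calc ‖Real.sign (u x)‖ * ‖g x‖ ≤ 1 * ‖g x‖ := mul_le_mul_of_nonneg_right this (norm_nonneg _)
    _ = ‖g x‖ := one_mul _

/-- clipping at levels `m₀ ≤ 0 ≤ M₀`. -/
theorem ws_H1_clip {u : E → ℝ} {g : E → E} (h : H1 m u g) {m₀ M₀ : ℝ} (h0 : m₀ ≤ 0)
    (h1 : 0 ≤ M₀) :
    H1 m (fun x => max (min (u x) M₀) m₀) ({x | m₀ < u x ∧ u x < M₀}.indicator g) := by
  refine ⟨wsg_clip h.1 m₀ M₀, ?_, ?_⟩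
  · refine h.2.1.mono (((continuous_id.min continuous_const).max
      continuous_const).comp_aestronglyMeasurable h.2.1.1) (Eventually.of_forall fun x => ?_)
    simp only [Real.norm_eq_abs]
    rw [abs_le]
    constructor
    · refine le_trans ?_ (le_max_left _ _)
      refine le_min (neg_abs_le _) ?_
      linarith [abs_nonneg (u x)]
    · refine max_le ((min_le_left _ _).trans (le_abs_self _)) ?_
      linarith [abs_nonneg (u x)]
  · have e : {x | m₀ < u x ∧ u x < M₀}.indicator g
        = {x | m₀ < u x}.indicator ({x | u x < M₀}.indicator g) := by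
      rw [Set.indicator_indicator]
      rfl
    rw [e]
    exact ws_memLp_indicator_lt aestronglyMeasurable_const h.2.1.1
      (ws_memLp_indicator_lt h.2.1.1 aestronglyMeasurable_const h.2.2)

end H1

end Claimed.Agent.R259
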