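/-
Row 259, kit WS: the weighted Sobolev space `H¹(η dx)`: cutoffs, closedness, density of tests.
Owner: helper217.
-/
import Claimed.Agent.R259.WsTrunc

set_option autoImplicit false
set_option linter.unusedSectionVars false

open MeasureTheory Filter Topology
open scoped ContDiff ENNReal NNReal

namespace Claimed.Agent.R259

variable {E : Type} [NormedAddCommGroup E] [InnerProductSpace ℝ E] [FiniteDimensional ℝ E]
  [MeasurableSpace E] [BorelSpace E]

/-! ### cutoffs -/

/-- the reference bump: `1` on the unit ball, supported in the ball of radius `2`. -/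
noncomputable def wsChi : ContDiffBump (0 : E) := ⟨1, 2, one_pos, one_lt_two⟩

/-- the cutoff `χ_k(x) = χ(x/(k+1))`. -/
noncomputable def wsCut (k : ℕ) (x : E) : ℝ := (wsChi : ContDiffBump (0 : E)) (((k : ℝ) + 1)⁻¹ • x)

theorem wsCut_contDiff (k : ℕ) : ContDiff ℝ ∞ (wsCut k : E → ℝ) :=
  (wsChi : ContDiffBump (0 : E)).contDiff.comp (contDiff_const.smul contDiff_id)

theorem wsCut_nonneg (k : ℕ) (x : E) : 0 ≤ wsCut k x := (wsChi : ContDiffBump (0 : E)).nonneg

theorem wsCut_le_one (k : ℕ) (x : E) : wsCut k x ≤ 1 := (wsChi : ContDiffBump (0 : E)).le_one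

theorem wsCut_eq_one {k : ℕ} {x : E} (hx : ‖x‖ ≤ (k : ℝ) + 1) : wsCut k x = 1 := by
  apply (wsChi : ContDiffBump (0 : E)).one_of_mem_closedBall
  have hk : (0:ℝ) < (k : ℝ) + 1 := by positivity
  rw [mem_closedBall_zero_iff, norm_smul, norm_inv, Real.norm_of_nonneg hk.le]
  show ((k : ℝ) + 1)⁻¹ * ‖x‖ ≤ 1
  rw [inv_mul_le_iff₀ hk]
  linarith

theorem wsCut_hasCompactSupport (k : ℕ) : HasCompactSupport (wsCut k : E → ℝ) := by
  have hk : (0:ℝ) < (k : ℝ) + 1 := by positivity
  refine HasCompactSupport.of_support_subset_isCompact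
    (isCompact_closedBall (0 : E) (2 * ((k : ℝ) + 1))) ?_
  intro x hx
  have h1 : ((k : ℝ) + 1)⁻¹ • x ∈ Function.support (wsChi : ContDiffBump (0 : E)) := hx
  rw [ContDiffBump.support_eq, mem_ball_zero_iff, norm_smul, norm_inv,
    Real.norm_of_nonneg hk.le] at h1
  have h2 : ((k : ℝ) + 1)⁻¹ * ‖x‖ < 2 := h1
  rw [inv_mul_lt_iff₀ hk] at h2
  rw [mem_closedBall_zero_iff]
  linarith

theorem wsCut_isTest (k : ℕ) : IsTest (wsCut k : E → ℝ) :=
  ⟨wsCut_contDiff k, wsCut_hasCompactSupport k⟩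

theorem wsCut_gradient (k : ℕ) (x : E) :
    gradient (wsCut k) x
      = ((k : ℝ) + 1)⁻¹ • gradient (wsChi : ContDiffBump (0 : E)) (((k : ℝ) + 1)⁻¹ • x) := by
  refine ext_inner_right ℝ fun v => ?_
  rw [inner_gradient_left, inner_smul_left, inner_gradient_left]
  have := fderiv_comp_smul (𝕜 := ℝ) (f := (wsChi : ContDiffBump (0 : E))) (x := x)
    (((k : ℝ) + 1)⁻¹)
  have e : (wsCut k : E → ℝ) = fun x => (wsChi : ContDiffBump (0 : E)) (((k : ℝ) + 1)⁻¹ • x) := rfl
  rw [e, this]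
  simp

theorem wsCut_grad_bound : ∃ M : ℝ, 0 ≤ M ∧ ∀ (k : ℕ) (x : E),
    ‖gradient (wsCut k) x‖ ≤ M / ((k : ℝ) + 1) := by
  have h1 : ContDiff ℝ 1 (wsChi : ContDiffBump (0 : E)) := (wsChi : ContDiffBump (0 : E)).contDiff
  obtain ⟨M, hM⟩ := (ws_gradient_hasCompactSupport
    (wsChi : ContDiffBump (0 : E)).hasCompactSupport).exists_bound_of_continuous
    (ws_gradient_continuous h1)
  refine ⟨M, (norm_nonneg _).trans (hM 0), fun k x => ?_⟩
  have hk : (0:ℝ) < (k : ℝ) + 1 := by positivity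
  rw [wsCut_gradient, norm_smul, norm_inv, Real.norm_of_nonneg hk.le, div_eq_inv_mul]
  exact mul_le_mul_of_nonneg_left (hM _) (by positivity)

theorem wsCut_grad_bound' : ∃ M : ℝ, 0 ≤ M ∧ ∀ (k : ℕ) (x : E), ‖gradient (wsCut k) x‖ ≤ M := by
  obtain ⟨M, hM0, hM⟩ := wsCut_grad_bound (E := E)
  refine ⟨M, hM0, fun k x => (hM k x).trans ?_⟩
  have hk : (1:ℝ) ≤ (k : ℝ) + 1 := by
    have : (0:ℝ) ≤ k := Nat.cast_nonneg k
    linarith
  exact div_le_self hM0 hk

theorem wsCut_grad_zero {k : ℕ} {x : E} (hx : ‖x‖ < (k : ℝ) + 1) : gradient (wsCut k) x = 0 := by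
  have : (wsCut k : E → ℝ) =ᶠ[𝓝 x] fun _ => (1:ℝ) := by
    have ho : IsOpen {y : E | ‖y‖ < (k : ℝ) + 1} := isOpen_lt continuous_norm continuous_const
    filter_upwards [ho.mem_nhds hx] with y hy
    exact wsCut_eq_one (le_of_lt hy)
  rw [this.gradient_eq, gradient_fun_const]

theorem wsCut_eventually (x : E) : ∀ᶠ k : ℕ in atTop, ‖x‖ < (k : ℝ) + 1 := by
  obtain ⟨N, hN⟩ := exists_nat_gt ‖x‖
  filter_upwards [eventually_ge_atTop N] with k hk
  have h1 : (N : ℝ) ≤ k := by exact_mod_cast hk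
  linarith

variable {η : E → ℝ}

/-- `L²(η)` convergence implies `L¹_loc(dx)` convergence. -/
theorem wsLoc_of_L2 {F : Type} [NormedAddCommGroup F] [NormedSpace ℝ F]
    (hη : Continuous η) (hpos : ∀ x, 0 < η x) {f : ℕ → E → F} {f' : E → F}
    (hm : ∀ k, AEStronglyMeasurable (fun x => f k x - f' x) volume)
    (h : Tendsto (fun k => eLpNorm (fun x => f k x - f' x) 2 (dm η)) atTop (𝓝 0)) :
    WsLoc f f' := by
  intro K hK
  have h1 := ws_tendsto_restrict_of_dm hη hpos hK h
  have hfin : (volume.restrict K) Set.univ ^ (1 / (1:ℝ≥0∞).toReal - 1 / (2:ℝ≥0∞).toReal) ≠ ⊤ := by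
    refine ENNReal.rpow_ne_top_of_nonneg (by norm_num) ?_
    rw [Measure.restrict_apply MeasurableSet.univ, Set.univ_inter]
    exact hK.measure_lt_top.ne
  have h2 := ENNReal.Tendsto.mul_const h1 (Or.inr hfin)
  rw [zero_mul] at h2
  refine tendsto_of_tendsto_of_tendsto_of_le_of_le tendsto_const_nhds h2 (fun _ => zero_le) ?_
  intro k
  have := eLpNorm_le_eLpNorm_mul_rpow_measure_univ (p := 1) (q := 2) (by norm_num)
    (hm k).restrict (μ := volume.restrict K)
  rw [eLpNorm_one_eq_lintegral_enorm] at this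
  exact this

/-- Strong closedness of the graph, `eLpNorm` form. -/
theorem ws_closed_aux (hη : Continuous η) (hpos : ∀ x, 0 < η x) {u : E → ℝ} {g : E → E}
    {uk : ℕ → E → ℝ} {gk' : ℕ → E → E} (hk : ∀ k, H1 (dm η) (uk k) (gk' k))
    (hu2 : MemLp u 2 (dm η)) (hg2 : MemLp g 2 (dm η))
    (hu : Tendsto (fun k => eLpNorm (fun x => uk k x - u x) 2 (dm η)) atTop (𝓝 0))
    (hg : Tendsto (fun k => eLpNorm (fun x => gk' k x - g x) 2 (dm η)) atTop (𝓝 0)) :
    H1 (dm η) u g := by
  have lu := ws_locallyIntegrable_of_memLp hη hpos (by norm_num) hu2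
  have lg := ws_locallyIntegrable_of_memLp hη hpos (by norm_num) hg2
  refine ⟨ws_weakGrad_of_loc (fun k => (hk k).1) lu lg ?_ ?_, hu2, hg2⟩
  · exact wsLoc_of_L2 hη hpos
      (fun k => (hk k).1.1.aestronglyMeasurable.sub lu.aestronglyMeasurable) hu
  · exact wsLoc_of_L2 hη hpos
      (fun k => (hk k).1.2.1.aestronglyMeasurable.sub lg.aestronglyMeasurable) hg

theorem ws_memLp_of_continuous_compact {F : Type} [NormedAddCommGroup F] (hη : Continuous η)
    {f : E → F} (hf : Continuous f) (hc : HasCompactSupport f) {p : ℝ≥0∞} : MemLp f p (dm η) := by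
  have := ws_dm_locallyFinite hη
  exact hf.memLp_of_hasCompactSupport hc

theorem wsh_of_test (hη : Continuous η) {f : E → ℝ} (hf : IsTest f) :
    H1 (dm η) f (gradient f) := by
  have h1 : ContDiff ℝ 1 f := hf.1.of_le (by simp)
  exact ⟨wsg_of_contDiff h1, ws_memLp_of_continuous_compact hη hf.1.continuous hf.2,
    ws_memLp_of_continuous_compact hη (ws_gradient_continuous h1)
      (ws_gradient_hasCompactSupport hf.2)⟩

/-- multiplication by a cutoff. -/
theorem wsh_cut {m : Measure E} {u : E → ℝ} {g : E → E} (h : H1 m u g) (k : ℕ) :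
    H1 m (fun x => wsCut k x * u x) (fun x => wsCut k x • g x + u x • gradient (wsCut k) x) := by
  have hc1 : ContDiff ℝ 1 (wsCut k : E → ℝ) := (wsCut_contDiff k).of_le (by simp)
  obtain ⟨M, hM0, hM⟩ := wsCut_grad_bound' (E := E)
  have hcm : AEStronglyMeasurable (wsCut k : E → ℝ) m := hc1.continuous.aestronglyMeasurable
  have hgm : AEStronglyMeasurable (gradient (wsCut k : E → ℝ)) m :=
    (ws_gradient_continuous hc1).aestronglyMeasurable
  refine ⟨wsg_mul h.1 hc1, ?_, ?_⟩
  · refine h.2.1.mono (hcm.mul h.2.1.1) (Eventually.of_forall fun x => ?_)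
    rw [norm_mul, Real.norm_of_nonneg (wsCut_nonneg k x)]
    exact mul_le_of_le_one_left (norm_nonneg _) (wsCut_le_one k x)
  · refine MemLp.add ?_ ?_
    · refine h.2.2.mono (hcm.smul h.2.2.1) (Eventually.of_forall fun x => ?_)
      rw [norm_smul, Real.norm_of_nonneg (wsCut_nonneg k x)]
      exact mul_le_of_le_one_left (norm_nonneg _) (wsCut_le_one k x)
    · refine (h.2.1.const_mul M).mono (h.2.1.1.smul hgm) (Eventually.of_forall fun x => ?_)
      rw [norm_smul, norm_mul, Real.norm_of_nonneg hM0, mul_comm]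
      exact mul_le_mul_of_nonneg_right (hM k x) (norm_nonneg _)

/-- the cutoffs converge in `H¹(m)`. -/
theorem wsh_cut_tendsto {m : Measure E} {u : E → ℝ} {g : E → E} (h : H1 m u g) :
    Tendsto (fun k => eLpNorm (fun x => wsCut k x * u x - u x) 2 m) atTop (𝓝 0) ∧
    Tendsto (fun k => eLpNorm (fun x => (wsCut k x • g x + u x • gradient (wsCut k) x) - g x) 2 m)
      atTop (𝓝 0) := by
  obtain ⟨M, hM0, hM⟩ := wsCut_grad_bound' (E := E)
  constructor
  · refine (ws_tendsto_sq_iff (g := fun k x => wsCut k x * u x - u x)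
      (fun k => (wsh_cut h k).2.1.sub h.2.1)).1 ?_
    have := tendsto_integral_of_dominated_convergence (μ := m)
      (F := fun k x => ‖wsCut k x * u x - u x‖ ^ 2) (f := fun _ => 0) (fun x => ‖u x‖ ^ 2)
      (fun k => (((wsh_cut h k).2.1.sub h.2.1).1.norm.pow 2)) (ws_integrable_sq h.2.1)
      (fun k => Eventually.of_forall fun x => ?_) (Eventually.of_forall fun x => ?_)
    · simpa using this
    · have e : wsCut k x * u x - u x = (wsCut k x - 1) * u x := by ring
      rw [e, norm_mul, Real.norm_of_nonneg (by positivity), mul_pow]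
      have h1 : ‖wsCut k x - 1‖ ≤ 1 := by
        rw [Real.norm_eq_abs, abs_le]
        constructor <;> linarith [wsCut_nonneg k x, wsCut_le_one k x]
      have h2 : ‖wsCut k x - 1‖ ^ 2 ≤ 1 := pow_le_one₀ (norm_nonneg _) h1
      exact mul_le_of_le_one_left (by positivity) h2
    · refine tendsto_const_nhds.congr' ?_
      filter_upwards [wsCut_eventually x] with k hk
      rw [wsCut_eq_one hk.le]
      simp
  · refine (ws_tendsto_sq_iff
      (g := fun k x => (wsCut k x • g x + u x • gradient (wsCut k) x) - g x)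
      (fun k => (wsh_cut h k).2.2.sub h.2.2)).1 ?_
    have hb : Integrable (fun x => 2 * ‖g x‖ ^ 2 + 2 * M ^ 2 * ‖u x‖ ^ 2) m :=
      ((ws_integrable_sq h.2.2).const_mul 2).add ((ws_integrable_sq h.2.1).const_mul _)
    have := tendsto_integral_of_dominated_convergence (μ := m)
      (F := fun k x => ‖(wsCut k x • g x + u x • gradient (wsCut k) x) - g x‖ ^ 2)
      (f := fun _ => 0) (fun x => 2 * ‖g x‖ ^ 2 + 2 * M ^ 2 * ‖u x‖ ^ 2)
      (fun k => (((wsh_cut h k).2.2.sub h.2.2).1.norm.pow 2)) hb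
      (fun k => Eventually.of_forall fun x => ?_) (Eventually.of_forall fun x => ?_)
    · simpa using this
    · have e : (wsCut k x • g x + u x • gradient (wsCut k) x) - g x
          = (wsCut k x - 1) • g x + u x • gradient (wsCut k) x := by
        rw [sub_smul, one_smul]; abel
      rw [e, Real.norm_of_nonneg (by positivity)]
      have h1 : ‖wsCut k x - 1‖ ≤ 1 := by
        rw [Real.norm_eq_abs, abs_le]
        constructor <;> linarith [wsCut_nonneg k x, wsCut_le_one k x]
      have h2 : ‖(wsCut k x - 1) • g x + u x • gradient (wsCut k) x‖ ≤ ‖g x‖ + M * ‖u x‖ := by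
        refine (norm_add_le _ _).trans (add_le_add ?_ ?_)
        · rw [norm_smul]
          exact mul_le_of_le_one_left (norm_nonneg _) h1
        · rw [norm_smul, mul_comm]
          exact mul_le_mul_of_nonneg_right (hM k x) (norm_nonneg _)
      have h3 : ‖(wsCut k x - 1) • g x + u x • gradient (wsCut k) x‖ ^ 2
          ≤ (‖g x‖ + M * ‖u x‖) ^ 2 := pow_le_pow_left₀ (norm_nonneg _) h2 2
      nlinarith [sq_nonneg (‖g x‖ - M * ‖u x‖)]
    · refine tendsto_const_nhds.congr' ?_
      filter_upwards [wsCut_eventually x] with k hk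
      rw [wsCut_eq_one hk.le, wsCut_grad_zero hk]
      simp

theorem ws_tsupport_gradient_subset (ζ : E → ℝ) : tsupport (gradient ζ) ⊆ tsupport ζ := by
  have h1 : tsupport (fderiv ℝ ζ) ⊆ tsupport ζ := tsupport_fderiv_subset ℝ
  refine subset_trans (closure_mono ?_) h1
  intro x hx
  simp only [Function.mem_support] at hx ⊢
  intro h0
  apply hx
  simp [gradient, h0]

/-- mollification of a compactly supported element of `H¹(η)` converges in `H¹(η)`. -/
theorem wsh_mol_tendsto (hη : Continuous η) (hpos : ∀ x, 0 < η x) {u : E → ℝ} {g : E → E}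
    (h : H1 (dm η) u g) {K : Set E} (hK : IsCompact K) (hu : Function.support u ⊆ K)
    (hg : Function.support g ⊆ K) :
    Tendsto (fun k => eLpNorm (fun x => wsMol k u x - u x) 2 (dm η)) atTop (𝓝 0) ∧
    Tendsto (fun k => eLpNorm (fun x => wsMol k g x - g x) 2 (dm η)) atTop (𝓝 0) := by
  have hK' : IsCompact (Metric.cthickening 1 K) := hK.cthickening
  have key : ∀ {F : Type} [NormedAddCommGroup F] [NormedSpace ℝ F] [CompleteSpace F] {f : E → F},
      MemLp f 2 (dm η) → Function.support f ⊆ K →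
      Tendsto (fun k => eLpNorm (fun x => wsMol k f x - f x) 2 (dm η)) atTop (𝓝 0) := by
    intro F _ _ _ f hf hs
    have h1 := ws_memLp_vol_of_support hη hpos hf hK hs
    have h2 := wsMol_tendsto_eLpNorm (p := 2) (by norm_num) (by norm_num) h1
    refine ws_tendsto_dm_of_support hη hK' (fun k x hx => ?_) h2
    by_contra hx'
    apply hx
    have e1 : wsMol k f x = 0 := by
      by_contra h0
      apply hx'
      refine Metric.cthickening_subset_of_subset 1 ?_ (wsMol_support_subset k f h0)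
      exact closure_minimal hs hK.isClosed
    have e2 : f x = 0 := by
      by_contra h0
      exact hx' (Metric.self_subset_cthickening _ (hs h0))
    simp [e1, e2]
  exact ⟨key h.2.1 hu, key h.2.2 hg⟩

/-- DENSITY OF TEST FUNCTIONS in `H¹(η)`, with preservation of sign and of bounds. -/
theorem wsh_dense_aux (hη : Continuous η) (hpos : ∀ x, 0 < η x) {u : E → ℝ} {g : E → E}
    (h : H1 (dm η) u g) :
    ∃ φ : ℕ → E → ℝ, (∀ k, IsTest (φ k)) ∧
      ((∀ᵐ x, 0 ≤ u x) → ∀ k x, 0 ≤ φ k x) ∧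
      (∀ C : ℝ, (∀ᵐ x, |u x| ≤ C) → ∀ k x, |φ k x| ≤ C) ∧
      Tendsto (fun k => eLpNorm (fun x => φ k x - u x) 2 (dm η)) atTop (𝓝 0) ∧
      Tendsto (fun k => eLpNorm (fun x => gradient (φ k) x - g x) 2 (dm η)) atTop (𝓝 0) := by
  set U : ℕ → E → ℝ := fun j x => wsCut j x * u x with hU
  set G : ℕ → E → E := fun j x => wsCut j x • g x + u x • gradient (wsCut j) x with hG
  have hH : ∀ j, H1 (dm η) (U j) (G j) := fun j => wsh_cut h j
  have hKc : ∀ j, IsCompact (tsupport (wsCut j : E → ℝ)) := fun j => wsCut_hasCompactSupport j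
  have hsU : ∀ j, Function.support (U j) ⊆ tsupport (wsCut j : E → ℝ) := by
    intro j x hx
    by_contra hx'
    apply hx
    simp only [hU, image_eq_zero_of_notMem_tsupport hx', zero_mul]
  have hsG : ∀ j, Function.support (G j) ⊆ tsupport (wsCut j : E → ℝ) := by
    intro j x hx
    by_contra hx'
    apply hx
    have h2 : gradient (wsCut j) x = 0 :=
      image_eq_zero_of_notMem_tsupport fun h3 => hx' (ws_tsupport_gradient_subset _ h3)
    simp only [hG, image_eq_zero_of_notMem_tsupport hx', h2, zero_smul, smul_zero, add_zero]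
  have hcU : ∀ j, HasCompactSupport (U j) := fun j => (wsCut_hasCompactSupport j).mul_right
  -- choice of the mollification scale
  have hch : ∀ j : ℕ, ∃ k : ℕ,
      eLpNorm (fun x => wsMol k (U j) x - U j x) 2 (dm η) ≤ ENNReal.ofReal (1 / ((j : ℝ) + 1)) ∧
      eLpNorm (fun x => wsMol k (G j) x - G j x) 2 (dm η) ≤ ENNReal.ofReal (1 / ((j : ℝ) + 1)) := by
    intro j
    obtain ⟨t1, t2⟩ := wsh_mol_tendsto hη hpos (hH j) (hKc j) (hsU j) (hsG j)
    have hp : 0 < ENNReal.ofReal (1 / ((j : ℝ) + 1)) := by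
      rw [ENNReal.ofReal_pos]; positivity
    exact ((t1.eventually (ge_mem_nhds hp)).and (t2.eventually (ge_mem_nhds hp))).exists
  choose κ hκ1 hκ2 using hch
  have hsmall : Tendsto (fun j : ℕ => ENNReal.ofReal (1 / ((j : ℝ) + 1))) atTop (𝓝 0) := by
    have := ENNReal.tendsto_ofReal (tendsto_one_div_add_atTop_nhds_zero_nat (𝕜 := ℝ))
    simpa using this
  obtain ⟨c1, c2⟩ := wsh_cut_tendsto h
  have hT : ∀ j, IsTest (wsMol (κ j) (U j)) := fun j => wsMol_isTest _ (hH j).1.1 (hcU j)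
  have hgr : ∀ j, gradient (wsMol (κ j) (U j)) = wsMol (κ j) (G j) :=
    fun j => wsMol_gradient (hH j).1 _
  refine ⟨fun j => wsMol (κ j) (U j), hT, ?_, ?_, ?_, ?_⟩
  · intro h0 j x
    refine wsMol_nonneg _ ?_ x
    filter_upwards [h0] with y hy
    exact mul_nonneg (wsCut_nonneg j y) hy
  · intro C hC j x
    refine wsMol_norm_le (F := ℝ) _ ?_ x
    filter_upwards [hC] with y hy
    rw [hU, norm_mul, Real.norm_of_nonneg (wsCut_nonneg j y)]
    exact (mul_le_of_le_one_left (norm_nonneg _) (wsCut_le_one j y)).trans hy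
  · have hsum := hsmall.add c1
    rw [add_zero] at hsum
    refine tendsto_of_tendsto_of_tendsto_of_le_of_le tendsto_const_nhds hsum (fun _ => zero_le) ?_
    intro j
    have e : (fun x => wsMol (κ j) (U j) x - u x)
        = (fun x => wsMol (κ j) (U j) x - U j x) + fun x => U j x - u x := by
      funext x; simp
    show eLpNorm (fun x => wsMol (κ j) (U j) x - u x) 2 (dm η) ≤ _
    rw [e]
    refine (eLpNorm_add_le ?_ ((hH j).2.1.1.sub h.2.1.1) (by norm_num)).trans
      (add_le_add (hκ1 j) le_rfl)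
    exact ((hT j).1.continuous.aestronglyMeasurable).sub (hH j).2.1.1
  · have hsum := hsmall.add c2
    rw [add_zero] at hsum
    refine tendsto_of_tendsto_of_tendsto_of_le_of_le tendsto_const_nhds hsum (fun _ => zero_le) ?_
    intro j
    have e : (fun x => gradient (wsMol (κ j) (U j)) x - g x)
        = (fun x => wsMol (κ j) (G j) x - G j x) + fun x => G j x - g x := by
      funext x; simp [hgr j]
    show eLpNorm (fun x => gradient (wsMol (κ j) (U j)) x - g x) 2 (dm η) ≤ _
    rw [e]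
    refine (eLpNorm_add_le ?_ ((hH j).2.2.1.sub h.2.2.1) (by norm_num)).trans
      (add_le_add (hκ2 j) le_rfl)
    exact ((wsMol_contDiff _ (hH j).1.2.1).continuous.aestronglyMeasurable).sub (hH j).2.2.1

/-! ### function level forms -/

theorem ws_tendsto_sq_iff_real {α : Type} [MeasurableSpace α] {m : Measure α} {g : ℕ → α → ℝ}
    (hg : ∀ k, MemLp (g k) 2 m) :
    Tendsto (fun k => ∫ x, g k x ^ 2 ∂m) atTop (𝓝 0) ↔
      Tendsto (fun k => eLpNorm (g k) 2 m) atTop (𝓝 0) := by
  rw [← ws_tendsto_sq_iff hg]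
  simp only [Real.norm_eq_abs, sq_abs]

/-- Density of test functions, function level, with sign and bound preservation. -/
theorem wsh_dense (hη : Continuous η) (hpos : ∀ x, 0 < η x) {u : E → ℝ} {g : E → E}
    (h : H1 (dm η) u g) :
    ∃ φ : ℕ → E → ℝ, (∀ k, IsTest (φ k)) ∧
      ((∀ᵐ x, 0 ≤ u x) → ∀ k x, 0 ≤ φ k x) ∧
      (∀ C : ℝ, (∀ᵐ x, |u x| ≤ C) → ∀ k x, |φ k x| ≤ C) ∧
      Tendsto (fun k => ∫ x, (φ k x - u x) ^ 2 ∂(dm η)) atTop (𝓝 0) ∧
      Tendsto (fun k => ∫ x, ‖gradient (φ k) x - g x‖ ^ 2 ∂(dm η)) atTop (𝓝 0) := by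
  obtain ⟨φ, h1, h2, h3, h4, h5⟩ := wsh_dense_aux hη hpos h
  refine ⟨φ, h1, h2, h3, ?_, ?_⟩
  · exact (ws_tendsto_sq_iff_real (g := fun k x => φ k x - u x)
      (fun k => (wsh_of_test hη (h1 k)).2.1.sub h.2.1)).2 h4
  · exact (ws_tendsto_sq_iff (g := fun k x => gradient (φ k) x - g x)
      (fun k => (wsh_of_test hη (h1 k)).2.2.sub h.2.2)).2 h5

/-- Strong closedness of the graph, function level. -/
theorem wsh_closed (hη : Continuous η) (hpos : ∀ x, 0 < η x) {u : E → ℝ} {g : E → E}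
    {uk : ℕ → E → ℝ} {gk' : ℕ → E → E} (hk : ∀ k, H1 (dm η) (uk k) (gk' k))
    (hu2 : MemLp u 2 (dm η)) (hg2 : MemLp g 2 (dm η))
    (hu : Tendsto (fun k => ∫ x, (uk k x - u x) ^ 2 ∂(dm η)) atTop (𝓝 0))
    (hg : Tendsto (fun k => ∫ x, ‖gk' k x - g x‖ ^ 2 ∂(dm η)) atTop (𝓝 0)) :
    H1 (dm η) u g :=
  ws_closed_aux hη hpos hk hu2 hg2
    ((ws_tendsto_sq_iff_real (g := fun k x => uk k x - u x) (fun k => (hk k).2.1.sub hu2)).1 hu)
    ((ws_tendsto_sq_iff (g := fun k x => gk' k x - g x) (fun k => (hk k).2.2.sub hg2)).1 hg)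

end Claimed.Agent.R259
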