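/-
Row 259, kit WS: Hilbert space tools.  (1) a bounded (sub)sequence of a Hilbert space has a point
which belongs to every closed convex set containing its tails (weak cluster point, obtained from
elements of minimal norm: no weak topology).  (2) the graph space of `H¹(η)` inside
`L²(η) × L²(η; E)`.   Owner: helper217.
-/
import Claimed.Agent.R259.WsH1

set_option autoImplicit false
set_option linter.unusedSectionVars false

open MeasureTheory Filter Topology
open scoped ContDiff ENNReal NNReal InnerProductSpace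

namespace Claimed.Agent.R259

section abstract

variable {H : Type} [NormedAddCommGroup H] [InnerProductSpace ℝ H] [CompleteSpace H]

/-- WEAK CLUSTER POINT without weak topology. -/
theorem ws_hilbert_cluster {x : ℕ → H} {S : Set ℕ} {M : ℝ} (hS : ∃ᶠ k in atTop, k ∈ S)
    (hM : ∀ k ∈ S, ‖x k‖ ≤ M) :
    ∃ p : H, ∀ C : Set H, IsClosed C → Convex ℝ C → (∀ᶠ k in atTop, k ∈ S → x k ∈ C) → p ∈ C := by
  -- the tails
  set T : ℕ → Set H := fun N => {y | ∃ k, N ≤ k ∧ k ∈ S ∧ x k = y} with hT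
  set K : ℕ → Set H := fun N => closure (convexHull ℝ (T N)) with hK
  have hTne : ∀ N, (T N).Nonempty := by
    intro N
    obtain ⟨k, hk1, hk2⟩ := (hS.and_eventually (eventually_ge_atTop N)).exists
    exact ⟨x k, k, hk2, hk1, rfl⟩
  have hKne : ∀ N, (K N).Nonempty := fun N =>
    ((hTne N).mono (subset_convexHull ℝ _)).mono subset_closure
  have hKc : ∀ N, Convex ℝ (K N) := fun N => (convex_convexHull ℝ _).closure
  have hKcl : ∀ N, IsClosed (K N) := fun N => isClosed_closure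
  have hKmin : ∀ N (C : Set H), IsClosed C → Convex ℝ C → T N ⊆ C → K N ⊆ C :=
    fun N C h1 h2 h3 => closure_minimal (convexHull_min h3 h2) h1
  have hTmono : ∀ {N N'}, N ≤ N' → T N' ⊆ T N := by
    rintro N N' h y ⟨k, hk1, hk2, rfl⟩
    exact ⟨k, h.trans hk1, hk2, rfl⟩
  have hKmono : ∀ {N N'}, N ≤ N' → K N' ⊆ K N := fun h =>
    closure_mono (convexHull_mono (hTmono h))
  have hKbd : ∀ N, ∀ y ∈ K N, ‖y‖ ≤ M := by
    intro N y hy
    have : K N ⊆ Metric.closedBall 0 M := by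
      refine hKmin N _ Metric.isClosed_closedBall (convex_closedBall 0 M) ?_
      rintro z ⟨k, -, hk, rfl⟩
      simpa using hM k hk
    simpa using this hy
  -- elements of minimal norm
  have hex : ∀ N, ∃ v ∈ K N, ∀ w ∈ K N, ‖v‖ ≤ ‖w‖ := by
    intro N
    obtain ⟨v, hv, hmin⟩ := exists_norm_eq_iInf_of_complete_convex (hKne N)
      (hKcl N).isComplete (hKc N) 0
    refine ⟨v, hv, fun w hw => ?_⟩
    have h1 : (⨅ w : K N, ‖(0:H) - w‖) ≤ ‖(0:H) - w‖ :=
      ciInf_le ⟨0, fun _ ⟨_, h⟩ => h ▸ norm_nonneg _⟩ (⟨w, hw⟩ : K N)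
    rw [← hmin] at h1
    simpa using h1
  choose p hpK hpmin using hex
  set a : ℕ → ℝ := fun N => ‖p N‖ ^ 2 with ha
  have hamono : Monotone a := by
    intro N N' h
    exact pow_le_pow_left₀ (norm_nonneg _) (hpmin N _ (hKmono h (hpK N'))) 2
  have habd : BddAbove (Set.range a) := by
    refine ⟨M ^ 2, ?_⟩
    rintro _ ⟨N, rfl⟩
    exact pow_le_pow_left₀ (norm_nonneg _) (hKbd N _ (hpK N)) 2
  have hatend := tendsto_atTop_ciSup hamono habd
  set A := ⨆ N, a N with hA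
  have hale : ∀ N, a N ≤ A := fun N => le_ciSup habd N
  -- parallelogram estimate
  have hpar : ∀ {N N'}, N ≤ N' → ‖p N - p N'‖ ^ 2 ≤ 2 * (A - a N) := by
    intro N N' h
    have hmid : (1/2 : ℝ) • p N + (1/2 : ℝ) • p N' ∈ K N :=
      (hKc N) (hpK N) (hKmono h (hpK N')) (by norm_num) (by norm_num) (by norm_num)
    have h1 := hpmin N _ hmid
    have h2 : ‖p N‖ ^ 2 ≤ ‖(1/2 : ℝ) • p N + (1/2 : ℝ) • p N'‖ ^ 2 :=
      pow_le_pow_left₀ (norm_nonneg _) h1 2
    have h3 : ‖(1/2 : ℝ) • p N + (1/2 : ℝ) • p N'‖ ^ 2 = (1/4) * ‖p N + p N'‖ ^ 2 := by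
      rw [← smul_add, norm_smul, mul_pow]
      norm_num
    have h4 := parallelogram_law_with_norm ℝ (p N) (p N')
    have h5 := hale N'
    simp only [ha] at h5 ⊢
    nlinarith
  have hcauchy : CauchySeq p := by
    refine cauchySeq_of_le_tendsto_0 (fun N => Real.sqrt (2 * (A - a N))) ?_ ?_
    · intro n m N hn hm
      have hmonoN : ∀ {j}, N ≤ j → 2 * (A - a j) ≤ 2 * (A - a N) := by
        intro j hj
        have := hamono hj
        linarith
      rw [dist_eq_norm]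
      rcases le_total n m with h | h
      · exact Real.le_sqrt_of_sq_le ((hpar h).trans (hmonoN hn))
      · rw [norm_sub_rev]
        exact Real.le_sqrt_of_sq_le ((hpar h).trans (hmonoN hm))
    · have h1 : Tendsto (fun N => 2 * (A - a N)) atTop (𝓝 0) := by
        have := (tendsto_const_nhds (x := A)).sub hatend
        have := this.const_mul 2
        simpa using this
      have := h1.sqrt
      simpa using this
  obtain ⟨q, hq⟩ := cauchySeq_tendsto_of_complete hcauchy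
  refine ⟨q, fun C hC1 hC2 hC3 => ?_⟩
  obtain ⟨N₀, hN₀⟩ := eventually_atTop.1 hC3
  refine hC1.mem_of_tendsto hq ?_
  filter_upwards [eventually_ge_atTop N₀] with N hN
  refine hKmin N C hC1 hC2 ?_ (hpK N)
  rintro _ ⟨k, hk1, hk2, rfl⟩
  exact hN₀ k (hN.trans hk1) hk2

end abstract

variable {E : Type} [NormedAddCommGroup E] [InnerProductSpace ℝ E] [FiniteDimensional ℝ E]
  [MeasurableSpace E] [BorelSpace E]

/-! ### linear structure of `H¹(m)` -/

theorem wsh_add {m : Measure E} {u v : E → ℝ} {g k : E → E} (h : H1 m u g) (h' : H1 m v k) :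
    H1 m (fun x => u x + v x) (fun x => g x + k x) :=
  ⟨wsg_add h.1 h'.1, h.2.1.add h'.2.1, h.2.2.add h'.2.2⟩

theorem wsh_smul {m : Measure E} (c : ℝ) {u : E → ℝ} {g : E → E} (h : H1 m u g) :
    H1 m (fun x => c * u x) (fun x => c • g x) :=
  ⟨wsg_smul c h.1, h.2.1.const_mul c, h.2.2.const_smul c⟩

theorem wsh_sub {m : Measure E} {u v : E → ℝ} {g k : E → E} (h : H1 m u g) (h' : H1 m v k) :
    H1 m (fun x => u x - v x) (fun x => g x - k x) :=
  ⟨wsg_sub h.1 h'.1, h.2.1.sub h'.2.1, h.2.2.sub h'.2.2⟩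

theorem wsh_zero (m : Measure E) : H1 m (fun _ => 0) (fun _ => 0) :=
  ⟨wsg_const 0, MemLp.zero, MemLp.zero⟩

theorem wsh_congr {η : E → ℝ} (hη : Measurable η) (hpos : ∀ x, 0 < η x) {u u' : E → ℝ}
    {g g' : E → E} (h : H1 (dm η) u g) (hu : u =ᵐ[dm η] u') (hg : g =ᵐ[dm η] g') :
    H1 (dm η) u' g' :=
  ⟨wsg_congr h.1 ((ws_ae_dm_iff hη hpos).1 hu) ((ws_ae_dm_iff hη hpos).1 hg),
    h.2.1.ae_eq hu, h.2.2.ae_eq hg⟩

/-! ### the Hilbert space `L²(m) × L²(m; E)` -/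

/-- `L²(m) × L²(m; E)` with the Hilbert norm. -/
abbrev WsHs (m : Measure E) := WithLp 2 (Lp ℝ 2 m × Lp E 2 m)

/-- the class of a pair of functions. -/
noncomputable def wsPair {m : Measure E} {u : E → ℝ} {g : E → E} (hu : MemLp u 2 m)
    (hg : MemLp g 2 m) : WsHs m := WithLp.toLp 2 (hu.toLp u, hg.toLp g)

section pair

variable {m : Measure E} {u u' : E → ℝ} {g g' : E → E}

example : CompleteSpace (WsHs m) := inferInstance

theorem wsPair_fst (hu : MemLp u 2 m) (hg : MemLp g 2 m) : (wsPair hu hg).fst =ᵐ[m] u :=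
  hu.coeFn_toLp

theorem wsPair_snd (hu : MemLp u 2 m) (hg : MemLp g 2 m) : (wsPair hu hg).snd =ᵐ[m] g :=
  hg.coeFn_toLp

theorem wsPair_self (p : WsHs m) : wsPair (Lp.memLp p.fst) (Lp.memLp p.snd) = p := by
  unfold wsPair
  rw [Lp.toLp_coeFn, Lp.toLp_coeFn]
  rfl

theorem ws_inner_eq (p q : WsHs m) :
    ⟪p, q⟫_ℝ = ∫ x, p.fst x * q.fst x ∂m + ∫ x, ⟪p.snd x, q.snd x⟫_ℝ ∂m := by
  rw [WithLp.prod_inner_apply, L2.inner_def, L2.inner_def]
  congr 1
  refine integral_congr_ae (Eventually.of_forall fun x => ?_)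
  simp [mul_comm]

theorem wsPair_inner (hu : MemLp u 2 m) (hg : MemLp g 2 m) (hu' : MemLp u' 2 m)
    (hg' : MemLp g' 2 m) :
    ⟪wsPair hu hg, wsPair hu' hg'⟫_ℝ = ∫ x, u x * u' x ∂m + ∫ x, ⟪g x, g' x⟫_ℝ ∂m := by
  rw [ws_inner_eq]
  congr 1
  · refine integral_congr_ae ?_
    filter_upwards [wsPair_fst hu hg, wsPair_fst hu' hg'] with x h1 h2
    rw [h1, h2]
  · refine integral_congr_ae ?_
    filter_upwards [wsPair_snd hu hg, wsPair_snd hu' hg'] with x h1 h2
    rw [h1, h2]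

theorem wsPair_sub (hu : MemLp u 2 m) (hg : MemLp g 2 m) (hu' : MemLp u' 2 m)
    (hg' : MemLp g' 2 m) :
    wsPair hu hg - wsPair hu' hg' = wsPair (hu.sub hu') (hg.sub hg') := by
  unfold wsPair
  rw [MemLp.toLp_sub hu hu', MemLp.toLp_sub hg hg']
  rfl

theorem wsPair_norm_sq (hu : MemLp u 2 m) (hg : MemLp g 2 m) :
    ‖wsPair hu hg‖ ^ 2 = ∫ x, u x ^ 2 ∂m + ∫ x, ‖g x‖ ^ 2 ∂m := by
  rw [WithLp.prod_norm_sq_eq_of_L2]
  unfold wsPair
  simp only [WithLp.toLp_fst, WithLp.toLp_snd, Lp.norm_toLp]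
  rw [← ws_integral_sq_eq hu, ← ws_integral_sq_eq hg]
  simp only [Real.norm_eq_abs, sq_abs]

end pair

variable {η : E → ℝ}

/-- the (scaled) graph of the weak gradient: pairs `(a, b)` with `∇ a = c b`. -/
noncomputable def wsV (hη : Measurable η) (hpos : ∀ x, 0 < η x) (c : ℝ) :
    Submodule ℝ (WsHs (dm η)) where
  carrier := {p | H1 (dm η) p.fst (fun x => c • p.snd x)}
  add_mem' := by
    intro p q hp hq
    refine wsh_congr hη hpos (wsh_add hp hq) ?_ ?_
    · rw [WithLp.add_fst]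
      exact (Lp.coeFn_add _ _).symm
    · rw [WithLp.add_snd]
      filter_upwards [Lp.coeFn_add p.snd q.snd] with x hx
      rw [hx, Pi.add_apply, smul_add]
  zero_mem' := by
    refine wsh_congr hη hpos (wsh_zero _) ?_ ?_
    · rw [WithLp.zero_fst]
      exact (Lp.coeFn_zero _ _ _).symm
    · rw [WithLp.zero_snd]
      filter_upwards [Lp.coeFn_zero E 2 (dm η)] with x hx
      rw [hx, Pi.zero_apply, smul_zero]
  smul_mem' := by
    intro a p hp
    refine wsh_congr hη hpos (wsh_smul a hp) ?_ ?_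
    · rw [WithLp.smul_fst]
      filter_upwards [Lp.coeFn_smul a p.fst] with x hx
      rw [hx, Pi.smul_apply, smul_eq_mul]
    · rw [WithLp.smul_snd]
      filter_upwards [Lp.coeFn_smul a p.snd] with x hx
      rw [hx, Pi.smul_apply, smul_comm]

theorem mem_wsV (hη : Measurable η) (hpos : ∀ x, 0 < η x) (c : ℝ) (p : WsHs (dm η)) :
    p ∈ wsV hη hpos c ↔ H1 (dm η) p.fst (fun x => c • p.snd x) := Iff.rfl

theorem wsPair_mem_wsV (hη : Measurable η) (hpos : ∀ x, 0 < η x) (c : ℝ) {u : E → ℝ} {g : E → E}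
    (hu : MemLp u 2 (dm η)) (hg : MemLp g 2 (dm η)) :
    wsPair hu hg ∈ wsV hη hpos c ↔ H1 (dm η) u (fun x => c • g x) := by
  rw [mem_wsV]
  constructor
  · intro h
    refine wsh_congr hη hpos h (wsPair_fst hu hg) ?_
    filter_upwards [wsPair_snd hu hg] with x hx
    rw [hx]
  · intro h
    refine wsh_congr hη hpos h (wsPair_fst hu hg).symm ?_
    filter_upwards [wsPair_snd hu hg] with x hx
    rw [hx]

theorem wsV_isClosed (hη : Continuous η) (hpos : ∀ x, 0 < η x) (c : ℝ) :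
    IsClosed (wsV hη.measurable hpos c : Set (WsHs (dm η))) := by
  refine IsSeqClosed.isClosed ?_
  intro p q hp hq
  have t1 : Tendsto (fun k => (p k).fst) atTop (𝓝 q.fst) :=
    ((WithLp.continuous_fst 2 _ _).tendsto q).comp hq
  have t2 : Tendsto (fun k => (p k).snd) atTop (𝓝 q.snd) :=
    ((WithLp.continuous_snd 2 _ _).tendsto q).comp hq
  rw [Lp.tendsto_Lp_iff_tendsto_eLpNorm'] at t1 t2
  refine ws_closed_aux hη hpos (fun k => hp k) (Lp.memLp _) ((Lp.memLp q.snd).const_smul c) t1 ?_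
  have e : ∀ k, eLpNorm (fun x => c • (p k).snd x - c • q.snd x) 2 (dm η)
      = ‖c‖ₑ * eLpNorm (⇑(p k).snd - ⇑q.snd) 2 (dm η) := by
    intro k
    rw [← eLpNorm_const_smul]
    congr 1
    funext x
    simp [smul_sub]
  simp only [e]
  have := ENNReal.Tendsto.const_mul (a := ‖c‖ₑ) t2 (Or.inr (by simp))
  simpa using this

/-- WEAK COMPACTNESS IN `H¹(η)`: if `u_k → u` in `L²(η)` and the energies are bounded along an
infinite set `S` of indices, then `u ∈ H¹(η)`, and its gradient inherits every bound of norm type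
or of half-space type which holds along `S`. -/
theorem ws_cluster (hη : Continuous η) (hpos : ∀ x, 0 < η x) {u : E → ℝ}
    {uk : ℕ → E → ℝ} {gk' : ℕ → E → E} (hk : ∀ k, H1 (dm η) (uk k) (gk' k))
    (hu2 : MemLp u 2 (dm η))
    (hu : Tendsto (fun k => ∫ x, (uk k x - u x) ^ 2 ∂(dm η)) atTop (𝓝 0))
    {S : Set ℕ} (hS : ∃ᶠ k in atTop, k ∈ S) {B : ℝ}
    (hB : ∀ k ∈ S, ∫ x, ‖gk' k x‖ ^ 2 ∂(dm η) ≤ B) :
    ∃ g : E → E, H1 (dm η) u g ∧ ∫ x, ‖g x‖ ^ 2 ∂(dm η) ≤ B ∧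
      ∀ (Z : E → E) (t : ℝ), MemLp Z 2 (dm η) →
        (∀ k ∈ S, t ≤ ∫ x, ⟪gk' k x, Z x⟫_ℝ ∂(dm η)) → t ≤ ∫ x, ⟪g x, Z x⟫_ℝ ∂(dm η) := by
  have hz : MemLp (fun _ : E => (0 : E)) 2 (dm η) := MemLp.zero
  have hz' : MemLp (fun _ : E => (0 : ℝ)) 2 (dm η) := MemLp.zero
  set X : ℕ → WsHs (dm η) := fun k => wsPair (hk k).2.1 (hk k).2.2 with hX
  set q : WsHs (dm η) := wsPair hu2 hz with hq
  set S' : Set ℕ := {k | k ∈ S ∧ ∫ x, (uk k x - u x) ^ 2 ∂(dm η) ≤ 1} with hS'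
  have hS'f : ∃ᶠ k in atTop, k ∈ S' :=
    hS.and_eventually (hu.eventually (ge_mem_nhds one_pos))
  have hdist : ∀ k, ‖X k - q‖ ^ 2
      = ∫ x, (uk k x - u x) ^ 2 ∂(dm η) + ∫ x, ‖gk' k x‖ ^ 2 ∂(dm η) := by
    intro k
    rw [hX, hq, wsPair_sub, wsPair_norm_sq]
    simp
  have hB0 : 0 ≤ B := by
    obtain ⟨k, hk'⟩ := hS.exists
    exact (integral_nonneg fun x => by positivity).trans (hB k hk')
  have hM : ∀ k ∈ S', ‖X k‖ ≤ ‖q‖ + Real.sqrt (1 + B) := by
    intro k hk'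
    have h1 : ‖X k - q‖ ≤ Real.sqrt (1 + B) := by
      apply Real.le_sqrt_of_sq_le
      rw [hdist]
      exact add_le_add hk'.2 (hB k hk'.1)
    have h2 : ‖X k‖ ≤ ‖q‖ + ‖X k - q‖ := by
      have := norm_add_le q (X k - q)
      simpa using this
    linarith
  obtain ⟨p, hp⟩ := ws_hilbert_cluster hS'f hM
  -- (a) `p` is in the graph
  have ha : p ∈ wsV hη.measurable hpos 1 := by
    refine hp _ (wsV_isClosed hη hpos 1) (wsV hη.measurable hpos 1).convex
      (Eventually.of_forall fun k _ => ?_)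
    rw [SetLike.mem_coe, wsPair_mem_wsV]
    simpa using hk k
  -- (c) first component
  have hc : p.fst = q.fst := by
    have hall : ∀ ε : ℝ, 0 < ε → ‖p.fst - q.fst‖ ≤ ε := by
      intro ε hε
      have hmem : p ∈ (WithLp.fstL 2 ℝ (Lp ℝ 2 (dm η)) (Lp E 2 (dm η))) ⁻¹'
          Metric.closedBall q.fst ε := by
        refine hp _ (Metric.isClosed_closedBall.preimage (ContinuousLinearMap.continuous _))
          ((convex_closedBall _ _).linear_preimage
            (WithLp.fstL 2 ℝ (Lp ℝ 2 (dm η)) (Lp E 2 (dm η))).toLinearMap) ?_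
        have h1 := hu.eventually (ge_mem_nhds (by positivity : 0 < ε ^ 2))
        filter_upwards [h1] with k hk1 _
        show (X k).fst ∈ Metric.closedBall q.fst ε
        rw [mem_closedBall_iff_norm, ← WithLp.sub_fst]
        apply abs_le_of_sq_le_sq' _ hε.le |>.2
        have h2 : ‖(X k - q).fst‖ ^ 2 = ∫ x, (uk k x - u x) ^ 2 ∂(dm η) := by
          rw [hX, hq, wsPair_sub]
          unfold wsPair
          simp only [WithLp.toLp_fst, Lp.norm_toLp]
          rw [← ws_integral_sq_eq ((hk k).2.1.sub hu2)]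
          simp only [Real.norm_eq_abs, sq_abs, Pi.sub_apply]
        rw [h2]
        exact hk1
      have : p.fst ∈ Metric.closedBall q.fst ε := hmem
      rwa [mem_closedBall_iff_norm] at this
    have : ‖p.fst - q.fst‖ ≤ 0 := le_of_forall_pos_le_add fun ε hε => by simpa using hall ε hε
    exact sub_eq_zero.1 (norm_le_zero_iff.1 this)
  have hfst : p.fst =ᵐ[dm η] u := by
    rw [hc]
    exact wsPair_fst hu2 hz
  have hH : H1 (dm η) u p.snd := by
    rw [mem_wsV] at ha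
    refine wsh_congr hη.measurable hpos ha hfst (Eventually.of_forall fun x => ?_)
    simp
  refine ⟨p.snd, hH, ?_, ?_⟩
  · -- (b) norm bound
    have hmem : p ∈ (WithLp.sndL 2 ℝ (Lp ℝ 2 (dm η)) (Lp E 2 (dm η))) ⁻¹'
        Metric.closedBall 0 (Real.sqrt B) := by
      refine hp _ (Metric.isClosed_closedBall.preimage (ContinuousLinearMap.continuous _))
        ((convex_closedBall _ _).linear_preimage
          (WithLp.sndL 2 ℝ (Lp ℝ 2 (dm η)) (Lp E 2 (dm η))).toLinearMap)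
        (Eventually.of_forall fun k hk' => ?_)
      show (X k).snd ∈ Metric.closedBall 0 (Real.sqrt B)
      rw [mem_closedBall_zero_iff]
      apply Real.le_sqrt_of_sq_le
      have h2 : ‖(X k).snd‖ ^ 2 = ∫ x, ‖gk' k x‖ ^ 2 ∂(dm η) := by
        rw [hX]
        unfold wsPair
        simp only [WithLp.toLp_snd, Lp.norm_toLp]
        rw [← ws_integral_sq_eq (hk k).2.2]
      rw [h2]
      exact hB k hk'.1
    have h1 : p.snd ∈ Metric.closedBall (0 : Lp E 2 (dm η)) (Real.sqrt B) := hmem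
    rw [mem_closedBall_zero_iff] at h1
    rw [ws_integral_sq_eq (Lp.memLp p.snd), ← Lp.norm_def]
    calc ‖p.snd‖ ^ 2 ≤ Real.sqrt B ^ 2 := pow_le_pow_left₀ (norm_nonneg _) h1 2
      _ = B := Real.sq_sqrt hB0
  · intro Z t hZ hle
    set w : WsHs (dm η) := wsPair hz' hZ with hw
    have hmem : p ∈ {y : WsHs (dm η) | t ≤ ⟪y, w⟫_ℝ} := by
      refine hp _ (isClosed_le continuous_const (continuous_id.inner continuous_const))
        (convex_halfSpace_ge ⟨fun a b => inner_add_left a b w,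
          fun c a => by simp [inner_smul_left]⟩ t) (Eventually.of_forall fun k hk' => ?_)
      show t ≤ ⟪X k, w⟫_ℝ
      rw [hX, hw, wsPair_inner]
      simpa using hle k hk'.1
    have h1 : t ≤ ⟪p, w⟫_ℝ := hmem
    rw [← wsPair_self p, hw, wsPair_inner] at h1
    simpa using h1

/-- Lower semicontinuity of the energy under `L²` convergence. -/
theorem wsh_lsc (hη : Continuous η) (hpos : ∀ x, 0 < η x) {u : E → ℝ}
    {uk : ℕ → E → ℝ} {gk' : ℕ → E → E} (hk : ∀ k, H1 (dm η) (uk k) (gk' k))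
    (hu2 : MemLp u 2 (dm η))
    (hu : Tendsto (fun k => ∫ x, (uk k x - u x) ^ 2 ∂(dm η)) atTop (𝓝 0))
    {B : ℝ} (hB : ∃ᶠ k in atTop, ∫ x, ‖gk' k x‖ ^ 2 ∂(dm η) ≤ B) :
    ∃ g : E → E, H1 (dm η) u g ∧ ∫ x, ‖g x‖ ^ 2 ∂(dm η) ≤ B := by
  obtain ⟨g, h1, h2, -⟩ := ws_cluster hη hpos hk hu2 hu
    (S := {k | ∫ x, ‖gk' k x‖ ^ 2 ∂(dm η) ≤ B}) hB (fun k hk' => hk')
  exact ⟨g, h1, h2⟩

/-- In the situation of `wsh_lsc` the gradients converge weakly. -/
theorem wsh_weak_conv (hη : Continuous η) (hpos : ∀ x, 0 < η x) {u : E → ℝ} {g : E → E}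
    {uk : ℕ → E → ℝ} {gk' : ℕ → E → E} (hk : ∀ k, H1 (dm η) (uk k) (gk' k))
    (h : H1 (dm η) u g)
    (hu : Tendsto (fun k => ∫ x, (uk k x - u x) ^ 2 ∂(dm η)) atTop (𝓝 0))
    {B : ℝ} (hB : ∀ k, ∫ x, ‖gk' k x‖ ^ 2 ∂(dm η) ≤ B) {Z : E → E} (hZ : MemLp Z 2 (dm η)) :
    Tendsto (fun k => ∫ x, inner ℝ (gk' k x) (Z x) ∂(dm η)) atTop
      (𝓝 (∫ x, inner ℝ (g x) (Z x) ∂(dm η))) := by
  -- one-sided statement
  have key : ∀ (W : E → E), MemLp W 2 (dm η) → ∀ ε : ℝ, 0 < ε →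
      ∀ᶠ k in atTop, ∫ x, ⟪gk' k x, W x⟫_ℝ ∂(dm η) < ∫ x, ⟪g x, W x⟫_ℝ ∂(dm η) + ε := by
    intro W hW ε hε
    by_contra hcon
    rw [not_eventually] at hcon
    simp only [not_lt] at hcon
    obtain ⟨g', h1, -, h3⟩ := ws_cluster hη hpos hk h.2.1 hu
      (S := {k | ∫ x, ⟪g x, W x⟫_ℝ ∂(dm η) + ε ≤ ∫ x, ⟪gk' k x, W x⟫_ℝ ∂(dm η)}) hcon
      (fun k _ => hB k)
    have h4 := h3 W _ hW (fun k hk' => hk')
    have h5 : ∫ x, ⟪g' x, W x⟫_ℝ ∂(dm η) = ∫ x, ⟪g x, W x⟫_ℝ ∂(dm η) := by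
      refine integral_congr_ae ?_
      filter_upwards [(ws_dm_ac η).ae_le (wsg_unique h1.1 h.1)] with x hx
      rw [hx]
    linarith
  rw [Metric.tendsto_nhds]
  intro ε hε
  have k1 := key Z hZ ε hε
  have k2 := key (fun x => - Z x) hZ.neg ε hε
  filter_upwards [k1, k2] with k h1 h2
  simp only [inner_neg_right, integral_neg] at h2
  rw [Real.dist_eq, abs_lt]
  constructor <;> linarith

end Claimed.Agent.R259
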