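/-
Row 259, kit WS: passage to the limit in `L²` pairings (function level).   Owner: helper217.
-/
import Claimed.Agent.R259.WsBasic

set_option autoImplicit false
set_option linter.unusedSectionVars false

open MeasureTheory Filter Topology
open scoped ContDiff ENNReal NNReal InnerProductSpace

namespace Claimed.Agent.R259

variable {α : Type} [MeasurableSpace α] {m : Measure α}
variable {F : Type} [NormedAddCommGroup F] [InnerProductSpace ℝ F]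

theorem ws_integral_inner_eq {f g : α → F} (hf : MemLp f 2 m) (hg : MemLp g 2 m) :
    ∫ x, ⟪f x, g x⟫_ℝ ∂m = ⟪hf.toLp f, hg.toLp g⟫_ℝ := by
  rw [L2.inner_def]
  refine integral_congr_ae ?_
  filter_upwards [hf.coeFn_toLp, hg.coeFn_toLp] with x h1 h2
  rw [h1, h2]

theorem ws_integrable_inner {f g : α → F} (hf : MemLp f 2 m) (hg : MemLp g 2 m) :
    Integrable (fun x => ⟪f x, g x⟫_ℝ) m := by
  have := L2.integrable_inner (𝕜 := ℝ) (hf.toLp f) (hg.toLp g)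
  refine this.congr ?_
  filter_upwards [hf.coeFn_toLp, hg.coeFn_toLp] with x h1 h2
  rw [h1, h2]

theorem ws_integrable_mul {f g : α → ℝ} (hf : MemLp f 2 m) (hg : MemLp g 2 m) :
    Integrable (fun x => f x * g x) m := by
  have := ws_integrable_inner hg hf
  simpa using this

theorem ws_tendsto_toLp {f : ℕ → α → F} {f' : α → F} (hf : ∀ k, MemLp (f k) 2 m)
    (hf' : MemLp f' 2 m) (h : Tendsto (fun k => ∫ x, ‖f k x - f' x‖ ^ 2 ∂m) atTop (𝓝 0)) :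
    Tendsto (fun k => (hf k).toLp (f k)) atTop (𝓝 (hf'.toLp f')) := by
  rw [Lp.tendsto_Lp_iff_tendsto_eLpNorm'']
  exact (ws_tendsto_sq_iff (g := fun k x => f k x - f' x) (fun k => (hf k).sub hf')).1 h

/-- limit of `L²` pairings. -/
theorem ws_tendsto_inner {f g : ℕ → α → F} {f' g' : α → F} (hf : ∀ k, MemLp (f k) 2 m)
    (hf' : MemLp f' 2 m) (hg : ∀ k, MemLp (g k) 2 m) (hg' : MemLp g' 2 m)
    (h1 : Tendsto (fun k => ∫ x, ‖f k x - f' x‖ ^ 2 ∂m) atTop (𝓝 0))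
    (h2 : Tendsto (fun k => ∫ x, ‖g k x - g' x‖ ^ 2 ∂m) atTop (𝓝 0)) :
    Tendsto (fun k => ∫ x, ⟪f k x, g k x⟫_ℝ ∂m) atTop (𝓝 (∫ x, ⟪f' x, g' x⟫_ℝ ∂m)) := by
  simp only [fun k => ws_integral_inner_eq (hf k) (hg k), ws_integral_inner_eq hf' hg']
  exact (ws_tendsto_toLp hf hf' h1).inner (ws_tendsto_toLp hg hg' h2)

theorem ws_tendsto_norm_sq {f : ℕ → α → F} {f' : α → F} (hf : ∀ k, MemLp (f k) 2 m)
    (hf' : MemLp f' 2 m) (h1 : Tendsto (fun k => ∫ x, ‖f k x - f' x‖ ^ 2 ∂m) atTop (𝓝 0)) :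
    Tendsto (fun k => ∫ x, ‖f k x‖ ^ 2 ∂m) atTop (𝓝 (∫ x, ‖f' x‖ ^ 2 ∂m)) := by
  have := ws_tendsto_inner hf hf' hf hf' h1 h1
  simpa only [real_inner_self_eq_norm_sq] using this

/-- limit of `L²` products of real functions. -/
theorem ws_tendsto_mul {f g : ℕ → α → ℝ} {f' g' : α → ℝ} (hf : ∀ k, MemLp (f k) 2 m)
    (hf' : MemLp f' 2 m) (hg : ∀ k, MemLp (g k) 2 m) (hg' : MemLp g' 2 m)
    (h1 : Tendsto (fun k => ∫ x, (f k x - f' x) ^ 2 ∂m) atTop (𝓝 0))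
    (h2 : Tendsto (fun k => ∫ x, (g k x - g' x) ^ 2 ∂m) atTop (𝓝 0)) :
    Tendsto (fun k => ∫ x, f k x * g k x ∂m) atTop (𝓝 (∫ x, f' x * g' x ∂m)) := by
  have := ws_tendsto_inner hg hg' hf hf' (by simpa only [Real.norm_eq_abs, sq_abs] using h2)
    (by simpa only [Real.norm_eq_abs, sq_abs] using h1)
  simpa using this

theorem ws_tendsto_sq {f : ℕ → α → ℝ} {f' : α → ℝ} (hf : ∀ k, MemLp (f k) 2 m)
    (hf' : MemLp f' 2 m) (h1 : Tendsto (fun k => ∫ x, (f k x - f' x) ^ 2 ∂m) atTop (𝓝 0)) :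
    Tendsto (fun k => ∫ x, f k x ^ 2 ∂m) atTop (𝓝 (∫ x, f' x ^ 2 ∂m)) := by
  have := ws_tendsto_mul hf hf' hf hf' h1 h1
  simpa only [← sq] using this

/-- Cauchy-Schwarz, function level. -/
theorem ws_cauchy_schwarz {f g : α → F} (hf : MemLp f 2 m) (hg : MemLp g 2 m) :
    (∫ x, ⟪f x, g x⟫_ℝ ∂m) ^ 2 ≤ (∫ x, ‖f x‖ ^ 2 ∂m) * ∫ x, ‖g x‖ ^ 2 ∂m := by
  rw [ws_integral_inner_eq hf hg, ws_integral_sq_eq hf, ws_integral_sq_eq hg, ← Lp.norm_toLp f hf,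
    ← Lp.norm_toLp g hg, ← mul_pow]
  have := abs_real_inner_le_norm (hf.toLp f) (hg.toLp g)
  exact sq_le_sq' (by linarith [neg_abs_le ⟪hf.toLp f, hg.toLp g⟫_ℝ])
    ((le_abs_self _).trans this)

theorem ws_cauchy_schwarz_mul {f g : α → ℝ} (hf : MemLp f 2 m) (hg : MemLp g 2 m) :
    (∫ x, f x * g x ∂m) ^ 2 ≤ (∫ x, f x ^ 2 ∂m) * ∫ x, g x ^ 2 ∂m := by
  have := ws_cauchy_schwarz hg hf
  simp only [Real.norm_eq_abs, sq_abs] at this
  rw [mul_comm (∫ x, f x ^ 2 ∂m)]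
  simpa using this

/-- a function of `L²` with `∫ ‖f‖² = 0` vanishes a.e. -/
theorem ws_ae_zero_of_sq {f : α → F} (hf : MemLp f 2 m) (h : ∫ x, ‖f x‖ ^ 2 ∂m = 0) :
    f =ᵐ[m] 0 := by
  have h1 := (integral_eq_zero_iff_of_nonneg (fun x => by positivity) (ws_integrable_sq hf)).1 h
  filter_upwards [h1] with x hx
  simpa using hx

end Claimed.Agent.R259
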