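/-
Row 259, kit WS: integration by parts with the weight `η` and the classical domain lemma.
Blueprint: helper217.  LEAF `L-ws-ibp`: PROVED by helper83 (names and statements kept; tell
helper217 if a statement is false or awkward).

Plan.  `wsg_div_ibp`: write `W = ∑ i ⟪W, e i⟫ e i` (`stdOrthonormalBasis`), apply `wsg_test_C1` to each
`C¹_c` function `ζ_i = ⟪W, e i⟫` and pair the vector identity with `e i` (`ws_dir_of_vec` in WsGrad does
exactly this).  `ws_div_eta_grad`: `opc_div_form` (OpCalc).  `wsg_ibp_test`: `W = η ∇ζ`.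
`wsh_ibp_test`: `ws_integral_dm`.  `wsh_ibp_classical`: `u = φ`, `W = χ η ∇ f` with a cutoff
`χ = wsCut k = 1` near `tsupport φ`, or directly Mathlib
`integral_mul_fderiv_eq_neg_fderiv_mul_of_integrable`.
`wsh_classical_dom`: (i) with `χ = wsCut k`:  `∫ χ² |∇f|² η = ∫ χ² f A f η - 2 ∫ χ f ⟪∇χ,∇f⟫ η`
(apply `wsh_ibp_classical` to the test function `φ = χ² f`), hence with `X = ∫ χ²|∇f|²η`:
`X ≤ ‖f‖‖Af‖ + 2 M ‖f‖ √X`, so `X ≤ C` uniformly in `k`; monotone convergence / Fatou
(`wsCut k x = 1` eventually) gives `∇ f ∈ L²(η)`.  (ii) for `(u,g) ∈ H¹(η)` take tests `φ_k → u`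
(`wsh_dense`), use `wsh_ibp_classical` and pass to the limit with `ws_tendsto_inner`,
`ws_tendsto_mul` (WsLim).
-/
import Claimed.Agent.R259.WsH1
import Claimed.Agent.R259.WsLim
import Claimed.Agent.R259.OpCalc

set_option autoImplicit false
set_option linter.unusedSectionVars false

open MeasureTheory Filter Topology
open scoped ContDiff ENNReal

namespace Claimed.Agent.R259

variable {E : Type} [NormedAddCommGroup E] [InnerProductSpace ℝ E] [FiniteDimensional ℝ E]
  [MeasurableSpace E] [BorelSpace E]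
variable {η : E → ℝ}

/-- divergence of a vector field (standard orthonormal basis). -/
noncomputable def wsDiv (W : E → E) (x : E) : ℝ :=
  ∑ i, inner ℝ (fderiv ℝ W x (stdOrthonormalBasis ℝ E i)) (stdOrthonormalBasis ℝ E i)

/-- derivative of a component of a vector field. -/
theorem wsi_fderiv_inner {W : E → E} {x : E} (hW : DifferentiableAt ℝ W x) (e v : E) :
    fderiv ℝ (fun y => inner ℝ (W y) e) x v = inner ℝ (fderiv ℝ W x v) e := by
  have h := ((innerSL ℝ e).hasFDerivAt (x := W x)).comp x hW.hasFDerivAt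
  have e1 : (fun y => inner ℝ (W y) e) = (innerSL ℝ e) ∘ W := by
    funext y
    simp [real_inner_comm]
  rw [e1, h.fderiv]
  simp [innerSL_apply_apply, real_inner_comm]

/-- the weak gradient tested against a `C¹_c` vector field. -/
theorem wsg_div_ibp {u : E → ℝ} {g : E → E} (h : WeakGrad u g) {W : E → E}
    (hW : ContDiff ℝ 1 W) (hc : HasCompactSupport W) :
    ∫ x, inner ℝ (g x) (W x) = - ∫ x, u x * wsDiv W x := by
  set b := stdOrthonormalBasis ℝ E with hb
  have hζ : ∀ i, ContDiff ℝ 1 (fun y => inner ℝ (W y) (b i)) := fun i => hW.inner ℝ contDiff_const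
  have hζc : ∀ i, HasCompactSupport (fun y => inner ℝ (W y) (b i)) := fun i =>
    hc.comp_left (g := fun w : E => inner ℝ w (b i)) (inner_zero_left _)
  have key : ∀ i, ∫ x, u x * inner ℝ (fderiv ℝ W x (b i)) (b i) =
      - ∫ x, inner ℝ (W x) (b i) * inner ℝ (g x) (b i) := by
    intro i
    have := ws_dir_of_vec h.1 h.2.1 (hζ i) (hζc i) (wsg_test_C1 h (hζ i) (hζc i)) (b i)
    simpa only [wsi_fderiv_inner (hW.differentiable (by simp) _)] using this
  have hDc : ∀ i, Continuous (fun x => inner ℝ (fderiv ℝ W x (b i)) (b i)) := fun i =>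
    ((hW.continuous_fderiv (by simp)).clm_apply continuous_const).inner continuous_const
  have hDs : ∀ i, HasCompactSupport (fun x => inner ℝ (fderiv ℝ W x (b i)) (b i)) := fun i =>
    (hc.fderiv ℝ).comp_left (g := fun L : E →L[ℝ] E => inner ℝ (L (b i)) (b i)) (by simp)
  have i1 : ∀ i, Integrable (fun x => u x * inner ℝ (fderiv ℝ W x (b i)) (b i)) volume := fun i =>
    h.1.integrable_smul_right_of_hasCompactSupport (hDc i) (hDs i)
  have i2 : ∀ i, Integrable (fun x => inner ℝ (W x) (b i) * inner ℝ (g x) (b i)) volume := by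
    intro i
    have hgi : LocallyIntegrable (fun x => inner ℝ (g x) (b i)) volume := by
      intro x
      obtain ⟨s, hs, hi⟩ := h.2.1 x
      exact ⟨s, hs, hi.inner_const (b i)⟩
    exact hgi.integrable_smul_left_of_hasCompactSupport (hζ i).continuous (hζc i)
  have e1 : ∀ x, inner ℝ (g x) (W x) = ∑ i, inner ℝ (W x) (b i) * inner ℝ (g x) (b i) := by
    intro x
    rw [← b.sum_inner_mul_inner (g x) (W x)]
    refine Finset.sum_congr rfl fun i _ => ?_
    rw [real_inner_comm (W x) (b i)]
    ring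
  have e2 : ∀ x, u x * wsDiv W x = ∑ i, u x * inner ℝ (fderiv ℝ W x (b i)) (b i) := by
    intro x
    rw [wsDiv, Finset.mul_sum]
  simp only [e1, e2]
  rw [integral_finsetSum _ (fun i _ => i2 i), integral_finsetSum _ (fun i _ => i1 i),
    ← Finset.sum_neg_distrib]
  refine Finset.sum_congr rfl fun i _ => ?_
  rw [key i, neg_neg]

theorem ws_div_eta_grad {x : E} (hη : DifferentiableAt ℝ η x) (hpos : 0 < η x) {f : E → ℝ}
    (hf : ContDiffAt ℝ 2 f x) :
    wsDiv (fun y => η y • gradient f y) x = - (η x * opA η f x) := by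
  rw [opc_div_form hη hpos hf, neg_neg, wsDiv]
  refine Finset.sum_congr rfl fun i _ => ?_
  have hg : DifferentiableAt ℝ (gradient f) x := by
    have h1 : ContDiffAt ℝ 1 (fderiv ℝ f) x := hf.fderiv_right (by norm_num)
    have h2 : DifferentiableAt ℝ (fderiv ℝ f) x := h1.differentiableAt (by simp)
    exact ((InnerProductSpace.toDual ℝ E).symm.toContinuousLinearEquiv.toContinuousLinearMap
      |>.differentiableAt).comp x h2
  have hsm : DifferentiableAt ℝ (fun y => η y • gradient f y) x := hη.smul hg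
  rw [← wsi_fderiv_inner hsm]
  congr 2
  funext y
  rw [inner_smul_left, inner_gradient_left]
  simp

/-- local form of the weighted integration by parts. -/
theorem wsg_ibp_test (hη : ContDiff ℝ ∞ η) (hpos : ∀ x, 0 < η x) {u : E → ℝ} {g : E → E}
    (h : WeakGrad u g) {ζ : E → ℝ} (hζ : IsTest ζ) :
    ∫ x, η x * inner ℝ (g x) (gradient ζ x) = ∫ x, η x * (u x * opA η ζ x) := by
  have hgz : ContDiff ℝ 1 (gradient ζ) := by
    have h1 : ContDiff ℝ 1 (fderiv ℝ ζ) := hζ.1.fderiv_right (m := 1)
      (by norm_num; exact ENat.LEInfty.out)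
    exact (InnerProductSpace.toDual ℝ E).symm.toContinuousLinearEquiv.toContinuousLinearMap.contDiff.comp h1
  have hW : ContDiff ℝ 1 (fun y => η y • gradient ζ y) :=
    (hη.of_le (by exact_mod_cast le_top)).smul hgz
  have hc : HasCompactSupport (fun y => η y • gradient ζ y) :=
    (ws_gradient_hasCompactSupport hζ.2).smul_left
  have := wsg_div_ibp h hW hc
  simp only [inner_smul_right] at this
  rw [this, ← integral_neg]
  refine integral_congr_ae (Eventually.of_forall fun x => ?_)
  simp only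
  rw [ws_div_eta_grad (hη.differentiable (by simp) x) (hpos x)
    (hζ.1.contDiffAt.of_le ENat.LEInfty.out)]
  ring

/-- Integration by parts against a test function. -/
theorem wsh_ibp_test (hη : ContDiff ℝ ∞ η) (hpos : ∀ x, 0 < η x) {u : E → ℝ} {g : E → E}
    (h : WeakGrad u g) {ζ : E → ℝ} (hζ : IsTest ζ) :
    ∫ x, inner ℝ (g x) (gradient ζ x) ∂(dm η) = ∫ x, u x * opA η ζ x ∂(dm η) := by
  rw [ws_integral_dm hη.continuous.measurable (fun x => (hpos x).le),
    ws_integral_dm hη.continuous.measurable (fun x => (hpos x).le)]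
  simpa only [smul_eq_mul] using wsg_ibp_test hη hpos h hζ

/-- a test function against a smooth function. -/
theorem wsh_ibp_classical (hη : ContDiff ℝ ∞ η) (hpos : ∀ x, 0 < η x) {f : E → ℝ}
    (hf : ContDiff ℝ ∞ f) {φ : E → ℝ} (hφ : IsTest φ) :
    ∫ x, inner ℝ (gradient φ x) (gradient f x) ∂(dm η) = ∫ x, φ x * opA η f x ∂(dm η) := by
  rw [ws_integral_dm hη.continuous.measurable (fun x => (hpos x).le),
    ws_integral_dm hη.continuous.measurable (fun x => (hpos x).le)]
  set b := stdOrthonormalBasis ℝ E with hb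
  have hφ1 : ContDiff ℝ 1 φ := hφ.1.of_le (by exact_mod_cast le_top)
  -- the components of `η ∇ f`
  have hU : ∀ i, ContDiff ℝ 1 (fun y => η y * fderiv ℝ f y (b i)) := fun i =>
    (hη.of_le (by exact_mod_cast le_top)).mul
      ((hf.fderiv_right (m := 1) (by norm_num; exact ENat.LEInfty.out)).clm_apply contDiff_const)
  have key : ∀ i, ∫ x, (η x * fderiv ℝ f x (b i)) * fderiv ℝ φ x (b i) =
      - ∫ x, φ x * fderiv ℝ (fun y => η y * fderiv ℝ f y (b i)) x (b i) := by
    intro i
    have hw := wsg_of_contDiff (hU i)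
    have := ws_dir_of_vec hw.1 hw.2.1 hφ1 hφ.2 (wsg_test_C1 hw hφ1 hφ.2) (b i)
    simpa only [inner_gradient_left] using this
  have hφd : ∀ i, Continuous (fun x => fderiv ℝ φ x (b i)) := fun i =>
    (hφ1.continuous_fderiv (by simp)).clm_apply continuous_const
  have hφs : ∀ i, HasCompactSupport (fun x => fderiv ℝ φ x (b i)) := fun i =>
    (hφ.2.fderiv ℝ).comp_left (g := fun L : E →L[ℝ] ℝ => L (b i)) (by simp)
  have i1 : ∀ i, Integrable (fun x => (η x * fderiv ℝ f x (b i)) * fderiv ℝ φ x (b i)) volume :=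
    fun i => ((hU i).continuous.mul (hφd i)).integrable_of_hasCompactSupport (hφs i).mul_left
  have hUd : ∀ i, Continuous (fun x => fderiv ℝ (fun y => η y * fderiv ℝ f y (b i)) x (b i)) :=
    fun i => ((hU i).continuous_fderiv (by simp)).clm_apply continuous_const
  have i2 : ∀ i, Integrable
      (fun x => φ x * fderiv ℝ (fun y => η y * fderiv ℝ f y (b i)) x (b i)) volume :=
    fun i => (hφ.1.continuous.mul (hUd i)).integrable_of_hasCompactSupport hφ.2.mul_right
  have e1 : ∀ x, η x • inner ℝ (gradient φ x) (gradient f x) =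
      ∑ i, (η x * fderiv ℝ f x (b i)) * fderiv ℝ φ x (b i) := by
    intro x
    rw [← b.sum_inner_mul_inner (gradient φ x) (gradient f x), smul_eq_mul, Finset.mul_sum]
    refine Finset.sum_congr rfl fun i _ => ?_
    rw [inner_gradient_left, real_inner_comm, inner_gradient_left]
    ring
  have e2 : ∀ x, η x • (φ x * opA η f x) =
      - ∑ i, φ x * fderiv ℝ (fun y => η y * fderiv ℝ f y (b i)) x (b i) := by
    intro x
    have := opc_div_form (hη.differentiable (by simp) x) (hpos x)
      (hf.contDiffAt.of_le ENat.LEInfty.out : ContDiffAt ℝ 2 f x)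
    rw [smul_eq_mul, ← Finset.mul_sum]
    calc η x * (φ x * opA η f x) = φ x * (η x * opA η f x) := by ring
      _ = _ := by rw [this]; ring
  simp only [e1, e2]
  rw [integral_finsetSum _ (fun i _ => i1 i), integral_neg, integral_finsetSum _ (fun i _ => i2 i),
    ← Finset.sum_neg_distrib]
  exact Finset.sum_congr rfl fun i _ => key i

/-- uniform bound of the truncated energies. -/
theorem wsi_cut_energy (hη : ContDiff ℝ ∞ η) (hpos : ∀ x, 0 < η x) {f : E → ℝ}
    (hf : ContDiff ℝ ∞ f) (h2 : MemLp f 2 (dm η)) (hA : MemLp (opA η f) 2 (dm η)) :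
    ∃ C : ℝ, ∀ k : ℕ, Integrable (fun x => wsCut k x ^ 2 * ‖gradient f x‖ ^ 2) (dm η) ∧
      ∫ x, wsCut k x ^ 2 * ‖gradient f x‖ ^ 2 ∂(dm η) ≤ C := by
  obtain ⟨M, hM0, hM⟩ := wsCut_grad_bound' (E := E)
  have hlf := ws_dm_locallyFinite hη.continuous
  have hf1 : ContDiff ℝ 1 f := hf.of_le (by simp)
  have hgc : Continuous (gradient f) := ws_gradient_continuous hf1
  have hfA : Integrable (fun x => f x * opA η f x) (dm η) := ws_integrable_mul h2 hA
  have hf2 : Integrable (fun x => f x ^ 2) (dm η) := by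
    simpa using h2.integrable_norm_pow (by norm_num : (2:ℕ) ≠ 0)
  refine ⟨2 * ∫ x, |f x * opA η f x| ∂(dm η) + 4 * M ^ 2 * ∫ x, f x ^ 2 ∂(dm η), fun k => ?_⟩
  set χ : E → ℝ := wsCut k with hχ
  have hχs : ContDiff ℝ ∞ χ := wsCut_contDiff k
  have hχc : HasCompactSupport χ := wsCut_hasCompactSupport k
  have hχ2c : HasCompactSupport (fun x => χ x ^ 2) :=
    hχc.comp_left (g := fun t : ℝ => t ^ 2) (by simp)
  have hφ : IsTest (fun x => χ x ^ 2 * f x) := ⟨(hχs.pow 2).mul hf, hχ2c.mul_right⟩
  have hgrad : ∀ x, gradient (fun x => χ x ^ 2 * f x) x =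
      χ x ^ 2 • gradient f x + (2 * χ x * f x) • gradient χ x := by
    intro x
    have d1 : DifferentiableAt ℝ χ x := hχs.differentiable (by simp) x
    have d2 : DifferentiableAt ℝ f x := hf.differentiable (by simp) x
    have e0 : (fun x => χ x ^ 2) = fun x => χ x * χ x := by funext y; ring
    have d3 : DifferentiableAt ℝ (fun x => χ x ^ 2) x := d1.pow 2
    rw [ws_gradient_mul d3 d2, e0, ws_gradient_mul d1 d1, smul_add, smul_smul, ← add_smul]
    congr 2 <;> ring
  have hid := wsh_ibp_classical hη hpos hf hφ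
  have i1 : Integrable (fun x => χ x ^ 2 * ‖gradient f x‖ ^ 2) (dm η) :=
    ((hχs.continuous.pow 2).mul (hgc.norm.pow 2)).integrable_of_hasCompactSupport hχ2c.mul_right
  have i2 : Integrable (fun x => inner ℝ (gradient (fun x => χ x ^ 2 * f x) x) (gradient f x))
      (dm η) := by
    refine ((ws_gradient_continuous (hφ.1.of_le (by simp))).inner
      hgc).integrable_of_hasCompactSupport ?_
    refine (ws_gradient_hasCompactSupport hφ.2).mono ?_
    intro x hx
    simp only [Function.mem_support] at hx ⊢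
    intro h0
    apply hx
    rw [h0, inner_zero_left]
  have hpt : ∀ x, χ x ^ 2 * ‖gradient f x‖ ^ 2 ≤
      2 * inner ℝ (gradient (fun x => χ x ^ 2 * f x) x) (gradient f x) + 4 * M ^ 2 * f x ^ 2 := by
    intro x
    rw [hgrad, inner_add_left, inner_smul_left, inner_smul_left, real_inner_self_eq_norm_sq]
    simp only [conj_trivial]
    have h1 : |inner ℝ (gradient χ x) (gradient f x)| ≤ M * ‖gradient f x‖ :=
      (abs_real_inner_le_norm _ _).trans (mul_le_mul_of_nonneg_right (hM k x) (norm_nonneg _))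
    have h0 : 0 ≤ χ x := wsCut_nonneg k x
    set a := χ x * ‖gradient f x‖ with ha
    set c := inner ℝ (gradient χ x) (gradient f x) with hc
    have h3 : |2 * χ x * f x * c| ≤ 2 * (M * |f x|) * a := by
      rw [abs_mul, abs_mul, abs_mul, abs_of_nonneg h0, abs_two]
      calc 2 * χ x * |f x| * |c| ≤ 2 * χ x * |f x| * (M * ‖gradient f x‖) := by gcongr
        _ = 2 * (M * |f x|) * a := by rw [ha]; ring
    have h4 : 2 * (M * |f x|) * a ≤ a ^ 2 / 2 + 2 * (M * |f x|) ^ 2 := by
      nlinarith [sq_nonneg (a - 2 * (M * |f x|))]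
    have h5 : (M * |f x|) ^ 2 = M ^ 2 * f x ^ 2 := by rw [mul_pow, sq_abs]
    have h6 : χ x ^ 2 * ‖gradient f x‖ ^ 2 = a ^ 2 := by rw [ha]; ring
    have h7 := (abs_le.mp h3).1
    rw [h6]
    linarith
  refine ⟨i1, ?_⟩
  have hI := integral_mono i1 ((i2.const_mul 2).add (hf2.const_mul (4 * M ^ 2))) hpt
  rw [integral_add' (i2.const_mul 2) (hf2.const_mul (4 * M ^ 2)), integral_const_mul,
    integral_const_mul, hid] at hI
  have hle : ∫ x, χ x ^ 2 * f x * opA η f x ∂(dm η) ≤ ∫ x, |f x * opA η f x| ∂(dm η) := by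
    have hχm : AEStronglyMeasurable (fun x => χ x ^ 2) (dm η) :=
      (hχs.continuous.pow 2).aestronglyMeasurable
    have hb : ∀ x, |χ x ^ 2 * f x * opA η f x| ≤ |f x * opA η f x| := by
      intro x
      have h0 : 0 ≤ χ x := wsCut_nonneg k x
      have h1 : χ x ≤ 1 := wsCut_le_one k x
      have h2 : χ x ^ 2 ≤ 1 := by nlinarith
      rw [mul_assoc, abs_mul, abs_of_nonneg (by positivity : 0 ≤ χ x ^ 2)]
      exact mul_le_of_le_one_left (abs_nonneg _) h2
    have hi : Integrable (fun x => χ x ^ 2 * f x * opA η f x) (dm η) := by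
      refine hfA.abs.mono' ?_ (Eventually.of_forall hb)
      have := hχm.mul hfA.1
      refine this.congr (Eventually.of_forall fun x => ?_)
      simp only [Pi.mul_apply]; ring
    exact integral_mono hi hfA.abs (fun x => (le_abs_self _).trans (hb x))
  linarith

/-- CLASSICAL DOMAIN LEMMA (cutoffs only, no regularity theory). -/
theorem wsh_classical_dom (hη : ContDiff ℝ ∞ η) (hpos : ∀ x, 0 < η x) {f : E → ℝ}
    (hf : ContDiff ℝ ∞ f) (h2 : MemLp f 2 (dm η)) (hA : MemLp (opA η f) 2 (dm η)) :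
    MemLp (gradient f) 2 (dm η) ∧
      ∀ (u : E → ℝ) (g : E → E), H1 (dm η) u g →
        ∫ x, inner ℝ (g x) (gradient f x) ∂(dm η) = ∫ x, u x * opA η f x ∂(dm η) := by
  have hf1 : ContDiff ℝ 1 f := hf.of_le (by simp)
  have hgc : Continuous (gradient f) := ws_gradient_continuous hf1
  have hmem : MemLp (gradient f) 2 (dm η) := by
    obtain ⟨C, hC⟩ := wsi_cut_energy hη hpos hf h2 hA
    rw [memLp_two_iff_integrable_sq_norm hgc.aestronglyMeasurable]
    refine ⟨(hgc.norm.pow 2).aestronglyMeasurable, ?_⟩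
    rw [hasFiniteIntegral_iff_ofReal (Eventually.of_forall fun x => by positivity)]
    have hlim : ∀ x, ENNReal.ofReal (‖gradient f x‖ ^ 2) =
        liminf (fun k : ℕ => ENNReal.ofReal (wsCut k x ^ 2 * ‖gradient f x‖ ^ 2)) atTop := by
      intro x
      refine (Tendsto.liminf_eq ?_).symm
      refine tendsto_const_nhds.congr' ?_
      filter_upwards [wsCut_eventually x] with k hk
      rw [wsCut_eq_one hk.le]; simp
    calc ∫⁻ x, ENNReal.ofReal (‖gradient f x‖ ^ 2) ∂(dm η)
        = ∫⁻ x, liminf (fun k : ℕ => ENNReal.ofReal (wsCut k x ^ 2 * ‖gradient f x‖ ^ 2)) atTop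
            ∂(dm η) := by simp only [hlim]
      _ ≤ liminf (fun k : ℕ => ∫⁻ x, ENNReal.ofReal (wsCut k x ^ 2 * ‖gradient f x‖ ^ 2) ∂(dm η))
            atTop := by
          refine lintegral_liminf_le fun k => ?_
          exact (((wsCut_contDiff k).continuous.pow 2).mul (hgc.norm.pow 2)).measurable.ennreal_ofReal
      _ ≤ ENNReal.ofReal C := by
          refine liminf_le_of_frequently_le' (Frequently.of_forall fun k => ?_)
          rw [← ofReal_integral_eq_lintegral_ofReal (hC k).1
            (Eventually.of_forall fun x => by positivity)]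
          exact ENNReal.ofReal_le_ofReal (hC k).2
      _ < ⊤ := ENNReal.ofReal_lt_top
  refine ⟨hmem, fun u g h => ?_⟩
  obtain ⟨φ, hφ, -, -, hc1, hc2⟩ := wsh_dense hη.continuous hpos h
  have hH : ∀ k, H1 (dm η) (φ k) (gradient (φ k)) := fun k => wsh_of_test hη.continuous (hφ k)
  have l1 := ws_tendsto_inner (fun k => (hH k).2.2) h.2.2 (fun _ => hmem) hmem hc2 (by simp)
  have l2 := ws_tendsto_mul (fun k => (hH k).2.1) h.2.1 (fun _ => hA) hA hc1 (by simp)
  exact tendsto_nhds_unique (l1.congr fun k => wsh_ibp_classical hη hpos hf (hφ k)) l2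

theorem wsibp_eqns_cite : True := by
  have := @wsDiv.eq_1
  trivial

end Claimed.Agent.R259
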