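/-
Row 259, kit WS (weighted Sobolev space `H¹(η dx)`, `η` continuous and positive): EXPORTS.
Sub-captain: helper83, owner: helper217.  Every `sorry` below is an export of the kit which is being
replaced by a citation of the files `Ws*.lean` (more exports there: `WsTrunc` = positive part, abs,
min, max, clipping, level sets; `WsMol` = mollifier kit; `WsH1` = cutoffs, density with bounds).
-/
import Claimed.Agent.R259.WsHilb
import Claimed.Agent.R259.WsIneq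
import Claimed.Agent.R259.WsIbp

set_option autoImplicit false

open MeasureTheory Filter Topology
open scoped ContDiff ENNReal

namespace Claimed.Agent.R259

variable {E : Type} [NormedAddCommGroup E] [InnerProductSpace ℝ E] [FiniteDimensional ℝ E]
  [MeasurableSpace E] [BorelSpace E]

/-! ### Weak gradients (Lebesgue measure, local theory) -/

theorem ws_weakGrad_of_contDiff {u : E → ℝ} (hu : ContDiff ℝ 1 u) : WeakGrad u (gradient u) :=
  wsg_of_contDiff hu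

theorem ws_weakGrad_unique {u : E → ℝ} {g g' : E → E} (h : WeakGrad u g) (h' : WeakGrad u g') :
    g =ᵐ[volume] g' :=
  wsg_unique h h'

theorem ws_weakGrad_congr {u u' : E → ℝ} {g g' : E → E} (h : WeakGrad u g)
    (hu : u =ᵐ[volume] u') (hg : g =ᵐ[volume] g') : WeakGrad u' g' :=
  wsg_congr h hu hg

theorem ws_weakGrad_add {u v : E → ℝ} {g k : E → E} (h : WeakGrad u g) (h' : WeakGrad v k) :
    WeakGrad (fun x => u x + v x) (fun x => g x + k x) :=
  wsg_add h h'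

theorem ws_weakGrad_smul {u : E → ℝ} {g : E → E} (c : ℝ) (h : WeakGrad u g) :
    WeakGrad (fun x => c * u x) (fun x => c • g x) :=
  wsg_smul c h

/-- Leibniz rule with a `C¹` factor. -/
theorem ws_weakGrad_mul {u χ : E → ℝ} {g : E → E} (h : WeakGrad u g) (hχ : ContDiff ℝ 1 χ) :
    WeakGrad (fun x => χ x * u x) (fun x => χ x • g x + u x • gradient χ x) :=
  wsg_mul h hχ

/-- Chain rule with a `C¹` outer function of bounded derivative. -/
theorem ws_weakGrad_comp {u : E → ℝ} {g : E → E} (h : WeakGrad u g) {Θ : ℝ → ℝ}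
    (hΘ : ContDiff ℝ 1 Θ) {C : ℝ} (hC : ∀ z, |deriv Θ z| ≤ C) :
    WeakGrad (fun x => Θ (u x)) (fun x => deriv Θ (u x) • g x) :=
  wsg_comp h hΘ hC

/-- Chain rule when `u` takes its values in an interval on which `Θ` is `C¹` with bounded
derivative (for `log`, `sqrt`, powers of functions which are locally bounded away from `0`). -/
theorem ws_weakGrad_comp_Icc {u : E → ℝ} {g : E → E} (h : WeakGrad u g) {Θ : ℝ → ℝ} {a b : ℝ}
    (hu : ∀ᵐ x, u x ∈ Set.Icc a b) (hΘ : ContDiffOn ℝ 1 Θ (Set.Ioo (a - 1) (b + 1))) :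
    WeakGrad (fun x => Θ (u x)) (fun x => deriv Θ (u x) • g x) :=
  wsg_comp_Icc h hu hΘ

/-- Product of two bounded functions with locally square integrable weak gradients. -/
theorem ws_weakGrad_mul_bdd {u v : E → ℝ} {g k : E → E} (h : WeakGrad u g) (h' : WeakGrad v k)
    {C : ℝ} (hu : ∀ᵐ x, |u x| ≤ C) (hv : ∀ᵐ x, |v x| ≤ C) :
    WeakGrad (fun x => u x * v x) (fun x => u x • k x + v x • g x) :=
  wsg_mul_bdd h h' hu hv

/-- The weak gradient can be tested against `C¹` functions with compact support. -/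
theorem ws_weakGrad_test_C1 {u : E → ℝ} {g : E → E} (h : WeakGrad u g) {ζ : E → ℝ}
    (hζ : ContDiff ℝ 1 ζ) (hc : HasCompactSupport ζ) :
    ∫ x, u x • gradient ζ x = - ∫ x, ζ x • g x :=
  wsg_test_C1 h hζ hc

/-! ### The space `H¹(η dx)` -/

section weighted

variable {η : E → ℝ}

theorem ws_H1_of_test (hη : Continuous η) (hpos : ∀ x, 0 < η x) {f : E → ℝ} (hf : IsTest f) :
    H1 (dm η) f (gradient f) :=
  wsh_of_test hη hf

/-- `C¹` functions which are square integrable together with their gradient. -/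
theorem ws_H1_of_contDiff {f : E → ℝ} (hf : ContDiff ℝ 1 f)
    (h2 : MemLp f 2 (dm η)) (hg : MemLp (gradient f) 2 (dm η)) : H1 (dm η) f (gradient f) :=
  ⟨wsg_of_contDiff hf, h2, hg⟩

/-- Density of test functions (cutoff and mollification). -/
theorem ws_dense (hη : Continuous η) (hpos : ∀ x, 0 < η x) {u : E → ℝ} {g : E → E}
    (h : H1 (dm η) u g) :
    ∃ φ : ℕ → E → ℝ, (∀ k, IsTest (φ k)) ∧
      Tendsto (fun k => ∫ x, (φ k x - u x) ^ 2 ∂(dm η)) atTop (𝓝 0) ∧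
      Tendsto (fun k => ∫ x, ‖gradient (φ k) x - g x‖ ^ 2 ∂(dm η)) atTop (𝓝 0) :=
  let ⟨φ, h1, _, _, h4, h5⟩ := wsh_dense hη hpos h
  ⟨φ, h1, h4, h5⟩

/-- Density of nonnegative test functions in the nonnegative cone. -/
theorem ws_dense_nonneg (hη : Continuous η) (hpos : ∀ x, 0 < η x) {u : E → ℝ} {g : E → E}
    (h : H1 (dm η) u g) (hu : ∀ᵐ x, 0 ≤ u x) :
    ∃ φ : ℕ → E → ℝ, (∀ k, IsTest (φ k)) ∧ (∀ k x, 0 ≤ φ k x) ∧
      Tendsto (fun k => ∫ x, (φ k x - u x) ^ 2 ∂(dm η)) atTop (𝓝 0) ∧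
      Tendsto (fun k => ∫ x, ‖gradient (φ k) x - g x‖ ^ 2 ∂(dm η)) atTop (𝓝 0) :=
  let ⟨φ, h1, h2, _, h4, h5⟩ := wsh_dense hη hpos h
  ⟨φ, h1, h2 hu, h4, h5⟩

/-- Strong closedness of the graph. -/
theorem ws_closed (hη : Continuous η) (hpos : ∀ x, 0 < η x) {u : E → ℝ} {g : E → E}
    {uk : ℕ → E → ℝ} {gk' : ℕ → E → E} (hk : ∀ k, H1 (dm η) (uk k) (gk' k))
    (hu2 : MemLp u 2 (dm η)) (hg2 : MemLp g 2 (dm η))
    (hu : Tendsto (fun k => ∫ x, (uk k x - u x) ^ 2 ∂(dm η)) atTop (𝓝 0))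
    (hg : Tendsto (fun k => ∫ x, ‖gk' k x - g x‖ ^ 2 ∂(dm η)) atTop (𝓝 0)) :
    H1 (dm η) u g :=
  wsh_closed hη hpos hk hu2 hg2 hu hg

/-- Lower semicontinuity of the energy under `L²` convergence (duality + Riesz). -/
theorem ws_lsc (hη : Continuous η) (hpos : ∀ x, 0 < η x) {u : E → ℝ}
    {uk : ℕ → E → ℝ} {gk' : ℕ → E → E} (hk : ∀ k, H1 (dm η) (uk k) (gk' k))
    (hu2 : MemLp u 2 (dm η))
    (hu : Tendsto (fun k => ∫ x, (uk k x - u x) ^ 2 ∂(dm η)) atTop (𝓝 0))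
    {B : ℝ} (hB : ∃ᶠ k in atTop, ∫ x, ‖gk' k x‖ ^ 2 ∂(dm η) ≤ B) :
    ∃ g : E → E, H1 (dm η) u g ∧ ∫ x, ‖g x‖ ^ 2 ∂(dm η) ≤ B :=
  wsh_lsc hη hpos hk hu2 hu hB

/-- In the situation of `ws_lsc` the gradients converge weakly. -/
theorem ws_weak_conv (hη : Continuous η) (hpos : ∀ x, 0 < η x) {u : E → ℝ} {g : E → E}
    {uk : ℕ → E → ℝ} {gk' : ℕ → E → E} (hk : ∀ k, H1 (dm η) (uk k) (gk' k))
    (h : H1 (dm η) u g)
    (hu : Tendsto (fun k => ∫ x, (uk k x - u x) ^ 2 ∂(dm η)) atTop (𝓝 0))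
    {B : ℝ} (hB : ∀ k, ∫ x, ‖gk' k x‖ ^ 2 ∂(dm η) ≤ B) {Z : E → E} (hZ : MemLp Z 2 (dm η)) :
    Tendsto (fun k => ∫ x, inner ℝ (gk' k x) (Z x) ∂(dm η)) atTop
      (𝓝 (∫ x, inner ℝ (g x) (Z x) ∂(dm η))) :=
  wsh_weak_conv hη hpos hk h hu hB hZ

/-- LSI extends from test functions to `H¹`. -/
theorem ws_LSI_H1 (hη : Continuous η) (hpos : ∀ x, 0 < η x) [IsFiniteMeasure (dm η)] {R : ℝ}
    (hR : LSI (dm η) R) {u : E → ℝ} {g : E → E} (h : H1 (dm η) u g) :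
    Integrable (fun x => u x ^ 2 * Real.log (u x ^ 2)) (dm η) ∧
      ent (dm η) (fun x => u x ^ 2) ≤ 2 * R * ∫ x, ‖g x‖ ^ 2 ∂(dm η) :=
  wsh_LSI_H1 hη hpos hR h

/-- Poincare extends from test functions to `H¹`. -/
theorem ws_PI_H1 (hη : Continuous η) (hpos : ∀ x, 0 < η x) [IsFiniteMeasure (dm η)] {R : ℝ}
    (hR : PI (dm η) R) {u : E → ℝ} {g : E → E} (h : H1 (dm η) u g) :
    vari (dm η) u ≤ R * ∫ x, ‖g x‖ ^ 2 ∂(dm η) :=
  wsh_PI_H1 hη hpos hR h

/-- Integration by parts against a test function. -/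
theorem ws_ibp_test (hη : ContDiff ℝ ∞ η) (hpos : ∀ x, 0 < η x) {u : E → ℝ} {g : E → E}
    (h : H1 (dm η) u g) {ζ : E → ℝ} (hζ : IsTest ζ) :
    ∫ x, inner ℝ (g x) (gradient ζ x) ∂(dm η) = ∫ x, u x * opA η ζ x ∂(dm η) :=
  wsh_ibp_test hη hpos h.1 hζ

/-- CLASSICAL DOMAIN LEMMA (cutoffs only, no regularity theory): a smooth `f` with `f` and
`A_η f` in `L²(η)` has `∇ f ∈ L²(η)` and satisfies the form identity against all of `H¹(η)`. -/
theorem ws_classical_dom (hη : ContDiff ℝ ∞ η) (hpos : ∀ x, 0 < η x) {f : E → ℝ}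
    (hf : ContDiff ℝ ∞ f) (h2 : MemLp f 2 (dm η)) (hA : MemLp (opA η f) 2 (dm η)) :
    MemLp (gradient f) 2 (dm η) ∧
      ∀ (u : E → ℝ) (g : E → E), H1 (dm η) u g →
        ∫ x, inner ℝ (g x) (gradient f x) ∂(dm η) = ∫ x, u x * opA η f x ∂(dm η) :=
  wsh_classical_dom hη hpos hf h2 hA

end weighted

end Claimed.Agent.R259
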