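/- Packed by merge_tool.py (helper293): 10 modules of Claimed.Agent.R259 in one file, same declarations.
   Old modules, in this order: S3CritDefs, LsiAffine, CptAbs, Cpt, DefBase, DefLsi, DefTail, Dfc, Subg, EntDefs -/
import Claimed.Agent.R259.S3Defs
import Claimed.Agent.R260.GKHilb
import Claimed.Agent.R259.WS
import Claimed.Agent.R259.Pack001
import Claimed.Agent.R259.Pack004

/- ===== packed: Claimed.Agent.R259.S3CritDefs ===== -/
section
/-
Row 259, section 3: the structures `BaseLaw`, `NormLaw`, `CritField`, `StrictBranch`, `GapBranch`.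
Owner: helper83.
-/
set_option autoImplicit false

open MeasureTheory Filter Topology ProbabilityTheory
open scoped ContDiff ENNReal

namespace Claimed.Agent.R259

variable {E : Type} [NormedAddCommGroup E] [InnerProductSpace ℝ E] [FiniteDimensional ℝ E]
  [MeasurableSpace E] [BorelSpace E]

/-- The hypotheses on the base law which do not involve its LSI constant. -/
structure BaseLaw (μ : Measure E) (a : ℝ) : Prop where
  prob : IsProbabilityMeasure μ
  bdd : BddSupp μ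
  dens : ∃ ρ : E → ℝ, LogConc ρ ∧ μ = dm ρ
  centred : ∫ x, x ∂μ = 0
  apos : 0 < a
  psi2 : ∀ θ : E, ‖θ‖ = 1 → ∫ x, Real.exp (inner ℝ x θ ^ 2 / a ^ 2) ∂μ ≤ 2

/-- Normalised counterexample at subgaussian scale `a` (Lemma 3.1, with the normalisation
`R(μ * γ_{1/8}) = 1` at the regularisation time instead of `R(μ) = 1`). -/
structure NormLaw (μ : Measure E) (a : ℝ) : Prop extends BaseLaw μ a where
  sharp : LSIsharp (dm (gconv μ s0)) 1

/-- The common output of the two alternatives of Lemma 3.7 at time `σ`, `lam = 1/R_σ`. -/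
structure CritField (μ : Measure E) (σ lam : ℝ) (η : E → ℝ) (w : E → E) : Prop where
  spd : SPD η
  lsi : LSI (dm η) lam⁻¹
  w_smooth : ContDiff ℝ ∞ w
  w_symm : ∀ x u v, inner ℝ (fderiv ℝ w x u) v = inner ℝ u (fderiv ℝ w x v)
  w_L2 : MemLp w 2 (dm η)
  I_pos : 0 < ∫ x, ‖w x‖ ^ 2 ∂(dm η)
  eqn : ∀ x, opA η w x = lam • w x - hessK μ σ x (w x)
  Dw_int : Integrable (fun x => hsSq (fderiv ℝ w x)) (dm η)
  Dw_energy : ∫ x, hsSq (fderiv ℝ w x) ∂(dm η) =
    lam * ∫ x, ‖w x‖ ^ 2 ∂(dm η) - ∫ x, inner ℝ (w x) (hessK μ σ x (w x)) ∂(dm η)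
  wKw : ∫ x, inner ℝ (w x) (hessK μ σ x (w x)) ∂(dm η) ≤ lam * ‖∫ x, w x ∂(dm η)‖ ^ 2
  mom2 : Integrable (fun x => ‖x‖ ^ 2) (dm η)

/-- Strict branch: `η = f² μ_σ`, `w = ∇ log f²`, `I = 2 lam H(η | μ_σ)`. -/
structure StrictBranch (μ : Measure E) (σ lam : ℝ) (η : E → ℝ) (w : E → E) (f : E → ℝ) : Prop where
  f_smooth : ContDiff ℝ ∞ f
  f_pos : ∀ x, 0 < f x
  f_L2 : MemLp f 2 (dm (gconv μ σ))
  Df_L2 : MemLp (gradient f) 2 (dm (gconv μ σ))
  f_norm : ∫ x, f x ^ 2 ∂(dm (gconv μ σ)) = 1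
  ent_int : Integrable (fun x => f x ^ 2 * Real.log (f x ^ 2)) (dm (gconv μ σ))
  euler : ∀ x, opA (gconv μ σ) f x = lam * (f x * Real.log (f x))
  η_eq : ∀ x, η x = f x ^ 2 * gconv μ σ x
  w_eq : ∀ x, w x = gradient (fun y => Real.log (f y ^ 2)) x
  I_eq : ∫ x, ‖w x‖ ^ 2 ∂(dm η) = 2 * lam * ∫ x, f x ^ 2 * Real.log (f x ^ 2) ∂(dm (gconv μ σ))
  I_nrg : ∫ x, ‖w x‖ ^ 2 ∂(dm η) = 4 * nrg (dm (gconv μ σ)) f
  w_mean : ∫ x, w x ∂(dm η) = (2 : ℝ) • ∫ x, f x • gradient f x ∂(dm (gconv μ σ))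
  drift : ∀ x, gradient (fun y => Real.log (η y)) x = - (σ⁻¹ • (x - postMean μ σ x)) + w x

/-- Gap branch: `η = μ_σ`, `w = ∇ φ`, `A φ = lam φ`, `I = lam E φ²`. -/
structure GapBranch (μ : Measure E) (σ lam : ℝ) (η : E → ℝ) (w : E → E) (φ : E → ℝ) : Prop where
  φ_smooth : ContDiff ℝ ∞ φ
  φ_L2 : MemLp φ 2 (dm (gconv μ σ))
  φ_mean : ∫ x, φ x ∂(dm (gconv μ σ)) = 0
  eigen : ∀ x, opA (gconv μ σ) φ x = lam * φ x
  η_eq : ∀ x, η x = gconv μ σ x
  w_eq : ∀ x, w x = gradient φ x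
  I_eq : ∫ x, ‖w x‖ ^ 2 ∂(dm η) = lam * ∫ x, φ x ^ 2 ∂(dm (gconv μ σ))
  drift : ∀ x, gradient (fun y => Real.log (η y)) x = - (σ⁻¹ • (x - postMean μ σ x))


end Claimed.Agent.R259
end

/- ===== packed: Claimed.Agent.R259.LsiAffine ===== -/
section
/-
R259 / LsiAffine.lean  (owner: helper26).  Kit LSIcalc, package L-LSIC-affine.  Affine changes of variables `T x = c • x + b`.
-/
set_option autoImplicit false
set_option linter.unusedSectionVars false

namespace Claimed.Agent.R259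

open MeasureTheory Filter Topology
open scoped ENNReal ContDiff NNReal

variable {E : Type} [NormedAddCommGroup E] [InnerProductSpace ℝ E] [FiniteDimensional ℝ E]
  [MeasurableSpace E] [BorelSpace E]

theorem lsia_continuous (c : ℝ) (b : E) : Continuous fun x : E => c • x + b := by fun_prop

theorem lsia_test_comp {c : ℝ} (hc : c ≠ 0) (b : E) {f : E → ℝ} (hf : IsTest f) :
    IsTest fun x => f (c • x + b) := by
  refine ⟨hf.1.comp ((contDiff_const_smul c).add contDiff_const), ?_⟩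
  exact hf.2.comp_homeomorph ((Homeomorph.smulOfNeZero c hc).trans (Homeomorph.addRight b) : E ≃ₜ E)

theorem lsia_fderiv_comp (c : ℝ) (b : E) {f : E → ℝ} (hf : Differentiable ℝ f) (x : E) :
    fderiv ℝ (fun x => f (c • x + b)) x = c • fderiv ℝ f (c • x + b) := by
  have h1 : HasFDerivAt (fun x : E => c • x + b) (c • ContinuousLinearMap.id ℝ E) x :=
    ((hasFDerivAt_id x).const_smul c).add_const b
  have h2 := (hf (c • x + b)).hasFDerivAt.comp x h1
  rw [show (fun x => f (c • x + b)) = f ∘ fun x => c • x + b from rfl, h2.fderiv]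
  ext v
  simp

theorem lsia_integral_map {m : Measure E} (c : ℝ) (b : E) {G : E → ℝ} (hG : Continuous G) :
    ∫ y, G y ∂(m.map fun x => c • x + b) = ∫ x, G (c • x + b) ∂m :=
  integral_map (lsia_continuous c b).aemeasurable hG.aestronglyMeasurable

theorem lsia_ent_map {m : Measure E} (c : ℝ) (b : E) {f : E → ℝ} (hf : Continuous f) :
    ent (m.map fun x => c • x + b) (fun y => f y ^ 2) = ent m fun x => f (c • x + b) ^ 2 := by
  unfold ent
  have e1 := lsia_integral_map (m := m) c b (G := fun y => f y ^ 2 * Real.log (f y ^ 2))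
    (Real.continuous_mul_log.comp (hf.pow 2))
  have e2 := lsia_integral_map (m := m) c b (G := fun y => f y ^ 2) (hf.pow 2)
  rw [e1, e2]

theorem lsia_vari_map {m : Measure E} (c : ℝ) (b : E) {f : E → ℝ} (hf : Continuous f) :
    vari (m.map fun x => c • x + b) f = vari m fun x => f (c • x + b) := by
  unfold vari
  have e2 := lsia_integral_map (m := m) c b (G := fun y => f y ^ 2) (hf.pow 2)
  rw [e2, lsia_integral_map c b hf]

theorem lsia_nrg_map {m : Measure E} (c : ℝ) (b : E) {f : E → ℝ} (hf : IsTest f) :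
    nrg m (fun x => f (c • x + b)) = c ^ 2 * nrg (m.map fun x => c • x + b) f := by
  unfold nrg
  simp only [lsic_norm_gradient]
  have e2 := lsia_integral_map (m := m) c b (G := fun y => ‖fderiv ℝ f y‖ ^ 2)
    (hf.isTestC.continuous_fderiv.norm.pow 2)
  rw [e2, ← integral_const_mul]
  refine integral_congr_ae (Eventually.of_forall fun x => ?_)
  simp only []
  rw [lsia_fderiv_comp c b hf.isTestC.differentiable, norm_smul, mul_pow, Real.norm_eq_abs, sq_abs]

theorem lsic_LSI_map {m : Measure E} {R c : ℝ} (hc : c ≠ 0) (b : E) (h : LSI m R) :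
    LSI (m.map fun x => c • x + b) (c ^ 2 * R) := by
  intro f hf
  have h1 := h _ (lsia_test_comp hc b hf)
  rw [lsia_nrg_map c b hf] at h1
  rw [lsia_ent_map c b hf.isTestC.continuous]
  calc _ ≤ _ := h1
    _ = _ := by ring

theorem lsic_PI_map {m : Measure E} {R c : ℝ} (hc : c ≠ 0) (b : E) (h : PI m R) :
    PI (m.map fun x => c • x + b) (c ^ 2 * R) := by
  intro f hf
  have h1 := h _ (lsia_test_comp hc b hf)
  rw [lsia_nrg_map c b hf] at h1
  rw [lsia_vari_map c b hf.isTestC.continuous]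
  calc _ ≤ _ := h1
    _ = _ := by ring

theorem lsia_map_map_inv (m : Measure E) {c : ℝ} (hc : c ≠ 0) (b : E) :
    (m.map fun x => c • x + b).map (fun y => c⁻¹ • y + -(c⁻¹ • b)) = m := by
  rw [Measure.map_map (lsia_continuous _ _).measurable (lsia_continuous _ _).measurable]
  have : ((fun y : E => c⁻¹ • y + -(c⁻¹ • b)) ∘ fun x => c • x + b) = id := by
    ext x
    simp only [Function.comp_apply, smul_add, smul_smul, inv_mul_cancel₀ hc, one_smul, id]
    abel
  rw [this, Measure.map_id]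

theorem lsic_LSIsharp_map {m : Measure E} {R c : ℝ} (hc : c ≠ 0) (b : E) (h : LSIsharp m R) :
    LSIsharp (m.map fun x => c • x + b) (c ^ 2 * R) := by
  refine ⟨lsic_LSI_map hc b h.1, fun R' hR' hL => ?_⟩
  have h1 := lsic_LSI_map (inv_ne_zero hc) (-(c⁻¹ • b)) hL
  rw [lsia_map_map_inv m hc b] at h1
  refine h.2 _ ?_ h1
  have hc2 : 0 < c ^ 2 := by positivity
  rw [inv_pow, inv_mul_lt_iff₀ hc2]
  exact hR'

theorem lsia_volume_map {c : ℝ} (hc : 0 < c) (b : E) :
    (volume : Measure E).map (fun x => c • x + b) = ENNReal.ofReal ((c ^ Module.finrank ℝ E)⁻¹) • volume := by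
  have h1 : (fun x : E => c • x + b) = (fun y => y + b) ∘ fun x => c • x := rfl
  rw [h1, ← Measure.map_map (measurable_add_const b) (measurable_const_smul c),
    Measure.map_addHaar_smul volume hc.ne', Measure.map_smul, map_add_right_eq_self,
    abs_of_pos (by positivity)]

theorem lsic_dm_map {ρ : E → ℝ} (hm : Measurable ρ) {c : ℝ} (hc : 0 < c) (b : E) :
    (dm ρ).map (fun x => c • x + b) =
      dm fun y => (c ^ Module.finrank ℝ E)⁻¹ * ρ (c⁻¹ • (y - b)) := by
  have hT : Measurable fun x : E => c • x + b := (lsia_continuous c b).measurable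
  have hS : Measurable fun y : E => c⁻¹ • (y - b) := by fun_prop
  ext s hs
  rw [Measure.map_apply hT hs]
  unfold dm
  rw [withDensity_apply _ (hT hs), withDensity_apply _ hs]
  set G : E → ℝ≥0∞ := s.indicator fun y => ENNReal.ofReal (ρ (c⁻¹ • (y - b))) with hG
  have hGm : Measurable G := (hm.comp hS).ennreal_ofReal.indicator hs
  have h1 : ∫⁻ x in (fun x => c • x + b) ⁻¹' s, ENNReal.ofReal (ρ x) = ∫⁻ x, G (c • x + b) := by
    rw [← lintegral_indicator (hT hs)]
    refine lintegral_congr fun x => ?_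
    have e : c⁻¹ • (c • x + b - b) = x := by
      rw [add_sub_cancel_right, smul_smul, inv_mul_cancel₀ hc.ne', one_smul]
    by_cases hx : c • x + b ∈ s
    · rw [Set.indicator_of_mem (show x ∈ (fun x => c • x + b) ⁻¹' s from hx), hG, Set.indicator_of_mem hx, e]
    · rw [Set.indicator_of_notMem (show x ∉ (fun x => c • x + b) ⁻¹' s from hx), hG, Set.indicator_of_notMem hx]
  have hmS : Measurable fun y => ENNReal.ofReal (ρ (c⁻¹ • (y - b))) := (hm.comp hS).ennreal_ofReal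
  rw [h1, ← lintegral_map hGm hT, lsia_volume_map hc b, lintegral_smul_measure, hG, lintegral_indicator hs,
    smul_eq_mul, ← lintegral_const_mul _ hmS]
  refine lintegral_congr fun y => ?_
  rw [ENNReal.ofReal_mul (by positivity)]

theorem LogConc.comp_affine {ρ : E → ℝ} (h : LogConc ρ) (c : ℝ) (b : E) : LogConc fun y => ρ (c • y + b) := by
  obtain ⟨h1, h2, h3⟩ := h
  refine ⟨h1.comp (lsia_continuous c b).measurable, fun x => h2 _, fun x y t ht0 ht1 => ?_⟩
  have e : c • ((1 - t) • x + t • y) + b = (1 - t) • (c • x + b) + t • (c • y + b) := by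
    have e1 : (1 - t) • (c • x + b) + t • (c • y + b)
        = (1 - t) • c • x + t • c • y + ((1 - t) • b + t • b) := by
      simp only [smul_add]; abel
    have e2 : (1 - t) • b + t • b = b := by rw [← add_smul]; simp
    rw [e1, e2, smul_add, smul_comm c (1 - t) x, smul_comm c t y]
  simp only []
  rw [e]
  exact h3 _ _ t ht0 ht1

theorem lsia_gk_scale {c : ℝ} (hc : 0 < c) {s : ℝ} (hs : 0 < s) (w : E) :
    gk (c ^ 2 * s) (c • w) = (c ^ Module.finrank ℝ E)⁻¹ * gk s w := by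
  unfold gk
  have h1 : (2 * Real.pi * (c ^ 2 * s)) ^ (-(Module.finrank ℝ E : ℝ) / 2)
      = (c ^ Module.finrank ℝ E)⁻¹ * (2 * Real.pi * s) ^ (-(Module.finrank ℝ E : ℝ) / 2) := by
    have e1 : 2 * Real.pi * (c ^ 2 * s) = c ^ 2 * (2 * Real.pi * s) := by ring
    rw [e1, Real.mul_rpow (by positivity) (by positivity)]
    congr 1
    rw [← Real.rpow_natCast c 2, ← Real.rpow_mul hc.le, ← Real.rpow_natCast c (Module.finrank ℝ E),
      ← Real.rpow_neg hc.le]
    congr 1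
    push_cast
    ring
  have h2 : -‖c • w‖ ^ 2 / (2 * (c ^ 2 * s)) = -‖w‖ ^ 2 / (2 * s) := by
    rw [norm_smul, mul_pow, Real.norm_eq_abs, sq_abs]
    field_simp
  rw [h1, h2]
  ring

theorem lsic_gconv_map {μ : Measure E} [IsProbabilityMeasure μ] {c : ℝ} (hc : 0 < c) (b : E) {s : ℝ} (hs : 0 < s) :
    dm (gconv (μ.map fun x => c • x + b) (c ^ 2 * s)) = (dm (gconv μ s)).map fun x => c • x + b := by
  have hmeas : Measurable (gconv μ s) := by
    rw [lsik_gconv_eq]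
    exact (lsik_continuous_N (C := 1) hs measurable_const (by simp)).measurable
  rw [lsic_dm_map hmeas hc b]
  congr 1
  ext y
  unfold gconv
  have hGc : Continuous fun z : E => gk (c ^ 2 * s) (y - z) :=
    (lsik_gk_continuous _).comp (continuous_const.sub continuous_id)
  rw [integral_map (lsia_continuous c b).aemeasurable hGc.aestronglyMeasurable, ← integral_const_mul]
  refine integral_congr_ae (Eventually.of_forall fun x => ?_)
  simp only []
  rw [← lsia_gk_scale hc hs]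
  congr 1
  rw [smul_sub, smul_smul, mul_inv_cancel₀ hc.ne', one_smul]
  abel

theorem BaseLaw.map_smul {μ : Measure E} {a : ℝ} (h : BaseLaw μ a) {c : ℝ} (hc : 0 < c) :
    BaseLaw (μ.map fun x => c • x) (c * a) := by
  have hprob := h.prob
  have hT : Continuous fun x : E => c • x := continuous_const_smul c
  refine ⟨Measure.isProbabilityMeasure_map hT.aemeasurable, ?_, ?_, ?_, mul_pos hc h.apos, fun θ hθ => ?_⟩
  · obtain ⟨r, hr⟩ := h.bdd
    refine ⟨c * r, ?_⟩
    rw [Measure.map_apply hT.measurable Metric.isClosed_closedBall.measurableSet.compl]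
    have : (fun x : E => c • x) ⁻¹' (Metric.closedBall 0 (c * r))ᶜ = (Metric.closedBall 0 r)ᶜ := by
      ext x
      simp only [Set.mem_preimage, Set.mem_compl_iff, Metric.mem_closedBall, dist_zero_right, norm_smul,
        Real.norm_eq_abs, abs_of_pos hc]
      rw [mul_le_mul_iff_right₀ hc]
    rw [this, hr]
  · obtain ⟨ρ, hρ, rfl⟩ := h.dens
    refine ⟨fun y => (c ^ Module.finrank ℝ E)⁻¹ * ρ (c⁻¹ • (y - 0)), ?_, ?_⟩
    · have h1 := (hρ.comp_affine c⁻¹ 0).const_mul (c := (c ^ Module.finrank ℝ E)⁻¹) (by positivity)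
      simpa using h1
    · have := lsic_dm_map hρ.1 hc (0 : E)
      simpa using this
  · have hid : AEStronglyMeasurable (fun y : E => y) (μ.map fun x => c • x) := continuous_id.aestronglyMeasurable
    rw [integral_map hT.aemeasurable hid, integral_smul, h.centred, smul_zero]
  · have hG : Continuous fun y : E => Real.exp (inner ℝ y θ ^ 2 / (c * a) ^ 2) := by fun_prop
    rw [integral_map hT.aemeasurable hG.aestronglyMeasurable]
    refine le_trans (le_of_eq ?_) (h.psi2 θ hθ)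
    refine integral_congr_ae (Eventually.of_forall fun x => ?_)
    simp only []
    congr 1
    rw [inner_smul_left, RCLike.conj_to_real, mul_pow, mul_pow]
    have := h.apos
    field_simp

end Claimed.Agent.R259
end

/- ===== packed: Claimed.Agent.R259.CptAbs ===== -/
section
/-
Row 259, kit CPT, leaf ABS: abstract compactness criterion in `L²` ("finite rank defect inequality").
Owner: helper72.
-/
set_option autoImplicit false

open MeasureTheory Filter Topology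

namespace Claimed.Agent.R259

/-- A bounded sequence of `L²` whose differences satisfy, for every `ε`, an inequality
`‖u_k - u_l‖² ≤ ε + C ∑_{i ∈ S} ⟨u_k - u_l, ψ_i⟩²` with a finite set `S` of a fixed countable family
has a convergent subsequence. -/
theorem cpt_abstract {α ι : Type*} [MeasurableSpace α] [Countable ι] {ν : Measure α}
    {u : ℕ → α → ℝ} (hu : ∀ k, MemLp (u k) 2 ν) {B : ℝ} (hB : ∀ k, ∫ x, u k x ^ 2 ∂ν ≤ B)
    {ψ : ι → α → ℝ} (hψ : ∀ i, MemLp (ψ i) 2 ν)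
    (hdef : ∀ ε > 0, ∃ (S : Finset ι) (C : ℝ), ∀ k l,
      ∫ x, (u k x - u l x) ^ 2 ∂ν ≤ ε + C * ∑ i ∈ S, (∫ x, (u k x - u l x) * ψ i x ∂ν) ^ 2) :
    ∃ (φ : ℕ → ℕ) (v : α → ℝ), StrictMono φ ∧ MemLp v 2 ν ∧
      Tendsto (fun k => ∫ x, (u (φ k) x - v x) ^ 2 ∂ν) atTop (𝓝 0) := by
  obtain ⟨a, ha⟩ : ∃ a : ℕ → ι → ℝ, ∀ k i, a k i = ∫ x, u k x * ψ i x ∂ν := ⟨_, fun _ _ => rfl⟩
  obtain ⟨R, hR⟩ : ∃ R : ι → ℝ, ∀ i, R i = Real.sqrt B * Real.sqrt (∫ x, ψ i x ^ 2 ∂ν) :=
    ⟨_, fun _ => rfl⟩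
  have hmem : ∀ k, a k ∈ Set.univ.pi (fun i => Set.Icc (-R i) (R i)) := by
    intro k i _
    have h1 := Claimed.Agent.R260.gk_l2_abs_integral_mul_le (hu k) (hψ i)
    have h2 : Real.sqrt (∫ x, u k x ^ 2 ∂ν) ≤ Real.sqrt B := Real.sqrt_le_sqrt (hB k)
    rw [Set.mem_Icc, ← abs_le, ha, hR]
    exact h1.trans (mul_le_mul_of_nonneg_right h2 (Real.sqrt_nonneg _))
  obtain ⟨a', -, φ, hφ, hlim⟩ :=
    (isCompact_univ_pi fun i => isCompact_Icc (a := -R i) (b := R i)).tendsto_subseq hmem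
  have hcoord : ∀ i, Tendsto (fun k => a (φ k) i) atTop (𝓝 (a' i)) :=
    fun i => (tendsto_pi_nhds.1 hlim) i
  obtain ⟨v, -, hv, hvlim⟩ := Claimed.Agent.R260.gk_l2_exists_limit (μ := ν) (l := atTop)
    (f := fun k => u (φ k)) (Eventually.of_forall fun k => hu _) (by
    intro ε hε
    obtain ⟨S, C, hSC⟩ := hdef (ε / 2) (half_pos hε)
    have h1 : Tendsto (fun p : ℕ × ℕ => C * ∑ i ∈ S, (a (φ p.1) i - a (φ p.2) i) ^ 2)
        (atTop ×ˢ atTop) (𝓝 0) := by
      have h2 : ∀ i, Tendsto (fun p : ℕ × ℕ => a (φ p.1) i - a (φ p.2) i) (atTop ×ˢ atTop)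
          (𝓝 (a' i - a' i)) :=
        fun i => ((hcoord i).comp tendsto_fst).sub ((hcoord i).comp tendsto_snd)
      have h3 := (tendsto_finsetSum S fun i _ => (h2 i).pow 2).const_mul C
      simpa using h3
    filter_upwards [h1.eventually_lt_const (half_pos hε)] with p hp
    have h4 := hSC (φ p.1) (φ p.2)
    have e : ∀ i, ∫ x, (u (φ p.1) x - u (φ p.2) x) * ψ i x ∂ν = a (φ p.1) i - a (φ p.2) i := by
      intro i
      simp only [sub_mul, ha]
      exact integral_sub ((hu _).integrable_mul (hψ i)) ((hu _).integrable_mul (hψ i))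
    simp only [e] at h4
    linarith only [h4, hp])
  exact ⟨φ, v, hφ, hv, hvlim⟩

end Claimed.Agent.R259
end

/- ===== packed: Claimed.Agent.R259.Cpt ===== -/
section
/-
Row 259, kit CPT (compact embedding of H1(mu*gamma_s) in L2; Lemma 3.3, first assertion).  EXPORTS (statements fixed by sub-captain helper83; the kit owner owns this file,
replaces every `sorry`, and may add helper files `Cpt*.lean`).
Owner: helper72.  Proof: Hermite defect inequality `∫ w² dγ ≤ ∑_{α ∈ box N} c_α² + (N+1)⁻¹ ∫ |Dw|² dγ`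
(`CptHerm`, from the Hermite basis and the Gaussian integration by parts of R260), transported to `γ_s` on `E`
(`CptGauss`), to `ν = μ * γ_s` by `w = f √r`, `D log r = b_s/s` bounded (`CptWeight`), to `H¹(ν)` by density
(below), and the abstract criterion `CptAbs`.
-/
set_option autoImplicit false
set_option linter.unusedSectionVars false

open MeasureTheory Filter Topology ProbabilityTheory
open scoped ContDiff ENNReal

namespace Claimed.Agent.R259

variable {E : Type} [NormedAddCommGroup E] [InnerProductSpace ℝ E] [FiniteDimensional ℝ E]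
  [MeasurableSpace E] [BorelSpace E]

/-! ### kit CPT: compact embedding `H¹(μ * γ_s) ⊂ L²` (Lemma 3.3, first assertion) -/

theorem cpt_integrable_norm_sq {ν : Measure E} {G : E → E} (hG : MemLp G 2 ν) :
    Integrable (fun x => ‖G x‖ ^ 2) ν :=
  (memLp_two_iff_integrable_sq_norm hG.1).1 hG

/-- `L²` convergence of vector fields implies convergence of the squared norms. -/
theorem cpt_tendsto_norm_sq {ν : Measure E} {F : ℕ → E → E} {G : E → E}
    (hF : ∀ k, MemLp (F k) 2 ν) (hG : MemLp G 2 ν)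
    (h : Tendsto (fun k => ∫ x, ‖F k x - G x‖ ^ 2 ∂ν) atTop (𝓝 0)) :
    Tendsto (fun k => ∫ x, ‖F k x‖ ^ 2 ∂ν) atTop (𝓝 (∫ x, ‖G x‖ ^ 2 ∂ν)) := by
  refine Claimed.Agent.R260.gk_l2_tendsto_integral_sq (f := fun k x => ‖F k x‖)
    (f₀ := fun x => ‖G x‖) (Eventually.of_forall fun k => (hF k).norm) hG.norm ?_
  refine squeeze_zero (fun k => integral_nonneg fun x => sq_nonneg _) (fun k => ?_) h
  refine integral_mono ((hF k).norm.sub hG.norm).integrable_sq
    (cpt_integrable_norm_sq ((hF k).sub hG)) fun x => ?_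
  have h1 := abs_norm_sub_norm_le (F k x) (G x)
  have h2 : (‖F k x‖ - ‖G x‖) ^ 2 = |‖F k x‖ - ‖G x‖| ^ 2 := (sq_abs _).symm
  show (‖F k x‖ - ‖G x‖) ^ 2 ≤ ‖F k x - G x‖ ^ 2
  rw [h2]
  gcongr

variable {μ : Measure E} [IsProbabilityMeasure μ]

/-- The defect inequality on `H¹(ν)`. -/
theorem cpt_defect_H1 (hb : BddSupp μ) {s : ℝ} (hs : 0 < s) :
    ∃ K : ℝ, 0 ≤ K ∧ ∀ (N : ℕ) (u : E → ℝ) (g : E → E), H1 (dm (gconv μ s)) u g →
      ∫ x, u x ^ 2 ∂(dm (gconv μ s)) ≤
        ∑ α ∈ cptBox (Module.finrank ℝ E) N, (∫ x, u x * cptPsi μ s α x ∂(dm (gconv μ s))) ^ 2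
        + K / ((N : ℝ) + 1) *
          (∫ x, u x ^ 2 ∂(dm (gconv μ s)) + ∫ x, ‖g x‖ ^ 2 ∂(dm (gconv μ s))) := by
  obtain ⟨K, hK, hT⟩ := cpt_defect_test (μ := μ) hb hs
  refine ⟨K, hK, fun N u g h => ?_⟩
  have hspd := gc_spd (μ := μ) hb hs
  have hcont : Continuous (gconv μ s) := hspd.1.continuous
  obtain ⟨φ, hφ, h1, h2⟩ := ws_dense hcont hspd.2.1 h
  have hH : ∀ k, H1 (dm (gconv μ s)) (φ k) (gradient (φ k)) :=
    fun k => ws_H1_of_test hcont hspd.2.1 (hφ k)
  have l1 : Tendsto (fun k => ∫ x, φ k x ^ 2 ∂(dm (gconv μ s))) atTop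
      (𝓝 (∫ x, u x ^ 2 ∂(dm (gconv μ s)))) :=
    Claimed.Agent.R260.gk_l2_tendsto_integral_sq (Eventually.of_forall fun k => (hH k).2.1) h.2.1 h1
  have l2 : Tendsto (fun k => ∫ x, ‖gradient (φ k) x‖ ^ 2 ∂(dm (gconv μ s))) atTop
      (𝓝 (∫ x, ‖g x‖ ^ 2 ∂(dm (gconv μ s)))) :=
    cpt_tendsto_norm_sq (fun k => (hH k).2.2) h.2.2 h2
  have l3 : ∀ α, Tendsto (fun k => ∫ x, φ k x * cptPsi μ s α x ∂(dm (gconv μ s))) atTop
      (𝓝 (∫ x, u x * cptPsi μ s α x ∂(dm (gconv μ s)))) := fun α =>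
    Claimed.Agent.R260.gk_l2_tendsto_integral_mul_right (Eventually.of_forall fun k => (hH k).2.1)
      h.2.1 (cptPsi_memLp hb hs α) h1
  have l4 := (tendsto_finsetSum (cptBox (Module.finrank ℝ E) N) fun α _ => (l3 α).pow 2).add
    ((l1.add l2).const_mul (K / ((N : ℝ) + 1)))
  exact le_of_tendsto_of_tendsto' l1 l4 fun k => hT N (φ k) (hφ k)

theorem cpt_embedding {μ : Measure E} [IsProbabilityMeasure μ] (hb : BddSupp μ) {s : ℝ} (hs : 0 < s)
    {u : ℕ → E → ℝ} {g : ℕ → E → E} (h : ∀ k, H1 (dm (gconv μ s)) (u k) (g k)) {B : ℝ}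
    (hB : ∀ k, ∫ x, u k x ^ 2 ∂(dm (gconv μ s)) + ∫ x, ‖g k x‖ ^ 2 ∂(dm (gconv μ s)) ≤ B) :
    ∃ (φ : ℕ → ℕ) (v : E → ℝ), StrictMono φ ∧ MemLp v 2 (dm (gconv μ s)) ∧
      Tendsto (fun k => ∫ x, (u (φ k) x - v x) ^ 2 ∂(dm (gconv μ s))) atTop (𝓝 0) := by
  obtain ⟨K, hK, hdef⟩ := cpt_defect_H1 (μ := μ) hb hs
  have hg0 : ∀ k, 0 ≤ ∫ x, ‖g k x‖ ^ 2 ∂(dm (gconv μ s)) :=
    fun k => integral_nonneg fun x => sq_nonneg _
  have hu0 : ∀ k, 0 ≤ ∫ x, u k x ^ 2 ∂(dm (gconv μ s)) :=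
    fun k => integral_nonneg fun x => sq_nonneg _
  have hB0 : 0 ≤ B := by linarith only [hB 0, hg0 0, hu0 0]
  refine cpt_abstract (fun k => (h k).2.1) (B := B)
    (fun k => by linarith only [hB k, hg0 k]) (cptPsi_memLp (μ := μ) hb hs) fun ε hε => ?_
  obtain ⟨N, hN⟩ := exists_nat_gt (K * (4 * B) / ε)
  refine ⟨cptBox (Module.finrank ℝ E) N, 1, fun k l => ?_⟩
  have hH : H1 (dm (gconv μ s)) (fun x => u k x - u l x) (fun x => g k x - g l x) := by
    refine ⟨?_, (h k).2.1.sub (h l).2.1, (h k).2.2.sub (h l).2.2⟩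
    have := ws_weakGrad_add (h k).1 (ws_weakGrad_smul (-1) (h l).1)
    have e1 : (fun x => u k x + -1 * u l x) = fun x => u k x - u l x := by
      funext x; ring
    have e2 : (fun x => g k x + (-1 : ℝ) • g l x) = fun x => g k x - g l x := by
      funext x; rw [neg_one_smul, sub_eq_add_neg]
    rwa [e1, e2] at this
  have b1 : ∫ x, (u k x - u l x) ^ 2 ∂(dm (gconv μ s)) ≤
      2 * ∫ x, u k x ^ 2 ∂(dm (gconv μ s)) + 2 * ∫ x, u l x ^ 2 ∂(dm (gconv μ s)) := by
    have := Claimed.Agent.R260.gk_l2_integral_add_sq_le (h k).2.1 (h l).2.1.neg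
    simpa [sub_eq_add_neg] using this
  have b2 : ∫ x, ‖g k x - g l x‖ ^ 2 ∂(dm (gconv μ s)) ≤
      2 * ∫ x, ‖g k x‖ ^ 2 ∂(dm (gconv μ s)) + 2 * ∫ x, ‖g l x‖ ^ 2 ∂(dm (gconv μ s)) := by
    have i1 := cpt_integrable_norm_sq (h k).2.2
    have i2 := cpt_integrable_norm_sq (h l).2.2
    rw [← integral_const_mul, ← integral_const_mul,
      ← integral_add (i1.const_mul 2) (i2.const_mul 2)]
    refine integral_mono (cpt_integrable_norm_sq ((h k).2.2.sub (h l).2.2))
      ((i1.const_mul 2).add (i2.const_mul 2)) fun x => ?_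
    have h1 := norm_sub_le (g k x) (g l x)
    have h2 : ‖g k x - g l x‖ ^ 2 ≤ (‖g k x‖ + ‖g l x‖) ^ 2 := by gcongr
    show ‖g k x - g l x‖ ^ 2 ≤ 2 * ‖g k x‖ ^ 2 + 2 * ‖g l x‖ ^ 2
    nlinarith only [h2, sq_nonneg (‖g k x‖ - ‖g l x‖)]
  have b3 : ∫ x, (u k x - u l x) ^ 2 ∂(dm (gconv μ s)) +
      ∫ x, ‖g k x - g l x‖ ^ 2 ∂(dm (gconv μ s)) ≤ 4 * B := by
    linarith only [b1, b2, hB k, hB l]
  have hN1 : (0 : ℝ) < (N : ℝ) + 1 := by positivity
  have b4 : K / ((N : ℝ) + 1) * (4 * B) ≤ ε := by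
    rw [div_mul_eq_mul_div, div_le_iff₀ hN1]
    rw [div_lt_iff₀ hε] at hN
    nlinarith only [hN, hε]
  have b5 := hdef N _ _ hH
  have b6 : K / ((N : ℝ) + 1) * (∫ x, (u k x - u l x) ^ 2 ∂(dm (gconv μ s)) +
      ∫ x, ‖g k x - g l x‖ ^ 2 ∂(dm (gconv μ s))) ≤ K / ((N : ℝ) + 1) * (4 * B) :=
    mul_le_mul_of_nonneg_left b3 (by positivity)
  linarith only [b4, b5, b6]

end Claimed.Agent.R259
end

/- ===== packed: Claimed.Agent.R259.DefBase ===== -/
section
/-
Row 259, kit DEF (Lemma 3.3 of the paper: moment estimate, defective LSI, entropy tail).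
File DefBase.lean: the class `GPert` of bounded-drift perturbations of a Gaussian, change of reference
measure, scalar inequalities.  Owner: helper54.  Prefix `dfk`.
-/
set_option autoImplicit false
set_option linter.unusedSectionVars false

open MeasureTheory Filter Topology
open scoped ContDiff ENNReal

namespace Claimed.Agent.R259

variable {E : Type} [NormedAddCommGroup E] [InnerProductSpace ℝ E] [FiniteDimensional ℝ E]
  [MeasurableSpace E] [BorelSpace E]

/-- `ν = γ_s · r` with `r` positive, `C¹`, `|∇ r| ≤ B r`; total mass one.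
(For `ν = μ * γ_s`, `μ` supported in the ball of radius `r₀`: `∇ log r = b_s / s`, `B = r₀ / s`.) -/
structure GPert (ν : E → ℝ) (s B : ℝ) : Prop where
  s_pos : 0 < s
  B_nonneg : 0 ≤ B
  prob : IsProbabilityMeasure (dm ν)
  ex : ∃ r : E → ℝ, ContDiff ℝ 1 r ∧ (∀ y, 0 < r y) ∧ (∀ y, ν y = gk s y * r y) ∧
    ∀ y, ‖gradient r y‖ ≤ B * r y

/-! ### change of reference measure -/

theorem dfk_dm_ac (ρ : E → ℝ) : dm ρ ≪ (volume : Measure E) :=
  withDensity_absolutelyContinuous _ _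

theorem dfk_dm_mul {ρ r : E → ℝ} (hρ : Measurable ρ) (hr : Measurable r) (h0 : ∀ x, 0 ≤ ρ x) :
    dm (fun x => ρ x * r x) = (dm ρ).withDensity (fun x => ENNReal.ofReal (r x)) := by
  unfold dm
  rw [← withDensity_mul _ hρ.ennreal_ofReal hr.ennreal_ofReal]
  congr 1
  funext x
  simp [ENNReal.ofReal_mul (h0 x)]

theorem dfk_integral_wd {G : Type} [NormedAddCommGroup G] [NormedSpace ℝ G] (m : Measure E)
    {r : E → ℝ} (hr : Measurable r) (hr0 : ∀ x, 0 ≤ r x) (F : E → G) :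
    ∫ x, F x ∂(m.withDensity fun x => ENNReal.ofReal (r x)) = ∫ x, r x • F x ∂m := by
  rw [integral_withDensity_eq_integral_toReal_smul hr.ennreal_ofReal
    (Eventually.of_forall fun x => ENNReal.ofReal_lt_top)]
  simp [ENNReal.toReal_ofReal (hr0 _)]

theorem dfk_integrable_wd {G : Type} [NormedAddCommGroup G] [NormedSpace ℝ G] (m : Measure E)
    {r : E → ℝ} (hr : Measurable r) (hr0 : ∀ x, 0 ≤ r x) (F : E → G) :
    Integrable F (m.withDensity fun x => ENNReal.ofReal (r x)) ↔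
      Integrable (fun x => r x • F x) m := by
  rw [integrable_withDensity_iff_integrable_smul' hr.ennreal_ofReal
    (Eventually.of_forall fun x => ENNReal.ofReal_lt_top)]
  simp [ENNReal.toReal_ofReal (hr0 _)]

theorem dfk_integral_dm {G : Type} [NormedAddCommGroup G] [NormedSpace ℝ G]
    {ρ : E → ℝ} (hρ : Measurable ρ) (h0 : ∀ x, 0 ≤ ρ x) (F : E → G) :
    ∫ x, F x ∂(dm ρ) = ∫ x, ρ x • F x :=
  dfk_integral_wd volume hρ h0 F

theorem dfk_integrable_dm {G : Type} [NormedAddCommGroup G] [NormedSpace ℝ G]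
    {ρ : E → ℝ} (hρ : Measurable ρ) (h0 : ∀ x, 0 ≤ ρ x) (F : E → G) :
    Integrable F (dm ρ) ↔ Integrable (fun x => ρ x • F x) :=
  dfk_integrable_wd volume hρ h0 F

/-- measurability of the two components of an `H¹` pair with respect to any `dm ρ`. -/
theorem dfk_H1_aesm {m : Measure E} {u : E → ℝ} {g : E → E} (h : H1 m u g) (ρ : E → ℝ) :
    AEStronglyMeasurable u (dm ρ) ∧ AEStronglyMeasurable g (dm ρ) :=
  ⟨h.1.1.aestronglyMeasurable.mono_ac (dfk_dm_ac ρ),
    h.1.2.1.aestronglyMeasurable.mono_ac (dfk_dm_ac ρ)⟩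

theorem dfk_H1_int {m : Measure E} {u : E → ℝ} {g : E → E} (h : H1 m u g) :
    Integrable (fun x => u x ^ 2) m ∧ Integrable (fun x => ‖g x‖ ^ 2) m :=
  ⟨(memLp_two_iff_integrable_sq h.2.1.1).mp h.2.1,
    (memLp_two_iff_integrable_sq_norm h.2.2.1).mp h.2.2⟩

/-! ### the Gaussian kernel -/

theorem dfk_gk_pos {s : ℝ} (hs : 0 < s) (z : E) : 0 < gk s z := by
  unfold gk
  have : 0 < 2 * Real.pi * s := by positivity
  positivity

theorem dfk_gk_cont (s : ℝ) : Continuous (gk s : E → ℝ) := by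
  unfold gk
  fun_prop

theorem dfk_integrable_rexp_neg_sq {b : ℝ} (hb : 0 < b) :
    Integrable (fun v : E => Real.exp (-b * ‖v‖ ^ 2)) := by
  by_contra h
  have h1 := GaussianFourier.integral_rexp_neg_mul_sq_norm (V := E) hb
  rw [integral_undef h] at h1
  have : 0 < (Real.pi / b) ^ (Module.finrank ℝ E / 2 : ℝ) := by positivity
  linarith

theorem dfk_gk_integrable {s : ℝ} (hs : 0 < s) : Integrable (gk s : E → ℝ) := by
  unfold gk
  refine Integrable.const_mul ?_ _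
  have := dfk_integrable_rexp_neg_sq (E := E) (b := 1 / (2 * s)) (by positivity)
  refine this.congr (Eventually.of_forall fun z => ?_)
  show Real.exp _ = Real.exp _
  congr 1
  field_simp

theorem dfk_gk_integral {s : ℝ} (hs : 0 < s) : ∫ z : E, gk s z = 1 := by
  unfold gk
  rw [integral_const_mul]
  have h1 := GaussianFourier.integral_rexp_neg_mul_sq_norm (V := E) (b := 1 / (2 * s))
    (by positivity)
  have h2 : (fun z : E => Real.exp (-‖z‖ ^ 2 / (2 * s)))
      = fun z : E => Real.exp (-(1 / (2 * s)) * ‖z‖ ^ 2) := by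
    funext z
    congr 1
    field_simp
  rw [h2, h1]
  have h3 : Real.pi / (1 / (2 * s)) = 2 * Real.pi * s := by field_simp
  rw [h3, ← Real.rpow_add (by positivity)]
  have : -(Module.finrank ℝ E : ℝ) / 2 + (Module.finrank ℝ E : ℝ) / 2 = 0 := by ring
  rw [this, Real.rpow_zero]

theorem dfk_dm_prob {ρ : E → ℝ} (h0 : ∀ x, 0 ≤ ρ x) (hi : Integrable ρ) (h1 : ∫ x, ρ x = 1) :
    IsProbabilityMeasure (dm ρ) := by
  constructor
  unfold dm
  rw [withDensity_apply _ MeasurableSet.univ, Measure.restrict_univ,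
    ← ofReal_integral_eq_lintegral_ofReal hi (Eventually.of_forall h0), h1]
  simp

theorem dfk_gk_prob {s : ℝ} (hs : 0 < s) : IsProbabilityMeasure (dm (gk s : E → ℝ)) :=
  dfk_dm_prob (fun x => (dfk_gk_pos hs x).le) (dfk_gk_integrable hs) (dfk_gk_integral hs)

/-- Gaussian exponential square moment. -/
theorem dfk_gk_expsq {s : ℝ} (hs : 0 < s) :
    Integrable (fun y : E => Real.exp (‖y‖ ^ 2 / (4 * s))) (dm (gk s : E → ℝ)) := by
  rw [dfk_integrable_dm (dfk_gk_cont s).measurable (fun x => (dfk_gk_pos hs x).le)]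
  unfold gk
  have := (dfk_integrable_rexp_neg_sq (E := E) (b := 1 / (4 * s)) (by positivity)).const_mul
    ((2 * Real.pi * s) ^ (-(Module.finrank ℝ E : ℝ) / 2))
  refine this.congr (Eventually.of_forall fun z => ?_)
  have e : Real.exp (-(1 / (4 * s)) * ‖z‖ ^ 2)
      = Real.exp (-‖z‖ ^ 2 / (2 * s)) * Real.exp (‖z‖ ^ 2 / (4 * s)) := by
    rw [← Real.exp_add]
    congr 1
    field_simp
    ring
  show _ * Real.exp _ = (_ * Real.exp _) • Real.exp _
  rw [smul_eq_mul, e]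
  ring

/-! ### scalar inequalities and the entropy inequality -/

theorem dfk_young (a b : ℝ) (ha : 0 ≤ a) : a * b ≤ a * Real.log a - a + Real.exp b := by
  rcases ha.eq_or_lt with rfl | ha
  · simp [(Real.exp_pos b).le]
  · have h1 := Real.add_one_le_exp (b - Real.log a)
    have h2 : Real.exp b = a * Real.exp (b - Real.log a) := by
      rw [Real.exp_sub, Real.exp_log ha]; field_simp
    rw [h2]
    nlinarith

/-- entropy inequality (Young / Donsker-Varadhan with a crude constant). -/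
theorem dfk_ent_young {α : Type} [MeasurableSpace α] (m : Measure α) [IsProbabilityMeasure m]
    {F h : α → ℝ} (hF0 : ∀ x, 0 ≤ F x) (hF : Integrable F m)
    (hFl : Integrable (fun x => F x * Real.log (F x)) m) (hh0 : ∀ x, 0 ≤ h x)
    (hhm : AEStronglyMeasurable h m) (hE : Integrable (fun x => Real.exp (h x)) m) :
    Integrable (fun x => F x * h x) m ∧
      ∫ x, F x * h x ∂m ≤ ent m F + (∫ x, Real.exp (h x) ∂m - 1) * ∫ x, F x ∂m := by
  have hint : Integrable (fun x => F x * h x) m := by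
    refine Integrable.mono' ((hFl.sub hF).add hE) (hF.1.mul hhm) (Eventually.of_forall fun x => ?_)
    rw [Real.norm_of_nonneg (mul_nonneg (hF0 x) (hh0 x))]
    exact dfk_young _ _ (hF0 x)
  refine ⟨hint, ?_⟩
  set N := ∫ x, F x ∂m with hN
  have hN0 : 0 ≤ N := integral_nonneg hF0
  rcases hN0.eq_or_lt with h0 | hpos
  · have hz : F =ᵐ[m] 0 := (integral_eq_zero_iff_of_nonneg hF0 hF).mp h0.symm
    have e1 : ∫ x, F x * h x ∂m = 0 := by
      rw [integral_eq_zero_of_ae]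
      filter_upwards [hz] with x hx
      simp [hx]
    have e2 : ∫ x, F x * Real.log (F x) ∂m = 0 := by
      rw [integral_eq_zero_of_ae]
      filter_upwards [hz] with x hx
      simp [hx]
    unfold ent
    rw [e1, e2, ← hN, ← h0]
    simp
  · have hpt : ∀ x, F x * h x ≤
        F x * Real.log (F x) - Real.log N * F x - F x + N * Real.exp (h x) := by
      intro x
      have h1 := dfk_young (F x / N) (h x) (div_nonneg (hF0 x) hN0)
      have h2 : F x / N * Real.log (F x / N) = (F x * Real.log (F x) - Real.log N * F x) / N := by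
        rcases (hF0 x).eq_or_lt with h0 | h0
        · simp [← h0]
        · rw [Real.log_div h0.ne' hpos.ne']; ring
      rw [h2] at h1
      have h3 := mul_le_mul_of_nonneg_left h1 hN0
      have e1 : N * (F x / N * h x) = F x * h x := by field_simp
      have e2 : N * ((F x * Real.log (F x) - Real.log N * F x) / N - F x / N + Real.exp (h x))
          = F x * Real.log (F x) - Real.log N * F x - F x + N * Real.exp (h x) := by
        field_simp
      rw [e1, e2] at h3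
      exact h3
    have hI := integral_mono hint
      (((hFl.sub (hF.const_mul (Real.log N))).sub hF).add (hE.const_mul N)) hpt
    rw [integral_add' ((hFl.sub (hF.const_mul (Real.log N))).sub hF) (hE.const_mul N),
      integral_sub' (hFl.sub (hF.const_mul (Real.log N))) hF,
      integral_sub' hFl (hF.const_mul (Real.log N)), integral_const_mul, integral_const_mul,
      ← hN] at hI
    unfold ent
    rw [← hN]
    linarith

namespace GPert

variable {ν : E → ℝ} {s B : ℝ}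

theorem pos (h : GPert ν s B) (y : E) : 0 < ν y := by
  obtain ⟨r, -, hr0, hν, -⟩ := h.ex
  rw [hν]
  exact mul_pos (dfk_gk_pos h.s_pos y) (hr0 y)

theorem cont (h : GPert ν s B) : Continuous ν := by
  obtain ⟨r, hr, -, hν, -⟩ := h.ex
  have : ν = fun y => gk s y * r y := funext hν
  rw [this]
  exact (dfk_gk_cont s).mul hr.continuous

end GPert

end Claimed.Agent.R259
end

/- ===== packed: Claimed.Agent.R259.DefLsi ===== -/
section
/-
Row 259, kit DEF (Lemma 3.3): second moment estimate and defective LSI for `ν = γ_s · r` (`GPert`).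
Route: `v = u √r` transfers `H¹(ν)` to `H¹(γ_s)`; the moment estimate follows from the Gaussian LSI and
the entropy inequality (no integration by parts).  Owner: helper54.  Prefix `dfk`.
-/
set_option autoImplicit false
set_option linter.unusedSectionVars false

open MeasureTheory Filter Topology
open scoped ContDiff ENNReal

namespace Claimed.Agent.R259

variable {E : Type} [NormedAddCommGroup E] [InnerProductSpace ℝ E] [FiniteDimensional ℝ E]
  [MeasurableSpace E] [BorelSpace E]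

/-- the Gaussian constant `∫ exp(|y|²/(4s)) dγ_s` -/
noncomputable def dfkZ (E : Type) [NormedAddCommGroup E] [InnerProductSpace ℝ E]
    [FiniteDimensional ℝ E] [MeasurableSpace E] [BorelSpace E] (s : ℝ) : ℝ :=
  ∫ y : E, Real.exp (‖y‖ ^ 2 / (4 * s)) ∂(dm (gk s : E → ℝ))

theorem dfk_norm_gradient (f : E → ℝ) (x : E) : ‖gradient f x‖ = ‖fderiv ℝ f x‖ := by
  unfold gradient
  exact LinearIsometryEquiv.norm_map _ _

/-- second moment estimate in `H¹(γ_s)` from the Gaussian LSI. -/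
theorem dfk_gauss_moment {s : ℝ} (hs : 0 < s) (hG : LSI (dm (gk s : E → ℝ)) s)
    {v : E → ℝ} {gv : E → E} (h : H1 (dm (gk s : E → ℝ)) v gv) :
    Integrable (fun y => ‖y‖ ^ 2 * v y ^ 2) (dm (gk s : E → ℝ)) ∧
      ∫ y, ‖y‖ ^ 2 * v y ^ 2 ∂(dm (gk s : E → ℝ)) ≤
        4 * s * (2 * s * ∫ y, ‖gv y‖ ^ 2 ∂(dm (gk s : E → ℝ))
          + (dfkZ E s - 1) * ∫ y, v y ^ 2 ∂(dm (gk s : E → ℝ))) := by
  have := dfk_gk_prob (E := E) hs
  obtain ⟨hint, hent⟩ := ws_LSI_H1 (dfk_gk_cont s) (dfk_gk_pos hs) hG h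
  have hv2 := (dfk_H1_int h).1
  obtain ⟨h1, h2⟩ := dfk_ent_young (dm (gk s : E → ℝ)) (F := fun y => v y ^ 2)
    (h := fun y => ‖y‖ ^ 2 / (4 * s)) (fun y => sq_nonneg _) hv2 hint
    (fun y => by positivity) (by fun_prop) (dfk_gk_expsq hs)
  have e : (fun y : E => ‖y‖ ^ 2 * v y ^ 2) = fun y => (4 * s) * (v y ^ 2 * (‖y‖ ^ 2 / (4 * s))) := by
    funext y
    field_simp
  rw [e]
  refine ⟨h1.const_mul _, ?_⟩
  rw [integral_const_mul]
  apply mul_le_mul_of_nonneg_left _ (by positivity)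
  unfold dfkZ
  linarith

/-- transfer `u ↦ u √r` from `H¹(ν)` to `H¹(γ_s)`. -/
theorem dfk_transfer {ν : E → ℝ} {s B : ℝ} (h : GPert ν s B) :
    ∃ r : E → ℝ, Continuous r ∧ (∀ y, 0 < r y) ∧
      dm ν = (dm (gk s : E → ℝ)).withDensity (fun y => ENNReal.ofReal (r y)) ∧
      (∃ C0 : ℝ, 0 ≤ C0 ∧ ∀ y, |Real.log (r y)| ≤ C0 + B * ‖y‖) ∧
      ∀ (u : E → ℝ) (g : E → E), H1 (dm ν) u g →
        ∃ gv : E → E, H1 (dm (gk s : E → ℝ)) (fun y => Real.sqrt (r y) * u y) gv ∧
          ∀ y, ‖gv y‖ ≤ Real.sqrt (r y) * (‖g y‖ + B / 2 * |u y|) := by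
  obtain ⟨r, hr, hr0, hν, hgr⟩ := h.ex
  have hs := h.s_pos
  have hrc : Continuous r := hr.continuous
  have hdm : dm ν = (dm (gk s : E → ℝ)).withDensity (fun y => ENNReal.ofReal (r y)) := by
    have : ν = fun y => gk s y * r y := funext hν
    rw [this]
    exact dfk_dm_mul (dfk_gk_cont s).measurable hrc.measurable (fun x => (dfk_gk_pos hs x).le)
  have hdiff : ∀ y, DifferentiableAt ℝ r y := fun y => hr.differentiable (by norm_num) y
  refine ⟨r, hrc, hr0, hdm, ?_, ?_⟩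
  · -- logarithm
    refine ⟨|Real.log (r 0)|, abs_nonneg _, fun y => ?_⟩
    have hb : ∀ x ∈ (Set.univ : Set E), ‖fderiv ℝ (fun z => Real.log (r z)) x‖ ≤ B := by
      intro x _
      rw [((hdiff x).hasFDerivAt.log (hr0 x).ne').fderiv, norm_smul, ← dfk_norm_gradient,
        Real.norm_of_nonneg (inv_nonneg.mpr (hr0 x).le)]
      calc (r x)⁻¹ * ‖gradient r x‖ ≤ (r x)⁻¹ * (B * r x) :=
            mul_le_mul_of_nonneg_left (hgr x) (inv_nonneg.mpr (hr0 x).le)
        _ = B := by field_simp [(hr0 x).ne']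
    have := Convex.norm_image_sub_le_of_norm_fderiv_le (𝕜 := ℝ)
      (f := fun z => Real.log (r z)) (s := Set.univ) (x := 0) (y := y)
      (fun x _ => ((hdiff x).hasFDerivAt.log (hr0 x).ne').differentiableAt) hb convex_univ
      (Set.mem_univ _) (Set.mem_univ _)
    rw [sub_zero, Real.norm_eq_abs] at this
    have h2 := abs_sub_abs_le_abs_sub (Real.log (r y)) (Real.log (r 0))
    linarith
  · intro u g hu
    have hχ : ContDiff ℝ 1 (fun y => Real.sqrt (r y)) := hr.sqrt (fun y => (hr0 y).ne')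
    have hgχ : ∀ y, gradient (fun z => Real.sqrt (r z)) y
        = (1 / (2 * Real.sqrt (r y))) • gradient r y := by
      intro y
      unfold gradient
      rw [((hdiff y).hasFDerivAt.sqrt (hr0 y).ne').fderiv, map_smul]
    have hnχ : ∀ y, ‖gradient (fun z => Real.sqrt (r z)) y‖ ≤ B / 2 * Real.sqrt (r y) := by
      intro y
      have hsq : 0 < Real.sqrt (r y) := Real.sqrt_pos.mpr (hr0 y)
      rw [hgχ, norm_smul, Real.norm_of_nonneg (by positivity)]
      calc 1 / (2 * Real.sqrt (r y)) * ‖gradient r y‖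
          ≤ 1 / (2 * Real.sqrt (r y)) * (B * r y) :=
            mul_le_mul_of_nonneg_left (hgr y) (by positivity)
        _ = 1 / (2 * Real.sqrt (r y)) * (B * (Real.sqrt (r y) * Real.sqrt (r y))) := by
            rw [Real.mul_self_sqrt (hr0 y).le]
        _ = B / 2 * Real.sqrt (r y) := by field_simp
    have hW := ws_weakGrad_mul hu.1 hχ
    have hbound : ∀ y, ‖Real.sqrt (r y) • g y + u y • gradient (fun z => Real.sqrt (r z)) y‖
        ≤ Real.sqrt (r y) * (‖g y‖ + B / 2 * |u y|) := by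
      intro y
      have hsq : 0 ≤ Real.sqrt (r y) := Real.sqrt_nonneg _
      calc ‖Real.sqrt (r y) • g y + u y • gradient (fun z => Real.sqrt (r z)) y‖
          ≤ ‖Real.sqrt (r y) • g y‖ + ‖u y • gradient (fun z => Real.sqrt (r z)) y‖ :=
            norm_add_le _ _
        _ = Real.sqrt (r y) * ‖g y‖ + |u y| * ‖gradient (fun z => Real.sqrt (r z)) y‖ := by
            rw [norm_smul, norm_smul, Real.norm_of_nonneg hsq, Real.norm_eq_abs]
        _ ≤ Real.sqrt (r y) * ‖g y‖ + |u y| * (B / 2 * Real.sqrt (r y)) := by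
            gcongr
            exact hnχ y
        _ = _ := by ring
    obtain ⟨hu2, hg2⟩ := dfk_H1_int hu
    rw [hdm, dfk_integrable_wd _ hrc.measurable (fun y => (hr0 y).le)] at hu2 hg2
    refine ⟨_, ⟨hW, ?_, ?_⟩, hbound⟩
    · rw [memLp_two_iff_integrable_sq
        (hW.1.aestronglyMeasurable.mono_ac (dfk_dm_ac _))]
      refine hu2.congr (Eventually.of_forall fun y => ?_)
      show r y • u y ^ 2 = (Real.sqrt (r y) * u y) ^ 2
      rw [mul_pow, Real.sq_sqrt (hr0 y).le, smul_eq_mul]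
    · rw [memLp_two_iff_integrable_sq_norm
        (hW.2.1.aestronglyMeasurable.mono_ac (dfk_dm_ac _))]
      refine Integrable.mono' ((hg2.const_mul 2).add (hu2.const_mul (B ^ 2 / 2)))
        ((hW.2.1.aestronglyMeasurable.mono_ac (dfk_dm_ac _)).norm.pow 2)
        (Eventually.of_forall fun y => ?_)
      rw [Real.norm_of_nonneg (by positivity)]
      have h1 := pow_le_pow_left₀ (norm_nonneg _) (hbound y) 2
      refine h1.trans ?_
      rw [mul_pow, Real.sq_sqrt (hr0 y).le]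
      show _ ≤ 2 * (r y • ‖g y‖ ^ 2) + B ^ 2 / 2 * (r y • u y ^ 2)
      rw [smul_eq_mul, smul_eq_mul]
      have h2 : (‖g y‖ + B / 2 * |u y|) ^ 2 ≤ 2 * ‖g y‖ ^ 2 + B ^ 2 / 2 * u y ^ 2 := by
        have := sq_abs (u y)
        nlinarith [sq_nonneg (‖g y‖ - B / 2 * |u y|)]
      nlinarith [hr0 y]

/-- energy of the transferred function. -/
theorem dfk_energy_bound {ν r : E → ℝ} {s B : ℝ} (hrc : Continuous r) (hr0 : ∀ y, 0 < r y)
    (hdm : dm ν = (dm (gk s : E → ℝ)).withDensity (fun y => ENNReal.ofReal (r y)))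
    {u : E → ℝ} {g gv : E → E} (hu : H1 (dm ν) u g)
    (hv : H1 (dm (gk s : E → ℝ)) (fun y => Real.sqrt (r y) * u y) gv)
    (hb : ∀ y, ‖gv y‖ ≤ Real.sqrt (r y) * (‖g y‖ + B / 2 * |u y|)) {δ : ℝ} (hδ : 0 < δ) :
    ∫ y, ‖gv y‖ ^ 2 ∂(dm (gk s : E → ℝ)) ≤
      (1 + δ) * ∫ y, ‖g y‖ ^ 2 ∂(dm ν) + (1 + 1 / δ) * (B ^ 2 / 4) * ∫ y, u y ^ 2 ∂(dm ν) := by
  obtain ⟨hu2, hg2⟩ := dfk_H1_int hu
  rw [hdm, dfk_integrable_wd _ hrc.measurable (fun y => (hr0 y).le)] at hu2 hg2
  rw [hdm, dfk_integral_wd _ hrc.measurable (fun y => (hr0 y).le),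
    dfk_integral_wd _ hrc.measurable (fun y => (hr0 y).le), ← integral_const_mul,
    ← integral_const_mul, ← integral_add (hg2.const_mul _) (hu2.const_mul _)]
  refine integral_mono (dfk_H1_int hv).2 ((hg2.const_mul _).add (hu2.const_mul _)) fun y => ?_
  have h1 := pow_le_pow_left₀ (norm_nonneg _) (hb y) 2
  refine h1.trans ?_
  rw [mul_pow, Real.sq_sqrt (hr0 y).le, smul_eq_mul, smul_eq_mul]
  have h2 : (‖g y‖ + B / 2 * |u y|) ^ 2
      ≤ (1 + δ) * ‖g y‖ ^ 2 + (1 + 1 / δ) * (B ^ 2 / 4) * u y ^ 2 := by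
    have e1 := sq_abs (u y)
    have e2 : 0 ≤ (δ * ‖g y‖ - B / 2 * |u y|) ^ 2 / δ := by positivity
    have e3 : (δ * ‖g y‖ - B / 2 * |u y|) ^ 2 / δ
        = δ * ‖g y‖ ^ 2 - 2 * (‖g y‖ * (B / 2 * |u y|)) + 1 / δ * (B ^ 2 / 4) * |u y| ^ 2 := by
      field_simp
      ring
    rw [e3, e1] at e2
    nlinarith
  have := mul_le_mul_of_nonneg_left h2 (hr0 y).le
  linarith

theorem dfk_sq_transfer {ν r : E → ℝ} {s : ℝ} (hrc : Continuous r) (hr0 : ∀ y, 0 < r y)
    (hdm : dm ν = (dm (gk s : E → ℝ)).withDensity (fun y => ENNReal.ofReal (r y)))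
    (u w : E → ℝ) :
    ∫ y, w y * (Real.sqrt (r y) * u y) ^ 2 ∂(dm (gk s : E → ℝ)) = ∫ y, w y * u y ^ 2 ∂(dm ν) := by
  rw [hdm, dfk_integral_wd _ hrc.measurable (fun y => (hr0 y).le)]
  refine integral_congr_ae (Eventually.of_forall fun y => ?_)
  show w y * (Real.sqrt (r y) * u y) ^ 2 = r y • (w y * u y ^ 2)
  rw [mul_pow, Real.sq_sqrt (hr0 y).le, smul_eq_mul]
  ring

/-- **Second moment estimate** (used for tightness and for all first moments). -/
theorem dfk_moment {ν : E → ℝ} {s B : ℝ} (h : GPert ν s B) (hG : LSI (dm (gk s : E → ℝ)) s) :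
    ∃ C : ℝ, 0 ≤ C ∧ ∀ (u : E → ℝ) (g : E → E), H1 (dm ν) u g →
      Integrable (fun x => ‖x‖ ^ 2 * u x ^ 2) (dm ν) ∧
      ∫ x, ‖x‖ ^ 2 * u x ^ 2 ∂(dm ν) ≤
        C * (∫ x, u x ^ 2 ∂(dm ν) + ∫ x, ‖g x‖ ^ 2 ∂(dm ν)) := by
  obtain ⟨r, hrc, hr0, hdm, -, htr⟩ := dfk_transfer h
  have hs := h.s_pos
  refine ⟨4 * s * (4 * s + s * B ^ 2 + |dfkZ E s - 1|), by positivity, fun u g hu => ?_⟩
  obtain ⟨gv, hv, hb⟩ := htr u g hu
  obtain ⟨hm1, hm2⟩ := dfk_gauss_moment hs hG hv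
  have hen := dfk_energy_bound hrc hr0 hdm hu hv hb one_pos
  have e1 := dfk_sq_transfer hrc hr0 hdm u (fun y => ‖y‖ ^ 2)
  have e2 := dfk_sq_transfer hrc hr0 hdm u (fun _ => 1)
  simp only [one_mul] at e2
  constructor
  · rw [hdm, dfk_integrable_wd _ hrc.measurable (fun y => (hr0 y).le)]
    refine hm1.congr (Eventually.of_forall fun y => ?_)
    show ‖y‖ ^ 2 * (Real.sqrt (r y) * u y) ^ 2 = r y • (‖y‖ ^ 2 * u y ^ 2)
    rw [mul_pow, Real.sq_sqrt (hr0 y).le, smul_eq_mul]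
    ring
  · rw [← e1]
    refine hm2.trans ?_
    rw [e2, mul_assoc (4 * s)]
    apply mul_le_mul_of_nonneg_left _ (by positivity)
    have ha : 0 ≤ ∫ x, u x ^ 2 ∂(dm ν) := integral_nonneg fun x => sq_nonneg _
    have hE : 0 ≤ ∫ x, ‖g x‖ ^ 2 ∂(dm ν) := integral_nonneg fun x => sq_nonneg _
    have hz := le_abs_self (dfkZ E s - 1)
    have hz0 := abs_nonneg (dfkZ E s - 1)
    have h1 : 2 * s * ∫ y, ‖gv y‖ ^ 2 ∂(dm (gk s : E → ℝ)) ≤ 2 * s *
        ((1 + 1) * ∫ y, ‖g y‖ ^ 2 ∂(dm ν) + (1 + 1 / 1) * (B ^ 2 / 4) * ∫ y, u y ^ 2 ∂(dm ν)) :=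
      mul_le_mul_of_nonneg_left hen (by positivity)
    have h2 : (dfkZ E s - 1) * ∫ x, u x ^ 2 ∂(dm ν) ≤ |dfkZ E s - 1| * ∫ x, u x ^ 2 ∂(dm ν) :=
      mul_le_mul_of_nonneg_right hz ha
    have h3 : 0 ≤ s * B ^ 2 * ∫ x, ‖g x‖ ^ 2 ∂(dm ν) := by positivity
    have h4 : 0 ≤ |dfkZ E s - 1| * ∫ x, ‖g x‖ ^ 2 ∂(dm ν) := by positivity
    have h5 : 0 ≤ s * ∫ x, u x ^ 2 ∂(dm ν) := by positivity
    nlinarith

/-- **Defective LSI** (3.defective) with coefficient `2 (s + ε)`. -/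
theorem dfk_lsi {ν : E → ℝ} {s B : ℝ} (h : GPert ν s B) (hG : LSI (dm (gk s : E → ℝ)) s)
    {ε : ℝ} (hε : 0 < ε) :
    ∃ C : ℝ, 0 ≤ C ∧ ∀ (u : E → ℝ) (g : E → E), H1 (dm ν) u g →
      Integrable (fun x => u x ^ 2 * Real.log (u x ^ 2)) (dm ν) ∧
      ent (dm ν) (fun x => u x ^ 2) ≤
        2 * (s + ε) * ∫ x, ‖g x‖ ^ 2 ∂(dm ν) + C * ∫ x, u x ^ 2 ∂(dm ν) := by
  obtain ⟨r, hrc, hr0, hdm, ⟨C0, hC0, hlog⟩, htr⟩ := dfk_transfer h
  obtain ⟨Cm, hCm0, hmom⟩ := dfk_moment h hG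
  have hs := h.s_pos
  have hB := h.B_nonneg
  have := dfk_gk_prob (E := E) hs
  obtain ⟨δ, hδ, hδe⟩ : ∃ δ : ℝ, 0 < δ ∧ 2 * s * δ = ε := ⟨ε / (2 * s), by positivity, by field_simp⟩
  obtain ⟨τ, hτ, hτe⟩ : ∃ τ : ℝ, 0 < τ ∧ B * τ * Cm ≤ ε := by
    refine ⟨ε / (B * Cm + 1), by positivity, ?_⟩
    have h1 : B * (ε / (B * Cm + 1)) * Cm = ε * (B * Cm / (B * Cm + 1)) := by field_simp
    rw [h1]
    have h2 : B * Cm / (B * Cm + 1) ≤ 1 := by
      rw [div_le_one (by positivity)]; linarith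
    nlinarith
  refine ⟨2 * s * ((1 + 1 / δ) * (B ^ 2 / 4)) + (C0 + B / (4 * τ)) + B * τ * Cm, by positivity,
    fun u g hu => ?_⟩
  obtain ⟨gv, hv, hb⟩ := htr u g hu
  obtain ⟨hint, hent⟩ := ws_LSI_H1 (dfk_gk_cont s) (dfk_gk_pos hs) hG hv
  obtain ⟨hmi, hmb⟩ := hmom u g hu
  obtain ⟨hu2, hg2⟩ := dfk_H1_int hu
  have hen := dfk_energy_bound hrc hr0 hdm hu hv hb hδ
  have e2 := dfk_sq_transfer hrc hr0 hdm u (fun _ => 1)
  simp only [one_mul] at e2
  have hum := (dfk_H1_aesm hu ν).1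
  -- the logarithmic correction
  have hpt : ∀ y, |u y ^ 2 * Real.log (r y)| ≤
      (C0 + B / (4 * τ)) * u y ^ 2 + B * τ * (‖y‖ ^ 2 * u y ^ 2) := by
    intro y
    rw [abs_mul, abs_of_nonneg (sq_nonneg _)]
    have h1 : ‖y‖ ≤ τ * ‖y‖ ^ 2 + 1 / (4 * τ) := by
      have e : τ * ‖y‖ ^ 2 + 1 / (4 * τ) - ‖y‖ = (2 * τ * ‖y‖ - 1) ^ 2 / (4 * τ) := by
        field_simp
        ring
      have : 0 ≤ (2 * τ * ‖y‖ - 1) ^ 2 / (4 * τ) := by positivity
      linarith
    have h2 : |Real.log (r y)| ≤ C0 + B / (4 * τ) + B * τ * ‖y‖ ^ 2 := by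
      have := mul_le_mul_of_nonneg_left h1 hB
      have e : B * (τ * ‖y‖ ^ 2 + 1 / (4 * τ)) = B / (4 * τ) + B * τ * ‖y‖ ^ 2 := by ring
      linarith [hlog y]
    have := mul_le_mul_of_nonneg_left h2 (sq_nonneg (u y))
    linarith
  have hlr : Integrable (fun y => u y ^ 2 * Real.log (r y)) (dm ν) := by
    refine Integrable.mono' ((hu2.const_mul _).add (hmi.const_mul _))
      ((hum.pow 2).mul (Continuous.aestronglyMeasurable ?_)) (Eventually.of_forall hpt)
    exact Real.continuousOn_log.comp_continuous hrc fun y => (hr0 y).ne'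
  have hlrb : -∫ y, u y ^ 2 * Real.log (r y) ∂(dm ν) ≤
      (C0 + B / (4 * τ)) * ∫ y, u y ^ 2 ∂(dm ν) + B * τ * ∫ y, ‖y‖ ^ 2 * u y ^ 2 ∂(dm ν) := by
    rw [← integral_neg, ← integral_const_mul, ← integral_const_mul,
      ← integral_add (hu2.const_mul _) (hmi.const_mul _)]
    refine integral_mono hlr.neg ((hu2.const_mul _).add (hmi.const_mul _)) fun y => ?_
    exact (neg_le_abs _).trans (hpt y)
  -- splitting of the entropy integrand
  have hsplit : ∀ y, r y • (u y ^ 2 * Real.log (u y ^ 2)) =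
      (Real.sqrt (r y) * u y) ^ 2 * Real.log ((Real.sqrt (r y) * u y) ^ 2)
        - r y • (u y ^ 2 * Real.log (r y)) := by
    intro y
    rw [mul_pow, Real.sq_sqrt (hr0 y).le, smul_eq_mul, smul_eq_mul]
    by_cases hy : u y = 0
    · simp [hy]
    · rw [Real.log_mul (hr0 y).ne' (pow_ne_zero 2 hy)]
      ring
  have hlr' := hlr
  rw [hdm, dfk_integrable_wd _ hrc.measurable (fun y => (hr0 y).le)] at hlr'
  have hi : Integrable (fun x => u x ^ 2 * Real.log (u x ^ 2)) (dm ν) := by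
    rw [hdm, dfk_integrable_wd _ hrc.measurable (fun y => (hr0 y).le)]
    exact (hint.sub hlr').congr (Eventually.of_forall fun y => (hsplit y).symm)
  refine ⟨hi, ?_⟩
  have hI : ∫ x, u x ^ 2 * Real.log (u x ^ 2) ∂(dm ν) =
      ∫ y, (Real.sqrt (r y) * u y) ^ 2 * Real.log ((Real.sqrt (r y) * u y) ^ 2)
        ∂(dm (gk s : E → ℝ)) - ∫ y, u y ^ 2 * Real.log (r y) ∂(dm ν) := by
    conv_lhs => rw [hdm, dfk_integral_wd _ hrc.measurable (fun y => (hr0 y).le)]
    conv_rhs => rw [hdm, dfk_integral_wd _ hrc.measurable (fun y => (hr0 y).le)]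
    rw [← integral_sub hint hlr']
    exact integral_congr_ae (Eventually.of_forall hsplit)
  unfold ent at hent ⊢
  rw [e2] at hent
  rw [hI]
  have ha : 0 ≤ ∫ x, u x ^ 2 ∂(dm ν) := integral_nonneg fun x => sq_nonneg _
  have hE : 0 ≤ ∫ x, ‖g x‖ ^ 2 ∂(dm ν) := integral_nonneg fun x => sq_nonneg _
  have k1 : 2 * s * ∫ y, ‖gv y‖ ^ 2 ∂(dm (gk s : E → ℝ)) ≤ 2 * s *
      ((1 + δ) * ∫ y, ‖g y‖ ^ 2 ∂(dm ν) + (1 + 1 / δ) * (B ^ 2 / 4) * ∫ y, u y ^ 2 ∂(dm ν)) :=
    mul_le_mul_of_nonneg_left hen (by positivity)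
  have k2 : B * τ * ∫ y, ‖y‖ ^ 2 * u y ^ 2 ∂(dm ν) ≤ B * τ *
      (Cm * (∫ x, u x ^ 2 ∂(dm ν) + ∫ x, ‖g x‖ ^ 2 ∂(dm ν))) :=
    mul_le_mul_of_nonneg_left hmb (by positivity)
  have k3 : B * τ * Cm * ∫ x, ‖g x‖ ^ 2 ∂(dm ν) ≤ ε * ∫ x, ‖g x‖ ^ 2 ∂(dm ν) :=
    mul_le_mul_of_nonneg_right hτe hE
  have k4 : 2 * s * ((1 + δ) * ∫ y, ‖g y‖ ^ 2 ∂(dm ν))
      = (2 * s + ε) * ∫ y, ‖g y‖ ^ 2 ∂(dm ν) := by
    rw [← hδe]; ring
  nlinarith

end Claimed.Agent.R259
end

/- ===== packed: Claimed.Agent.R259.DefTail ===== -/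
section
/-
Row 259, kit DEF (Lemma 3.3): the entropy tail (3.general-tail) with the sharp coefficient `2 s`.
Soft truncations `Ψ_L(z) = z / sqrt(1 + (z/L)²)`, `Θ_L = id - Ψ_L` replace `|u| ∧ L`, `(|u| - L)_+`
(only the `C¹` chain rule of kit WS is used: `Ψ'² + Θ'² ≤ 1`).  Owner: helper54.  Prefix `dfk`.
-/
set_option autoImplicit false
set_option linter.unusedSectionVars false

open MeasureTheory Filter Topology
open scoped ContDiff ENNReal

namespace Claimed.Agent.R259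

/-! ### the soft truncation -/

/-- `Ψ_L(z) = z / sqrt(1 + (z/L)²)` -/
noncomputable def dfkPsi (L z : ℝ) : ℝ := z / Real.sqrt (1 + (z / L) ^ 2)

/-- the derivative of `Ψ_L` -/
noncomputable def dfkPsiD (L z : ℝ) : ℝ := 1 / ((1 + (z / L) ^ 2) * Real.sqrt (1 + (z / L) ^ 2))

theorem dfk_q_pos (L z : ℝ) : 0 < 1 + (z / L) ^ 2 := by positivity

theorem dfk_one_le_sqrt_q (L z : ℝ) : 1 ≤ Real.sqrt (1 + (z / L) ^ 2) := by
  rw [Real.one_le_sqrt]
  nlinarith [sq_nonneg (z / L)]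

theorem dfk_psi_hasDerivAt (L z : ℝ) : HasDerivAt (dfkPsi L) (dfkPsiD L z) z := by
  have hq0 := dfk_q_pos L z
  have hq : HasDerivAt (fun z : ℝ => 1 + (z / L) ^ 2) (2 * (z / L) * (1 / L)) z := by
    have h1 : HasDerivAt (fun z : ℝ => z / L) (1 / L) z := (hasDerivAt_id z).div_const L
    have h2 := (h1.pow 2).const_add 1
    exact h2.congr_deriv (by norm_num)
  have hs := hq.sqrt hq0.ne'
  have hsq : 0 < Real.sqrt (1 + (z / L) ^ 2) := Real.sqrt_pos.mpr hq0
  have h := (hasDerivAt_id z).div hs hsq.ne'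
  have h' : HasDerivAt (dfkPsi L) _ z := h
  refine h'.congr_deriv ?_
  unfold dfkPsiD
  simp only [id]
  rw [Real.sq_sqrt hq0.le]
  have e : Real.sqrt (1 + (z / L) ^ 2) * Real.sqrt (1 + (z / L) ^ 2) = 1 + (z / L) ^ 2 :=
    Real.mul_self_sqrt hq0.le
  have key : 1 * Real.sqrt (1 + (z / L) ^ 2)
      - z * (2 * (z / L) * (1 / L) / (2 * Real.sqrt (1 + (z / L) ^ 2)))
      = 1 / Real.sqrt (1 + (z / L) ^ 2) := by
    have e2 : z * (2 * (z / L) * (1 / L) / (2 * Real.sqrt (1 + (z / L) ^ 2)))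
        = (z / L) ^ 2 / Real.sqrt (1 + (z / L) ^ 2) := by
      field_simp
    rw [e2, one_mul, eq_div_iff hsq.ne', sub_mul, e, div_mul_cancel₀ _ hsq.ne']
    ring
  rw [key]
  field_simp

theorem dfk_psiD_pos (L z : ℝ) : 0 < dfkPsiD L z := by
  unfold dfkPsiD
  have := dfk_q_pos L z
  have := Real.sqrt_pos.mpr this
  positivity

theorem dfk_psiD_le_one (L z : ℝ) : dfkPsiD L z ≤ 1 := by
  unfold dfkPsiD
  have h1 := dfk_one_le_sqrt_q L z
  have h2 : 1 ≤ 1 + (z / L) ^ 2 := by nlinarith [sq_nonneg (z / L)]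
  rw [div_le_one (by positivity)]
  nlinarith

theorem dfk_psi_deriv (L : ℝ) : deriv (dfkPsi L) = dfkPsiD L :=
  funext fun z => (dfk_psi_hasDerivAt L z).deriv

theorem dfk_psiD_cont (L : ℝ) : Continuous (dfkPsiD L) := by
  unfold dfkPsiD
  refine continuous_const.div (by fun_prop) fun z => ?_
  have := dfk_q_pos L z
  have := Real.sqrt_pos.mpr this
  positivity

theorem dfk_psi_contDiff (L : ℝ) : ContDiff ℝ 1 (dfkPsi L) := by
  rw [contDiff_one_iff_deriv]
  refine ⟨fun z => (dfk_psi_hasDerivAt L z).differentiableAt, ?_⟩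
  rw [dfk_psi_deriv]
  exact dfk_psiD_cont L

theorem dfk_psi_cont (L : ℝ) : Continuous (dfkPsi L) := (dfk_psi_contDiff L).continuous

theorem dfk_psi_abs (L z : ℝ) : |dfkPsi L z| = |z| / Real.sqrt (1 + (z / L) ^ 2) := by
  unfold dfkPsi
  rw [abs_div, abs_of_nonneg (Real.sqrt_nonneg _)]

theorem dfk_psi_abs_le (L z : ℝ) : |dfkPsi L z| ≤ |z| := by
  rw [dfk_psi_abs]
  exact div_le_self (abs_nonneg z) (dfk_one_le_sqrt_q L z)

theorem dfk_psi_abs_le_L {L : ℝ} (hL : 0 < L) (z : ℝ) : |dfkPsi L z| ≤ L := by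
  rw [dfk_psi_abs, div_le_iff₀ (Real.sqrt_pos.mpr (dfk_q_pos L z))]
  have h1 : |z| / L ≤ Real.sqrt (1 + (z / L) ^ 2) := by
    apply Real.le_sqrt_of_sq_le
    rw [div_pow, sq_abs, div_pow]
    linarith
  calc |z| = L * (|z| / L) := by field_simp
    _ ≤ _ := mul_le_mul_of_nonneg_left h1 hL.le

/-- `|Θ_L z| = |z| - |Ψ_L z|` -/
theorem dfk_theta_abs (L z : ℝ) : |z - dfkPsi L z| = |z| - |dfkPsi L z| := by
  have hsq := dfk_one_le_sqrt_q L z
  have e : z - dfkPsi L z = z * (1 - 1 / Real.sqrt (1 + (z / L) ^ 2)) := by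
    unfold dfkPsi; ring
  have h0 : 0 ≤ 1 - 1 / Real.sqrt (1 + (z / L) ^ 2) := by
    rw [sub_nonneg, div_le_one (by linarith)]
    exact hsq
  rw [e, abs_mul, abs_of_nonneg h0, dfk_psi_abs]
  ring

theorem dfk_theta_abs_le (L z : ℝ) : |z - dfkPsi L z| ≤ |z| := by
  rw [dfk_theta_abs]
  linarith [abs_nonneg (dfkPsi L z)]

theorem dfk_theta_abs_ge {L : ℝ} (hL : 0 < L) (z : ℝ) : |z| - L ≤ |z - dfkPsi L z| := by
  rw [dfk_theta_abs]
  linarith [dfk_psi_abs_le_L hL z]

theorem dfk_psi_lip (L a b : ℝ) : |dfkPsi L a - dfkPsi L b| ≤ |a - b| := by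
  have h : LipschitzWith 1 (dfkPsi L) := by
    apply lipschitzWith_of_nnnorm_deriv_le
      (fun z => (dfk_psi_hasDerivAt L z).differentiableAt)
    intro z
    rw [dfk_psi_deriv, ← NNReal.coe_le_coe, coe_nnnorm, Real.norm_of_nonneg (dfk_psiD_pos L z).le]
    exact dfk_psiD_le_one L z
  have := h.dist_le_mul a b
  simpa [Real.dist_eq] using this

theorem dfk_theta_hasDerivAt (L z : ℝ) :
    HasDerivAt (fun z => z - dfkPsi L z) (1 - dfkPsiD L z) z :=
  (hasDerivAt_id z).sub (dfk_psi_hasDerivAt L z)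

theorem dfk_theta_deriv (L : ℝ) : deriv (fun z => z - dfkPsi L z) = fun z => 1 - dfkPsiD L z :=
  funext fun z => (dfk_theta_hasDerivAt L z).deriv

theorem dfk_theta_contDiff (L : ℝ) : ContDiff ℝ 1 (fun z => z - dfkPsi L z) :=
  contDiff_id.sub (dfk_psi_contDiff L)

theorem dfk_theta_lip (L a b : ℝ) :
    |(a - dfkPsi L a) - (b - dfkPsi L b)| ≤ |a - b| := by
  have h : LipschitzWith 1 (fun z => z - dfkPsi L z) := by
    apply lipschitzWith_of_nnnorm_deriv_le
      (fun z => (dfk_theta_hasDerivAt L z).differentiableAt)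
    intro z
    rw [dfk_theta_deriv, ← NNReal.coe_le_coe, coe_nnnorm,
      Real.norm_of_nonneg (by linarith [dfk_psiD_le_one L z])]
    simp only [NNReal.coe_one]
    linarith [dfk_psiD_pos L z]
  have := h.dist_le_mul a b
  rw [Real.dist_eq, Real.dist_eq, NNReal.coe_one, one_mul] at this
  exact this

theorem dfk_psiD_tendsto (z : ℝ) : Tendsto (fun L => dfkPsiD L z) atTop (𝓝 1) := by
  have h1 : Tendsto (fun L : ℝ => z / L) atTop (𝓝 0) := tendsto_const_nhds.div_atTop tendsto_id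
  have hc : Continuous (fun x : ℝ => 1 / ((1 + x ^ 2) * Real.sqrt (1 + x ^ 2))) := by
    refine continuous_const.div (by fun_prop) fun x => ?_
    have : 0 < 1 + x ^ 2 := by positivity
    have := Real.sqrt_pos.mpr this
    positivity
  have := (hc.tendsto 0).comp h1
  simpa [dfkPsiD, Function.comp_def] using this

theorem dfk_theta_tendsto (z : ℝ) : Tendsto (fun L => z - dfkPsi L z) atTop (𝓝 0) := by
  have h1 : Tendsto (fun L : ℝ => z / L) atTop (𝓝 0) := tendsto_const_nhds.div_atTop tendsto_id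
  have hc : Continuous (fun x : ℝ => z - z / Real.sqrt (1 + x ^ 2)) := by
    refine continuous_const.sub (continuous_const.div (by fun_prop) fun x => ?_)
    have : 0 < 1 + x ^ 2 := by positivity
    exact (Real.sqrt_pos.mpr this).ne'
  have := (hc.tendsto 0).comp h1
  simpa [dfkPsi, Function.comp_def] using this

/-! ### truncations in `H¹` -/

variable {E : Type} [NormedAddCommGroup E] [InnerProductSpace ℝ E] [FiniteDimensional ℝ E]
  [MeasurableSpace E] [BorelSpace E]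

theorem dfk_H1_psi {m : Measure E} {u : E → ℝ} {g : E → E} (h : H1 m u g) (L : ℝ) :
    H1 m (fun x => dfkPsi L (u x)) (fun x => dfkPsiD L (u x) • g x) := by
  have hW := ws_weakGrad_comp h.1 (dfk_psi_contDiff L) (C := 1) (fun z => by
    rw [dfk_psi_deriv, abs_of_pos (dfk_psiD_pos L z)]
    exact dfk_psiD_le_one L z)
  rw [dfk_psi_deriv] at hW
  refine ⟨hW, h.2.1.mono ((dfk_psi_cont L).comp_aestronglyMeasurable h.2.1.1)
    (Eventually.of_forall fun x => ?_),
    h.2.2.mono (((dfk_psiD_cont L).comp_aestronglyMeasurable h.2.1.1).smul h.2.2.1)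
    (Eventually.of_forall fun x => ?_)⟩
  · exact dfk_psi_abs_le L (u x)
  · rw [norm_smul, Real.norm_of_nonneg (dfk_psiD_pos L _).le]
    exact mul_le_of_le_one_left (norm_nonneg _) (dfk_psiD_le_one L _)

theorem dfk_H1_theta {m : Measure E} {u : E → ℝ} {g : E → E} (h : H1 m u g) (L : ℝ) :
    H1 m (fun x => u x - dfkPsi L (u x)) (fun x => (1 - dfkPsiD L (u x)) • g x) := by
  have hW := ws_weakGrad_comp h.1 (dfk_theta_contDiff L) (C := 1) (fun z => by
    rw [dfk_theta_deriv, abs_of_nonneg (by linarith [dfk_psiD_le_one L z])]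
    linarith [dfk_psiD_pos L z])
  rw [dfk_theta_deriv] at hW
  refine ⟨hW, h.2.1.mono (h.2.1.1.sub ((dfk_psi_cont L).comp_aestronglyMeasurable h.2.1.1))
    (Eventually.of_forall fun x => ?_),
    h.2.2.mono ((aestronglyMeasurable_const.sub
      ((dfk_psiD_cont L).comp_aestronglyMeasurable h.2.1.1)).smul h.2.2.1)
    (Eventually.of_forall fun x => ?_)⟩
  · exact dfk_theta_abs_le L (u x)
  · rw [norm_smul, Real.norm_of_nonneg (by linarith [dfk_psiD_le_one L (u x)])]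
    exact mul_le_of_le_one_left (norm_nonneg _) (by linarith [dfk_psiD_pos L (u x)])

theorem dfk_energy_split {m : Measure E} {u : E → ℝ} {g : E → E} (h : H1 m u g) (L : ℝ) :
    ∫ x, ‖(1 - dfkPsiD L (u x)) • g x‖ ^ 2 ∂m + ∫ x, ‖dfkPsiD L (u x) • g x‖ ^ 2 ∂m
      ≤ ∫ x, ‖g x‖ ^ 2 ∂m := by
  rw [← integral_add (dfk_H1_int (dfk_H1_theta h L)).2 (dfk_H1_int (dfk_H1_psi h L)).2]
  refine integral_mono ((dfk_H1_int (dfk_H1_theta h L)).2.add (dfk_H1_int (dfk_H1_psi h L)).2)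
    (dfk_H1_int h).2 fun x => ?_
  have h0 := dfk_psiD_pos L (u x)
  have h1 := dfk_psiD_le_one L (u x)
  show ‖(1 - dfkPsiD L (u x)) • g x‖ ^ 2 + ‖dfkPsiD L (u x) • g x‖ ^ 2 ≤ ‖g x‖ ^ 2
  rw [norm_smul, norm_smul, mul_pow, mul_pow, Real.norm_eq_abs, Real.norm_eq_abs, sq_abs, sq_abs]
  have : (1 - dfkPsiD L (u x)) ^ 2 + dfkPsiD L (u x) ^ 2 ≤ 1 := by nlinarith
  nlinarith [sq_nonneg ‖g x‖]

/-- lower semicontinuity of the energy, `ε`-form. -/
theorem dfk_lsc {η : E → ℝ} (hη : Continuous η) (hpos : ∀ x, 0 < η x) {w : ℕ → E → ℝ}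
    {gw : ℕ → E → E} (h : ∀ k, H1 (dm η) (w k) (gw k)) {v : E → ℝ} {gv : E → E}
    (hv : H1 (dm η) v gv)
    (hu : Tendsto (fun k => ∫ x, (w k x - v x) ^ 2 ∂(dm η)) atTop (𝓝 0)) {δ : ℝ} (hδ : 0 < δ) :
    ∀ᶠ k in atTop, ∫ x, ‖gv x‖ ^ 2 ∂(dm η) - δ ≤ ∫ x, ‖gw k x‖ ^ 2 ∂(dm η) := by
  by_contra hcon
  rw [Filter.not_eventually] at hcon
  have hB : ∃ᶠ k in atTop, ∫ x, ‖gw k x‖ ^ 2 ∂(dm η) ≤ ∫ x, ‖gv x‖ ^ 2 ∂(dm η) - δ :=
    hcon.mono fun k hk => (not_le.mp hk).le
  obtain ⟨g', hg', hle⟩ := ws_lsc hη hpos h hv.2.1 hu hB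
  have hae := (dfk_dm_ac η).ae_le (ws_weakGrad_unique hg'.1 hv.1)
  have : ∫ x, ‖g' x‖ ^ 2 ∂(dm η) = ∫ x, ‖gv x‖ ^ 2 ∂(dm η) := by
    refine integral_congr_ae ?_
    filter_upwards [hae] with x hx
    rw [hx]
  linarith

/-! ### positive part of the entropy of a small function -/

theorem dfk_scalar_posent (w c : ℝ) (hc : 0 < c) :
    w ^ 2 * max (Real.log (w ^ 2)) 0 ≤ w ^ 2 * Real.log (w ^ 2) + w ^ 2 / c + c := by
  have h2 : 2 * |w| ≤ w ^ 2 / c + c := by
    have e : w ^ 2 / c + c - 2 * |w| = (|w| - c) ^ 2 / c := by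
      rw [← sq_abs w]
      field_simp
      ring
    have : 0 ≤ (|w| - c) ^ 2 / c := by positivity
    linarith
  rcases le_total 0 (Real.log (w ^ 2)) with h | h
  · rw [max_eq_left h]
    have := abs_nonneg w
    linarith
  · rw [max_eq_right h, mul_zero]
    rcases eq_or_ne w 0 with rfl | hw
    · simp [hc.le]
    · have ht : 0 < |w| := abs_pos.mpr hw
      have h3 : Real.log (1 / |w|) ≤ 1 / |w| := Real.log_le_self (by positivity)
      rw [one_div, Real.log_inv] at h3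
      have h4 : Real.log (w ^ 2) = 2 * Real.log |w| := by
        rw [← sq_abs, Real.log_pow]; norm_num
      have h5 : -(w ^ 2 * Real.log (w ^ 2)) ≤ 2 * |w| := by
        rw [h4, ← sq_abs w]
        have := mul_le_mul_of_nonneg_left h3 (by positivity : 0 ≤ 2 * |w| ^ 2)
        have e : 2 * |w| ^ 2 * |w|⁻¹ = 2 * |w| := by field_simp
        linarith
      linarith

theorem dfk_posent {m : Measure E} [IsProbabilityMeasure m] {a C : ℝ}
    (hlsi : ∀ (u : E → ℝ) (g : E → E), H1 m u g →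
      Integrable (fun x => u x ^ 2 * Real.log (u x ^ 2)) m ∧
      ent m (fun x => u x ^ 2) ≤ a * ∫ x, ‖g x‖ ^ 2 ∂m + C * ∫ x, u x ^ 2 ∂m)
    {w : E → ℝ} {gw : E → E} (hw : H1 m w gw) (hM : ∫ x, w x ^ 2 ∂m ≤ 1) {c : ℝ} (hc : 0 < c) :
    Integrable (fun x => w x ^ 2 * max (Real.log (w x ^ 2)) 0) m ∧
      ∫ x, w x ^ 2 * max (Real.log (w x ^ 2)) 0 ∂m ≤
        a * ∫ x, ‖gw x‖ ^ 2 ∂m + C * ∫ x, w x ^ 2 ∂m + (∫ x, w x ^ 2 ∂m) / c + c := by
  obtain ⟨hi, he⟩ := hlsi w gw hw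
  have hw2 := (dfk_H1_int hw).1
  have hb : Integrable (fun x => w x ^ 2 * Real.log (w x ^ 2) + w x ^ 2 / c + c) m :=
    (hi.add (hw2.div_const c)).add (integrable_const c)
  have hm : AEStronglyMeasurable (fun x => w x ^ 2 * max (Real.log (w x ^ 2)) 0) m := by
    have h1 : AEStronglyMeasurable (fun x => w x ^ 2) m := hw.2.1.1.pow 2
    have h2 : AEStronglyMeasurable (fun x => Real.log (w x ^ 2)) m :=
      (Real.measurable_log.comp_aemeasurable h1.aemeasurable).aestronglyMeasurable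
    exact h1.mul (h2.sup aestronglyMeasurable_const)
  have hint : Integrable (fun x => w x ^ 2 * max (Real.log (w x ^ 2)) 0) m := by
    refine Integrable.mono' hb hm (Eventually.of_forall fun x => ?_)
    rw [Real.norm_of_nonneg (mul_nonneg (sq_nonneg _) (le_max_right _ _))]
    exact dfk_scalar_posent _ _ hc
  refine ⟨hint, ?_⟩
  have h1 := integral_mono hint hb fun x => dfk_scalar_posent (w x) c hc
  have hab : Integrable (fun x => w x ^ 2 * Real.log (w x ^ 2) + w x ^ 2 / c) m :=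
    hi.add (hw2.div_const c)
  rw [integral_add hab (integrable_const c),
    integral_add hi (hw2.div_const c), integral_div, integral_const] at h1
  simp only [probReal_univ, smul_eq_mul, one_mul] at h1
  unfold ent at he
  have h2 := Real.mul_log_nonpos (integral_nonneg fun x => sq_nonneg (w x)) hM
  linarith

/-! ### the tail estimate -/

theorem dfk_scalar_tail {u w c : ℝ} (hc : 1 ≤ c) (hu1 : 1 ≤ |u|) (huw : |u| ≤ c * |w|) :
    u ^ 2 * Real.log (u ^ 2) ≤
      c ^ 2 * (w ^ 2 * max (Real.log (w ^ 2)) 0 + Real.log (c ^ 2) * w ^ 2) := by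
  have hc0 : 0 < c := by linarith
  have hw0 : 0 < |w| := by
    by_contra hcon
    have : |w| = 0 := le_antisymm (not_lt.mp hcon) (abs_nonneg w)
    rw [this, mul_zero] at huw
    linarith
  have hw2 : 0 < w ^ 2 := by rw [← sq_abs]; positivity
  have hu2 : 1 ≤ u ^ 2 := by rw [← sq_abs]; nlinarith
  have hle : u ^ 2 ≤ c ^ 2 * w ^ 2 := by
    rw [← sq_abs u, ← sq_abs w, ← mul_pow]
    exact pow_le_pow_left₀ (abs_nonneg u) huw 2
  have hl0 : 0 ≤ Real.log (u ^ 2) := Real.log_nonneg hu2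
  have hl1 : Real.log (u ^ 2) ≤ Real.log (c ^ 2) + max (Real.log (w ^ 2)) 0 := by
    calc Real.log (u ^ 2) ≤ Real.log (c ^ 2 * w ^ 2) := Real.log_le_log (by linarith) hle
      _ = Real.log (c ^ 2) + Real.log (w ^ 2) := Real.log_mul (by positivity) hw2.ne'
      _ ≤ _ := by linarith [le_max_left (Real.log (w ^ 2)) 0]
  calc u ^ 2 * Real.log (u ^ 2) ≤ (c ^ 2 * w ^ 2) * Real.log (u ^ 2) :=
        mul_le_mul_of_nonneg_right hle hl0
    _ ≤ (c ^ 2 * w ^ 2) * (Real.log (c ^ 2) + max (Real.log (w ^ 2)) 0) :=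
        mul_le_mul_of_nonneg_left hl1 (by positivity)
    _ = _ := by ring

theorem dfk_tail_core {ν : E → ℝ} {s B : ℝ} (hP : GPert ν s B) (hG : LSI (dm (gk s : E → ℝ)) s)
    {u : ℕ → E → ℝ} {g : ℕ → E → E} (h : ∀ k, H1 (dm ν) (u k) (g k))
    {v : E → ℝ} {gv : E → E} (hv : H1 (dm ν) v gv)
    (hu : Tendsto (fun k => ∫ x, (u k x - v x) ^ 2 ∂(dm ν)) atTop (𝓝 0))
    {Es : ℝ} (hE : Tendsto (fun k => ∫ x, ‖g k x‖ ^ 2 ∂(dm ν)) atTop (𝓝 Es))
    {c ε η : ℝ} (hc : 1 < c) (hε : 0 < ε) (hη : 0 < η) :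
    ∃ K₀ : ℝ, ∀ K ≥ K₀, ∀ᶠ k in atTop,
      ∫ x in {x | K < |u k x|}, u k x ^ 2 * Real.log (u k x ^ 2) ∂(dm ν) ≤
        c ^ 2 * (2 * (s + ε) * (Es - ∫ x, ‖gv x‖ ^ 2 ∂(dm ν) + η) + η) := by
  have := hP.prob
  have hs := hP.s_pos
  obtain ⟨C, hC0, hlsi⟩ := dfk_lsi hP hG hε
  have hlc : 0 ≤ Real.log (c ^ 2) := Real.log_nonneg (by nlinarith)
  -- the size of the tail mass
  set A : ℝ := C + 4 / η + Real.log (c ^ 2) with hA
  have hA0 : 0 ≤ A := by positivity
  obtain ⟨M₁, hM0, hM1, hMA⟩ : ∃ M₁ : ℝ, 0 < M₁ ∧ M₁ ≤ 1 ∧ A * M₁ ≤ η / 2 := by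
    refine ⟨min 1 (η / (2 * (A + 1))), by positivity, min_le_left _ _, ?_⟩
    calc A * min 1 (η / (2 * (A + 1))) ≤ A * (η / (2 * (A + 1))) :=
          mul_le_mul_of_nonneg_left (min_le_right _ _) hA0
      _ = η / 2 * (A / (A + 1)) := by field_simp
      _ ≤ η / 2 * 1 := by
          apply mul_le_mul_of_nonneg_left _ (by positivity)
          rw [div_le_one (by positivity)]; linarith
      _ = η / 2 := mul_one _
  -- choice of the truncation level
  obtain ⟨hv2, hgv2⟩ := dfk_H1_int hv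
  have lim1 : Tendsto (fun L => ∫ x, ‖dfkPsiD L (v x) • gv x‖ ^ 2 ∂(dm ν)) atTop
      (𝓝 (∫ x, ‖gv x‖ ^ 2 ∂(dm ν))) := by
    refine tendsto_integral_filter_of_dominated_convergence (fun x => ‖gv x‖ ^ 2)
      (Eventually.of_forall fun L => (dfk_H1_int (dfk_H1_psi hv L)).2.1)
      (Eventually.of_forall fun L => Eventually.of_forall fun x => ?_) hgv2
      (Eventually.of_forall fun x => ?_)
    · rw [Real.norm_of_nonneg (by positivity), norm_smul,
        Real.norm_of_nonneg (dfk_psiD_pos L _).le]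
      exact pow_le_pow_left₀ (by have := dfk_psiD_pos L (v x); positivity)
        (mul_le_of_le_one_left (norm_nonneg _) (dfk_psiD_le_one L _)) 2
    · have h1 := ((dfk_psiD_tendsto (v x)).smul_const (gv x)).norm.pow 2
      simpa using h1
  have lim2 : Tendsto (fun L => ∫ x, (v x - dfkPsi L (v x)) ^ 2 ∂(dm ν)) atTop (𝓝 0) := by
    have := tendsto_integral_filter_of_dominated_convergence (μ := dm ν) (l := atTop)
      (F := fun L x => (v x - dfkPsi L (v x)) ^ 2) (f := fun _ => 0) (fun x => v x ^ 2)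
      (Eventually.of_forall fun L => (dfk_H1_int (dfk_H1_theta hv L)).1.1)
      (Eventually.of_forall fun L => Eventually.of_forall fun x => ?_) hv2
      (Eventually.of_forall fun x => ?_)
    · simpa using this
    · rw [Real.norm_of_nonneg (by positivity), ← sq_abs, ← sq_abs (v x)]
      exact pow_le_pow_left₀ (abs_nonneg _) (dfk_theta_abs_le L _) 2
    · have h1 := (dfk_theta_tendsto (v x)).pow 2
      simpa using h1
  obtain ⟨L, hL0, hL1, hL2⟩ : ∃ L : ℝ, 0 < L ∧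
      ∫ x, ‖gv x‖ ^ 2 ∂(dm ν) - η / 3 < ∫ x, ‖dfkPsiD L (v x) • gv x‖ ^ 2 ∂(dm ν) ∧
      ∫ x, (v x - dfkPsi L (v x)) ^ 2 ∂(dm ν) < M₁ / 4 := by
    have e1 := lim1.eventually (lt_mem_nhds (show ∫ x, ‖gv x‖ ^ 2 ∂(dm ν) - η / 3
      < ∫ x, ‖gv x‖ ^ 2 ∂(dm ν) by linarith))
    have e2 := lim2.eventually (gt_mem_nhds (show (0 : ℝ) < M₁ / 4 by positivity))
    obtain ⟨L, h1, h2, h3⟩ := ((eventually_gt_atTop (0 : ℝ)).and (e1.and e2)).exists
    exact ⟨L, h1, h2, h3⟩
  refine ⟨max 1 (L * c / (c - 1)), fun K hK => ?_⟩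
  have hK1 : 1 ≤ K := (le_max_left _ _).trans hK
  have hK2 : L * c / (c - 1) ≤ K := (le_max_right _ _).trans hK
  -- convergence of the clipped functions
  have hconv : Tendsto (fun k => ∫ x, (dfkPsi L (u k x) - dfkPsi L (v x)) ^ 2 ∂(dm ν)) atTop
      (𝓝 0) := by
    refine squeeze_zero (fun k => integral_nonneg fun x => sq_nonneg _) (fun k => ?_) hu
    have hd : Integrable (fun x => (u k x - v x) ^ 2) (dm ν) :=
      (memLp_two_iff_integrable_sq ((h k).2.1.1.sub hv.2.1.1)).mp ((h k).2.1.sub hv.2.1)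
    have hd' : Integrable (fun x => (dfkPsi L (u k x) - dfkPsi L (v x)) ^ 2) (dm ν) :=
      (memLp_two_iff_integrable_sq ((dfk_H1_psi (h k) L).2.1.1.sub (dfk_H1_psi hv L).2.1.1)).mp
        ((dfk_H1_psi (h k) L).2.1.sub (dfk_H1_psi hv L).2.1)
    refine integral_mono hd' hd fun x => ?_
    show (dfkPsi L (u k x) - dfkPsi L (v x)) ^ 2 ≤ (u k x - v x) ^ 2
    rw [← sq_abs, ← sq_abs (u k x - v x)]
    exact pow_le_pow_left₀ (abs_nonneg _) (dfk_psi_lip L _ _) 2
  have ev1 := hE.eventually (gt_mem_nhds (show Es < Es + η / 3 by linarith))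
  have ev2 := dfk_lsc hP.cont hP.pos (fun k => dfk_H1_psi (h k) L) (dfk_H1_psi hv L) hconv
    (show 0 < η / 3 by positivity)
  have ev3 := hu.eventually (gt_mem_nhds (show (0 : ℝ) < M₁ / 4 by positivity))
  filter_upwards [ev1, ev2, ev3] with k k1 k2 k3
  have hw := dfk_H1_theta (h k) L
  have hsplit := dfk_energy_split (h k) L
  set w : E → ℝ := fun x => u k x - dfkPsi L (u k x) with hwdef
  set gw : E → E := fun x => (1 - dfkPsiD L (u k x)) • g k x with hgwdef
  have hEw : ∫ x, ‖gw x‖ ^ 2 ∂(dm ν) ≤ Es - ∫ x, ‖gv x‖ ^ 2 ∂(dm ν) + η := by linarith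
  have hw2 := (dfk_H1_int hw).1
  have hd : Integrable (fun x => (u k x - v x) ^ 2) (dm ν) :=
    (memLp_two_iff_integrable_sq ((h k).2.1.1.sub hv.2.1.1)).mp ((h k).2.1.sub hv.2.1)
  have hθv := (dfk_H1_int (dfk_H1_theta hv L)).1
  have hMw : ∫ x, w x ^ 2 ∂(dm ν) ≤ M₁ := by
    have h1 : ∫ x, w x ^ 2 ∂(dm ν) ≤
        ∫ x, (2 * (v x - dfkPsi L (v x)) ^ 2 + 2 * (u k x - v x) ^ 2) ∂(dm ν) := by
      refine integral_mono hw2 ((hθv.const_mul 2).add (hd.const_mul 2)) fun x => ?_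
      have hl := dfk_theta_lip L (u k x) (v x)
      have e : w x = (v x - dfkPsi L (v x))
          + ((u k x - dfkPsi L (u k x)) - (v x - dfkPsi L (v x))) := by
        simp only [hwdef]; ring
      have hsq : ((u k x - dfkPsi L (u k x)) - (v x - dfkPsi L (v x))) ^ 2 ≤ (u k x - v x) ^ 2 := by
        rw [← sq_abs, ← sq_abs (u k x - v x)]
        exact pow_le_pow_left₀ (abs_nonneg _) hl 2
      show w x ^ 2 ≤ 2 * (v x - dfkPsi L (v x)) ^ 2 + 2 * (u k x - v x) ^ 2
      rw [e]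
      nlinarith [sq_nonneg ((v x - dfkPsi L (v x))
        - ((u k x - dfkPsi L (u k x)) - (v x - dfkPsi L (v x))))]
    rw [integral_add (hθv.const_mul 2) (hd.const_mul 2), integral_const_mul,
      integral_const_mul] at h1
    linarith
  obtain ⟨hpi, hpb⟩ := dfk_posent hlsi hw (hMw.trans hM1) (show 0 < η / 4 by positivity)
  have hM0' : 0 ≤ ∫ x, w x ^ 2 ∂(dm ν) := integral_nonneg fun x => sq_nonneg _
  -- the comparison on the tail set
  have hbig : Integrable (fun x => c ^ 2 * (w x ^ 2 * max (Real.log (w x ^ 2)) 0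
      + Real.log (c ^ 2) * w x ^ 2)) (dm ν) := (hpi.add (hw2.const_mul _)).const_mul _
  have hnull : NullMeasurableSet {x | K < |u k x|} (dm ν) :=
    nullMeasurableSet_lt aemeasurable_const (h k).2.1.1.aemeasurable.abs
  have hui := (hlsi _ _ (h k)).1
  have step1 : ∫ x in {x | K < |u k x|}, u k x ^ 2 * Real.log (u k x ^ 2) ∂(dm ν) ≤
      ∫ x in {x | K < |u k x|}, c ^ 2 * (w x ^ 2 * max (Real.log (w x ^ 2)) 0
        + Real.log (c ^ 2) * w x ^ 2) ∂(dm ν) := by
    refine integral_mono_ae hui.integrableOn hbig.integrableOn ?_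
    rw [Filter.EventuallyLE, ae_restrict_iff'₀ hnull]
    refine Eventually.of_forall fun x hx => ?_
    have hx' : K < |u k x| := hx
    refine dfk_scalar_tail hc.le (by linarith) ?_
    have h1 := dfk_theta_abs_ge hL0 (u k x)
    have hc1 : 0 < c - 1 := by linarith
    have h2 : L * c ≤ |u k x| * (c - 1) := by
      rw [div_le_iff₀ hc1] at hK2
      nlinarith
    show |u k x| ≤ c * |u k x - dfkPsi L (u k x)|
    nlinarith
  have step2 : ∫ x in {x | K < |u k x|}, c ^ 2 * (w x ^ 2 * max (Real.log (w x ^ 2)) 0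
        + Real.log (c ^ 2) * w x ^ 2) ∂(dm ν) ≤
      ∫ x, c ^ 2 * (w x ^ 2 * max (Real.log (w x ^ 2)) 0
        + Real.log (c ^ 2) * w x ^ 2) ∂(dm ν) := by
    refine setIntegral_le_integral hbig (Eventually.of_forall fun x => ?_)
    have := le_max_right (Real.log (w x ^ 2)) 0
    show 0 ≤ c ^ 2 * (w x ^ 2 * max (Real.log (w x ^ 2)) 0 + Real.log (c ^ 2) * w x ^ 2)
    positivity
  refine (step1.trans step2).trans ?_
  rw [integral_const_mul, integral_add hpi (hw2.const_mul _), integral_const_mul]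
  apply mul_le_mul_of_nonneg_left _ (by positivity)
  have hAM : A * ∫ x, w x ^ 2 ∂(dm ν) ≤ η / 2 :=
    (mul_le_mul_of_nonneg_left hMw hA0).trans hMA
  have hse : 2 * (s + ε) * ∫ x, ‖gw x‖ ^ 2 ∂(dm ν)
      ≤ 2 * (s + ε) * (Es - ∫ x, ‖gv x‖ ^ 2 ∂(dm ν) + η) :=
    mul_le_mul_of_nonneg_left hEw (by positivity)
  have e4 : (∫ x, w x ^ 2 ∂(dm ν)) / (η / 4) = 4 / η * ∫ x, w x ^ 2 ∂(dm ν) := by
    field_simp
  rw [e4] at hpb
  rw [hA] at hAM
  linarith

/-- **(3.general-tail)**: loss of positive entropy at infinity of the values, sharp coefficient. -/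
theorem dfk_tail {ν : E → ℝ} {s B : ℝ} (hP : GPert ν s B) (hG : LSI (dm (gk s : E → ℝ)) s)
    {u : ℕ → E → ℝ} {g : ℕ → E → E} (h : ∀ k, H1 (dm ν) (u k) (g k))
    {v : E → ℝ} {gv : E → E} (hv : H1 (dm ν) v gv)
    (hu : Tendsto (fun k => ∫ x, (u k x - v x) ^ 2 ∂(dm ν)) atTop (𝓝 0))
    {Es : ℝ} (hE : Tendsto (fun k => ∫ x, ‖g k x‖ ^ 2 ∂(dm ν)) atTop (𝓝 Es))
    {δ : ℝ} (hδ : 0 < δ) :
    ∃ K₀ : ℝ, ∀ K ≥ K₀, ∀ᶠ k in atTop,
      ∫ x in {x | K < |u k x|}, u k x ^ 2 * Real.log (u k x ^ 2) ∂(dm ν) ≤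
        2 * s * (Es - ∫ x, ‖gv x‖ ^ 2 ∂(dm ν)) + δ := by
  set D : ℝ := Es - ∫ x, ‖gv x‖ ^ 2 ∂(dm ν) with hD
  have hc : Continuous fun κ : ℝ => (1 + κ) ^ 2 * (2 * (s + κ) * (D + κ) + κ) := by fun_prop
  have h0 : (fun κ : ℝ => (1 + κ) ^ 2 * (2 * (s + κ) * (D + κ) + κ)) 0 < 2 * s * D + δ := by
    simp only [add_zero, one_pow, one_mul]
    linarith
  have hev : ∀ᶠ κ in 𝓝[>] (0 : ℝ), (1 + κ) ^ 2 * (2 * (s + κ) * (D + κ) + κ) < 2 * s * D + δ :=
    ((hc.tendsto 0).mono_left nhdsWithin_le_nhds).eventually (gt_mem_nhds h0)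
  obtain ⟨κ, hκ1, hκ0⟩ := (hev.and self_mem_nhdsWithin).exists
  have hκ : 0 < κ := hκ0
  obtain ⟨K₀, hK⟩ := dfk_tail_core hP hG h hv hu hE (c := 1 + κ) (by linarith) hκ hκ
  refine ⟨K₀, fun K hKK => (hK K hKK).mono fun k hk => hk.trans hκ1.le⟩

end Claimed.Agent.R259
end

/- ===== packed: Claimed.Agent.R259.Dfc ===== -/
section
/-
Row 259, kit DEF (Lemma 3.3: moment estimate, defective LSI, entropy tail).  EXPORTS (statements fixed by sub-captain helper83).
Owner: helper54.  Proofs: `DefBase`, `DefLsi`, `DefTail` (for every `ν = γ_s · r`, `|∇ r| ≤ B r`: class `GPert`);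
here: the Gaussian LSI from kit PLSI, `gconv μ s` is a `GPert` (kit GC), and the exports.
-/
set_option autoImplicit false
set_option linter.unusedSectionVars false

open MeasureTheory Filter Topology ProbabilityTheory
open scoped ContDiff ENNReal

namespace Claimed.Agent.R259

variable {E : Type} [NormedAddCommGroup E] [InnerProductSpace ℝ E] [FiniteDimensional ℝ E]
  [MeasurableSpace E] [BorelSpace E]

/-! ### inputs -/

theorem dfk_logConc_const {c : ℝ} (hc : 0 < c) : LogConc (fun _ : E => c) := by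
  refine ⟨measurable_const, fun _ => hc.le, fun x y t _ _ => ?_⟩
  rw [← Real.rpow_add hc]
  simp

/-- the Gaussian logarithmic Sobolev inequality (from Lemma 2.1). -/
theorem dfk_gaussLSI {s : ℝ} (hs : 0 < s) : LSI (dm (gk s : E → ℝ)) s := by
  have := dfk_gk_prob (E := E) hs
  have hc : 0 < (2 * Real.pi * s) ^ (-(Module.finrank ℝ E : ℝ) / 2) := by positivity
  have h := plsi_LSI_iso (E := E) (p := gk s) (dfk_logConc_const hc) (κ := s⁻¹) (by positivity) 0
    (fun x => by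
      unfold gk
      congr 2
      rw [sub_zero]
      field_simp)
  rwa [inv_inv] at h

theorem dfk_fderiv_eq_toDual (f : E → ℝ) (x : E) :
    fderiv ℝ f x = InnerProductSpace.toDual ℝ E (gradient f x) := by
  unfold gradient
  simp

theorem dfk_grad_log_gk {s : ℝ} (hs : 0 < s) (y : E) :
    HasFDerivAt (fun z : E => Real.log (gk s z))
      (InnerProductSpace.toDual ℝ E (-(s⁻¹ • y))) y := by
  have hc : 0 < (2 * Real.pi * s) ^ (-(Module.finrank ℝ E : ℝ) / 2) := by positivity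
  have e : (fun z : E => Real.log (gk s z)) = fun z : E =>
      Real.log ((2 * Real.pi * s) ^ (-(Module.finrank ℝ E : ℝ) / 2)) + (-(1 / (2 * s))) * ‖z‖ ^ 2 := by
    funext z
    unfold gk
    rw [Real.log_mul hc.ne' (Real.exp_pos _).ne', Real.log_exp]
    congr 1
    field_simp
  rw [e]
  have h1 : HasFDerivAt (fun z : E => ‖z‖ ^ 2) (2 • (innerSL ℝ y)) y := by
    have := (hasFDerivAt_id y).norm_sq
    simpa using this
  have h2 := (h1.const_mul (-(1 / (2 * s)))).const_add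
    (Real.log ((2 * Real.pi * s) ^ (-(Module.finrank ℝ E : ℝ) / 2)))
  refine h2.congr_fderiv ?_
  ext w
  have e3 : (InnerProductSpace.toDual ℝ E (-(s⁻¹ • y))) w = -(s⁻¹ * inner ℝ y w) := by
    rw [InnerProductSpace.toDual_apply_apply, inner_neg_left, inner_smul_left]
    simp
  rw [e3]
  simp only [_root_.smul_apply, innerSL_apply_apply, smul_eq_mul, nsmul_eq_mul]
  push_cast
  field_simp

/-- `μ * γ_s` is a bounded-drift perturbation of `γ_s`. -/
theorem dfk_gpert_gconv {μ : Measure E} [IsProbabilityMeasure μ] (hb : BddSupp μ) {s : ℝ}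
    (hs : 0 < s) : ∃ B : ℝ, GPert (gconv μ s) s B := by
  obtain ⟨r1, hr1⟩ := hb
  have hb : BddSupp μ := ⟨r1, hr1⟩
  obtain ⟨hsm, hpos, -⟩ := gc_spd (μ := μ) hb hs
  refine ⟨|r1| / s, hs, by positivity, gc_isProb hs, fun y => gconv μ s y / gk s y, ?_, ?_, ?_, ?_⟩
  · exact (hsm.of_le (by norm_num)).div ((gc_gk_contDiff hs).of_le (by norm_num))
      fun y => (dfk_gk_pos hs y).ne'
  · exact fun y => div_pos (hpos y) (dfk_gk_pos hs y)
  · intro y
    field_simp [(dfk_gk_pos hs y).ne']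
  · intro y
    have hg0 := dfk_gk_pos (E := E) hs y
    have hr0 : 0 < gconv μ s y / gk s y := div_pos (hpos y) hg0
    -- derivative of `log r`
    have hd1 : DifferentiableAt ℝ (gconv μ s) y := hsm.differentiable (by norm_num) y
    have h1 : HasFDerivAt (fun z => Real.log (gconv μ s z))
        (InnerProductSpace.toDual ℝ E (-(s⁻¹ • (y - postMean μ s y)))) y := by
      rw [← gc_grad_log hb hs y, ← dfk_fderiv_eq_toDual]
      exact (hd1.hasFDerivAt.log (hpos y).ne').differentiableAt.hasFDerivAt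
    have h2 : HasFDerivAt (fun z => Real.log (gconv μ s z) - Real.log (gk s z))
        (InnerProductSpace.toDual ℝ E (-(s⁻¹ • (y - postMean μ s y)))
          - InnerProductSpace.toDual ℝ E (-(s⁻¹ • y))) y := h1.sub (dfk_grad_log_gk hs y)
    rw [← map_sub] at h2
    have e1 : -(s⁻¹ • (y - postMean μ s y)) - -(s⁻¹ • y) = s⁻¹ • postMean μ s y := by
      rw [smul_sub]; abel
    rw [e1] at h2
    have h3 := h2.exp
    have e2 : (fun z => Real.exp (Real.log (gconv μ s z) - Real.log (gk s z)))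
        = fun z => gconv μ s z / gk s z := by
      funext z
      rw [Real.exp_sub, Real.exp_log (hpos z), Real.exp_log (dfk_gk_pos hs z)]
    rw [e2, Real.exp_sub, Real.exp_log (hpos y), Real.exp_log hg0] at h3
    rw [dfk_norm_gradient, h3.fderiv, norm_smul, Real.norm_of_nonneg hr0.le,
      LinearIsometryEquiv.norm_map, norm_smul, Real.norm_of_nonneg (by positivity), mul_comm]
    apply mul_le_mul_of_nonneg_right _ hr0.le
    have := gc_postMean_norm_le hr1 hs y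
    rw [div_eq_inv_mul]
    exact mul_le_mul_of_nonneg_left (this.trans (le_abs_self _)) (by positivity)

/-! ### kit DEF: Lemma 3.3 -/

/-- second moment estimate used for tightness and for all first moments. -/
theorem def_moment {μ : Measure E} [IsProbabilityMeasure μ] (hb : BddSupp μ) {s : ℝ} (hs : 0 < s) :
    ∃ C : ℝ, ∀ (u : E → ℝ) (g : E → E), H1 (dm (gconv μ s)) u g →
      Integrable (fun x => ‖x‖ ^ 2 * u x ^ 2) (dm (gconv μ s)) ∧
      ∫ x, ‖x‖ ^ 2 * u x ^ 2 ∂(dm (gconv μ s)) ≤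
        C * (∫ x, u x ^ 2 ∂(dm (gconv μ s)) + ∫ x, ‖g x‖ ^ 2 ∂(dm (gconv μ s))) := by
  obtain ⟨B, hB⟩ := dfk_gpert_gconv hb hs
  obtain ⟨C, -, hC⟩ := dfk_moment hB (dfk_gaussLSI hs)
  exact ⟨C, hC⟩

/-- (3.defective) -/
theorem def_lsi {μ : Measure E} [IsProbabilityMeasure μ] (hb : BddSupp μ) {s : ℝ} (hs : 0 < s)
    {ε : ℝ} (hε : 0 < ε) :
    ∃ C : ℝ, ∀ (u : E → ℝ) (g : E → E), H1 (dm (gconv μ s)) u g →
      Integrable (fun x => u x ^ 2 * Real.log (u x ^ 2)) (dm (gconv μ s)) ∧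
      ent (dm (gconv μ s)) (fun x => u x ^ 2) ≤
        2 * (s + ε) * ∫ x, ‖g x‖ ^ 2 ∂(dm (gconv μ s)) + C * ∫ x, u x ^ 2 ∂(dm (gconv μ s)) := by
  obtain ⟨B, hB⟩ := dfk_gpert_gconv hb hs
  obtain ⟨C, -, hC⟩ := dfk_lsi hB (dfk_gaussLSI hs) hε
  exact ⟨C, hC⟩

/-- (3.general-tail): loss of positive entropy at infinity of the values, sharp coefficient `2s`. -/
theorem def_tail {μ : Measure E} [IsProbabilityMeasure μ] (hb : BddSupp μ) {s : ℝ} (hs : 0 < s)
    {u : ℕ → E → ℝ} {g : ℕ → E → E} (h : ∀ k, H1 (dm (gconv μ s)) (u k) (g k))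
    {v : E → ℝ} {gv : E → E} (hv : H1 (dm (gconv μ s)) v gv)
    (hu : Tendsto (fun k => ∫ x, (u k x - v x) ^ 2 ∂(dm (gconv μ s))) atTop (𝓝 0))
    {Es : ℝ} (hE : Tendsto (fun k => ∫ x, ‖g k x‖ ^ 2 ∂(dm (gconv μ s))) atTop (𝓝 Es))
    {δ : ℝ} (hδ : 0 < δ) :
    ∃ K₀ : ℝ, ∀ K ≥ K₀, ∀ᶠ k in atTop,
      ∫ x in {x | K < |u k x|}, u k x ^ 2 * Real.log (u k x ^ 2) ∂(dm (gconv μ s)) ≤
        2 * s * (Es - ∫ x, ‖gv x‖ ^ 2 ∂(dm (gconv μ s))) + δ := by
  obtain ⟨B, hB⟩ := dfk_gpert_gconv hb hs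
  exact dfk_tail hB (dfk_gaussLSI hs) h hv hu hE hδ

end Claimed.Agent.R259
end

/- ===== packed: Claimed.Agent.R259.Subg ===== -/
section
/-
Row 259, kit SUBG ((3.linear-mgf): moment consequences of the psi_2 hypothesis).
Owner: helper83.  Sorry-free.
-/
set_option autoImplicit false

open MeasureTheory Filter Topology ProbabilityTheory
open scoped ContDiff ENNReal

namespace Claimed.Agent.R259

/-! ### scalar inequalities -/

theorem subg_exp_le (x : ℝ) : Real.exp x ≤ x + Real.exp (x ^ 2) := by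
  have h2 : 1 + x ^ 2 ≤ Real.exp (x ^ 2) := by linarith [Real.add_one_le_exp (x ^ 2)]
  rcases le_or_gt |x| 1 with h | h
  · have := (abs_le.mp (Real.abs_exp_sub_one_sub_id_le h)).2
    linarith
  · rcases lt_abs.mp h with h1 | h1
    · have : Real.exp x ≤ Real.exp (x ^ 2) := Real.exp_le_exp.mpr (by nlinarith)
      linarith
    · have h3 : Real.exp x ≤ 1 := Real.exp_le_one_iff.mpr (by linarith)
      nlinarith

theorem subg_exp_convex {α w : ℝ} (h0 : 0 ≤ α) (h1 : α ≤ 1) :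
    Real.exp (α * w) ≤ 1 + α * (Real.exp w - 1) := by
  have := convexOn_exp.2 (Set.mem_univ w) (Set.mem_univ (0 : ℝ)) h0 (by linarith : 0 ≤ 1 - α)
    (by ring)
  simp only [smul_eq_mul, mul_zero, add_zero, Real.exp_zero, mul_one] at this
  linarith

/-- centred + `ψ₂` at scale `κ` implies a subgaussian moment generating function. -/
theorem subg_scalar {α : Type} [MeasurableSpace α] {m : Measure α} [IsProbabilityMeasure m]
    {w : α → ℝ} {κ : ℝ} (hκ : 0 < κ) (hw : Integrable w m) (hw0 : ∫ x, w x ∂m = 0)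
    (hE : Integrable (fun x => Real.exp (w x ^ 2 / κ)) m)
    (hE2 : ∫ x, Real.exp (w x ^ 2 / κ) ∂m ≤ 2) :
    ∫ x, Real.exp (w x) ∂m ≤ Real.exp κ := by
  rcases le_or_gt κ 1 with h | h
  · have hpt : ∀ x, Real.exp (w x) ≤ w x + (1 + κ * (Real.exp (w x ^ 2 / κ) - 1)) := by
      intro x
      have h1 := subg_exp_le (w x)
      have h2 := subg_exp_convex (w := w x ^ 2 / κ) hκ.le h
      have e : κ * (w x ^ 2 / κ) = w x ^ 2 := by field_simp
      rw [e] at h2
      linarith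
    have hi : Integrable (fun x => w x + (1 + κ * (Real.exp (w x ^ 2 / κ) - 1))) m :=
      hw.add ((integrable_const 1).add ((hE.sub (integrable_const 1)).const_mul κ))
    have hI := integral_mono_of_nonneg (Eventually.of_forall fun x => (Real.exp_pos (w x)).le) hi
      (Eventually.of_forall hpt)
    have i2 : Integrable (fun x => 1 + κ * (Real.exp (w x ^ 2 / κ) - 1)) m :=
      (integrable_const 1).add ((hE.sub (integrable_const 1)).const_mul κ)
    have i3 : Integrable (fun x => κ * (Real.exp (w x ^ 2 / κ) - 1)) m :=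
      (hE.sub (integrable_const 1)).const_mul κ
    rw [integral_add hw i2, integral_add (integrable_const 1) i3, integral_const_mul,
      integral_sub hE (integrable_const 1), hw0] at hI
    simp only [integral_const, probReal_univ, smul_eq_mul, mul_one] at hI
    have h3 := Real.add_one_le_exp κ
    nlinarith
  · have hpt : ∀ x, Real.exp (w x) ≤
        Real.exp (κ / 2) * (1 + 1 / 2 * (Real.exp (w x ^ 2 / κ) - 1)) := by
      intro x
      have h1 : w x ≤ κ / 2 + 1 / 2 * (w x ^ 2 / κ) := by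
        have : 0 ≤ (w x - κ) ^ 2 / (2 * κ) := by positivity
        have e : (w x - κ) ^ 2 / (2 * κ) = κ / 2 + 1 / 2 * (w x ^ 2 / κ) - w x := by
          field_simp; ring
        linarith
      have h2 := subg_exp_convex (α := 1 / 2) (w := w x ^ 2 / κ) (by norm_num) (by norm_num)
      calc Real.exp (w x) ≤ Real.exp (κ / 2 + 1 / 2 * (w x ^ 2 / κ)) := Real.exp_le_exp.mpr h1
        _ = Real.exp (κ / 2) * Real.exp (1 / 2 * (w x ^ 2 / κ)) := Real.exp_add _ _
        _ ≤ _ := mul_le_mul_of_nonneg_left h2 (Real.exp_pos _).le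
    have i3 : Integrable (fun x => 1 / 2 * (Real.exp (w x ^ 2 / κ) - 1)) m :=
      (hE.sub (integrable_const 1)).const_mul _
    have i2 : Integrable (fun x => 1 + 1 / 2 * (Real.exp (w x ^ 2 / κ) - 1)) m :=
      (integrable_const 1).add i3
    have hI := integral_mono_of_nonneg (Eventually.of_forall fun x => (Real.exp_pos (w x)).le)
      (i2.const_mul (Real.exp (κ / 2))) (Eventually.of_forall hpt)
    rw [integral_const_mul, integral_add (integrable_const 1) i3, integral_const_mul,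
      integral_sub hE (integrable_const 1)] at hI
    simp only [integral_const, probReal_univ, smul_eq_mul, mul_one] at hI
    have h3 : (3 / 2 : ℝ) ≤ Real.exp (1 / 2) := by linarith [Real.add_one_le_exp (1 / 2 : ℝ)]
    have h4 : Real.exp (1 / 2) ≤ Real.exp (κ / 2) := Real.exp_le_exp.mpr (by linarith)
    have h5 : Real.exp κ = Real.exp (κ / 2) * Real.exp (κ / 2) := by
      rw [← Real.exp_add]; congr 1; ring
    have h6 := Real.exp_pos (κ / 2)
    rw [h5]
    refine hI.trans (mul_le_mul_of_nonneg_left ?_ h6.le)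
    linarith

variable {E : Type} [NormedAddCommGroup E] [InnerProductSpace ℝ E] [FiniteDimensional ℝ E]
  [MeasurableSpace E] [BorelSpace E]

/-- continuous functions are integrable with respect to a finite measure of bounded support. -/
theorem subg_integrable {μ : Measure E} [IsFiniteMeasure μ] (hb : BddSupp μ) {F : Type}
    [NormedAddCommGroup F] {f : E → F} (hf : Continuous f) : Integrable f μ := by
  obtain ⟨r, hr⟩ := hb
  have h1 : ∀ᵐ x ∂μ, x ∈ Metric.closedBall (0 : E) r := by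
    rw [ae_iff]; exact hr
  rw [← Measure.restrict_eq_self_of_ae_mem h1]
  exact hf.continuousOn.integrableOn_compact (isCompact_closedBall 0 r)

theorem subg_psi2 {μ : Measure E} {a : ℝ} (h : BaseLaw μ a) {v : E} (hv : v ≠ 0) :
    ∫ x, Real.exp (inner ℝ v x ^ 2 / (a ^ 2 * ‖v‖ ^ 2)) ∂μ ≤ 2 := by
  have hn : 0 < ‖v‖ := norm_pos_iff.mpr hv
  have := h.psi2 (‖v‖⁻¹ • v) (by rw [norm_smul, norm_inv, norm_norm, inv_mul_cancel₀ hn.ne'])
  refine le_trans (le_of_eq ?_) this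
  refine integral_congr_ae (Eventually.of_forall fun x => ?_)
  simp only [inner_smul_right]
  congr 1
  rw [real_inner_comm]
  have := h.apos.ne'
  field_simp

/-- `log E exp⟨v, X⟩ ≤ C a² |v|²` with an absolute constant. -/
theorem subg_mgf : ∃ C : ℝ, 0 < C ∧ ∀ (E : Type) [NormedAddCommGroup E] [InnerProductSpace ℝ E]
    [FiniteDimensional ℝ E] [MeasurableSpace E] [BorelSpace E] (μ : Measure E) (a : ℝ),
    BaseLaw μ a → ∀ v : E, ∫ x, Real.exp (inner ℝ v x) ∂μ ≤ Real.exp (C * a ^ 2 * ‖v‖ ^ 2) := by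
  refine ⟨1, one_pos, ?_⟩
  intro E _ _ _ _ _ μ a h v
  have := h.prob
  rcases eq_or_ne v 0 with rfl | hv
  · simp
  have hn : 0 < ‖v‖ := norm_pos_iff.mpr hv
  have ha := h.apos
  rw [one_mul]
  refine subg_scalar (by positivity) (subg_integrable h.bdd (by fun_prop)) ?_
    (subg_integrable h.bdd (by fun_prop)) (subg_psi2 h hv)
  have hid : Integrable (fun x : E => x) μ := subg_integrable h.bdd continuous_id
  rw [integral_inner hid, h.centred, inner_zero_right]

/-- `Cov(X) ≤ a²`. -/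
theorem subg_cov {μ : Measure E} {a : ℝ} (h : BaseLaw μ a) (v : E) :
    ∫ x, inner ℝ v x ^ 2 ∂μ ≤ a ^ 2 * ‖v‖ ^ 2 := by
  have := h.prob
  rcases eq_or_ne v 0 with rfl | hv
  · simp
  have hn : 0 < ‖v‖ := norm_pos_iff.mpr hv
  have ha := h.apos
  have hκ : 0 < a ^ 2 * ‖v‖ ^ 2 := by positivity
  have hE : Integrable (fun x => Real.exp (inner ℝ v x ^ 2 / (a ^ 2 * ‖v‖ ^ 2))) μ :=
    subg_integrable h.bdd (by fun_prop)
  have hi : Integrable (fun x => inner ℝ v x ^ 2) μ := subg_integrable h.bdd (by fun_prop)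
  have hpt : ∀ x, inner ℝ v x ^ 2 ≤
      (a ^ 2 * ‖v‖ ^ 2) * (Real.exp (inner ℝ v x ^ 2 / (a ^ 2 * ‖v‖ ^ 2)) - 1) := by
    intro x
    have h1 := Real.add_one_le_exp (inner ℝ v x ^ 2 / (a ^ 2 * ‖v‖ ^ 2))
    have h2 : inner ℝ v x ^ 2 = (a ^ 2 * ‖v‖ ^ 2) * (inner ℝ v x ^ 2 / (a ^ 2 * ‖v‖ ^ 2)) := by
      field_simp
    calc inner ℝ v x ^ 2 = (a ^ 2 * ‖v‖ ^ 2) * (inner ℝ v x ^ 2 / (a ^ 2 * ‖v‖ ^ 2)) := h2
      _ ≤ _ := mul_le_mul_of_nonneg_left (by linarith) hκ.le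
  have hI := integral_mono hi ((hE.sub (integrable_const 1)).const_mul _) hpt
  rw [integral_const_mul, integral_sub' hE (integrable_const 1)] at hI
  simp only [integral_const, probReal_univ, smul_eq_mul, mul_one] at hI
  have := subg_psi2 h hv
  nlinarith

end Claimed.Agent.R259
end

/- ===== packed: Claimed.Agent.R259.EntDefs ===== -/
section
/-
Row 259 (S0499), kits ENT / IMMSE / DB and section 4: shared definitions of the two Gaussian channels.
Owner: helper220.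

* HEAT CHANNEL  `U_r = Y + √r G`, `Y ∼ m` (a measure on `E`):  `gconv m r` (S3Defs) is the density of `U_r`,
  `hpost m r g u = E[g(Y) | U_r = u]`, `hpe m r g = E|E[g(Y) | U_r]|²`, `hpm m r u = Law(Y | U_r = u)`.
* LABEL CHANNEL `L_t = √t S(x) + G'`, `x ∼ m` (a measure on ANY measurable space `X`), `S : X → E`:
  `lcK S t l x` = likelihood ratio of `L_t` given `x` with respect to `γ = stdGaussian E`,
  `lcZ m S t l` = density of `L_t` with respect to `γ`, `lcE m S t g l = E[g(x) | L_t = l]`,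
  `lcD m S t = H(Law L_t | γ)`, `lcPE m S t g = E|E[g | L_t]|²`, `lcPm m S t l = Law(x | L_t = l)`,
  `lcLaw m S t = Law(L_t)`.
Everything is an explicit integral: no conditional expectations, no regular conditional laws.
Relative entropies of measures are Mathlib's `InformationTheory.klDiv` (values in `ℝ≥0∞`).
-/
set_option autoImplicit false

open MeasureTheory Filter Topology ProbabilityTheory InformationTheory
open scoped ContDiff ENNReal

namespace Claimed.Agent.R259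

variable {E : Type} [NormedAddCommGroup E] [InnerProductSpace ℝ E] [FiniteDimensional ℝ E]
  [MeasurableSpace E] [BorelSpace E]

/-- `∫ klFun(k) dν ∈ [0,∞]`: the relative entropy `H(k ν | ν)` when `ν` and `k ν` are probabilities. -/
noncomputable def entF {α : Type} [MeasurableSpace α] (ν : Measure α) (k : α → ℝ) : ℝ≥0∞ :=
  ∫⁻ x, ENNReal.ofReal (klFun (k x)) ∂ν

section heat

variable {F : Type} [NormedAddCommGroup F] [NormedSpace ℝ F]

/-- `E[g(Y) | Y + √r G = u]` for `Y ∼ m`. -/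
noncomputable def hpost (m : Measure E) (r : ℝ) (g : E → F) (u : E) : F :=
  (gconv m r u)⁻¹ • ∫ x, gk r (u - x) • g x ∂m

/-- prediction energy `E|E[g(Y) | Y + √r G]|²`. -/
noncomputable def hpe (m : Measure E) (r : ℝ) (g : E → F) : ℝ :=
  ∫ u, ‖hpost m r g u‖ ^ 2 ∂(dm (gconv m r))

/-- the posterior law of `Y` given `Y + √r G = u`. -/
noncomputable def hpm (m : Measure E) (r : ℝ) (u : E) : Measure E :=
  m.withDensity (fun x => ENNReal.ofReal ((gconv m r u)⁻¹ * gk r (u - x)))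

end heat

section label

variable {X : Type} [MeasurableSpace X] {F : Type} [NormedAddCommGroup F] [NormedSpace ℝ F]

/-- likelihood ratio (with respect to `γ(dl)`) of the label `L_t = √t S(x) + G'`. -/
noncomputable def lcK (S : X → E) (t : ℝ) (l : E) (x : X) : ℝ :=
  Real.exp (Real.sqrt t * inner ℝ l (S x) - t * ‖S x‖ ^ 2 / 2)

/-- density of `L_t` with respect to `γ`. -/
noncomputable def lcZ (m : Measure X) (S : X → E) (t : ℝ) (l : E) : ℝ := ∫ x, lcK S t l x ∂m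

/-- `E[g(x) | L_t = l]`. -/
noncomputable def lcE (m : Measure X) (S : X → E) (t : ℝ) (g : X → F) (l : E) : F :=
  (lcZ m S t l)⁻¹ • ∫ x, lcK S t l x • g x ∂m

/-- `d(t) = H(Law(L_t) | γ)`. -/
noncomputable def lcD (m : Measure X) (S : X → E) (t : ℝ) : ℝ :=
  ∫ l, klFun (lcZ m S t l) ∂(stdGaussian E)

/-- prediction energy `E|E[g(x) | L_t]|²`. -/
noncomputable def lcPE (m : Measure X) (S : X → E) (t : ℝ) (g : X → F) : ℝ :=
  ∫ l, ‖lcE m S t g l‖ ^ 2 * lcZ m S t l ∂(stdGaussian E)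

/-- the posterior law of `x` given `L_t = l`. -/
noncomputable def lcPm (m : Measure X) (S : X → E) (t : ℝ) (l : E) : Measure X :=
  m.withDensity (fun x => ENNReal.ofReal ((lcZ m S t l)⁻¹ * lcK S t l x))

/-- the law of `L_t`. -/
noncomputable def lcLaw (m : Measure X) (S : X → E) (t : ℝ) : Measure E :=
  (stdGaussian E).withDensity (fun l => ENNReal.ofReal (lcZ m S t l))

end label

/-- generates the equation lemmas of the definitions above in this file (rule 6: unique names) -/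
theorem entdefs_eqns_cite : True := by
  have := @entF.eq_1
  have := @hpost.eq_1
  have := @hpe.eq_1
  have := @hpm.eq_1
  have := @lcK.eq_1
  have := @lcZ.eq_1
  have := @lcE.eq_1
  have := @lcD.eq_1
  have := @lcPE.eq_1
  have := @lcPm.eq_1
  have := @lcLaw.eq_1
  have := @hpe.congr_simp
  trivial

end Claimed.Agent.R259
end
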