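/- Packed by merge_tool.py (helper293): 7 modules of Claimed.Agent.R259 in one file, same declarations.
   Old modules, in this order: ExScalar, TgLim, TgDv, TgNum, RefCalc, S4ProbeNum, S7LawSpecSc -/
import Mathlib
import Claimed.Agent.R259.WsBasic
import Claimed.Agent.R259.S3Defs
import Claimed.Agent.R259.OpCalc

/- ===== packed: Claimed.Agent.R259.ExScalar ===== -/
section
/-
Row 259, kit EX: scalar lemmas on `ψ z = z² log z²` and `φ x = x² log x² - x² + 1`.
Owner: helper54.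
-/
set_option autoImplicit false

open Filter Topology

namespace Claimed.Agent.R259

/-! ### `ψ z = z² log z²` -/

theorem exk_log_sq (z : ℝ) : Real.log (z ^ 2) = 2 * Real.log |z| := by
  rw [← sq_abs, Real.log_pow]; norm_num

theorem exk_psi_cont : Continuous fun z : ℝ => z ^ 2 * Real.log (z ^ 2) :=
  Real.continuous_mul_log.comp (continuous_pow 2)

theorem exk_psi_hasDerivAt (z : ℝ) :
    HasDerivAt (fun z : ℝ => z ^ 2 * Real.log (z ^ 2)) (2 * z * Real.log (z ^ 2) + 2 * z) z := by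
  rcases eq_or_ne z 0 with rfl | hz
  · rw [hasDerivAt_iff_tendsto_slope]
    have h1 : Tendsto (fun z : ℝ => 2 * (z * Real.log z)) (𝓝[≠] 0) (𝓝 (2 * (0 * Real.log 0))) :=
      ((continuous_const.mul Real.continuous_mul_log).tendsto 0).mono_left nhdsWithin_le_nhds
    have e : (2 * (0 : ℝ) * Real.log (0 ^ 2) + 2 * 0) = 2 * (0 * Real.log 0) := by simp
    rw [e]
    refine h1.congr' ?_
    filter_upwards [self_mem_nhdsWithin] with z hz
    have hz : z ≠ 0 := hz
    rw [slope_def_field, Real.log_pow]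
    simp only [ne_eq, OfNat.ofNat_ne_zero, not_false_eq_true, zero_pow, Real.log_zero, mul_zero,
      sub_zero]
    field_simp
    push_cast
    ring
  · have h1 : HasDerivAt (fun z : ℝ => z ^ 2) (2 * z) z := by
      simpa using hasDerivAt_pow 2 z
    have h2 := h1.log (pow_ne_zero 2 hz)
    refine (h1.mul h2).congr_deriv ?_
    field_simp

theorem exk_abs_mul_log_le (z : ℝ) : |z * Real.log (|z|)| ≤ 1 + z ^ 2 := by
  rcases eq_or_ne z 0 with rfl | hz
  · simp
  have hw : 0 < |z| := abs_pos.mpr hz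
  rw [abs_mul, ← sq_abs z]
  rcases le_total |z| 1 with h | h
  · have := Real.abs_log_mul_self_lt |z| hw h
    rw [abs_mul, abs_abs, mul_comm] at this
    nlinarith [sq_nonneg |z|]
  · have h1 : 0 ≤ Real.log |z| := Real.log_nonneg h
    rw [abs_of_nonneg h1]
    have h2 := Real.log_le_self hw.le
    nlinarith

theorem exk_psi_deriv_le (z : ℝ) : |2 * z * Real.log (z ^ 2) + 2 * z| ≤ 6 * (1 + z ^ 2) := by
  rw [exk_log_sq]
  have h1 := exk_abs_mul_log_le z
  have h2 : |2 * z| ≤ 1 + z ^ 2 := by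
    rw [abs_mul, abs_two]
    nlinarith [sq_nonneg (|z| - 1), sq_abs z]
  have e : 2 * z * (2 * Real.log |z|) + 2 * z = 4 * (z * Real.log |z|) + 2 * z := by ring
  rw [e]
  calc |4 * (z * Real.log (|z|)) + 2 * z| ≤ |4 * (z * Real.log (|z|))| + |2 * z| := abs_add_le _ _
    _ = 4 * |z * Real.log (|z|)| + |2 * z| := by rw [abs_mul]; norm_num
    _ ≤ _ := by nlinarith [sq_nonneg z]

theorem exk_psi_lip {K a b : ℝ} (ha : |a| ≤ K) (hb : |b| ≤ K) :
    |a ^ 2 * Real.log (a ^ 2) - b ^ 2 * Real.log (b ^ 2)| ≤ 6 * (1 + K ^ 2) * |a - b| := by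
  have := Convex.norm_image_sub_le_of_norm_hasDerivWithin_le
    (f := fun z : ℝ => z ^ 2 * Real.log (z ^ 2))
    (f' := fun z => 2 * z * Real.log (z ^ 2) + 2 * z) (s := Set.Icc (-K) K) (x := b) (y := a)
    (C := 6 * (1 + K ^ 2))
    (fun x _ => (exk_psi_hasDerivAt x).hasDerivWithinAt)
    (fun x hx => by
      rw [Real.norm_eq_abs]
      refine (exk_psi_deriv_le x).trans ?_
      have : x ^ 2 ≤ K ^ 2 := sq_le_sq' hx.1 hx.2
      linarith)
    (convex_Icc _ _) (abs_le.mp hb) (abs_le.mp ha)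
  simpa [Real.norm_eq_abs] using this

/-! ### the hard truncation -/

/-- truncation at height `K`. -/
noncomputable def exkClip (K z : ℝ) : ℝ := max (-K) (min K z)

theorem exk_clip_cont (K : ℝ) : Continuous (exkClip K) := by
  unfold exkClip
  fun_prop

theorem exk_clip_abs_le {K : ℝ} (hK : 0 ≤ K) (z : ℝ) : |exkClip K z| ≤ K := by
  unfold exkClip
  rw [abs_le]
  exact ⟨le_max_left _ _, max_le (by linarith) (min_le_left _ _)⟩

theorem exk_clip_lip (K a b : ℝ) : |exkClip K a - exkClip K b| ≤ |a - b| := by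
  have h : LipschitzWith 1 (exkClip K) := (LipschitzWith.id.const_min K).const_max (-K)
  have := h.dist_le_mul a b
  simpa [Real.dist_eq] using this

theorem exk_clip_of_le {K z : ℝ} (h : |z| ≤ K) : exkClip K z = z := by
  unfold exkClip
  rw [abs_le] at h
  rw [min_eq_right h.2, max_eq_right h.1]

theorem exk_clip_sq_of_lt {K z : ℝ} (hK : 0 ≤ K) (h : K < |z|) : exkClip K z ^ 2 = K ^ 2 := by
  unfold exkClip
  rcases lt_abs.mp h with h1 | h1
  · rw [min_eq_left h1.le, max_eq_right (by linarith)]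
  · rw [min_eq_right (by linarith), max_eq_left (by linarith)]
    ring

theorem exk_psi_clip_le {K : ℝ} (hK : 1 ≤ K) (z : ℝ) :
    exkClip K z ^ 2 * Real.log (exkClip K z ^ 2) ≤ z ^ 2 * Real.log (z ^ 2) := by
  rcases le_or_gt |z| K with h | h
  · rw [exk_clip_of_le h]
  · rw [exk_clip_sq_of_lt (by linarith) h]
    have h1 : K ^ 2 ≤ z ^ 2 := by
      rw [← sq_abs z]
      exact pow_le_pow_left₀ (by linarith) h.le 2
    have h2 : 1 ≤ K ^ 2 := one_le_pow₀ hK
    have h3 : 0 ≤ Real.log (K ^ 2) := Real.log_nonneg h2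
    have h4 : Real.log (K ^ 2) ≤ Real.log (z ^ 2) := Real.log_le_log (by linarith) h1
    nlinarith

theorem exk_psi_le_clip {K : ℝ} (hK : 1 ≤ K) (z : ℝ) :
    z ^ 2 * Real.log (z ^ 2) ≤ exkClip K z ^ 2 * Real.log (exkClip K z ^ 2)
      + if K < |z| then z ^ 2 * Real.log (z ^ 2) else 0 := by
  split_ifs with h
  · rw [exk_clip_sq_of_lt (by linarith) h]
    have h2 : 1 ≤ K ^ 2 := one_le_pow₀ hK
    have h3 : 0 ≤ Real.log (K ^ 2) := Real.log_nonneg h2
    have : 0 ≤ K ^ 2 * Real.log (K ^ 2) := by positivity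
    linarith
  · rw [exk_clip_of_le (not_lt.mp h), add_zero]

/-! ### `φ x = x² log x² - x² + 1` -/

theorem exk_phi_le_of_one_le {x : ℝ} (hx : 1 ≤ x) :
    x ^ 2 * Real.log (x ^ 2) - x ^ 2 + 1 ≤ (x - 1) ^ 2 * (2 + 2 * Real.log x) := by
  have hx0 : 0 < x := by linarith
  have hL : Real.log x * (2 * x) ≤ x ^ 2 - 1 := by
    have h1 := Real.self_le_sinh_iff.mpr (Real.log_nonneg hx)
    rw [Real.sinh_log hx0] at h1
    have h2 := mul_le_mul_of_nonneg_right h1 (by linarith : 0 ≤ 2 * x)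
    have e : (x - x⁻¹) / 2 * (2 * x) = x ^ 2 - 1 := by
      field_simp
    linarith
  rw [Real.log_pow]
  push_cast
  have key : 0 ≤ x * ((x - 1) ^ 2 * (2 + 2 * Real.log x)
      - (x ^ 2 * (2 * Real.log x) - x ^ 2 + 1)) := by
    have e : x * ((x - 1) ^ 2 * (2 + 2 * Real.log x) - (x ^ 2 * (2 * Real.log x) - x ^ 2 + 1))
        = x * (x - 1) * (3 * x - 1) - (2 * x - 1) * (Real.log x * (2 * x)) := by ring
    rw [e]
    have h3 := mul_le_mul_of_nonneg_left hL (by linarith : 0 ≤ 2 * x - 1)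
    have h4 : 0 ≤ (x - 1) ^ 3 := by
      have : 0 ≤ x - 1 := by linarith
      positivity
    nlinarith
  have := nonneg_of_mul_nonneg_right key hx0
  linarith

theorem exk_phi_le_of_le_one {x : ℝ} (hx0 : 0 < x) (hx : x ≤ 1) :
    x ^ 2 * Real.log (x ^ 2) - x ^ 2 + 1 ≤ 2 * (x - 1) ^ 2 := by
  have hL : Real.log x * (1 + x) ≤ 2 * (x - 1) := by
    have ht : 0 ≤ x⁻¹ - 1 := by
      have := (one_le_inv₀ hx0).mpr hx
      linarith
    have h1 := Real.le_log_one_add_of_nonneg ht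
    have e1 : 1 + (x⁻¹ - 1) = x⁻¹ := by ring
    rw [e1, Real.log_inv] at h1
    have e2 : 2 * (x⁻¹ - 1) / (x⁻¹ - 1 + 2) = 2 * (1 - x) / (1 + x) := by
      rw [div_eq_div_iff (by linarith) (by linarith)]
      field_simp
      ring
    rw [e2, div_le_iff₀ (by linarith)] at h1
    linarith
  rw [Real.log_pow]
  push_cast
  have key : 0 ≤ (1 + x) * (2 * (x - 1) ^ 2 - (x ^ 2 * (2 * Real.log x) - x ^ 2 + 1)) := by
    have e : (1 + x) * (2 * (x - 1) ^ 2 - (x ^ 2 * (2 * Real.log x) - x ^ 2 + 1))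
        = (1 + x) * (x - 1) * (3 * x - 1) - 2 * x ^ 2 * (Real.log x * (1 + x)) := by ring
    rw [e]
    have h3 := mul_le_mul_of_nonneg_left hL (by positivity : 0 ≤ 2 * x ^ 2)
    have h4 : 0 ≤ (1 - x) ^ 3 := by
      have : 0 ≤ 1 - x := by linarith
      positivity
    nlinarith
  have := nonneg_of_mul_nonneg_right key (by linarith : 0 < 1 + x)
  linarith

theorem exk_phi_le_of_pos {x : ℝ} (hx0 : 0 < x) :
    x ^ 2 * Real.log (x ^ 2) - x ^ 2 + 1 ≤ (x - 1) ^ 2 * (2 + 2 * Real.log (1 + |x - 1|)) := by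
  rcases le_total 1 x with h | h
  · have := exk_phi_le_of_one_le h
    rwa [abs_of_nonneg (by linarith), add_sub_cancel]
  · have h1 := exk_phi_le_of_le_one hx0 h
    have h2 : 0 ≤ Real.log (1 + |x - 1|) := Real.log_nonneg (by linarith [abs_nonneg (x - 1)])
    nlinarith [mul_nonneg (sq_nonneg (x - 1)) h2]

theorem exk_phi_le (x : ℝ) :
    x ^ 2 * Real.log (x ^ 2) - x ^ 2 + 1 ≤ (x - 1) ^ 2 * (2 + 2 * Real.log (1 + |x - 1|)) := by
  rcases lt_trichotomy x 0 with h | rfl | h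
  · have h1 := exk_phi_le_of_pos (neg_pos.mpr h)
    rw [neg_sq] at h1
    refine h1.trans ?_
    have h2 : |-x - 1| ≤ |x - 1| := by
      rw [abs_le, abs_of_neg (by linarith : x - 1 < 0)]
      constructor <;> linarith
    have h3 : (-x - 1) ^ 2 ≤ (x - 1) ^ 2 := by nlinarith
    have h4 : Real.log (1 + |-x - 1|) ≤ Real.log (1 + |x - 1|) :=
      Real.log_le_log (by linarith [abs_nonneg (-x - 1)]) (by linarith)
    have h5 : 0 ≤ Real.log (1 + |-x - 1|) := Real.log_nonneg (by linarith [abs_nonneg (-x - 1)])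
    calc (-x - 1) ^ 2 * (2 + 2 * Real.log (1 + |-x - 1|))
        ≤ (x - 1) ^ 2 * (2 + 2 * Real.log (1 + |-x - 1|)) :=
          mul_le_mul_of_nonneg_right h3 (by linarith)
      _ ≤ _ := mul_le_mul_of_nonneg_left (by linarith) (sq_nonneg _)
  · have : 0 ≤ Real.log 2 := Real.log_nonneg (by norm_num)
    norm_num
    linarith
  · exact exk_phi_le_of_pos h

/-- the scalar inequality of the small energy regime. -/
theorem exk_scalar_van {c ε θ K : ℝ} (hc : 0 < c) (hε : 0 < ε) (hθ : ε ≤ θ * c) (hθ1 : θ ≤ 1)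
    (hK : 1 < K) (z : ℝ) :
    (c + ε * z) ^ 2 * Real.log ((c + ε * z) ^ 2) ≤
      (c + ε * z) ^ 2 * Real.log (c ^ 2) + (c + ε * z) ^ 2 - c ^ 2
        + ε ^ 2 * ((2 + 2 * θ * K) * z ^ 2
          + if K < |z| then (1 + Real.log 2 / Real.log K) * (z ^ 2 * Real.log (z ^ 2)) else 0) := by
  have hθ0 : 0 < θ := by
    by_contra hcon
    have : θ * c ≤ 0 := mul_nonpos_of_nonpos_of_nonneg (not_lt.mp hcon) hc.le
    linarith
  set x : ℝ := (c + ε * z) / c with hx
  have hxc : c + ε * z = c * x := by rw [hx]; field_simp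
  have hx1 : x - 1 = ε / c * z := by rw [hx]; field_simp; ring
  -- the identity
  have hid : (c + ε * z) ^ 2 * Real.log ((c + ε * z) ^ 2) =
      (c + ε * z) ^ 2 * Real.log (c ^ 2) + (c + ε * z) ^ 2 - c ^ 2
        + c ^ 2 * (x ^ 2 * Real.log (x ^ 2) - x ^ 2 + 1) := by
    rw [hxc]
    rcases eq_or_ne x 0 with h0 | h0
    · rw [h0]; simp
    · rw [mul_pow, Real.log_mul (by positivity) (by positivity)]
      ring
  rw [hid]
  have hphi := exk_phi_le x
  rw [hx1] at hphi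
  have hq : 0 < ε / c := by positivity
  have hq1 : ε / c ≤ θ := by rwa [div_le_iff₀ hc]
  have habs : |ε / c * z| = ε / c * |z| := by rw [abs_mul, abs_of_pos hq]
  rw [habs] at hphi
  have e1 : c ^ 2 * ((ε / c * z) ^ 2 * (2 + 2 * Real.log (1 + ε / c * |z|)))
      = ε ^ 2 * (z ^ 2 * (2 + 2 * Real.log (1 + ε / c * |z|))) := by
    field_simp
  have h1 := mul_le_mul_of_nonneg_left hphi (by positivity : 0 ≤ c ^ 2)
  rw [e1] at h1
  have hz0 := abs_nonneg z
  have hlog : Real.log (1 + ε / c * |z|) ≤ Real.log (1 + θ * |z|) :=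
    Real.log_le_log (by positivity) (by nlinarith)
  have key : z ^ 2 * (2 + 2 * Real.log (1 + ε / c * |z|)) ≤ (2 + 2 * θ * K) * z ^ 2
      + if K < |z| then (1 + Real.log 2 / Real.log K) * (z ^ 2 * Real.log (z ^ 2)) else 0 := by
    split_ifs with h
    · have hz1 : 1 < |z| := hK.trans h
      have hlK : 0 < Real.log K := Real.log_pos hK
      have hlz : Real.log K ≤ Real.log |z| := Real.log_le_log (by linarith) h.le
      have h2 : Real.log (1 + θ * |z|) ≤ Real.log 2 + Real.log |z| := by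
        rw [← Real.log_mul (by norm_num) (by linarith)]
        exact Real.log_le_log (by positivity) (by nlinarith)
      rw [exk_log_sq]
      have hl2 : 0 ≤ Real.log 2 := Real.log_nonneg (by norm_num)
      have h3 : Real.log 2 ≤ Real.log 2 / Real.log K * Real.log |z| := by
        rw [div_mul_eq_mul_div, le_div_iff₀ hlK]
        exact mul_le_mul_of_nonneg_left hlz hl2
      have h4 : 0 ≤ 2 * θ * K * z ^ 2 := by positivity
      have h5 : 2 + 2 * Real.log (1 + ε / c * |z|) ≤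
          2 + 2 * (Real.log 2 / Real.log K * Real.log |z|) + 2 * Real.log |z| := by linarith
      have h6 := mul_le_mul_of_nonneg_left h5 (sq_nonneg z)
      nlinarith
    · have hzK : |z| ≤ K := not_lt.mp h
      have h2 : Real.log (1 + θ * |z|) ≤ θ * K := by
        have := Real.log_le_sub_one_of_pos (by positivity : 0 < 1 + θ * |z|)
        have h3 : θ * |z| ≤ θ * K := mul_le_mul_of_nonneg_left hzK hθ0.le
        linarith
      have h5 : 2 + 2 * Real.log (1 + ε / c * |z|) ≤ 2 + 2 * θ * K := by linarith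
      have h6 := mul_le_mul_of_nonneg_left h5 (sq_nonneg z)
      linarith
  have h2 := mul_le_mul_of_nonneg_left key (by positivity : 0 ≤ ε ^ 2)
  linarith

end Claimed.Agent.R259
end

/- ===== packed: Claimed.Agent.R259.TgLim ===== -/
section
/-
Row 259, kit TG, part 4: continuity of `(a, B) ↦ ∫ a • B` on `L² × L²` (function level).
Owner: helper83.
-/
set_option autoImplicit false

open MeasureTheory Filter Topology
open scoped ContDiff ENNReal

namespace Claimed.Agent.R259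

variable {α : Type} [MeasurableSpace α] {m : Measure α}
variable {F : Type} [NormedAddCommGroup F] [NormedSpace ℝ F]

theorem tg_integrable_smul {a : α → ℝ} {B : α → F} (ha : MemLp a 2 m) (hB : MemLp B 2 m) :
    Integrable (fun x => a x • B x) m :=
  memLp_one_iff_integrable.1 (hB.smul ha)

theorem tg_tendsto_smul {a : ℕ → α → ℝ} {a' : α → ℝ} {B : ℕ → α → F} {B' : α → F}
    (ha : ∀ k, MemLp (a k) 2 m) (ha' : MemLp a' 2 m) (hB : ∀ k, MemLp (B k) 2 m)
    (hB' : MemLp B' 2 m)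
    (h1 : Tendsto (fun k => ∫ x, (a k x - a' x) ^ 2 ∂m) atTop (𝓝 0))
    (h2 : Tendsto (fun k => ∫ x, ‖B k x - B' x‖ ^ 2 ∂m) atTop (𝓝 0)) :
    Tendsto (fun k => ∫ x, a k x • B k x ∂m) atTop (𝓝 (∫ x, a' x • B' x ∂m)) := by
  have hda : ∀ k, MemLp (fun x => a k x - a' x) 2 m := fun k => (ha k).sub ha'
  have hdB : ∀ k, MemLp (fun x => B k x - B' x) 2 m := fun k => (hB k).sub hB'
  have h1' : Tendsto (fun k => eLpNorm (fun x => a k x - a' x) 2 m) atTop (𝓝 0) := by
    rw [← ws_tendsto_sq_iff hda]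
    simpa only [Real.norm_eq_abs, sq_abs] using h1
  have h2' : Tendsto (fun k => eLpNorm (fun x => B k x - B' x) 2 m) atTop (𝓝 0) := by
    rw [← ws_tendsto_sq_iff hdB]
    exact h2
  refine tendsto_integral_of_L1' _ (tg_integrable_smul ha' hB').1
    (Eventually.of_forall fun k => tg_integrable_smul (ha k) (hB k)) ?_
  have hbound : ∀ k, eLpNorm ((fun x => a k x • B k x) - fun x => a' x • B' x) 1 m ≤
      eLpNorm (fun x => a k x - a' x) 2 m * eLpNorm (fun x => B k x - B' x) 2 m +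
        eLpNorm (fun x => a k x - a' x) 2 m * eLpNorm B' 2 m +
        eLpNorm a' 2 m * eLpNorm (fun x => B k x - B' x) 2 m := by
    intro k
    have e : ((fun x => a k x • B k x) - fun x => a' x • B' x) =
        ((fun x => a k x - a' x) • (fun x => B k x - B' x) + (fun x => a k x - a' x) • B') +
          a' • (fun x => B k x - B' x) := by
      funext x
      simp only [Pi.sub_apply, Pi.add_apply, Pi.smul_apply', sub_smul, smul_sub]
      abel
    rw [e]
    refine (eLpNorm_add_le (((hda k).1.smul (hdB k).1).add ((hda k).1.smul hB'.1))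
      (ha'.1.smul (hdB k).1) le_rfl).trans ?_
    refine add_le_add ((eLpNorm_add_le ((hda k).1.smul (hdB k).1) ((hda k).1.smul hB'.1)
      le_rfl).trans (add_le_add ?_ ?_)) ?_
    · exact eLpNorm_smul_le_mul_eLpNorm (hdB k).1 (hda k).1
    · exact eLpNorm_smul_le_mul_eLpNorm hB'.1 (hda k).1
    · exact eLpNorm_smul_le_mul_eLpNorm (hdB k).1 ha'.1
  refine tendsto_of_tendsto_of_tendsto_of_le_of_le tendsto_const_nhds ?_ (fun _ => zero_le) hbound
  have t1 := ENNReal.Tendsto.mul h1' (Or.inr ENNReal.zero_ne_top) h2' (Or.inr ENNReal.zero_ne_top)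
  have t2 := ENNReal.Tendsto.mul_const h1' (Or.inr hB'.2.ne)
  have t3 := ENNReal.Tendsto.const_mul h2' (Or.inr ha'.2.ne)
  simpa using (t1.add t2).add t3

end Claimed.Agent.R259
end

/- ===== packed: Claimed.Agent.R259.TgDv ===== -/
section
/-
Row 259, kit TG, part 1: entropy duality at function level (Donsker-Varadhan) and entropic bounds of means.
Owner: helper83.
-/
set_option autoImplicit false

open MeasureTheory Filter Topology
open scoped ContDiff ENNReal

namespace Claimed.Agent.R259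

theorem tg_young (a b : ℝ) (ha : 0 ≤ a) : a * b ≤ a * Real.log a - a + Real.exp b := by
  rcases ha.eq_or_lt with rfl | ha
  · simp [(Real.exp_pos b).le]
  · have h1 := Real.add_one_le_exp (b - Real.log a)
    have h2 : Real.exp b = a * Real.exp (b - Real.log a) := by
      rw [Real.exp_sub, Real.exp_log ha]; field_simp
    rw [h2]
    nlinarith

variable {α : Type} [MeasurableSpace α] {m : Measure α}

/-- integrability of `G q` when `q log q`, `exp G` and `exp (-G)` are integrable. -/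
theorem tg_dv_int {q G : α → ℝ} (hq : ∀ x, 0 ≤ q x) (hq1 : Integrable q m)
    (hqi : Integrable (fun x => q x * Real.log (q x)) m)
    (hG : Integrable (fun x => Real.exp (G x)) m) (hG' : Integrable (fun x => Real.exp (-G x)) m)
    (hGm : AEStronglyMeasurable G m) : Integrable (fun x => G x * q x) m := by
  refine Integrable.mono' (((hqi.sub hq1).add hG).add hG') (hGm.mul hq1.1)
    (Eventually.of_forall fun x => ?_)
  rw [Real.norm_eq_abs, abs_mul, abs_of_nonneg (hq x)]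
  have e1 := Real.exp_pos (G x)
  have e2 := Real.exp_pos (-G x)
  rcases abs_cases (G x) with ⟨h, _⟩ | ⟨h, _⟩
  · rw [h]
    have := tg_young (q x) (G x) (hq x)
    simp only [Pi.add_apply, Pi.sub_apply]
    linarith
  · rw [h]
    have := tg_young (q x) (-G x) (hq x)
    simp only [Pi.add_apply, Pi.sub_apply]
    linarith

/-- Entropy inequality (Donsker-Varadhan, function level). -/
theorem tg_dv [IsProbabilityMeasure m] {q G : α → ℝ} (hq : ∀ x, 0 ≤ q x) (hq1 : ∫ x, q x ∂m = 1)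
    (hqi : Integrable (fun x => q x * Real.log (q x)) m)
    (hG : Integrable (fun x => Real.exp (G x)) m) (hGq : Integrable (fun x => G x * q x) m) :
    ∫ x, G x * q x ∂m ≤ ∫ x, q x * Real.log (q x) ∂m + Real.log (∫ x, Real.exp (G x) ∂m) := by
  have hqI : Integrable q m := by
    by_contra hc
    rw [integral_undef hc] at hq1
    exact zero_ne_one hq1
  set Z := ∫ x, Real.exp (G x) ∂m with hZ
  have hZpos : 0 < Z := integral_exp_pos hG
  have hpt : ∀ x, G x * q x - Real.log Z * q x ≤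
      q x * Real.log (q x) - q x + Z⁻¹ * Real.exp (G x) := by
    intro x
    have := tg_young (q x) (G x - Real.log Z) (hq x)
    rw [Real.exp_sub, Real.exp_log hZpos] at this
    have e : Real.exp (G x) / Z = Z⁻¹ * Real.exp (G x) := by field_simp
    rw [e] at this
    linarith
  have hI := integral_mono (hGq.sub (hqI.const_mul (Real.log Z)))
    ((hqi.sub hqI).add (hG.const_mul Z⁻¹)) hpt
  rw [integral_sub' hGq (hqI.const_mul _), integral_add' (hqi.sub hqI) (hG.const_mul _),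
    integral_sub' hqi hqI, integral_const_mul, integral_const_mul, hq1, ← hZ,
    inv_mul_cancel₀ hZpos.ne'] at hI
  linarith

theorem tg_quad {x D c : ℝ} (hc : 0 < c) (h : ∀ t : ℝ, t * x ≤ D + c * t ^ 2) :
    x ^ 2 ≤ 4 * c * D := by
  have := h (x / (2 * c))
  have e1 : x / (2 * c) * x = x ^ 2 / (2 * c) := by ring
  have e2 : c * (x / (2 * c)) ^ 2 = x ^ 2 / (4 * c) := by field_simp; ring
  rw [e1, e2] at this
  have e3 : x ^ 2 / (2 * c) - x ^ 2 / (4 * c) = x ^ 2 / (4 * c) := by field_simp; ring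
  have h4 : x ^ 2 / (4 * c) ≤ D := by linarith
  rw [div_le_iff₀ (by positivity)] at h4
  linarith

/-- Entropic bound of the mean of a subgaussian statistic. -/
theorem tg_entropic_mean [IsProbabilityMeasure m] {F : Type} [NormedAddCommGroup F]
    [InnerProductSpace ℝ F] [FiniteDimensional ℝ F] {q : α → ℝ} {T : α → F} {c : ℝ} (hc : 0 < c)
    (hq : ∀ x, 0 ≤ q x) (hq1 : ∫ x, q x ∂m = 1)
    (hqi : Integrable (fun x => q x * Real.log (q x)) m) (hTm : AEStronglyMeasurable T m)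
    (hT : ∀ v : F, Integrable (fun x => Real.exp (inner ℝ v (T x))) m)
    (hT' : ∀ v : F, ∫ x, Real.exp (inner ℝ v (T x)) ∂m ≤ Real.exp (c * ‖v‖ ^ 2)) :
    Integrable (fun x => q x • T x) m ∧
      ‖∫ x, q x • T x ∂m‖ ^ 2 ≤ 4 * c * ∫ x, q x * Real.log (q x) ∂m := by
  have hqI : Integrable q m := by
    by_contra hc
    rw [integral_undef hc] at hq1
    exact zero_ne_one hq1
  have hlin : ∀ v : F, Integrable (fun x => inner ℝ v (T x) * q x) m := by
    intro v
    refine tg_dv_int hq hqI hqi (hT v) ?_ (by fun_prop)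
    have := hT (-v)
    simpa only [inner_neg_left] using this
  have hint : Integrable (fun x => q x • T x) m := by
    set b := stdOrthonormalBasis ℝ F
    have hsum : Integrable (fun x => ∑ i, |inner ℝ (b i) (T x) * q x|) m :=
      integrable_finsetSum _ fun i _ => (hlin (b i)).abs
    refine hsum.mono' (hqI.1.smul hTm) (Eventually.of_forall fun x => ?_)
    rw [norm_smul, Real.norm_of_nonneg (hq x)]
    have h1 : ‖T x‖ ≤ ∑ i, |inner ℝ (b i) (T x)| := by
      conv_lhs => rw [← b.sum_repr' (T x)]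
      refine (norm_sum_le _ _).trans (Finset.sum_le_sum fun i _ => ?_)
      rw [norm_smul, b.orthonormal.1 i, mul_one, Real.norm_eq_abs]
    calc q x * ‖T x‖ ≤ q x * ∑ i, |inner ℝ (b i) (T x)| := mul_le_mul_of_nonneg_left h1 (hq x)
      _ = ∑ i, |inner ℝ (b i) (T x) * q x| := by
          rw [Finset.mul_sum]
          refine Finset.sum_congr rfl fun i _ => ?_
          rw [abs_mul, abs_of_nonneg (hq x)]; ring
  refine ⟨hint, ?_⟩
  set P := ∫ x, q x • T x ∂m with hP
  set D := ∫ x, q x * Real.log (q x) ∂m with hD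
  have hkey : ∀ v : F, inner ℝ v P ≤ D + c * ‖v‖ ^ 2 := by
    intro v
    have h1 := tg_dv hq hq1 hqi (hT v) (hlin v)
    have h2 : ∫ x, inner ℝ v (T x) * q x ∂m = inner ℝ v P := by
      rw [hP, ← integral_inner hint]
      refine integral_congr_ae (Eventually.of_forall fun x => ?_)
      simp only [inner_smul_right]; ring
    rw [h2] at h1
    have h3 : Real.log (∫ x, Real.exp (inner ℝ v (T x)) ∂m) ≤ c * ‖v‖ ^ 2 := by
      rw [← Real.log_exp (c * ‖v‖ ^ 2)]
      exact Real.log_le_log (integral_exp_pos (hT v)) (hT' v)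
    linarith
  have hD0 : 0 ≤ D := by simpa using hkey 0
  rcases eq_or_ne P 0 with h0 | h0
  · rw [h0]; simp; positivity
  have hPpos : 0 < ‖P‖ ^ 2 := by positivity
  have hq4 := tg_quad (x := ‖P‖ ^ 2) (D := D) (c := c * ‖P‖ ^ 2) (by positivity) (fun t => by
    have := hkey (t • P)
    rw [inner_smul_left, real_inner_self_eq_norm_sq, norm_smul, mul_pow, Real.norm_eq_abs,
      sq_abs] at this
    simp only [conj_trivial] at this
    linarith)
  have : ‖P‖ ^ 2 * ‖P‖ ^ 2 ≤ (4 * c * D) * ‖P‖ ^ 2 := by nlinarith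
  exact le_of_mul_le_mul_right this hPpos

end Claimed.Agent.R259
end

/- ===== packed: Claimed.Agent.R259.TgNum ===== -/
section
/-
Row 259, kit TG, part 7: the numerical core of Lemma 3.6.
Owner: helper83.
-/
set_option autoImplicit false

namespace Claimed.Agent.R259

theorem tg_inner_young {V : Type} [NormedAddCommGroup V] [InnerProductSpace ℝ V] (B p : V) {a : ℝ}
    (ha : 0 < a) : |inner ℝ B p| ≤ (‖B‖ ^ 2 / a + a * ‖p‖ ^ 2) / 2 := by
  have h1 := abs_real_inner_le_norm B p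
  have h2 : 0 ≤ (‖B‖ - a * ‖p‖) ^ 2 / a := by positivity
  have e : (‖B‖ - a * ‖p‖) ^ 2 / a = ‖B‖ ^ 2 / a - 2 * (‖B‖ * ‖p‖) + a * ‖p‖ ^ 2 := by
    field_simp
    ring
  linarith

/-- the constant of Lemma 3.6 in terms of the two entropic constants. -/
noncomputable def tgC (c₁ c₂ : ℝ) : ℝ :=
  4 + 64 * (c₁ + c₂) + 11 * (c₂ * (1 + 4 * (c₁ + c₂)) + c₁) +
    8 * (2 * c₁ + c₂ + c₂ * (1 + 4 * (c₁ + c₂)))

theorem tg_num_real {c₁ c₂ a r s lam G D₀ D₁ Δ X β₀ β₁ F₁ : ℝ} (hc₁ : 0 < c₁) (hc₂ : 0 < c₂)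
    (hr0 : 0 < r) (hr1 : r ≤ 1) (hra : r ^ 2 = a) (hs1 : 1 / 8 ≤ s) (hs2 : s ≤ 3 / 8)
    (hl1 : 4 / 5 ≤ lam) (hl2 : lam ≤ 4 / 3) (hG : 0 ≤ G) (hD₀ : 0 ≤ D₀) (hX : 0 ≤ X)
    (hβ0 : |β₀| ≤ a * (c₁ + c₂) * D₀ / 2) (hβ1 : |β₁| ≤ a * (c₂ * D₁ + c₁ * D₀) / 2)
    (hup : D₁ ≤ D₀ - X / s + X / (2 * s) + β₀ / s)
    (hlo : D₀ - X / s + X / (2 * s) + β₁ / s ≤ D₁)
    (hΔ : Δ ≤ β₀ - β₁)
    (hF1 : F₁ ≤ 4 * G - 2 / s * (s⁻¹ * (X - β₀)) + 2 / s * (r * G + r⁻¹ * Δ) + X / s ^ 2)
    (hLSI : 2 * lam * D₁ ≤ F₁) :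
    (s⁻¹ ^ 2 - lam / s) * X - tgC c₁ c₂ * r * (4 * G + D₀) ≤ 4 * G - 2 * lam * D₀ := by
  have hs : 0 < s := by linarith
  set t := s⁻¹ with ht
  have ht1 : 8 / 3 ≤ t := by
    rw [ht, le_inv_comm₀ (by norm_num) hs]; norm_num; linarith
  have ht2 : t ≤ 8 := by
    rw [ht, inv_le_comm₀ hs (by norm_num)]; norm_num; linarith
  have ht0 : 0 < t := by linarith
  have ha0 : 0 < a := by rw [← hra]; positivity
  have ha1 : a ≤ 1 := by rw [← hra]; nlinarith only [hr0, hr1]
  have har : a ≤ r := by rw [← hra]; nlinarith only [hr0, hr1]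
  -- rewrite divisions through `t`
  have e1 : X / s = t * X := by rw [ht]; field_simp
  have e2 : X / (2 * s) = t * X / 2 := by rw [ht]; field_simp
  have e3 : β₀ / s = t * β₀ := by rw [ht]; field_simp
  have e4 : β₁ / s = t * β₁ := by rw [ht]; field_simp
  have e5 : 2 / s = 2 * t := by rw [ht]; field_simp
  have e6 : X / s ^ 2 = t ^ 2 * X := by rw [ht]; field_simp
  have e7 : lam / s = lam * t := by rw [ht]; field_simp
  rw [e1, e2, e3] at hup
  rw [e1, e2, e4] at hlo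
  rw [e5, e6] at hF1
  rw [e7]
  set c₃ := 1 + 4 * (c₁ + c₂) with hc₃
  have hb0 := abs_le.mp hβ0
  have hb1 := abs_le.mp hβ1
  have hcD : 0 ≤ (c₁ + c₂) * D₀ := by positivity
  -- D₁ ≤ c₃ D₀
  have hD1 : D₁ ≤ c₃ * D₀ := by
    have h1 : t * β₀ ≤ 8 * (a * (c₁ + c₂) * D₀ / 2) := by
      have h0 : 0 ≤ a * (c₁ + c₂) * D₀ / 2 := by positivity
      calc t * β₀ ≤ t * (a * (c₁ + c₂) * D₀ / 2) := mul_le_mul_of_nonneg_left hb0.2 ht0.le
        _ ≤ 8 * (a * (c₁ + c₂) * D₀ / 2) := mul_le_mul_of_nonneg_right ht2 h0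
    have h2 : a * ((c₁ + c₂) * D₀) ≤ 1 * ((c₁ + c₂) * D₀) := mul_le_mul_of_nonneg_right ha1 hcD
    have h3 : 0 ≤ t * X := by positivity
    rw [hc₃]
    linarith only [h1, h2, h3, hup]
  have hB1' : |β₁| ≤ a * ((c₂ * c₃ + c₁) * D₀) / 2 := by
    refine hβ1.trans ?_
    have : c₂ * D₁ ≤ c₂ * (c₃ * D₀) := mul_le_mul_of_nonneg_left hD1 hc₂.le
    have h2 : a * (c₂ * D₁ + c₁ * D₀) ≤ a * ((c₂ * c₃ + c₁) * D₀) :=
      mul_le_mul_of_nonneg_left (by linarith only [this]) ha0.le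
    linarith only [h2]
  have hb1' := abs_le.mp hB1'
  have hc3pos : 0 < c₃ := by rw [hc₃]; positivity
  have hK1 : 0 ≤ (c₂ * c₃ + c₁) * D₀ := by positivity
  -- Δ ≤ a c₄ D₀
  have hΔ' : Δ ≤ a * ((2 * c₁ + c₂ + c₂ * c₃) * D₀ / 2) := by
    linarith only [hb0.2, hb1'.1, hΔ]
  have hrΔ : r⁻¹ * Δ ≤ r * ((2 * c₁ + c₂ + c₂ * c₃) * D₀ / 2) := by
    have h1 : r⁻¹ * Δ ≤ r⁻¹ * (a * ((2 * c₁ + c₂ + c₂ * c₃) * D₀ / 2)) :=
      mul_le_mul_of_nonneg_left hΔ' (by positivity)
    have h2 : r⁻¹ * (a * ((2 * c₁ + c₂ + c₂ * c₃) * D₀ / 2)) =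
        r * ((2 * c₁ + c₂ + c₂ * c₃) * D₀ / 2) := by
      rw [← hra]; field_simp
    linarith only [h1, h2]
  -- combine
  have hmain : (t ^ 2 - lam * t) * X ≤ 4 * G - 2 * lam * D₀ + 2 * t ^ 2 * β₀ - 2 * lam * t * β₁ +
      2 * t * (r * G + r⁻¹ * Δ) := by
    have h1 : 2 * lam * (D₀ - t * X + t * X / 2 + t * β₁) ≤ 2 * lam * D₁ :=
      mul_le_mul_of_nonneg_left hlo (by linarith only [hl1])
    linarith only [h1, hF1, hLSI]
  have hK4 : 0 ≤ (2 * c₁ + c₂ + c₂ * c₃) * D₀ / 2 := by positivity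
  have g1 : 2 * t ^ 2 * β₀ ≤ 64 * (r * ((c₁ + c₂) * D₀)) := by
    have h1 : β₀ ≤ r * ((c₁ + c₂) * D₀) / 2 := by
      have : a * ((c₁ + c₂) * D₀) ≤ r * ((c₁ + c₂) * D₀) := mul_le_mul_of_nonneg_right har hcD
      linarith only [hb0.2, this]
    have h0 : 0 ≤ r * ((c₁ + c₂) * D₀) / 2 := by positivity
    have ht64 : 2 * t ^ 2 ≤ 128 := by nlinarith only [ht0, ht2]
    calc 2 * t ^ 2 * β₀ ≤ 2 * t ^ 2 * (r * ((c₁ + c₂) * D₀) / 2) :=
          mul_le_mul_of_nonneg_left h1 (by positivity)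
      _ ≤ 128 * (r * ((c₁ + c₂) * D₀) / 2) := mul_le_mul_of_nonneg_right ht64 h0
      _ = 64 * (r * ((c₁ + c₂) * D₀)) := by ring
  have g2 : - (2 * lam * t * β₁) ≤ 11 * (r * ((c₂ * c₃ + c₁) * D₀)) := by
    have h1 : -β₁ ≤ r * ((c₂ * c₃ + c₁) * D₀) / 2 := by
      have : a * ((c₂ * c₃ + c₁) * D₀) ≤ r * ((c₂ * c₃ + c₁) * D₀) :=
        mul_le_mul_of_nonneg_right har hK1
      linarith only [hb1'.1, this]
    have h0 : 0 ≤ r * ((c₂ * c₃ + c₁) * D₀) / 2 := by positivity
    have hlt : 2 * lam * t ≤ 22 := by nlinarith only [ht0, ht2, hl1, hl2]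
    have hlt0 : 0 ≤ 2 * lam * t := by positivity
    calc - (2 * lam * t * β₁) = 2 * lam * t * (-β₁) := by ring
      _ ≤ 2 * lam * t * (r * ((c₂ * c₃ + c₁) * D₀) / 2) := mul_le_mul_of_nonneg_left h1 hlt0
      _ ≤ 22 * (r * ((c₂ * c₃ + c₁) * D₀) / 2) := mul_le_mul_of_nonneg_right hlt h0
      _ = 11 * (r * ((c₂ * c₃ + c₁) * D₀)) := by ring
  have g3 : 2 * t * (r * G + r⁻¹ * Δ) ≤ 16 * (r * G + r * ((2 * c₁ + c₂ + c₂ * c₃) * D₀ / 2)) := by
    have h0 : 0 ≤ r * G + r * ((2 * c₁ + c₂ + c₂ * c₃) * D₀ / 2) := by positivity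
    calc 2 * t * (r * G + r⁻¹ * Δ) ≤ 2 * t * (r * G + r * ((2 * c₁ + c₂ + c₂ * c₃) * D₀ / 2)) :=
          mul_le_mul_of_nonneg_left (by linarith only [hrΔ]) (by positivity)
      _ ≤ 16 * (r * G + r * ((2 * c₁ + c₂ + c₂ * c₃) * D₀ / 2)) :=
          mul_le_mul_of_nonneg_right (by linarith only [ht2]) h0
  have hfin : 64 * (r * ((c₁ + c₂) * D₀)) + 11 * (r * ((c₂ * c₃ + c₁) * D₀)) +
      16 * (r * G + r * ((2 * c₁ + c₂ + c₂ * c₃) * D₀ / 2)) ≤ tgC c₁ c₂ * r * (4 * G + D₀) := by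
    have hrG : 0 ≤ r * G := by positivity
    have hrD : 0 ≤ r * D₀ := by positivity
    have hpos : 0 ≤ 64 * (c₁ + c₂) + 11 * (c₂ * c₃ + c₁) + 8 * (2 * c₁ + c₂ + c₂ * c₃) := by
      positivity
    have e : tgC c₁ c₂ = 4 + (64 * (c₁ + c₂) + 11 * (c₂ * c₃ + c₁) +
        8 * (2 * c₁ + c₂ + c₂ * c₃)) := by
      rw [tgC, hc₃]; ring
    rw [e]
    have := mul_nonneg hpos hrG
    linarith only [this, hrG, hrD]
  linarith only [hmain, g1, g2, g3, hfin]

theorem tgnum_eqns_cite : True := by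
  have := @tgC.eq_1
  trivial

end Claimed.Agent.R259
end

/- ===== packed: Claimed.Agent.R259.RefCalc ===== -/
section
/-
Row 259, kits REF + GAPF: pointwise calculus shared by the two branches (owner helper203).
Directional derivatives commute, `D(∇u)` is symmetric, Bochner commutation
`∇(A_η u) = A_η(∇u) - D(∇ log η)(∇u)`, `∇(|∇u|²/2) = D(∇u)(∇u)`, change of reference
`A_{hη} g = A_η g - Dg(∇ log h)`, and the passage from the Euler equation to the equation of `w`.
-/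
set_option autoImplicit false
set_option linter.unusedSectionVars false

open MeasureTheory Filter Topology
open scoped ContDiff ENNReal

namespace Claimed.Agent.R259

variable {E : Type} [NormedAddCommGroup E] [InnerProductSpace ℝ E] [FiniteDimensional ℝ E]
  [MeasurableSpace E] [BorelSpace E]
variable {F : Type} [NormedAddCommGroup F] [NormedSpace ℝ F]

/-! ### second derivatives -/

theorem refc_cd2 {g : E → F} (hg : ContDiff ℝ ∞ g) (x : E) : ContDiffAt ℝ 2 g x :=
  (hg.of_le ENat.LEInfty.out).contDiffAt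

theorem refc_fderiv_apply {g : E → F} {x : E} (hg : ContDiffAt ℝ 2 g x) (a b : E) :
    fderiv ℝ (fun y => fderiv ℝ g y a) x b = fderiv ℝ (fderiv ℝ g) x b a := by
  have h1 : DifferentiableAt ℝ (fderiv ℝ g) x :=
    (hg.fderiv_right (m := 1) (by norm_num)).differentiableAt (by norm_num)
  rw [fderiv_clm_apply h1 (differentiableAt_const a)]
  simp

theorem refc_dir_comm {g : E → F} {x : E} (hg : ContDiffAt ℝ 2 g x) (a b : E) :
    fderiv ℝ (fun y => fderiv ℝ g y a) x b = fderiv ℝ (fun y => fderiv ℝ g y b) x a := by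
  rw [refc_fderiv_apply hg, refc_fderiv_apply hg]
  exact (hg.isSymmSndFDerivAt (by simp)) b a

theorem refc_gradient_eq (u : E → ℝ) :
    gradient u = fun y => (InnerProductSpace.toDual ℝ E).symm (fderiv ℝ u y) := rfl

theorem refc_gradient_contDiff {u : E → ℝ} (hu : ContDiff ℝ ∞ u) : ContDiff ℝ ∞ (gradient u) := by
  rw [refc_gradient_eq]
  exact (InnerProductSpace.toDual ℝ E).symm.contDiff.comp (hu.fderiv_right (by simp))

theorem refc_gradient_contDiffAt {u : E → ℝ} {x : E} {n : ℕ} (hu : ContDiffAt ℝ (n + 1) u x) :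
    ContDiffAt ℝ n (gradient u) x := by
  rw [refc_gradient_eq]
  exact (InnerProductSpace.toDual ℝ E).symm.contDiff.contDiffAt.comp x
    (hu.fderiv_right (m := n) (by norm_cast))

theorem refc_inner_fderiv_gradient {u : E → ℝ} {x : E} (hu : ContDiffAt ℝ 2 u x) (a b : E) :
    inner ℝ (fderiv ℝ (gradient u) x a) b = fderiv ℝ (fderiv ℝ u) x a b := by
  have hw : DifferentiableAt ℝ (gradient u) x :=
    (refc_gradient_contDiffAt (n := 1) (by exact_mod_cast hu)).differentiableAt (by norm_num)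
  have h1 : fderiv ℝ (fun y => inner ℝ (gradient u y) b) x a = inner ℝ (fderiv ℝ (gradient u) x a) b := by
    rw [fderiv_inner_apply ℝ hw (differentiableAt_const b)]
    simp
  have h2 : (fun y => inner ℝ (gradient u y) b) = fun y => fderiv ℝ u y b := by
    funext y
    exact inner_gradient_left
  rw [← h1, h2, refc_fderiv_apply hu]

theorem refc_gradient_symm {u : E → ℝ} {x : E} (hu : ContDiffAt ℝ 2 u x) (a b : E) :
    inner ℝ (fderiv ℝ (gradient u) x a) b = inner ℝ a (fderiv ℝ (gradient u) x b) := by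
  rw [refc_inner_fderiv_gradient hu, real_inner_comm, refc_inner_fderiv_gradient hu]
  exact (hu.isSymmSndFDerivAt (by simp)) a b

theorem refc_dir_contDiff {g : E → F} (hg : ContDiff ℝ ∞ g) (a : E) :
    ContDiff ℝ ∞ (fun y => fderiv ℝ g y a) :=
  (hg.fderiv_right (m := ∞) (by simp)).clm_apply contDiff_const

/-! ### Bochner commutation -/

theorem refc_laplacian_dir {u : E → ℝ} (hu : ContDiff ℝ ∞ u) (v x : E) :
    fderiv ℝ (Laplacian.laplacian u) x v = Laplacian.laplacian (fun y => fderiv ℝ u y v) x := by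
  have h2 : ∀ {g : E → ℝ}, ContDiff ℝ ∞ g → ∀ y, ContDiffAt ℝ 2 g y := fun hg y => refc_cd2 hg y
  have hL : Laplacian.laplacian u = fun y => ∑ i, fderiv ℝ (fun z => fderiv ℝ u z
      (stdOrthonormalBasis ℝ E i)) y (stdOrthonormalBasis ℝ E i) :=
    funext fun y => opc_laplacian_eq u (h2 hu y)
  rw [hL, opc_laplacian_eq _ (h2 (refc_dir_contDiff hu v) x), fderiv_fun_sum (fun i _ =>
    ((refc_dir_contDiff (refc_dir_contDiff hu _) _).differentiable (by simp)).differentiableAt),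
    _root_.sum_apply]
  refine Finset.sum_congr rfl fun i _ => ?_
  rw [refc_dir_comm (h2 (refc_dir_contDiff hu _) x)]
  congr 2
  funext y
  exact refc_dir_comm (h2 hu y) _ _

theorem refc_log_contDiff {η : E → ℝ} (hη : ContDiff ℝ ∞ η) (hpos : ∀ x, 0 < η x) :
    ContDiff ℝ ∞ (fun y => Real.log (η y)) := hη.log fun x => (hpos x).ne'

theorem refc_bochner {η u : E → ℝ} (hη : ContDiff ℝ ∞ η) (hpos : ∀ x, 0 < η x)
    (hu : ContDiff ℝ ∞ u) (x : E) :
    gradient (opA η u) x = opA η (gradient u) x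
      - fderiv ℝ (gradient (fun y => Real.log (η y))) x (gradient u x) := by
  have h2 : ∀ {g : E → ℝ}, ContDiff ℝ ∞ g → ∀ y, ContDiffAt ℝ 2 g y := fun hg y => refc_cd2 hg y
  set G : E → E := gradient (fun y => Real.log (η y)) with hG
  have hGs : ContDiff ℝ ∞ G := refc_gradient_contDiff (refc_log_contDiff hη hpos)
  have hlap : ContDiff ℝ ∞ (Laplacian.laplacian u) := by
    have hL : Laplacian.laplacian u = fun y => ∑ i, fderiv ℝ (fun z => fderiv ℝ u z
        (stdOrthonormalBasis ℝ E i)) y (stdOrthonormalBasis ℝ E i) :=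
      funext fun y => opc_laplacian_eq u (h2 hu y)
    rw [hL]
    exact ContDiff.sum fun i _ => refc_dir_contDiff (refc_dir_contDiff hu _) _
  have hDu : ContDiff ℝ ∞ (fderiv ℝ u) := hu.fderiv_right (m := ∞) (by simp)
  refine ext_inner_right ℝ fun v => ?_
  rw [inner_gradient_left, inner_sub_left]
  -- left side
  have e1 : opA η u = fun y => - Laplacian.laplacian u y - fderiv ℝ u y (G y) := rfl
  have d1 : DifferentiableAt ℝ (fun y => - Laplacian.laplacian u y) x :=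
    ((hlap.differentiable (by simp)).differentiableAt).neg
  have d2 : DifferentiableAt ℝ (fderiv ℝ u) x := (hDu.differentiable (by simp)).differentiableAt
  have d3 : DifferentiableAt ℝ G x := (hGs.differentiable (by simp)).differentiableAt
  have d4 : DifferentiableAt ℝ (fun y => fderiv ℝ u y (G y)) x := d2.clm_apply d3
  have l1 : fderiv ℝ (opA η u) x v = - fderiv ℝ (Laplacian.laplacian u) x v
      - (fderiv ℝ (fderiv ℝ u) x v (G x) + fderiv ℝ u x (fderiv ℝ G x v)) := by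
    rw [e1, fderiv_fun_sub d1 d4, fderiv_fun_neg, fderiv_clm_apply d2 d3]
    simp
    ring
  -- right side
  have r1 : inner ℝ (opA η (gradient u) x) v = opA η (fun y => fderiv ℝ u y v) x := by
    have := opc_clm (η := η) (x := x) (innerSL ℝ v)
      (g := gradient u) (refc_cd2 (refc_gradient_contDiff hu) x)
    simp only [innerSL_apply_apply] at this
    rw [real_inner_comm, ← this]
    congr 1
    funext y
    rw [real_inner_comm]
    exact inner_gradient_left
  have r2 : opA η (fun y => fderiv ℝ u y v) x = - Laplacian.laplacian (fun y => fderiv ℝ u y v) x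
      - fderiv ℝ (fderiv ℝ u) x (G x) v := by
    show - Laplacian.laplacian (fun y => fderiv ℝ u y v) x
      - fderiv ℝ (fun y => fderiv ℝ u y v) x (G x) = _
    rw [refc_fderiv_apply (h2 hu x)]
  have r3 : inner ℝ (fderiv ℝ G x (gradient u x)) v = fderiv ℝ u x (fderiv ℝ G x v) := by
    rw [hG, refc_gradient_symm (h2 (refc_log_contDiff hη hpos) x)]
    exact inner_gradient_left
  rw [l1, r1, r2, r3, refc_laplacian_dir hu, (h2 hu x).isSymmSndFDerivAt (by simp) v (G x)]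
  ring

/-! ### gradients of sums, of `|∇u|²/2`; change of reference -/

theorem refc_gradient_add {f g : E → ℝ} {x : E} (hf : DifferentiableAt ℝ f x)
    (hg : DifferentiableAt ℝ g x) :
    gradient (fun y => f y + g y) x = gradient f x + gradient g x := by
  refine ext_inner_right ℝ fun v => ?_
  rw [inner_add_left, inner_gradient_left, inner_gradient_left, inner_gradient_left,
    fderiv_fun_add hf hg]
  rfl

theorem refc_gradient_const_mul (c : ℝ) {f : E → ℝ} {x : E} (hf : DifferentiableAt ℝ f x) :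
    gradient (fun y => c * f y) x = c • gradient f x := by
  refine ext_inner_right ℝ fun v => ?_
  rw [inner_smul_left, inner_gradient_left, inner_gradient_left, fderiv_const_mul hf]
  simp

theorem refc_gradient_neg (f : E → ℝ) (x : E) :
    gradient (fun y => - f y) x = - gradient f x := by
  refine ext_inner_right ℝ fun v => ?_
  rw [inner_neg_left, inner_gradient_left, inner_gradient_left, fderiv_fun_neg]
  rfl

theorem refc_gradient_half_sq {u : E → ℝ} (hu : ContDiff ℝ ∞ u) (x : E) :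
    gradient (fun y => ‖gradient u y‖ ^ 2 / 2) x = fderiv ℝ (gradient u) x (gradient u x) := by
  have hw : DifferentiableAt ℝ (gradient u) x :=
    ((refc_gradient_contDiff hu).differentiable (by simp)).differentiableAt
  refine ext_inner_right ℝ fun v => ?_
  rw [inner_gradient_left, refc_gradient_symm (refc_cd2 hu x)]
  have h1 : HasFDerivAt (fun y => ‖gradient u y‖ ^ 2)
      (2 • (innerSL ℝ (gradient u x)).comp (fderiv ℝ (gradient u) x)) x := hw.hasFDerivAt.norm_sq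
  have h2 := h1.const_mul (1 / 2 : ℝ)
  have e : (fun y => ‖gradient u y‖ ^ 2 / 2) = fun y => (1 / 2 : ℝ) * ‖gradient u y‖ ^ 2 :=
    funext fun y => by ring
  rw [e, h2.fderiv]
  simp

theorem refc_grad_log_mul {h η : E → ℝ} {x : E} (hh : DifferentiableAt ℝ h x) (hh0 : 0 < h x)
    (hh1 : ∀ y, 0 < h y) (hη : DifferentiableAt ℝ η x) (hpos : ∀ y, 0 < η y) :
    gradient (fun y => Real.log (h y * η y)) x =
      gradient (fun y => Real.log (h y)) x + gradient (fun y => Real.log (η y)) x := by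
  have e : (fun y => Real.log (h y * η y)) = fun y => Real.log (h y) + Real.log (η y) :=
    funext fun y => Real.log_mul (hh1 y).ne' (hpos y).ne'
  rw [e]
  exact refc_gradient_add (hh.log hh0.ne') (hη.log (hpos x).ne')

/-- change of reference measure. -/
theorem refc_opA_mul {h η : E → ℝ} {x : E} (hh : DifferentiableAt ℝ h x)
    (hh1 : ∀ y, 0 < h y) (hη : DifferentiableAt ℝ η x) (hpos : ∀ y, 0 < η y) (g : E → F) :
    opA (fun y => h y * η y) g x = opA η g x - fderiv ℝ g x (gradient (fun y => Real.log (h y)) x) := by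
  unfold opA
  rw [refc_grad_log_mul hh (hh1 x) hh1 hη hpos, map_add]
  abel

/-! ### from the Euler equation to the equation of `w = ∇ log f²` -/

theorem refc_log_sq {f : E → ℝ} : (fun y => Real.log (f y ^ 2)) = fun y => 2 * Real.log (f y) :=
  funext fun y => by rw [Real.log_pow]; norm_num

theorem refc_grad_log_sq {f : E → ℝ} {x : E} (hf : DifferentiableAt ℝ f x) (hpos : 0 < f x) :
    gradient (fun y => Real.log (f y ^ 2)) x = (2 / f x) • gradient f x := by
  rw [refc_log_sq, refc_gradient_const_mul 2 (hf.log hpos.ne'),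
    ws_gradient_comp (Real.differentiableAt_log hpos.ne') hf, Real.deriv_log, smul_smul]
  rfl

theorem refc_euler_log {ν f : E → ℝ} {lam : ℝ} (hf : ContDiff ℝ ∞ f) (hpos : ∀ x, 0 < f x)
    (hEul : ∀ x, opA ν f x = lam * (f x * Real.log (f x))) (x : E) :
    opA ν (fun y => Real.log (f y ^ 2)) x = lam * Real.log (f x ^ 2)
      + ‖gradient (fun y => Real.log (f y ^ 2)) x‖ ^ 2 / 2 := by
  have hfx := hpos x
  have hd : DifferentiableAt ℝ f x := (hf.differentiable (by simp)).differentiableAt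
  have h1 := opc_comp (η := ν) (x := x) (Θ := Real.log) (f := f)
    (Real.contDiffAt_log.2 hfx.ne') (refc_cd2 hf x)
  have h2 : deriv (deriv Real.log) (f x) = - ((f x) ^ 2)⁻¹ := by
    rw [Real.deriv_log']
    exact deriv_inv
  rw [Real.deriv_log, h2, hEul] at h1
  have h3 := opc_const_smul (η := ν) (x := x) 2 (f := fun y => Real.log (f y))
    ((refc_cd2 hf x).log hfx.ne')
  simp only [smul_eq_mul] at h3
  rw [refc_grad_log_sq hd hfx, refc_log_sq, h3, h1, norm_smul, mul_pow, Real.norm_eq_abs, sq_abs,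
    Real.log_pow]
  field_simp
  push_cast
  ring

theorem refc_fderiv_grad_neg_log (ν : E → ℝ) (x : E) :
    fderiv ℝ (gradient (fun y => - Real.log (ν y))) x
      = - fderiv ℝ (gradient (fun y => Real.log (ν y))) x := by
  have e : gradient (fun y => - Real.log (ν y)) = fun y => - gradient (fun y => Real.log (ν y)) y :=
    funext fun y => refc_gradient_neg _ y
  rw [e, fderiv_fun_neg]

/-- the equation of `w = ∇ log f²` with respect to `η = f² ν` (strict branch). -/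
theorem refc_eqn_strict {ν f : E → ℝ} {lam : ℝ} (hν : ContDiff ℝ ∞ ν) (hνpos : ∀ x, 0 < ν x)
    (hf : ContDiff ℝ ∞ f) (hpos : ∀ x, 0 < f x)
    (hEul : ∀ x, opA ν f x = lam * (f x * Real.log (f x))) (x : E) :
    opA (fun y => f y ^ 2 * ν y) (gradient (fun y => Real.log (f y ^ 2))) x =
      lam • gradient (fun y => Real.log (f y ^ 2)) x
        - fderiv ℝ (gradient (fun y => - Real.log (ν y))) x
            (gradient (fun y => Real.log (f y ^ 2)) x) := by
  have hf2 : ContDiff ℝ ∞ (fun y => f y ^ 2) := hf.pow 2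
  have hf2pos : ∀ y, 0 < f y ^ 2 := fun y => pow_pos (hpos y) 2
  set u : E → ℝ := fun y => Real.log (f y ^ 2) with hu
  have hus : ContDiff ℝ ∞ u := refc_log_contDiff hf2 hf2pos
  have hws : ContDiff ℝ ∞ (gradient u) := refc_gradient_contDiff hus
  have hΦ : opA ν u = fun y => lam * u y + ‖gradient u y‖ ^ 2 / 2 :=
    funext fun y => refc_euler_log hf hpos hEul y
  have d1 : DifferentiableAt ℝ u x := (hus.differentiable (by simp)).differentiableAt
  have d2 : DifferentiableAt ℝ (fun y => ‖gradient u y‖ ^ 2 / 2) x :=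
    (((hws.norm_sq ℝ).div_const 2).differentiable (by simp)).differentiableAt
  have g1 : gradient (opA ν u) x = lam • gradient u x + fderiv ℝ (gradient u) x (gradient u x) := by
    rw [hΦ, refc_gradient_add (d1.const_mul lam) d2, refc_gradient_const_mul lam d1,
      refc_gradient_half_sq hus]
  have g2 := refc_bochner hν hνpos hus x
  have g3 := refc_opA_mul (h := fun y => f y ^ 2) (η := ν) (x := x)
    (hf2.differentiable (by simp)).differentiableAt hf2pos
    (hν.differentiable (by simp)).differentiableAt hνpos (gradient u)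
  rw [g3, refc_fderiv_grad_neg_log]
  rw [g1] at g2
  have g4 : opA ν (gradient u) x = lam • gradient u x + fderiv ℝ (gradient u) x (gradient u x)
      + fderiv ℝ (gradient (fun y => Real.log (ν y))) x (gradient u x) := by
    rw [g2]; abel
  rw [g4]
  simp only [_root_.neg_apply]
  abel

/-- the equation of `w = ∇ φ` (gap branch). -/
theorem refc_eqn_gap {ν φ : E → ℝ} {lam : ℝ} (hν : ContDiff ℝ ∞ ν) (hνpos : ∀ x, 0 < ν x)
    (hφ : ContDiff ℝ ∞ φ) (hEig : ∀ x, opA ν φ x = lam * φ x) (x : E) :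
    opA ν (gradient φ) x = lam • gradient φ x
        - fderiv ℝ (gradient (fun y => - Real.log (ν y))) x (gradient φ x) := by
  have hΦ : opA ν φ = fun y => lam * φ y := funext hEig
  have d1 : DifferentiableAt ℝ φ x := (hφ.differentiable (by simp)).differentiableAt
  have g2 := refc_bochner hν hνpos hφ x
  rw [hΦ, refc_gradient_const_mul lam d1] at g2
  rw [refc_fderiv_grad_neg_log, g2]
  simp only [_root_.neg_apply]
  abel

end Claimed.Agent.R259
end

/- ===== packed: Claimed.Agent.R259.S4ProbeNum ===== -/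
section
/-
Row 259 (S0499), Lemma 4.1 (efficient Gaussian probes), sub-blueprint of helper220: package L-S4Probe-num (four elementary leaves: real sequences, finite sums in an inner product space; Mathlib only).
PROVED (helper219): statements verbatim, helper lemmas `s4pn_*` (in `s4p_det` the weights are the parabola `κ² j (N-j)`).
EXPORT FILE of a leaf package: the package owner OWNS this file, keeps names and statements (report a false / awkward
statement to helper220 at once), replaces every `sorry`, and may add helper files `S4ProbeNum*.lean`.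
HINTS.
`s4p_sum`: `ρ = 1 + κ(2-α)/(1+α) ≥ 1`, `J_j ≥ ρ J_{j+1} + 56κ/(1+α) Q_{j+1} - 3ακ/(2(1+α)) I`; induction:
  `J_0 ≥ ρ^N J_N + 56κ/(1+α) Σ Q - 3ακ/(2(1+α)) I Σ_{i<N} ρ^i`; `ρ^N ≤ e² < 8`; `1 - (ρ θ²)^N ≤ N (1 - ρ θ²) ≤ κ + 3α`, `θ = (1+κ)⁻¹`.
`s4p_det`: weights `ψ_j = κ min(j, N-j)`; summation by parts `Σ_{j<N} ψ_j ((1+8κ) p_{j+1} - p_j) = Σ_{i=1}^N ((1+8κ) ψ_{i-1} - ψ_i) p_i`,
  coefficients `≤ 5κ`; `om_j = θ^j om_0 + κ Σ_{i≤j} θ^{j-i+1} ze_i`; `a_N = κ Σ ψ_j θ^{j+1} ≥ (3/16) e⁻¹ ≥ 1/16`;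
  `(κ Σ_{i≤N} x_i)² ≤ κ Σ x_i²`.
`s4p_gronwall`: step `Δ = T/n`, `C Δ ≤ 1`: `d_{k+1} ≤ (d_k + Δ e/2)(1 + C Δ)`.
-/
set_option autoImplicit false

open MeasureTheory Filter Topology ProbabilityTheory InformationTheory
open scoped ContDiff ENNReal

namespace Claimed.Agent.R259

variable {E : Type} [NormedAddCommGroup E] [InnerProductSpace ℝ E] [FiniteDimensional ℝ E]
  [MeasurableSpace E] [BorelSpace E]

/-- iteration of `J_j ≥ ρ J_{j+1} + c Q_{j+1} - b` -/
theorem s4pn_iter {N : ℕ} {ρ c b : ℝ} (hρ : 1 ≤ ρ) (hc : 0 ≤ c) (hb : 0 ≤ b) {J Q : ℕ → ℝ}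
    (hQ : ∀ j, 0 ≤ Q j) (hstep : ∀ j < N, ρ * J (j + 1) + c * Q (j + 1) - b ≤ J j) :
    ∀ n ≤ N, ρ ^ n * J n + c * ∑ i ∈ Finset.range n, Q (i + 1) - b * (n * ρ ^ n) ≤ J 0 := by
  intro n
  induction n with
  | zero => intro _; simp
  | succ n ih =>
    intro hn
    have ih' := ih (by omega)
    have h1 := hstep n (by omega)
    have hP : 1 ≤ ρ ^ n := one_le_pow₀ hρ
    have hP0 : 0 ≤ ρ ^ n := by linarith
    have h2 : ρ ^ n * (ρ * J (n + 1) + c * Q (n + 1) - b) ≤ ρ ^ n * J n :=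
      mul_le_mul_of_nonneg_left h1 hP0
    have h3 : c * Q (n + 1) ≤ ρ ^ n * (c * Q (n + 1)) :=
      le_mul_of_one_le_left (mul_nonneg hc (hQ _)) hP
    have h4 : ρ ^ n ≤ ρ ^ (n + 1) := pow_le_pow_right₀ hρ (Nat.le_succ n)
    have h5 : b * (((n : ℝ) + 1) * ρ ^ n) ≤ b * (((n : ℝ) + 1) * ρ ^ (n + 1)) :=
      mul_le_mul_of_nonneg_left (mul_le_mul_of_nonneg_left h4 (by positivity)) hb
    rw [Finset.sum_range_succ]
    push_cast
    have e1 : ρ ^ (n + 1) * J (n + 1) = ρ ^ n * (ρ * J (n + 1)) := by ring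
    rw [e1]
    nlinarith

theorem s4pn_exp_two_le : Real.exp 2 ≤ 8 := by
  have h1 := Real.exp_one_lt_d9
  have h2 : Real.exp 2 = Real.exp 1 * Real.exp 1 := by rw [← Real.exp_add]; norm_num
  have h3 := Real.exp_pos 1
  rw [h2]
  nlinarith

/-- summation of the one-step inequalities. -/
theorem s4p_sum {N : ℕ} (hN : 1 ≤ N) {κ α T δ I d : ℝ} (hκ : κ = 1 / (N : ℝ)) (hα0 : 0 ≤ α)
    (hα1 : α ≤ 1) (hT : 0 ≤ T) (hδ : 0 ≤ δ) (hI : 0 ≤ I) (hd : 0 ≤ d) {J Q : ℕ → ℝ}
    (hJ : ∀ j, 0 ≤ J j) (hQ : ∀ j, 0 ≤ Q j)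
    (hstep : ∀ j < N, κ * ((2 - α) * J (j + 1) + 56 * Q (j + 1) - 3 / 2 * α * I)
      ≤ (1 + α) * (J j - J (j + 1)))
    (h0 : J 0 = T / 2 * I - d)
    (hNl : T / 2 * (((1 + κ)⁻¹) ^ (2 * N) - 2 * (N * κ) * Real.sqrt δ) * I ≤ J N + d) :
    κ * ∑ i ∈ Finset.range N, Q (i + 1)
        ≤ (T / 2 * (κ + 3 * α) + 8 * T * Real.sqrt δ + 12 * α) / 28 * I + d / 4 ∧
      ∀ j ≤ N, J j ≤ T / 2 * I + 3 / 2 * α * I := by
  have hN0 : (0 : ℝ) < N := by exact_mod_cast hN
  have hκ0 : 0 < κ := by rw [hκ]; positivity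
  have hNκ : (N : ℝ) * κ = 1 := by rw [hκ]; field_simp
  have ha1 : 0 < 1 + α := by linarith
  constructor
  · set ρ : ℝ := 1 + κ * (2 - α) / (1 + α) with hρ
    set c : ℝ := 56 * κ / (1 + α) with hc
    set b : ℝ := 3 / 2 * α * κ * I / (1 + α) with hb
    have hρ1 : 1 ≤ ρ := by
      rw [hρ]
      have : 0 ≤ κ * (2 - α) / (1 + α) := div_nonneg (mul_nonneg hκ0.le (by linarith)) ha1.le
      linarith
    have hc0 : 0 ≤ c := by rw [hc]; positivity
    have hb0 : 0 ≤ b := by rw [hb]; positivity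
    have hstep' : ∀ j < N, ρ * J (j + 1) + c * Q (j + 1) - b ≤ J j := by
      intro j hj
      have h1 := hstep j hj
      have e1 : ρ * J (j + 1) + c * Q (j + 1) - b =
          J (j + 1) + κ * ((2 - α) * J (j + 1) + 56 * Q (j + 1) - 3 / 2 * α * I) / (1 + α) := by
        rw [hρ, hc, hb]
        field_simp
        ring
      rw [e1]
      have h2 : κ * ((2 - α) * J (j + 1) + 56 * Q (j + 1) - 3 / 2 * α * I) / (1 + α) ≤
          J j - J (j + 1) := by
        rw [div_le_iff₀ ha1]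
        linarith
      linarith
    have hit := s4pn_iter hρ1 hc0 hb0 hQ hstep' N le_rfl
    set P : ℝ := ρ ^ N with hP
    set S : ℝ := ∑ i ∈ Finset.range N, Q (i + 1) with hS
    have hP1 : 1 ≤ P := one_le_pow₀ hρ1
    have hP8 : P ≤ 8 := by
      have h1 : ρ ≤ 1 + 2 * κ := by
        rw [hρ]
        have : κ * (2 - α) / (1 + α) ≤ 2 * κ := by
          rw [div_le_iff₀ ha1]
          nlinarith
        linarith
      calc P ≤ (1 + 2 * κ) ^ N := pow_le_pow_left₀ (by linarith) h1 N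
        _ ≤ Real.exp (2 * κ) ^ N :=
            pow_le_pow_left₀ (by positivity) (by linarith [Real.add_one_le_exp (2 * κ)]) N
        _ = Real.exp (N * (2 * κ)) := by rw [Real.exp_nat_mul]
        _ = Real.exp 2 := by
            congr 1
            linear_combination 2 * hNκ
        _ ≤ 8 := s4pn_exp_two_le
    set θ : ℝ := (1 + κ)⁻¹ with hθ
    have hθ0 : 0 < θ := by rw [hθ]; positivity
    -- `(ρ θ²)^N ≥ 1 - (κ + 3 α)`
    have hPθ : 1 - (κ + 3 * α) ≤ P * θ ^ (2 * N) := by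
      have e1 : P * θ ^ (2 * N) = (1 + (ρ * θ ^ 2 - 1)) ^ N := by
        rw [hP, pow_mul, ← mul_pow]
        congr 1
        ring
      have h1 : -(κ * (κ + 3 * α)) ≤ ρ * θ ^ 2 - 1 := by
        have e2 : ρ * θ ^ 2 - 1 = (ρ - (1 + κ) ^ 2) / (1 + κ) ^ 2 := by
          rw [hθ]
          field_simp
        rw [e2, le_div_iff₀ (by positivity)]
        have e3 : ρ - (1 + κ) ^ 2 = -(κ * (κ + 3 * α / (1 + α))) := by
          rw [hρ]
          field_simp
          ring
        rw [e3]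
        have h2 : 3 * α / (1 + α) ≤ 3 * α := div_le_self (by positivity) (by linarith)
        have h3 : κ * (κ + 3 * α / (1 + α)) ≤ κ * (κ + 3 * α) :=
          mul_le_mul_of_nonneg_left (by linarith) hκ0.le
        have h4 : κ * (κ + 3 * α) * 1 ≤ κ * (κ + 3 * α) * (1 + κ) ^ 2 := by
          apply mul_le_mul_of_nonneg_left _ (by positivity)
          nlinarith
        linarith
      have h5 : -2 ≤ ρ * θ ^ 2 - 1 := by
        have : 0 ≤ ρ * θ ^ 2 := by positivity
        linarith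
      have h6 := one_add_mul_le_pow h5 N
      rw [e1]
      refine le_trans ?_ h6
      have h7 : (N : ℝ) * -(κ * (κ + 3 * α)) ≤ N * (ρ * θ ^ 2 - 1) :=
        mul_le_mul_of_nonneg_left h1 hN0.le
      have e4 : (N : ℝ) * -(κ * (κ + 3 * α)) = -(κ + 3 * α) := by
        linear_combination (-(κ + 3 * α)) * hNκ
      linarith
    rw [hNκ] at hNl
    set sδ : ℝ := Real.sqrt δ with hsδ
    have hsδ0 : 0 ≤ sδ := Real.sqrt_nonneg _
    -- lower bound for `P J_N`
    have h8 : P * (T / 2 * (θ ^ (2 * N) - 2 * 1 * sδ) * I - d) ≤ P * J N :=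
      mul_le_mul_of_nonneg_left (by linarith) (by linarith)
    have hTI : 0 ≤ T / 2 * I := by positivity
    have h9 : T / 2 * I * (1 - (κ + 3 * α)) ≤ T / 2 * I * (P * θ ^ (2 * N)) :=
      mul_le_mul_of_nonneg_left hPθ hTI
    have h10 : P * (T * sδ * I) ≤ 8 * (T * sδ * I) :=
      mul_le_mul_of_nonneg_right hP8 (by positivity)
    have h11 : P * d ≤ 8 * d := mul_le_mul_of_nonneg_right hP8 hd
    have h12 : b * (N * P) ≤ b * (N * 8) :=
      mul_le_mul_of_nonneg_left (mul_le_mul_of_nonneg_left hP8 hN0.le) hb0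
    have e5 : b * (N * 8) = 12 * α * I / (1 + α) := by
      rw [hb]
      have : 3 / 2 * α * κ * I / (1 + α) * (N * 8) = 12 * α * I / (1 + α) * (N * κ) := by ring
      rw [this, hNκ, mul_one]
    set X : ℝ := T / 2 * I * (κ + 3 * α) + 8 * (T * sδ * I) + 7 * d with hX
    have hX0 : 0 ≤ X := by positivity
    have e8 : P * (T / 2 * (θ ^ (2 * N) - 2 * 1 * sδ) * I - d) =
        T / 2 * I * (P * θ ^ (2 * N)) - P * (T * sδ * I) - P * d := by ring
    have h13 : c * S ≤ X + 12 * α * I / (1 + α) := by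
      rw [hX]
      rw [e8] at h8
      rw [e5] at h12
      linarith
    have h14 : 56 * (κ * S) ≤ (1 + α) * X + 12 * α * I := by
      have e6 : c * S = 56 * (κ * S) / (1 + α) := by rw [hc]; ring
      rw [e6, div_le_iff₀ ha1] at h13
      have e7 : (X + 12 * α * I / (1 + α)) * (1 + α) = (1 + α) * X + 12 * α * I := by
        field_simp
      linarith
    have h15 : (1 + α) * X ≤ 2 * X := mul_le_mul_of_nonneg_right (by linarith) hX0
    have h16 : 0 ≤ α * I := by positivity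
    rw [hX] at h15 h14
    linarith
  · have key : ∀ j ≤ N, J j ≤ J 0 + j * (κ * (3 / 2 * α * I)) := by
      intro j
      induction j with
      | zero => intro _; simp
      | succ j ih =>
        intro hj
        have ih' := ih (by omega)
        have h1 := hstep j (by omega)
        have h2 : 0 ≤ κ * ((2 - α) * J (j + 1) + 56 * Q (j + 1)) := by
          have := hJ (j + 1)
          have := hQ (j + 1)
          have : 0 ≤ (2 - α) * J (j + 1) := mul_nonneg (by linarith) (hJ _)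
          positivity
        have h3 : (1 + α) * (J (j + 1) - J j) ≤ κ * (3 / 2 * α * I) := by nlinarith
        have h4 : 0 ≤ κ * (3 / 2 * α * I) := by positivity
        have h5 : J (j + 1) - J j ≤ κ * (3 / 2 * α * I) := by
          rcases le_total (J (j + 1) - J j) 0 with h | h
          · linarith
          · have : (J (j + 1) - J j) * 1 ≤ (J (j + 1) - J j) * (1 + α) :=
              mul_le_mul_of_nonneg_left (by linarith) h
            linarith
        push_cast
        linarith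
    intro j hj
    have h1 := key j hj
    have hjN : (j : ℝ) ≤ N := by exact_mod_cast hj
    have h2 : (j : ℝ) * κ ≤ 1 := by
      calc (j : ℝ) * κ ≤ N * κ := mul_le_mul_of_nonneg_right hjN hκ0.le
        _ = 1 := hNκ
    have h3 : (j : ℝ) * (κ * (3 / 2 * α * I)) ≤ 3 / 2 * α * I := by
      have : (j : ℝ) * κ * (3 / 2 * α * I) ≤ 1 * (3 / 2 * α * I) :=
        mul_le_mul_of_nonneg_right h2 (by positivity)
      linarith
    rw [h0] at h1
    linarith

theorem s4pn_sum_par (N : ℝ) (n : ℕ) :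
    ∑ j ∈ Finset.range n, (j : ℝ) * (N - j) =
      N * (n * (n - 1) / 2) - (n - 1) * n * (2 * n - 1) / 6 := by
  induction n with
  | zero => simp
  | succ n ih =>
    rw [Finset.sum_range_succ, ih]
    push_cast
    ring

/-- `(κ ∑ x)² ≤ κ ∑ x²` when `κ N = 1` -/
theorem s4pn_cs {N : ℕ} {κ : ℝ} (hNκ : (N : ℝ) * κ = 1) (x : ℕ → ℝ) :
    (κ * ∑ i ∈ Finset.range N, x i) ^ 2 ≤ κ * ∑ i ∈ Finset.range N, x i ^ 2 := by
  have h1 := sq_sum_le_card_mul_sum_sq (s := Finset.range N) (f := x)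
  rw [Finset.card_range] at h1
  have h2 : κ ^ 2 * (∑ i ∈ Finset.range N, x i) ^ 2 ≤
      κ ^ 2 * ((N : ℝ) * ∑ i ∈ Finset.range N, x i ^ 2) :=
    mul_le_mul_of_nonneg_left h1 (by positivity)
  have e1 : κ ^ 2 * ((N : ℝ) * ∑ i ∈ Finset.range N, x i ^ 2) =
      ((N : ℝ) * κ) * (κ * ∑ i ∈ Finset.range N, x i ^ 2) := by ring
  rw [mul_pow]
  rw [e1, hNκ, one_mul] at h2
  exact h2

/-- the error of the second recursion -/
theorem s4pn_err {V : Type} [NormedAddCommGroup V] [InnerProductSpace ℝ V] {N : ℕ} {κ θ : ℝ}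
    (hκ0 : 0 ≤ κ) (hθ : (1 + κ) * θ = 1) (om ze : ℕ → V)
    (h2 : ∀ j < N, (1 + κ) • om (j + 1) - om j = κ • ze (j + 1)) :
    ∀ j ≤ N, ‖om j - θ ^ j • om 0‖ ≤ κ * ∑ i ∈ Finset.range j, ‖ze (i + 1)‖ := by
  intro j
  induction j with
  | zero => intro _; simp
  | succ j ih =>
    intro hj
    have ih' := ih (by omega)
    have h := h2 j (by omega)
    have hθj : (1 + κ) * θ ^ (j + 1) = θ ^ j := by
      rw [pow_succ]
      calc (1 + κ) * (θ ^ j * θ) = θ ^ j * ((1 + κ) * θ) := by ring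
        _ = θ ^ j := by rw [hθ, mul_one]
    have hes : (1 + κ) • (om (j + 1) - θ ^ (j + 1) • om 0) =
        (om j - θ ^ j • om 0) + κ • ze (j + 1) := by
      rw [smul_sub, smul_smul, hθj, ← h]
      abel
    have h3 : (1 + κ) * ‖om (j + 1) - θ ^ (j + 1) • om 0‖ ≤
        ‖om j - θ ^ j • om 0‖ + κ * ‖ze (j + 1)‖ := by
      calc (1 + κ) * ‖om (j + 1) - θ ^ (j + 1) • om 0‖
          = ‖(1 + κ) • (om (j + 1) - θ ^ (j + 1) • om 0)‖ := by
            rw [norm_smul, Real.norm_eq_abs, abs_of_nonneg (by linarith)]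
        _ = ‖(om j - θ ^ j • om 0) + κ • ze (j + 1)‖ := by rw [hes]
        _ ≤ ‖om j - θ ^ j • om 0‖ + ‖κ • ze (j + 1)‖ := norm_add_le _ _
        _ = ‖om j - θ ^ j • om 0‖ + κ * ‖ze (j + 1)‖ := by
            rw [norm_smul, Real.norm_eq_abs, abs_of_nonneg hκ0]
    have h4 : 0 ≤ κ * ‖om (j + 1) - θ ^ (j + 1) • om 0‖ := by positivity
    rw [Finset.sum_range_succ, mul_add]
    linarith

/-- the exact identity after summation by parts -/
theorem s4pn_ident {V : Type} [NormedAddCommGroup V] [InnerProductSpace ℝ V] {N : ℕ} {κ θ : ℝ}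
    (ψ : ℕ → ℝ) (hψ0 : ψ 0 = 0) (hψN : ψ N = 0) (p om be : ℕ → V)
    (h1 : ∀ j < N, (1 + κ * 8) • p (j + 1) - p j = κ • om (j + 1) + (κ * 8) • be (j + 1)) :
    (∑ j ∈ Finset.range N, κ * ψ j * θ ^ (j + 1)) • om 0 =
      ∑ j ∈ Finset.range N, ((1 + κ * 8) * ψ j - ψ (j + 1)) • p (j + 1)
      - ∑ j ∈ Finset.range N, (κ * ψ j) • (om (j + 1) - θ ^ (j + 1) • om 0)
      - ∑ j ∈ Finset.range N, (8 * κ * ψ j) • be (j + 1) := by
  have htel : ∑ j ∈ Finset.range N, (ψ (j + 1) • p (j + 1) - ψ j • p j) = 0 := by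
    rw [Finset.sum_range_sub (fun j => ψ j • p j), hψ0, hψN]
    simp
  have hj : ∀ j ∈ Finset.range N, (κ * ψ j * θ ^ (j + 1)) • om 0 =
      ((1 + κ * 8) * ψ j - ψ (j + 1)) • p (j + 1) + (ψ (j + 1) • p (j + 1) - ψ j • p j)
        - (κ * ψ j) • (om (j + 1) - θ ^ (j + 1) • om 0) - (8 * κ * ψ j) • be (j + 1) := by
    intro j hj
    have h := h1 j (Finset.mem_range.1 hj)
    have hp : p j = (1 + κ * 8) • p (j + 1) - κ • om (j + 1) - (κ * 8) • be (j + 1) := by
      rw [sub_sub, ← h]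
      abel
    rw [hp]
    module
  rw [Finset.sum_smul, Finset.sum_congr rfl hj, Finset.sum_sub_distrib, Finset.sum_sub_distrib,
    Finset.sum_add_distrib, htel, add_zero]

/-- properties of the parabolic weights `ψ_j = κ² j (N - j)` -/
theorem s4pn_wt {N κ j : ℝ} (hκ0 : 0 < κ) (hNκ : N * κ = 1) (hj0 : 0 ≤ j) (hj : j + 1 ≤ N) :
    0 ≤ κ ^ 2 * (j * (N - j)) ∧ κ ^ 2 * (j * (N - j)) ≤ 1 / 4 ∧
      |(1 + κ * 8) * (κ ^ 2 * (j * (N - j))) - κ ^ 2 * ((j + 1) * (N - (j + 1)))| ≤ 3 * κ := by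
  have h0 : 0 ≤ κ ^ 2 * (j * (N - j)) := by
    have : 0 ≤ N - j := by linarith
    positivity
  have hk2 : κ ^ 2 * N ^ 2 = 1 := by
    have : κ ^ 2 * N ^ 2 = (N * κ) ^ 2 := by ring
    rw [this, hNκ, one_pow]
  have h1 : κ ^ 2 * (j * (N - j)) ≤ 1 / 4 := by
    have h2 : j * (N - j) ≤ N ^ 2 / 4 := by nlinarith [sq_nonneg (N - 2 * j)]
    calc κ ^ 2 * (j * (N - j)) ≤ κ ^ 2 * (N ^ 2 / 4) := mul_le_mul_of_nonneg_left h2 (by positivity)
      _ = 1 / 4 := by rw [← mul_div_assoc, hk2]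
  refine ⟨h0, h1, ?_⟩
  have e1 : (1 + κ * 8) * (κ ^ 2 * (j * (N - j))) - κ ^ 2 * ((j + 1) * (N - (j + 1))) =
      κ ^ 2 * (2 * j + 1 - N) + 8 * κ * (κ ^ 2 * (j * (N - j))) := by ring
  have hk3 : κ ^ 2 * N = κ := by
    have : κ ^ 2 * N = κ * (N * κ) := by ring
    rw [this, hNκ, mul_one]
  have h3 : κ ^ 2 * (2 * j + 1 - N) ≤ κ := by
    calc κ ^ 2 * (2 * j + 1 - N) ≤ κ ^ 2 * N := mul_le_mul_of_nonneg_left (by linarith) (by positivity)
      _ = κ := hk3
  have h4 : -κ ≤ κ ^ 2 * (2 * j + 1 - N) := by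
    have : κ ^ 2 * (-N) ≤ κ ^ 2 * (2 * j + 1 - N) :=
      mul_le_mul_of_nonneg_left (by linarith) (by positivity)
    have e : κ ^ 2 * (-N) = -κ := by rw [mul_neg, hk3]
    linarith
  have h5 : 8 * κ * (κ ^ 2 * (j * (N - j))) ≤ 8 * κ * (1 / 4) :=
    mul_le_mul_of_nonneg_left h1 (by positivity)
  have h6 : 0 ≤ 8 * κ * (κ ^ 2 * (j * (N - j))) := by positivity
  rw [e1, abs_le]
  constructor <;> linarith

/-- lower bound for the coefficient of `om 0` -/
theorem s4pn_coef {N : ℕ} (hN : 2 ≤ N) {κ θ : ℝ} (hκ0 : 0 < κ) (hNκ : (N : ℝ) * κ = 1)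
    (hθ : θ = (1 + κ)⁻¹) :
    1 / 24 ≤ ∑ j ∈ Finset.range N, κ * (κ ^ 2 * ((j : ℝ) * (N - j))) * θ ^ (j + 1) := by
  have hN2 : (2 : ℝ) ≤ N := by exact_mod_cast hN
  have hθj : ∀ j ∈ Finset.range N, 1 / 3 ≤ θ ^ (j + 1) := by
    intro j hj
    have hj' : j + 1 ≤ N := Finset.mem_range.1 hj
    have h1 : (1 + κ) ^ (j + 1) ≤ 3 := by
      calc (1 + κ) ^ (j + 1) ≤ (1 + κ) ^ N := pow_le_pow_right₀ (by linarith) hj'
        _ ≤ Real.exp κ ^ N :=
            pow_le_pow_left₀ (by linarith) (by linarith [Real.add_one_le_exp κ]) N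
        _ = Real.exp (N * κ) := by rw [Real.exp_nat_mul]
        _ = Real.exp 1 := by rw [hNκ]
        _ ≤ 3 := by linarith [Real.exp_one_lt_d9]
    rw [hθ, inv_pow, ← one_div]
    exact one_div_le_one_div_of_le (by positivity) h1
  have h2 : ∑ j ∈ Finset.range N, κ * (κ ^ 2 * ((j : ℝ) * (N - j))) * (1 / 3) ≤
      ∑ j ∈ Finset.range N, κ * (κ ^ 2 * ((j : ℝ) * (N - j))) * θ ^ (j + 1) := by
    refine Finset.sum_le_sum fun j hj => mul_le_mul_of_nonneg_left (hθj j hj) ?_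
    have hj' : ((j : ℝ)) ≤ N := by exact_mod_cast (Finset.mem_range.1 hj).le
    have : 0 ≤ (N : ℝ) - j := by linarith
    positivity
  refine le_trans ?_ h2
  have e1 : ∑ j ∈ Finset.range N, κ * (κ ^ 2 * ((j : ℝ) * (N - j))) * (1 / 3) =
      κ ^ 3 / 3 * ∑ j ∈ Finset.range N, (j : ℝ) * (N - j) := by
    rw [Finset.mul_sum]
    exact Finset.sum_congr rfl fun j _ => by ring
  rw [e1, s4pn_sum_par]
  have e2 : κ ^ 3 / 3 * ((N : ℝ) * (N * (N - 1) / 2) - (N - 1) * N * (2 * N - 1) / 6) =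
      (((N : ℝ) * κ) ^ 3 - (N * κ) * κ ^ 2) / 18 := by ring
  rw [e2, hNκ]
  have hκ2 : κ ≤ 1 / 2 := by nlinarith
  nlinarith

/-- extraction of `om 0` from the two recursions (deterministic). -/
theorem s4p_det {V : Type} [NormedAddCommGroup V] [InnerProductSpace ℝ V] {N : ℕ} (hN : 2 ≤ N)
    {κ : ℝ} (hκ : κ = 1 / (N : ℝ)) (p om be ze : ℕ → V)
    (h1 : ∀ j < N, (1 + κ * 8) • p (j + 1) - p j = κ • om (j + 1) + (κ * 8) • be (j + 1))
    (h2 : ∀ j < N, (1 + κ) • om (j + 1) - om j = κ • ze (j + 1)) :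
    ‖om 0‖ ^ 2 ≤ 19200 * (κ * ∑ i ∈ Finset.range N,
      (‖p (i + 1)‖ ^ 2 + ‖ze (i + 1)‖ ^ 2 + ‖be (i + 1)‖ ^ 2)) := by
  have hN0 : (0 : ℝ) < N := by
    have : 0 < N := by omega
    exact_mod_cast this
  have hκ0 : 0 < κ := by rw [hκ]; positivity
  have hNκ : (N : ℝ) * κ = 1 := by rw [hκ]; field_simp
  set θ : ℝ := (1 + κ)⁻¹ with hθ
  have hθ1 : (1 + κ) * θ = 1 := by rw [hθ]; field_simp
  set ψ : ℕ → ℝ := fun j => κ ^ 2 * ((j : ℝ) * (N - j)) with hψ
  have hψ0 : ψ 0 = 0 := by simp [hψ]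
  have hψN : ψ N = 0 := by simp [hψ]
  have hid := s4pn_ident (θ := θ) ψ hψ0 hψN p om be h1
  have herr := s4pn_err hκ0.le hθ1 om ze h2
  have hcoef : 1 / 24 ≤ ∑ j ∈ Finset.range N, κ * ψ j * θ ^ (j + 1) := s4pn_coef hN hκ0 hNκ hθ
  set a : ℝ := ∑ j ∈ Finset.range N, κ * ψ j * θ ^ (j + 1) with ha
  have hwt : ∀ j ∈ Finset.range N, 0 ≤ ψ j ∧ ψ j ≤ 1 / 4 ∧
      |(1 + κ * 8) * ψ j - ψ (j + 1)| ≤ 3 * κ := by
    intro j hj
    have hj' : ((j : ℝ)) + 1 ≤ N := by exact_mod_cast (Finset.mem_range.1 hj)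
    have := s4pn_wt hκ0 hNκ (Nat.cast_nonneg j) hj'
    simp only [hψ]
    push_cast
    exact this
  set Sp : ℝ := ∑ i ∈ Finset.range N, ‖p (i + 1)‖ with hSp
  set Sz : ℝ := ∑ i ∈ Finset.range N, ‖ze (i + 1)‖ with hSz
  set Sb : ℝ := ∑ i ∈ Finset.range N, ‖be (i + 1)‖ with hSb
  have hSp0 : 0 ≤ Sp := Finset.sum_nonneg fun _ _ => norm_nonneg _
  have hSz0 : 0 ≤ Sz := Finset.sum_nonneg fun _ _ => norm_nonneg _
  have hSb0 : 0 ≤ Sb := Finset.sum_nonneg fun _ _ => norm_nonneg _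
  -- the three sums
  have b1 : ‖∑ j ∈ Finset.range N, ((1 + κ * 8) * ψ j - ψ (j + 1)) • p (j + 1)‖ ≤ 3 * κ * Sp := by
    refine (norm_sum_le _ _).trans ?_
    rw [hSp, Finset.mul_sum]
    refine Finset.sum_le_sum fun j hj => ?_
    rw [norm_smul, Real.norm_eq_abs]
    exact mul_le_mul_of_nonneg_right (hwt j hj).2.2 (norm_nonneg _)
  have b2 : ‖∑ j ∈ Finset.range N, (κ * ψ j) • (om (j + 1) - θ ^ (j + 1) • om 0)‖ ≤ κ * Sz / 4 := by
    refine (norm_sum_le _ _).trans ?_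
    have h3 : ∀ j ∈ Finset.range N, ‖(κ * ψ j) • (om (j + 1) - θ ^ (j + 1) • om 0)‖ ≤
        κ * (1 / 4) * (κ * Sz) := by
      intro j hj
      have hj' : j + 1 ≤ N := Finset.mem_range.1 hj
      obtain ⟨w0, w1, -⟩ := hwt j hj
      rw [norm_smul, Real.norm_eq_abs, abs_of_nonneg (by positivity)]
      have h4 : ‖om (j + 1) - θ ^ (j + 1) • om 0‖ ≤ κ * Sz := by
        refine (herr (j + 1) hj').trans (mul_le_mul_of_nonneg_left ?_ hκ0.le)
        exact Finset.sum_le_sum_of_subset_of_nonneg (Finset.range_subset_range.2 hj')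
          fun _ _ _ => norm_nonneg _
      exact mul_le_mul (mul_le_mul_of_nonneg_left w1 hκ0.le) h4 (norm_nonneg _) (by positivity)
    refine (Finset.sum_le_sum h3).trans (le_of_eq ?_)
    rw [Finset.sum_const, Finset.card_range, nsmul_eq_mul]
    calc (N : ℝ) * (κ * (1 / 4) * (κ * Sz)) = ((N : ℝ) * κ) * (κ * Sz / 4) := by ring
      _ = κ * Sz / 4 := by rw [hNκ, one_mul]
  have b3 : ‖∑ j ∈ Finset.range N, (8 * κ * ψ j) • be (j + 1)‖ ≤ 2 * κ * Sb := by
    refine (norm_sum_le _ _).trans ?_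
    rw [hSb, Finset.mul_sum]
    refine Finset.sum_le_sum fun j hj => ?_
    obtain ⟨w0, w1, -⟩ := hwt j hj
    rw [norm_smul, Real.norm_eq_abs, abs_of_nonneg (by positivity)]
    apply mul_le_mul_of_nonneg_right _ (norm_nonneg _)
    nlinarith
  have ha0 : 0 ≤ a := by linarith
  have h5 : a * ‖om 0‖ ≤ 3 * κ * Sp + κ * Sz / 4 + 2 * κ * Sb := by
    calc a * ‖om 0‖ = ‖a • om 0‖ := by rw [norm_smul, Real.norm_eq_abs, abs_of_nonneg ha0]
      _ ≤ _ := by
          rw [hid]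
          refine (norm_sub_le _ _).trans (add_le_add ((norm_sub_le _ _).trans (add_le_add b1 b2)) b3)
  have h6 : 1 / 24 * ‖om 0‖ ≤ a * ‖om 0‖ := mul_le_mul_of_nonneg_right hcoef (norm_nonneg _)
  set x : ℕ → ℝ := fun i => ‖p (i + 1)‖ + ‖ze (i + 1)‖ + ‖be (i + 1)‖ with hx
  have hxs : ∑ i ∈ Finset.range N, x i = Sp + Sz + Sb := by
    simp only [hx]
    rw [Finset.sum_add_distrib, Finset.sum_add_distrib]
  have h7 : ‖om 0‖ ≤ 72 * (κ * ∑ i ∈ Finset.range N, x i) := by
    rw [hxs]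
    have : 0 ≤ κ * Sz := by positivity
    have : 0 ≤ κ * Sb := by positivity
    nlinarith
  have h8 := s4pn_cs hNκ x
  have h9 : ∑ i ∈ Finset.range N, x i ^ 2 ≤ 3 * ∑ i ∈ Finset.range N,
      (‖p (i + 1)‖ ^ 2 + ‖ze (i + 1)‖ ^ 2 + ‖be (i + 1)‖ ^ 2) := by
    rw [Finset.mul_sum]
    refine Finset.sum_le_sum fun i _ => ?_
    simp only [hx]
    nlinarith [sq_nonneg (‖p (i + 1)‖ - ‖ze (i + 1)‖), sq_nonneg (‖p (i + 1)‖ - ‖be (i + 1)‖),
      sq_nonneg (‖ze (i + 1)‖ - ‖be (i + 1)‖)]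
  have h10 : ‖om 0‖ ^ 2 ≤ (72 * (κ * ∑ i ∈ Finset.range N, x i)) ^ 2 :=
    pow_le_pow_left₀ (norm_nonneg _) h7 2
  have h11 : κ * ∑ i ∈ Finset.range N, x i ^ 2 ≤ κ * (3 * ∑ i ∈ Finset.range N,
      (‖p (i + 1)‖ ^ 2 + ‖ze (i + 1)‖ ^ 2 + ‖be (i + 1)‖ ^ 2)) :=
    mul_le_mul_of_nonneg_left h9 hκ0.le
  have h12 : 0 ≤ κ * ∑ i ∈ Finset.range N,
      (‖p (i + 1)‖ ^ 2 + ‖ze (i + 1)‖ ^ 2 + ‖be (i + 1)‖ ^ 2) := by positivity
  rw [mul_pow] at h10
  nlinarith

/-- discrete Gronwall. -/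
theorem s4p_gronwall {C e M : ℝ} (hC : 0 ≤ C) (he : 0 ≤ e) (hM : 0 ≤ M) {d : ℝ → ℝ} (h0 : d 0 = 0)
    (hd : ∀ t₁ t₂, 0 ≤ t₁ → t₁ ≤ t₂ → t₂ ≤ M → d t₂ - d t₁ ≤ (t₂ - t₁) / 2 * (C * d t₂ + e)) :
    ∀ T, 0 ≤ T → T ≤ M → d T ≤ e * (M * Real.exp (C * M)) := by
  intro T hT0 hTM
  set n : ℕ := ⌈C * T⌉₊ + 1 with hn
  have hn0 : (0 : ℝ) < n := by
    rw [hn]
    positivity
  have hnC : C * T ≤ n := by
    rw [hn]
    push_cast
    linarith [Nat.le_ceil (C * T)]
  set Δ : ℝ := T / n with hΔ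
  have hΔ0 : 0 ≤ Δ := by positivity
  have hnΔ : (n : ℝ) * Δ = T := by
    rw [hΔ]
    field_simp
  have hCΔ : C * Δ ≤ 1 := by
    rw [hΔ, ← mul_div_assoc, div_le_one hn0]
    exact hnC
  have hCΔ0 : 0 ≤ C * Δ := by positivity
  have key : ∀ k : ℕ, k ≤ n → d (k * Δ) ≤ k * (Δ * e / 2) * (1 + C * Δ) ^ k := by
    intro k
    induction k with
    | zero =>
      intro _
      simp [h0]
    | succ k ih =>
      intro hk
      have ih' := ih (by omega)
      have hkn : ((k : ℝ) + 1) ≤ n := by exact_mod_cast hk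
      have ht2 : ((k : ℝ) + 1) * Δ ≤ M := by
        calc ((k : ℝ) + 1) * Δ ≤ n * Δ := mul_le_mul_of_nonneg_right hkn hΔ0
          _ = T := hnΔ
          _ ≤ M := hTM
      have h1 := hd (k * Δ) (((k : ℝ) + 1) * Δ) (by positivity) (by nlinarith) ht2
      have e1 : ((k : ℝ) + 1) * Δ - k * Δ = Δ := by ring
      rw [e1] at h1
      push_cast
      set D := d (((k : ℝ) + 1) * Δ) with hD
      set D' := d ((k : ℝ) * Δ) with hD'
      set G := (1 + C * Δ) ^ k with hG
      have hG1 : 1 ≤ G := one_le_pow₀ (by linarith)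
      set W := (k : ℝ) * (Δ * e / 2) * G + Δ * e / 2 with hW
      have hW0 : 0 ≤ W := by positivity
      have h2 : D * (1 - C * Δ / 2) ≤ W := by
        have : D * (1 - C * Δ / 2) = D - Δ / 2 * (C * D) := by ring
        rw [this, hW]
        linarith
      have h3 : W * (1 + C * Δ) ≤ ((k : ℝ) + 1) * (Δ * e / 2) * (1 + C * Δ) ^ (k + 1) := by
        rw [pow_succ, ← hG]
        have : W ≤ ((k : ℝ) + 1) * (Δ * e / 2) * G := by
          rw [hW]
          have : Δ * e / 2 ≤ Δ * e / 2 * G := le_mul_of_one_le_right (by positivity) hG1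
          linarith
        calc W * (1 + C * Δ) ≤ ((k : ℝ) + 1) * (Δ * e / 2) * G * (1 + C * Δ) :=
              mul_le_mul_of_nonneg_right this (by linarith)
          _ = _ := by ring
      refine le_trans ?_ h3
      by_contra hno
      have h4 : W * (1 + C * Δ) < D := not_le.1 hno
      have h5 : 0 < 1 - C * Δ / 2 := by linarith
      have h6 : W * (1 + C * Δ) * (1 - C * Δ / 2) < D * (1 - C * Δ / 2) :=
        mul_lt_mul_of_pos_right h4 h5
      have h7 : 1 ≤ (1 + C * Δ) * (1 - C * Δ / 2) := by nlinarith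
      have h8 : W * 1 ≤ W * ((1 + C * Δ) * (1 - C * Δ / 2)) := mul_le_mul_of_nonneg_left h7 hW0
      nlinarith
  have h1 := key n le_rfl
  rw [hnΔ] at h1
  have h2 : (1 + C * Δ) ^ n ≤ Real.exp (C * M) := by
    calc (1 + C * Δ) ^ n ≤ Real.exp (C * Δ) ^ n :=
          pow_le_pow_left₀ (by linarith) (by linarith [Real.add_one_le_exp (C * Δ)]) n
      _ = Real.exp (n * (C * Δ)) := by rw [Real.exp_nat_mul]
      _ = Real.exp (C * T) := by rw [← hnΔ]; ring_nf
      _ ≤ Real.exp (C * M) := Real.exp_le_exp.2 (mul_le_mul_of_nonneg_left hTM hC)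
  have h3 : (n : ℝ) * (Δ * e / 2) = T * e / 2 := by
    rw [← hnΔ]
    ring
  rw [h3] at h1
  calc d T ≤ T * e / 2 * (1 + C * Δ) ^ n := h1
    _ ≤ T * e / 2 * Real.exp (C * M) := mul_le_mul_of_nonneg_left h2 (by positivity)
    _ ≤ M * e * Real.exp (C * M) := by
        apply mul_le_mul_of_nonneg_right _ (Real.exp_pos _).le
        nlinarith
    _ = e * (M * Real.exp (C * M)) := by ring

/-- choice of the number of steps and of the defect. -/
theorem s4p_param (C ε M : ℝ) (hC : 0 < C) (hε : 0 < ε) (hM : 0 < M) : ∃ N : ℕ, 2 ≤ N ∧ ∃ δ₀ : ℝ,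
    0 < δ₀ ∧ δ₀ ≤ 1 ∧ ∀ δ a T : ℝ, 0 ≤ a → a ≤ δ → δ ≤ δ₀ → 0 ≤ T → T ≤ M →
      C * Real.sqrt a ≤ 1 ∧
      19200 * ((T / 2 * (1 / (N : ℝ) + 3 * (C * Real.sqrt a)) + 8 * T * Real.sqrt δ
          + 12 * (C * Real.sqrt a)) / 28 + δ
          + C * a ^ 2 * (T / 2 + 3 / 2 * (C * Real.sqrt a) + 1 / 2)) ≤ ε := by
  set K : ℝ := (3 * M * C / 2 + 8 * M + 12 * C) / 28 + 1 + C * (M / 2 + 2) with hK
  have hK0 : 0 < K := by positivity
  set σ : ℝ := min 1 (min (1 / C) (ε / (38400 * K))) with hσ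
  have hσ0 : 0 < σ := by
    rw [hσ]
    refine lt_min one_pos (lt_min (by positivity) (by positivity))
  have hσ1 : σ ≤ 1 := min_le_left _ _
  have hσC : σ ≤ 1 / C := (min_le_right _ _).trans (min_le_left _ _)
  have hσε : σ ≤ ε / (38400 * K) := (min_le_right _ _).trans (min_le_right _ _)
  set N : ℕ := ⌈19200 * M / (28 * ε)⌉₊ + 2 with hN
  have hN0 : (0 : ℝ) < N := by
    rw [hN]
    positivity
  have hNge : 19200 * M / (28 * ε) ≤ N := by
    rw [hN]
    push_cast
    linarith [Nat.le_ceil (19200 * M / (28 * ε))]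
  refine ⟨N, by omega, σ ^ 2, by positivity, by nlinarith, ?_⟩
  intro δ a T ha haδ hδ hT hTM
  have hδ0 : 0 ≤ δ := ha.trans haδ
  have hsδ : Real.sqrt δ ≤ σ := by
    calc Real.sqrt δ ≤ Real.sqrt (σ ^ 2) := Real.sqrt_le_sqrt hδ
      _ = σ := Real.sqrt_sq hσ0.le
  have hsa : Real.sqrt a ≤ σ := (Real.sqrt_le_sqrt haδ).trans hsδ
  have hsa0 : 0 ≤ Real.sqrt a := Real.sqrt_nonneg _
  have hsδ0 : 0 ≤ Real.sqrt δ := Real.sqrt_nonneg _
  have hCa : C * Real.sqrt a ≤ C * σ := mul_le_mul_of_nonneg_left hsa hC.le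
  have hCσ : C * σ ≤ 1 := by
    calc C * σ ≤ C * (1 / C) := mul_le_mul_of_nonneg_left hσC hC.le
      _ = 1 := by field_simp
  have hCa0 : 0 ≤ C * Real.sqrt a := by positivity
  refine ⟨hCa.trans hCσ, ?_⟩
  have hσ2 : σ ^ 2 ≤ σ := by nlinarith
  have hδσ : δ ≤ σ := hδ.trans hσ2
  have ha1 : a ≤ 1 := (haδ.trans hδσ).trans hσ1
  have ha2 : a ^ 2 ≤ σ := by
    have : a ^ 2 ≤ a := by nlinarith
    linarith
  have ha20 : 0 ≤ a ^ 2 := by positivity
  -- the three pieces
  have p1 : T / 2 * (1 / (N : ℝ)) ≤ M / 2 * (1 / (N : ℝ)) := by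
    apply mul_le_mul_of_nonneg_right _ (by positivity)
    linarith
  have p2 : T / 2 * (3 * (C * Real.sqrt a)) ≤ M / 2 * (3 * (C * σ)) :=
    mul_le_mul (by linarith) (by linarith) (by positivity) (by positivity)
  have p3 : 8 * T * Real.sqrt δ ≤ 8 * M * σ :=
    mul_le_mul (by linarith) hsδ hsδ0 (by positivity)
  have p4 : C * a ^ 2 * (T / 2 + 3 / 2 * (C * Real.sqrt a) + 1 / 2) ≤ C * σ * (M / 2 + 2) := by
    apply mul_le_mul (mul_le_mul_of_nonneg_left ha2 hC.le) _ (by positivity) (by positivity)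
    linarith [hCa.trans hCσ]
  have p5 : 19200 * (M / 2 * (1 / (N : ℝ)) / 28) ≤ ε / 2 := by
    rw [div_le_iff₀ (by positivity)] at hNge
    have e1 : 19200 * (M / 2 * (1 / (N : ℝ)) / 28) = 19200 * M / (56 * N) := by
      field_simp
      ring
    rw [e1, div_le_iff₀ (by positivity)]
    nlinarith
  have p6 : 19200 * (σ * K) ≤ ε / 2 := by
    rw [le_div_iff₀ (by positivity)] at hσε
    nlinarith
  have e2 : σ * K = (M / 2 * (3 * (C * σ)) + 8 * M * σ + 12 * (C * σ)) / 28 + σ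
      + C * σ * (M / 2 + 2) := by
    rw [hK]
    ring
  have main : (T / 2 * (1 / (N : ℝ) + 3 * (C * Real.sqrt a)) + 8 * T * Real.sqrt δ
          + 12 * (C * Real.sqrt a)) / 28 + δ
          + C * a ^ 2 * (T / 2 + 3 / 2 * (C * Real.sqrt a) + 1 / 2) ≤
      M / 2 * (1 / (N : ℝ)) / 28 + σ * K := by
    rw [e2]
    have e3 : T / 2 * (1 / (N : ℝ) + 3 * (C * Real.sqrt a)) =
        T / 2 * (1 / (N : ℝ)) + T / 2 * (3 * (C * Real.sqrt a)) := by ring
    rw [e3]
    linarith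
  linarith

end Claimed.Agent.R259
end

/- ===== packed: Claimed.Agent.R259.S7LawSpecSc ===== -/
section
/-
Row 259 (S0499), section 7, spectral law, package L-S7-LAW-SPEC.  Architect: helper57.  Prefix `s7p`.

SCALAR LEAVES (no matrices, Mathlib only):
 * L-s7p-gauss : `s7p_gauss_chr`, `s7p_gauss_sq`, `s7p_gauss_le`, `s7p_clip`.
-/
set_option autoImplicit false

open MeasureTheory ProbabilityTheory
open scoped BigOperators

namespace Claimed.Agent.R259

/-- the character `v ↦ e^{isv}` (same expression as in `cE`) -/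
noncomputable def chr (s v : ℝ) : ℂ := Complex.exp (Complex.I * ((s * v : ℝ) : ℂ))

theorem s7p_sc_eqns_cite : True := by
  have := @chr.eq_1
  trivial

theorem s7p_chr_norm (s v : ℝ) : ‖chr s v‖ = 1 := by
  unfold chr
  rw [mul_comm]
  exact Complex.norm_exp_ofReal_mul_I _

theorem s7p_chr_cont (s : ℝ) : Continuous (chr s) := by
  unfold chr
  fun_prop

/-! ### leaf L-s7p-gauss -/

/-- characteristic function of the standard Gaussian (`charFun_gaussianReal`) -/
theorem s7p_gauss_chr (s : ℝ) :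
    ∫ v, chr s v ∂(gaussianReal 0 1) = ((Real.exp (-(s ^ 2 / 2)) : ℝ) : ℂ) := by
  have h := charFun_gaussianReal (μ := 0) (v := 1) s
  rw [charFun_apply_real] at h
  have e : (fun v : ℝ => chr s v) = fun v : ℝ => Complex.exp (s * v * Complex.I) := by
    funext v
    unfold chr
    congr 1
    push_cast
    ring
  rw [e, h]
  push_cast
  congr 1
  ring

/-- second moment (`variance_id_gaussianReal` / `memLp_id_gaussianReal`) -/
theorem s7p_gauss_sq :
    Integrable (fun v : ℝ => v ^ 2) (gaussianReal 0 1) ∧ ∫ v, v ^ 2 ∂(gaussianReal 0 1) = 1 := by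
  constructor
  · exact (memLp_id_gaussianReal (μ := 0) (v := 1) 2).integrable_sq
  · have h := variance_fun_id_gaussianReal (μ := 0) (v := 1)
    rw [variance_eq_integral measurable_id'.aemeasurable, integral_id_gaussianReal] at h
    simpa using h

/-- functions of quadratic growth -/
theorem s7p_gauss_le {g : ℝ → ℂ} (hg : Measurable g) {a b : ℝ}
    (h : ∀ v, ‖g v‖ ≤ a + b * v ^ 2) :
    Integrable g (gaussianReal 0 1) ∧ ‖∫ v, g v ∂(gaussianReal 0 1)‖ ≤ a + b := by
  obtain ⟨hi, he⟩ := s7p_gauss_sq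
  have hb : Integrable (fun v : ℝ => a + b * v ^ 2) (gaussianReal 0 1) :=
    (integrable_const a).add (hi.const_mul b)
  refine ⟨hb.mono' hg.aestronglyMeasurable (Filter.Eventually.of_forall h), ?_⟩
  calc ‖∫ v, g v ∂(gaussianReal 0 1)‖ ≤ ∫ v, a + b * v ^ 2 ∂(gaussianReal 0 1) :=
        norm_integral_le_of_norm_le hb (Filter.Eventually.of_forall h)
    _ = a + b := by
        rw [integral_add (integrable_const a) (hi.const_mul b), integral_const_mul, he]
        simp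

/-- clipping: `|v - clip_R v| ≤ v²/R`, `|clip_R v| ≤ R` -/
theorem s7p_clip {R : ℝ} (hR : 0 < R) (v : ℝ) :
    |v - max (-R) (min R v)| ≤ v ^ 2 / R ∧ |max (-R) (min R v)| ≤ R := by
  constructor
  · rw [le_div_iff₀ hR]
    rcases le_total v (-R) with h1 | h1
    · rw [min_eq_right (by linarith), max_eq_left h1, abs_of_nonpos (by linarith)]
      nlinarith
    · rcases le_total v R with h2 | h2
      · rw [min_eq_right h2, max_eq_right h1]
        simp only [sub_self, abs_zero, zero_mul]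
        positivity
      · rw [min_eq_left h2, max_eq_right (by linarith), abs_of_nonneg (by linarith)]
        nlinarith
  · rw [abs_le]
    exact ⟨le_max_left _ _, max_le (by linarith) (min_le_left _ _)⟩

end Claimed.Agent.R259
end
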