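/- Packed by merge_tool.py (helper293): 11 modules of Claimed.Agent.R259 in one file, same declarations.
   Old modules, in this order: LsiCalcC, TgCov, TgPot, TgScore, TgCore, Tg, Lc, RefCore, RefLsi, Ref, Gapf -/
import Claimed.Agent.R259.WS
import Claimed.Agent.R259.WsBasic
import Claimed.Agent.R259.S3Defs
import Claimed.Agent.R259.Pack001
import Claimed.Agent.R259.Pack002
import Claimed.Agent.R259.Pack007
import Claimed.Agent.R259.Pack004
import Claimed.Agent.R259.Pack039

/- ===== packed: Claimed.Agent.R259.LsiCalcC ===== -/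
section
/-
R259 / LsiCalcC.lean  (owner: helper26).  Kit LSIcalc: aggregator of the packages
LsiSharp (monotonicity, `ent ≥ 0`, `Ropt`), LsiExt (extension to bounded C¹ functions, `R^P ≤ R`), LsiAffine (affine maps),
LsiConv ((2.convolution)), LsiRev (helper220's F1).
-/

end

/- ===== packed: Claimed.Agent.R259.TgCov ===== -/
section
/-
Row 259, kit TG, part 2: translation of a law `u² η dx` by a vector, in square root form.
Owner: helper83.
-/
set_option autoImplicit false

open MeasureTheory Filter Topology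
open scoped ContDiff ENNReal

namespace Claimed.Agent.R259

variable {E : Type} [NormedAddCommGroup E] [InnerProductSpace ℝ E] [FiniteDimensional ℝ E]
  [MeasurableSpace E] [BorelSpace E]
variable {F : Type} [NormedAddCommGroup F] [NormedSpace ℝ F]
variable {η : E → ℝ}

theorem tg_cov (hη : Measurable η) (hpos : ∀ x, 0 < η x) (p : E) (Ξ : E → F) :
    ∫ y, (η (y + p) / η y) • Ξ (y + p) ∂(dm η) = ∫ z, Ξ z ∂(dm η) := by
  rw [ws_integral_dm hη (fun x => (hpos x).le), ws_integral_dm hη (fun x => (hpos x).le),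
    ← integral_add_right_eq_self (fun z => η z • Ξ z) p]
  refine integral_congr_ae (Eventually.of_forall fun y => ?_)
  simp only [smul_smul]
  congr 1
  have := (hpos y).ne'
  field_simp

theorem tg_cov_integrable (hη : Measurable η) (hpos : ∀ x, 0 < η x) (p : E) {Ξ : E → F}
    (h : Integrable Ξ (dm η)) : Integrable (fun y => (η (y + p) / η y) • Ξ (y + p)) (dm η) := by
  rw [ws_integrable_dm_iff hη (fun x => (hpos x).le)] at h ⊢
  have h2 := h.comp_add_right p
  refine h2.congr (Eventually.of_forall fun y => ?_)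
  simp only [smul_smul]
  congr 1
  have := (hpos y).ne'
  field_simp

theorem tg_aesm_translate (hη : Measurable η) (hpos : ∀ x, 0 < η x) (p : E) {Ξ : E → F}
    (h : AEStronglyMeasurable Ξ (dm η)) : AEStronglyMeasurable (fun y => Ξ (y + p)) (dm η) := by
  rw [ws_aesm_dm_iff hη hpos] at h ⊢
  exact h.comp_measurePreserving (measurePreserving_add_right volume p)

theorem tg_cov_memLp (hη : Measurable η) (hpos : ∀ x, 0 < η x) (p : E) {Ξ : E → F}
    (h : MemLp Ξ 2 (dm η)) :
    MemLp (fun y => Real.sqrt (η (y + p) / η y) • Ξ (y + p)) 2 (dm η) := by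
  have hm : AEStronglyMeasurable (fun y => Real.sqrt (η (y + p) / η y) • Ξ (y + p)) (dm η) := by
    refine AEStronglyMeasurable.smul ?_ (tg_aesm_translate hη hpos p h.1)
    exact (((hη.comp (measurable_add_const p)).div hη).sqrt).aestronglyMeasurable
  rw [memLp_two_iff_integrable_sq_norm hm]
  have h2 := tg_cov_integrable hη hpos p ((memLp_two_iff_integrable_sq_norm h.1).mp h)
  refine h2.congr (Eventually.of_forall fun y => ?_)
  have hr : 0 ≤ η (y + p) / η y := (div_pos (hpos _) (hpos _)).le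
  simp only [norm_smul, mul_pow, Real.norm_eq_abs, sq_abs, Real.sq_sqrt hr, smul_eq_mul]

/-- translation of weak gradients. -/
theorem tg_weakGrad_translate {u : E → ℝ} {g : E → E} (h : WeakGrad u g) (p : E) :
    WeakGrad (fun y => u (y + p)) (fun y => g (y + p)) := by
  obtain ⟨hu, hg, hw⟩ := h
  have hloc : ∀ {G : Type} [NormedAddCommGroup G] {f : E → G}, LocallyIntegrable f volume →
      LocallyIntegrable (fun y => f (y + p)) volume := by
    intro G _ f hf
    rw [locallyIntegrable_iff] at hf ⊢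
    intro K hK
    have hK' : IsCompact ((fun y => y + p) '' K) := hK.image (by fun_prop)
    have := hf _ hK'
    have hmp := measurePreserving_add_right (volume : Measure E) p
    have he : MeasurableEmbedding (fun y : E => y + p) := measurableEmbedding_addRight p
    have h3 := (hmp.integrableOn_image he (f := f) (s := K)).mp this
    exact h3
  refine ⟨hloc hu, hloc hg, ?_⟩
  intro ζ hζ
  have hζ' : IsTest (fun z => ζ (z - p)) := by
    refine ⟨hζ.1.comp (by fun_prop), ?_⟩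
    exact hζ.2.comp_homeomorph (Homeomorph.addRight (-p)) |> fun h => by
      simpa [sub_eq_add_neg, Function.comp_def] using h
  have hgrad : ∀ z, gradient (fun z => ζ (z - p)) z = gradient ζ (z - p) := by
    intro z
    unfold gradient
    congr 1
    exact fderiv_comp_sub p
  have := hw _ hζ'
  rw [← integral_add_right_eq_self (fun x => u x • gradient (fun z => ζ (z - p)) x) p,
    ← integral_add_right_eq_self (fun x => ζ (x - p) • g x) p] at this
  simpa only [hgrad, add_sub_cancel_right] using this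

end Claimed.Agent.R259
end

/- ===== packed: Claimed.Agent.R259.TgPot ===== -/
section
/-
Row 259, kit TG, part 3: the potential of `μ * γ_s` along a segment; the translate of an `H¹` square root.
Owner: helper83.
-/
set_option autoImplicit false

open MeasureTheory Filter Topology
open scoped ContDiff ENNReal

namespace Claimed.Agent.R259

variable {E : Type} [NormedAddCommGroup E] [InnerProductSpace ℝ E] [FiniteDimensional ℝ E]
  [MeasurableSpace E] [BorelSpace E]
variable {μ : Measure E} [IsProbabilityMeasure μ]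

/-- monotonicity of the posterior mean. -/
theorem tg_postMean_mono (hb : BddSupp μ) (hlc : ∃ ρ : E → ℝ, LogConc ρ ∧ μ = dm ρ) {s : ℝ}
    (hs : 0 < s) (y p : E) {t : ℝ} (ht : 0 ≤ t) :
    inner ℝ (postMean μ s y) p ≤ inner ℝ (postMean μ s (y + t • p)) p := by
  rcases ht.eq_or_lt with rfl | ht
  · simp
  have h := gc_postMean_diff_sq_le hb hlc hs (y + t • p) (t • p)
  rw [add_sub_cancel_right] at h
  have h0 : 0 ≤ inner ℝ (t • p) (postMean μ s (y + t • p) - postMean μ s y) :=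
    le_trans (by positivity) h
  rw [inner_smul_left, inner_sub_right] at h0
  simp only [conj_trivial] at h0
  have h1 : 0 ≤ inner ℝ p (postMean μ s (y + t • p)) - inner ℝ p (postMean μ s y) := by
    by_contra hneg
    push Not at hneg
    nlinarith
  rw [real_inner_comm _ p, real_inner_comm _ p] at h1
  linarith

/-- exact second order expansion of the potential along a segment. -/
theorem tg_potV_segment (hb : BddSupp μ) {s : ℝ} (hs : 0 < s) (z p : E) :
    ∃ ξ ∈ Set.Ioo (0 : ℝ) 1, potV μ s (z - p) - potV μ s z =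
      - inner ℝ z p / s + ‖p‖ ^ 2 / (2 * s) + inner ℝ (postMean μ s (z - p + ξ • p)) p / s := by
  set k : ℝ → ℝ := fun t => potV μ s (z - p + t • p) -
    (inner ℝ (z - p) p * t + t ^ 2 * ‖p‖ ^ 2 / 2) / s with hk
  have hder : ∀ t : ℝ, HasDerivAt k (- inner ℝ (postMean μ s (z - p + t • p)) p / s) t := by
    intro t
    have hV : HasGradientAt (potV μ s) (gradient (potV μ s) (z - p + t • p)) (z - p + t • p) :=
      ((gc_potV_contDiff hb hs).differentiable (by simp) _).hasGradientAt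
    have hline : HasDerivAt (fun t : ℝ => z - p + t • p) p t := by
      simpa using ((hasDerivAt_id t).smul_const p).const_add (z - p)
    have h1 := hV.hasFDerivAt.comp_hasDerivAt t hline
    have h2 : HasDerivAt (fun t : ℝ => (inner ℝ (z - p) p * t + t ^ 2 * ‖p‖ ^ 2 / 2) / s)
        ((inner ℝ (z - p) p + t * ‖p‖ ^ 2) / s) t := by
      have a1 : HasDerivAt (fun t : ℝ => inner ℝ (z - p) p * t) (inner ℝ (z - p) p) t := by
        simpa using (hasDerivAt_id t).const_mul (inner ℝ (z - p) p)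
      have a2 : HasDerivAt (fun t : ℝ => t ^ 2 * ‖p‖ ^ 2 / 2) (t * ‖p‖ ^ 2) t := by
        have := ((hasDerivAt_pow 2 t).mul_const (‖p‖ ^ 2)).div_const 2
        have e : (↑(2 : ℕ) * t ^ (2 - 1) * ‖p‖ ^ 2 / 2 : ℝ) = t * ‖p‖ ^ 2 := by
          norm_num; ring
        rw [e] at this
        exact this
      exact (a1.add a2).div_const s
    have h3 := h1.sub h2
    have e : ((InnerProductSpace.toDual ℝ E) (gradient (potV μ s) (z - p + t • p))) p -
        (inner ℝ (z - p) p + t * ‖p‖ ^ 2) / s = - inner ℝ (postMean μ s (z - p + t • p)) p / s := by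
      rw [gc_grad_potV hb hs]
      simp only [InnerProductSpace.toDual_apply_apply, inner_smul_left, conj_trivial,
        inner_sub_left, inner_add_left, real_inner_self_eq_norm_sq]
      field_simp
      ring
    rw [e] at h3
    exact h3
  obtain ⟨ξ, hξ, hslope⟩ := exists_hasDerivAt_eq_slope k _ (zero_lt_one)
    (fun t _ => (hder t).continuousAt.continuousWithinAt) (fun t _ => hder t)
  refine ⟨ξ, hξ, ?_⟩
  simp only [hk, one_smul, zero_smul, sub_add_cancel, add_zero, sub_zero, div_one, mul_one,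
    mul_zero, one_pow, one_mul] at hslope
  have e : inner ℝ (z - p) p = inner ℝ z p - ‖p‖ ^ 2 := by
    rw [inner_sub_left, real_inner_self_eq_norm_sq]
  rw [e] at hslope
  have hs' := hs.ne'
  have : potV μ s (z - p) - potV μ s z =
      inner ℝ (postMean μ s (z - p + ξ • p)) p / s - (inner ℝ z p - ‖p‖ ^ 2 + ‖p‖ ^ 2 / 2) / s := by
    have h0 : ((0:ℝ) ^ 2 * ‖p‖ ^ 2 / 2) / s = 0 := by simp
    simp only [ne_eq, OfNat.ofNat_ne_zero, not_false_eq_true, zero_pow, zero_mul, zero_div,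
      add_zero, sub_zero] at hslope
    linarith [hslope, neg_div s (inner ℝ (postMean μ s (z - p + ξ • p)) p)]
  rw [this]
  field_simp
  ring

theorem tg_potV_lower (hb : BddSupp μ) (hlc : ∃ ρ : E → ℝ, LogConc ρ ∧ μ = dm ρ) {s : ℝ}
    (hs : 0 < s) (z p : E) :
    - inner ℝ z p / s + ‖p‖ ^ 2 / (2 * s) + inner ℝ (postMean μ s (z - p)) p / s ≤
      potV μ s (z - p) - potV μ s z := by
  obtain ⟨ξ, hξ, h⟩ := tg_potV_segment hb hs z p
  rw [h]
  have := tg_postMean_mono hb hlc hs (z - p) p hξ.1.le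
  gcongr

theorem tg_potV_upper (hb : BddSupp μ) (hlc : ∃ ρ : E → ℝ, LogConc ρ ∧ μ = dm ρ) {s : ℝ}
    (hs : 0 < s) (z p : E) :
    potV μ s (z - p) - potV μ s z ≤
      - inner ℝ z p / s + ‖p‖ ^ 2 / (2 * s) + inner ℝ (postMean μ s z) p / s := by
  obtain ⟨ξ, hξ, h⟩ := tg_potV_segment hb hs z p
  rw [h]
  have := tg_postMean_mono hb hlc hs (z - p + ξ • p) p (t := 1 - ξ) (by linarith [hξ.2])
  have e : z - p + ξ • p + (1 - ξ) • p = z := by
    rw [sub_smul, one_smul]; abel
  rw [e] at this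
  gcongr


/-! ### the translate of an `H¹` square root -/

/-- the square root of the density ratio. -/
noncomputable def tgChi (μ : Measure E) (s : ℝ) (p y : E) : ℝ :=
  Real.sqrt (gconv μ s (y + p) / gconv μ s y)

/-- the score of the translate, in moving coordinates (times `u/2`). -/
noncomputable def tgG (μ : Measure E) (s : ℝ) (p : E) (u : E → ℝ) (g : E → E) (z : E) : E :=
  g z - (u z / (2 * s)) • (p - (postMean μ s z - postMean μ s (z - p)))

theorem tgChi_eq_exp (hb : BddSupp μ) {s : ℝ} (hs : 0 < s) (p y : E) :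
    tgChi μ s p y =
      Real.exp ((Real.log (gconv μ s (y + p)) - Real.log (gconv μ s y)) / 2) := by
  have h1 := (gc_spd hb hs).2.1 (y + p)
  have h2 := (gc_spd hb hs).2.1 y
  rw [Real.exp_half, Real.exp_sub, Real.exp_log h1, Real.exp_log h2, tgChi]

theorem tgChi_contDiff (hb : BddSupp μ) {s : ℝ} (hs : 0 < s) (p : E) :
    ContDiff ℝ ∞ (tgChi μ s p) := by
  have h := gc_spd hb hs
  unfold tgChi
  refine ContDiff.sqrt ?_ (fun y => (div_pos (h.2.1 _) (h.2.1 _)).ne')
  exact (h.1.comp (by fun_prop)).div h.1 (fun y => (h.2.1 y).ne')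

theorem tgChi_gradient (hb : BddSupp μ) {s : ℝ} (hs : 0 < s) (p y : E) :
    gradient (tgChi μ s p) y =
      - ((tgChi μ s p y / (2 * s)) • (p - (postMean μ s (y + p) - postMean μ s y))) := by
  have h := gc_spd hb hs
  have hL : ContDiff ℝ ∞ (fun z => Real.log (gconv μ s z)) := h.1.log (fun z => (h.2.1 z).ne')
  have hLg : ∀ z, HasFDerivAt (fun z => Real.log (gconv μ s z))
      (InnerProductSpace.toDual ℝ E (- (s⁻¹ • (z - postMean μ s z)))) z := by
    intro z
    have := ((hL.differentiable (by simp)) z).hasGradientAt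
    rw [gc_grad_log hb hs] at this
    exact this.hasFDerivAt
  have h1 : HasFDerivAt (fun z => Real.log (gconv μ s (z + p)))
      (InnerProductSpace.toDual ℝ E (- (s⁻¹ • (y + p - postMean μ s (y + p))))) y :=
    (hasFDerivAt_comp_add_right p).mpr (hLg (y + p))
  have h2 : HasFDerivAt (fun y =>
      Real.exp ((Real.log (gconv μ s (y + p)) - Real.log (gconv μ s y)) * (1 / 2))) _ y :=
    (((h1.sub (hLg y)).mul_const (1 / 2 : ℝ))).exp
  have hfun : tgChi μ s p = fun y =>
      Real.exp ((Real.log (gconv μ s (y + p)) - Real.log (gconv μ s y)) * (1 / 2)) := by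
    funext z
    rw [tgChi_eq_exp hb hs]
    congr 1
    ring
  apply HasGradientAt.gradient
  rw [hasGradientAt_iff_hasFDerivAt]
  have hy : tgChi μ s p y =
      Real.exp ((Real.log (gconv μ s (y + p)) - Real.log (gconv μ s y)) * (1 / 2)) :=
    congrFun hfun y
  rw [hy, hfun]
  refine h2.congr_fderiv ?_
  ext v
  simp only [InnerProductSpace.toDual_apply_apply, _root_.smul_apply, _root_.sub_apply,
    smul_eq_mul, inner_neg_left, inner_smul_left, conj_trivial, inner_sub_left, inner_add_left,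
    Pi.sub_apply]
  generalize Real.exp ((Real.log (gconv μ s (y + p)) - Real.log (gconv μ s y)) * (1 / 2)) = c
  field_simp
  ring

theorem tgG_memLp (hb : BddSupp μ) {s : ℝ} (hs : 0 < s) {u : E → ℝ} {g : E → E}
    (hu : MemLp u 2 (dm (gconv μ s))) (hg : MemLp g 2 (dm (gconv μ s))) (p : E) :
    MemLp (tgG μ s p u g) 2 (dm (gconv μ s)) := by
  obtain ⟨r, hr⟩ := hb
  have hbc : Continuous (postMean μ s) := (gc_postMean_contDiff ⟨r, hr⟩ hs).continuous
  unfold tgG
  refine hg.sub ?_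
  refine hu.of_le_mul (c := (‖p‖ + 2 * r) / (2 * s)) ?_ (Eventually.of_forall fun z => ?_)
  · refine AEStronglyMeasurable.smul (hu.1.mul_const (2 * s)⁻¹ |>.congr (Eventually.of_forall fun z => by simp [div_eq_mul_inv])) ?_
    exact (by fun_prop : Continuous fun z => p - (postMean μ s z - postMean μ s (z - p))).aestronglyMeasurable
  · rw [norm_smul, norm_div, Real.norm_of_nonneg (by positivity : (0:ℝ) ≤ 2 * s)]
    have h1 := gc_postMean_norm_le hr hs z
    have h2 := gc_postMean_norm_le hr hs (z - p)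
    have h3 : ‖p - (postMean μ s z - postMean μ s (z - p))‖ ≤ ‖p‖ + 2 * r := by
      calc _ ≤ ‖p‖ + ‖postMean μ s z - postMean μ s (z - p)‖ := norm_sub_le _ _
        _ ≤ ‖p‖ + (‖postMean μ s z‖ + ‖postMean μ s (z - p)‖) := by gcongr; exact norm_sub_le _ _
        _ ≤ ‖p‖ + 2 * r := by linarith
    calc ‖u z‖ / (2 * s) * ‖p - (postMean μ s z - postMean μ s (z - p))‖
        ≤ ‖u z‖ / (2 * s) * (‖p‖ + 2 * r) := by gcongr
      _ = (‖p‖ + 2 * r) / (2 * s) * ‖u z‖ := by ring

/-- the translate of an `H¹` square root is an `H¹` square root. -/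
theorem tg_translate_H1 (hb : BddSupp μ) {s : ℝ} (hs : 0 < s) {u : E → ℝ} {g : E → E}
    (h : H1 (dm (gconv μ s)) u g) (p : E) :
    H1 (dm (gconv μ s)) (fun y => tgChi μ s p y * u (y + p))
      (fun y => tgChi μ s p y • tgG μ s p u g (y + p)) := by
  have hspd := gc_spd hb hs
  have hm : Measurable (gconv μ s) := hspd.1.continuous.measurable
  refine ⟨?_, ?_, ?_⟩
  · have h1 := ws_weakGrad_mul (tg_weakGrad_translate h.1 p)
      ((tgChi_contDiff hb hs p).of_le (by exact_mod_cast le_top))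
    convert h1 using 1
    funext y
    rw [tgChi_gradient hb hs, tgG, add_sub_cancel_right, smul_sub, smul_neg, smul_smul, smul_smul,
      sub_eq_add_neg]
    congr 3
    ring
  · exact tg_cov_memLp hm hspd.2.1 p h.2.1
  · exact tg_cov_memLp hm hspd.2.1 p (tgG_memLp hb hs h.2.1 h.2.2 p)

theorem tgpot_eqns_cite : True := by
  have := @tgChi.eq_1
  have := @tgG.eq_1
  trivial

end Claimed.Agent.R259
end

/- ===== packed: Claimed.Agent.R259.TgScore ===== -/
section
/-
Row 259, kit TG, part 5: the score mean identity (3.score-mean) for `H¹` square roots.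
Owner: helper83.
-/
set_option autoImplicit false

open MeasureTheory Filter Topology
open scoped ContDiff ENNReal

namespace Claimed.Agent.R259

variable {E : Type} [NormedAddCommGroup E] [InnerProductSpace ℝ E] [FiniteDimensional ℝ E]
  [MeasurableSpace E] [BorelSpace E]

theorem tg_H1_sub {m : Measure E} {u v : E → ℝ} {g k : E → E} (h : H1 m u g) (h' : H1 m v k) :
    H1 m (fun x => u x - v x) (fun x => g x - k x) := by
  refine ⟨?_, h.2.1.sub h'.2.1, h.2.2.sub h'.2.2⟩
  have := ws_weakGrad_add h.1 (ws_weakGrad_smul (-1) h'.1)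
  convert this using 1
  · funext x; ring
  · funext x; simp [sub_eq_add_neg]

variable {μ : Measure E} [IsProbabilityMeasure μ]

/-- `∇ μ_s = - μ_s (y - b_s)/s`. -/
theorem tg_grad_gconv (hb : BddSupp μ) {s : ℝ} (hs : 0 < s) (y : E) :
    gradient (gconv μ s) y = - (gconv μ s y • (s⁻¹ • (y - postMean μ s y))) := by
  have h := gc_spd hb hs
  have hd : DifferentiableAt ℝ (gconv μ s) y := h.1.differentiable (by simp) y
  have h1 := gc_grad_log hb hs y
  have h2 : gradient (fun z => Real.log (gconv μ s z)) y = (gconv μ s y)⁻¹ • gradient (gconv μ s) y := by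
    unfold gradient
    rw [fderiv.log hd (h.2.1 y).ne', map_smul]
  rw [h2] at h1
  have h3 : gradient (gconv μ s) y = gconv μ s y • ((gconv μ s y)⁻¹ • gradient (gconv μ s) y) := by
    rw [smul_smul, mul_inv_cancel₀ (h.2.1 y).ne', one_smul]
  rw [h3, h1, smul_neg]

/-- weighted `L²` bound for the linear growth field `T = y - b_s`. -/
theorem tg_weighted (hb : BddSupp μ) {s : ℝ} (hs : 0 < s) :
    ∃ C : ℝ, 0 ≤ C ∧ ∀ (v : E → ℝ) (k : E → E), H1 (dm (gconv μ s)) v k →
      MemLp (fun x => v x • (x - postMean μ s x)) 2 (dm (gconv μ s)) ∧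
      ∫ x, ‖v x • (x - postMean μ s x)‖ ^ 2 ∂(dm (gconv μ s)) ≤
        C * (∫ x, v x ^ 2 ∂(dm (gconv μ s)) + ∫ x, ‖k x‖ ^ 2 ∂(dm (gconv μ s))) := by
  obtain ⟨C, hC⟩ := def_moment hb hs
  obtain ⟨r, hr⟩ := hb
  have hbc : Continuous (postMean μ s) := (gc_postMean_contDiff ⟨r, hr⟩ hs).continuous
  refine ⟨2 * |C| + 2 * r ^ 2, by positivity, ?_⟩
  intro v k h
  obtain ⟨hi, hle⟩ := hC v k h
  have hv2 : Integrable (fun x => v x ^ 2) (dm (gconv μ s)) := by
    simpa using h.2.1.integrable_norm_pow (by norm_num : (2:ℕ) ≠ 0)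
  have hk2 : 0 ≤ ∫ x, ‖k x‖ ^ 2 ∂(dm (gconv μ s)) := integral_nonneg fun x => by positivity
  have hv2' : 0 ≤ ∫ x, v x ^ 2 ∂(dm (gconv μ s)) := integral_nonneg fun x => by positivity
  have hpt : ∀ x, ‖v x • (x - postMean μ s x)‖ ^ 2 ≤ 2 * (‖x‖ ^ 2 * v x ^ 2) + 2 * r ^ 2 * v x ^ 2 := by
    intro x
    have h1 := gc_postMean_norm_le hr hs x
    have h2 : ‖x - postMean μ s x‖ ≤ ‖x‖ + r := (norm_sub_le _ _).trans (by linarith)
    have h3 : ‖x - postMean μ s x‖ ^ 2 ≤ 2 * ‖x‖ ^ 2 + 2 * r ^ 2 := by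
      have h0 := norm_nonneg (x - postMean μ s x)
      nlinarith [sq_nonneg (‖x‖ - r)]
    rw [norm_smul, mul_pow, Real.norm_eq_abs, sq_abs]
    nlinarith [sq_nonneg (v x)]
  have hm : AEStronglyMeasurable (fun x => v x • (x - postMean μ s x)) (dm (gconv μ s)) :=
    h.2.1.1.smul (by fun_prop : Continuous fun x => x - postMean μ s x).aestronglyMeasurable
  have hdom : Integrable (fun x => 2 * (‖x‖ ^ 2 * v x ^ 2) + 2 * r ^ 2 * v x ^ 2) (dm (gconv μ s)) :=
    (hi.const_mul 2).add (hv2.const_mul _)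
  have hint : Integrable (fun x => ‖v x • (x - postMean μ s x)‖ ^ 2) (dm (gconv μ s)) :=
    hdom.mono' (hm.norm.pow 2) (Eventually.of_forall fun x => by
      rw [Real.norm_of_nonneg (by positivity)]; exact hpt x)
  refine ⟨(memLp_two_iff_integrable_sq_norm hm).mpr hint, ?_⟩
  calc ∫ x, ‖v x • (x - postMean μ s x)‖ ^ 2 ∂(dm (gconv μ s))
      ≤ ∫ x, (2 * (‖x‖ ^ 2 * v x ^ 2) + 2 * r ^ 2 * v x ^ 2) ∂(dm (gconv μ s)) :=
        integral_mono hint hdom hpt
    _ = 2 * ∫ x, ‖x‖ ^ 2 * v x ^ 2 ∂(dm (gconv μ s)) + 2 * r ^ 2 * ∫ x, v x ^ 2 ∂(dm (gconv μ s)) := by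
        rw [integral_add (hi.const_mul 2) (hv2.const_mul _), integral_const_mul, integral_const_mul]
    _ ≤ (2 * |C| + 2 * r ^ 2) * (∫ x, v x ^ 2 ∂(dm (gconv μ s)) + ∫ x, ‖k x‖ ^ 2 ∂(dm (gconv μ s))) := by
        have h4 : C * (∫ x, v x ^ 2 ∂(dm (gconv μ s)) + ∫ x, ‖k x‖ ^ 2 ∂(dm (gconv μ s))) ≤
            |C| * (∫ x, v x ^ 2 ∂(dm (gconv μ s)) + ∫ x, ‖k x‖ ^ 2 ∂(dm (gconv μ s))) :=
          mul_le_mul_of_nonneg_right (le_abs_self C) (by positivity)
        have h5 : 0 ≤ r ^ 2 * ∫ x, ‖k x‖ ^ 2 ∂(dm (gconv μ s)) := by positivity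
        nlinarith

/-- the identity for test functions. -/
theorem tg_score_test (hb : BddSupp μ) {s : ℝ} (hs : 0 < s) {φ : E → ℝ} (hφ : IsTest φ) :
    (2 : ℝ) • ∫ x, φ x • gradient φ x ∂(dm (gconv μ s)) =
      s⁻¹ • ∫ x, φ x • (φ x • (x - postMean μ s x)) ∂(dm (gconv μ s)) := by
  have h := gc_spd hb hs
  have hm : Measurable (gconv μ s) := h.1.continuous.measurable
  have h0 : ∀ x, 0 ≤ gconv μ s x := fun x => (h.2.1 x).le
  rw [ws_integral_dm hm h0, ws_integral_dm hm h0]
  have hw := ws_weakGrad_test_C1 (ws_weakGrad_of_contDiff (h.1.of_le (by exact_mod_cast le_top)))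
    (ζ := fun x => φ x ^ 2) ((hφ.1.pow 2).of_le (by exact_mod_cast le_top))
    (by
      have := hφ.2.mul_left (f := φ)
      simpa [pow_two, Pi.mul_def] using this)
  have hg : ∀ x, gradient (fun x => φ x ^ 2) x = (2 * φ x) • gradient φ x := by
    intro x
    have hd : DifferentiableAt ℝ φ x := hφ.1.differentiable (by simp) x
    unfold gradient
    have : fderiv ℝ (fun x => φ x ^ 2) x = (2 * φ x) • fderiv ℝ φ x := by
      have := (hd.hasFDerivAt.pow 2).fderiv
      simpa using this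
    rw [this, map_smul]
  simp only [hg, tg_grad_gconv hb hs] at hw
  rw [← integral_smul, ← integral_smul]
  calc ∫ x, (2 : ℝ) • gconv μ s x • φ x • gradient φ x
      = ∫ x, gconv μ s x • (2 * φ x) • gradient φ x := by
        refine integral_congr_ae (Eventually.of_forall fun x => ?_)
        simp only [smul_smul]; congr 1; ring
    _ = - ∫ x, φ x ^ 2 • -(gconv μ s x • s⁻¹ • (x - postMean μ s x)) := hw
    _ = ∫ x, s⁻¹ • gconv μ s x • φ x • φ x • (x - postMean μ s x) := by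
        rw [← integral_neg]
        refine integral_congr_ae (Eventually.of_forall fun x => ?_)
        simp only [smul_neg, neg_neg, smul_smul]; congr 1; ring

/-- (3.score-mean). -/
theorem tg_score (hb : BddSupp μ) {s : ℝ} (hs : 0 < s) {u : E → ℝ} {g : E → E}
    (h : H1 (dm (gconv μ s)) u g) :
    (2 : ℝ) • ∫ x, u x • g x ∂(dm (gconv μ s)) =
      s⁻¹ • ∫ x, u x • (u x • (x - postMean μ s x)) ∂(dm (gconv μ s)) := by
  have hspd := gc_spd hb hs
  obtain ⟨φ, hφ, hc1, hc2⟩ := ws_dense hspd.1.continuous hspd.2.1 h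
  obtain ⟨C, hC0, hC⟩ := tg_weighted hb hs
  have hH : ∀ k, H1 (dm (gconv μ s)) (φ k) (gradient (φ k)) :=
    fun k => ws_H1_of_test hspd.1.continuous hspd.2.1 (hφ k)
  have l1 := tg_tendsto_smul (fun k => (hH k).2.1) h.2.1 (fun k => (hH k).2.2) h.2.2 hc1 hc2
  have hc3 : Tendsto (fun k => ∫ x, ‖φ k x • (x - postMean μ s x) - u x • (x - postMean μ s x)‖ ^ 2
      ∂(dm (gconv μ s))) atTop (𝓝 0) := by
    have hup : Tendsto (fun k => C * (∫ x, (φ k x - u x) ^ 2 ∂(dm (gconv μ s)) +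
        ∫ x, ‖gradient (φ k) x - g x‖ ^ 2 ∂(dm (gconv μ s)))) atTop (𝓝 0) := by
      simpa using (hc1.add hc2).const_mul C
    refine tendsto_of_tendsto_of_tendsto_of_le_of_le tendsto_const_nhds hup
      (fun k => integral_nonneg fun x => by positivity) (fun k => ?_)
    have := (hC _ _ (tg_H1_sub (hH k) h)).2
    simpa only [sub_smul] using this
  have l2 := tg_tendsto_smul (fun k => (hH k).2.1) h.2.1 (fun k => (hC _ _ (hH k)).1)
    (hC _ _ h).1 hc1 hc3
  have e : ∀ k, (2 : ℝ) • ∫ x, φ k x • gradient (φ k) x ∂(dm (gconv μ s)) =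
      s⁻¹ • ∫ x, φ k x • (φ k x • (x - postMean μ s x)) ∂(dm (gconv μ s)) :=
    fun k => tg_score_test hb hs (hφ k)
  exact tendsto_nhds_unique ((l1.const_smul (2 : ℝ)).congr e) (l2.const_smul s⁻¹)

end Claimed.Agent.R259
end

/- ===== packed: Claimed.Agent.R259.TgCore ===== -/
section
/-
Row 259, kit TG, part 6: entropy, means and energy of the translate.
Owner: helper83.
-/
set_option autoImplicit false

open MeasureTheory Filter Topology
open scoped ContDiff ENNReal

namespace Claimed.Agent.R259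

variable {E : Type} [NormedAddCommGroup E] [InnerProductSpace ℝ E] [FiniteDimensional ℝ E]
  [MeasurableSpace E] [BorelSpace E]
variable {μ : Measure E} [IsProbabilityMeasure μ]

theorem tgChi_sq (hb : BddSupp μ) {s : ℝ} (hs : 0 < s) (p y : E) :
    tgChi μ s p y ^ 2 = gconv μ s (y + p) / gconv μ s y := by
  have h := (gc_spd hb hs).2.1
  exact Real.sq_sqrt (div_pos (h _) (h _)).le

/-- change of variables for statistics of the translate. -/
theorem tg_tr_vec (hb : BddSupp μ) {s : ℝ} (hs : 0 < s) (u : E → ℝ) (p : E)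
    {F : Type} [NormedAddCommGroup F] [NormedSpace ℝ F] (Φ : E → F) :
    ∫ y, (tgChi μ s p y * u (y + p)) ^ 2 • Φ y ∂(dm (gconv μ s)) =
      ∫ z, u z ^ 2 • Φ (z - p) ∂(dm (gconv μ s)) := by
  have hspd := gc_spd hb hs
  rw [← tg_cov hspd.1.continuous.measurable hspd.2.1 p (fun z => u z ^ 2 • Φ (z - p))]
  refine integral_congr_ae (Eventually.of_forall fun y => ?_)
  simp only [mul_pow, tgChi_sq hb hs, add_sub_cancel_right, smul_smul]

theorem tg_tr_norm (hb : BddSupp μ) {s : ℝ} (hs : 0 < s) (u : E → ℝ) (p : E) :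
    ∫ y, (tgChi μ s p y * u (y + p)) ^ 2 ∂(dm (gconv μ s)) = ∫ z, u z ^ 2 ∂(dm (gconv μ s)) := by
  simpa using tg_tr_vec hb hs u p (fun _ => (1 : ℝ))

theorem tg_tr_ent (hb : BddSupp μ) {s : ℝ} (hs : 0 < s) (u : E → ℝ) (p : E) :
    ∫ y, (tgChi μ s p y * u (y + p)) ^ 2 * Real.log ((tgChi μ s p y * u (y + p)) ^ 2)
        ∂(dm (gconv μ s)) =
      ∫ z, (u z ^ 2 * Real.log (u z ^ 2) + u z ^ 2 * (potV μ s (z - p) - potV μ s z))
        ∂(dm (gconv μ s)) := by
  have hspd := gc_spd hb hs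
  rw [← tg_cov hspd.1.continuous.measurable hspd.2.1 p
    (fun z => u z ^ 2 * Real.log (u z ^ 2) + u z ^ 2 * (potV μ s (z - p) - potV μ s z))]
  refine integral_congr_ae (Eventually.of_forall fun y => ?_)
  simp only [mul_pow, tgChi_sq hb hs, add_sub_cancel_right, smul_eq_mul, potV]
  have h1 := hspd.2.1 (y + p)
  have h2 := hspd.2.1 y
  rcases eq_or_ne (u (y + p)) 0 with h0 | h0
  · simp [h0]
  · have h3 : u (y + p) ^ 2 ≠ 0 := pow_ne_zero 2 h0
    rw [Real.log_mul (div_pos h1 h2).ne' h3, Real.log_div h1.ne' h2.ne']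
    ring

theorem tg_tr_nrg (hb : BddSupp μ) {s : ℝ} (hs : 0 < s) (u : E → ℝ) (g : E → E) (p : E) :
    ∫ y, ‖tgChi μ s p y • tgG μ s p u g (y + p)‖ ^ 2 ∂(dm (gconv μ s)) =
      ∫ z, ‖tgG μ s p u g z‖ ^ 2 ∂(dm (gconv μ s)) := by
  have hspd := gc_spd hb hs
  rw [← tg_cov hspd.1.continuous.measurable hspd.2.1 p (fun z => ‖tgG μ s p u g z‖ ^ 2)]
  refine integral_congr_ae (Eventually.of_forall fun y => ?_)
  simp only [norm_smul, mul_pow, Real.norm_eq_abs, sq_abs, tgChi_sq hb hs, smul_eq_mul]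

theorem tg_integral_inner_const {α : Type} [MeasurableSpace α] {m : Measure α} {f : α → E}
    (hf : Integrable f m) (c : E) : ∫ x, inner ℝ (f x) c ∂m = inner ℝ (∫ x, f x ∂m) c := by
  rw [real_inner_comm, ← integral_inner hf]
  simp only [real_inner_comm]

/-- bounded continuous statistics are integrable against `u² ν`. -/
theorem tg_int_bdd {m : Measure E} {u : E → ℝ} (hu : MemLp u 2 m) {F : Type}
    [NormedAddCommGroup F] [NormedSpace ℝ F] {Φ : E → F} (hΦ : Continuous Φ) {C : ℝ}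
    (hC : ∀ x, ‖Φ x‖ ≤ C) : Integrable (fun x => u x ^ 2 • Φ x) m := by
  have hu2 : Integrable (fun x => u x ^ 2) m := by
    simpa using hu.integrable_norm_pow (by norm_num : (2:ℕ) ≠ 0)
  refine (hu2.mul_const C).mono' (hu2.1.smul hΦ.aestronglyMeasurable)
    (Eventually.of_forall fun x => ?_)
  rw [norm_smul, Real.norm_of_nonneg (by positivity)]
  exact mul_le_mul_of_nonneg_left (hC x) (by positivity)

/-- two sided bound of the entropy of the translate. -/
theorem tg_tr_ent_bounds (hb : BddSupp μ) (hlc : ∃ ρ : E → ℝ, LogConc ρ ∧ μ = dm ρ) {s : ℝ}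
    (hs : 0 < s) {u : E → ℝ} (hu : MemLp u 2 (dm (gconv μ s)))
    (hu1 : ∫ x, u x ^ 2 ∂(dm (gconv μ s)) = 1)
    (hqi : Integrable (fun x => u x ^ 2 * Real.log (u x ^ 2)) (dm (gconv μ s)))
    (hx : Integrable (fun x => u x ^ 2 • x) (dm (gconv μ s))) (p : E) :
    (∫ x, u x ^ 2 * Real.log (u x ^ 2) ∂(dm (gconv μ s))
        - inner ℝ (∫ x, u x ^ 2 • x ∂(dm (gconv μ s))) p / s + ‖p‖ ^ 2 / (2 * s)
        + inner ℝ (∫ x, u x ^ 2 • postMean μ s (x - p) ∂(dm (gconv μ s))) p / s ≤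
      ∫ y, (tgChi μ s p y * u (y + p)) ^ 2 * Real.log ((tgChi μ s p y * u (y + p)) ^ 2)
        ∂(dm (gconv μ s))) ∧
    (∫ y, (tgChi μ s p y * u (y + p)) ^ 2 * Real.log ((tgChi μ s p y * u (y + p)) ^ 2)
        ∂(dm (gconv μ s)) ≤
      ∫ x, u x ^ 2 * Real.log (u x ^ 2) ∂(dm (gconv μ s))
        - inner ℝ (∫ x, u x ^ 2 • x ∂(dm (gconv μ s))) p / s + ‖p‖ ^ 2 / (2 * s)
        + inner ℝ (∫ x, u x ^ 2 • postMean μ s x ∂(dm (gconv μ s))) p / s) := by
  obtain ⟨r, hr⟩ := id hb
  have hbc : Continuous (postMean μ s) := (gc_postMean_contDiff hb hs).continuous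
  have hVc : Continuous (potV μ s) := (gc_potV_contDiff hb hs).continuous
  have hu2 : Integrable (fun x => u x ^ 2) (dm (gconv μ s)) := by
    simpa using hu.integrable_norm_pow (by norm_num : (2:ℕ) ≠ 0)
  have hb0 : Integrable (fun x => u x ^ 2 • postMean μ s x) (dm (gconv μ s)) :=
    tg_int_bdd hu hbc (fun x => gc_postMean_norm_le hr hs x)
  have hb1 : Integrable (fun x => u x ^ 2 • postMean μ s (x - p)) (dm (gconv μ s)) :=
    tg_int_bdd hu (by fun_prop) (fun x => gc_postMean_norm_le hr hs (x - p))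
  -- the two comparison functions
  set Lo : E → ℝ := fun z => - inner ℝ (u z ^ 2 • z) p / s + u z ^ 2 * (‖p‖ ^ 2 / (2 * s)) +
    inner ℝ (u z ^ 2 • postMean μ s (z - p)) p / s with hLo
  set Up : E → ℝ := fun z => - inner ℝ (u z ^ 2 • z) p / s + u z ^ 2 * (‖p‖ ^ 2 / (2 * s)) +
    inner ℝ (u z ^ 2 • postMean μ s z) p / s with hUp
  have hLoi : Integrable Lo (dm (gconv μ s)) :=
    (((hx.inner_const p).neg.div_const s).add (hu2.mul_const _)).add ((hb1.inner_const p).div_const s)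
  have hUpi : Integrable Up (dm (gconv μ s)) :=
    (((hx.inner_const p).neg.div_const s).add (hu2.mul_const _)).add ((hb0.inner_const p).div_const s)
  have hlo : ∀ z, Lo z ≤ u z ^ 2 * (potV μ s (z - p) - potV μ s z) := by
    intro z
    have := mul_le_mul_of_nonneg_left (tg_potV_lower hb hlc hs z p) (sq_nonneg (u z))
    refine le_trans (le_of_eq ?_) this
    simp only [hLo, inner_smul_left, conj_trivial]
    ring
  have hup : ∀ z, u z ^ 2 * (potV μ s (z - p) - potV μ s z) ≤ Up z := by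
    intro z
    have := mul_le_mul_of_nonneg_left (tg_potV_upper hb hlc hs z p) (sq_nonneg (u z))
    refine le_trans this (le_of_eq ?_)
    simp only [hUp, inner_smul_left, conj_trivial]
    ring
  have hmid : Integrable (fun z => u z ^ 2 * (potV μ s (z - p) - potV μ s z)) (dm (gconv μ s)) := by
    refine (hLoi.abs.add hUpi.abs).mono' (hu2.1.mul
      (by fun_prop : Continuous fun z => potV μ s (z - p) - potV μ s z).aestronglyMeasurable)
      (Eventually.of_forall fun z => ?_)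
    rw [Real.norm_eq_abs, abs_le]
    simp only [Pi.add_apply]
    constructor
    · have := hlo z
      have h1 := neg_abs_le (Lo z)
      have h2 := abs_nonneg (Up z)
      linarith
    · have := hup z
      have h1 := le_abs_self (Up z)
      have h2 := abs_nonneg (Lo z)
      linarith
  have eLo : ∫ z, Lo z ∂(dm (gconv μ s)) =
      - inner ℝ (∫ x, u x ^ 2 • x ∂(dm (gconv μ s))) p / s + ‖p‖ ^ 2 / (2 * s)
        + inner ℝ (∫ x, u x ^ 2 • postMean μ s (x - p) ∂(dm (gconv μ s))) p / s := by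
    have i1 : Integrable (fun z => - inner ℝ (u z ^ 2 • z) p / s) (dm (gconv μ s)) :=
      (hx.inner_const p).neg.div_const s
    have i2 : Integrable (fun z => u z ^ 2 * (‖p‖ ^ 2 / (2 * s))) (dm (gconv μ s)) :=
      hu2.mul_const _
    have i3 : Integrable (fun z => inner ℝ (u z ^ 2 • postMean μ s (z - p)) p / s)
        (dm (gconv μ s)) := (hb1.inner_const p).div_const s
    have i12 : Integrable (fun z => - inner ℝ (u z ^ 2 • z) p / s + u z ^ 2 * (‖p‖ ^ 2 / (2 * s)))
        (dm (gconv μ s)) := i1.add i2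
    simp only [hLo]
    rw [integral_add i12 i3, integral_add i1 i2, integral_div, integral_div, integral_neg,
      integral_mul_const, hu1, tg_integral_inner_const hx, tg_integral_inner_const hb1]
    ring
  have eUp : ∫ z, Up z ∂(dm (gconv μ s)) =
      - inner ℝ (∫ x, u x ^ 2 • x ∂(dm (gconv μ s))) p / s + ‖p‖ ^ 2 / (2 * s)
        + inner ℝ (∫ x, u x ^ 2 • postMean μ s x ∂(dm (gconv μ s))) p / s := by
    have i1 : Integrable (fun z => - inner ℝ (u z ^ 2 • z) p / s) (dm (gconv μ s)) :=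
      (hx.inner_const p).neg.div_const s
    have i2 : Integrable (fun z => u z ^ 2 * (‖p‖ ^ 2 / (2 * s))) (dm (gconv μ s)) :=
      hu2.mul_const _
    have i3 : Integrable (fun z => inner ℝ (u z ^ 2 • postMean μ s z) p / s)
        (dm (gconv μ s)) := (hb0.inner_const p).div_const s
    have i12 : Integrable (fun z => - inner ℝ (u z ^ 2 • z) p / s + u z ^ 2 * (‖p‖ ^ 2 / (2 * s)))
        (dm (gconv μ s)) := i1.add i2
    simp only [hUp]
    rw [integral_add i12 i3, integral_add i1 i2, integral_div, integral_div, integral_neg,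
      integral_mul_const, hu1, tg_integral_inner_const hx, tg_integral_inner_const hb0]
    ring
  rw [tg_tr_ent hb hs, integral_add hqi hmid]
  constructor
  · have := integral_mono hLoi hmid hlo
    rw [eLo, neg_div] at this
    linarith
  · have := integral_mono hmid hUpi hup
    rw [eUp, neg_div] at this
    linarith


/-- `E_σ |d|² ≤ ⟨p, E_σ b(Y) - E_σ b(Y - p)⟩`. -/
theorem tg_d_bound (hb : BddSupp μ) (hlc : ∃ ρ : E → ℝ, LogConc ρ ∧ μ = dm ρ) {s : ℝ}
    (hs : 0 < s) {u : E → ℝ} (hu : MemLp u 2 (dm (gconv μ s))) (p : E) :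
    Integrable (fun z => u z ^ 2 * ‖postMean μ s z - postMean μ s (z - p)‖ ^ 2) (dm (gconv μ s)) ∧
    ∫ z, u z ^ 2 * ‖postMean μ s z - postMean μ s (z - p)‖ ^ 2 ∂(dm (gconv μ s)) ≤
      inner ℝ (∫ x, u x ^ 2 • postMean μ s x ∂(dm (gconv μ s)) -
        ∫ x, u x ^ 2 • postMean μ s (x - p) ∂(dm (gconv μ s))) p := by
  obtain ⟨r, hr⟩ := id hb
  have hbc : Continuous (postMean μ s) := (gc_postMean_contDiff hb hs).continuous
  have hb0 : Integrable (fun x => u x ^ 2 • postMean μ s x) (dm (gconv μ s)) :=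
    tg_int_bdd hu hbc (fun x => gc_postMean_norm_le hr hs x)
  have hb1 : Integrable (fun x => u x ^ 2 • postMean μ s (x - p)) (dm (gconv μ s)) :=
    tg_int_bdd hu (by fun_prop) (fun x => gc_postMean_norm_le hr hs (x - p))
  have hr0 : 0 ≤ r := le_trans (norm_nonneg _) (gc_postMean_norm_le hr hs 0)
  have hi : Integrable (fun z => u z ^ 2 * ‖postMean μ s z - postMean μ s (z - p)‖ ^ 2)
      (dm (gconv μ s)) := by
    have := tg_int_bdd hu (Φ := fun z => ‖postMean μ s z - postMean μ s (z - p)‖ ^ 2)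
      (by fun_prop) (C := (2 * r) ^ 2) (fun z => by
        rw [Real.norm_of_nonneg (by positivity)]
        have h1 := gc_postMean_norm_le hr hs z
        have h2 := gc_postMean_norm_le hr hs (z - p)
        have h3 : ‖postMean μ s z - postMean μ s (z - p)‖ ≤ 2 * r :=
          (norm_sub_le _ _).trans (by linarith)
        exact pow_le_pow_left₀ (norm_nonneg _) h3 2)
    simpa only [smul_eq_mul] using this
  refine ⟨hi, ?_⟩
  have hb01 : Integrable (fun x => u x ^ 2 • postMean μ s x - u x ^ 2 • postMean μ s (x - p))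
      (dm (gconv μ s)) := hb0.sub hb1
  rw [← integral_sub hb0 hb1, ← tg_integral_inner_const hb01]
  refine integral_mono hi (hb01.inner_const p) (fun z => ?_)
  have := gc_postMean_diff_sq_le hb hlc hs z p
  simp only [← smul_sub, inner_smul_left, conj_trivial]
  rw [real_inner_comm]
  exact mul_le_mul_of_nonneg_left this (sq_nonneg _)

/-- upper bound of the energy of the translate. -/
theorem tg_tr_nrg_bound (hb : BddSupp μ) (hlc : ∃ ρ : E → ℝ, LogConc ρ ∧ μ = dm ρ) {s : ℝ}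
    (hs : 0 < s) {u : E → ℝ} {g : E → E} (hu : MemLp u 2 (dm (gconv μ s)))
    (hg : MemLp g 2 (dm (gconv μ s))) (hu1 : ∫ x, u x ^ 2 ∂(dm (gconv μ s)) = 1) (p : E)
    {θ : ℝ} (hθ : 0 < θ) :
    4 * ∫ z, ‖tgG μ s p u g z‖ ^ 2 ∂(dm (gconv μ s)) ≤
      4 * ∫ z, ‖g z‖ ^ 2 ∂(dm (gconv μ s))
        - 4 / s * inner ℝ (∫ z, u z • g z ∂(dm (gconv μ s))) p
        + 2 / s * (θ * ∫ z, ‖g z‖ ^ 2 ∂(dm (gconv μ s)) + θ⁻¹ *
            ∫ z, u z ^ 2 * ‖postMean μ s z - postMean μ s (z - p)‖ ^ 2 ∂(dm (gconv μ s)))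
        + ‖p‖ ^ 2 / s ^ 2 := by
  have hu2 : Integrable (fun x => u x ^ 2) (dm (gconv μ s)) := by
    simpa using hu.integrable_norm_pow (by norm_num : (2:ℕ) ≠ 0)
  have hg2 : Integrable (fun x => ‖g x‖ ^ 2) (dm (gconv μ s)) :=
    hg.integrable_norm_pow (by norm_num : (2:ℕ) ≠ 0)
  have hug : Integrable (fun x => u x • g x) (dm (gconv μ s)) := tg_integrable_smul hu hg
  have hd := (tg_d_bound hb hlc hs hu p).1
  have hG : Integrable (fun z => ‖tgG μ s p u g z‖ ^ 2) (dm (gconv μ s)) :=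
    (tgG_memLp hb hs hu hg p).integrable_norm_pow (by norm_num : (2:ℕ) ≠ 0)
  have j1 : Integrable (fun z => 4 * ‖g z‖ ^ 2) (dm (gconv μ s)) := hg2.const_mul 4
  have j2 : Integrable (fun z => 4 / s * inner ℝ (u z • g z) p) (dm (gconv μ s)) :=
    (hug.inner_const p).const_mul _
  have j3 : Integrable (fun z => 2 / s * (θ * ‖g z‖ ^ 2 + θ⁻¹ *
      (u z ^ 2 * ‖postMean μ s z - postMean μ s (z - p)‖ ^ 2))) (dm (gconv μ s)) :=
    ((hg2.const_mul θ).add (hd.const_mul θ⁻¹)).const_mul _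
  have j4 : Integrable (fun z => u z ^ 2 * (‖p‖ ^ 2 / s ^ 2)) (dm (gconv μ s)) := hu2.mul_const _
  have j12 : Integrable (fun z => 4 * ‖g z‖ ^ 2 - 4 / s * inner ℝ (u z • g z) p) (dm (gconv μ s)) :=
    j1.sub j2
  have j123 : Integrable (fun z => 4 * ‖g z‖ ^ 2 - 4 / s * inner ℝ (u z • g z) p +
      2 / s * (θ * ‖g z‖ ^ 2 + θ⁻¹ *
      (u z ^ 2 * ‖postMean μ s z - postMean μ s (z - p)‖ ^ 2))) (dm (gconv μ s)) := j12.add j3
  have hpt : ∀ z, 4 * ‖tgG μ s p u g z‖ ^ 2 ≤
      4 * ‖g z‖ ^ 2 - 4 / s * inner ℝ (u z • g z) p +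
      2 / s * (θ * ‖g z‖ ^ 2 + θ⁻¹ *
      (u z ^ 2 * ‖postMean μ s z - postMean μ s (z - p)‖ ^ 2)) + u z ^ 2 * (‖p‖ ^ 2 / s ^ 2) := by
    intro z
    set d := postMean μ s z - postMean μ s (z - p) with hd'
    have hdd : ‖d‖ ^ 2 ≤ inner ℝ p d := gc_postMean_diff_sq_le hb hlc hs z p
    have e1 : ‖tgG μ s p u g z‖ ^ 2 = ‖g z‖ ^ 2 - u z / s * inner ℝ (g z) (p - d) +
        (u z / (2 * s)) ^ 2 * ‖p - d‖ ^ 2 := by
      unfold tgG
      rw [← hd', norm_sub_sq_real, inner_smul_right, norm_smul, mul_pow, Real.norm_eq_abs, sq_abs]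
      field_simp
    have e2 : ‖p - d‖ ^ 2 ≤ ‖p‖ ^ 2 := by
      rw [norm_sub_sq_real]
      nlinarith [sq_nonneg ‖d‖]
    have e3 : 2 * (u z * inner ℝ (g z) d) ≤ θ * ‖g z‖ ^ 2 + θ⁻¹ * (u z ^ 2 * ‖d‖ ^ 2) := by
      have h1 : u z * inner ℝ (g z) d ≤ ‖g z‖ * (|u z| * ‖d‖) := by
        calc u z * inner ℝ (g z) d ≤ |u z * inner ℝ (g z) d| := le_abs_self _
          _ = |u z| * |inner ℝ (g z) d| := abs_mul _ _
          _ ≤ |u z| * (‖g z‖ * ‖d‖) := by gcongr; exact abs_real_inner_le_norm _ _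
          _ = ‖g z‖ * (|u z| * ‖d‖) := by ring
      have h2 : 2 * (‖g z‖ * (|u z| * ‖d‖)) ≤ θ * ‖g z‖ ^ 2 + θ⁻¹ * (|u z| * ‖d‖) ^ 2 := by
        have h3 : 0 ≤ θ⁻¹ * (θ * ‖g z‖ - |u z| * ‖d‖) ^ 2 := by positivity
        have h4 : θ⁻¹ * (θ * ‖g z‖ - |u z| * ‖d‖) ^ 2 =
            θ * ‖g z‖ ^ 2 - 2 * (‖g z‖ * (|u z| * ‖d‖)) + θ⁻¹ * (|u z| * ‖d‖) ^ 2 := by
          field_simp
          ring
        linarith
      rw [mul_pow, sq_abs] at h2
      linarith
    rw [e1, inner_sub_right, inner_smul_left, conj_trivial]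
    have hs2 : 0 < 2 / s := by positivity
    have e4 := mul_le_mul_of_nonneg_left e3 hs2.le
    have e5 : 4 * ((u z / (2 * s)) ^ 2 * ‖p - d‖ ^ 2) ≤ u z ^ 2 * (‖p‖ ^ 2 / s ^ 2) := by
      have : 4 * ((u z / (2 * s)) ^ 2 * ‖p - d‖ ^ 2) = u z ^ 2 * (‖p - d‖ ^ 2 / s ^ 2) := by
        field_simp
        ring
      rw [this]
      gcongr
    have e6 : 2 / s * (2 * (u z * inner ℝ (g z) d)) = 4 * (u z / s * inner ℝ (g z) d) := by
      field_simp
      ring
    have e7 : 4 / s * (u z * inner ℝ (g z) p) = 4 * (u z / s * inner ℝ (g z) p) := by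
      field_simp
    rw [e6] at e4
    rw [e7]
    nlinarith
  have j1234 : Integrable (fun z => 4 * ‖g z‖ ^ 2 - 4 / s * inner ℝ (u z • g z) p +
      2 / s * (θ * ‖g z‖ ^ 2 + θ⁻¹ *
      (u z ^ 2 * ‖postMean μ s z - postMean μ s (z - p)‖ ^ 2)) + u z ^ 2 * (‖p‖ ^ 2 / s ^ 2))
      (dm (gconv μ s)) := j123.add j4
  have hI := integral_mono (hG.const_mul 4) j1234 hpt
  rw [integral_const_mul, integral_add j123 j4, integral_add j12 j3, integral_sub j1 j2,
    integral_const_mul, integral_const_mul, integral_const_mul,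
    integral_add (hg2.const_mul θ) (hd.const_mul θ⁻¹), integral_const_mul, integral_const_mul,
    integral_mul_const, hu1, tg_integral_inner_const hug, one_mul] at hI
  exact hI

end Claimed.Agent.R259
end

/- ===== packed: Claimed.Agent.R259.Tg ===== -/
section
/-
Row 259, kit TG (Lemma 3.6, translation gain).  Owner: helper83.  Sorry-free on top of the exports of WS, GC, Dfc.
Proof: directly for `H¹` square roots.  The translate of `u² ν` by `-p` has the `H¹` square root
`tgChi * u(· + p)` (TgPot); its entropy, posterior mean and energy are computed by a change of variables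
(TgCore); entropic bounds of the means by Donsker-Varadhan (TgDv, Subg, gc_mgf); the score mean identity by
density of test functions (TgScore); LSI for the translate (ws_LSI_H1) and the arithmetic of TgNum.
-/
set_option autoImplicit false

open MeasureTheory Filter Topology ProbabilityTheory
open scoped ContDiff ENNReal

namespace Claimed.Agent.R259

variable {E : Type} [NormedAddCommGroup E] [InnerProductSpace ℝ E] [FiniteDimensional ℝ E]
  [MeasurableSpace E] [BorelSpace E]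

/-- (3.entropic-means) -/
theorem tg_means : ∃ C₁ C₂ : ℝ, 0 < C₁ ∧ 0 < C₂ ∧ ∀ (E : Type) [NormedAddCommGroup E]
    [InnerProductSpace ℝ E] [FiniteDimensional ℝ E] [MeasurableSpace E] [BorelSpace E]
    (μ : Measure E) (a σ : ℝ), BaseLaw μ a → a ≤ 1 → 0 < σ → σ ≤ 3 / 8 →
    ∀ u : E → ℝ, ∫ x, u x ^ 2 ∂(dm (gconv μ σ)) = 1 →
      Integrable (fun x => u x ^ 2 * Real.log (u x ^ 2)) (dm (gconv μ σ)) →
      Integrable (fun x => u x ^ 2 • x) (dm (gconv μ σ)) ∧
      ‖∫ x, u x ^ 2 • x ∂(dm (gconv μ σ))‖ ^ 2 ≤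
        C₁ * ∫ x, u x ^ 2 * Real.log (u x ^ 2) ∂(dm (gconv μ σ)) ∧
      ‖∫ x, u x ^ 2 • postMean μ σ x ∂(dm (gconv μ σ))‖ ^ 2 ≤
        C₂ * a ^ 2 * ∫ x, u x ^ 2 * Real.log (u x ^ 2) ∂(dm (gconv μ σ)) := by
  obtain ⟨Cs, hCs, hS⟩ := subg_mgf
  refine ⟨4 * (Cs + 3 / 16), 4 * Cs, by positivity, by positivity, ?_⟩
  intro E _ _ _ _ _ μ a σ hμ ha hσ hσ2 u hu1 hqi
  have := hμ.prob
  have hprob : IsProbabilityMeasure (dm (gconv μ σ)) := gc_isProb hσ
  have ha0 := hμ.apos
  have ha2 : a ^ 2 ≤ 1 := by nlinarith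
  obtain ⟨r, hr⟩ := id hμ.bdd
  have hbc : Continuous (postMean μ σ) := (gc_postMean_contDiff hμ.bdd hσ).continuous
  have h1 := tg_entropic_mean (m := dm (gconv μ σ)) (q := fun x => u x ^ 2) (T := fun x : E => x)
    (c := Cs + 3 / 16) (by positivity) (fun x => sq_nonneg _) hu1 hqi
    continuous_id.aestronglyMeasurable (fun v => (gc_mgf hμ.bdd hσ v).1) (fun v => by
      rw [(gc_mgf hμ.bdd hσ v).2]
      calc Real.exp (σ * ‖v‖ ^ 2 / 2) * ∫ x, Real.exp (inner ℝ v x) ∂μ
          ≤ Real.exp (σ * ‖v‖ ^ 2 / 2) * Real.exp (Cs * a ^ 2 * ‖v‖ ^ 2) :=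
            mul_le_mul_of_nonneg_left (hS E μ a hμ v) (Real.exp_pos _).le
        _ = Real.exp (σ * ‖v‖ ^ 2 / 2 + Cs * a ^ 2 * ‖v‖ ^ 2) := (Real.exp_add _ _).symm
        _ ≤ Real.exp ((Cs + 3 / 16) * ‖v‖ ^ 2) := by
            apply Real.exp_le_exp.mpr
            have hv : 0 ≤ ‖v‖ ^ 2 := by positivity
            have e1 : σ * ‖v‖ ^ 2 ≤ 3 / 8 * ‖v‖ ^ 2 := mul_le_mul_of_nonneg_right hσ2 hv
            have e2 : Cs * a ^ 2 * ‖v‖ ^ 2 ≤ Cs * 1 * ‖v‖ ^ 2 := by gcongr
            linarith)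
  have h2 := tg_entropic_mean (m := dm (gconv μ σ)) (q := fun x => u x ^ 2) (T := postMean μ σ)
    (c := Cs * a ^ 2) (by positivity) (fun x => sq_nonneg _) hu1 hqi
    hbc.aestronglyMeasurable (fun v => by
      refine (integrable_const (Real.exp (‖v‖ * r))).mono'
        (by fun_prop : Continuous fun x => Real.exp (inner ℝ v (postMean μ σ x))).aestronglyMeasurable
        (Eventually.of_forall fun x => ?_)
      rw [Real.norm_of_nonneg (Real.exp_pos _).le]
      apply Real.exp_le_exp.mpr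
      calc inner ℝ v (postMean μ σ x) ≤ ‖v‖ * ‖postMean μ σ x‖ := real_inner_le_norm _ _
        _ ≤ ‖v‖ * r := by gcongr; exact gc_postMean_norm_le hr hσ x)
    (fun v => (gc_mgf_postMean hμ.bdd hσ v).trans (hS E μ a hμ v))
  refine ⟨h1.1, h1.2, ?_⟩
  refine h2.2.trans (le_of_eq ?_)
  ring

/-- LEMMA 3.6 with (3.entropic-means) and (3.score-mean).  `σ ∈ [1/8, 3/8]`, `lam ∈ [4/5, 4/3]`. -/
theorem tg_main : ∃ C : ℝ, 0 < C ∧ ∀ (E : Type) [NormedAddCommGroup E] [InnerProductSpace ℝ E]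
    [FiniteDimensional ℝ E] [MeasurableSpace E] [BorelSpace E] (μ : Measure E) (a σ lam : ℝ),
    BaseLaw μ a → a ≤ 1 → 1 / 8 ≤ σ → σ ≤ 3 / 8 → 4 / 5 ≤ lam → lam ≤ 4 / 3 →
    LSI (dm (gconv μ σ)) lam⁻¹ →
    ∀ (u : E → ℝ) (g : E → E), H1 (dm (gconv μ σ)) u g → ∫ x, u x ^ 2 ∂(dm (gconv μ σ)) = 1 →
      Integrable (fun x => u x ^ 2 • x) (dm (gconv μ σ)) ∧
      ‖∫ x, u x ^ 2 • x ∂(dm (gconv μ σ))‖ ^ 2 ≤
        C * ∫ x, u x ^ 2 * Real.log (u x ^ 2) ∂(dm (gconv μ σ)) ∧
      ‖∫ x, u x ^ 2 • postMean μ σ x ∂(dm (gconv μ σ))‖ ^ 2 ≤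
        C * a ^ 2 * ∫ x, u x ^ 2 * Real.log (u x ^ 2) ∂(dm (gconv μ σ)) ∧
      (2 : ℝ) • ∫ x, u x • g x ∂(dm (gconv μ σ)) =
        σ⁻¹ • (∫ x, u x ^ 2 • x ∂(dm (gconv μ σ)) -
          ∫ x, u x ^ 2 • postMean μ σ x ∂(dm (gconv μ σ))) ∧
      (σ⁻¹ ^ 2 - lam / σ) * ‖∫ x, u x ^ 2 • x ∂(dm (gconv μ σ))‖ ^ 2
          - C * Real.sqrt a * (4 * ∫ x, ‖g x‖ ^ 2 ∂(dm (gconv μ σ)) +
              ∫ x, u x ^ 2 * Real.log (u x ^ 2) ∂(dm (gconv μ σ))) ≤
        4 * ∫ x, ‖g x‖ ^ 2 ∂(dm (gconv μ σ)) -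
          2 * lam * ∫ x, u x ^ 2 * Real.log (u x ^ 2) ∂(dm (gconv μ σ)) := by
  obtain ⟨C₁, C₂, hC₁, hC₂, hM⟩ := tg_means
  have hCpos : 0 < tgC C₁ C₂ := by unfold tgC; positivity
  refine ⟨C₁ + C₂ + tgC C₁ C₂, by positivity, ?_⟩
  intro E _ _ _ _ _ μ a σ lam hμ ha hσ1 hσ2 hl1 hl2 hLSI u g h hu1
  have := hμ.prob
  have hσ : 0 < σ := by linarith
  have hprob : IsProbabilityMeasure (dm (gconv μ σ)) := gc_isProb hσ
  have hspd := gc_spd hμ.bdd hσ
  have hb := hμ.bdd
  have hlc := hμ.dens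
  have ha0 := hμ.apos
  obtain ⟨r, hr⟩ := id hb
  have hbc : Continuous (postMean μ σ) := (gc_postMean_contDiff hb hσ).continuous
  -- the datum
  have hqi := (ws_LSI_H1 hspd.1.continuous hspd.2.1 hLSI h).1
  obtain ⟨hx, hP, hB0⟩ := hM E μ a σ hμ ha hσ hσ2 u hu1 hqi
  set p := ∫ x, u x ^ 2 • x ∂(dm (gconv μ σ)) with hp
  set B₀ := ∫ x, u x ^ 2 • postMean μ σ x ∂(dm (gconv μ σ)) with hB₀
  set D₀ := ∫ x, u x ^ 2 * Real.log (u x ^ 2) ∂(dm (gconv μ σ)) with hD₀
  set G := ∫ x, ‖g x‖ ^ 2 ∂(dm (gconv μ σ)) with hG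
  have hG0 : 0 ≤ G := integral_nonneg fun x => by positivity
  have hD0 : 0 ≤ D₀ := by
    have : 0 ≤ C₁ * D₀ := le_trans (by positivity) hP
    exact nonneg_of_mul_nonneg_right this hC₁ |> fun h => h
  have hb0i : Integrable (fun x => u x ^ 2 • postMean μ σ x) (dm (gconv μ σ)) :=
    tg_int_bdd h.2.1 hbc (fun x => gc_postMean_norm_le hr hσ x)
  -- score mean
  have hscore : (2 : ℝ) • ∫ x, u x • g x ∂(dm (gconv μ σ)) = σ⁻¹ • (p - B₀) := by
    rw [tg_score hb hσ h, hp, hB₀, ← integral_sub hx hb0i]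
    congr 1
    refine integral_congr_ae (Eventually.of_forall fun x => ?_)
    simp only [smul_smul, smul_sub, pow_two]
  -- the translate
  have h1 := tg_translate_H1 hb hσ h p
  have hu1' : ∫ y, (tgChi μ σ p y * u (y + p)) ^ 2 ∂(dm (gconv μ σ)) = 1 := by
    rw [tg_tr_norm hb hσ, hu1]
  obtain ⟨hqi1, hLSI1⟩ := ws_LSI_H1 hspd.1.continuous hspd.2.1 hLSI h1
  obtain ⟨-, -, hB1⟩ := hM E μ a σ hμ ha hσ hσ2 _ hu1' hqi1
  rw [tg_tr_vec hb hσ u p (postMean μ σ)] at hB1
  set D₁ := ∫ y, (tgChi μ σ p y * u (y + p)) ^ 2 * Real.log ((tgChi μ σ p y * u (y + p)) ^ 2)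
    ∂(dm (gconv μ σ)) with hD₁
  set B₁ := ∫ x, u x ^ 2 • postMean μ σ (x - p) ∂(dm (gconv μ σ)) with hB₁
  obtain ⟨hlo, hup⟩ := tg_tr_ent_bounds hb hlc hσ h.2.1 hu1 hqi hx p
  rw [← hD₁, ← hD₀, ← hp, ← hB₁] at hlo
  rw [← hD₁, ← hD₀, ← hp, ← hB₀] at hup
  obtain ⟨-, hΔ⟩ := tg_d_bound hb hlc hσ h.2.1 p
  rw [← hB₀, ← hB₁] at hΔ
  have hr0 : 0 < Real.sqrt a := Real.sqrt_pos.mpr ha0
  have hF1 := tg_tr_nrg_bound hb hlc hσ h.2.1 h.2.2 hu1 p hr0
  rw [← hG] at hF1
  -- LSI for the translate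
  have hlam : 0 < lam := by linarith
  have hL : 2 * lam * D₁ ≤ 4 * ∫ z, ‖tgG μ σ p u g z‖ ^ 2 ∂(dm (gconv μ σ)) := by
    unfold ent at hLSI1
    rw [hu1', Real.log_one, mul_zero, sub_zero, tg_tr_nrg hb hσ, ← hD₁] at hLSI1
    have := mul_le_mul_of_nonneg_left hLSI1 (by positivity : 0 ≤ 2 * lam)
    have e : 2 * lam * (2 * lam⁻¹ * ∫ z, ‖tgG μ σ p u g z‖ ^ 2 ∂(dm (gconv μ σ))) =
        4 * ∫ z, ‖tgG μ σ p u g z‖ ^ 2 ∂(dm (gconv μ σ)) := by
      field_simp
      ring
    rw [e] at this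
    exact this
  have hD1nn : 0 ≤ D₁ := by
    have : 0 ≤ C₂ * a ^ 2 * D₁ := le_trans (by positivity) hB1
    have hc : 0 < C₂ * a ^ 2 := by positivity
    exact nonneg_of_mul_nonneg_right this hc |> fun h => h
  have hnum := tg_num_real (c₁ := C₁) (c₂ := C₂) (a := a) (r := Real.sqrt a) (s := σ) (lam := lam)
    (G := G) (D₀ := D₀) (D₁ := D₁)
    (Δ := ∫ z, u z ^ 2 * ‖postMean μ σ z - postMean μ σ (z - p)‖ ^ 2 ∂(dm (gconv μ σ)))
    (X := ‖p‖ ^ 2) (β₀ := inner ℝ B₀ p) (β₁ := inner ℝ B₁ p)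
    (F₁ := 4 * ∫ z, ‖tgG μ σ p u g z‖ ^ 2 ∂(dm (gconv μ σ)))
    hC₁ hC₂ hr0 (by rw [show (1 : ℝ) = Real.sqrt 1 by simp]; exact Real.sqrt_le_sqrt ha)
    (Real.sq_sqrt ha0.le) hσ1 hσ2 hl1 hl2 hG0 hD0 (by positivity)
    (by
      refine (tg_inner_young B₀ p ha0).trans ?_
      have e1 : ‖B₀‖ ^ 2 / a ≤ C₂ * a * D₀ := by
        rw [div_le_iff₀ ha0]; linarith
      have e2 : a * ‖p‖ ^ 2 ≤ a * (C₁ * D₀) := mul_le_mul_of_nonneg_left hP ha0.le
      linarith)
    (by
      refine (tg_inner_young B₁ p ha0).trans ?_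
      have e1 : ‖B₁‖ ^ 2 / a ≤ C₂ * a * D₁ := by
        rw [div_le_iff₀ ha0]; linarith
      have e2 : a * ‖p‖ ^ 2 ≤ a * (C₁ * D₀) := mul_le_mul_of_nonneg_left hP ha0.le
      linarith)
    (by rw [real_inner_self_eq_norm_sq p] at hup; exact hup)
    (by rw [real_inner_self_eq_norm_sq p] at hlo; exact hlo)
    (by rw [← inner_sub_left]; exact hΔ)
    (by
      refine hF1.trans (le_of_eq ?_)
      have e : 4 / σ * inner ℝ (∫ z, u z • g z ∂(dm (gconv μ σ))) p =
          2 / σ * (σ⁻¹ * (‖p‖ ^ 2 - inner ℝ B₀ p)) := by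
        have h2 : inner ℝ ((2 : ℝ) • ∫ z, u z • g z ∂(dm (gconv μ σ))) p =
            σ⁻¹ * (‖p‖ ^ 2 - inner ℝ B₀ p) := by
          rw [hscore, inner_smul_left, inner_sub_left, real_inner_self_eq_norm_sq]
          simp
        rw [inner_smul_left] at h2
        simp only [conj_trivial] at h2
        rw [← h2]
        ring
      rw [e])
    hL
  have hFD : 0 ≤ Real.sqrt a * (4 * G + D₀) := by positivity
  refine ⟨hx, ?_, ?_, hscore, ?_⟩
  · refine hP.trans (mul_le_mul_of_nonneg_right (by linarith) hD0)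
  · refine hB0.trans ?_
    have : 0 ≤ a ^ 2 * D₀ := by positivity
    nlinarith
  · have e : (C₁ + C₂ + tgC C₁ C₂) * Real.sqrt a * (4 * G + D₀) =
        tgC C₁ C₂ * Real.sqrt a * (4 * G + D₀) + (C₁ + C₂) * (Real.sqrt a * (4 * G + D₀)) := by ring
    have : 0 ≤ (C₁ + C₂) * (Real.sqrt a * (4 * G + D₀)) := by positivity
    linarith

end Claimed.Agent.R259
end

/- ===== packed: Claimed.Agent.R259.Lc ===== -/
section
/-
Row 259, kit LC: what section 3 needs from the LSI calculus, in the vocabulary of S3Defs.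
Owner: helper83.  Everything here is PROVED from helper26's exports (LsiCalcC.lean) and the kit GC.
-/
set_option autoImplicit false

open MeasureTheory Filter Topology ProbabilityTheory
open scoped ContDiff ENNReal

namespace Claimed.Agent.R259

variable {E : Type} [NormedAddCommGroup E] [InnerProductSpace ℝ E] [FiniteDimensional ℝ E]
  [MeasurableSpace E] [BorelSpace E]

theorem lc_spd_prob {η : E → ℝ} (h : SPD η) : IsProbabilityMeasure (dm η) := by
  constructor
  have hint : Integrable η := by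
    by_contra hc
    have := integral_undef hc
    rw [h.2.2] at this
    exact one_ne_zero this
  rw [dm, withDensity_apply _ MeasurableSet.univ, Measure.restrict_univ,
    ← ofReal_integral_eq_lintegral_ofReal hint (Eventually.of_forall fun x => (h.2.1 x).le), h.2.2]
  simp

/-- On the trivial space every constant is admissible. -/
theorem lc_lsi_of_subsingleton [Subsingleton E] (m : Measure E) [IsProbabilityMeasure m] (R : ℝ) :
    LSI m R := by
  intro f _
  have hc : ∀ x, f x = f 0 := fun x => by rw [Subsingleton.elim x 0]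
  have h1 : nrg m f = 0 := by
    unfold nrg
    have : ∀ x, gradient f x = 0 := fun x => Subsingleton.elim _ _
    simp [this]
  have h2 : ent m (fun x => f x ^ 2) = 0 := by
    unfold ent
    simp only [hc]
    simp
  rw [h1, h2]; simp

/-- A sharp constant can only exist on a nontrivial space. -/
theorem lc_nontrivial_of_sharp {m : Measure E} [IsProbabilityMeasure m] {R : ℝ}
    (h : LSIsharp m R) : Nontrivial E := by
  by_contra hn
  have : Subsingleton E := not_nontrivial_iff_subsingleton.mp hn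
  exact h.2 (R - 1) (by linarith) (lc_lsi_of_subsingleton m _)

theorem lc_nonneg [Nontrivial E] {η : E → ℝ} (hη : SPD η) {R : ℝ} (hR : LSI (dm η) R) : 0 ≤ R := by
  have := lc_spd_prob hη
  exact lsic_nonneg_of_LSI hR

/-- (2.convolution) with a Gaussian factor. -/
theorem lc_conv {μ : Measure E} [IsProbabilityMeasure μ] (hb : BddSupp μ) {σ h R : ℝ} (hσ : 0 < σ)
    (hh : 0 ≤ h) (hR : LSI (dm (gconv μ σ)) R) : LSI (dm (gconv μ (σ + h))) (R + h) := by
  rcases hh.eq_or_lt with rfl | hh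
  · simpa using hR
  have hp : IsProbabilityMeasure (dm (gconv μ σ)) := gc_isProb hσ
  rcases subsingleton_or_nontrivial E with hs | hn
  · have : IsProbabilityMeasure (dm (gconv μ (σ + h))) := gc_isProb (by linarith)
    exact lc_lsi_of_subsingleton _ _
  · have h0 : 0 ≤ R := lc_nonneg (gc_spd hb hσ) hR
    have := lsic_conv h0 hR hh
    rwa [gc_semigroup hσ hh] at this

/-- helper220's F1: reverse convolution bound for log-concave laws. -/
theorem lc_rev {μ : Measure E} [IsProbabilityMeasure μ] (hb : BddSupp μ)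
    (hlc : ∃ ρ : E → ℝ, LogConc ρ ∧ μ = dm ρ) {σ h R : ℝ} (hσ : 0 < σ) (hh : 0 ≤ h)
    (hR : LSI (dm (gconv μ (σ + h))) R) : LSI (dm (gconv μ σ)) (R + h) := by
  rcases hh.eq_or_lt with rfl | hh
  · simpa using hR
  have hp : IsProbabilityMeasure (dm (gconv μ σ)) := gc_isProb hσ
  rcases subsingleton_or_nontrivial E with hs | hn
  · exact lc_lsi_of_subsingleton _ _
  · have h0 : 0 ≤ R := lc_nonneg (gc_spd hb (by linarith)) hR
    rw [← gc_semigroup hσ hh] at hR
    exact lsic_rev_conv (gc_logConc hlc hσ) hh h0 hR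

/-- linearisation. -/
theorem lc_pi {η : E → ℝ} (hη : SPD η) {R : ℝ} (hR : LSI (dm η) R) : PI (dm η) R := by
  have := lc_spd_prob hη
  exact lsic_PI_of_LSI hR

/-- the optimal constants exist. -/
theorem lc_sharp [Nontrivial E] {η : E → ℝ} (hη : SPD η) {R : ℝ} (hR : LSI (dm η) R) :
    ∃ R₀ ≤ R, LSIsharp (dm η) R₀ := by
  have := lc_spd_prob hη
  exact ⟨Ropt (dm η), lsic_Ropt_le hR, lsic_sharp ⟨R, hR⟩⟩

theorem lc_pi_sharp [Nontrivial E] {η : E → ℝ} (hη : SPD η) {R : ℝ} (hR : PI (dm η) R) :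
    ∃ P ≤ R, PIsharp (dm η) P := by
  have := lc_spd_prob hη
  obtain ⟨f₀, hf₀, hpos⟩ := lsic_exists_nrg_pos (dm η)
  set S : Set ℝ := {P | PI (dm η) P} with hS
  have hne : S.Nonempty := ⟨R, hR⟩
  have hbdd : BddBelow S := by
    refine ⟨vari (dm η) f₀ / nrg (dm η) f₀, ?_⟩
    intro P hP
    rw [div_le_iff₀ hpos]
    exact hP f₀ hf₀
  refine ⟨sInf S, csInf_le hbdd hR, ?_, ?_⟩
  · intro f hf
    have h0 : 0 ≤ nrg (dm η) f := lsic_nrg_nonneg _ _
    rcases h0.eq_or_lt with h0 | h0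
    · have := hR f hf
      rw [← h0] at this ⊢
      simpa using this
    · rw [← div_le_iff₀ h0]
      refine le_csInf hne ?_
      intro P hP
      rw [div_le_iff₀ h0]
      exact hP f hf
  · intro P' hP' hPI
    exact absurd (csInf_le hbdd hPI) (not_le.mpr hP')

end Claimed.Agent.R259
end

/- ===== packed: Claimed.Agent.R259.RefCore ===== -/
section
/-
Row 259, kits REF + GAPF: the common core (owner helper203).  From a smooth potential `u` with `w = ∇u ∈ L²(η)`,
`A_η w = lam w - K w`, and LSI(η) with constant `1/lam`: all the fields of `CritField`.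
Components `w_i = ⟨e_i, w⟩`: `ws_classical_dom` gives `∇ w_i ∈ L²(η)` and `∫ |∇ w_i|² = ∫ w_i A_η w_i`; Poincare on `w_i`.
-/
set_option autoImplicit false
set_option linter.unusedSectionVars false

open MeasureTheory Filter Topology ProbabilityTheory
open scoped ContDiff ENNReal

namespace Claimed.Agent.R259

variable {E : Type} [NormedAddCommGroup E] [InnerProductSpace ℝ E] [FiniteDimensional ℝ E]
  [MeasurableSpace E] [BorelSpace E]

/-- `|Dw|²_HS = ∑_i |∇ w_i|²`. -/
theorem refk_hsSq_eq {w : E → E} {x : E} (hw : DifferentiableAt ℝ w x) :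
    hsSq (fderiv ℝ w x) =
      ∑ i, ‖gradient (fun y => inner ℝ (stdOrthonormalBasis ℝ E i) (w y)) x‖ ^ 2 := by
  unfold hsSq
  have h1 : ∀ i j, inner ℝ (stdOrthonormalBasis ℝ E j)
      (gradient (fun y => inner ℝ (stdOrthonormalBasis ℝ E i) (w y)) x) =
      inner ℝ (stdOrthonormalBasis ℝ E i) (fderiv ℝ w x (stdOrthonormalBasis ℝ E j)) := by
    intro i j
    rw [real_inner_comm, inner_gradient_left, fderiv_inner_apply ℝ (differentiableAt_const _) hw]
    simp
  calc ∑ j, ‖fderiv ℝ w x (stdOrthonormalBasis ℝ E j)‖ ^ 2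
      = ∑ j, ∑ i, inner ℝ (stdOrthonormalBasis ℝ E i)
          (fderiv ℝ w x (stdOrthonormalBasis ℝ E j)) ^ 2 :=
        Finset.sum_congr rfl fun j _ => ((stdOrthonormalBasis ℝ E).sum_sq_inner_right _).symm
    _ = ∑ i, ∑ j, inner ℝ (stdOrthonormalBasis ℝ E i)
          (fderiv ℝ w x (stdOrthonormalBasis ℝ E j)) ^ 2 := Finset.sum_comm
    _ = _ := by
        refine Finset.sum_congr rfl fun i _ => ?_
        rw [← (stdOrthonormalBasis ℝ E).sum_sq_inner_right]
        exact Finset.sum_congr rfl fun j _ => by rw [h1]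

/-- the abstract core: `T x` plays the role of `K_σ(x)`. -/
theorem refk_core_abs {η : E → ℝ} (hη : SPD η) {lam c : ℝ} (hlam : 0 < lam)
    (hlsi : LSI (dm η) lam⁻¹) {w : E → E} (hw : ContDiff ℝ ∞ w) (hw2 : MemLp w 2 (dm η))
    {T : E → E →L[ℝ] E} (hT : Continuous T) (hTc : ∀ x, ‖T x‖ ≤ c)
    (heqn : ∀ x, opA η w x = lam • w x - T x (w x)) :
    Integrable (fun x => hsSq (fderiv ℝ w x)) (dm η) ∧
    ∫ x, hsSq (fderiv ℝ w x) ∂(dm η) =
      lam * ∫ x, ‖w x‖ ^ 2 ∂(dm η) - ∫ x, inner ℝ (w x) (T x (w x)) ∂(dm η) ∧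
    ∫ x, inner ℝ (w x) (T x (w x)) ∂(dm η) ≤ lam * ‖∫ x, w x ∂(dm η)‖ ^ 2 := by
  have hprob : IsProbabilityMeasure (dm η) := lc_spd_prob hη
  have hPI : PI (dm η) lam⁻¹ := lc_pi hη hlsi
  obtain ⟨hηs, hηpos, -⟩ := hη
  set e := stdOrthonormalBasis ℝ E with he
  set wi : _ → E → ℝ := fun i y => inner ℝ (e i) (w y) with hwi
  have hwis : ∀ i, ContDiff ℝ ∞ (wi i) := fun i => contDiff_const.inner ℝ hw
  have hwi2 : ∀ i, MemLp (wi i) 2 (dm η) := fun i => hw2.const_inner (e i)
  have hTw : MemLp (fun x => T x (w x)) 2 (dm η) := by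
    refine hw2.of_le_mul (c := c) (hT.clm_apply hw.continuous).aestronglyMeasurable
      (Eventually.of_forall fun x => ?_)
    exact ((T x).le_opNorm _).trans (mul_le_mul_of_nonneg_right (hTc x) (norm_nonneg _))
  have hA : ∀ i x, opA η (wi i) x = lam * wi i x - inner ℝ (e i) (T x (w x)) := by
    intro i x
    have := opc_clm (η := η) (x := x) (innerSL ℝ (e i)) (g := w) (refc_cd2 hw x)
    simp only [innerSL_apply_apply] at this
    rw [hwi]
    simp only
    rw [this, heqn, inner_sub_right, inner_smul_right]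
  have hA2 : ∀ i, MemLp (opA η (wi i)) 2 (dm η) := by
    intro i
    have : opA η (wi i) = fun x => lam * wi i x - inner ℝ (e i) (T x (w x)) := funext (hA i)
    rw [this]
    exact ((hwi2 i).const_mul lam).sub (hTw.const_inner (e i))
  have hdom := fun i => ws_classical_dom hηs hηpos (hwis i) (hwi2 i) (hA2 i)
  have hH1 : ∀ i, H1 (dm η) (wi i) (gradient (wi i)) := fun i =>
    ws_H1_of_contDiff ((hwis i).of_le (by simp)) (hwi2 i) (hdom i).1
  have hen : ∀ i, ∫ x, ‖gradient (wi i) x‖ ^ 2 ∂(dm η) =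
      lam * ∫ x, wi i x ^ 2 ∂(dm η) - ∫ x, wi i x * inner ℝ (e i) (T x (w x)) ∂(dm η) := by
    intro i
    have h := (hdom i).2 _ _ (hH1 i)
    simp only [real_inner_self_eq_norm_sq] at h
    rw [h, ← integral_const_mul, ← integral_sub (((hwi2 i).integrable_sq).const_mul lam)
      (ws_integrable_mul (hwi2 i) (hTw.const_inner (e i)))]
    refine integral_congr_ae (Eventually.of_forall fun x => ?_)
    simp only
    rw [hA]
    ring
  have hhs : (fun x => hsSq (fderiv ℝ w x)) = fun x => ∑ i, ‖gradient (wi i) x‖ ^ 2 :=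
    funext fun x => refk_hsSq_eq (hw.differentiable (by simp)).differentiableAt
  have hgi : ∀ i, Integrable (fun x => ‖gradient (wi i) x‖ ^ 2) (dm η) := fun i =>
    ws_integrable_sq (hdom i).1
  have hsum1 : ∑ i, ∫ x, wi i x ^ 2 ∂(dm η) = ∫ x, ‖w x‖ ^ 2 ∂(dm η) := by
    rw [← integral_finsetSum _ fun i _ => (hwi2 i).integrable_sq]
    exact integral_congr_ae (Eventually.of_forall fun x => e.sum_sq_inner_right (w x))
  have hsum2 : ∑ i, ∫ x, wi i x * inner ℝ (e i) (T x (w x)) ∂(dm η) =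
      ∫ x, inner ℝ (w x) (T x (w x)) ∂(dm η) := by
    rw [← integral_finsetSum _ fun i _ => ws_integrable_mul (hwi2 i) (hTw.const_inner (e i))]
    refine integral_congr_ae (Eventually.of_forall fun x => ?_)
    simp only [hwi]
    rw [← e.sum_inner_mul_inner (w x) (T x (w x))]
    exact Finset.sum_congr rfl fun i _ => by rw [real_inner_comm]
  have hE : ∫ x, hsSq (fderiv ℝ w x) ∂(dm η) =
      lam * ∫ x, ‖w x‖ ^ 2 ∂(dm η) - ∫ x, inner ℝ (w x) (T x (w x)) ∂(dm η) := by
    rw [hhs, integral_finsetSum _ fun i _ => hgi i, Finset.sum_congr rfl fun i _ => hen i,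
      Finset.sum_sub_distrib, ← Finset.mul_sum, hsum1, hsum2]
  refine ⟨?_, hE, ?_⟩
  · rw [hhs]
    exact integrable_finsetSum _ fun i _ => hgi i
  · have hv : ∀ i, vari (dm η) (wi i) ≤ lam⁻¹ * ∫ x, ‖gradient (wi i) x‖ ^ 2 ∂(dm η) := fun i =>
      ws_PI_H1 hηs.continuous hηpos hPI (hH1 i)
    have hwint : Integrable w (dm η) := hw2.integrable (by norm_num)
    have hm : ∑ i, (∫ x, wi i x ∂(dm η)) ^ 2 = ‖∫ x, w x ∂(dm η)‖ ^ 2 := by
      rw [← e.sum_sq_inner_right]
      exact Finset.sum_congr rfl fun i _ => by rw [← integral_inner hwint]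
    have hs := Finset.sum_le_sum fun i (_ : i ∈ Finset.univ) => hv i
    unfold vari at hs
    rw [Finset.sum_sub_distrib, hsum1, hm, ← Finset.mul_sum,
      ← integral_finsetSum _ fun i _ => hgi i] at hs
    have hE' : ∫ x, ∑ i, ‖gradient (wi i) x‖ ^ 2 ∂(dm η) =
      lam * ∫ x, ‖w x‖ ^ 2 ∂(dm η) - ∫ x, inner ℝ (w x) (T x (w x)) ∂(dm η) := by
      rw [← hE, hhs]
    rw [hE', mul_sub, ← mul_assoc, inv_mul_cancel₀ hlam.ne', one_mul] at hs
    have h3 : lam⁻¹ * ∫ x, inner ℝ (w x) (T x (w x)) ∂(dm η) ≤ ‖∫ x, w x ∂(dm η)‖ ^ 2 := by linarith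
    have h4 := mul_le_mul_of_nonneg_left h3 hlam.le
    rwa [← mul_assoc, mul_inv_cancel₀ hlam.ne', one_mul] at h4

/-- the common core of Lemma 3.5 and Lemma 3.7(ii). -/
theorem refk_core {μ : Measure E} [IsProbabilityMeasure μ] (hb : BddSupp μ)
    (hlc : ∃ ρ : E → ℝ, LogConc ρ ∧ μ = dm ρ) {σ lam : ℝ} (hσ : 0 < σ) (hlam : 0 < lam)
    {η : E → ℝ} (hη : SPD η) (hlsi : LSI (dm η) lam⁻¹) {u : E → ℝ} (hu : ContDiff ℝ ∞ u)
    (hw2 : MemLp (gradient u) 2 (dm η)) (hI : 0 < ∫ x, ‖gradient u x‖ ^ 2 ∂(dm η))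
    (heqn : ∀ x, opA η (gradient u) x = lam • gradient u x - hessK μ σ x (gradient u x))
    (hmom : Integrable (fun x => ‖x‖ ^ 2) (dm η)) :
    CritField μ σ lam η (gradient u) := by
  obtain ⟨h1, h2, h3⟩ := refk_core_abs hη hlam hlsi (refc_gradient_contDiff hu) hw2
    (gc_hessK_contDiff hb hσ).continuous (gc_hessK_norm_le hb hlc hσ) heqn
  exact ⟨hη, hlsi, refc_gradient_contDiff hu, fun x a b => refc_gradient_symm (refc_cd2 hu x) a b,
    hw2, hI, heqn, h1, h2, h3, hmom⟩

end Claimed.Agent.R259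
end

/- ===== packed: Claimed.Agent.R259.RefLsi ===== -/
section
/-
Row 259, kit REF: change of measure `dm (h ν) = h · dm ν`, and the LSI for `η = f² ν` at an optimiser
(Euler equation tested with `g² f`; no regularity).   Owner helper203.
-/
set_option autoImplicit false
set_option linter.unusedSectionVars false

open MeasureTheory Filter Topology ProbabilityTheory
open scoped ContDiff ENNReal

namespace Claimed.Agent.R259

variable {E : Type} [NormedAddCommGroup E] [InnerProductSpace ℝ E] [FiniteDimensional ℝ E]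
  [MeasurableSpace E] [BorelSpace E]
variable {F : Type} [NormedAddCommGroup F] [NormedSpace ℝ F]

/-! ### change of measure -/

theorem refl_integral_mul {h ν : E → ℝ} (hh : Measurable h) (hh0 : ∀ x, 0 ≤ h x) (hν : Measurable ν)
    (hν0 : ∀ x, 0 ≤ ν x) (g : E → F) :
    ∫ x, g x ∂(dm (fun x => h x * ν x)) = ∫ x, h x • g x ∂(dm ν) := by
  have hm : Measurable (fun x => h x * ν x) := hh.mul hν
  rw [ws_integral_dm hm (fun x => mul_nonneg (hh0 x) (hν0 x)), ws_integral_dm hν hν0]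
  refine integral_congr_ae (Eventually.of_forall fun x => ?_)
  simp only
  rw [smul_smul, mul_comm]

theorem refl_integrable_mul {h ν : E → ℝ} (hh : Measurable h) (hh0 : ∀ x, 0 ≤ h x)
    (hν : Measurable ν) (hν0 : ∀ x, 0 ≤ ν x) {g : E → F} :
    Integrable g (dm (fun x => h x * ν x)) ↔ Integrable (fun x => h x • g x) (dm ν) := by
  have hm : Measurable (fun x => h x * ν x) := hh.mul hν
  rw [ws_integrable_dm_iff hm (fun x => mul_nonneg (hh0 x) (hν0 x)),
    ws_integrable_dm_iff hν hν0]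
  refine integrable_congr (Eventually.of_forall fun x => ?_)
  simp only
  rw [smul_smul, mul_comm]

/-! ### the LSI for `f² ν` -/

theorem refl_lsi {ν f : E → ℝ} (hν : ContDiff ℝ ∞ ν) (hνpos : ∀ x, 0 < ν x) {R : ℝ} (hR : 0 < R)
    (hLSI : LSI (dm ν) R) (hf : ContDiff ℝ ∞ f) (hpos : ∀ x, 0 < f x)
    (hEul : ∀ x, opA ν f x = R⁻¹ * (f x * Real.log (f x))) :
    LSI (dm (fun x => f x ^ 2 * ν x)) R := by
  intro g hg
  have hlf : IsLocallyFiniteMeasure (dm ν) := ws_dm_locallyFinite hν.continuous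
  have hfc := hf.continuous
  have hgc := hg.1.continuous
  have hfm : Measurable (fun x => f x ^ 2) := (hfc.pow 2).measurable
  have hf0 : ∀ x, 0 ≤ f x ^ 2 := fun x => by positivity
  have hνm := hν.continuous.measurable
  have hν0 : ∀ x, 0 ≤ ν x := fun x => (hνpos x).le
  have hdf : ∀ x, DifferentiableAt ℝ f x := fun x => (hf.differentiable (by simp)).differentiableAt
  have hdg : ∀ x, DifferentiableAt ℝ g x := fun x => (hg.1.differentiable (by simp)).differentiableAt
  have hgradf : Continuous (gradient f) := ws_gradient_continuous (hf.of_le (by simp))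
  have hgradg : Continuous (gradient g) := ws_gradient_continuous (hg.1.of_le (by simp))
  have hlogf : Continuous (fun x => Real.log (f x)) := hfc.log fun x => (hpos x).ne'
  -- the test functions
  have hG : IsTest (fun x => g x * f x) := ⟨hg.1.mul hf, hg.2.mul_right⟩
  have hζ : IsTest (fun x => g x ^ 2 * f x) :=
    ⟨(hg.1.pow 2).mul hf, (hg.2.comp_left (g := fun t : ℝ => t ^ 2) (by simp)).mul_right⟩
  have h1 := hLSI _ hG
  have h2 := wsh_ibp_classical hν hνpos hf hζ
  -- integrability of the pieces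
  have i1 : Integrable (fun x => f x ^ 2 * (g x ^ 2 * Real.log (g x ^ 2))) (dm ν) := by
    refine Continuous.integrable_of_hasCompactSupport
      ((hfc.pow 2).mul (Real.continuous_mul_log.comp (hgc.pow 2))) ?_
    exact (hg.2.comp_left (g := fun t : ℝ => t ^ 2 * Real.log (t ^ 2)) (by simp)).mul_left
  have i2 : Integrable (fun x => g x ^ 2 * (f x ^ 2 * Real.log (f x))) (dm ν) := by
    refine Continuous.integrable_of_hasCompactSupport
      ((hgc.pow 2).mul ((hfc.pow 2).mul hlogf)) ?_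
    exact (hg.2.comp_left (g := fun t : ℝ => t ^ 2) (by simp)).mul_right
  have i3 : Integrable (fun x => f x ^ 2 * ‖gradient g x‖ ^ 2) (dm ν) := by
    refine Continuous.integrable_of_hasCompactSupport ((hfc.pow 2).mul (hgradg.norm.pow 2)) ?_
    exact ((ws_gradient_hasCompactSupport hg.2).comp_left (g := fun t : E => ‖t‖ ^ 2)
      (by simp)).mul_left
  have i4 : Integrable (fun x => inner ℝ (gradient (fun x => g x ^ 2 * f x) x) (gradient f x))
      (dm ν) := by
    refine Continuous.integrable_of_hasCompactSupport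
      ((ws_gradient_continuous (hζ.1.of_le (by simp))).inner hgradf) ?_
    have := ws_gradient_hasCompactSupport hζ.2
    refine this.mono fun x hx => ?_
    simp only [Function.mem_support, ne_eq] at hx ⊢
    intro h0
    exact hx (by rw [h0, inner_zero_left])
  -- the energy
  have e1 : nrg (dm ν) (fun x => g x * f x) =
      (∫ x, f x ^ 2 * ‖gradient g x‖ ^ 2 ∂(dm ν)) +
        R⁻¹ * ∫ x, g x ^ 2 * (f x ^ 2 * Real.log (f x)) ∂(dm ν) := by
    have e2 : ∫ x, inner ℝ (gradient (fun x => g x ^ 2 * f x) x) (gradient f x) ∂(dm ν) =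
        R⁻¹ * ∫ x, g x ^ 2 * (f x ^ 2 * Real.log (f x)) ∂(dm ν) := by
      rw [h2, ← integral_const_mul]
      refine integral_congr_ae (Eventually.of_forall fun x => ?_)
      simp only
      rw [hEul]
      ring
    rw [← e2, ← integral_add i3 i4]
    unfold nrg
    refine integral_congr_ae (Eventually.of_forall fun x => ?_)
    simp only
    have g1 : gradient (fun y => g y * f y) x = g x • gradient f x + f x • gradient g x :=
      ws_gradient_mul (hdg x) (hdf x)
    have g2 : gradient (fun y => g y ^ 2) x = (2 * g x) • gradient g x := by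
      have := ws_gradient_mul (hdg x) (hdg x)
      simp only [← sq] at this
      rw [this, ← add_smul]
      congr 1
      ring
    have g3 : gradient (fun y => g y ^ 2 * f y) x =
        g x ^ 2 • gradient f x + f x • ((2 * g x) • gradient g x) := by
      have hd2 : DifferentiableAt ℝ (fun y => g y ^ 2) x := (hdg x).pow 2
      rw [ws_gradient_mul hd2 (hdf x), g2]
    rw [g1, g3, ← real_inner_self_eq_norm_sq, ← real_inner_self_eq_norm_sq]
    simp only [inner_add_left, inner_add_right, inner_smul_left, inner_smul_right,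
      real_inner_comm (gradient g x) (gradient f x)]
    simp
    ring
  -- the entropy
  have e3 : ∫ x, (g x * f x) ^ 2 * Real.log ((g x * f x) ^ 2) ∂(dm ν) =
      (∫ x, f x ^ 2 * (g x ^ 2 * Real.log (g x ^ 2)) ∂(dm ν)) +
        2 * ∫ x, g x ^ 2 * (f x ^ 2 * Real.log (f x)) ∂(dm ν) := by
    rw [← integral_const_mul, ← integral_add i1 (i2.const_mul 2)]
    refine integral_congr_ae (Eventually.of_forall fun x => ?_)
    simp only
    by_cases hgx : g x = 0
    · simp [hgx]
    · rw [mul_pow, Real.log_mul (pow_ne_zero 2 hgx) (pow_ne_zero 2 (hpos x).ne'),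
        Real.log_pow (f x) 2]
      push_cast
      ring
  have e4 : ∫ x, g x ^ 2 ∂(dm (fun x => f x ^ 2 * ν x)) = ∫ x, (g x * f x) ^ 2 ∂(dm ν) := by
    rw [refl_integral_mul hfm hf0 hνm hν0]
    refine integral_congr_ae (Eventually.of_forall fun x => ?_)
    simp only [smul_eq_mul]
    ring
  have e5 : ∫ x, g x ^ 2 * Real.log (g x ^ 2) ∂(dm (fun x => f x ^ 2 * ν x)) =
      ∫ x, f x ^ 2 * (g x ^ 2 * Real.log (g x ^ 2)) ∂(dm ν) := by
    rw [refl_integral_mul hfm hf0 hνm hν0]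
    rfl
  have e6 : nrg (dm (fun x => f x ^ 2 * ν x)) g = ∫ x, f x ^ 2 * ‖gradient g x‖ ^ 2 ∂(dm ν) := by
    unfold nrg
    rw [refl_integral_mul hfm hf0 hνm hν0]
    rfl
  unfold ent at h1 ⊢
  rw [e4, e5, e6]
  rw [e3, e1] at h1
  have h3 : 2 * R * (R⁻¹ * ∫ x, g x ^ 2 * (f x ^ 2 * Real.log (f x)) ∂(dm ν)) =
      2 * ∫ x, g x ^ 2 * (f x ^ 2 * Real.log (f x)) ∂(dm ν) := by
    field_simp
  rw [mul_add, h3] at h1
  simp only at h1 ⊢
  linarith

end Claimed.Agent.R259
end

/- ===== packed: Claimed.Agent.R259.Ref ===== -/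
section
/-
Row 259, kit REF (Lemma 3.5, change of reference at an optimiser; classical calculus + cutoffs).  EXPORTS (statements fixed by sub-captain helper83; the kit owner owns this file,
replaces every `sorry`, and may add helper files `Ref*.lean`).

PLAN (helper83; every step checked by hand).  nu = gconv mu sigma, V = potV, lam = 1/R, eta = f^2 nu, u = log f^2, w = grad u.
 spd: eta smooth positive, int eta = int f^2 d(dm nu) = 1 (ws_integral_dm).
 lsi: for a test g the product g f is a TEST function.  LSI(nu) for g f;  |D(gf)|^2 = f^2|Dg|^2 + <D(g^2 f), Df>;  classical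
   integration by parts int <D zeta, Df> dnu = int zeta A_nu f dnu for zeta = g^2 f test (ws_ibp_C1 / ws_weakGrad_test_C1 applied to
   the C^1 field nu Df, or ws_ibp_test with a cutoff of f);  Euler: = lam int g^2 f^2 log f dnu;  Ent_nu(g^2 f^2) = Ent_eta(g^2) +
   int g^2 f^2 log f^2 dnu  (all integrands continuous with compact support; x log x continuous);  the two log f terms cancel since R lam = 1.
 eqn (pointwise):  A_nu f = lam f log f  <=>  A_nu u - |Du|^2/2 = lam u   (Lap log f = Lap f/f - |Df|^2/f^2);  take the gradient: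
   grad(A_nu u) = A_nu(grad u) + K grad u  (Bochner commutation; third derivatives symmetric),  grad(|Du|^2/2) = Dw(w) (Dw symmetric),
   A_eta w = A_nu w - Dw(w)  because grad log eta = grad log nu + w.   Hence A_eta w = lam w - K w.
 w_L2, I_nrg, w_mean, I_pos, I_eq:  |w|^2 f^2 = 4|Df|^2,  w f^2 = 2 f Df,  hopt.
 Dw_int, Dw_energy:  each component w_i = <w, e_i> is smooth, in L2(eta), A_eta w_i = lam w_i - <K w, e_i> in L2(eta) (gc_hessK_norm_le);
   ws_classical_dom gives D w_i in L2(eta) and int |D w_i|^2 deta = int w_i A_eta w_i deta (test it with u = w_i, ws_H1_of_contDiff); sum over i;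
   hsSq (Dw) = sum_i |grad w_i|^2 by symmetry of Dw.
 wKw:  PI(eta) with constant R (lc_pi of Lc.lean from the field lsi) on w_i in H1(eta) (ws_PI_H1); sum:  I - |E w|^2 <= R (lam I - E<w,Kw>).
 mom2: def_moment for u = f.     drift: gc_grad_log + log(f^2 nu) = log f^2 + log nu.
-/
set_option autoImplicit false

open MeasureTheory Filter Topology ProbabilityTheory
open scoped ContDiff ENNReal

namespace Claimed.Agent.R259

variable {E : Type} [NormedAddCommGroup E] [InnerProductSpace ℝ E] [FiniteDimensional ℝ E]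
  [MeasurableSpace E] [BorelSpace E]

/-! ### kit REF: Lemma 3.5 (change of reference at an optimiser), classical -/

theorem ref_main {μ : Measure E} [IsProbabilityMeasure μ] (hb : BddSupp μ)
    (hlc : ∃ ρ : E → ℝ, LogConc ρ ∧ μ = dm ρ) {σ R : ℝ} (hσ : 0 < σ) (hR : 0 < R)
    (hLSI : LSI (dm (gconv μ σ)) R) {f : E → ℝ} (hf : ContDiff ℝ ∞ f) (hpos : ∀ x, 0 < f x)
    (h2 : MemLp f 2 (dm (gconv μ σ))) (hD : MemLp (gradient f) 2 (dm (gconv μ σ)))
    (h1 : ∫ x, f x ^ 2 ∂(dm (gconv μ σ)) = 1) (hE : 0 < nrg (dm (gconv μ σ)) f)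
    (hint : Integrable (fun x => f x ^ 2 * Real.log (f x ^ 2)) (dm (gconv μ σ)))
    (hopt : ∫ x, f x ^ 2 * Real.log (f x ^ 2) ∂(dm (gconv μ σ)) = 2 * R * nrg (dm (gconv μ σ)) f)
    (hEul : ∀ x, opA (gconv μ σ) f x = R⁻¹ * (f x * Real.log (f x))) :
    CritField μ σ R⁻¹ (fun x => f x ^ 2 * gconv μ σ x)
        (gradient (fun y => Real.log (f y ^ 2))) ∧
      StrictBranch μ σ R⁻¹ (fun x => f x ^ 2 * gconv μ σ x)
        (gradient (fun y => Real.log (f y ^ 2))) f := by
  have hlam : 0 < R⁻¹ := inv_pos.2 hR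
  have hν := gc_spd (μ := μ) hb hσ
  obtain ⟨hνs, hνpos, -⟩ := hν
  have hfc := hf.continuous
  have hfm : Measurable (fun x => f x ^ 2) := (hfc.pow 2).measurable
  have hf0 : ∀ x, 0 ≤ f x ^ 2 := fun x => by positivity
  have hνm := hνs.continuous.measurable
  have hν0 : ∀ x, 0 ≤ gconv μ σ x := fun x => (hνpos x).le
  have hdf : ∀ x, DifferentiableAt ℝ f x := fun x => (hf.differentiable (by simp)).differentiableAt
  have hf2 : ContDiff ℝ ∞ (fun y => f y ^ 2) := hf.pow 2
  have hf2pos : ∀ y, 0 < f y ^ 2 := fun y => pow_pos (hpos y) 2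
  have hus : ContDiff ℝ ∞ (fun y => Real.log (f y ^ 2)) := refc_log_contDiff hf2 hf2pos
  have hw : ∀ x, gradient (fun y => Real.log (f y ^ 2)) x = (2 / f x) • gradient f x := fun x =>
    refc_grad_log_sq (hdf x) (hpos x)
  have hη : SPD (fun x => f x ^ 2 * gconv μ σ x) := by
    refine ⟨hf2.mul hνs, fun x => mul_pos (hf2pos x) (hνpos x), ?_⟩
    rw [← h1, ws_integral_dm hνm hν0]
    refine integral_congr_ae (Eventually.of_forall fun x => ?_)
    simp only [smul_eq_mul]
    ring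
  have hlsi : LSI (dm (fun x => f x ^ 2 * gconv μ σ x)) R⁻¹⁻¹ := by
    rw [inv_inv]
    exact refl_lsi hνs hνpos hR hLSI hf hpos hEul
  have hsq : ∀ x, f x ^ 2 • ‖gradient (fun y => Real.log (f y ^ 2)) x‖ ^ 2 = 4 * ‖gradient f x‖ ^ 2 := by
    intro x
    have := (hpos x).ne'
    rw [hw, norm_smul, mul_pow, Real.norm_eq_abs, sq_abs, smul_eq_mul]
    field_simp
    ring
  have hw2 : MemLp (gradient (fun y => Real.log (f y ^ 2))) 2 (dm (fun x => f x ^ 2 * gconv μ σ x)) := by
    rw [memLp_two_iff_integrable_sq_norm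
      (refc_gradient_contDiff hus).continuous.aestronglyMeasurable,
      refl_integrable_mul hfm hf0 hνm hν0]
    simp only [hsq]
    exact (ws_integrable_sq hD).const_mul 4
  have hInrg : ∫ x, ‖gradient (fun y => Real.log (f y ^ 2)) x‖ ^ 2 ∂(dm (fun x => f x ^ 2 * gconv μ σ x))
      = 4 * nrg (dm (gconv μ σ)) f := by
    rw [refl_integral_mul hfm hf0 hνm hν0]
    simp only [hsq]
    rw [integral_const_mul]
    rfl
  have hmom : Integrable (fun x => ‖x‖ ^ 2) (dm (fun x => f x ^ 2 * gconv μ σ x)) := by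
    obtain ⟨C, hC⟩ := def_moment (μ := μ) hb hσ
    rw [refl_integrable_mul hfm hf0 hνm hν0]
    refine ((hC _ _ (ws_H1_of_contDiff (hf.of_le (by simp)) h2 hD)).1).congr
      (Eventually.of_forall fun x => ?_)
    simp only [smul_eq_mul]
    ring
  refine ⟨refk_core hb hlc hσ hlam hη hlsi hus hw2 (by rw [hInrg]; positivity)
    (fun x => refc_eqn_strict hνs hνpos hf hpos hEul x) hmom, ?_⟩
  refine ⟨hf, hpos, h2, hD, h1, hint, hEul, fun _ => rfl, fun _ => rfl, ?_, hInrg, ?_, ?_⟩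
  · rw [hInrg, hopt]
    field_simp
    norm_num
  · rw [refl_integral_mul hfm hf0 hνm hν0, ← integral_smul]
    refine integral_congr_ae (Eventually.of_forall fun x => ?_)
    simp only
    have := (hpos x).ne'
    rw [hw, smul_smul, smul_smul]
    congr 1
    field_simp
  · intro x
    rw [refc_grad_log_mul (hf2.differentiable (by simp)).differentiableAt (hf2pos x) hf2pos
      (hνs.differentiable (by simp)).differentiableAt hνpos, gc_grad_log hb hσ, add_comm]


end Claimed.Agent.R259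
end

/- ===== packed: Claimed.Agent.R259.Gapf ===== -/
section
/-
Row 259, kit GAPF (Lemma 3.7(ii), the gap branch; classical calculus + cutoffs).  EXPORTS (statements fixed by sub-captain helper83; the kit owner owns this file,
replaces every `sorry`, and may add helper files `Gapf*.lean`).

PLAN (helper83).  nu = gconv mu sigma, lam = 1/R, eta = nu, w = grad phi.
 gapf_main: spd = gc_spd; lsi = hLSI (inv_inv); eqn: gradient of A_nu phi = lam phi + Bochner commutation grad(A_nu phi) = A_nu(grad phi) + K grad phi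
   (the same pointwise lemma as in kit REF: share it);  I_eq: int |D phi|^2 dnu = int phi A_nu phi dnu = lam int phi^2 (ws_classical_dom with f = phi,
   tested with u = phi);  I_pos from h1;  Dw_int, Dw_energy, wKw exactly as in REF (components w_i, ws_classical_dom, lc_pi + ws_PI_H1);
   mom2: def_moment with u = 1 (or gc_exp_sq);  drift: gc_grad_log.
 gapf_mean:  E_nu w = E_nu D phi = E_nu[phi DV] = E[phi (Y - b)]/sigma  (ws_classical_dom form identity against the coordinate functions, or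
   integration by parts with cutoffs).  Coordinates: A_nu y_i = (y_i - b_i)/sigma, so  <E w, v> = E[phi A_nu <v,y>] = E[<D phi, v>]: use instead
   lam E[phi <v,y>] = E[A_nu phi <v,y>] = E<D phi, v> = <E w, v>   and   <E w, v> = E[phi <v, y - b>]/sigma;  eliminating E[phi <v,y>]:
   <E w, v>(1 - 1/(lam sigma)) = - E[phi <v,b>]/sigma,  i.e.  <E w, v> (1 - lam sigma) = lam E[phi <v, b>];  Cauchy-Schwarz, gc_second_postMean,
   subg_cov:  |E[phi <v,b>]|^2 <= E phi^2 a^2 |v|^2,  E phi^2 = I/lam,  1 - lam sigma >= 1/2:   |E w|^2 <= 4 lam a^2 I.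
-/
set_option autoImplicit false

open MeasureTheory Filter Topology ProbabilityTheory
open scoped ContDiff ENNReal

namespace Claimed.Agent.R259

variable {E : Type} [NormedAddCommGroup E] [InnerProductSpace ℝ E] [FiniteDimensional ℝ E]
  [MeasurableSpace E] [BorelSpace E]

/-! ### kit GAPF: Lemma 3.7(ii), classical -/

theorem gapf_main {μ : Measure E} [IsProbabilityMeasure μ] (hb : BddSupp μ)
    (hlc : ∃ ρ : E → ℝ, LogConc ρ ∧ μ = dm ρ) {σ R : ℝ} (hσ : 0 < σ) (hR : 0 < R)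
    (hLSI : LSI (dm (gconv μ σ)) R) {φ : E → ℝ} (hφ : ContDiff ℝ ∞ φ)
    (h2 : MemLp φ 2 (dm (gconv μ σ))) (hD : MemLp (gradient φ) 2 (dm (gconv μ σ)))
    (h0 : ∫ x, φ x ∂(dm (gconv μ σ)) = 0) (h1 : ∫ x, φ x ^ 2 ∂(dm (gconv μ σ)) = 1)
    (hEig : ∀ x, opA (gconv μ σ) φ x = R⁻¹ * φ x) :
    CritField μ σ R⁻¹ (gconv μ σ) (gradient φ) ∧
      GapBranch μ σ R⁻¹ (gconv μ σ) (gradient φ) φ := by
  have hlam : 0 < R⁻¹ := inv_pos.2 hR
  have hν := gc_spd (μ := μ) hb hσ
  have hprob : IsProbabilityMeasure (dm (gconv μ σ)) := gc_isProb hσ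
  have hA : MemLp (opA (gconv μ σ) φ) 2 (dm (gconv μ σ)) := by
    have : opA (gconv μ σ) φ = fun x => R⁻¹ * φ x := funext hEig
    rw [this]
    exact h2.const_mul _
  have hH1 : H1 (dm (gconv μ σ)) φ (gradient φ) := ws_H1_of_contDiff (hφ.of_le (by simp)) h2 hD
  have hIeq : ∫ x, ‖gradient φ x‖ ^ 2 ∂(dm (gconv μ σ)) = R⁻¹ * ∫ x, φ x ^ 2 ∂(dm (gconv μ σ)) := by
    have h := (ws_classical_dom hν.1 hν.2.1 hφ h2 hA).2 _ _ hH1
    simp only [real_inner_self_eq_norm_sq] at h
    rw [h, ← integral_const_mul]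
    refine integral_congr_ae (Eventually.of_forall fun x => ?_)
    simp only
    rw [hEig]
    ring
  have hmom : Integrable (fun x => ‖x‖ ^ 2) (dm (gconv μ σ)) := by
    obtain ⟨C, hC⟩ := def_moment (μ := μ) hb hσ
    have h1' : H1 (dm (gconv μ σ)) (fun _ => (1 : ℝ)) (gradient (fun _ => (1 : ℝ))) := by
      refine ws_H1_of_contDiff contDiff_const (memLp_const _) ?_
      rw [gradient_fun_const']
      exact memLp_const _
    simpa using (hC _ _ h1').1
  refine ⟨refk_core hb hlc hσ hlam hν (by rwa [inv_inv]) hφ hD (by rw [hIeq, h1]; simpa using hlam)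
    (fun x => refc_eqn_gap hν.1 hν.2.1 hφ hEig x) hmom, ?_⟩
  exact ⟨hφ, h2, h0, hEig, fun _ => rfl, fun _ => rfl, hIeq, fun x => gc_grad_log hb hσ x⟩

/-- mean of `w` in the gap branch: `|E w|² ≤ C a² I` (here with the explicit constant). -/
theorem gapf_mean {μ : Measure E} {a σ lam : ℝ} (hμ : BaseLaw μ a) (hσ : 0 < σ)
    (hlam : 0 < lam) (hls : lam * σ ≤ 1 / 2) {η : E → ℝ} {w : E → E} {φ : E → ℝ}
    (hG : GapBranch μ σ lam η w φ) (hC : CritField μ σ lam η w) :
    ‖∫ x, w x ∂(dm η)‖ ^ 2 ≤ 4 * lam * a ^ 2 * ∫ x, ‖w x‖ ^ 2 ∂(dm η) := by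
  have hprobμ := hμ.prob
  have hb := hμ.bdd
  obtain rfl : η = gconv μ σ := funext hG.η_eq
  obtain rfl : w = gradient φ := funext hG.w_eq
  have hν := hC.spd
  have hprob : IsProbabilityMeasure (dm (gconv μ σ)) := gc_isProb hσ
  have hφ := hG.φ_smooth
  have h2 := hG.φ_L2
  have hD := hC.w_L2
  have hH1 : H1 (dm (gconv μ σ)) φ (gradient φ) := ws_H1_of_contDiff (hφ.of_le (by simp)) h2 hD
  have hAφ : MemLp (opA (gconv μ σ) φ) 2 (dm (gconv μ σ)) := by
    have : opA (gconv μ σ) φ = fun x => lam * φ x := funext hG.eigen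
    rw [this]
    exact h2.const_mul _
  have hid : MemLp (fun x : E => x) 2 (dm (gconv μ σ)) :=
    (memLp_two_iff_integrable_sq_norm aestronglyMeasurable_id).2 hC.mom2
  have hbm : MemLp (postMean μ σ) 2 (dm (gconv μ σ)) := by
    obtain ⟨r, hr⟩ := hb
    exact MemLp.of_bound (gc_postMean_contDiff ⟨r, hr⟩ hσ).continuous.aestronglyMeasurable r
      (Eventually.of_forall fun y => gc_postMean_norm_le hr hσ y)
  have hI0 : 0 ≤ ∫ x, ‖gradient φ x‖ ^ 2 ∂(dm (gconv μ σ)) := integral_nonneg fun x => by positivity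
  -- the key inequality for every direction
  have key : ∀ v : E, inner ℝ v (∫ x, gradient φ x ∂(dm (gconv μ σ))) ^ 2 ≤
      4 * lam * a ^ 2 * (∫ x, ‖gradient φ x‖ ^ 2 ∂(dm (gconv μ σ))) * ‖v‖ ^ 2 := by
    intro v
    set ℓ : E → ℝ := fun y => inner ℝ v y with hℓ
    have hℓs : ContDiff ℝ ∞ ℓ := contDiff_const.inner ℝ contDiff_id
    have hℓ2 : MemLp ℓ 2 (dm (gconv μ σ)) := hid.const_inner v
    have hgℓ : gradient ℓ = fun _ => v := by
      funext y
      refine ext_inner_right ℝ fun z => ?_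
      rw [inner_gradient_left, hℓ]
      exact congrArg (fun L : E →L[ℝ] ℝ => L z) (innerSL ℝ v).fderiv
    have hAℓ : ∀ x, opA (gconv μ σ) ℓ x = σ⁻¹ * (ℓ x - inner ℝ v (postMean μ σ x)) := by
      intro x
      have h := opc_clm (η := gconv μ σ) (x := x) (innerSL ℝ v) (g := fun y : E => y)
        contDiff_id.contDiffAt
      simp only [innerSL_apply_apply] at h
      rw [hℓ, h, opc_id, hG.drift, neg_neg, inner_smul_right, inner_sub_right]
    have hbv : MemLp (fun x => inner ℝ v (postMean μ σ x)) 2 (dm (gconv μ σ)) := hbm.const_inner v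
    have hAℓ2 : MemLp (opA (gconv μ σ) ℓ) 2 (dm (gconv μ σ)) := by
      have : opA (gconv μ σ) ℓ = fun x => σ⁻¹ * (ℓ x - inner ℝ v (postMean μ σ x)) := funext hAℓ
      rw [this]
      exact (hℓ2.sub hbv).const_mul _
    have hH1ℓ : H1 (dm (gconv μ σ)) ℓ (gradient ℓ) := by
      refine ws_H1_of_contDiff (hℓs.of_le (by simp)) hℓ2 ?_
      rw [hgℓ]
      exact memLp_const _
    have hwint : Integrable (gradient φ) (dm (gconv μ σ)) := hD.integrable (by norm_num)
    set M := inner ℝ v (∫ x, gradient φ x ∂(dm (gconv μ σ))) with hM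
    set P := ∫ x, φ x * ℓ x ∂(dm (gconv μ σ)) with hP
    set Q := ∫ x, φ x * inner ℝ v (postMean μ σ x) ∂(dm (gconv μ σ)) with hQ
    have ea : M = lam * P := by
      have h := (ws_classical_dom hν.1 hν.2.1 hφ h2 hAφ).2 _ _ hH1ℓ
      rw [hgℓ] at h
      simp only at h
      rw [integral_inner hwint] at h
      rw [hM, h, hP, ← integral_const_mul]
      refine integral_congr_ae (Eventually.of_forall fun x => ?_)
      simp only
      rw [hG.eigen]
      ring
    have eb : M = σ⁻¹ * (P - Q) := by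
      have h := (ws_classical_dom hν.1 hν.2.1 hℓs hℓ2 hAℓ2).2 _ _ hH1
      rw [hgℓ] at h
      simp only [real_inner_comm v] at h
      rw [integral_inner hwint] at h
      rw [hM, h, hP, hQ, ← integral_sub (ws_integrable_mul h2 hℓ2) (ws_integrable_mul h2 hbv),
        ← integral_const_mul]
      refine integral_congr_ae (Eventually.of_forall fun x => ?_)
      simp only
      rw [hAℓ]
      ring
    have ec : M * (1 - lam * σ) = lam * Q := by
      have h1 : σ * M = P - Q := by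
        rw [eb, ← mul_assoc, mul_inv_cancel₀ hσ.ne', one_mul]
      have h2' : lam * (σ * M) = M - lam * Q := by
        rw [h1, mul_sub, ← ea]
      linarith
    have hQ2 : Q ^ 2 ≤ (∫ x, φ x ^ 2 ∂(dm (gconv μ σ))) * (a ^ 2 * ‖v‖ ^ 2) := by
      refine (ws_cauchy_schwarz_mul h2 hbv).trans ?_
      refine mul_le_mul_of_nonneg_left ?_ (integral_nonneg fun x => by positivity)
      exact (gc_second_postMean hb hσ v).trans (subg_cov hμ v)
    have hIeq := hG.I_eq
    have h5 : M ^ 2 * (1 - lam * σ) ^ 2 = lam ^ 2 * Q ^ 2 := by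
      rw [← mul_pow, ec, mul_pow]
    have h6 : (1 / 2 : ℝ) ^ 2 ≤ (1 - lam * σ) ^ 2 := by
      apply pow_le_pow_left₀ (by norm_num)
      linarith
    have h7 : M ^ 2 * (1 / 2 : ℝ) ^ 2 ≤ lam ^ 2 * ((∫ x, φ x ^ 2 ∂(dm (gconv μ σ))) * (a ^ 2 * ‖v‖ ^ 2)) := by
      calc M ^ 2 * (1 / 2 : ℝ) ^ 2 ≤ M ^ 2 * (1 - lam * σ) ^ 2 :=
            mul_le_mul_of_nonneg_left h6 (by positivity)
        _ = lam ^ 2 * Q ^ 2 := h5
        _ ≤ _ := mul_le_mul_of_nonneg_left hQ2 (by positivity)
    rw [hIeq]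
    nlinarith [h7]
  have hk := key (∫ x, gradient φ x ∂(dm (gconv μ σ)))
  rw [real_inner_self_eq_norm_sq] at hk
  set N := ‖∫ x, gradient φ x ∂(dm (gconv μ σ))‖ ^ 2 with hN
  have hN0 : 0 ≤ N := by positivity
  rcases hN0.eq_or_lt with h | h
  · rw [← h]
    have := hμ.apos
    positivity
  · have : N * N ≤ (4 * lam * a ^ 2 * ∫ x, ‖gradient φ x‖ ^ 2 ∂(dm (gconv μ σ))) * N := by
      rw [← sq]; exact hk
    exact le_of_mul_le_mul_right this h


end Claimed.Agent.R259
end
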