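/- Packed by merge_tool.py (helper293): 6 modules of Claimed.Agent.R259 in one file, same declarations.
   Old modules, in this order: HiDefs, S6Defs, MkHS, MkPSD, MkTr1, S6Ten -/
import Claimed.Agent.R259.S3Defs
import Claimed.Agent.R260.MxDefs
import Claimed.Agent.R260.MxCont

/- ===== packed: Claimed.Agent.R259.HiDefs ===== -/
section
/-
Row 259 (S0499), sections 5-7 of the paper: GLOBAL definitions for coefficient fields, tensor
fields, slot actions, field norms, and the interface `HierData` between section 5 and sections 6-7.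
Owner: helper88.

Conventions.
* Fields take values in `EuclideanSpace ℝ ι` (`ι` a finite index type), so that `‖F y‖` is the
  unnormalised Hilbert-Schmidt coefficient norm of the paper.
* A tensor of order `d` over `ℝⁿ` is an element of `TT n d = EuclideanSpace ℝ (Fin d → Fin n)`.
  Differentiation appends a LAST slot (`tD`).  Slot `0` is the "first slot" of the paper.
* Matrices are `Mx n = Matrix (Fin n) (Fin n) ℝ` with the functional calculus `mxFun`, `mxSchur`
  of `Claimed.Agent.R260.MxDefs` (frozen files, import only).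
* All interfaces are classical: fields are honest smooth functions with compact support,
  `opA η F` is the pointwise differential operator of `S3Defs`.
-/
set_option autoImplicit false

open MeasureTheory
open scoped ContDiff BigOperators Matrix
open Claimed.Agent.R260 (Mx mxFun mxSchur mxSq mxIP mxEig mxU mxRot)

namespace Claimed.Agent.R259

noncomputable section

variable {n d : ℕ}

/-! ### Fields and their norms -/

/-- standard basis vector of `EE n` -/
def eb (i : Fin n) : EE n := EuclideanSpace.single i 1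

/-- vector valued test fields: smooth with compact support -/
def IsTestV {V : Type} [NormedAddCommGroup V] [NormedSpace ℝ V] (F : EE n → V) : Prop :=
  ContDiff ℝ ∞ F ∧ HasCompactSupport F

/-- squared `L²(η)` norm of a field -/
def nSq {V : Type} [NormedAddCommGroup V] (η : EE n → ℝ) (F : EE n → V) : ℝ :=
  ∫ y, ‖F y‖ ^ 2 ∂(dm η)

/-- `L²(η)` inner product of two fields -/
def ipF {V : Type} [NormedAddCommGroup V] [InnerProductSpace ℝ V] (η : EE n → ℝ)
    (F G : EE n → V) : ℝ :=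
  ∫ y, inner ℝ (F y) (G y) ∂(dm η)

/-- mean of a field -/
def meanF {V : Type} [NormedAddCommGroup V] [NormedSpace ℝ V] (η : EE n → ℝ) (F : EE n → V) : V :=
  ∫ y, F y ∂(dm η)

/-- directional derivative `D_i F` of a field -/
def dI {V : Type} [NormedAddCommGroup V] [NormedSpace ℝ V] (i : Fin n) (F : EE n → V)
    (y : EE n) : V :=
  fderiv ℝ F y (eb i)

/-- full derivative of a coefficient field: the derivative index is appended as second component -/
def fD {ι : Type} [Fintype ι] (F : EE n → EuclideanSpace ℝ ι) (y : EE n) :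
    EuclideanSpace ℝ (ι × Fin n) :=
  WithLp.toLp 2 (fun p => dI p.2 F y p.1)

/-! ### Tensors -/

/-- index set of tensors of order `d` -/
abbrev Idx (n d : ℕ) := Fin d → Fin n

/-- tensors of order `d` over `ℝⁿ` with the Hilbert-Schmidt norm -/
abbrev TT (n d : ℕ) := EuclideanSpace ℝ (Idx n d)

/-- derivative of a tensor field: the derivative index is appended as LAST slot -/
def tD (T : EE n → TT n d) (y : EE n) : TT n (d + 1) :=
  WithLp.toLp 2 (fun α => dI (α (Fin.last d)) T y (Fin.init α))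

/-- total symmetry of a tensor -/
def TSym (t : TT n d) : Prop := ∀ (σ : Equiv.Perm (Fin d)) (α : Idx n d), t (α ∘ σ) = t α

/-- action of a matrix on slot `r` of a tensor -/
def slot (r : Fin d) (M : Mx n) (t : TT n d) : TT n d :=
  WithLp.toLp 2 (fun α => ∑ j, M (α r) j * t (Function.update α r j))

/-- one-slot flattening: rows = slot `0`, columns = the remaining slots -/
def flat (t : TT n (d + 1)) : Matrix (Fin n) (Idx n d) ℝ :=
  Matrix.of fun i β => t (Fin.cons i β)

/-- one-slot reduction `t t*` (an `n × n` positive semidefinite matrix) -/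
def red (t : TT n (d + 1)) : Mx n := flat t * (flat t)ᵀ

/-- contraction of the LAST `j` slots of a tensor of order `m = d + j` with a tensor of order `j`
(the equation `hm` is an explicit argument, so that no casts of types are needed:
`ctr (by omega) (X.T (l + j) y) h : TT n (l + 1)`) -/
def ctr {m j : ℕ} (hm : m = d + j) (t : TT n m) (h : TT n j) : TT n d :=
  WithLp.toLp 2 (fun α => ∑ β : Idx n j, t (Fin.append α β ∘ Fin.cast hm) * h β)

/-- `H[v] = ∑ v_i H_i` for a column of matrices -/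
def colAt (H : Fin n → Mx n) (v : EE n) : Mx n := ∑ i, v i • H i

/-- `S = ∑ H_i²` -/
def colS (H : Fin n → Mx n) : Mx n := ∑ i, H i * H i

/-- entrywise mean of a matrix field -/
def meanMx (η : EE n → ℝ) (M : EE n → Mx n) : Mx n :=
  Matrix.of fun a b => ∫ y, M y a b ∂(dm η)

/-! ### The interface between section 5 and sections 6-7 -/

/-- Output of the hierarchy construction (Proposition 5.1), classical form.
`M` is the field `M_s = 1 - s K_s`; `T l` has order `l + 1`. -/
structure HierData (n : ℕ) where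
  η : EE n → ℝ
  spd : SPD η
  lam : ℝ
  lam_pos : 0 < lam
  lsi : LSI (dm η) lam⁻¹
  pi : PI (dm η) lam⁻¹
  I : ℝ
  I_pos : 0 < I
  M : EE n → Mx n
  M_meas : ∀ a b, Measurable fun y => M y a b
  M_symm : ∀ y, (M y).IsSymm
  M_nonneg : ∀ y, (M y).PosSemidef
  M_le_one : ∀ y, (1 - M y).PosSemidef
  T : (l : ℕ) → EE n → TT n (l + 1)
  T_test : ∀ l, IsTestV (T l)
  T_symm : ∀ l y, TSym (T l y)

/-- All normalised defects of the hierarchy up to level `L` are at most `ε`. -/
structure HierData.Small (X : HierData n) (L : ℕ) (ε : ℝ) : Prop where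
  lam_lo : 1 - ε ≤ X.lam
  lam_hi : X.lam ≤ 1 + ε
  norm : ∀ l ≤ L, |nSq X.η (X.T l) - X.I| ≤ ε * X.I
  eigen : ∀ l ≤ L, nSq X.η (fun y => opA X.η (X.T l) y - X.T l y) ≤ ε * X.I
  deriv : ∀ l ≤ L, nSq X.η (fun y => tD (X.T l) y - X.T (l + 1) y) ≤ ε * X.I
  curv : ∀ l ≤ L, ipF X.η (X.T l) (fun y => slot 0 (1 - X.M y) (X.T l y)) ≤ ε * X.I
  meanM : ∀ l ≤ L, ipF X.η (X.T l) (fun y => slot 0 (meanMx X.η X.M) (X.T l y)) ≤ ε * X.I

end

/-- generates the equation lemmas of the definitions above in this file (rule 6: unique names) -/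
theorem hidefs_eqns_cite : True := by
  have := @eb.eq_1
  have := @IsTestV.eq_1
  have := @nSq.eq_1
  have := @ipF.eq_1
  have := @meanF.eq_1
  have := @dI.eq_1
  have := @fD.eq_1
  have := @tD.eq_1
  have := @TSym.eq_1
  have := @slot.eq_1
  have := @flat.eq_1
  have := @red.eq_1
  have := @ctr.eq_1
  have := @colAt.eq_1
  have := @colS.eq_1
  have := @meanMx.eq_1
  have := @ctr.congr_simp
  trivial

end Claimed.Agent.R259
end

/- ===== packed: Claimed.Agent.R259.S6Defs ===== -/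
section
/-
Row 259 (S0499), section 6 of the paper (reduced square root, frozen matrix algebra): definitions.
Owner: helper88.

Everything is FRAME-FREE: no measurable eigenframes are chosen.  A column `(H_i)_i` is a function
`Fin n → Mx n` in the standard basis (a 3-tensor); blocks are encoded algebraically through the
rounded matrix `R_*` (`Rs`): "row and column in the same block" is `H_i R_* = R_* H_i`, "outer index
in the same block" is `H[R_* v] = R_* H[v]`.
-/
set_option autoImplicit false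

open MeasureTheory ProbabilityTheory
open scoped ContDiff BigOperators Matrix
open Claimed.Agent.R260 (Mx mxFun mxSchur mxSq mxIP mxEig mxU mxRot)

namespace Claimed.Agent.R259

noncomputable section

variable {n : ℕ}

/-- standard Gaussian measure on `EE n` -/
def gam (n : ℕ) : Measure (EE n) := dm (gk (1 : ℝ) : EE n → ℝ)

/-- uniform probability measure on `[0, h)` (the random block offset) -/
def unifM (h : ℝ) : Measure ℝ := ENNReal.ofReal h⁻¹ • volume.restrict (Set.Ico 0 h)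

/-- matrix times vector in `EE n` -/
def mv (A : Mx n) (v : EE n) : EE n := WithLp.toLp 2 (A *ᵥ (fun i => v i))

/-- commutator -/
def cmm (A B : Mx n) : Mx n := A * B - B * A

namespace HierData

variable (X : HierData n) (k : ℕ)

/-- normalisation `1/(k I)` of the band `k ≤ l < 2k` -/
def nrm : ℝ := ((k : ℝ) * X.I)⁻¹

/-- `ρ = Ψ Ψ*`, the one-slot reduction of the band -/
def rho (y : EE n) : Mx n := X.nrm k • ∑ l ∈ Finset.Ico k (2 * k), red (X.T l y)

/-- `R = ρ^{1/2}` -/
def R (y : EE n) : Mx n := mxFun Real.sqrt (X.rho k y)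

/-- `D_i ρ` (algebraic formula) -/
def Drho (i : Fin n) (y : EE n) : Mx n :=
  X.nrm k • ∑ l ∈ Finset.Ico k (2 * k),
    (flat (dI i (X.T l) y) * (flat (X.T l y))ᵀ + flat (X.T l y) * (flat (dI i (X.T l) y))ᵀ)

/-- algebraic Sylvester solution `X_i R + R X_i = D_i ρ` with zero kernel-kernel block
(equal to `D_i R` almost everywhere) -/
def DR (i : Fin n) (y : EE n) : Mx n :=
  mxSchur (fun a b => if a + b = 0 then 0 else (a + b)⁻¹) (X.R k y) (X.Drho k i y)

/-- the original Sylvester column `Ĥ_i`: `D_i R = (Ĥ_i R + R Ĥ_i)/2`, zero kernel-kernel block -/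
def Hhat (y : EE n) (i : Fin n) : Mx n :=
  mxSchur (fun a b => if a + b = 0 then 0 else 2 * ((a + b) ^ 2)⁻¹) (X.R k y) (X.Drho k i y)

/-- `e = ‖DR‖₂²` -/
def eD : ℝ := ∑ i, ∫ y, mxSq (X.DR k i y) ∂(dm X.η)

/-- `c = ∑_i E‖[Ĥ_i,R]‖²` for the original Sylvester column -/
def cHat : ℝ := ∑ i, ∫ y, mxSq (cmm (X.Hhat k y i) (X.R k y)) ∂(dm X.η)

/-- `a = ∑_i E tr(R² Ĥ_i²)` for the original Sylvester column -/
def aHat : ℝ := ∑ i, ∫ y, mxSq (X.Hhat k y i * X.R k y) ∂(dm X.η)

/-- `∑_i ‖D_iΨ - (Ĥ_i)_{(1)}Ψ‖₂²` for the original Sylvester column -/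
def actHat : ℝ :=
  X.nrm k * ∑ l ∈ Finset.Ico k (2 * k), ∑ i,
    ∫ y, ‖dI i (X.T l) y - slot 0 (X.Hhat k y i) (X.T l y)‖ ^ 2 ∂(dm X.η)

/-- the space of initial data `𝒟 = (Y_0, θ)` carries `η ⊗ unif[0,h)` -/
def Qm (h : ℝ) : Measure (EE n × ℝ) := (dm X.η).prod (unifM h)

variable (h : ℝ) (H : EE n × ℝ → Fin n → Mx n)

/-- derivative-action defect `∑_i ‖D_iΨ - (H_i)_{(1)}Ψ‖₂²` of a column on `𝒟` -/
def actD : ℝ :=
  X.nrm k * ∑ l ∈ Finset.Ico k (2 * k), ∑ i,
    ∫ p, ‖dI i (X.T l) p.1 - slot 0 (H p i) (X.T l p.1)‖ ^ 2 ∂(X.Qm h)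

/-- commutator defect `∑_i E‖[H_i,R]‖²` -/
def comD : ℝ := ∑ i, ∫ p, mxSq (cmm (H p i) (X.R k p.1)) ∂(X.Qm h)

/-- weighted energy `∑_i E tr(R² H_i²)` -/
def enD : ℝ := ∑ i, ∫ p, mxSq (H p i * X.R k p.1) ∂(X.Qm h)

/-- weighted distance to the original Sylvester column `∑_i E‖(H_i - Ĥ_i)R‖²` -/
def clD : ℝ := ∑ i, ∫ p, mxSq ((H p i - X.Hhat k p.1 i) * X.R k p.1) ∂(X.Qm h)

/-- `E‖(S-1)R‖²` -/
def sD : ℝ := ∫ p, mxSq ((colS (H p) - 1) * X.R k p.1) ∂(X.Qm h)

/-- `∑_{i,j} E‖[H_i,H_j]R‖²` -/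
def ccD : ℝ := ∑ i, ∑ j, ∫ p, mxSq (cmm (H p i) (H p j) * X.R k p.1) ∂(X.Qm h)

/-- index exchange defect `E ∑_{i,a,b} |(H_iR)_{ab} - (H_aR)_{ib}|²` -/
def exD : ℝ :=
  ∫ p, ∑ i, ∑ a, ∑ b, ((H p i * X.R k p.1) a b - (H p a * X.R k p.1) i b) ^ 2 ∂(X.Qm h)

/-- an admissible column on `𝒟`: measurable, symmetric, `S ≤ 4` -/
structure ColOK : Prop where
  meas : ∀ i a b, Measurable fun p => H p i a b
  symm : ∀ p i, (H p i).IsSymm
  col : ∀ p, ((4 : ℝ) • (1 : Mx n) - colS (H p)).PosSemidef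

/-- rounding of the positive eigenvalues down to the grid `exp(θ + h ℤ)` -/
def rnd (h θ x : ℝ) : ℝ := if x ≤ 0 then 0 else Real.exp (θ + h * ⌊(Real.log x - θ) / h⌋)

/-- the rounded block matrix `R_*` -/
def Rs (p : EE n × ℝ) : Mx n := mxFun (rnd h p.2) (X.R k p.1)

end HierData

/-! ### The abstract block model (output of Lemma 6.6) -/

/-- Block matrices over a probability space `(D, Q)` of initial data. -/
structure BlockModel (n : ℕ) {D : Type} [MeasurableSpace D] (Q : Measure D) where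
  Rs : D → Mx n
  H : D → Fin n → Mx n
  Rs_meas : ∀ a b, Measurable fun d => Rs d a b
  H_meas : ∀ i a b, Measurable fun d => H d i a b
  Rs_psd : ∀ d, (Rs d).PosSemidef
  Rs_int : Integrable (fun d => mxSq (Rs d)) Q
  H_symm : ∀ d i, (H d i).IsSymm
  /-- row and column index in the same block -/
  comm : ∀ d i, H d i * Rs d = Rs d * H d i
  /-- outer index in the same block -/
  outer : ∀ d v, colAt (H d) (mv (Rs d) v) = Rs d * colAt (H d) v
  /-- everything vanishes on the kernel of `R_*` -/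
  ker : ∀ d v, mv (Rs d) v = 0 → colAt (H d) v = 0 ∧ ∀ i, mv (H d i) v = 0
  col : ∀ d, ((4 : ℝ) • (1 : Mx n) - colS (H d)).PosSemidef
  flt : ∀ d v, mxSq (colAt (H d) v) ≤ 4 * ‖v‖ ^ 2

namespace BlockModel

variable {D : Type} [MeasurableSpace D] {Q : Measure D} (B : BlockModel n Q)

/-- the weighted trace `τ(U) = E tr(R_*² U)` -/
def tau (U : D → Mx n) : ℝ := ∫ d, Matrix.trace (B.Rs d * B.Rs d * U d) ∂Q

/-- the tracial defects of (6.tracial-defects) -/
structure Small (ε : ℝ) : Prop where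
  mass : |B.tau (fun _ => 1) - 1| ≤ ε
  sdef : B.tau (fun d => (colS (B.H d) - 1) * (colS (B.H d) - 1)) ≤ ε
  cdef : ∑ i, ∑ j, B.tau (fun d => (cmm (B.H d i) (B.H d j))ᵀ * cmm (B.H d i) (B.H d j)) ≤ ε
  xdef : ∫ d, ∑ i, ∑ a, ∑ b, ((B.H d i * B.Rs d) a b - (B.H d a * B.Rs d) i b) ^ 2 ∂Q ≤ ε

/-- the frozen square root `σ^{1/2} = R_* exp(√(2t) H[N] - 2t)` -/
def sigHalf (t : ℝ) (d : D) (N : EE n) : Mx n :=
  B.Rs d * mxFun (fun x => Real.exp (Real.sqrt (2 * t) * x - 2 * t)) (colAt (B.H d) N)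

/-- the matrix word `D_{r 0} ⋯ D_{r (m-1)}`, `D_s = H[N_s]` -/
def word {q m : ℕ} (r : Fin m → Fin q) (d : D) (N : Fin q → EE n) : Mx n :=
  (List.ofFn fun j => colAt (B.H d) (N (r j))).prod

end BlockModel

/-- The frozen diffusion law (Proposition 6.8): a coupling `(𝒟, N, Y_t)`. -/
structure Frozen (X : HierData n) (k : ℕ) (h t ε : ℝ) where
  B : BlockModel n (X.Qm h)
  small : B.Small ε
  Ω : Type
  mΩ : MeasurableSpace Ω
  P : Measure Ω
  prob : IsProbabilityMeasure P
  Dt : Ω → EE n × ℝ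
  N : Ω → EE n
  Yt : Ω → EE n
  Dt_meas : Measurable Dt
  N_meas : Measurable N
  Yt_meas : Measurable Yt
  law_Dt : P.map Dt = X.Qm h
  law_N : P.map N = gam n
  law_Yt : P.map Yt = dm X.η
  indep : IndepFun Dt N P
  close : ∫ o, mxSq (X.R k (Yt o) - B.sigHalf t (Dt o) (N o)) ∂P ≤ ε

end

/-- generates the equation lemmas of the definitions above in this file (rule 6: unique names) -/
theorem s6defs_eqns_cite : True := by
  have := @gam.eq_1
  have := @unifM.eq_1
  have := @mv.eq_1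
  have := @cmm.eq_1
  have := @HierData.nrm.eq_1
  have := @HierData.rho.eq_1
  have := @HierData.R.eq_1
  have := @HierData.Drho.eq_1
  have := @HierData.DR.eq_1
  have := @HierData.Hhat.eq_1
  have := @HierData.eD.eq_1
  have := @HierData.cHat.eq_1
  have := @HierData.aHat.eq_1
  have := @HierData.actHat.eq_1
  have := @HierData.Qm.eq_1
  have := @HierData.actD.eq_1
  have := @HierData.comD.eq_1
  have := @HierData.enD.eq_1
  have := @HierData.clD.eq_1
  have := @HierData.sD.eq_1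
  have := @HierData.ccD.eq_1
  have := @HierData.exD.eq_1
  have := @HierData.rnd.eq_1
  have := @HierData.Rs.eq_1
  have := @BlockModel.tau.eq_1
  have := @BlockModel.sigHalf.eq_1
  have := @BlockModel.word.eq_1
  trivial

end Claimed.Agent.R259
end

/- ===== packed: Claimed.Agent.R259.MkHS ===== -/
section
/-
Row 259 (S0499), matrix kit for sections 6-7, part 1: Hilbert-Schmidt calculus of rectangular real
matrices, traces of products of positive matrices, the positive square root, trace norm,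
Hilbert-Schmidt Lipschitz functional calculus, Araki-Yamagami.
Architect: helper57.  Prefix `mk`.  PURE LINEAR ALGEBRA (no measure theory, no paper needed).

Vocabulary: `Mx n`, `mxFun`, `mxSchur`, `mxEig`, `mxU`, `mxRot` of `Claimed.Agent.R260.Mx*` (sorry-free, frozen);
cite its lemmas with `open Claimed.Agent.R260 (...)` or full names (do NOT open the whole namespace: `R260.EE` clashes).
-/
set_option autoImplicit false

open scoped BigOperators Matrix
open Claimed.Agent.R260 (Mx mxFun mxSchur mxSq mxIP mxEig mxU mxRot)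

namespace Claimed.Agent.R259

noncomputable section

/-! ### Package L-Mk-A: Hilbert-Schmidt norm and inner product of rectangular matrices -/

section HS

variable {α β γ : Type} [Fintype α] [Fintype β] [Fintype γ]

/-- squared Hilbert-Schmidt norm of a rectangular matrix -/
def hs2 (A : Matrix α β ℝ) : ℝ := ∑ i, ∑ j, A i j ^ 2

/-- Hilbert-Schmidt inner product of rectangular matrices -/
def hsI (A B : Matrix α β ℝ) : ℝ := ∑ i, ∑ j, A i j * B i j

theorem mk_hs_eqns_cite : True := by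
  have := @hs2.eq_1
  have := @hsI.eq_1
  trivial

theorem hs2_nonneg (A : Matrix α β ℝ) : 0 ≤ hs2 A := by
  exact Finset.sum_nonneg fun i _ => Finset.sum_nonneg fun j _ => sq_nonneg _

theorem hs2_zero : hs2 (0 : Matrix α β ℝ) = 0 := by
  simp [hs2]

theorem hs2_eq_zero_iff (A : Matrix α β ℝ) : hs2 A = 0 ↔ A = 0 := by
  constructor
  · intro h
    ext i j
    have h0 : ∀ i ∈ (Finset.univ : Finset α), 0 ≤ ∑ j, A i j ^ 2 :=
      fun i _ => Finset.sum_nonneg fun j _ => sq_nonneg _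
    have h1 := (Finset.sum_eq_zero_iff_of_nonneg h0).1 h i (Finset.mem_univ i)
    have h2 : ∀ j ∈ (Finset.univ : Finset β), 0 ≤ A i j ^ 2 := fun j _ => sq_nonneg _
    have h3 := (Finset.sum_eq_zero_iff_of_nonneg h2).1 h1 j (Finset.mem_univ j)
    simpa using h3
  · rintro rfl
    exact hs2_zero

theorem hsI_self (A : Matrix α β ℝ) : hsI A A = hs2 A := by
  simp only [hsI, hs2, sq]

theorem hsI_comm (A B : Matrix α β ℝ) : hsI A B = hsI B A := by
  simp only [hsI, mul_comm]

theorem hsI_add_left (A A' B : Matrix α β ℝ) : hsI (A + A') B = hsI A B + hsI A' B := by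
  simp only [hsI, Matrix.add_apply, add_mul, Finset.sum_add_distrib]

theorem hsI_sub_left (A A' B : Matrix α β ℝ) : hsI (A - A') B = hsI A B - hsI A' B := by
  simp only [hsI, Matrix.sub_apply, sub_mul, Finset.sum_sub_distrib]

theorem hsI_smul_left (c : ℝ) (A B : Matrix α β ℝ) : hsI (c • A) B = c * hsI A B := by
  simp only [hsI, Matrix.smul_apply, smul_eq_mul, mul_assoc, Finset.mul_sum]

theorem hsI_sum_left {ι : Type} (s : Finset ι) (A : ι → Matrix α β ℝ) (B : Matrix α β ℝ) :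
    hsI (∑ i ∈ s, A i) B = ∑ i ∈ s, hsI (A i) B := by
  classical
  induction s using Finset.induction_on with
  | empty => simp [hsI]
  | insert a s ha ih => rw [Finset.sum_insert ha, hsI_add_left, ih, Finset.sum_insert ha]

theorem hsI_eq_trace (A B : Matrix α β ℝ) : hsI A B = Matrix.trace (A * Bᵀ) := by
  simp only [hsI, Matrix.trace, Matrix.diag_apply, Matrix.mul_apply, Matrix.transpose_apply]

theorem hsI_eq_trace' (A B : Matrix α β ℝ) : hsI A B = Matrix.trace (Aᵀ * B) := by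
  rw [hsI, Finset.sum_comm]
  simp only [Matrix.trace, Matrix.diag_apply, Matrix.mul_apply, Matrix.transpose_apply]

theorem hs2_eq_trace (A : Matrix α β ℝ) : hs2 A = Matrix.trace (A * Aᵀ) := by
  rw [← hsI_self, hsI_eq_trace]

theorem hs2_eq_trace' (A : Matrix α β ℝ) : hs2 A = Matrix.trace (Aᵀ * A) := by
  rw [← hsI_self, hsI_eq_trace']

theorem hs2_transpose (A : Matrix α β ℝ) : hs2 Aᵀ = hs2 A := by
  unfold hs2
  rw [Finset.sum_comm]
  rfl

theorem hsI_transpose (A B : Matrix α β ℝ) : hsI Aᵀ Bᵀ = hsI A B := by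
  unfold hsI
  rw [Finset.sum_comm]
  rfl

theorem hs2_neg (A : Matrix α β ℝ) : hs2 (-A) = hs2 A := by
  simp [hs2]

theorem hs2_smul (c : ℝ) (A : Matrix α β ℝ) : hs2 (c • A) = c ^ 2 * hs2 A := by
  simp only [hs2, Matrix.smul_apply, smul_eq_mul, mul_pow, Finset.mul_sum]

theorem hs2_add (A B : Matrix α β ℝ) : hs2 (A + B) = hs2 A + 2 * hsI A B + hs2 B := by
  simp only [hs2, hsI, Matrix.add_apply, Finset.mul_sum, ← Finset.sum_add_distrib]
  refine Finset.sum_congr rfl fun i _ => Finset.sum_congr rfl fun j _ => ?_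
  ring

theorem hs2_sub (A B : Matrix α β ℝ) : hs2 (A - B) = hs2 A - 2 * hsI A B + hs2 B := by
  simp only [hs2, hsI, Matrix.sub_apply, Finset.mul_sum, ← Finset.sum_add_distrib,
    ← Finset.sum_sub_distrib]
  refine Finset.sum_congr rfl fun i _ => Finset.sum_congr rfl fun j _ => ?_
  ring

theorem hs2_sub_comm (A B : Matrix α β ℝ) : hs2 (A - B) = hs2 (B - A) := by
  rw [← neg_sub, hs2_neg]

/-- Cauchy-Schwarz -/
theorem hsI_sq_le (A B : Matrix α β ℝ) : hsI A B ^ 2 ≤ hs2 A * hs2 B := by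
  have h := Finset.sum_mul_sq_le_sq_mul_sq (Finset.univ ×ˢ Finset.univ)
    (fun p : α × β => A p.1 p.2) (fun p : α × β => B p.1 p.2)
  simpa only [Finset.sum_product, hsI, hs2] using h

theorem abs_hsI_le (A B : Matrix α β ℝ) :
    |hsI A B| ≤ Real.sqrt (hs2 A) * Real.sqrt (hs2 B) := by
  rw [← Real.sqrt_mul (hs2_nonneg A)]
  exact Real.abs_le_sqrt (hsI_sq_le A B)

/-- triangle inequality -/
theorem sqrt_hs2_add_le (A B : Matrix α β ℝ) :
    Real.sqrt (hs2 (A + B)) ≤ Real.sqrt (hs2 A) + Real.sqrt (hs2 B) := by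
  apply Real.sqrt_le_iff.2
  refine ⟨by positivity, ?_⟩
  have h1 := abs_hsI_le A B
  have h2 := le_abs_self (hsI A B)
  have h3 := Real.sq_sqrt (hs2_nonneg A)
  have h4 := Real.sq_sqrt (hs2_nonneg B)
  rw [hs2_add]
  nlinarith

theorem sqrt_hs2_sub_le (A B : Matrix α β ℝ) :
    Real.sqrt (hs2 (A - B)) ≤ Real.sqrt (hs2 A) + Real.sqrt (hs2 B) := by
  have h := sqrt_hs2_add_le A (-B)
  rwa [hs2_neg, ← sub_eq_add_neg] at h

theorem hs2_add_le (A B : Matrix α β ℝ) : hs2 (A + B) ≤ 2 * hs2 A + 2 * hs2 B := by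
  have h := hs2_nonneg (A - B)
  rw [hs2_sub] at h
  rw [hs2_add]
  linarith

theorem hs2_sub_le (A B : Matrix α β ℝ) : hs2 (A - B) ≤ 2 * hs2 A + 2 * hs2 B := by
  have h := hs2_nonneg (A + B)
  rw [hs2_add] at h
  rw [hs2_sub]
  linarith

theorem hs2_sum_le {ι : Type} (s : Finset ι) (A : ι → Matrix α β ℝ) :
    hs2 (∑ i ∈ s, A i) ≤ s.card * ∑ i ∈ s, hs2 (A i) := by
  have h1 : ∀ i j, (∑ k ∈ s, A k i j) ^ 2 ≤ s.card * ∑ k ∈ s, A k i j ^ 2 := fun i j =>
    sq_sum_le_card_mul_sum_sq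
  calc hs2 (∑ k ∈ s, A k) = ∑ i, ∑ j, (∑ k ∈ s, A k i j) ^ 2 := by
        simp only [hs2, Matrix.sum_apply]
    _ ≤ ∑ i, ∑ j, (s.card * ∑ k ∈ s, A k i j ^ 2) :=
        Finset.sum_le_sum fun i _ => Finset.sum_le_sum fun j _ => h1 i j
    _ = s.card * ∑ k ∈ s, hs2 (A k) := by
        simp only [hs2, ← Finset.mul_sum]
        congr 1
        calc ∑ i, ∑ j, ∑ k ∈ s, A k i j ^ 2 = ∑ i, ∑ k ∈ s, ∑ j, A k i j ^ 2 :=
              Finset.sum_congr rfl fun i _ => Finset.sum_comm
          _ = ∑ k ∈ s, ∑ i, ∑ j, A k i j ^ 2 := Finset.sum_comm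

/-- `| ‖A‖² - ‖B‖² | ≤ ‖A - B‖ (‖A‖ + ‖B‖)` -/
theorem abs_hs2_sub_hs2_le (A B : Matrix α β ℝ) :
    |hs2 A - hs2 B| ≤ Real.sqrt (hs2 (A - B)) * (Real.sqrt (hs2 A) + Real.sqrt (hs2 B)) := by
  have e : hs2 A - hs2 B = hsI (A - B) (A + B) := by
    simp only [hs2, hsI, Matrix.sub_apply, Matrix.add_apply, ← Finset.sum_sub_distrib]
    refine Finset.sum_congr rfl fun i _ => Finset.sum_congr rfl fun j _ => ?_
    ring
  rw [e]
  refine (abs_hsI_le _ _).trans ?_
  exact mul_le_mul_of_nonneg_left (sqrt_hs2_add_le A B) (Real.sqrt_nonneg _)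

theorem hs2_mul_le (A : Matrix α β ℝ) (B : Matrix β γ ℝ) : hs2 (A * B) ≤ hs2 A * hs2 B := by
  calc hs2 (A * B) = ∑ i, ∑ k, (∑ j, A i j * B j k) ^ 2 := by
        simp only [hs2, Matrix.mul_apply]
    _ ≤ ∑ i, ∑ k, (∑ j, A i j ^ 2) * (∑ j, B j k ^ 2) :=
        Finset.sum_le_sum fun i _ => Finset.sum_le_sum fun k _ =>
          Finset.sum_mul_sq_le_sq_mul_sq _ _ _
    _ = hs2 A * hs2 Bᵀ := by
        simp only [hs2, Matrix.transpose_apply]
        rw [Finset.sum_mul_sum]
    _ = hs2 A * hs2 B := by rw [hs2_transpose]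

/-- `‖A B‖² ≤ c ‖B‖²` if `AᵀA ≤ c` -/
theorem hs2_mul_le_left [DecidableEq β] {A : Matrix α β ℝ} {c : ℝ}
    (hA : (c • (1 : Matrix β β ℝ) - Aᵀ * A).PosSemidef) (B : Matrix β γ ℝ) :
    hs2 (A * B) ≤ c * hs2 B := by
  have h1 := (hA.conjTranspose_mul_mul_same B).trace_nonneg
  rw [Matrix.conjTranspose_eq_transpose_of_trivial] at h1
  have e : Matrix.trace (Bᵀ * (c • (1 : Matrix β β ℝ) - Aᵀ * A) * B) = c * hs2 B - hs2 (A * B) := by
    rw [hs2_eq_trace' B, hs2_eq_trace' (A * B), Matrix.transpose_mul, Matrix.mul_sub, Matrix.sub_mul,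
      Matrix.trace_sub, Matrix.mul_smul, Matrix.mul_one, Matrix.smul_mul, Matrix.trace_smul, smul_eq_mul]
    simp only [Matrix.mul_assoc]
  rw [e] at h1
  linarith

/-- `‖A B‖² ≤ c ‖A‖²` if `B Bᵀ ≤ c` -/
theorem hs2_mul_le_right [DecidableEq β] (A : Matrix α β ℝ) {B : Matrix β γ ℝ} {c : ℝ}
    (hB : (c • (1 : Matrix β β ℝ) - B * Bᵀ).PosSemidef) :
    hs2 (A * B) ≤ c * hs2 A := by
  have h := hs2_mul_le_left (A := Bᵀ) (c := c) (by rwa [Matrix.transpose_transpose]) Aᵀ
  rwa [← Matrix.transpose_mul, hs2_transpose, hs2_transpose] at h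

theorem hs2_mul_eq_trace (X : Matrix α β ℝ) (P : Matrix β γ ℝ) :
    hs2 (X * P) = Matrix.trace (X * (P * Pᵀ) * Xᵀ) := by
  rw [hs2_eq_trace, Matrix.transpose_mul]
  simp only [Matrix.mul_assoc]

/-- the cost of `X` on `P` depends only on the reduction `P Pᵀ` -/
theorem hs2_mul_congr {γ' : Type} [Fintype γ'] (X : Matrix α β ℝ) {P : Matrix β γ ℝ}
    {P' : Matrix β γ' ℝ} (h : P * Pᵀ = P' * P'ᵀ) : hs2 (X * P) = hs2 (X * P') := by
  rw [hs2_mul_eq_trace, h, ← hs2_mul_eq_trace]

theorem hsI_mul_congr {γ' : Type} [Fintype γ'] (X Y : Matrix α β ℝ) {P : Matrix β γ ℝ}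
    {P' : Matrix β γ' ℝ} (h : P * Pᵀ = P' * P'ᵀ) : hsI (X * P) (Y * P) = hsI (X * P') (Y * P') := by
  have key : ∀ {δ : Type} [Fintype δ] (R : Matrix β δ ℝ),
      hsI (X * R) (Y * R) = Matrix.trace (X * (R * Rᵀ) * Yᵀ) := by
    intro δ _ R
    rw [hsI_eq_trace, Matrix.transpose_mul]
    simp only [Matrix.mul_assoc]
  rw [key P, key P', h]

/-- `⟨A B, C⟩ = ⟨B, Aᵀ C⟩` -/
theorem hsI_mul_left (A : Matrix α β ℝ) (B : Matrix β γ ℝ) (C : Matrix α γ ℝ) :
    hsI (A * B) C = hsI B (Aᵀ * C) := by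
  rw [hsI_eq_trace', hsI_eq_trace', Matrix.transpose_mul, Matrix.mul_assoc]

/-- `⟨A B, C⟩ = ⟨A, C Bᵀ⟩` -/
theorem hsI_mul_right (A : Matrix α β ℝ) (B : Matrix β γ ℝ) (C : Matrix α γ ℝ) :
    hsI (A * B) C = hsI A (C * Bᵀ) := by
  rw [hsI_eq_trace, hsI_eq_trace, Matrix.transpose_mul, Matrix.transpose_transpose, Matrix.mul_assoc]

theorem hs2_reindex {α' β' : Type} [Fintype α'] [Fintype β'] (e : α ≃ α') (f : β ≃ β')
    (A : Matrix α β ℝ) : hs2 (Matrix.reindex e f A) = hs2 A := by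
  unfold hs2
  rw [← Equiv.sum_comp e]
  refine Finset.sum_congr rfl fun i _ => ?_
  rw [← Equiv.sum_comp f]
  simp

end HS

variable {n : ℕ}

theorem mxSq_eq_hs2 (A : Mx n) : mxSq A = hs2 A := by
  exact Claimed.Agent.R260.mxSq_eq_sum A

theorem mxIP_eq_hsI (A B : Mx n) : mxIP A B = hsI A B := by
  exact Claimed.Agent.R260.mxIP_eq_sum A B

/-- entries are bounded by the norm -/
theorem sq_apply_le_hs2 {α β : Type} [Fintype α] [Fintype β] (A : Matrix α β ℝ) (i : α) (j : β) :
    A i j ^ 2 ≤ hs2 A := by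
  calc A i j ^ 2 ≤ ∑ j', A i j' ^ 2 :=
        Finset.single_le_sum (f := fun j' => A i j' ^ 2) (fun j' _ => sq_nonneg _) (Finset.mem_univ j)
    _ ≤ hs2 A :=
        Finset.single_le_sum (f := fun i' => ∑ j', A i' j' ^ 2)
          (fun i' _ => Finset.sum_nonneg fun j' _ => sq_nonneg _) (Finset.mem_univ i)

/-- invariance under rotation into an eigenbasis -/
theorem hs2_mxRot (A F : Mx n) : hs2 (mxRot A F) = hs2 F := by
  rw [← mxSq_eq_hs2 F, Claimed.Agent.R260.mxSq_rot A F]
  rfl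

end

end Claimed.Agent.R259
end

/- ===== packed: Claimed.Agent.R259.MkPSD ===== -/
section
/-
Row 259 (S0499), matrix kit for sections 6-7, part 1b: traces of products of positive matrices, spectrum and order,
the positive square root.  Architect: helper57.  Prefix `mk`.  PURE LINEAR ALGEBRA.
Base: `Claimed.Agent.R260.Mx*` (sorry-free): `mx_spectral`, `mxFun_*`, `mxRot_*`, `mxFun_posSemidef`, `mxFun_comp`, `mxSchur_mxFun`, ...
-/
set_option autoImplicit false

open MeasureTheory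
open scoped BigOperators Matrix
open Claimed.Agent.R260 (Mx mxFun mxSchur mxSq mxIP mxEig mxU mxRot mxDK MxBd MxL2)

namespace Claimed.Agent.R259

noncomputable section

variable {n : ℕ}

/-! ### Package L-Mk-B: traces of products of positive matrices, spectrum and order -/

section PSD

theorem mk_isSymm_of_psd {A : Mx n} (hA : A.PosSemidef) : A.IsSymm := by
  have := hA.isHermitian
  unfold Matrix.IsHermitian at this
  rwa [Matrix.conjTranspose_eq_transpose_of_trivial] at this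

theorem mk_psd_iff {A : Mx n} : A.PosSemidef ↔ A.IsSymm ∧ ∀ v : Fin n → ℝ, 0 ≤ v ⬝ᵥ (A *ᵥ v) := by
  constructor
  · intro hA
    refine ⟨mk_isSymm_of_psd hA, fun v => ?_⟩
    have := hA.dotProduct_mulVec_nonneg v
    rwa [star_trivial] at this
  · rintro ⟨h1, h2⟩
    refine Matrix.PosSemidef.of_dotProduct_mulVec_nonneg
      (Claimed.Agent.R260.mx_isHermitian_of_isSymm h1) fun v => ?_
    rw [star_trivial]
    exact h2 v

theorem mk_psd_gram {β : Type} [Fintype β] (P : Matrix (Fin n) β ℝ) : (P * Pᵀ).PosSemidef := by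
  have := Matrix.posSemidef_self_mul_conjTranspose P
  rwa [Matrix.conjTranspose_eq_transpose_of_trivial] at this

theorem mk_psd_conj {A : Mx n} (hA : A.PosSemidef) (X : Mx n) : (X * A * Xᵀ).PosSemidef := by
  have := hA.mul_mul_conjTranspose_same X
  rwa [Matrix.conjTranspose_eq_transpose_of_trivial] at this

theorem mk_psd_sq {A : Mx n} (hA : A.IsSymm) : (A * A).PosSemidef := by
  have := mk_psd_gram A
  rwa [hA.eq] at this

theorem mk_trace_nonneg {A : Mx n} (hA : A.PosSemidef) : 0 ≤ Matrix.trace A :=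
  hA.trace_nonneg

theorem mk_eig_nonneg {A : Mx n} (hA : A.PosSemidef) (i : Fin n) : 0 ≤ mxEig A i := by
  unfold mxEig
  rw [dif_pos (mk_isSymm_of_psd hA)]
  exact hA.eigenvalues_nonneg i

/-- the quadratic form of `f(A)` at the `i`-th eigenvector -/
theorem mk_mxFun_quad_eigvec (f : ℝ → ℝ) (A : Mx n) (i : Fin n) :
    (mxU A *ᵥ Pi.single i 1) ⬝ᵥ (mxFun f A *ᵥ (mxU A *ᵥ Pi.single i 1)) = f (mxEig A i) := by
  rw [Claimed.Agent.R260.mxFun_quad, Matrix.mulVec_mulVec, Claimed.Agent.R260.mxU_transpose_mul,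
    Matrix.one_mulVec, Finset.sum_eq_single i]
  · simp
  · intro j _ hj
    simp [Pi.single_eq_of_ne hj]
  · intro h
    exact absurd (Finset.mem_univ i) h

theorem mk_mxFun_psd_iff {f : ℝ → ℝ} {A : Mx n} :
    (mxFun f A).PosSemidef ↔ ∀ i, 0 ≤ f (mxEig A i) := by
  constructor
  · intro h i
    rw [← mk_mxFun_quad_eigvec f A i]
    exact (mk_psd_iff.1 h).2 _
  · exact Claimed.Agent.R260.mxFun_posSemidef

/-- the positive square root -/
theorem mk_sqrt_psd (A : Mx n) : (mxFun Real.sqrt A).PosSemidef :=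
  Claimed.Agent.R260.mxFun_posSemidef fun _ => Real.sqrt_nonneg _

theorem mk_sqrt_mul_self {A : Mx n} (hA : A.PosSemidef) :
    mxFun Real.sqrt A * mxFun Real.sqrt A = A := by
  rw [← Claimed.Agent.R260.mxFun_mul]
  conv_rhs => rw [← Claimed.Agent.R260.mxFun_id (mk_isSymm_of_psd hA)]
  exact Claimed.Agent.R260.mxFun_congr fun i => Real.mul_self_sqrt (mk_eig_nonneg hA i)

theorem mk_trace_mul_nonneg {A B : Mx n} (hA : A.PosSemidef) (hB : B.PosSemidef) :
    0 ≤ Matrix.trace (A * B) := by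
  set S := mxFun Real.sqrt A with hS
  have hSs : Sᵀ = S := (Claimed.Agent.R260.mxFun_isSymm _ _).eq
  have h1 : Matrix.trace (A * B) = Matrix.trace (S * B * Sᵀ) := by
    rw [hSs, ← mk_sqrt_mul_self hA, ← hS, Matrix.mul_assoc, Matrix.trace_mul_comm, Matrix.mul_assoc]
  rw [h1]
  exact mk_trace_nonneg (mk_psd_conj hB S)

theorem mk_trace_mul_mono {A B B' : Mx n} (hA : A.PosSemidef) (hB : (B' - B).PosSemidef) :
    Matrix.trace (A * B) ≤ Matrix.trace (A * B') := by
  have := mk_trace_mul_nonneg hA hB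
  rw [Matrix.mul_sub, Matrix.trace_sub] at this
  linarith

theorem mk_trace_mul_le {A B : Mx n} {c : ℝ} (hA : A.PosSemidef)
    (hB : (c • (1 : Mx n) - B).PosSemidef) : Matrix.trace (A * B) ≤ c * Matrix.trace A := by
  have := mk_trace_mul_nonneg hA hB
  rw [Matrix.mul_sub, Matrix.trace_sub, Matrix.mul_smul, Matrix.mul_one, Matrix.trace_smul,
    smul_eq_mul] at this
  linarith

theorem mk_eig_le {A : Mx n} (hA : A.IsSymm) {c : ℝ} (h : (c • (1 : Mx n) - A).PosSemidef)
    (i : Fin n) : mxEig A i ≤ c := by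
  have e : c • (1 : Mx n) - A = mxFun (fun a => c - a) A := by
    rw [Claimed.Agent.R260.mxFun_sub, Claimed.Agent.R260.mxFun_const,
      Claimed.Agent.R260.mxFun_id hA]
  rw [e, mk_mxFun_psd_iff] at h
  linarith [h i]

theorem mk_le_eig {A : Mx n} (hA : A.IsSymm) {c : ℝ} (h : (A - c • (1 : Mx n)).PosSemidef)
    (i : Fin n) : c ≤ mxEig A i := by
  have e : A - c • (1 : Mx n) = mxFun (fun a => a - c) A := by
    rw [Claimed.Agent.R260.mxFun_sub, Claimed.Agent.R260.mxFun_const,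
      Claimed.Agent.R260.mxFun_id hA]
  rw [e, mk_mxFun_psd_iff] at h
  linarith [h i]

theorem mk_psd_of_eig {A : Mx n} (hA : A.IsSymm) (h : ∀ i, 0 ≤ mxEig A i) : A.PosSemidef := by
  rw [← Claimed.Agent.R260.mxFun_id hA]
  exact Claimed.Agent.R260.mxFun_posSemidef h

/-- monotonicity of the functional calculus in the function -/
theorem mk_mxFun_le {f g : ℝ → ℝ} {A : Mx n} (h : ∀ i, f (mxEig A i) ≤ g (mxEig A i)) :
    (mxFun g A - mxFun f A).PosSemidef := by
  rw [← Claimed.Agent.R260.mxFun_sub]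
  exact Claimed.Agent.R260.mxFun_posSemidef fun i => sub_nonneg.2 (h i)

theorem mk_mxFun_le_const {f : ℝ → ℝ} {A : Mx n} {c : ℝ} (h : ∀ i, f (mxEig A i) ≤ c) :
    (c • (1 : Mx n) - mxFun f A).PosSemidef := by
  rw [← Claimed.Agent.R260.mxFun_const c A]
  exact mk_mxFun_le h

/-- `f(A)ᵀ f(A) ≤ c²` -/
theorem mk_mxFun_contr {f : ℝ → ℝ} {A : Mx n} {c : ℝ} (h : ∀ i, |f (mxEig A i)| ≤ c) :
    ((c ^ 2) • (1 : Mx n) - (mxFun f A)ᵀ * mxFun f A).PosSemidef := by
  rw [(Claimed.Agent.R260.mxFun_isSymm f A).eq, ← Claimed.Agent.R260.mxFun_mul]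
  refine mk_mxFun_le_const fun i => ?_
  have := h i
  rw [← sq, ← sq_abs]
  exact pow_le_pow_left₀ (abs_nonneg _) this 2

/-- whatever commutes with `A` commutes with `f(A)` -/
theorem mk_commute_mxFun {A B : Mx n} (hA : A.IsSymm) (h : B * A = A * B) (f : ℝ → ℝ) :
    B * mxFun f A = mxFun f A * B := by
  apply Claimed.Agent.R260.mxRot_injective A
  ext i j
  rw [Claimed.Agent.R260.mxRot_mul_mxFun_apply, Claimed.Agent.R260.mxRot_mxFun_mul_apply]
  have h1 : mxRot A (B * mxFun (fun a => a) A) i j = mxRot A (mxFun (fun a => a) A * B) i j := by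
    rw [Claimed.Agent.R260.mxFun_id hA, h]
  rw [Claimed.Agent.R260.mxRot_mul_mxFun_apply, Claimed.Agent.R260.mxRot_mxFun_mul_apply] at h1
  by_cases h0 : mxRot A B i j = 0
  · rw [h0, zero_mul, mul_zero]
  · have : mxEig A j = mxEig A i := by
      apply mul_left_cancel₀ h0
      rw [h1, mul_comm]
    rw [this, mul_comm]

/-- two commuting positive matrices have a positive product -/
theorem mk_psd_mul_of_commute {A B : Mx n} (hA : A.PosSemidef) (hB : B.PosSemidef)
    (h : A * B = B * A) : (A * B).PosSemidef := by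
  set S := mxFun Real.sqrt A with hS
  have hSs : Sᵀ = S := (Claimed.Agent.R260.mxFun_isSymm _ _).eq
  have hc : B * S = S * B := mk_commute_mxFun (mk_isSymm_of_psd hA) h.symm _
  have h1 : A * B = S * B * Sᵀ := by
    rw [hSs, ← hc, Matrix.mul_assoc, mk_sqrt_mul_self hA, h]
  rw [h1]
  exact mk_psd_conj hB S

/-- `X ≤ c` and `X ≥ 0` imply `X² ≤ c X` -/
theorem mk_sq_le_smul {A : Mx n} {c : ℝ} (hA : A.PosSemidef)
    (h : (c • (1 : Mx n) - A).PosSemidef) : (c • A - A * A).PosSemidef := by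
  have hs := mk_isSymm_of_psd hA
  have e : c • A - A * A = mxFun (fun a => c * a - a * a) A := by
    rw [Claimed.Agent.R260.mxFun_sub, Claimed.Agent.R260.mxFun_smul,
      Claimed.Agent.R260.mxFun_mul, Claimed.Agent.R260.mxFun_id hs]
  rw [e]
  refine Claimed.Agent.R260.mxFun_posSemidef fun i => ?_
  have h1 := mk_eig_nonneg hA i
  have h2 := mk_eig_le hs h i
  nlinarith

theorem mk_sqrt_unique {A B : Mx n} (hB : B.PosSemidef) (h : B * B = A) :
    mxFun Real.sqrt A = B := by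
  have hs := mk_isSymm_of_psd hB
  have e : A = mxFun (fun a => a * a) B := by
    rw [Claimed.Agent.R260.mxFun_mul, Claimed.Agent.R260.mxFun_id hs, h]
  rw [e, Claimed.Agent.R260.mxFun_comp]
  conv_rhs => rw [← Claimed.Agent.R260.mxFun_id hs]
  exact Claimed.Agent.R260.mxFun_congr fun i => Real.sqrt_mul_self (mk_eig_nonneg hB i)

/-- functions of the square root: `f(√A) = (f ∘ √)(A)` -/
theorem mk_mxFun_sqrt (f : ℝ → ℝ) (A : Mx n) :
    mxFun f (mxFun Real.sqrt A) = mxFun (fun x => f (Real.sqrt x)) A :=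
  Claimed.Agent.R260.mxFun_comp f Real.sqrt A

/-- Schur multipliers in the eigenbasis of `√A` -/
theorem mk_mxSchur_sqrt (w : ℝ → ℝ → ℝ) (A Z : Mx n) :
    mxSchur w (mxFun Real.sqrt A) Z = mxSchur (fun u v => w (Real.sqrt u) (Real.sqrt v)) A Z :=
  Claimed.Agent.R260.mxSchur_mxFun w Real.sqrt A Z

/-- `tr (A B A B) ≤ tr (A² B²)` for symmetric matrices -/
theorem mk_trace_abab_le {A B : Mx n} (hA : A.IsSymm) (hB : B.IsSymm) :
    Matrix.trace (A * B * A * B) ≤ Matrix.trace (A * A * B * B) := by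
  have h0 := mk_trace_nonneg (mk_psd_gram (A * B - B * A))
  have e : (A * B - B * A)ᵀ = B * A - A * B := by
    rw [Matrix.transpose_sub, Matrix.transpose_mul, Matrix.transpose_mul, hA.eq, hB.eq]
  rw [e] at h0
  have t1 : Matrix.trace (A * B * (B * A)) = Matrix.trace (A * A * B * B) := by
    rw [Matrix.trace_mul_comm]
    simp only [Matrix.mul_assoc]
    rw [Matrix.trace_mul_comm]
    simp only [Matrix.mul_assoc]
  have t2 : Matrix.trace (A * B * (A * B)) = Matrix.trace (A * B * A * B) := by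
    simp only [Matrix.mul_assoc]
  have t3 : Matrix.trace (B * A * (B * A)) = Matrix.trace (A * B * A * B) := by
    rw [Matrix.mul_assoc, Matrix.trace_mul_comm]
    simp only [Matrix.mul_assoc]
  have t4 : Matrix.trace (B * A * (A * B)) = Matrix.trace (A * A * B * B) := by
    rw [Matrix.mul_assoc, Matrix.trace_mul_comm]
    simp only [Matrix.mul_assoc]
  rw [Matrix.sub_mul, Matrix.mul_sub, Matrix.mul_sub, Matrix.trace_sub, Matrix.trace_sub,
    Matrix.trace_sub, t1, t2, t3, t4] at h0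
  linarith

end PSD

end

end Claimed.Agent.R259
end

/- ===== packed: Claimed.Agent.R259.MkTr1 ===== -/
section
/-
Row 259 (S0499), matrix kit for sections 6-7, part 1c: trace norm of symmetric matrices, Hilbert-Schmidt Lipschitz
functional calculus, Araki-Yamagami.  Architect: helper57.  Prefix `mk`, `tr1`.  PURE LINEAR ALGEBRA.
-/
set_option autoImplicit false

open MeasureTheory
open scoped BigOperators Matrix
open Claimed.Agent.R260 (Mx mxFun mxSchur mxSq mxIP mxEig mxU mxRot mxDK MxBd MxL2)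

namespace Claimed.Agent.R259

noncomputable section

variable {n : ℕ}

/-! ### Package L-Mk-C: trace norm -/

section TraceNorm

/-- trace norm of a symmetric matrix -/
def tr1 (Z : Mx n) : ℝ := Matrix.trace (mxFun (fun x => |x|) Z)

theorem mk_tr1_eqns_cite : True := by
  have := @tr1.eq_1
  trivial

theorem tr1_nonneg (Z : Mx n) : 0 ≤ tr1 Z :=
  mk_trace_nonneg (Claimed.Agent.R260.mxFun_posSemidef fun _ => abs_nonneg _)

theorem tr1_eq_sum (Z : Mx n) : tr1 Z = ∑ i, |mxEig Z i| :=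
  Claimed.Agent.R260.mxFun_trace _ Z

theorem tr1_of_psd {Z : Mx n} (hZ : Z.PosSemidef) : tr1 Z = Matrix.trace Z := by
  unfold tr1
  conv_rhs => rw [← Claimed.Agent.R260.mxFun_id (mk_isSymm_of_psd hZ)]
  congr 1
  exact Claimed.Agent.R260.mxFun_congr fun i => abs_of_nonneg (mk_eig_nonneg hZ i)

theorem mk_psd_mxRot {M : Mx n} (hM : M.PosSemidef) (A : Mx n) : (mxRot A M).PosSemidef := by
  have := mk_psd_conj hM (mxU A)ᵀ
  rwa [Matrix.transpose_transpose] at this

/-- `tr (Z B) = ∑ z_i (Uᵀ B U)_ii` -/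
theorem mk_trace_mul_eq_sum {Z : Mx n} (hZ : Z.IsSymm) (B : Mx n) :
    Matrix.trace (Z * B) = ∑ i, mxEig Z i * mxRot Z B i i := by
  rw [← Claimed.Agent.R260.mxRot_trace Z, Matrix.trace]
  refine Finset.sum_congr rfl fun i _ => ?_
  rw [Matrix.diag_apply]
  conv_lhs => rw [← Claimed.Agent.R260.mxFun_id hZ]
  have := Claimed.Agent.R260.mxRot_mxFun_mul_apply (fun a => a) Z B i i
  rw [Claimed.Agent.R260.mxFun_id hZ] at this ⊢
  exact this

theorem mk_entry_sq_le {B : Mx n} {c : ℝ} (hB : ((c ^ 2) • (1 : Mx n) - Bᵀ * B).PosSemidef)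
    (i j : Fin n) : B i j ^ 2 ≤ c ^ 2 := by
  have h := hB.diag_nonneg (i := j)
  rw [Matrix.sub_apply, Matrix.smul_apply, Matrix.one_apply_eq, smul_eq_mul, mul_one,
    Matrix.mul_apply] at h
  have h2 : B i j ^ 2 ≤ ∑ k, Bᵀ j k * B k j := by
    have : ∀ k, Bᵀ j k * B k j = B k j ^ 2 := fun k => by rw [Matrix.transpose_apply, sq]
    rw [Finset.sum_congr rfl fun k _ => this k]
    exact Finset.single_le_sum (f := fun k => B k j ^ 2) (fun k _ => sq_nonneg _)
      (Finset.mem_univ i)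
  linarith

/-- duality: `|tr (Z B)| ≤ c ‖Z‖₁` if `BᵀB ≤ c²` -/
theorem abs_trace_mul_le_tr1 {Z B : Mx n} (hZ : Z.IsSymm) {c : ℝ} (hc : 0 ≤ c)
    (hB : ((c ^ 2) • (1 : Mx n) - Bᵀ * B).PosSemidef) :
    |Matrix.trace (Z * B)| ≤ c * tr1 Z := by
  have hB' : ((c ^ 2) • (1 : Mx n) - (mxRot Z B)ᵀ * mxRot Z B).PosSemidef := by
    have := mk_psd_mxRot hB Z
    rwa [Claimed.Agent.R260.mxRot_sub, Claimed.Agent.R260.mxRot_smul,
      Claimed.Agent.R260.mxRot_one, Claimed.Agent.R260.mxRot_mul,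
      Claimed.Agent.R260.mxRot_transpose] at this
  rw [mk_trace_mul_eq_sum hZ, tr1_eq_sum, Finset.mul_sum]
  refine (Finset.abs_sum_le_sum_abs _ _).trans (Finset.sum_le_sum fun i _ => ?_)
  rw [abs_mul, mul_comm]
  exact mul_le_mul_of_nonneg_right (abs_le_of_sq_le_sq (mk_entry_sq_le hB' i i) hc)
    (abs_nonneg _)

/-- duality for a positive test matrix `0 ≤ B ≤ c` -/
theorem abs_trace_mul_le_tr1_of_psd {Z B : Mx n} (hZ : Z.IsSymm) {c : ℝ} (hB0 : B.PosSemidef)
    (hB : (c • (1 : Mx n) - B).PosSemidef) : |Matrix.trace (Z * B)| ≤ c * tr1 Z := by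
  rw [mk_trace_mul_eq_sum hZ, tr1_eq_sum, Finset.mul_sum]
  refine (Finset.abs_sum_le_sum_abs _ _).trans (Finset.sum_le_sum fun i _ => ?_)
  have h1 : 0 ≤ mxRot Z B i i := (mk_psd_mxRot hB0 Z).diag_nonneg
  have h2 : mxRot Z B i i ≤ c := by
    have := (mk_psd_mxRot hB Z).diag_nonneg (i := i)
    rw [Claimed.Agent.R260.mxRot_sub, Claimed.Agent.R260.mxRot_smul,
      Claimed.Agent.R260.mxRot_one, Matrix.sub_apply, Matrix.smul_apply, Matrix.one_apply_eq,
      smul_eq_mul, mul_one] at this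
    linarith
  rw [abs_mul, abs_of_nonneg h1, mul_comm]
  exact mul_le_mul_of_nonneg_right h2 (abs_nonneg _)

/-- the norm is attained at the sign matrix -/
theorem tr1_eq_trace_sign {Z : Mx n} (hZ : Z.IsSymm) :
    tr1 Z = Matrix.trace (Z * mxFun (fun x => SignType.sign x) Z) := by
  unfold tr1
  congr 1
  conv_rhs => rw [← Claimed.Agent.R260.mxFun_id hZ]
  have hid : mxFun (fun x => ((SignType.sign x : SignType) : ℝ)) (mxFun (fun a => a) Z) =
      mxFun (fun x => ((SignType.sign x : SignType) : ℝ)) Z := by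
    rw [Claimed.Agent.R260.mxFun_id hZ]
  rw [hid, ← Claimed.Agent.R260.mxFun_mul]
  exact Claimed.Agent.R260.mxFun_congr fun i => (self_mul_sign _).symm

/-- the sign matrix is a contraction -/
theorem mk_sign_contr (Z : Mx n) :
    (((1 : ℝ) ^ 2) • (1 : Mx n) - (mxFun (fun x => ((SignType.sign x : SignType) : ℝ)) Z)ᵀ *
      mxFun (fun x => ((SignType.sign x : SignType) : ℝ)) Z).PosSemidef := by
  refine mk_mxFun_contr fun i => ?_
  rcases lt_trichotomy (mxEig Z i) 0 with h | h | h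
  · rw [sign_neg h]; simp
  · rw [h, sign_zero]; simp
  · rw [sign_pos h]; simp

theorem mk_sign_contr' (Z : Mx n) :
    ((1 : ℝ) • (1 : Mx n) - (mxFun (fun x => ((SignType.sign x : SignType) : ℝ)) Z)ᵀ *
      mxFun (fun x => ((SignType.sign x : SignType) : ℝ)) Z).PosSemidef := by
  have := mk_sign_contr Z
  rwa [one_pow] at this

theorem tr1_add_le {Z W : Mx n} (hZ : Z.IsSymm) (hW : W.IsSymm) : tr1 (Z + W) ≤ tr1 Z + tr1 W := by
  rw [tr1_eq_trace_sign (hZ.add hW), Matrix.add_mul, Matrix.trace_add]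
  have h1 := abs_trace_mul_le_tr1 hZ zero_le_one (mk_sign_contr (Z + W))
  have h2 := abs_trace_mul_le_tr1 hW zero_le_one (mk_sign_contr (Z + W))
  rw [one_mul] at h1 h2
  exact add_le_add ((le_abs_self _).trans h1) ((le_abs_self _).trans h2)

theorem tr1_neg_le (Z : Mx n) (hZ : Z.IsSymm) : tr1 (-Z) ≤ tr1 Z := by
  rw [tr1_eq_trace_sign hZ.neg, Matrix.neg_mul, Matrix.trace_neg]
  have h1 := abs_trace_mul_le_tr1 hZ zero_le_one (mk_sign_contr (-Z))
  rw [one_mul] at h1
  exact (neg_le_abs _).trans h1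

theorem tr1_neg (Z : Mx n) (hZ : Z.IsSymm) : tr1 (-Z) = tr1 Z := by
  apply le_antisymm (tr1_neg_le Z hZ)
  have := tr1_neg_le (-Z) hZ.neg
  rwa [neg_neg] at this

theorem tr1_sub_le {Z W : Mx n} (hZ : Z.IsSymm) (hW : W.IsSymm) : tr1 (Z - W) ≤ tr1 Z + tr1 W := by
  rw [sub_eq_add_neg, ← tr1_neg W hW]
  exact tr1_add_le hZ hW.neg

/-- `|tr (X Yᵀ S)| ≤ ‖X‖ ‖Y‖` for a contraction `S` -/
theorem mk_abs_trace_prod_le {β : Type} [Fintype β] (X Y : Matrix (Fin n) β ℝ) {S : Mx n}
    (hS : ((1 : ℝ) • (1 : Mx n) - Sᵀ * S).PosSemidef) :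
    |Matrix.trace (X * Yᵀ * S)| ≤ Real.sqrt (hs2 X) * Real.sqrt (hs2 Y) := by
  have e : Matrix.trace (X * Yᵀ * S) = hsI (S * X) Y := by
    rw [hsI_eq_trace, Matrix.trace_mul_comm, Matrix.mul_assoc]
  rw [e]
  refine (abs_hsI_le _ _).trans (mul_le_mul_of_nonneg_right ?_ (Real.sqrt_nonneg _))
  apply Real.sqrt_le_sqrt
  have := hs2_mul_le_left hS X
  rwa [one_mul] at this

/-- `‖X Yᵀ + Y Xᵀ‖₁ ≤ 2 ‖X‖ ‖Y‖` -/
theorem tr1_symm_prod_le {β : Type} [Fintype β] (X Y : Matrix (Fin n) β ℝ) :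
    tr1 (X * Yᵀ + Y * Xᵀ) ≤ 2 * (Real.sqrt (hs2 X) * Real.sqrt (hs2 Y)) := by
  have hs : (X * Yᵀ + Y * Xᵀ).IsSymm := by
    unfold Matrix.IsSymm
    rw [Matrix.transpose_add, Matrix.transpose_mul, Matrix.transpose_mul,
      Matrix.transpose_transpose, Matrix.transpose_transpose, add_comm]
  rw [tr1_eq_trace_sign hs, Matrix.add_mul, Matrix.trace_add]
  have h1 := mk_abs_trace_prod_le X Y (mk_sign_contr' (X * Yᵀ + Y * Xᵀ))
  have h2 := mk_abs_trace_prod_le Y X (mk_sign_contr' (X * Yᵀ + Y * Xᵀ))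
  have h1' := (le_abs_self _).trans h1
  have h2' := (le_abs_self _).trans h2
  linarith

/-- eq. (6.matrix-reduction-perturbation): `‖XX* - YY*‖₁ ≤ (‖X‖ + ‖Y‖) ‖X - Y‖` -/
theorem tr1_gram_sub_le {β : Type} [Fintype β] (X Y : Matrix (Fin n) β ℝ) :
    tr1 (X * Xᵀ - Y * Yᵀ)
      ≤ (Real.sqrt (hs2 X) + Real.sqrt (hs2 Y)) * Real.sqrt (hs2 (X - Y)) := by
  have hs : (X * Xᵀ - Y * Yᵀ).IsSymm := by
    unfold Matrix.IsSymm
    rw [Matrix.transpose_sub, Matrix.transpose_mul, Matrix.transpose_mul,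
      Matrix.transpose_transpose, Matrix.transpose_transpose]
  have e : X * Xᵀ - Y * Yᵀ = (X - Y) * Xᵀ + Y * (X - Y)ᵀ := by
    rw [Matrix.sub_mul, Matrix.transpose_sub, Matrix.mul_sub]
    abel
  rw [tr1_eq_trace_sign hs]
  have hS := mk_sign_contr' (X * Xᵀ - Y * Yᵀ)
  generalize mxFun (fun x => ((SignType.sign x : SignType) : ℝ)) (X * Xᵀ - Y * Yᵀ) = S at hS ⊢
  rw [e, Matrix.add_mul, Matrix.trace_add]
  have h1 := mk_abs_trace_prod_le (X - Y) X hS
  have h2 := mk_abs_trace_prod_le Y (X - Y) hS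
  have h1' := (le_abs_self _).trans h1
  have h2' := (le_abs_self _).trans h2
  nlinarith

end TraceNorm

/-! ### Package L-Mk-D: Lipschitz functional calculus and Araki-Yamagami -/

section Lip

theorem mk_hs2_orth_left {P : Mx n} (hP : Pᵀ * P = 1) (M : Mx n) : hs2 (P * M) = hs2 M := by
  rw [hs2_eq_trace', hs2_eq_trace', Matrix.transpose_mul]
  congr 1
  calc Mᵀ * Pᵀ * (P * M) = Mᵀ * (Pᵀ * P) * M := by simp only [Matrix.mul_assoc]
    _ = Mᵀ * M := by rw [hP, Matrix.mul_one]

theorem mk_hs2_orth_right {P : Mx n} (hP : P * Pᵀ = 1) (M : Mx n) : hs2 (M * P) = hs2 M := by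
  rw [hs2_eq_trace, hs2_eq_trace, Matrix.transpose_mul]
  congr 1
  calc M * P * (Pᵀ * Mᵀ) = M * (P * Pᵀ) * Mᵀ := by simp only [Matrix.mul_assoc]
    _ = M * Mᵀ := by rw [hP, Matrix.mul_one]

/-- two-eigenbasis formula: `‖f(A) - g(B)‖² = ∑ (f(a_i) - g(b_j))² W_ij`, `W_ij = ((U_Aᵀ U_B)_ij)²` -/
theorem hs2_mxFun_sub_mxFun (f g : ℝ → ℝ) (A B : Mx n) :
    hs2 (mxFun f A - mxFun g B)
      = ∑ i, ∑ j, (f (mxEig A i) - g (mxEig B j)) ^ 2 * (((mxU A)ᵀ * mxU B) i j) ^ 2 := by
  have hA1 := Claimed.Agent.R260.mxU_transpose_mul A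
  have hA2 := Claimed.Agent.R260.mxU_mul_transpose A
  have hB1 := Claimed.Agent.R260.mxU_transpose_mul B
  have hB2 := Claimed.Agent.R260.mxU_mul_transpose B
  have e1 : hs2 (mxFun f A - mxFun g B) = hs2 ((mxU A)ᵀ * (mxFun f A - mxFun g B) * mxU B) := by
    rw [mk_hs2_orth_right hB2, mk_hs2_orth_left (by rw [Matrix.transpose_transpose]; exact hA2)]
  have e2 : (mxU A)ᵀ * (mxFun f A - mxFun g B) * mxU B =
      Matrix.diagonal (fun i => f (mxEig A i)) * ((mxU A)ᵀ * mxU B) -
        ((mxU A)ᵀ * mxU B) * Matrix.diagonal (fun j => g (mxEig B j)) := by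
    rw [Matrix.mul_sub, Matrix.sub_mul]
    congr 1
    · calc (mxU A)ᵀ * mxFun f A * mxU B
          = ((mxU A)ᵀ * mxU A) * Matrix.diagonal (fun i => f (mxEig A i)) *
            ((mxU A)ᵀ * mxU B) := by
            simp only [mxFun, Matrix.mul_assoc]
        _ = _ := by rw [hA1, Matrix.one_mul]
    · calc (mxU A)ᵀ * mxFun g B * mxU B
          = ((mxU A)ᵀ * mxU B) * Matrix.diagonal (fun j => g (mxEig B j)) *
            ((mxU B)ᵀ * mxU B) := by
            simp only [mxFun, Matrix.mul_assoc]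
        _ = _ := by rw [hB1, Matrix.mul_one]
  rw [e1, e2, hs2]
  refine Finset.sum_congr rfl fun i _ => Finset.sum_congr rfl fun j _ => ?_
  rw [Matrix.sub_apply, Matrix.diagonal_mul, Matrix.mul_diagonal]
  ring

/-- the same on a set containing both spectra -/
theorem hs2_mxFun_sub_le_on {f : ℝ → ℝ} {L : ℝ} {s : Set ℝ}
    (hf : ∀ x ∈ s, ∀ y ∈ s, |f x - f y| ≤ L * |x - y|) {A B : Mx n}
    (hA : A.IsSymm) (hB : B.IsSymm) (hsA : ∀ i, mxEig A i ∈ s) (hsB : ∀ i, mxEig B i ∈ s) :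
    hs2 (mxFun f A - mxFun f B) ≤ L ^ 2 * hs2 (A - B) := by
  have e : hs2 (A - B) = hs2 (mxFun (fun a => a) A - mxFun (fun a => a) B) := by
    rw [Claimed.Agent.R260.mxFun_id hA, Claimed.Agent.R260.mxFun_id hB]
  rw [e, hs2_mxFun_sub_mxFun, hs2_mxFun_sub_mxFun, Finset.mul_sum]
  refine Finset.sum_le_sum fun i _ => ?_
  rw [Finset.mul_sum]
  refine Finset.sum_le_sum fun j _ => ?_
  rw [← mul_assoc]
  refine mul_le_mul_of_nonneg_right ?_ (sq_nonneg _)
  have h := hf _ (hsA i) _ (hsB j)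
  rw [← sq_abs (f (mxEig A i) - f (mxEig B j)), ← sq_abs (mxEig A i - mxEig B j), ← mul_pow]
  exact pow_le_pow_left₀ (abs_nonneg _) h 2

/-- Hilbert-Schmidt Lipschitz bound for the functional calculus -/
theorem hs2_mxFun_sub_le {f : ℝ → ℝ} {L : ℝ} (hf : ∀ x y, |f x - f y| ≤ L * |x - y|) {A B : Mx n}
    (hA : A.IsSymm) (hB : B.IsSymm) : hs2 (mxFun f A - mxFun f B) ≤ L ^ 2 * hs2 (A - B) :=
  hs2_mxFun_sub_le_on (s := Set.univ) (fun x _ y _ => hf x y) hA hB (fun _ => Set.mem_univ _)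
    (fun _ => Set.mem_univ _)

/-! #### the self-adjoint dilation -/

theorem mk_hs2_fromBlocks {a b : Type} [Fintype a] [Fintype b] (A : Matrix a a ℝ)
    (B : Matrix a b ℝ) (C : Matrix b a ℝ) (D : Matrix b b ℝ) :
    hs2 (Matrix.fromBlocks A B C D) = hs2 A + hs2 B + hs2 C + hs2 D := by
  simp only [hs2, Fintype.sum_sum_type, Matrix.fromBlocks_apply₁₁, Matrix.fromBlocks_apply₁₂,
    Matrix.fromBlocks_apply₂₁, Matrix.fromBlocks_apply₂₂, Finset.sum_add_distrib]
  ring

/-- block matrices on `Fin n ⊕ Fin k` as matrices on `Fin (n + k)` -/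
def mkBlk {k : ℕ} (A : Mx n) (B : Matrix (Fin n) (Fin k) ℝ) (C : Matrix (Fin k) (Fin n) ℝ)
    (D : Mx k) : Mx (n + k) :=
  Matrix.reindex finSumFinEquiv finSumFinEquiv (Matrix.fromBlocks A B C D)

theorem mk_blk_eqns_cite : True := by
  have := @mkBlk.eq_1
  trivial

theorem mkBlk_mul {k : ℕ} (A : Mx n) (B : Matrix (Fin n) (Fin k) ℝ) (C : Matrix (Fin k) (Fin n) ℝ)
    (D : Mx k) (A' : Mx n) (B' : Matrix (Fin n) (Fin k) ℝ) (C' : Matrix (Fin k) (Fin n) ℝ)
    (D' : Mx k) :
    mkBlk A B C D * mkBlk A' B' C' D' =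
      mkBlk (A * A' + B * C') (A * B' + B * D') (C * A' + D * C') (C * B' + D * D') := by
  unfold mkBlk
  rw [Matrix.reindex_apply, Matrix.reindex_apply, Matrix.submatrix_mul_equiv,
    Matrix.fromBlocks_multiply, Matrix.reindex_apply]

theorem mkBlk_transpose {k : ℕ} (A : Mx n) (B : Matrix (Fin n) (Fin k) ℝ)
    (C : Matrix (Fin k) (Fin n) ℝ) (D : Mx k) : (mkBlk A B C D)ᵀ = mkBlk Aᵀ Cᵀ Bᵀ Dᵀ := by
  unfold mkBlk
  rw [Matrix.transpose_reindex, Matrix.fromBlocks_transpose]

theorem mkBlk_sub {k : ℕ} (A : Mx n) (B : Matrix (Fin n) (Fin k) ℝ) (C : Matrix (Fin k) (Fin n) ℝ)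
    (D : Mx k) (A' : Mx n) (B' : Matrix (Fin n) (Fin k) ℝ) (C' : Matrix (Fin k) (Fin n) ℝ)
    (D' : Mx k) :
    mkBlk A B C D - mkBlk A' B' C' D' = mkBlk (A - A') (B - B') (C - C') (D - D') := by
  unfold mkBlk
  have e : Matrix.fromBlocks (A - A') (B - B') (C - C') (D - D') =
      Matrix.fromBlocks A B C D - Matrix.fromBlocks A' B' C' D' := by
    ext i j
    rcases i with i | i <;> rcases j with j | j <;> simp
  rw [e]
  rfl

theorem mkBlk_hs2 {k : ℕ} (A : Mx n) (B : Matrix (Fin n) (Fin k) ℝ) (C : Matrix (Fin k) (Fin n) ℝ)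
    (D : Mx k) : hs2 (mkBlk A B C D) = hs2 A + hs2 B + hs2 C + hs2 D := by
  unfold mkBlk
  rw [hs2_reindex, mk_hs2_fromBlocks]

/-- `|X̂| = diag(√(XXᵀ), √(XᵀX))` for the dilation `X̂` -/
theorem mk_abs_dilation {k : ℕ} (X : Matrix (Fin n) (Fin k) ℝ) :
    mxFun (fun x => |x|) (mkBlk 0 X Xᵀ 0) =
      mkBlk (mxFun Real.sqrt (X * Xᵀ)) 0 0 (mxFun Real.sqrt (Xᵀ * X)) := by
  set D := mkBlk (0 : Mx n) X Xᵀ (0 : Mx k) with hD
  have hDs : D.IsSymm := by
    unfold Matrix.IsSymm
    rw [hD, mkBlk_transpose, Matrix.transpose_zero, Matrix.transpose_zero,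
      Matrix.transpose_transpose]
  have e1 : mxFun (fun x => |x|) D = mxFun Real.sqrt (D * D) := by
    have : D * D = mxFun (fun a => a * a) D := by
      rw [Claimed.Agent.R260.mxFun_mul, Claimed.Agent.R260.mxFun_id hDs]
    rw [this, Claimed.Agent.R260.mxFun_comp]
    exact Claimed.Agent.R260.mxFun_congr fun i => (Real.sqrt_mul_self_eq_abs _).symm
  rw [e1]
  have hP : (X * Xᵀ).PosSemidef := mk_psd_gram X
  have hR : (Xᵀ * X).PosSemidef := by
    have := mk_psd_gram Xᵀ
    rwa [Matrix.transpose_transpose] at this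
  apply mk_sqrt_unique
  · -- positivity
    set P := mxFun Real.sqrt (X * Xᵀ) with hPd
    set R := mxFun Real.sqrt (Xᵀ * X) with hRd
    have h1 : mxFun Real.sqrt P * mxFun Real.sqrt P = P := mk_sqrt_mul_self (mk_sqrt_psd _)
    have h2 : mxFun Real.sqrt R * mxFun Real.sqrt R = R := mk_sqrt_mul_self (mk_sqrt_psd _)
    have := mk_psd_gram (mkBlk (mxFun Real.sqrt P) 0 0 (mxFun Real.sqrt R))
    rw [mkBlk_transpose, mkBlk_mul, (Claimed.Agent.R260.mxFun_isSymm _ P).eq,
      (Claimed.Agent.R260.mxFun_isSymm _ R).eq, h1, h2] at this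
    simpa using this
  · rw [mkBlk_mul, hD, mkBlk_mul, mk_sqrt_mul_self hP, mk_sqrt_mul_self hR]
    simp

theorem mk_araki_fin {k : ℕ} (X Y : Matrix (Fin n) (Fin k) ℝ) :
    hs2 (mxFun Real.sqrt (X * Xᵀ) - mxFun Real.sqrt (Y * Yᵀ)) ≤ 2 * hs2 (X - Y) := by
  have hs : ∀ Z : Matrix (Fin n) (Fin k) ℝ, (mkBlk (0 : Mx n) Z Zᵀ (0 : Mx k)).IsSymm := by
    intro Z
    unfold Matrix.IsSymm
    rw [mkBlk_transpose, Matrix.transpose_zero, Matrix.transpose_zero,
      Matrix.transpose_transpose]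
  have h := hs2_mxFun_sub_le (f := fun x => |x|) (L := 1)
    (fun x y => by rw [one_mul]; exact abs_abs_sub_abs_le_abs_sub x y) (hs X) (hs Y)
  rw [mk_abs_dilation, mk_abs_dilation, mkBlk_sub, mkBlk_sub, mkBlk_hs2, mkBlk_hs2,
    ← Matrix.transpose_sub, hs2_transpose] at h
  simp only [sub_self, hs2_zero] at h
  have h0 := hs2_nonneg (mxFun Real.sqrt (Xᵀ * X) - mxFun Real.sqrt (Yᵀ * Y))
  linarith

/-- **Araki-Yamagami**, eq. (6.matrix-root-lipschitz):
`‖√(XX*) - √(YY*)‖² ≤ 2 ‖X - Y‖²` for rectangular matrices (self-adjoint dilation) -/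
theorem hs2_sqrt_gram_sub_le {β : Type} [Fintype β] (X Y : Matrix (Fin n) β ℝ) :
    hs2 (mxFun Real.sqrt (X * Xᵀ) - mxFun Real.sqrt (Y * Yᵀ)) ≤ 2 * hs2 (X - Y) := by
  set e := Fintype.equivFin β with he
  have hg : ∀ Z : Matrix (Fin n) β ℝ,
      (Matrix.reindex (Equiv.refl (Fin n)) e Z) * (Matrix.reindex (Equiv.refl (Fin n)) e Z)ᵀ =
        Z * Zᵀ := by
    intro Z
    rw [Matrix.transpose_reindex, Matrix.reindex_apply, Matrix.reindex_apply,
      Matrix.submatrix_mul_equiv]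
    rfl
  have h := mk_araki_fin (Matrix.reindex (Equiv.refl (Fin n)) e X)
    (Matrix.reindex (Equiv.refl (Fin n)) e Y)
  rw [hg, hg] at h
  have e2 : Matrix.reindex (Equiv.refl (Fin n)) e X - Matrix.reindex (Equiv.refl (Fin n)) e Y =
      Matrix.reindex (Equiv.refl (Fin n)) e (X - Y) := rfl
  rwa [e2, hs2_reindex] at h

end Lip

end

end Claimed.Agent.R259
end

/- ===== packed: Claimed.Agent.R259.S6Ten ===== -/
section
/-
Row 259 (S0499), section 6: pointwise tensor algebra (slots of symmetric tensors) used by Lemmas 6.2-6.5 and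
Proposition 6.8.  Architect: helper57.  Prefix `s6t`.  PURE FINITE-DIMENSIONAL ALGEBRA (sums over index functions).

Vocabulary of `HiDefs.lean`: `TT n d`, `TSym`, `slot r M t`, `flat`, `red`, `tD`, `dI`, `colS`.
New: `tperm σ t` (permutation of the slots), `lastAt t i` (the last index is fixed to `i`).
-/
set_option autoImplicit false

open scoped BigOperators Matrix
open Claimed.Agent.R260 (Mx mxFun mxSchur mxSq mxIP mxEig mxU mxRot)

namespace Claimed.Agent.R259

noncomputable section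

variable {n d : ℕ}

/-- permutation of the slots of a tensor -/
def tperm (σ : Equiv.Perm (Fin d)) (t : TT n d) : TT n d := WithLp.toLp 2 (fun α => t (α ∘ σ))

/-- the tensor of order `d` obtained by fixing the LAST index of a tensor of order `d + 1` -/
def lastAt (t : TT n (d + 1)) (i : Fin n) : TT n d := WithLp.toLp 2 (fun α => t (Fin.snoc α i))

theorem s6t_eqns_cite : True := by
  have := @tperm.eq_1
  have := @lastAt.eq_1
  trivial

/-! ### Package L-S6-TenA: slots -/

section slots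

theorem s6t_norm_sq (t : TT n d) : ‖t‖ ^ 2 = ∑ α, t α ^ 2 := by
  rw [EuclideanSpace.norm_sq_eq]
  exact Finset.sum_congr rfl fun α _ => by rw [Real.norm_eq_abs, sq_abs]

theorem s6t_inner (t t' : TT n d) : inner ℝ t t' = ∑ α, t α * t' α := by
  rw [PiLp.inner_apply]
  refine Finset.sum_congr rfl fun α _ => ?_
  simp [mul_comm]

theorem slot_apply (r : Fin d) (M : Mx n) (t : TT n d) (α : Idx n d) :
    slot r M t α = ∑ j, M (α r) j * t (Function.update α r j) := rfl

theorem slot_add (r : Fin d) (M : Mx n) (t t' : TT n d) :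
    slot r M (t + t') = slot r M t + slot r M t' := by
  ext α
  simp only [slot_apply, PiLp.add_apply, mul_add, Finset.sum_add_distrib]

theorem slot_sub (r : Fin d) (M : Mx n) (t t' : TT n d) :
    slot r M (t - t') = slot r M t - slot r M t' := by
  ext α
  simp only [slot_apply, PiLp.sub_apply, mul_sub, Finset.sum_sub_distrib]

theorem slot_smul (r : Fin d) (M : Mx n) (c : ℝ) (t : TT n d) :
    slot r M (c • t) = c • slot r M t := by
  ext α
  simp only [slot_apply, PiLp.smul_apply, smul_eq_mul, Finset.mul_sum]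
  exact Finset.sum_congr rfl fun j _ => by ring

theorem slot_add_left (r : Fin d) (M M' : Mx n) (t : TT n d) :
    slot r (M + M') t = slot r M t + slot r M' t := by
  ext α
  simp only [slot_apply, PiLp.add_apply, Matrix.add_apply, add_mul, Finset.sum_add_distrib]

theorem slot_sub_left (r : Fin d) (M M' : Mx n) (t : TT n d) :
    slot r (M - M') t = slot r M t - slot r M' t := by
  ext α
  simp only [slot_apply, PiLp.sub_apply, Matrix.sub_apply, sub_mul, Finset.sum_sub_distrib]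

theorem slot_smul_left (r : Fin d) (c : ℝ) (M : Mx n) (t : TT n d) :
    slot r (c • M) t = c • slot r M t := by
  ext α
  simp only [slot_apply, PiLp.smul_apply, Matrix.smul_apply, smul_eq_mul, Finset.mul_sum]
  exact Finset.sum_congr rfl fun j _ => by ring

theorem s6tn_slot_zero_left (r : Fin d) (t : TT n d) : slot r (0 : Mx n) t = 0 := by
  ext α
  simp [slot_apply]

theorem slot_sum_left {ι : Type} (s : Finset ι) (r : Fin d) (M : ι → Mx n) (t : TT n d) :
    slot r (∑ i ∈ s, M i) t = ∑ i ∈ s, slot r (M i) t := by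
  classical
  induction s using Finset.induction_on with
  | empty => simp [s6tn_slot_zero_left]
  | insert a s ha ih => rw [Finset.sum_insert ha, Finset.sum_insert ha, slot_add_left, ih]

theorem slot_one (r : Fin d) (t : TT n d) : slot r (1 : Mx n) t = t := by
  ext α
  rw [slot_apply, Finset.sum_eq_single (α r)]
  · rw [Matrix.one_apply_eq, one_mul, Function.update_eq_self]
  · intro j _ hj
    rw [Matrix.one_apply_ne (Ne.symm hj), zero_mul]
  · intro h
    exact absurd (Finset.mem_univ _) h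

theorem slot_mul (r : Fin d) (M M' : Mx n) (t : TT n d) :
    slot r (M * M') t = slot r M (slot r M' t) := by
  ext α
  simp only [slot_apply, Matrix.mul_apply, Function.update_self, Function.update_idem,
    Finset.sum_mul, Finset.mul_sum]
  rw [Finset.sum_comm]
  exact Finset.sum_congr rfl fun j _ => Finset.sum_congr rfl fun k _ => by ring

/-- actions on different slots commute -/
theorem slot_comm {r r' : Fin d} (h : r ≠ r') (M M' : Mx n) (t : TT n d) :
    slot r M (slot r' M' t) = slot r' M' (slot r M t) := by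
  ext α
  simp only [slot_apply, Function.update_of_ne h, Function.update_of_ne h.symm, Finset.mul_sum]
  rw [Finset.sum_comm]
  refine Finset.sum_congr rfl fun j _ => Finset.sum_congr rfl fun k _ => ?_
  rw [Function.update_comm h]
  ring

/-- the involution `(α, j) ↦ (α[r := j], α r)` -/
def s6tnInv (r : Fin d) : Equiv.Perm (Idx n d × Fin n) :=
  Function.Involutive.toPerm (fun p => (Function.update p.1 r p.2, p.1 r)) (by
    intro p
    simp only [Function.update_self, Function.update_idem, Function.update_eq_self])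

/-- adjoint of a slot action -/
theorem inner_slot_left (r : Fin d) (M : Mx n) (t t' : TT n d) :
    inner ℝ (slot r M t) t' = inner ℝ t (slot r Mᵀ t') := by
  rw [s6t_inner, s6t_inner]
  simp only [slot_apply, Finset.sum_mul, Finset.mul_sum]
  rw [← Fintype.sum_prod_type' (f := fun (α : Idx n d) (j : Fin n) =>
      M (α r) j * t (Function.update α r j) * t' α),
    ← Fintype.sum_prod_type' (f := fun (α : Idx n d) (j : Fin n) =>
      t α * (Mᵀ (α r) j * t' (Function.update α r j))), ← Equiv.sum_comp (s6tnInv (n := n) r)]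
  refine Finset.sum_congr rfl fun p _ => ?_
  show M (Function.update p.1 r p.2 r) (p.1 r)
    * t (Function.update (Function.update p.1 r p.2) r (p.1 r)) * t' (Function.update p.1 r p.2) = _
  rw [Function.update_self, Function.update_idem, Function.update_eq_self, Matrix.transpose_apply]
  ring

theorem s6tn_sum_comp (σ : Equiv.Perm (Fin d)) (F : Idx n d → ℝ) :
    ∑ α, F (α ∘ σ) = ∑ α, F α :=
  (Equiv.arrowCongr σ.symm (Equiv.refl (Fin n))).sum_comp F

theorem s6tn_tperm_apply (σ : Equiv.Perm (Fin d)) (t : TT n d) (α : Idx n d) :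
    tperm σ t α = t (α ∘ σ) := rfl

theorem tperm_inner (σ : Equiv.Perm (Fin d)) (t t' : TT n d) :
    inner ℝ (tperm σ t) (tperm σ t') = inner ℝ t t' := by
  rw [s6t_inner, s6t_inner]
  exact s6tn_sum_comp σ fun α => t α * t' α

theorem tperm_norm (σ : Equiv.Perm (Fin d)) (t : TT n d) : ‖tperm σ t‖ = ‖t‖ := by
  have h := tperm_inner σ t t
  rw [real_inner_self_eq_norm_sq, real_inner_self_eq_norm_sq] at h
  exact (sq_eq_sq₀ (norm_nonneg _) (norm_nonneg _)).1 h

theorem tperm_sub (σ : Equiv.Perm (Fin d)) (t t' : TT n d) :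
    tperm σ (t - t') = tperm σ t - tperm σ t' := rfl

theorem TSym.tperm_eq {t : TT n d} (h : TSym t) (σ : Equiv.Perm (Fin d)) : tperm σ t = t := by
  ext α
  exact h σ α

/-- a permutation of the slots moves the slot actions -/
theorem tperm_slot (σ : Equiv.Perm (Fin d)) (r : Fin d) (M : Mx n) (t : TT n d) :
    tperm σ (slot r M t) = slot (σ r) M (tperm σ t) := by
  ext α
  simp only [s6tn_tperm_apply, slot_apply, Function.comp_apply]
  refine Finset.sum_congr rfl fun j _ => ?_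
  rw [Function.update_comp_equiv, Equiv.symm_apply_apply]

theorem TSym.add {t t' : TT n d} (h : TSym t) (h' : TSym t') : TSym (t + t') := by
  intro σ α
  rw [PiLp.add_apply, PiLp.add_apply, h σ α, h' σ α]

theorem TSym.sub {t t' : TT n d} (h : TSym t) (h' : TSym t') : TSym (t - t') := by
  intro σ α
  rw [PiLp.sub_apply, PiLp.sub_apply, h σ α, h' σ α]

theorem TSym.smul (c : ℝ) {t : TT n d} (h : TSym t) : TSym (c • t) := by
  intro σ α
  rw [PiLp.smul_apply, PiLp.smul_apply, h σ α]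

/-- for symmetric tensors the pairing with a slot action does not depend on the slot -/
theorem TSym.inner_slot {t φ : TT n d} (ht : TSym t) (hφ : TSym φ) (M : Mx n) (r r' : Fin d) :
    inner ℝ φ (slot r M t) = inner ℝ φ (slot r' M t) := by
  rw [← tperm_inner (Equiv.swap r r') φ (slot r M t), tperm_slot, hφ.tperm_eq, ht.tperm_eq,
    Equiv.swap_apply_left]

theorem TSym.norm_slot {t : TT n d} (ht : TSym t) (M : Mx n) (r r' : Fin d) :
    ‖slot r M t‖ = ‖slot r' M t‖ := by
  rw [← tperm_norm (Equiv.swap r r') (slot r M t), tperm_slot, ht.tperm_eq, Equiv.swap_apply_left]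

theorem TSym.norm_sub_slot {t φ : TT n d} (ht : TSym t) (hφ : TSym φ) (M : Mx n) (r r' : Fin d) :
    ‖φ - slot r M t‖ = ‖φ - slot r' M t‖ := by
  rw [← tperm_norm (Equiv.swap r r') (φ - slot r M t), tperm_sub, tperm_slot, hφ.tperm_eq,
    ht.tperm_eq, Equiv.swap_apply_left]

/-- correlations between two different slots do not depend on the slots -/
theorem TSym.inner_slot_slot {t : TT n d} (ht : TSym t) (M M' : Mx n) {r r' s s' : Fin d}
    (h : r ≠ r') (h' : s ≠ s') :
    inner ℝ (slot r M t) (slot r' M' t) = inner ℝ (slot s M t) (slot s' M' t) := by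
  set x := Equiv.swap r s r' with hx
  have hxs : s ≠ x := by
    intro e
    apply h
    have : Equiv.swap r s r = Equiv.swap r s r' := by rw [Equiv.swap_apply_left, ← hx, ← e]
    exact (Equiv.swap r s).injective this
  set σ : Equiv.Perm (Fin d) := Equiv.swap x s' * Equiv.swap r s with hσ
  have h1 : σ r = s := by
    rw [hσ, Equiv.Perm.mul_apply, Equiv.swap_apply_left, Equiv.swap_apply_of_ne_of_ne hxs h']
  have h2 : σ r' = s' := by
    rw [hσ, Equiv.Perm.mul_apply, ← hx, Equiv.swap_apply_left]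
  rw [← tperm_inner σ (slot r M t) (slot r' M' t), tperm_slot, tperm_slot, ht.tperm_eq, h1, h2]

theorem s6tn_inner_slot_psd {P : Mx n} (hP : P.PosSemidef) (r : Fin d) (v : TT n d) :
    0 ≤ inner ℝ v (slot r P v) := by
  have hB : (mxFun Real.sqrt P)ᵀ = mxFun Real.sqrt P := Claimed.Agent.R260.mxFun_isSymm _ _
  rw [← mk_sqrt_mul_self hP, slot_mul]
  nth_rewrite 1 [← hB]
  rw [← inner_slot_left]
  exact real_inner_self_nonneg

/-- column bound on any slot of any tensor -/
theorem s6t_column_bound {H : Fin n → Mx n} {c : ℝ}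
    (hH : (c • (1 : Mx n) - ∑ i, (H i)ᵀ * H i).PosSemidef) (r : Fin d) (v : TT n d) :
    ∑ i, ‖slot r (H i) v‖ ^ 2 ≤ c * ‖v‖ ^ 2 := by
  have h := s6tn_inner_slot_psd hH r v
  rw [slot_sub_left, slot_smul_left, slot_one, slot_sum_left, inner_sub_right, inner_smul_right,
    inner_sum, real_inner_self_eq_norm_sq] at h
  have e : ∀ i, inner ℝ v (slot r ((H i)ᵀ * H i) v) = ‖slot r (H i) v‖ ^ 2 := by
    intro i
    rw [slot_mul, ← inner_slot_left, real_inner_self_eq_norm_sq]
  simp only [e] at h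
  linarith

end slots
/-! ### Package L-S6-TenB: flattening, reduction, last index -/

section flat

theorem s6tn_sum_cons (F : Idx n (d + 1) → ℝ) :
    ∑ β, F β = ∑ b, ∑ γ : Idx n d, F (Fin.cons b γ) := by
  rw [← (Fin.consEquiv fun _ : Fin (d + 1) => Fin n).sum_comp, Fintype.sum_prod_type]
  rfl

theorem s6tn_sum_snoc (F : Idx n (d + 1) → ℝ) :
    ∑ β, F β = ∑ b, ∑ γ : Idx n d, F (Fin.snoc γ b) := by
  rw [← (Fin.snocEquiv fun _ : Fin (d + 1) => Fin n).sum_comp, Fintype.sum_prod_type]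
  rfl

theorem s6tn_flat_apply (t : TT n (d + 1)) (i : Fin n) (β : Idx n d) :
    flat t i β = t (Fin.cons i β) := rfl

theorem flat_slot_zero (M : Mx n) (t : TT n (d + 1)) : flat (slot 0 M t) = M * flat t := by
  ext i β
  rw [s6tn_flat_apply, slot_apply, Matrix.mul_apply]
  refine Finset.sum_congr rfl fun j _ => ?_
  rw [Fin.cons_zero, Fin.update_cons_zero, s6tn_flat_apply]

theorem hsI_flat (t t' : TT n (d + 1)) : hsI (flat t) (flat t') = inner ℝ t t' := by
  rw [s6t_inner, s6tn_sum_cons]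
  rfl

theorem hs2_flat (t : TT n (d + 1)) : hs2 (flat t) = ‖t‖ ^ 2 := by
  rw [← hsI_self, hsI_flat, real_inner_self_eq_norm_sq]

theorem flat_sub (t t' : TT n (d + 1)) : flat (t - t') = flat t - flat t' := rfl

theorem flat_smul (c : ℝ) (t : TT n (d + 1)) : flat (c • t) = c • flat t := rfl

theorem red_psd (t : TT n (d + 1)) : (red t).PosSemidef := mk_psd_gram (flat t)

theorem trace_red (t : TT n (d + 1)) : Matrix.trace (red t) = ‖t‖ ^ 2 := by
  rw [← hs2_flat, hs2_eq_trace]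
  rfl

theorem red_smul (c : ℝ) (t : TT n (d + 1)) : red (c • t) = c ^ 2 • red t := by
  unfold red
  rw [flat_smul, Matrix.transpose_smul, Matrix.smul_mul, Matrix.mul_smul, smul_smul, sq]

theorem inner_slot_zero (M : Mx n) (t : TT n (d + 1)) :
    inner ℝ t (slot 0 M t) = Matrix.trace (M * red t) := by
  rw [← hsI_flat, flat_slot_zero, hsI_eq_trace', Matrix.trace_mul_comm, Matrix.mul_assoc]
  rfl

theorem norm_slot_zero_sq (M : Mx n) (t : TT n (d + 1)) :
    ‖slot 0 M t‖ ^ 2 = Matrix.trace (M * red t * Mᵀ) := by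
  rw [← hs2_flat, flat_slot_zero, hs2_eq_trace, Matrix.transpose_mul]
  unfold red
  simp only [Matrix.mul_assoc]

theorem lastAt_apply (t : TT n (d + 1)) (i : Fin n) (α : Idx n d) :
    lastAt t i α = t (Fin.snoc α i) := rfl

theorem sum_norm_lastAt_sq (t : TT n (d + 1)) : ∑ i, ‖lastAt t i‖ ^ 2 = ‖t‖ ^ 2 := by
  rw [s6t_norm_sq, s6tn_sum_snoc]
  exact Finset.sum_congr rfl fun i _ => s6t_norm_sq _

theorem lastAt_sub (t t' : TT n (d + 1)) (i : Fin n) :
    lastAt (t - t') i = lastAt t i - lastAt t' i := rfl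

theorem lastAt_smul (c : ℝ) (t : TT n (d + 1)) (i : Fin n) : lastAt (c • t) i = c • lastAt t i :=
  rfl

/-- extension of a permutation of the first `d` slots by the identity on the last slot -/
def s6tnExt (σ : Equiv.Perm (Fin d)) : Equiv.Perm (Fin (d + 1)) :=
  finSuccEquivLast.permCongr.symm (Equiv.optionCongr σ)

theorem s6tn_ext_castSucc (σ : Equiv.Perm (Fin d)) (k : Fin d) :
    s6tnExt σ k.castSucc = (σ k).castSucc := by
  simp [s6tnExt]

theorem s6tn_ext_last (σ : Equiv.Perm (Fin d)) : s6tnExt σ (Fin.last d) = Fin.last d := by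
  simp [s6tnExt]

theorem tsym_lastAt {t : TT n (d + 1)} (h : TSym t) (i : Fin n) : TSym (lastAt t i) := by
  intro σ α
  have e : (Fin.snoc α i : Idx n (d + 1)) ∘ s6tnExt σ = Fin.snoc (α ∘ σ) i := by
    funext k
    refine Fin.lastCases ?_ (fun k => ?_) k
    · rw [Function.comp_apply, s6tn_ext_last, Fin.snoc_last, Fin.snoc_last]
    · rw [Function.comp_apply, s6tn_ext_castSucc, Fin.snoc_castSucc, Fin.snoc_castSucc,
        Function.comp_apply]
  rw [lastAt_apply, lastAt_apply, ← h (s6tnExt σ) (Fin.snoc α i), e]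

/-- the reduction of a tensor is the sum of the reductions of its slices -/
theorem red_eq_sum_lastAt (t : TT n (d + 2)) : red t = ∑ i, red (lastAt t i) := by
  ext a a'
  rw [Matrix.sum_apply]
  unfold red
  simp only [Matrix.mul_apply, Matrix.transpose_apply, s6tn_flat_apply, lastAt_apply]
  rw [s6tn_sum_snoc]
  refine Finset.sum_congr rfl fun i _ => Finset.sum_congr rfl fun γ _ => ?_
  rw [Fin.cons_snoc_eq_snoc_cons, Fin.cons_snoc_eq_snoc_cons]

/-- exchange of the first and the last index of a symmetric tensor -/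
theorem tsym_lastAt_cons {t : TT n (d + 2)} (h : TSym t) (i a : Fin n) (β : Idx n d) :
    lastAt t i (Fin.cons a β) = lastAt t a (Fin.cons i β) := by
  have e : (Fin.snoc (Fin.cons i β : Idx n (d + 1)) a : Idx n (d + 2))
      ∘ Equiv.swap 0 (Fin.last (d + 1)) = Fin.snoc (Fin.cons a β : Idx n (d + 1)) i := by
    funext k
    rw [Function.comp_apply]
    refine Fin.lastCases ?_ (fun k => ?_) k
    · rw [Equiv.swap_apply_right, Fin.snoc_last]
      have : (0 : Fin (d + 2)) = Fin.castSucc (0 : Fin (d + 1)) := rfl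
      rw [this, Fin.snoc_castSucc, Fin.cons_zero]
    · refine Fin.cases ?_ (fun k => ?_) k
      · have : Fin.castSucc (0 : Fin (d + 1)) = (0 : Fin (d + 2)) := rfl
        rw [this, Equiv.swap_apply_left, Fin.snoc_last, ← this, Fin.snoc_castSucc, Fin.cons_zero]
      · have h1 : Fin.castSucc (Fin.succ k) ≠ (0 : Fin (d + 2)) := by
          intro hh
          have := congrArg Fin.val hh
          simp at this
        have h2 : Fin.castSucc (Fin.succ k) ≠ Fin.last (d + 1) := (Fin.castSucc_lt_last _).ne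
        rw [Equiv.swap_apply_of_ne_of_ne h1 h2, Fin.snoc_castSucc, Fin.snoc_castSucc,
          Fin.cons_succ, Fin.cons_succ]
  rw [lastAt_apply, lastAt_apply, ← h (Equiv.swap 0 (Fin.last (d + 1))) (Fin.snoc _ a), e]

/-- slot actions on the old slots commute with fixing the last index -/
theorem lastAt_slot (r : Fin d) (M : Mx n) (t : TT n (d + 1)) (i : Fin n) :
    lastAt (slot r.castSucc M t) i = slot r M (lastAt t i) := by
  ext α
  rw [lastAt_apply, slot_apply, slot_apply]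
  refine Finset.sum_congr rfl fun j _ => ?_
  rw [Fin.snoc_castSucc, lastAt_apply, Fin.snoc_update]

/-- the slices of the derivative are the directional derivatives -/
theorem lastAt_tD (T : EE n → TT n d) (y : EE n) (i : Fin n) : lastAt (tD T y) i = dI i T y := by
  ext α
  rw [lastAt_apply]
  show dI ((Fin.snoc α i : Idx n (d + 1)) (Fin.last d)) T y
    (Fin.init (Fin.snoc α i : Idx n (d + 1))) = _
  rw [Fin.snoc_last, Fin.init_snoc]

theorem norm_tD_sq (T : EE n → TT n d) (y : EE n) : ‖tD T y‖ ^ 2 = ∑ i, ‖dI i T y‖ ^ 2 := by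
  rw [← sum_norm_lastAt_sq]
  exact Finset.sum_congr rfl fun i _ => by rw [lastAt_tD]

/-- directional derivatives of a field of symmetric tensors are symmetric -/
theorem tsym_dI {T : EE n → TT n d} (h : ∀ y, TSym (T y)) (i : Fin n) (y : EE n) :
    TSym (dI i T y) := by
  intro σ α
  unfold dI
  by_cases hd : DifferentiableAt ℝ T y
  · have key : ∀ β : Idx n d, fderiv ℝ T y (eb i) β = fderiv ℝ (fun z => T z β) y (eb i) := by
      intro β
      have := ((EuclideanSpace.proj β : TT n d →L[ℝ] ℝ).hasFDerivAt.comp y hd.hasFDerivAt).fderiv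
      have e : (fun z => T z β) = (EuclideanSpace.proj β : TT n d →L[ℝ] ℝ) ∘ T := rfl
      rw [e, this]
      rfl
    rw [key, key]
    have : (fun z => T z (α ∘ σ)) = fun z => T z α := funext fun z => h z σ α
    rw [this]
  · rw [fderiv_zero_of_not_differentiableAt hd]
    rfl

theorem s6tn_eqns_cite : True := by
  have := @s6tnInv.eq_1
  have := @s6tnExt.eq_1
  trivial

end flat

end

end Claimed.Agent.R259
end
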