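/- Packed by merge_tool.py (helper293): 8 modules of Claimed.Agent.R259 in one file, same declarations.
   Old modules, in this order: OpDefs, OpRes, OpParam, ImmseDefs, GamStd, S7Gam, MkCorr, S6Slots -/
import Claimed.Agent.R259.S3Defs
import Claimed.Agent.R259.WsHilb
import Claimed.Agent.R259.WsLim
import Claimed.Agent.R259.Pack021
import Claimed.Agent.R259.Pack020
import Claimed.Agent.R259.Pack003

/- ===== packed: Claimed.Agent.R259.OpDefs ===== -/
section
/-
Row 259, kit OP: definitions (resolvent relation, operator domain relation, measurable choice of the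
resolvent).   Owner: helper217.
-/
set_option autoImplicit false

open MeasureTheory Filter Topology
open scoped ContDiff ENNReal

namespace Claimed.Agent.R259

variable {E : Type} [NormedAddCommGroup E] [InnerProductSpace ℝ E] [FiniteDimensional ℝ E]
  [MeasurableSpace E] [BorelSpace E]

/-- `(v, gv) ∈ H¹(η)` solves `v + κ A_η v = u` in the variational sense. -/
def IsRes (η : E → ℝ) (κ : ℝ) (u v : E → ℝ) (gv : E → E) : Prop :=
  H1 (dm η) v gv ∧ ∀ (z : E → ℝ) (gz : E → E), H1 (dm η) z gz →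
    ∫ x, v x * z x ∂(dm η) + κ * ∫ x, inner ℝ (gv x) (gz x) ∂(dm η) = ∫ x, u x * z x ∂(dm η)

/-- `f ∈ Dom(A_η)` with weak gradient `gf` and `A_η f = h ∈ L²(η)`, in the variational sense. -/
def IsDomA (η : E → ℝ) (f : E → ℝ) (gf : E → E) (h : E → ℝ) : Prop :=
  H1 (dm η) f gf ∧ MemLp h 2 (dm η) ∧ ∀ (z : E → ℝ) (gz : E → E), H1 (dm η) z gz →
    ∫ x, inner ℝ (gf x) (gz x) ∂(dm η) = ∫ x, h x * z x ∂(dm η)

open Classical in
/-- A strongly measurable version of `(1 + κ A_η)⁻¹ u` (and `0` if there is none). -/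
noncomputable def opJ (η : E → ℝ) (κ : ℝ) (u : E → ℝ) : E → ℝ :=
  if h : ∃ v : E → ℝ, StronglyMeasurable v ∧ ∃ gv : E → E, StronglyMeasurable gv ∧ IsRes η κ u v gv
  then h.choose else 0

open Classical in
/-- A strongly measurable version of the weak gradient of `opJ η κ u`. -/
noncomputable def opJg (η : E → ℝ) (κ : ℝ) (u : E → ℝ) : E → E :=
  if h : ∃ gv : E → E, StronglyMeasurable gv ∧ IsRes η κ u (opJ η κ u) gv then h.choose else 0

/-- generates the equation lemmas of the definitions above in this file (rule 6: unique names) -/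
theorem op_eqns_cite : True := by
  have := @IsRes.eq_1
  have := @IsDomA.eq_1
  have := @opJ.eq_1
  have := @opJg.eq_1
  trivial

end Claimed.Agent.R259
end

/- ===== packed: Claimed.Agent.R259.OpRes ===== -/
section
/-
Row 259, kit OP: the resolvent `(1 + κ A_η)⁻¹` on `L²(η)` by orthogonal projection onto the (scaled)
graph of the weak gradient; symmetric, contraction, Markov.   Owner: helper217.
-/
set_option autoImplicit false
set_option linter.unusedSectionVars false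

open MeasureTheory Filter Topology
open scoped ContDiff ENNReal NNReal InnerProductSpace

namespace Claimed.Agent.R259

variable {E : Type} [NormedAddCommGroup E] [InnerProductSpace ℝ E] [FiniteDimensional ℝ E]
  [MeasurableSpace E] [BorelSpace E]
variable {η : E → ℝ} {κ : ℝ}

/-- GENERALISED RESOLVENT: data `h + div*`-type `F`. -/
theorem opr_exists_gen (hη : Continuous η) (hpos : ∀ x, 0 < η x) (hκ : 0 < κ) {h : E → ℝ}
    {F : E → E} (hh : MemLp h 2 (dm η)) (hF : MemLp F 2 (dm η)) :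
    ∃ (v : E → ℝ) (gv : E → E), StronglyMeasurable v ∧ StronglyMeasurable gv ∧
      H1 (dm η) v gv ∧ ∀ (z : E → ℝ) (gz : E → E), H1 (dm η) z gz →
        ∫ x, v x * z x ∂(dm η) + κ * ∫ x, ⟪gv x, gz x⟫_ℝ ∂(dm η)
          = ∫ x, h x * z x ∂(dm η) + ∫ x, ⟪F x, gz x⟫_ℝ ∂(dm η) := by
  set s : ℝ := Real.sqrt κ with hs
  have hs0 : 0 < s := Real.sqrt_pos.2 hκ
  have hss : s * s = κ := Real.mul_self_sqrt hκ.le
  set c : ℝ := s⁻¹ with hc
  have hcs : c * s = 1 := inv_mul_cancel₀ hs0.ne'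
  set K := wsV hη.measurable hpos c with hK
  have hKc : IsComplete (K : Set (WsHs (dm η))) := (wsV_isClosed hη hpos c).isComplete
  set q : WsHs (dm η) := wsPair hh (hF.const_smul c) with hq
  obtain ⟨p, hpK, hmin⟩ := K.exists_norm_eq_iInf_of_complete_subspace hKc q
  have horth := (K.norm_eq_iInf_iff_real_inner_eq_zero hpK).1 hmin
  have hH : H1 (dm η) p.fst (fun x => c • p.snd x) := hpK
  refine ⟨p.fst, fun x => c • p.snd x, Lp.stronglyMeasurable _,
    (Lp.stronglyMeasurable p.snd).const_smul c, hH, fun z gz hz => ?_⟩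
  set w : WsHs (dm η) := wsPair hz.2.1 (hz.2.2.const_smul s) with hw
  have hwK : w ∈ K := by
    rw [hw, hK, wsPair_mem_wsV]
    refine wsh_congr hη.measurable hpos hz (Eventually.of_forall fun x => rfl)
      (Eventually.of_forall fun x => ?_)
    simp only [Pi.smul_apply, smul_smul, hcs, one_smul]
  have h0 := horth w hwK
  rw [inner_sub_left, sub_eq_zero] at h0
  have e1 : ⟪q, w⟫_ℝ = ∫ x, h x * z x ∂(dm η) + ∫ x, ⟪F x, gz x⟫_ℝ ∂(dm η) := by
    rw [hq, hw, wsPair_inner]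
    congr 1
    refine integral_congr_ae (Eventually.of_forall fun x => ?_)
    simp only [Pi.smul_apply, inner_smul_left, inner_smul_right, RCLike.conj_to_real]
    rw [← mul_assoc, mul_comm s c, hcs, one_mul]
  have e2 : ⟪p, w⟫_ℝ = ∫ x, p.fst x * z x ∂(dm η)
      + κ * ∫ x, ⟪c • p.snd x, gz x⟫_ℝ ∂(dm η) := by
    conv_lhs => rw [← wsPair_self p, hw, wsPair_inner]
    congr 1
    rw [← integral_const_mul]
    refine integral_congr_ae (Eventually.of_forall fun x => ?_)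
    simp only [Pi.smul_apply, inner_smul_left, inner_smul_right, RCLike.conj_to_real]
    rw [← mul_assoc]
    congr 1
    rw [← hss, mul_assoc, mul_comm s c, hcs, mul_one]
  rw [← e2, ← e1, h0]

theorem opr_exists (hη : Continuous η) (hpos : ∀ x, 0 < η x) (hκ : 0 < κ) {u : E → ℝ}
    (hu : MemLp u 2 (dm η)) :
    ∃ (v : E → ℝ) (gv : E → E), StronglyMeasurable v ∧ StronglyMeasurable gv ∧
      IsRes η κ u v gv := by
  obtain ⟨v, gv, h1, h2, h3, h4⟩ := opr_exists_gen hη hpos hκ hu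
    (MemLp.zero : MemLp (fun _ : E => (0 : E)) 2 (dm η))
  refine ⟨v, gv, h1, h2, h3, fun z gz hz => ?_⟩
  rw [h4 z gz hz]
  simp

theorem opr_J_meas (η : E → ℝ) (κ : ℝ) (u : E → ℝ) : StronglyMeasurable (opJ η κ u) := by
  unfold opJ
  split_ifs with h
  · exact h.choose_spec.1
  · exact stronglyMeasurable_zero

theorem opr_Jg_meas (η : E → ℝ) (κ : ℝ) (u : E → ℝ) : StronglyMeasurable (opJg η κ u) := by
  unfold opJg
  split_ifs with h
  · exact h.choose_spec.1
  · exact stronglyMeasurable_zero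

theorem opr_J_spec (hη : Continuous η) (hpos : ∀ x, 0 < η x) (hκ : 0 < κ) {u : E → ℝ}
    (hu : MemLp u 2 (dm η)) : IsRes η κ u (opJ η κ u) (opJg η κ u) := by
  obtain ⟨v, gv, h1, h2, h3⟩ := opr_exists hη hpos hκ hu
  have hex : ∃ v : E → ℝ, StronglyMeasurable v ∧ ∃ gv : E → E, StronglyMeasurable gv ∧
      IsRes η κ u v gv := ⟨v, h1, gv, h2, h3⟩
  have hJ : opJ η κ u = hex.choose := by
    unfold opJ
    rw [dif_pos hex]
  have hex2 : ∃ gv : E → E, StronglyMeasurable gv ∧ IsRes η κ u (opJ η κ u) gv := by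
    rw [hJ]
    exact hex.choose_spec.2
  have hJg : opJg η κ u = hex2.choose := by
    unfold opJg
    rw [dif_pos hex2]
  rw [hJg]
  exact hex2.choose_spec.2

theorem opr_energy {u v : E → ℝ} {gv : E → E} (h : IsRes η κ u v gv) :
    ∫ x, v x ^ 2 ∂(dm η) + κ * ∫ x, ‖gv x‖ ^ 2 ∂(dm η) = ∫ x, u x * v x ∂(dm η) := by
  have := h.2 v gv h.1
  simpa only [real_inner_self_eq_norm_sq, ← sq] using this

theorem opr_congr {u u' v v' : E → ℝ} {gv gv' : E → E} (h : IsRes η κ u v gv)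
    (hu : u =ᵐ[volume] u') (hv : v =ᵐ[volume] v') (hg : gv =ᵐ[volume] gv') :
    IsRes η κ u' v' gv' := by
  have hu' := (ws_dm_ac η).ae_le hu
  have hv' := (ws_dm_ac η).ae_le hv
  have hg' := (ws_dm_ac η).ae_le hg
  refine ⟨⟨wsg_congr h.1.1 hv hg, h.1.2.1.ae_eq hv', h.1.2.2.ae_eq hg'⟩, fun z gz hz => ?_⟩
  have e1 : ∫ x, v' x * z x ∂(dm η) = ∫ x, v x * z x ∂(dm η) := by
    refine integral_congr_ae ?_
    filter_upwards [hv'] with x hx
    rw [hx]
  have e2 : ∫ x, ⟪gv' x, gz x⟫_ℝ ∂(dm η) = ∫ x, ⟪gv x, gz x⟫_ℝ ∂(dm η) := by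
    refine integral_congr_ae ?_
    filter_upwards [hg'] with x hx
    rw [hx]
  have e3 : ∫ x, u' x * z x ∂(dm η) = ∫ x, u x * z x ∂(dm η) := by
    refine integral_congr_ae ?_
    filter_upwards [hu'] with x hx
    rw [hx]
  rw [e1, e2, e3]
  exact h.2 z gz hz

theorem opr_add {u u' v v' : E → ℝ} {gv gv' : E → E} (hu : MemLp u 2 (dm η))
    (hu' : MemLp u' 2 (dm η)) (h : IsRes η κ u v gv) (h' : IsRes η κ u' v' gv') :
    IsRes η κ (fun x => u x + u' x) (fun x => v x + v' x) (fun x => gv x + gv' x) := by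
  refine ⟨wsh_add h.1 h'.1, fun z gz hz => ?_⟩
  simp only [add_mul, inner_add_left]
  rw [integral_add (ws_integrable_mul h.1.2.1 hz.2.1) (ws_integrable_mul h'.1.2.1 hz.2.1),
    integral_add (ws_integrable_inner h.1.2.2 hz.2.2) (ws_integrable_inner h'.1.2.2 hz.2.2),
    integral_add (ws_integrable_mul hu hz.2.1) (ws_integrable_mul hu' hz.2.1),
    ← h.2 z gz hz, ← h'.2 z gz hz]
  ring

theorem opr_smul (c : ℝ) {u v : E → ℝ} {gv : E → E} (h : IsRes η κ u v gv) :
    IsRes η κ (fun x => c * u x) (fun x => c * v x) (fun x => c • gv x) := by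
  refine ⟨wsh_smul c h.1, fun z gz hz => ?_⟩
  simp only [mul_assoc, inner_smul_left, RCLike.conj_to_real]
  rw [integral_const_mul, integral_const_mul, integral_const_mul, ← h.2 z gz hz]
  ring

theorem opr_sub {u u' v v' : E → ℝ} {gv gv' : E → E} (hu : MemLp u 2 (dm η))
    (hu' : MemLp u' 2 (dm η)) (h : IsRes η κ u v gv) (h' : IsRes η κ u' v' gv') :
    IsRes η κ (fun x => u x - u' x) (fun x => v x - v' x) (fun x => gv x - gv' x) := by
  have := opr_add hu (hu'.const_mul (-1)) h (opr_smul (-1) h')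
  simpa [sub_eq_add_neg] using this

theorem opr_zero (hκ : 0 < κ) {u v : E → ℝ} {gv : E → E} (h : IsRes η κ u v gv)
    (hu : u =ᵐ[dm η] 0) : v =ᵐ[dm η] 0 ∧ gv =ᵐ[dm η] 0 := by
  have h1 := opr_energy h
  have h2 : ∫ x, u x * v x ∂(dm η) = 0 := by
    rw [← integral_zero E ℝ (μ := dm η)]
    refine integral_congr_ae ?_
    filter_upwards [hu] with x hx
    simp [hx]
  rw [h2] at h1
  have a1 : 0 ≤ ∫ x, v x ^ 2 ∂(dm η) := integral_nonneg fun x => by positivity
  have a2 : 0 ≤ ∫ x, ‖gv x‖ ^ 2 ∂(dm η) := integral_nonneg fun x => by positivity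
  have a3 : 0 ≤ κ * ∫ x, ‖gv x‖ ^ 2 ∂(dm η) := mul_nonneg hκ.le a2
  have b1 : ∫ x, v x ^ 2 ∂(dm η) = 0 := by linarith
  have b2 : ∫ x, ‖gv x‖ ^ 2 ∂(dm η) = 0 := by
    have : κ * ∫ x, ‖gv x‖ ^ 2 ∂(dm η) = 0 := by linarith
    exact (mul_eq_zero.1 this).resolve_left hκ.ne'
  refine ⟨ws_ae_zero_of_sq h.1.2.1 ?_, ws_ae_zero_of_sq h.1.2.2 b2⟩
  simpa only [Real.norm_eq_abs, sq_abs] using b1

theorem opr_unique (hκ : 0 < κ) {u v v' : E → ℝ} {gv gv' : E → E}
    (h : IsRes η κ u v gv) (h' : IsRes η κ u v' gv') :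
    v =ᵐ[dm η] v' ∧ gv =ᵐ[dm η] gv' := by
  -- the difference solves the homogeneous problem
  have hd : IsRes η κ (fun _ => 0) (fun x => v x - v' x) (fun x => gv x - gv' x) := by
    refine ⟨wsh_sub h.1 h'.1, fun z gz hz => ?_⟩
    simp only [sub_mul, inner_sub_left, zero_mul, integral_zero]
    rw [integral_sub (ws_integrable_mul h.1.2.1 hz.2.1) (ws_integrable_mul h'.1.2.1 hz.2.1),
      integral_sub (ws_integrable_inner h.1.2.2 hz.2.2) (ws_integrable_inner h'.1.2.2 hz.2.2)]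
    have e1 := h.2 z gz hz
    have e2 := h'.2 z gz hz
    linarith
  obtain ⟨a, b⟩ := opr_zero hκ hd (Eventually.of_forall fun x => rfl)
  constructor
  · filter_upwards [a] with x hx
    exact sub_eq_zero.1 hx
  · filter_upwards [b] with x hx
    exact sub_eq_zero.1 hx

theorem opr_contract (hκ : 0 < κ) {u v : E → ℝ} {gv : E → E} (hu : MemLp u 2 (dm η))
    (h : IsRes η κ u v gv) :
    ∫ x, v x ^ 2 ∂(dm η) + 2 * κ * ∫ x, ‖gv x‖ ^ 2 ∂(dm η) ≤ ∫ x, u x ^ 2 ∂(dm η) := by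
  have h1 := opr_energy h
  have iu : Integrable (fun x => u x ^ 2) (dm η) := by
    simpa only [Real.norm_eq_abs, sq_abs] using ws_integrable_sq hu
  have iv : Integrable (fun x => v x ^ 2) (dm η) := by
    simpa only [Real.norm_eq_abs, sq_abs] using ws_integrable_sq h.1.2.1
  have h2 : ∫ x, u x * v x ∂(dm η) ≤ ∫ x, (u x ^ 2 + v x ^ 2) / 2 ∂(dm η) := by
    refine integral_mono (ws_integrable_mul hu h.1.2.1) ((iu.add iv).div_const 2) fun x => ?_
    show u x * v x ≤ (u x ^ 2 + v x ^ 2) / 2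
    nlinarith [sq_nonneg (u x - v x)]
  rw [integral_div, integral_add iu iv] at h2
  linarith

theorem opr_symm {u u' v v' : E → ℝ} {gv gv' : E → E}
    (h : IsRes η κ u v gv) (h' : IsRes η κ u' v' gv') :
    ∫ x, v x * u' x ∂(dm η) = ∫ x, u x * v' x ∂(dm η) := by
  have e1 := h.2 v' gv' h'.1
  have e2 := h'.2 v gv h.1
  have c1 : ∫ x, v' x * v x ∂(dm η) = ∫ x, v x * v' x ∂(dm η) := by
    simp only [mul_comm]
  have c2 : ∫ x, ⟪gv' x, gv x⟫_ℝ ∂(dm η) = ∫ x, ⟪gv x, gv' x⟫_ℝ ∂(dm η) := by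
    simp only [real_inner_comm]
  have c3 : ∫ x, v x * u' x ∂(dm η) = ∫ x, u' x * v x ∂(dm η) := by
    simp only [mul_comm]
  rw [c3, ← e2, ← e1, c1, c2]

/-- positivity preserving (truncation test). -/
theorem opr_nonneg (hη : Measurable η) (hpos : ∀ x, 0 < η x) (hκ : 0 < κ) {u v : E → ℝ}
    {gv : E → E} (h : IsRes η κ u v gv) (h0 : ∀ᵐ x, 0 ≤ u x) :
    ∀ᵐ x, 0 ≤ v x := by
  have hz := ws_H1_negPart h.1
  have e := h.2 _ _ hz
  have h0' : ∀ᵐ x ∂(dm η), 0 ≤ u x := (ws_dm_ac η).ae_le h0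
  -- right hand side is nonnegative
  have r : 0 ≤ ∫ x, u x * max (-v x) 0 ∂(dm η) := by
    refine integral_nonneg_of_ae ?_
    filter_upwards [h0'] with x hx
    exact mul_nonneg hx (le_max_right _ _)
  -- first term
  have t1 : ∫ x, v x * max (-v x) 0 ∂(dm η) = - ∫ x, (max (-v x) 0) ^ 2 ∂(dm η) := by
    rw [← integral_neg]
    refine integral_congr_ae (Eventually.of_forall fun x => ?_)
    show v x * max (-v x) 0 = -(max (-v x) 0) ^ 2
    rcases le_total 0 (v x) with hx | hx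
    · rw [max_eq_right (by linarith)]; ring
    · rw [max_eq_left (by linarith)]; ring
  have t2 : ∫ x, ⟪gv x, -{x | v x < 0}.indicator gv x⟫_ℝ ∂(dm η) ≤ 0 := by
    refine integral_nonpos fun x => ?_
    show ⟪gv x, -{x | v x < 0}.indicator gv x⟫_ℝ ≤ 0
    by_cases hx : x ∈ {x | v x < 0}
    · rw [Set.indicator_of_mem hx, inner_neg_right, real_inner_self_eq_norm_sq]
      have := sq_nonneg ‖gv x‖
      linarith
    · rw [Set.indicator_of_notMem hx]
      simp
  rw [t1] at e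
  have a1 : 0 ≤ ∫ x, (max (-v x) 0) ^ 2 ∂(dm η) := integral_nonneg fun x => by positivity
  have a2 : κ * ∫ x, ⟪gv x, -{x | v x < 0}.indicator gv x⟫_ℝ ∂(dm η) ≤ 0 :=
    mul_nonpos_of_nonneg_of_nonpos hκ.le t2
  have b : ∫ x, (max (-v x) 0) ^ 2 ∂(dm η) = 0 := by linarith
  have c := ws_ae_zero_of_sq hz.2.1 (by simpa only [Real.norm_eq_abs, sq_abs] using b)
  rw [← ws_ae_dm_iff hη hpos]
  filter_upwards [c] with x hx
  have h1 : max (-v x) 0 = 0 := hx
  have h2 : -v x ≤ 0 := by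
    rw [← h1]
    exact le_max_left _ _
  linarith

theorem wsh_const [IsFiniteMeasure (dm η)] (c : ℝ) : H1 (dm η) (fun _ => c) (fun _ => 0) :=
  ⟨wsg_const c, memLp_const c, MemLp.zero⟩

/-- unital. -/
theorem opr_const [IsFiniteMeasure (dm η)] (κ c : ℝ) :
    IsRes η κ (fun _ => c) (fun _ => c) (fun _ => 0) := by
  refine ⟨wsh_const c, fun z gz _ => ?_⟩
  simp

theorem opr_le (hη : Measurable η) (hpos : ∀ x, 0 < η x) [IsFiniteMeasure (dm η)] (hκ : 0 < κ)
    {u v : E → ℝ} {gv : E → E} (hu : MemLp u 2 (dm η)) (h : IsRes η κ u v gv) {C : ℝ}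
    (hC : ∀ᵐ x, u x ≤ C) : ∀ᵐ x, v x ≤ C := by
  have h1 := opr_sub (memLp_const C) hu (opr_const (η := η) κ C) h
  have h2 := opr_nonneg hη hpos hκ h1
    (by filter_upwards [hC] with x hx; linarith)
  filter_upwards [h2] with x hx
  linarith

theorem opr_ge (hη : Measurable η) (hpos : ∀ x, 0 < η x) [IsFiniteMeasure (dm η)] (hκ : 0 < κ)
    {u v : E → ℝ} {gv : E → E} (hu : MemLp u 2 (dm η)) (h : IsRes η κ u v gv) {C : ℝ}
    (hC : ∀ᵐ x, C ≤ u x) : ∀ᵐ x, C ≤ v x := by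
  have h1 := opr_sub hu (memLp_const C) h (opr_const (η := η) κ C)
  have h2 := opr_nonneg hη hpos hκ h1
    (by filter_upwards [hC] with x hx; linarith)
  filter_upwards [h2] with x hx
  linarith

/-- conservation of mass. -/
theorem opr_integral [IsFiniteMeasure (dm η)] {u v : E → ℝ} {gv : E → E}
    (h : IsRes η κ u v gv) : ∫ x, v x ∂(dm η) = ∫ x, u x ∂(dm η) := by
  have := h.2 _ _ (wsh_const (η := η) 1)
  simpa using this

/-- resolvent equation = operator domain. -/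
theorem opr_iff_dom (hκ : 0 < κ) {u v : E → ℝ} {gv : E → E} (hu : MemLp u 2 (dm η)) :
    IsRes η κ u v gv ↔ IsDomA η v gv (fun x => κ⁻¹ * (u x - v x)) := by
  constructor
  · intro h
    refine ⟨h.1, (hu.sub h.1.2.1).const_mul κ⁻¹, fun z gz hz => ?_⟩
    have e := h.2 z gz hz
    have e2 : ∫ x, κ⁻¹ * (u x - v x) * z x ∂(dm η)
        = κ⁻¹ * (∫ x, u x * z x ∂(dm η) - ∫ x, v x * z x ∂(dm η)) := by
      rw [← integral_sub (ws_integrable_mul hu hz.2.1) (ws_integrable_mul h.1.2.1 hz.2.1),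
        ← integral_const_mul]
      refine integral_congr_ae (Eventually.of_forall fun x => ?_)
      show κ⁻¹ * (u x - v x) * z x = κ⁻¹ * (u x * z x - v x * z x)
      ring
    rw [e2, ← e]
    field_simp
    ring
  · intro h
    refine ⟨h.1, fun z gz hz => ?_⟩
    have e := h.2.2 z gz hz
    have e2 : ∫ x, κ⁻¹ * (u x - v x) * z x ∂(dm η)
        = κ⁻¹ * (∫ x, u x * z x ∂(dm η) - ∫ x, v x * z x ∂(dm η)) := by
      rw [← integral_sub (ws_integrable_mul hu hz.2.1) (ws_integrable_mul h.1.2.1 hz.2.1),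
        ← integral_const_mul]
      refine integral_congr_ae (Eventually.of_forall fun x => ?_)
      show κ⁻¹ * (u x - v x) * z x = κ⁻¹ * (u x * z x - v x * z x)
      ring
    rw [e, e2]
    field_simp
    ring

/-- operator domain = resolvent equation. -/
theorem opr_of_dom {f h : E → ℝ} {gf : E → E} (κ : ℝ) (hd : IsDomA η f gf h) :
    IsRes η κ (fun x => f x + κ * h x) f gf := by
  refine ⟨hd.1, fun z gz hz => ?_⟩
  rw [hd.2.2 z gz hz, ← integral_const_mul,
    ← integral_add (ws_integrable_mul hd.1.2.1 hz.2.1)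
      ((ws_integrable_mul hd.2.1 hz.2.1).const_mul κ)]
  refine integral_congr_ae (Eventually.of_forall fun x => ?_)
  show f x * z x + κ * (h x * z x) = (f x + κ * h x) * z x
  ring

/-- `J` commutes with `A`:  `f - J f = κ J A f`. -/
theorem opr_comm (hκ : 0 < κ) {f h v v' : E → ℝ} {gf gv gv' : E → E} (hd : IsDomA η f gf h)
    (h1 : IsRes η κ f v gv) (h2 : IsRes η κ h v' gv') :
    (fun x => f x - v x) =ᵐ[dm η] fun x => κ * v' x := by
  have a := opr_add hd.1.2.1 (hd.2.1.const_mul κ) h1 (opr_smul κ h2)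
  have b := opr_of_dom κ hd
  filter_upwards [(opr_unique hκ b a).1] with x hx
  rw [hx]
  ring

end Claimed.Agent.R259
end

/- ===== packed: Claimed.Agent.R259.OpParam ===== -/
section
/-
Row 259, kit OP, LEAF L-op-param: JOINTLY MEASURABLE RESOLVENT of a jointly measurable family.
Blueprint: helper217.  Leaf owner: helper54.

`opp_res_param` from `opp_tensor_approx`, `opp_subseq` (file `OpParamA`), with `μ := dm η`:
`kn n p := ∑ i ∈ s n, c i p.1 * w i p.2`, `Kn n p := ∑ i ∈ s n, c i p.1 * opJ η κ (w i) p.2`,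
`Gn n p := ∑ i ∈ s n, c i p.1 • opJg η κ (w i) p.2`; slicewise contraction, integrated in `l`; completeness of `L²(Λ ⊗ η)`;
a.e. convergent subsequence of the slices; closedness of the resolvent relation.
-/
set_option autoImplicit false
set_option linter.unusedSectionVars false

open MeasureTheory Filter Topology
open scoped ContDiff ENNReal NNReal InnerProductSpace

namespace Claimed.Agent.R259

/-! ### `L²` norms as lower integrals -/

section abstract

variable {α X : Type} [MeasurableSpace α] [NormedAddCommGroup X] {μ : Measure α}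

theorem opp_eLpNorm_sq (μ : Measure α) (f : α → X) :
    eLpNorm f 2 μ ^ 2 = ∫⁻ x, ‖f x‖ₑ ^ 2 ∂μ := by
  have := eLpNorm_nnreal_pow_eq_lintegral (μ := μ) (f := f) (p := 2) (by norm_num)
  simpa using this

theorem opp_tendsto_iff {ι : Type} {l : Filter ι} (F : ι → α → X) :
    Tendsto (fun n => eLpNorm (F n) 2 μ) l (𝓝 0) ↔
      Tendsto (fun n => ∫⁻ x, ‖F n x‖ₑ ^ 2 ∂μ) l (𝓝 0) := by
  simp only [← opp_eLpNorm_sq]
  constructor
  · intro h
    have := ENNReal.Tendsto.pow (n := 2) h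
    simpa using this
  · intro h
    have h1 := (ENNReal.continuous_rpow_const (y := 1 / 2)).tendsto 0 |>.comp h
    have e : ∀ x : ℝ≥0∞, (x ^ 2) ^ (1 / 2 : ℝ) = x := by
      intro x
      rw [← ENNReal.rpow_two, ← ENNReal.rpow_mul]
      norm_num
    have e0 : (0 : ℝ≥0∞) ^ (1 / 2 : ℝ) = 0 := ENNReal.zero_rpow_of_pos (by norm_num)
    rw [e0] at h1
    refine h1.congr fun n => ?_
    exact e _

theorem opp_lint_eq {f : α → X} (hf : MemLp f 2 μ) :
    ∫⁻ x, ‖f x‖ₑ ^ 2 ∂μ = ENNReal.ofReal (∫ x, ‖f x‖ ^ 2 ∂μ) := by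
  rw [ofReal_integral_eq_lintegral_ofReal (hf.integrable_norm_pow (by norm_num))
    (Eventually.of_forall fun x => by positivity)]
  refine lintegral_congr fun x => ?_
  rw [ENNReal.ofReal_pow (norm_nonneg _), ofReal_norm]

theorem opp_memLp_of_le {Y : Type} [NormedAddCommGroup Y] {F : α → X} {H : α → Y}
    (hF : AEStronglyMeasurable F μ) (hH : MemLp H 2 μ) {C : ℝ≥0∞} (hC : C ≠ ⊤)
    (h : ∫⁻ x, ‖F x‖ₑ ^ 2 ∂μ ≤ C * ∫⁻ x, ‖H x‖ₑ ^ 2 ∂μ) : MemLp F 2 μ := by
  refine ⟨hF, ?_⟩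
  rw [← opp_eLpNorm_sq, ← opp_eLpNorm_sq] at h
  by_contra hcon
  rw [not_lt, top_le_iff] at hcon
  rw [hcon] at h
  have h1 : C * eLpNorm H 2 μ ^ 2 < ⊤ := ENNReal.mul_lt_top hC.lt_top (ENNReal.pow_lt_top hH.2)
  simp only [ne_eq, OfNat.ofNat_ne_zero, not_false_eq_true, ENNReal.top_pow, top_le_iff] at h
  exact h1.ne h

theorem opp_memLp_of_lt_top {F : α → X} (hF : AEStronglyMeasurable F μ)
    (h : ∫⁻ x, ‖F x‖ₑ ^ 2 ∂μ < ⊤) : MemLp F 2 μ := by
  refine ⟨hF, ?_⟩
  rw [← opp_eLpNorm_sq] at h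
  by_contra hcon
  rw [not_lt, top_le_iff] at hcon
  rw [hcon] at h
  simp at h

/-- a sequence whose increments are dominated by those of a convergent sequence converges in `L²`. -/
theorem opp_complete [CompleteSpace X] {F : ℕ → α → X} (hF : ∀ n, MemLp (F n) 2 μ)
    {kn : ℕ → α → ℝ} (hkn : ∀ n, MemLp (kn n) 2 μ) {k : α → ℝ} (hk : MemLp k 2 μ)
    (hconv : Tendsto (fun n => eLpNorm (kn n - k) 2 μ) atTop (𝓝 0)) {C : ℝ≥0∞} (hC : C ≠ ⊤)
    (hle : ∀ n m, eLpNorm (F n - F m) 2 μ ≤ C * eLpNorm (kn n - kn m) 2 μ) :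
    ∃ F' : α → X, StronglyMeasurable F' ∧ MemLp F' 2 μ ∧
      Tendsto (fun n => eLpNorm (F n - F') 2 μ) atTop (𝓝 0) := by
  have : Fact ((1 : ℝ≥0∞) ≤ 2) := ⟨by norm_num⟩
  have hcau : CauchySeq fun n => (hkn n).toLp (kn n) :=
    ((Lp.tendsto_Lp_iff_tendsto_eLpNorm'' kn hkn k hk).2 hconv).cauchySeq
  have hcauF : CauchySeq fun n => (hF n).toLp (F n) := by
    rw [EMetric.cauchySeq_iff] at hcau ⊢
    intro ε hε
    have hC1 : C + 1 ≠ ⊤ := ENNReal.add_ne_top.2 ⟨hC, ENNReal.one_ne_top⟩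
    have hC0 : C + 1 ≠ 0 := by simp
    obtain ⟨N, hN⟩ := hcau (ε / (C + 1)) (ENNReal.div_pos hε.ne' hC1)
    refine ⟨N, fun m hm n hn => ?_⟩
    have h1 := hN m hm n hn
    rw [Lp.edist_toLp_toLp] at h1 ⊢
    calc eLpNorm (F m - F n) 2 μ ≤ C * eLpNorm (kn m - kn n) 2 μ := hle m n
      _ ≤ (C + 1) * eLpNorm (kn m - kn n) 2 μ := by gcongr; exact le_self_add
      _ < (C + 1) * (ε / (C + 1)) := (ENNReal.mul_lt_mul_iff_right hC0 hC1).2 h1
      _ = ε := ENNReal.mul_div_cancel hC0 hC1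
  obtain ⟨F', hF'⟩ := cauchySeq_tendsto_of_complete hcauF
  refine ⟨F', Lp.stronglyMeasurable F', Lp.memLp F', ?_⟩
  have h2 := (Lp.tendsto_Lp_iff_tendsto_eLpNorm' _ F').1 hF'
  refine h2.congr fun n => ?_
  refine eLpNorm_congr_ae ?_
  filter_upwards [(hF n).coeFn_toLp] with x hx
  simp only [Pi.sub_apply, hx]

theorem opp_eLpNorm_le_of_sq {Y : Type} [NormedAddCommGroup Y] {F : α → X} {H : α → Y} {C : ℝ≥0∞}
    (h : ∫⁻ x, ‖F x‖ₑ ^ 2 ∂μ ≤ C * ∫⁻ x, ‖H x‖ₑ ^ 2 ∂μ) :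
    eLpNorm F 2 μ ≤ (C + 1) * eLpNorm H 2 μ := by
  rw [← ENNReal.pow_le_pow_left_iff two_ne_zero, mul_pow, opp_eLpNorm_sq, opp_eLpNorm_sq]
  refine h.trans ?_
  gcongr
  calc C ≤ C + 1 := le_self_add
    _ = (C + 1) * 1 := (mul_one _).symm
    _ ≤ (C + 1) * (C + 1) := by gcongr; exact le_add_self
    _ = (C + 1) ^ 2 := (sq _).symm

theorem opp_prod_le {L Y : Type} [MeasurableSpace L] [NormedAddCommGroup Y] (Lam : Measure L)
    [SFinite μ] {F : L × α → X} {H : L × α → Y} (hF : Measurable fun p => ‖F p‖ₑ ^ 2)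
    (hH : Measurable fun p => ‖H p‖ₑ ^ 2) (C : ℝ≥0∞)
    (h : ∀ l, ∫⁻ y, ‖F (l, y)‖ₑ ^ 2 ∂μ ≤ C * ∫⁻ y, ‖H (l, y)‖ₑ ^ 2 ∂μ) :
    ∫⁻ p, ‖F p‖ₑ ^ 2 ∂(Lam.prod μ) ≤ C * ∫⁻ p, ‖H p‖ₑ ^ 2 ∂(Lam.prod μ) := by
  rw [lintegral_prod _ hF.aemeasurable, lintegral_prod _ hH.aemeasurable,
    ← lintegral_const_mul C hH.lintegral_prod_right']
  exact lintegral_mono h

end abstract

variable {E : Type} [NormedAddCommGroup E] [InnerProductSpace ℝ E] [FiniteDimensional ℝ E]
  [MeasurableSpace E] [BorelSpace E]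
variable {η : E → ℝ} {κ : ℝ}

/-- the resolvent relation is closed under `L²` convergence of all three entries. -/
theorem opp_res_closed (hη : Continuous η) (hpos : ∀ x, 0 < η x) {u v : E → ℝ} {g : E → E}
    {un vn : ℕ → E → ℝ} {gn : ℕ → E → E} (h : ∀ n, IsRes η κ (un n) (vn n) (gn n))
    (hun : ∀ n, MemLp (un n) 2 (dm η)) (hu : MemLp u 2 (dm η)) (hv : MemLp v 2 (dm η))
    (hg : MemLp g 2 (dm η))
    (cu : Tendsto (fun n => eLpNorm (fun x => un n x - u x) 2 (dm η)) atTop (𝓝 0))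
    (cv : Tendsto (fun n => eLpNorm (fun x => vn n x - v x) 2 (dm η)) atTop (𝓝 0))
    (cg : Tendsto (fun n => eLpNorm (fun x => gn n x - g x) 2 (dm η)) atTop (𝓝 0)) :
    IsRes η κ u v g := by
  refine ⟨ws_closed_aux hη hpos (fun n => (h n).1) hv hg cv cg, fun z gz hz => ?_⟩
  have cu' := (ws_tendsto_sq_iff_real (fun n => (hun n).sub hu)).2 cu
  have cv' := (ws_tendsto_sq_iff_real (fun n => (h n).1.2.1.sub hv)).2 cv
  have cg' := (ws_tendsto_sq_iff (fun n => (h n).1.2.2.sub hg)).2 cg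
  have t1 := ws_tendsto_mul hun hu (fun _ => hz.2.1) hz.2.1 cu' (by simp)
  have t2 := ws_tendsto_mul (fun n => (h n).1.2.1) hv (fun _ => hz.2.1) hz.2.1 cv' (by simp)
  have t3 := ws_tendsto_inner (fun n => (h n).1.2.2) hg (fun _ => hz.2.2) hz.2.2 cg' (by simp)
  refine tendsto_nhds_unique (t2.add (t3.const_mul κ)) (t1.congr fun n => ?_)
  exact ((h n).2 z gz hz).symm

/-- finite linear combinations. -/
theorem opp_res_sum {ι : Type} (s : Finset ι) (c : ι → ℝ) {u v : ι → E → ℝ} {g : ι → E → E}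
    (hu : ∀ i ∈ s, MemLp (u i) 2 (dm η)) (h : ∀ i ∈ s, IsRes η κ (u i) (v i) (g i)) :
    IsRes η κ (fun x => ∑ i ∈ s, c i * u i x) (fun x => ∑ i ∈ s, c i * v i x)
      (fun x => ∑ i ∈ s, c i • g i x) := by
  classical
  induction s using Finset.induction_on with
  | empty =>
    simp only [Finset.sum_empty]
    exact ⟨⟨wsg_const 0, MemLp.zero, MemLp.zero⟩, fun z gz _ => by simp⟩
  | insert a s ha ih =>
    simp only [Finset.sum_insert ha]
    have hu' : ∀ i ∈ s, MemLp (u i) 2 (dm η) := fun i hi => hu i (Finset.mem_insert_of_mem hi)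
    refine opr_add ((hu a (Finset.mem_insert_self a s)).const_mul (c a))
      (memLp_finsetSum s fun i hi => (hu' i hi).const_mul (c i))
      (opr_smul (c a) (h a (Finset.mem_insert_self a s)))
      (ih hu' fun i hi => h i (Finset.mem_insert_of_mem hi))

/-- the contraction property in `ℝ≥0∞` form. -/
theorem opp_contract_enn (hκ : 0 < κ) {u v : E → ℝ} {gv : E → E} (hu : MemLp u 2 (dm η))
    (h : IsRes η κ u v gv) :
    ∫⁻ x, ‖v x‖ₑ ^ 2 ∂(dm η) ≤ ∫⁻ x, ‖u x‖ₑ ^ 2 ∂(dm η) ∧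
      ∫⁻ x, ‖gv x‖ₑ ^ 2 ∂(dm η) ≤ ENNReal.ofReal (1 / (2 * κ)) * ∫⁻ x, ‖u x‖ₑ ^ 2 ∂(dm η) := by
  have h1 := opr_contract hκ hu h
  rw [opp_lint_eq hu, opp_lint_eq h.1.2.1, opp_lint_eq h.1.2.2,
    ← ENNReal.ofReal_mul (by positivity)]
  simp only [Real.norm_eq_abs, sq_abs]
  have a1 : 0 ≤ ∫ x, v x ^ 2 ∂(dm η) := integral_nonneg fun x => sq_nonneg _
  have a2 : 0 ≤ ∫ x, ‖gv x‖ ^ 2 ∂(dm η) := integral_nonneg fun x => sq_nonneg _
  constructor
  · refine ENNReal.ofReal_le_ofReal ?_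
    have := mul_nonneg (by positivity : 0 ≤ 2 * κ) a2
    linarith
  · refine ENNReal.ofReal_le_ofReal ?_
    rw [div_mul_eq_mul_div, one_mul, le_div_iff₀ (by positivity)]
    linarith

theorem opp_res_param (hη : Continuous η) (hpos : ∀ x, 0 < η x) (hκ : 0 < κ)
    {L : Type} [MeasurableSpace L] (Lam : Measure L) [IsFiniteMeasure Lam] {k : L × E → ℝ}
    (hk : Measurable k) (hk2 : Integrable (fun p => k p ^ 2) (Lam.prod (dm η))) :
    ∃ (K' : L × E → ℝ) (G' : L × E → E), Measurable K' ∧ Measurable G' ∧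
      ∀ᵐ l ∂Lam, IsRes η κ (fun y => k (l, y)) (fun y => K' (l, y)) (fun y => G' (l, y)) := by
  classical
  have : SFinite (dm η) := by unfold dm; infer_instance
  obtain ⟨ι, s, c, w, hc, hw, hw2, hkn2, hconv⟩ := opp_tensor_approx (dm η) Lam hk hk2
  have hkL2 : MemLp k 2 (Lam.prod (dm η)) :=
    (memLp_two_iff_integrable_sq hk.aestronglyMeasurable).2 hk2
  set kn : ℕ → L × E → ℝ := fun n p => ∑ i ∈ s n, c i p.1 * w i p.2 with hkn
  set Kn : ℕ → L × E → ℝ := fun n p => ∑ i ∈ s n, c i p.1 * opJ η κ (w i) p.2 with hKn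
  set Gn : ℕ → L × E → E := fun n p => ∑ i ∈ s n, c i p.1 • opJg η κ (w i) p.2 with hGn
  have mkn : ∀ n, Measurable (kn n) := fun n => Finset.measurable_sum _ fun i _ =>
    ((hc i).comp measurable_fst).mul ((hw i).comp measurable_snd)
  have mKn : ∀ n, Measurable (Kn n) := fun n => Finset.measurable_sum _ fun i _ =>
    ((hc i).comp measurable_fst).mul ((opr_J_meas η κ (w i)).measurable.comp measurable_snd)
  have mGn : ∀ n, Measurable (Gn n) := fun n => Finset.measurable_sum _ fun i _ =>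
    ((hc i).comp measurable_fst).smul ((opr_Jg_meas η κ (w i)).measurable.comp measurable_snd)
  have hres : ∀ n l, IsRes η κ (fun y => kn n (l, y)) (fun y => Kn n (l, y))
      (fun y => Gn n (l, y)) := fun n l =>
    opp_res_sum (s n) (fun i => c i l) (fun i _ => hw2 i)
      (fun i _ => opr_J_spec hη hpos hκ (hw2 i))
  have hsl : ∀ n l, MemLp (fun y => kn n (l, y)) 2 (dm η) := fun n l =>
    memLp_finsetSum (s n) fun i _ => (hw2 i).const_mul (c i l)
  have hdiff := fun n m l => opp_contract_enn hκ ((hsl n l).sub (hsl m l))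
    (opr_sub (hsl n l) (hsl m l) (hres n l) (hres m l))
  have hC : ENNReal.ofReal (1 / (2 * κ)) ≠ ⊤ := ENNReal.ofReal_ne_top
  -- membership in `L²` of the product
  have hK2 : ∀ n, MemLp (Kn n) 2 (Lam.prod (dm η)) := fun n =>
    opp_memLp_of_le (mKn n).aestronglyMeasurable (hkn2 n) (C := 1) ENNReal.one_ne_top
      (opp_prod_le Lam ((mKn n).enorm.pow_const 2) ((mkn n).enorm.pow_const 2) 1 fun l => by
        simpa using (opp_contract_enn hκ (hsl n l) (hres n l)).1)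
  have hG2 : ∀ n, MemLp (Gn n) 2 (Lam.prod (dm η)) := fun n =>
    opp_memLp_of_le (mGn n).aestronglyMeasurable (hkn2 n) hC
      (opp_prod_le Lam ((mGn n).enorm.pow_const 2) ((mkn n).enorm.pow_const 2) _ fun l =>
        (opp_contract_enn hκ (hsl n l) (hres n l)).2)
  -- limits
  obtain ⟨K', mK', hK'2, cK⟩ := opp_complete hK2 hkn2 hkL2 hconv (C := 1 + 1)
    (by simp) fun n m => opp_eLpNorm_le_of_sq
      (opp_prod_le Lam (((mKn n).sub (mKn m)).enorm.pow_const 2)
        (((mkn n).sub (mkn m)).enorm.pow_const 2) 1 fun l => by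
          simpa using (hdiff n m l).1)
  obtain ⟨G', mG', hG'2, cG⟩ := opp_complete hG2 hkn2 hkL2 hconv
    (C := ENNReal.ofReal (1 / (2 * κ)) + 1)
    (ENNReal.add_ne_top.2 ⟨hC, ENNReal.one_ne_top⟩) fun n m => opp_eLpNorm_le_of_sq
      (opp_prod_le Lam (((mGn n).sub (mGn m)).enorm.pow_const 2)
        (((mkn n).sub (mkn m)).enorm.pow_const 2) _ fun l => (hdiff n m l).2)
  refine ⟨K', G', mK'.measurable, mG'.measurable, ?_⟩
  -- the slices
  have m1 : ∀ n, Measurable fun p => ‖kn n p - k p‖ₑ ^ 2 := fun n =>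
    ((mkn n).sub hk).enorm.pow_const 2
  have m2 : ∀ n, Measurable fun p => ‖Kn n p - K' p‖ₑ ^ 2 := fun n =>
    ((mKn n).sub mK'.measurable).enorm.pow_const 2
  have m3 : ∀ n, Measurable fun p => ‖Gn n p - G' p‖ₑ ^ 2 := fun n =>
    ((mGn n).sub mG'.measurable).enorm.pow_const 2
  have q1 : Tendsto (fun n => ∫⁻ l, ∫⁻ y, ‖kn n (l, y) - k (l, y)‖ₑ ^ 2 ∂(dm η) ∂Lam) atTop
      (𝓝 0) :=
    ((opp_tendsto_iff (fun n => kn n - k)).1 hconv).congr fun n =>
      lintegral_prod _ (m1 n).aemeasurable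
  have q2 : Tendsto (fun n => ∫⁻ l, ∫⁻ y, ‖Kn n (l, y) - K' (l, y)‖ₑ ^ 2 ∂(dm η) ∂Lam) atTop
      (𝓝 0) :=
    ((opp_tendsto_iff (fun n => Kn n - K')).1 cK).congr fun n =>
      lintegral_prod _ (m2 n).aemeasurable
  have q3 : Tendsto (fun n => ∫⁻ l, ∫⁻ y, ‖Gn n (l, y) - G' (l, y)‖ₑ ^ 2 ∂(dm η) ∂Lam) atTop
      (𝓝 0) :=
    ((opp_tendsto_iff (fun n => Gn n - G')).1 cG).congr fun n =>
      lintegral_prod _ (m3 n).aemeasurable
  have hsum : Tendsto (fun n => ∫⁻ l, (∫⁻ y, ‖kn n (l, y) - k (l, y)‖ₑ ^ 2 ∂(dm η)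
      + ∫⁻ y, ‖Kn n (l, y) - K' (l, y)‖ₑ ^ 2 ∂(dm η)
      + ∫⁻ y, ‖Gn n (l, y) - G' (l, y)‖ₑ ^ 2 ∂(dm η)) ∂Lam) atTop (𝓝 0) := by
    have := (q1.add q2).add q3
    simp only [add_zero] at this
    refine this.congr fun n => ?_
    have m12 : Measurable fun l => ∫⁻ y, ‖kn n (l, y) - k (l, y)‖ₑ ^ 2 ∂(dm η)
        + ∫⁻ y, ‖Kn n (l, y) - K' (l, y)‖ₑ ^ 2 ∂(dm η) :=
      (m1 n).lintegral_prod_right'.add (m2 n).lintegral_prod_right'
    rw [lintegral_add_left m12, lintegral_add_left (m1 n).lintegral_prod_right']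
  obtain ⟨ns, -, hns⟩ := opp_subseq (fun n =>
    (((m1 n).lintegral_prod_right'.add (m2 n).lintegral_prod_right').add
      (m3 n).lintegral_prod_right').aemeasurable) hsum
  have fin : ∀ {X : Type} [NormedAddCommGroup X] {F : L × E → X},
      Measurable (fun p => ‖F p‖ₑ ^ 2) → MemLp F 2 (Lam.prod (dm η)) →
      ∀ᵐ l ∂Lam, ∫⁻ y, ‖F (l, y)‖ₑ ^ 2 ∂(dm η) < ⊤ := by
    intro X _ F mF hF
    refine ae_lt_top mF.lintegral_prod_right' ?_
    rw [← lintegral_prod _ mF.aemeasurable, ← opp_eLpNorm_sq]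
    exact (ENNReal.pow_lt_top hF.2).ne
  filter_upwards [hns, fin (hk.enorm.pow_const 2) hkL2, fin (mK'.measurable.enorm.pow_const 2) hK'2,
    fin (mG'.measurable.enorm.pow_const 2) hG'2] with l hl f1 f2 f3
  refine opp_res_closed hη hpos (fun j => hres (ns j) l) (fun j => hsl (ns j) l)
    (opp_memLp_of_lt_top (hk.comp measurable_prodMk_left).aestronglyMeasurable f1)
    (opp_memLp_of_lt_top (mK'.measurable.comp measurable_prodMk_left).aestronglyMeasurable f2)
    (opp_memLp_of_lt_top (mG'.measurable.comp measurable_prodMk_left).aestronglyMeasurable f3)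
    ?_ ?_ ?_
  · refine (opp_tendsto_iff _).2 ?_
    refine tendsto_of_tendsto_of_tendsto_of_le_of_le tendsto_const_nhds hl (fun _ => zero_le) ?_
    intro j
    exact le_self_add.trans le_self_add
  · refine (opp_tendsto_iff _).2 ?_
    refine tendsto_of_tendsto_of_tendsto_of_le_of_le tendsto_const_nhds hl (fun _ => zero_le) ?_
    intro j
    exact le_add_self.trans le_self_add
  · refine (opp_tendsto_iff _).2 ?_
    refine tendsto_of_tendsto_of_tendsto_of_le_of_le tendsto_const_nhds hl (fun _ => zero_le) ?_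
    intro j
    exact le_add_self

end Claimed.Agent.R259
end

/- ===== packed: Claimed.Agent.R259.ImmseDefs ===== -/
section
/-
Row 259, kit IMMSE (paper Lemma 2.4 = lem:gaussian-signals, by the bypass (G1) of memo 5738: no OU / heat calculus).
DEFINITIONS (no sorry).   Owner: helper147.   Prefix `imm`.

Function level.  `σ` = law of the signal `S` on `E` (finite second moment), `γ = stdGaussian E`, `Z_t = √t S + G`.
  `immK t s z`   = density of `N(√t s, Id)` with respect to `γ` at `z`;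
  `immL σ t z`   = density of `Law(Z_t)` with respect to `γ`;
  `immM σ t z`   = `E[S | Z_t = z]`;
  `immD σ t`     = `H(Law(Z_t) | γ)`;
  `immG σ t`     = `E |E[S | Z_t]|²`;
  `immPost σ t z`= `Law(S | Z_t = z)`.
MAIN THEOREM (Immse.lean): `immD σ T = (1/2) ∫_0^T immG σ v dv`, `immG σ` nondecreasing.
-/
set_option autoImplicit false

open MeasureTheory ProbabilityTheory
open scoped ENNReal

namespace Claimed.Agent.R259

variable {E : Type} [NormedAddCommGroup E] [InnerProductSpace ℝ E] [FiniteDimensional ℝ E]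
  [MeasurableSpace E] [BorelSpace E]

/-- likelihood ratio of `N(√t s, Id)` with respect to the standard Gaussian measure -/
noncomputable def immK (t : ℝ) (s z : E) : ℝ :=
  Real.exp (Real.sqrt t * inner ℝ s z - t * ‖s‖ ^ 2 / 2)

/-- density of the law of `√t S + G` with respect to the standard Gaussian measure -/
noncomputable def immL (σ : Measure E) (t : ℝ) (z : E) : ℝ := ∫ s, immK t s z ∂σ

/-- unnormalised posterior mean -/
noncomputable def immN (σ : Measure E) (t : ℝ) (z : E) : E := ∫ s, immK t s z • s ∂σ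

/-- posterior mean `E[S | √t S + G = z]` -/
noncomputable def immM (σ : Measure E) (t : ℝ) (z : E) : E := (immL σ t z)⁻¹ • immN σ t z

/-- relative entropy of the law of `√t S + G` with respect to the standard Gaussian measure -/
noncomputable def immD (σ : Measure E) (t : ℝ) : ℝ :=
  ∫ z, immL σ t z * Real.log (immL σ t z) ∂(stdGaussian E)

/-- prediction energy `E |E[S | √t S + G]|²` -/
noncomputable def immG (σ : Measure E) (t : ℝ) : ℝ :=
  ∫ z, ‖immM σ t z‖ ^ 2 * immL σ t z ∂(stdGaussian E)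

/-- posterior law of `S` given `√t S + G = z` -/
noncomputable def immPost (σ : Measure E) (t : ℝ) (z : E) : Measure E :=
  σ.withDensity fun s => ENNReal.ofReal (immK t s z / immL σ t z)

/-- sufficient statistic of two independent observations of strengths `a`, `b` -/
noncomputable def immRot (a b : ℝ) (p : E × E) : E :=
  (Real.sqrt (a + b))⁻¹ • (Real.sqrt a • p.1 + Real.sqrt b • p.2)

/-- generates the equation lemmas of the definitions above in this file (unique names) -/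
theorem immsedefs_eqns_cite : True := by
  have := @immK.eq_1
  have := @immL.eq_1
  have := @immN.eq_1
  have := @immM.eq_1
  have := @immD.eq_1
  have := @immG.eq_1
  have := @immPost.eq_1
  have := @immRot.eq_1
  trivial

end Claimed.Agent.R259
end

/- ===== packed: Claimed.Agent.R259.GamStd ===== -/
section
/-
Row 259 (S0499): the two names of the standard Gaussian measure on `EE n` agree.  Owner: helper88.
-/
set_option autoImplicit false

open MeasureTheory ProbabilityTheory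

namespace Claimed.Agent.R259

theorem gam_eq_std (n : ℕ) : gam n = stdGaussian (EE n) := by
  unfold gam
  rw [gc_dm_gk one_pos]
  simp

end Claimed.Agent.R259
end

/- ===== packed: Claimed.Agent.R259.S7Gam ===== -/
section
/-
Row 259 (S0499), section 7: the Gaussian law `gam n` is Mathlib's `stdGaussian` (light import).
Owner: helper79.  No sorry of its own (cites `gc_dm_gk`).
-/
set_option autoImplicit false

open MeasureTheory ProbabilityTheory

namespace Claimed.Agent.R259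

theorem s7_gam_eq (n : ℕ) : gam n = stdGaussian (EE n) := by
  unfold gam
  rw [gc_dm_gk one_pos]
  simp

instance s7_gam_prob (n : ℕ) : IsProbabilityMeasure (gam n) := by
  rw [s7_gam_eq]
  infer_instance

end Claimed.Agent.R259
end

/- ===== packed: Claimed.Agent.R259.MkCorr ===== -/
section
/-
Row 259 (S0499), matrix kit for section 6, part 3b: the correlation inequality behind Lemma 6.2.
Architect: helper57.  Prefix `mk`.  PURE LINEAR ALGEBRA.
-/
set_option autoImplicit false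

open MeasureTheory
open scoped BigOperators Matrix
open Claimed.Agent.R260 (Mx mxFun mxSchur mxSq mxIP mxEig mxU mxRot mxDK MxBd MxL2)

namespace Claimed.Agent.R259

noncomputable section

variable {n : ℕ}

/-! ### Package L-Mk-Corr: the correlation inequality (core of Lemma 6.2, WITHOUT three lines)

`∑_α tr(A_α H A_α H) ≤ tr(R H R H)`, `R = (∑ A_α²)^{1/2}`, all matrices symmetric.

PROOF (replaces the interpolation argument of the paper).
(0) Adding the matrix `√ε • 1` to the family reduces to `ρ = ∑ A_α² ≥ ε > 0`; let `ε → 0` at the end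
    (`R260.mxFun_continuous` for `√`, or `hs2_mxFun_sub_le_on`-type estimates: `√(x+ε) - √x ≤ √ε`).
(1) For `ρ > 0` put `B_α = ρ^{-1/4} A_α ρ^{-1/4}` (symmetric), `𝒯 Y = ∑ B_α Y B_α`.  `𝒯` is symmetric for `hsI`.
    With `Y = ρ^{1/4} H ρ^{1/4}`: `hsI Y (𝒯 Y) = ∑ tr(A_α H A_α H)`, `hs2 Y = tr(R H R H)`.  So the claim is `𝒯 ≤ 1`.
(2) The largest eigenvalue `μ` of the symmetric map `𝒯` (e.g. of the symmetric matrix `∑ B_α ⊗ₖ B_α` on `Fin n × Fin n`)
    has an eigenvector `Y ≠ 0`.  Then `Z = ρ^{-1/4} Y ρ^{-1/4} ≠ 0` satisfies `∑ G_α Z G_αᵀ = μ Z`, `G_α = ρ^{-1/2} A_α`,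
    `∑ G_α G_αᵀ = 1`.
(3) `mk_unital_contr`: `Z ↦ ∑ G_α Z G_αᵀ` does not increase `sup |u ⬝ Z v| / (|u| |v|)` (Cauchy-Schwarz).  So `μ ≤ 1`. -/

section corr

variable {ι : Type} [Fintype ι]

/-- operator norm bound, as a bilinear estimate -/
def OpLe (Z : Mx n) (c : ℝ) : Prop :=
  ∀ u v : Fin n → ℝ, |u ⬝ᵥ (Z *ᵥ v)| ≤ c * (Real.sqrt (u ⬝ᵥ u) * Real.sqrt (v ⬝ᵥ v))

theorem mk_opLe_eqns_cite : True := by
  have := @OpLe.eq_1
  trivial

theorem mkc_dot_conj (G Z : Mx n) (u v : Fin n → ℝ) :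
    u ⬝ᵥ ((G * Z * Gᵀ) *ᵥ v) = (Gᵀ *ᵥ u) ⬝ᵥ (Z *ᵥ (Gᵀ *ᵥ v)) := by
  rw [← Matrix.mulVec_mulVec, ← Matrix.mulVec_mulVec, Matrix.dotProduct_mulVec,
    Matrix.mulVec_transpose G u]

theorem mkc_dot_self_nonneg (u : Fin n → ℝ) : 0 ≤ u ⬝ᵥ u :=
  Finset.sum_nonneg fun i _ => mul_self_nonneg (u i)

theorem mkc_sum_sq (G : ι → Mx n) (hG : ∑ α, G α * (G α)ᵀ = 1) (u : Fin n → ℝ) :
    ∑ α, Real.sqrt (((G α)ᵀ *ᵥ u) ⬝ᵥ ((G α)ᵀ *ᵥ u)) ^ 2 = u ⬝ᵥ u := by
  have h1 : ∀ α, Real.sqrt (((G α)ᵀ *ᵥ u) ⬝ᵥ ((G α)ᵀ *ᵥ u)) ^ 2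
      = u ⬝ᵥ ((G α * (G α)ᵀ) *ᵥ u) := by
    intro α
    rw [Real.sq_sqrt (mkc_dot_self_nonneg _), ← Matrix.mulVec_mulVec,
      Matrix.dotProduct_mulVec u (G α), Matrix.mulVec_transpose (G α) u]
  simp only [h1]
  rw [← dotProduct_sum, ← Matrix.sum_mulVec, hG, Matrix.one_mulVec]

/-- a unital map `Z ↦ ∑ G_α Z G_αᵀ` is an operator norm contraction -/
theorem mk_unital_contr (G : ι → Mx n) (hG : ∑ α, G α * (G α)ᵀ = 1) {Z : Mx n} {c : ℝ}
    (hZ : OpLe Z c) : OpLe (∑ α, G α * Z * (G α)ᵀ) c := by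
  intro u v
  have hs : 0 ≤ Real.sqrt (u ⬝ᵥ u) * Real.sqrt (v ⬝ᵥ v) :=
    mul_nonneg (Real.sqrt_nonneg _) (Real.sqrt_nonneg _)
  by_cases hc : 0 ≤ c
  · have e : u ⬝ᵥ ((∑ α, G α * Z * (G α)ᵀ) *ᵥ v)
        = ∑ α, ((G α)ᵀ *ᵥ u) ⬝ᵥ (Z *ᵥ ((G α)ᵀ *ᵥ v)) := by
      rw [Matrix.sum_mulVec, dotProduct_sum]
      exact Finset.sum_congr rfl fun α _ => mkc_dot_conj _ _ _ _
    rw [e]
    calc |∑ α, ((G α)ᵀ *ᵥ u) ⬝ᵥ (Z *ᵥ ((G α)ᵀ *ᵥ v))|
        ≤ ∑ α, |((G α)ᵀ *ᵥ u) ⬝ᵥ (Z *ᵥ ((G α)ᵀ *ᵥ v))| := Finset.abs_sum_le_sum_abs _ _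
      _ ≤ ∑ α, c * (Real.sqrt (((G α)ᵀ *ᵥ u) ⬝ᵥ ((G α)ᵀ *ᵥ u))
            * Real.sqrt (((G α)ᵀ *ᵥ v) ⬝ᵥ ((G α)ᵀ *ᵥ v))) :=
          Finset.sum_le_sum fun α _ => hZ _ _
      _ = c * ∑ α, (Real.sqrt (((G α)ᵀ *ᵥ u) ⬝ᵥ ((G α)ᵀ *ᵥ u))
            * Real.sqrt (((G α)ᵀ *ᵥ v) ⬝ᵥ ((G α)ᵀ *ᵥ v))) := by rw [Finset.mul_sum]
      _ ≤ c * (Real.sqrt (u ⬝ᵥ u) * Real.sqrt (v ⬝ᵥ v)) := by
          refine mul_le_mul_of_nonneg_left ?_ hc
          have := Real.sum_mul_le_sqrt_mul_sqrt Finset.univ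
            (fun α => Real.sqrt (((G α)ᵀ *ᵥ u) ⬝ᵥ ((G α)ᵀ *ᵥ u)))
            (fun α => Real.sqrt (((G α)ᵀ *ᵥ v) ⬝ᵥ ((G α)ᵀ *ᵥ v)))
          rwa [mkc_sum_sq G hG u, mkc_sum_sq G hG v] at this
  · -- `c < 0` forces `u = 0` or `v = 0`
    have h1 := (abs_nonneg _).trans (hZ u v)
    have h2 : Real.sqrt (u ⬝ᵥ u) * Real.sqrt (v ⬝ᵥ v) = 0 := by
      by_contra hne
      have hpos : 0 < Real.sqrt (u ⬝ᵥ u) * Real.sqrt (v ⬝ᵥ v) := lt_of_le_of_ne hs (Ne.symm hne)
      have := mul_neg_of_neg_of_pos (not_le.1 hc) hpos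
      linarith
    rw [h2, mul_zero]
    rcases mul_eq_zero.1 h2 with h3 | h3
    · have hu : u = 0 := by
        rw [Real.sqrt_eq_zero (mkc_dot_self_nonneg _)] at h3
        exact dotProduct_self_eq_zero.1 h3
      rw [hu, zero_dotProduct, abs_zero]
    · have hv : v = 0 := by
        rw [Real.sqrt_eq_zero (mkc_dot_self_nonneg _)] at h3
        exact dotProduct_self_eq_zero.1 h3
      rw [hv, Matrix.mulVec_zero, dotProduct_zero, abs_zero]

theorem mkc_abs_le_sqrt (u : Fin n → ℝ) (i : Fin n) : |u i| ≤ Real.sqrt (u ⬝ᵥ u) := by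
  apply Real.abs_le_sqrt
  have : u i * u i ≤ ∑ j, u j * u j :=
    Finset.single_le_sum (f := fun j => u j * u j) (fun j _ => mul_self_nonneg (u j))
      (Finset.mem_univ i)
  rw [sq]
  exact this

/-- a crude operator bound -/
theorem mkc_opLe_exists (Z : Mx n) : OpLe Z (∑ i, ∑ j, |Z i j|) := by
  intro u v
  have e : u ⬝ᵥ (Z *ᵥ v) = ∑ i, ∑ j, u i * (Z i j * v j) := by
    simp only [dotProduct, Matrix.mulVec, Finset.mul_sum]
  rw [e, Finset.sum_mul]
  refine (Finset.abs_sum_le_sum_abs _ _).trans (Finset.sum_le_sum fun i _ => ?_)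
  rw [Finset.sum_mul]
  refine (Finset.abs_sum_le_sum_abs _ _).trans (Finset.sum_le_sum fun j _ => ?_)
  rw [abs_mul, abs_mul]
  have h1 := mkc_abs_le_sqrt u i
  have h2 := mkc_abs_le_sqrt v j
  calc |u i| * (|Z i j| * |v j|) = |Z i j| * (|u i| * |v j|) := by ring
    _ ≤ |Z i j| * (Real.sqrt (u ⬝ᵥ u) * Real.sqrt (v ⬝ᵥ v)) :=
        mul_le_mul_of_nonneg_left (mul_le_mul h1 h2 (abs_nonneg _) (Real.sqrt_nonneg _))
          (abs_nonneg _)

/-- every matrix has a smallest operator bound, attained up to nothing: if `Z ≠ 0` and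
`OpLe Z c → OpLe (μ • Z) c` for all `c`, then `|μ| ≤ 1` -/
theorem mk_abs_le_one_of_opLe {Z : Mx n} (hZ : Z ≠ 0) {m : ℝ}
    (h : ∀ c, OpLe Z c → OpLe (m • Z) c) : |m| ≤ 1 := by
  by_contra hm
  have hm1 : 1 < |m| := not_le.1 hm
  have hm0 : 0 < |m| := lt_trans one_pos hm1
  apply hZ
  set c0 : ℝ := ∑ i, ∑ j, |Z i j| with hc0
  have step : ∀ k : ℕ, OpLe Z (c0 / |m| ^ k) := by
    intro k
    induction k with
    | zero => simpa using mkc_opLe_exists Z
    | succ k ih =>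
      intro u v
      have := h _ ih u v
      rw [Matrix.smul_mulVec, dotProduct_smul, smul_eq_mul, abs_mul] at this
      rw [pow_succ, ← div_div, div_mul_eq_mul_div, le_div_iff₀ hm0, mul_comm]
      exact this
  have hzero : ∀ u v : Fin n → ℝ, u ⬝ᵥ (Z *ᵥ v) = 0 := by
    intro u v
    have hlim : Filter.Tendsto (fun k : ℕ => c0 / |m| ^ k
        * (Real.sqrt (u ⬝ᵥ u) * Real.sqrt (v ⬝ᵥ v))) Filter.atTop (nhds (0 * _)) :=
      (tendsto_const_nhds.div_atTop (tendsto_pow_atTop_atTop_of_one_lt hm1)).mul_const _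
    rw [zero_mul] at hlim
    have := ge_of_tendsto' hlim fun k => step k u v
    exact abs_eq_zero.1 (le_antisymm this (abs_nonneg _))
  ext i j
  have := hzero (Pi.single i 1) (Pi.single j 1)
  simpa using this
theorem mkc_symm_le {E : Type*} [NormedAddCommGroup E] [InnerProductSpace ℝ E]
    [FiniteDimensional ℝ E] (T : E →ₗ[ℝ] E) (hT : T.IsSymmetric)
    (h : ∀ (m : ℝ) (x : E), x ≠ 0 → T x = m • x → m ≤ 1) (x : E) :
    inner ℝ x (T x) ≤ inner ℝ x x := by
  set b := hT.eigenvectorBasis rfl with hb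
  have h1 : ∀ i, hT.eigenvalues rfl i ≤ 1 := fun i =>
    h _ (b i) (b.orthonormal.ne_zero i) (hT.apply_eigenvectorBasis rfl i)
  rw [← b.sum_inner_mul_inner x (T x), ← b.sum_inner_mul_inner x x]
  refine Finset.sum_le_sum fun i _ => ?_
  have h2 : inner ℝ (b i) (T x) = hT.eigenvalues rfl i * inner ℝ (b i) x := by
    rw [← hT (b i) x, hb, hT.apply_eigenvectorBasis, inner_smul_left]
    simp
  rw [h2, real_inner_comm (b i) x]
  nlinarith [mul_self_nonneg (inner ℝ (b i) x), h1 i]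

/-- matrices as a Euclidean space -/
def mkcToE (Y : Mx n) : EuclideanSpace ℝ (Fin n × Fin n) := WithLp.toLp 2 fun p => Y p.1 p.2

def mkcOfE (x : EuclideanSpace ℝ (Fin n × Fin n)) : Mx n := Matrix.of fun i j => x (i, j)

theorem mkc_eqns_cite : True := by
  have := @mkcToE.eq_1
  have := @mkcOfE.eq_1
  trivial

theorem mkc_ofE_toE (Y : Mx n) : mkcOfE (mkcToE Y) = Y := rfl

theorem mkc_toE_ofE (x : EuclideanSpace ℝ (Fin n × Fin n)) : mkcToE (mkcOfE x) = x := rfl

theorem mkc_inner_toE (Y Y' : Mx n) : inner ℝ (mkcToE Y) (mkcToE Y') = hsI Y Y' := by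
  rw [PiLp.inner_apply, Fintype.sum_prod_type]
  unfold hsI
  refine Finset.sum_congr rfl fun i _ => Finset.sum_congr rfl fun j _ => ?_
  show inner ℝ (Y i j) (Y' i j) = _
  simp [mul_comm]

/-- a symmetric (for `hsI`) linear map on matrices all of whose eigenvalues are `≤ 1` is `≤ 1` -/
theorem mk_symm_map_le (T : Mx n →ₗ[ℝ] Mx n) (hT : ∀ Y Y', hsI (T Y) Y' = hsI Y (T Y'))
    (h : ∀ (m : ℝ) (Y : Mx n), Y ≠ 0 → T Y = m • Y → m ≤ 1) (Y : Mx n) :
    hsI Y (T Y) ≤ hs2 Y := by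
  let T' : EuclideanSpace ℝ (Fin n × Fin n) →ₗ[ℝ] EuclideanSpace ℝ (Fin n × Fin n) :=
    { toFun := fun x => mkcToE (T (mkcOfE x))
      map_add' := fun x y => by
        have : mkcOfE (x + y) = mkcOfE x + mkcOfE y := rfl
        rw [this, map_add]
        rfl
      map_smul' := fun c x => by
        have : mkcOfE (c • x) = c • mkcOfE x := rfl
        rw [this, map_smul]
        rfl }
  have hT' : T'.IsSymmetric := by
    intro x y
    show inner ℝ (mkcToE (T (mkcOfE x))) y = inner ℝ x (mkcToE (T (mkcOfE y)))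
    rw [← mkc_toE_ofE y, ← mkc_toE_ofE x, mkc_inner_toE, mkc_inner_toE]
    exact hT _ _
  have key := mkc_symm_le T' hT' (fun m x hx hxm => by
    refine h m (mkcOfE x) (fun h0 => hx ?_) ?_
    · rw [← mkc_toE_ofE x, h0]
      rfl
    · have : mkcOfE (T' x) = mkcOfE (m • x) := by rw [hxm]
      exact this) (mkcToE Y)
  have e : T' (mkcToE Y) = mkcToE (T Y) := rfl
  rw [e, mkc_inner_toE, mkc_inner_toE, hsI_self] at key
  exact key

/-- the abstract core: `P = ρ^{1/4}`, `Q = ρ^{-1/4}` -/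
theorem mkc_core (A : ι → Mx n) (hA : ∀ α, (A α).IsSymm) {H P Q : Mx n} (hH : H.IsSymm)
    (hP : P.IsSymm) (hQ : Q.IsSymm) (hPQ : P * Q = 1) (hQP : Q * P = 1)
    (hρ : Q * Q * (∑ α, A α * A α) * (Q * Q) = 1) :
    ∑ α, Matrix.trace (A α * H * A α * H) ≤ Matrix.trace (P * P * H * (P * P) * H) := by
  have hPQ' : ∀ X : Mx n, P * (Q * X) = X := fun X => by rw [← Matrix.mul_assoc, hPQ, Matrix.one_mul]
  have hQP' : ∀ X : Mx n, Q * (P * X) = X := fun X => by rw [← Matrix.mul_assoc, hQP, Matrix.one_mul]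
  have hAt : ∀ α, (A α)ᵀ = A α := hA
  have hHt : Hᵀ = H := hH
  have hPt : Pᵀ = P := hP
  have hQt : Qᵀ = Q := hQ
  let T : Mx n →ₗ[ℝ] Mx n :=
    { toFun := fun Y => ∑ α, Q * A α * Q * Y * (Q * A α * Q)
      map_add' := fun Y Y' => by
        rw [← Finset.sum_add_distrib]
        exact Finset.sum_congr rfl fun α _ => by rw [Matrix.mul_add, Matrix.add_mul]
      map_smul' := fun c Y => by
        rw [RingHom.id_apply, Finset.smul_sum]
        exact Finset.sum_congr rfl fun α _ => by rw [Matrix.mul_smul, Matrix.smul_mul] }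
  have hTdef : ∀ Y, T Y = ∑ α, Q * A α * Q * Y * (Q * A α * Q) := fun _ => rfl
  have hB : ∀ α, (Q * A α * Q)ᵀ = Q * A α * Q := fun α => by
    rw [Matrix.transpose_mul, Matrix.transpose_mul, hAt, hQt, Matrix.mul_assoc]
  have hsymm : ∀ Y Y', hsI (T Y) Y' = hsI Y (T Y') := by
    intro Y Y'
    rw [hsI_eq_trace', hsI_eq_trace', hTdef, hTdef, Matrix.transpose_sum, Finset.sum_mul,
      Finset.mul_sum, Matrix.trace_sum, Matrix.trace_sum]
    refine Finset.sum_congr rfl fun α _ => ?_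
    generalize hBd : Q * A α * Q = B
    have hBt : Bᵀ = B := by rw [← hBd]; exact hB α
    rw [Matrix.transpose_mul, Matrix.transpose_mul, hBt, Matrix.mul_assoc B,
      Matrix.trace_mul_comm B]
    simp only [Matrix.mul_assoc]
  have heig : ∀ (m : ℝ) (Y : Mx n), Y ≠ 0 → T Y = m • Y → m ≤ 1 := by
    intro m Y hY hm
    have hZ : Q * Y * Q ≠ 0 := by
      intro h0
      apply hY
      have : P * (Q * Y * Q) * P = Y := by
        simp only [Matrix.mul_assoc, hPQ', hQP, Matrix.mul_one]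
      rw [← this, h0, Matrix.mul_zero, Matrix.zero_mul]
    have hG : ∑ α, (Q * Q * A α) * (Q * Q * A α)ᵀ = 1 := by
      rw [← hρ, Finset.mul_sum, Finset.sum_mul]
      refine Finset.sum_congr rfl fun α _ => ?_
      simp only [Matrix.transpose_mul, hAt, hQt, Matrix.mul_assoc]
    have hGZ : ∑ α, (Q * Q * A α) * (Q * Y * Q) * (Q * Q * A α)ᵀ = m • (Q * Y * Q) := by
      have : m • (Q * Y * Q) = Q * (T Y) * Q := by
        rw [hm, Matrix.mul_smul, Matrix.smul_mul]
      rw [this, hTdef, Finset.mul_sum, Finset.sum_mul]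
      refine Finset.sum_congr rfl fun α _ => ?_
      simp only [Matrix.transpose_mul, hAt, hQt, Matrix.mul_assoc]
    have := mk_abs_le_one_of_opLe hZ (m := m) fun c hc => by
      rw [← hGZ]
      exact mk_unital_contr _ hG hc
    exact (le_abs_self m).trans this
  have key := mk_symm_map_le T hsymm heig (P * H * P)
  have e1 : hsI (P * H * P) (T (P * H * P)) = ∑ α, Matrix.trace (A α * H * A α * H) := by
    rw [hsI_eq_trace', hTdef, Finset.mul_sum, Matrix.trace_sum]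
    refine Finset.sum_congr rfl fun α _ => ?_
    have : (P * H * P)ᵀ * (Q * A α * Q * (P * H * P) * (Q * A α * Q))
        = P * (H * A α * H * A α * Q) := by
      simp only [Matrix.transpose_mul, hHt, hPt, Matrix.mul_assoc, hPQ', hQP']
    rw [this, Matrix.trace_mul_comm]
    have : H * A α * H * A α * Q * P = H * (A α * H * A α) := by
      simp only [Matrix.mul_assoc, hQP, Matrix.mul_one]
    rw [this, Matrix.trace_mul_comm]
  have e2 : hs2 (P * H * P) = Matrix.trace (P * P * H * (P * P) * H) := by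
    rw [hs2_eq_trace']
    have : (P * H * P)ᵀ * (P * H * P) = P * H * P * P * H * P := by
      simp only [Matrix.transpose_mul, hHt, hPt, Matrix.mul_assoc]
    rw [this, Matrix.trace_mul_comm]
    simp only [Matrix.mul_assoc]
  rw [e1, e2] at key
  exact key
theorem mkc_isSymm_of_posDef {ρ : Mx n} (h : ρ.PosDef) : ρ.IsSymm := by
  have := h.isHermitian
  unfold Matrix.IsHermitian at this
  rwa [Matrix.conjTranspose_eq_transpose_of_trivial] at this

theorem mkc_eig_pos {ρ : Mx n} (h : ρ.PosDef) (i : Fin n) : 0 < mxEig ρ i := by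
  unfold Claimed.Agent.R260.mxEig
  rw [dif_pos (mkc_isSymm_of_posDef h)]
  exact h.eigenvalues_pos i

/-- the positive definite case -/
theorem mk_corr_le_of_posDef (A : ι → Mx n) (hA : ∀ α, (A α).IsSymm)
    (hpos : (∑ α, A α * A α).PosDef) {H : Mx n} (hH : H.IsSymm) :
    ∑ α, Matrix.trace (A α * H * A α * H)
      ≤ Matrix.trace (mxFun Real.sqrt (∑ α, A α * A α) * H *
          mxFun Real.sqrt (∑ α, A α * A α) * H) := by
  set ρ : Mx n := ∑ α, A α * A α with hρ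
  have hsym : ρ.IsSymm := mkc_isSymm_of_posDef hpos
  have hev := mkc_eig_pos hpos
  set f : ℝ → ℝ := fun x => Real.sqrt (Real.sqrt x) with hf
  have hf0 : ∀ i, f (mxEig ρ i) ≠ 0 := fun i =>
    (Real.sqrt_pos.2 (Real.sqrt_pos.2 (hev i))).ne'
  have hPQ : mxFun f ρ * mxFun (fun a => (f a)⁻¹) ρ = 1 := Claimed.Agent.R260.mxFun_mul_inv hf0
  have hQP : mxFun (fun a => (f a)⁻¹) ρ * mxFun f ρ = 1 := by
    rw [Claimed.Agent.R260.mxFun_commute]
    exact hPQ
  have hPP : mxFun f ρ * mxFun f ρ = mxFun Real.sqrt ρ := by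
    rw [← Claimed.Agent.R260.mxFun_mul]
    exact Claimed.Agent.R260.mxFun_congr fun i => Real.mul_self_sqrt (Real.sqrt_nonneg _)
  have hone : mxFun (fun a => (f a)⁻¹) ρ * mxFun (fun a => (f a)⁻¹) ρ * ρ
      * (mxFun (fun a => (f a)⁻¹) ρ * mxFun (fun a => (f a)⁻¹) ρ) = 1 := by
    calc mxFun (fun a => (f a)⁻¹) ρ * mxFun (fun a => (f a)⁻¹) ρ * ρ
          * (mxFun (fun a => (f a)⁻¹) ρ * mxFun (fun a => (f a)⁻¹) ρ)
        = mxFun (fun a => (f a)⁻¹) ρ * mxFun (fun a => (f a)⁻¹) ρ * mxFun (fun a => a) ρ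
          * (mxFun (fun a => (f a)⁻¹) ρ * mxFun (fun a => (f a)⁻¹) ρ) := by
          rw [Claimed.Agent.R260.mxFun_id hsym]
      _ = mxFun (fun a => (f a)⁻¹ * (f a)⁻¹ * a * ((f a)⁻¹ * (f a)⁻¹)) ρ := by
          simp only [Claimed.Agent.R260.mxFun_mul]
      _ = mxFun (fun _ => 1) ρ := by
          refine Claimed.Agent.R260.mxFun_congr fun i => ?_
          have h1 : f (mxEig ρ i) * f (mxEig ρ i) = Real.sqrt (mxEig ρ i) :=
            Real.mul_self_sqrt (Real.sqrt_nonneg _)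
          have h2 : Real.sqrt (mxEig ρ i) * Real.sqrt (mxEig ρ i) = mxEig ρ i :=
            Real.mul_self_sqrt (hev i).le
          have h3 : mxEig ρ i = f (mxEig ρ i) * f (mxEig ρ i) * (f (mxEig ρ i) * f (mxEig ρ i)) := by
            rw [h1, h2]
          have h4 := hf0 i
          show (f (mxEig ρ i))⁻¹ * (f (mxEig ρ i))⁻¹ * mxEig ρ i
            * ((f (mxEig ρ i))⁻¹ * (f (mxEig ρ i))⁻¹) = 1
          generalize f (mxEig ρ i) = s at h3 h4
          rw [h3]
          field_simp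
      _ = 1 := by rw [Claimed.Agent.R260.mxFun_const, one_smul]
  have := mkc_core A hA hH (Claimed.Agent.R260.mxFun_isSymm f ρ)
    (Claimed.Agent.R260.mxFun_isSymm _ ρ) hPQ hQP hone
  rw [hPP] at this
  exact this
theorem mkc_sqrt_shift {ρ : Mx n} (hsym : ρ.IsSymm) (ε : ℝ) :
    mxFun Real.sqrt (ε • (1 : Mx n) + ρ) = mxFun (fun x => Real.sqrt (ε + x)) ρ := by
  have : ε • (1 : Mx n) + ρ = mxFun (fun x => ε + x) ρ := by
    rw [Claimed.Agent.R260.mxFun_add, Claimed.Agent.R260.mxFun_const,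
      Claimed.Agent.R260.mxFun_id hsym]
  rw [this, Claimed.Agent.R260.mxFun_comp]

theorem mkc_cont_shift (ρ : Mx n) :
    Continuous fun ε : ℝ => mxFun (fun x => Real.sqrt (ε + x)) ρ := by
  unfold Claimed.Agent.R260.mxFun
  refine (continuous_const.matrix_mul (Continuous.matrix_diagonal ?_)).matrix_mul continuous_const
  exact continuous_pi fun i => Real.continuous_sqrt.comp (continuous_id.add continuous_const)

/-- **the correlation inequality** -/
theorem mk_corr_le (A : ι → Mx n) (hA : ∀ α, (A α).IsSymm) {H : Mx n} (hH : H.IsSymm) :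
    ∑ α, Matrix.trace (A α * H * A α * H)
      ≤ Matrix.trace (mxFun Real.sqrt (∑ α, A α * A α) * H *
          mxFun Real.sqrt (∑ α, A α * A α) * H) := by
  set ρ : Mx n := ∑ α, A α * A α with hρ
  have hpsd : ρ.PosSemidef := Matrix.posSemidef_sum _ fun α _ => mk_psd_sq (hA α)
  have hsym : ρ.IsSymm := mk_isSymm_of_psd hpsd
  -- the perturbed inequality
  have hε : ∀ ε : ℝ, 0 < ε → ∑ α, Matrix.trace (A α * H * A α * H)
      ≤ Matrix.trace (mxFun (fun x => Real.sqrt (ε + x)) ρ * H *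
          mxFun (fun x => Real.sqrt (ε + x)) ρ * H) := by
    intro ε hε
    let A' : Option ι → Mx n := fun o => o.elim (Real.sqrt ε • (1 : Mx n)) A
    have hA' : ∀ o, (A' o).IsSymm := by
      intro o
      cases o with
      | none =>
        show (Real.sqrt ε • (1 : Mx n))ᵀ = Real.sqrt ε • (1 : Mx n)
        rw [Matrix.transpose_smul, Matrix.transpose_one]
      | some α => exact hA α
    have hsum : ∑ o, A' o * A' o = ε • (1 : Mx n) + ρ := by
      rw [Fintype.sum_option]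
      show Real.sqrt ε • (1 : Mx n) * (Real.sqrt ε • (1 : Mx n)) + ∑ α, A α * A α = _
      rw [Matrix.smul_mul, Matrix.mul_smul, Matrix.one_mul, smul_smul, Real.mul_self_sqrt hε.le]
    have hpd : (∑ o, A' o * A' o).PosDef := by
      rw [hsum]
      exact (Matrix.PosDef.one.smul hε).add_posSemidef hpsd
    have key := mk_corr_le_of_posDef A' hA' hpd hH
    rw [hsum, mkc_sqrt_shift hsym, Fintype.sum_option] at key
    have h0 : 0 ≤ Matrix.trace (A' none * H * A' none * H) := by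
      show 0 ≤ Matrix.trace (Real.sqrt ε • (1 : Mx n) * H * (Real.sqrt ε • (1 : Mx n)) * H)
      rw [Matrix.smul_mul, Matrix.one_mul, Matrix.mul_smul, Matrix.mul_one, smul_smul,
        Real.mul_self_sqrt hε.le, Matrix.smul_mul, Matrix.trace_smul, smul_eq_mul]
      exact mul_nonneg hε.le (mk_trace_nonneg (mk_psd_sq hH))
    have h1 : ∑ α, Matrix.trace (A' (some α) * H * A' (some α) * H)
        = ∑ α, Matrix.trace (A α * H * A α * H) := rfl
    linarith
  -- let `ε → 0`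
  have hcont : Continuous fun ε : ℝ => Matrix.trace (mxFun (fun x => Real.sqrt (ε + x)) ρ * H *
      mxFun (fun x => Real.sqrt (ε + x)) ρ * H) := by
    have h1 := mkc_cont_shift ρ
    exact Continuous.matrix_trace
      (((h1.matrix_mul continuous_const).matrix_mul h1).matrix_mul continuous_const)
  have hlim := (hcont.tendsto 0).mono_left (nhdsWithin_le_nhds (s := Set.Ioi (0 : ℝ)))
  have h0 : (fun x : ℝ => Real.sqrt (0 + x)) = Real.sqrt := by
    funext x
    rw [zero_add]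
  simp only [h0] at hlim
  exact ge_of_tendsto hlim (Filter.eventually_of_mem self_mem_nhdsWithin fun ε hε' => hε ε hε')

end corr

end

end Claimed.Agent.R259
end

/- ===== packed: Claimed.Agent.R259.S6Slots ===== -/
section
/-
Row 259 (S0499), section 6: Lemma 6.2 (averaging over symmetric tensor slots) and the four moves of Lemma 6.5, pointwise.
Architect: helper57.  Prefix `s6t`.  PURE FINITE-DIMENSIONAL ALGEBRA on top of `S6Ten.lean` and `MkCorr.lean`.
-/
set_option autoImplicit false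

open MeasureTheory
open scoped BigOperators Matrix
open Claimed.Agent.R260 (Mx mxFun mxSchur mxSq mxIP mxEig mxU mxRot mxDK MxBd MxL2)

namespace Claimed.Agent.R259

noncomputable section

variable {n d : ℕ}

/-! ### Package L-S6-Slots: Lemma 6.2 (averaging over symmetric slots) and the four moves of Lemma 6.5 -/

section lemma62

theorem s6ts_sum_cons (F : Idx n (d + 1) → ℝ) :
    ∑ β, F β = ∑ b, ∑ γ : Idx n d, F (Fin.cons b γ) := by
  rw [← (Fin.consEquiv fun _ : Fin (d + 1) => Fin n).sum_comp, Fintype.sum_prod_type]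
  rfl

theorem s6ts_swap01 {l : ℕ} {t : TT n (l + 2)} (ht : TSym t) (a b : Fin n) (γ : Idx n l) :
    t (Fin.cons b (Fin.cons a γ)) = t (Fin.cons a (Fin.cons b γ)) := by
  have e : (Fin.cons a (Fin.cons b γ) : Idx n (l + 2)) ∘ Equiv.swap 0 1
      = Fin.cons b (Fin.cons a γ) := by
    funext i
    refine Fin.cases ?_ (fun i => ?_) i
    · simp
    · refine Fin.cases ?_ (fun i => ?_) i
      · simp
      · have h1 : (Fin.succ (Fin.succ i) : Fin (l + 2)) ≠ 0 := Fin.succ_ne_zero _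
        have h2 : (Fin.succ (Fin.succ i) : Fin (l + 2)) ≠ 1 := by
          intro h
          have := congrArg Fin.val h
          simp at this
        simp [Function.comp, Equiv.swap_apply_of_ne_of_ne h1 h2]
  rw [← ht (Equiv.swap 0 1) (Fin.cons a (Fin.cons b γ)), e]

theorem s6ts_trace_mul (X Y : Mx n) : Matrix.trace (X * Y) = ∑ a, ∑ b, X a b * Y b a := by
  simp only [Matrix.trace, Matrix.diag_apply, Matrix.mul_apply]

/-- two slots of a symmetric tensor: a finite family of symmetric matrices `A_γ = t(·,·,γ)` -/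
theorem s6t_corr_family {l : ℕ} (t : TT n (l + 1)) (ht : TSym t) {r r' : Fin (l + 1)}
    (hr : r ≠ r') :
    ∃ (ι : Type) (_ : Fintype ι) (A : ι → Mx n), (∀ γ, (A γ).IsSymm) ∧
      red t = ∑ γ, A γ * A γ ∧
      ∀ M M' : Mx n, inner ℝ (slot r M t) (slot r' M' t)
        = ∑ γ, Matrix.trace (M * A γ * M' * A γ) := by
  obtain ⟨l', rfl⟩ : ∃ l', l = l' + 1 := by
    rcases Nat.eq_zero_or_pos l with rfl | h
    · exact absurd (Fin.ext (by have := r.2; have := r'.2; omega)) hr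
    · exact ⟨l - 1, by omega⟩
  set A : Idx n l' → Mx n := fun γ => Matrix.of fun a b => t (Fin.cons a (Fin.cons b γ)) with hAdef
  have hA : ∀ (γ : Idx n l') (a b : Fin n), A γ a b = t (Fin.cons a (Fin.cons b γ)) :=
    fun _ _ _ => rfl
  have hAs : ∀ (γ : Idx n l') (a b : Fin n), A γ a b = A γ b a := fun γ a b => by
    rw [hA, hA]
    exact s6ts_swap01 ht b a γ
  refine ⟨Idx n l', inferInstance, A, fun γ => ?_, ?_, fun M M' => ?_⟩
  · ext a b
    rw [Matrix.transpose_apply]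
    exact hAs γ b a
  · ext a a'
    rw [Matrix.sum_apply]
    simp only [Matrix.mul_apply]
    unfold red flat
    rw [Matrix.mul_apply, s6ts_sum_cons, Finset.sum_comm]
    refine Finset.sum_congr rfl fun γ _ => Finset.sum_congr rfl fun b _ => ?_
    rw [Matrix.transpose_apply, Matrix.of_apply, Matrix.of_apply, hAs γ b a', hA, hA]
  · have h01 : (0 : Fin (l' + 1 + 1)) ≠ 1 := by
      intro h
      have := congrArg Fin.val h
      simp at this
    have hu0 : ∀ (a b j : Fin n) (γ : Idx n l'),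
        Function.update (Fin.cons a (Fin.cons b γ) : Idx n (l' + 1 + 1)) 0 j
          = Fin.cons j (Fin.cons b γ) := fun a b j γ => Fin.update_cons_zero _ _ _
    have hu1 : ∀ (a b k : Fin n) (γ : Idx n l'),
        Function.update (Fin.cons a (Fin.cons b γ) : Idx n (l' + 1 + 1)) 1 k
          = Fin.cons a (Fin.cons k γ) := fun a b k γ => by
      have := Fin.cons_update (α := fun _ => Fin n) a (Fin.cons b γ : Idx n (l' + 1)) 0 k
      rw [Fin.update_cons_zero] at this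
      exact this.symm
    rw [ht.inner_slot_slot M M' hr h01, s6t_inner, s6ts_sum_cons]
    simp only [s6ts_sum_cons, slot_apply, hu0, hu1, Fin.cons_zero]
    have h1 : ∀ (a b : Fin n) (γ : Idx n l'),
        (Fin.cons a (Fin.cons b γ) : Idx n (l' + 1 + 1)) 1 = b := fun _ _ _ => rfl
    simp only [h1, ← hA]
    rw [Finset.sum_congr rfl fun a _ => Finset.sum_comm, Finset.sum_comm]
    refine Finset.sum_congr rfl fun γ _ => ?_
    rw [Matrix.mul_assoc (M * A γ), s6ts_trace_mul]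
    refine Finset.sum_congr rfl fun a _ => Finset.sum_congr rfl fun b _ => ?_
    rw [Matrix.mul_apply, Matrix.mul_apply]
    congr 1
    exact Finset.sum_congr rfl fun k _ => by rw [hAs γ a k]

/-- the correlation bound `∑_d c_d ≤ tr(RHRH)` of Lemma 6.2 for a finite family of symmetric tensors -/
theorem s6t_corr_le {m : ℕ} (L : Fin m → ℕ) (t : ∀ j, TT n (L j + 1)) (ht : ∀ j, TSym (t j))
    (r r' : ∀ j, Fin (L j + 1)) (hr : ∀ j, r j ≠ r' j) {H : Mx n} (hH : H.IsSymm) :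
    ∑ j, inner ℝ (slot (r j) H (t j)) (slot (r' j) H (t j))
      ≤ Matrix.trace (mxFun Real.sqrt (∑ j, red (t j)) * H *
          mxFun Real.sqrt (∑ j, red (t j)) * H) := by
  choose ι inst A hsym hred hinner using fun j => s6t_corr_family (t j) (ht j) (hr j)
  let _ := inst
  have h1 : ∑ j, red (t j) = ∑ x : (Σ j, ι j), A x.1 x.2 * A x.1 x.2 := by
    rw [Fintype.sum_sigma]
    exact Finset.sum_congr rfl fun j _ => hred j
  have h2 : ∑ j, inner ℝ (slot (r j) H (t j)) (slot (r' j) H (t j))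
      = ∑ x : (Σ j, ι j), Matrix.trace (A x.1 x.2 * H * A x.1 x.2 * H) := by
    rw [Fintype.sum_sigma]
    refine Finset.sum_congr rfl fun j _ => ?_
    rw [hinner j]
    refine Finset.sum_congr rfl fun γ _ => ?_
    rw [Matrix.mul_assoc, Matrix.mul_assoc, Matrix.trace_mul_comm]
    simp only [Matrix.mul_assoc]
  rw [h1, h2]
  exact mk_corr_le (fun x : (Σ j, ι j) => A x.1 x.2) (fun x => hsym x.1 x.2) hH
/-- the squared norm of the average of a slot action over `k` slots of a symmetric tensor -/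
theorem s6ts_avg_norm_sq {l k : ℕ} (hk : 1 ≤ k) (hl : k ≤ l) (t : TT n (l + 1)) (ht : TSym t)
    (H : Mx n) :
    ‖(k : ℝ)⁻¹ • ∑ r : Fin k, slot (⟨r.1, by omega⟩ : Fin (l + 1)) H t‖ ^ 2
      = inner ℝ (slot 0 H t) (slot (⟨1, by omega⟩ : Fin (l + 1)) H t)
        + (‖slot 0 H t‖ ^ 2
          - inner ℝ (slot 0 H t) (slot (⟨1, by omega⟩ : Fin (l + 1)) H t)) / k := by
  set a : ℝ := ‖slot 0 H t‖ ^ 2 with ha
  set c : ℝ := inner ℝ (slot 0 H t) (slot (⟨1, by omega⟩ : Fin (l + 1)) H t) with hc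
  have hk0 : (k : ℝ) ≠ 0 := by positivity
  have h01 : (0 : Fin (l + 1)) ≠ ⟨1, by omega⟩ := by
    intro h; have := congrArg Fin.val h; simp at this
  have hterm : ∀ r r' : Fin k, inner ℝ (slot (⟨r.1, by omega⟩ : Fin (l + 1)) H t)
      (slot (⟨r'.1, by omega⟩ : Fin (l + 1)) H t) = c + if r = r' then a - c else 0 := by
    intro r r'
    by_cases h : r = r'
    · subst h
      rw [if_pos rfl, real_inner_self_eq_norm_sq, ht.norm_slot H _ 0]
      ring
    · rw [if_neg h, add_zero]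
      refine ht.inner_slot_slot H H ?_ h01
      intro h'
      exact h (Fin.ext (Fin.mk.inj_iff.1 h'))
  rw [norm_smul, mul_pow, ← real_inner_self_eq_norm_sq (∑ r : Fin k, _), sum_inner]
  simp only [inner_sum, hterm, Finset.sum_add_distrib, Finset.sum_const, Finset.card_univ,
    Fintype.card_fin, Finset.sum_ite_eq, Finset.mem_univ, if_true, nsmul_eq_mul]
  rw [Real.norm_eq_abs, sq_abs]
  field_simp

/-- **Lemma 6.2 + Cauchy-Schwarz**, in the form used in Lemma 6.3: `t j` has at least `k + 1` slots.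
`(∑ ⟨φ_j, H_(0) t_j⟩)² ≤ (∑ ‖φ_j‖²) (tr(RHRH) + (2/k) tr(ρ H²))`.
Proof: `⟨φ, H_(0) t⟩ = ⟨φ, k⁻¹ ∑_{r<k} H_(r) t⟩`, `‖k⁻¹ ∑_{r<k} H_(r) t‖² = a/k + (1 - 1/k) c`, `|c| ≤ a`. -/
theorem s6t_slots_le {m k : ℕ} (hk : 1 ≤ k) (L : Fin m → ℕ) (hL : ∀ j, k ≤ L j)
    (t φ : ∀ j, TT n (L j + 1)) (ht : ∀ j, TSym (t j)) (hφ : ∀ j, TSym (φ j)) {H : Mx n}
    (hH : H.IsSymm) :
    (∑ j, inner ℝ (φ j) (slot 0 H (t j))) ^ 2
      ≤ (∑ j, ‖φ j‖ ^ 2) *
        (Matrix.trace (mxFun Real.sqrt (∑ j, red (t j)) * H *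
            mxFun Real.sqrt (∑ j, red (t j)) * H)
          + 2 / k * Matrix.trace ((∑ j, red (t j)) * H * H)) := by
  have hk0 : (0 : ℝ) < k := by exact_mod_cast hk
  set w : ∀ j, TT n (L j + 1) := fun j =>
    (k : ℝ)⁻¹ • ∑ r : Fin k, slot (⟨r.1, by have := hL j; omega⟩ : Fin (L j + 1)) H (t j) with hw
  have h1 : ∀ j, inner ℝ (φ j) (slot 0 H (t j)) = inner ℝ (φ j) (w j) := by
    intro j
    rw [hw]
    simp only [inner_smul_right, inner_sum]
    rw [Finset.sum_congr rfl fun r _ => (ht j).inner_slot (hφ j) H _ 0, Finset.sum_const,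
      Finset.card_univ, Fintype.card_fin, nsmul_eq_mul, ← mul_assoc, inv_mul_cancel₀ hk0.ne',
      one_mul]
  have h2 : (∑ j, inner ℝ (φ j) (w j)) ^ 2 ≤ (∑ j, ‖φ j‖ ^ 2) * ∑ j, ‖w j‖ ^ 2 := by
    have e1 : |∑ j, inner ℝ (φ j) (w j)| ≤ ∑ j, ‖φ j‖ * ‖w j‖ :=
      (Finset.abs_sum_le_sum_abs _ _).trans
        (Finset.sum_le_sum fun j _ => abs_real_inner_le_norm _ _)
    have e2 := pow_le_pow_left₀ (abs_nonneg _) e1 2
    rw [sq_abs] at e2
    exact e2.trans (Finset.sum_mul_sq_le_sq_mul_sq _ _ _)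
  have h3 : ∀ j, ‖w j‖ ^ 2 ≤ inner ℝ (slot 0 H (t j))
      (slot (⟨1, by have := hL j; omega⟩ : Fin (L j + 1)) H (t j))
        + 2 / k * ‖slot 0 H (t j)‖ ^ 2 := by
    intro j
    rw [hw]
    simp only
    rw [s6ts_avg_norm_sq hk (hL j) (t j) (ht j) H]
    have hc : |inner ℝ (slot 0 H (t j))
        (slot (⟨1, by have := hL j; omega⟩ : Fin (L j + 1)) H (t j))| ≤ ‖slot 0 H (t j)‖ ^ 2 := by
      refine (abs_real_inner_le_norm _ _).trans ?_
      rw [(ht j).norm_slot H ⟨1, _⟩ 0, sq]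
    have hc' := (abs_le.1 hc).1
    have : (‖slot 0 H (t j)‖ ^ 2 - inner ℝ (slot 0 H (t j))
        (slot (⟨1, by have := hL j; omega⟩ : Fin (L j + 1)) H (t j))) / k
        ≤ 2 * ‖slot 0 H (t j)‖ ^ 2 / k := by
      apply div_le_div_of_nonneg_right _ hk0.le
      linarith
    have e : 2 / (k : ℝ) * ‖slot 0 H (t j)‖ ^ 2 = 2 * ‖slot 0 H (t j)‖ ^ 2 / k := by ring
    rw [e]
    linarith
  have h4 : ∑ j, ‖slot 0 H (t j)‖ ^ 2 = Matrix.trace ((∑ j, red (t j)) * H * H) := by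
    rw [Finset.sum_mul, Finset.sum_mul, Matrix.trace_sum]
    refine Finset.sum_congr rfl fun j _ => ?_
    rw [norm_slot_zero_sq, hH, Matrix.mul_assoc, Matrix.trace_mul_comm]
  have h5 := s6t_corr_le L t ht (fun _ => 0)
    (fun j => (⟨1, by have := hL j; omega⟩ : Fin (L j + 1)))
    (fun j h => by have := congrArg Fin.val h; simp at this) hH
  have h6 : ∑ j, ‖w j‖ ^ 2 ≤ Matrix.trace (mxFun Real.sqrt (∑ j, red (t j)) * H *
      mxFun Real.sqrt (∑ j, red (t j)) * H) + 2 / k * Matrix.trace ((∑ j, red (t j)) * H * H) := by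
    refine (Finset.sum_le_sum fun j _ => h3 j).trans ?_
    rw [Finset.sum_add_distrib, ← Finset.mul_sum, h4]
    linarith
  rw [Finset.sum_congr rfl fun j _ => h1 j]
  exact h2.trans (mul_le_mul_of_nonneg_left h6 (Finset.sum_nonneg fun j _ => sq_nonneg _))

theorem s6ts_norm_add4_sq {V : Type*} [SeminormedAddCommGroup V] (a b c e : V) :
    ‖a + b + c + e‖ ^ 2 ≤ 4 * (‖a‖ ^ 2 + ‖b‖ ^ 2 + ‖c‖ ^ 2 + ‖e‖ ^ 2) := by
  have h1 : ‖a + b + c + e‖ ≤ ‖a‖ + ‖b‖ + ‖c‖ + ‖e‖ :=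
    (norm_add_le _ _).trans (add_le_add_left ((norm_add_le _ _).trans
      (add_le_add_left (norm_add_le _ _) _)) _)
  have h0 := norm_nonneg (a + b + c + e)
  have h2 : ‖a + b + c + e‖ ^ 2 ≤ (‖a‖ + ‖b‖ + ‖c‖ + ‖e‖) ^ 2 := pow_le_pow_left₀ h0 h1 2
  nlinarith [sq_nonneg (‖a‖ - ‖b‖), sq_nonneg (‖a‖ - ‖c‖), sq_nonneg (‖a‖ - ‖e‖),
    sq_nonneg (‖b‖ - ‖c‖), sq_nonneg (‖b‖ - ‖e‖), sq_nonneg (‖c‖ - ‖e‖)]

/-- moving a slot action of a symmetric tensor to another slot costs twice the error -/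
theorem s6ts_move {t φ : TT n d} (ht : TSym t) (hφ : TSym φ) (M : Mx n) (s s' r : Fin d) :
    ‖slot s M t - slot s' M t‖ ^ 2 ≤ 4 * ‖φ - slot r M t‖ ^ 2 := by
  have e : slot s M t - slot s' M t = (φ - slot s' M t) - (φ - slot s M t) := by abel
  have h1 : ‖slot s M t - slot s' M t‖ ≤ 2 * ‖φ - slot r M t‖ := by
    rw [e]
    refine (norm_sub_le _ _).trans ?_
    rw [ht.norm_sub_slot hφ M s' r, ht.norm_sub_slot hφ M s r]
    linarith
  have := pow_le_pow_left₀ (norm_nonneg _) h1 2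
  rw [mul_pow] at this
  linarith

/-- **the four moves of Lemma 6.5** for one symmetric tensor with at least three slots; `φ i` are arbitrary
symmetric tensors (in the application `φ i = D_i t`) -/
theorem s6t_four_moves {l : ℕ} (hl : 2 ≤ l) (t : TT n (l + 1)) (ht : TSym t)
    (φ : Fin n → TT n (l + 1)) (hφ : ∀ i, TSym (φ i)) {H : Fin n → Mx n} (hH : ∀ i, (H i).IsSymm)
    (hS : ((4 : ℝ) • (1 : Mx n) - colS H).PosSemidef) :
    ∑ i, ∑ j, ‖slot 0 (H i * H j - H j * H i) t‖ ^ 2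
      ≤ 256 * ∑ i, ‖φ i - slot 0 (H i) t‖ ^ 2 := by
  set s1 : Fin (l + 1) := ⟨1, by omega⟩ with hs1
  set s2 : Fin (l + 1) := ⟨2, by omega⟩ with hs2
  have h01 : (0 : Fin (l + 1)) ≠ s1 := by
    intro h; have := congrArg Fin.val h; simp [hs1] at this
  have h02 : (0 : Fin (l + 1)) ≠ s2 := by
    intro h; have := congrArg Fin.val h; simp [hs2] at this
  have h12 : s1 ≠ s2 := by
    intro h; have := congrArg Fin.val h; simp [hs1, hs2] at this
  have hS' : ((4 : ℝ) • (1 : Mx n) - ∑ i, (H i)ᵀ * H i).PosSemidef := by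
    have : ∑ i, (H i)ᵀ * H i = colS H := by
      unfold colS
      exact Finset.sum_congr rfl fun i _ => by rw [hH i]
    rw [this]
    exact hS
  -- one type of error term
  have col : ∀ (r : Fin (l + 1)) (v : Fin n → TT n (l + 1)),
      (∀ b, ‖v b‖ ^ 2 ≤ 4 * ‖φ b - slot 0 (H b) t‖ ^ 2) →
      ∑ b, ∑ a, ‖slot r (H a) (v b)‖ ^ 2 ≤ 16 * ∑ b, ‖φ b - slot 0 (H b) t‖ ^ 2 := by
    intro r v hv
    rw [Finset.mul_sum]
    refine Finset.sum_le_sum fun b _ => ?_
    have := s6t_column_bound hS' r (v b)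
    linarith [hv b]
  have key : ∀ i j, slot 0 (H i * H j - H j * H i) t
      = slot 0 (H i) (slot 0 (H j) t - slot s1 (H j) t)
        + slot s1 (H j) (slot 0 (H i) t - slot s2 (H i) t)
        + slot s2 (H i) (slot s1 (H j) t - slot 0 (H j) t)
        + slot 0 (H j) (slot s2 (H i) t - slot 0 (H i) t) := by
    intro i j
    rw [slot_sub_left, slot_mul, slot_mul, slot_sub, slot_sub, slot_sub, slot_sub,
      slot_comm h01 (H i) (H j) t, slot_comm h12 (H j) (H i) t, slot_comm h02 (H j) (H i) t]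
    abel
  have c1 := col 0 (fun j => slot 0 (H j) t - slot s1 (H j) t)
    fun b => s6ts_move ht (hφ b) (H b) 0 s1 0
  have c2 := col s1 (fun i => slot 0 (H i) t - slot s2 (H i) t)
    fun b => s6ts_move ht (hφ b) (H b) 0 s2 0
  have c3 := col s2 (fun j => slot s1 (H j) t - slot 0 (H j) t)
    fun b => s6ts_move ht (hφ b) (H b) s1 0 0
  have c4 := col 0 (fun i => slot s2 (H i) t - slot 0 (H i) t)
    fun b => s6ts_move ht (hφ b) (H b) s2 0 0
  rw [Finset.sum_comm] at c1 c3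
  calc ∑ i, ∑ j, ‖slot 0 (H i * H j - H j * H i) t‖ ^ 2
      ≤ ∑ i, ∑ j, 4 * (‖slot 0 (H i) (slot 0 (H j) t - slot s1 (H j) t)‖ ^ 2
        + ‖slot s1 (H j) (slot 0 (H i) t - slot s2 (H i) t)‖ ^ 2
        + ‖slot s2 (H i) (slot s1 (H j) t - slot 0 (H j) t)‖ ^ 2
        + ‖slot 0 (H j) (slot s2 (H i) t - slot 0 (H i) t)‖ ^ 2) :=
        Finset.sum_le_sum fun i _ => Finset.sum_le_sum fun j _ => by
          rw [key i j]
          exact s6ts_norm_add4_sq _ _ _ _
    _ = 4 * ((∑ i, ∑ j, ‖slot 0 (H i) (slot 0 (H j) t - slot s1 (H j) t)‖ ^ 2)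
        + (∑ i, ∑ j, ‖slot s1 (H j) (slot 0 (H i) t - slot s2 (H i) t)‖ ^ 2)
        + (∑ i, ∑ j, ‖slot s2 (H i) (slot s1 (H j) t - slot 0 (H j) t)‖ ^ 2)
        + (∑ i, ∑ j, ‖slot 0 (H j) (slot s2 (H i) t - slot 0 (H i) t)‖ ^ 2)) := by
        simp only [Finset.mul_sum, Finset.sum_add_distrib, mul_add]
    _ ≤ 256 * ∑ i, ‖φ i - slot 0 (H i) t‖ ^ 2 := by linarith

end lemma62

end

end Claimed.Agent.R259
end
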