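/- Packed by merge_tool.py (helper293): 7 modules of Claimed.Agent.R259 in one file, same declarations.
   Old modules, in this order: ImmseKer, ImmseLaw, ImmsePost, ImmseInc, ImmseBd, Immse, ImmseLc -/
import Claimed.Agent.R259.WS
import Claimed.Agent.R259.Pack030
import Claimed.Agent.R259.Pack001
import Claimed.Agent.R259.Pack003
import Claimed.Agent.R259.Pack021
import Claimed.Agent.R259.Pack007

/- ===== packed: Claimed.Agent.R259.ImmseKer ===== -/
section
/-
Row 259, kit IMMSE, leaf group KER: the Gaussian likelihood ratio `immK`, Cameron-Martin shift, rotation of `γ ⊗ γ`.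
Statements: helper147.  Mathlib + ImmseDefs only.
Hints.  `imm_shift`: both sides are finite measures with the same characteristic function (`Measure.ext_of_charFun`,
`charFun_stdGaussian`), or reduce to coordinates (`stdGaussian_eq_map_pi_orthonormalBasis`, `gaussianReal` has an explicit pdf);
an alternative is `gc_dm_gk` (GcKernel.lean): `stdGaussian E = dm (gk 1)` and translation invariance of `volume`.
`imm_rot`: `Measure.ext_of_charFun`, `charFun` of a product measure / of a map under a continuous linear map.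
-/
set_option autoImplicit false

open MeasureTheory ProbabilityTheory
open scoped ENNReal

namespace Claimed.Agent.R259

variable {E : Type} [NormedAddCommGroup E] [InnerProductSpace ℝ E] [FiniteDimensional ℝ E]
  [MeasurableSpace E] [BorelSpace E]

theorem imm_K_pos (t : ℝ) (s z : E) : 0 < immK t s z := Real.exp_pos _

theorem imm_K_zero (s z : E) : immK 0 s z = 1 := by
  simp [immK]

/-- `√t⟨s,z⟩ - t|s|²/2 ≤ |z|²/2` -/
theorem imm_K_le {t : ℝ} (ht : 0 ≤ t) (s z : E) : immK t s z ≤ Real.exp (‖z‖ ^ 2 / 2) := by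
  unfold immK
  apply Real.exp_le_exp.mpr
  have h1 : 0 ≤ ‖z - Real.sqrt t • s‖ ^ 2 := by positivity
  rw [norm_sub_sq_real, norm_smul, inner_smul_right, Real.norm_eq_abs, abs_of_nonneg (Real.sqrt_nonneg t),
    mul_pow, Real.sq_sqrt ht, real_inner_comm] at h1
  linarith

theorem imm_K_continuous (t : ℝ) : Continuous fun p : E × E => immK t p.1 p.2 := by
  unfold immK
  fun_prop

/-- jointly continuous in the strength as well -/
theorem imm_K_continuous3 : Continuous fun p : ℝ × E × E => immK p.1 p.2.1 p.2.2 := by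
  unfold immK
  fun_prop

/-- two observations = one observation of the sufficient statistic -/
theorem imm_K_mul {a b : ℝ} (ha : 0 ≤ a) (hb : 0 ≤ b) (hab : 0 < a + b) (s z z' : E) :
    immK a s z * immK b s z' = immK (a + b) s (immRot a b (z, z')) := by
  unfold immK immRot
  rw [← Real.exp_add]
  congr 1
  have h : Real.sqrt (a + b) ≠ 0 := (Real.sqrt_pos.mpr hab).ne'
  simp only [inner_smul_right, inner_add_right]
  field_simp
  ring

theorem imm_rot_continuous (a b : ℝ) : Continuous (immRot a b : E × E → E) := by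
  unfold immRot
  fun_prop

theorem immker_map_inner (v : E) :
    (stdGaussian E).map (fun z => inner ℝ v z) = gaussianReal 0 (‖v‖ ^ 2).toNNReal := by
  have h := IsGaussian.map_eq_gaussianReal (μ := stdGaussian E) (innerSL ℝ v)
  rw [integral_strongDual_stdGaussian, variance_dual_stdGaussian, innerSL_apply_norm] at h
  exact h

/-- Gaussian moment generating function -/
theorem imm_mgf (v : E) : ∫ z, Real.exp (inner ℝ v z) ∂(stdGaussian E) = Real.exp (‖v‖ ^ 2 / 2) := by
  have h := mgf_gaussianReal (immker_map_inner v) 1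
  simp only [mgf, one_mul] at h
  rw [h, Real.coe_toNNReal _ (by positivity)]
  congr 1
  ring

theorem immker_exp_integrable (v : E) : Integrable (fun z => Real.exp (inner ℝ v z)) (stdGaussian E) := by
  have h := integrable_exp_mul_gaussianReal (μ := 0) (v := (‖v‖ ^ 2).toNNReal) 1
  rw [← immker_map_inner v, integrable_map_measure (by fun_prop) (by fun_prop)] at h
  simpa [Function.comp_def] using h

theorem immker_cmgf (c ξ : E) :
    ∫ z, Complex.exp ((inner ℝ c z : ℝ) + (inner ℝ z ξ : ℝ) * Complex.I) ∂(stdGaussian E) =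
      Complex.exp (((‖c‖ ^ 2 - ‖ξ‖ ^ 2) / 2 : ℝ) + (inner ℝ c ξ : ℝ) * Complex.I) := by
  rw [stdGaussian, integral_map (Measurable.aemeasurable (by fun_prop))
    (Measurable.aestronglyMeasurable (by fun_prop))]
  have h1 : ∀ x : Fin (Module.finrank ℝ E) → ℝ,
      Complex.exp ((inner ℝ c (∑ i, x i • stdOrthonormalBasis ℝ E i) : ℝ) +
        (inner ℝ (∑ i, x i • stdOrthonormalBasis ℝ E i) ξ : ℝ) * Complex.I) =
      ∏ i, Complex.exp ((((inner ℝ c (stdOrthonormalBasis ℝ E i) : ℝ) : ℂ) +
        (inner ℝ (stdOrthonormalBasis ℝ E i) ξ : ℝ) * Complex.I) * (x i : ℝ)) := by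
    intro x
    rw [← Complex.exp_sum]
    congr 1
    simp only [inner_sum, sum_inner, inner_smul_left, inner_smul_right, Complex.ofReal_sum, Finset.sum_mul,
      ← Finset.sum_add_distrib]
    refine Finset.sum_congr rfl fun i _ => ?_
    simp
    ring
  simp_rw [h1]
  rw [integral_fintype_prod_eq_prod (f := fun i (x : ℝ) => Complex.exp ((((inner ℝ c (stdOrthonormalBasis ℝ E i) : ℝ) : ℂ) +
        (inner ℝ (stdOrthonormalBasis ℝ E i) ξ : ℝ) * Complex.I) * (x : ℝ)))]
  have h2 : ∀ w : ℂ, ∫ x : ℝ, Complex.exp (w * (x : ℝ)) ∂(gaussianReal 0 1) = Complex.exp (w ^ 2 / 2) := by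
    intro w
    have := complexMGF_id_gaussianReal (μ := 0) (v := 1) w
    simpa [complexMGF] using this
  simp_rw [h2]
  rw [← Complex.exp_sum]
  congr 1
  rw [← (stdOrthonormalBasis ℝ E).sum_sq_inner_right c, ← (stdOrthonormalBasis ℝ E).sum_sq_inner_right ξ,
    ← (stdOrthonormalBasis ℝ E).sum_inner_mul_inner c ξ]
  rw [← Finset.sum_sub_distrib, Finset.sum_div]
  push_cast
  rw [Finset.sum_mul, ← Finset.sum_add_distrib]
  refine Finset.sum_congr rfl fun i _ => ?_
  rw [real_inner_comm c]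
  have hI : Complex.I ^ 2 = -1 := Complex.I_sq
  linear_combination ((inner ℝ ((stdOrthonormalBasis ℝ E) i) ξ : ℝ) : ℂ) ^ 2 / 2 * hI

theorem immker_K_eq {t : ℝ} (ht : 0 ≤ t) (s z : E) :
    immK t s z = Real.exp (-(‖Real.sqrt t • s‖ ^ 2 / 2)) * Real.exp (inner ℝ (Real.sqrt t • s) z) := by
  unfold immK
  rw [← Real.exp_add, norm_smul, mul_pow, Real.norm_eq_abs, sq_abs, Real.sq_sqrt ht, inner_smul_left]
  congr 1
  simp
  ring

theorem immker_K_measurable (t : ℝ) (s : E) : Measurable fun z => immK t s z := by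
  unfold immK
  fun_prop

theorem imm_K_integrable {t : ℝ} (ht : 0 ≤ t) (s : E) : Integrable (fun z => immK t s z) (stdGaussian E) := by
  simp_rw [immker_K_eq ht]
  exact (immker_exp_integrable _).const_mul _

theorem imm_K_integral {t : ℝ} (ht : 0 ≤ t) (s : E) : ∫ z, immK t s z ∂(stdGaussian E) = 1 := by
  simp_rw [immker_K_eq ht]
  rw [integral_const_mul, imm_mgf, ← Real.exp_add]
  simp

/-- Cameron-Martin -/
theorem imm_shift {t : ℝ} (ht : 0 ≤ t) (s : E) :
    (stdGaussian E).map (fun g => Real.sqrt t • s + g) =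
      (stdGaussian E).withDensity fun z => ENNReal.ofReal (immK t s z) := by
  have : IsFiniteMeasure ((stdGaussian E).withDensity fun z => ENNReal.ofReal (immK t s z)) :=
    isFiniteMeasure_withDensity_ofReal (imm_K_integrable ht s).2
  apply Measure.ext_of_charFun
  ext ξ
  rw [charFun_map_const_add, charFun_stdGaussian, charFun_apply,
    integral_withDensity_eq_integral_toReal_smul (immker_K_measurable t s).ennreal_ofReal
      (Filter.Eventually.of_forall fun _ => ENNReal.ofReal_lt_top)]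
  have h : ∀ z : E, (ENNReal.ofReal (immK t s z)).toReal • Complex.exp ((inner ℝ z ξ : ℝ) * Complex.I) =
      Complex.exp ((-(‖Real.sqrt t • s‖ ^ 2 / 2) : ℝ)) *
        Complex.exp ((inner ℝ (Real.sqrt t • s) z : ℝ) + (inner ℝ z ξ : ℝ) * Complex.I) := by
    intro z
    rw [ENNReal.toReal_ofReal (imm_K_pos t s z).le, immker_K_eq ht, Complex.real_smul, Complex.exp_add]
    push_cast
    ring
  simp_rw [h]
  rw [integral_const_mul, immker_cmgf, ← Complex.exp_add, ← Complex.exp_add]
  congr 1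
  push_cast
  ring

/-- Cameron-Martin for Bochner integrals -/
theorem imm_shift_integral {F : Type} [NormedAddCommGroup F] [NormedSpace ℝ F] {t : ℝ} (ht : 0 ≤ t) (s : E)
    (f : E → F) :
    ∫ z, immK t s z • f z ∂(stdGaussian E) = ∫ g, f (Real.sqrt t • s + g) ∂(stdGaussian E) := by
  rw [← (measurableEmbedding_addLeft (Real.sqrt t • s)).integral_map f, imm_shift ht,
    integral_withDensity_eq_integral_toReal_smul (immker_K_measurable t s).ennreal_ofReal
      (Filter.Eventually.of_forall fun _ => ENNReal.ofReal_lt_top)]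
  simp_rw [ENNReal.toReal_ofReal (imm_K_pos t s _).le]

theorem imm_shift_integrable {F : Type} [NormedAddCommGroup F] [NormedSpace ℝ F] {t : ℝ} (ht : 0 ≤ t) (s : E)
    (f : E → F) (hf : AEStronglyMeasurable f (stdGaussian E)) :
    Integrable (fun z => immK t s z • f z) (stdGaussian E) ↔
      Integrable (fun g => f (Real.sqrt t • s + g)) (stdGaussian E) := by
  have h1 := (measurableEmbedding_addLeft (Real.sqrt t • s)).integrable_map_iff (μ := stdGaussian E) (g := f)
  rw [imm_shift ht, integrable_withDensity_iff_integrable_smul' (immker_K_measurable t s).ennreal_ofReal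
      (Filter.Eventually.of_forall fun _ => ENNReal.ofReal_lt_top)] at h1
  simp_rw [ENNReal.toReal_ofReal (imm_K_pos t s _).le] at h1
  exact h1

theorem immker_inner_integrable (v : E) : Integrable (fun z => inner ℝ v z) (stdGaussian E) :=
  IsGaussian.integrable_dual (stdGaussian E) (innerSL ℝ v)

theorem immker_inner_integral (v : E) : ∫ z, inner ℝ v z ∂(stdGaussian E) = 0 :=
  integral_strongDual_stdGaussian (innerSL ℝ v)

theorem immker_inner_sq_integrable (v : E) : Integrable (fun z => inner ℝ v z ^ 2) (stdGaussian E) :=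
  (IsGaussian.memLp_dual (stdGaussian E) (innerSL ℝ v) 2 (by norm_num)).integrable_sq

theorem immker_inner_sq_integral (v : E) : ∫ z, inner ℝ v z ^ 2 ∂(stdGaussian E) = ‖v‖ ^ 2 := by
  have h := variance_dual_stdGaussian (E := E) (innerSL ℝ v)
  rw [variance_of_integral_eq_zero (by fun_prop) (integral_strongDual_stdGaussian _), innerSL_apply_norm] at h
  exact h

theorem immker_norm_sq_integrable : Integrable (fun z : E => ‖z‖ ^ 2) (stdGaussian E) := by
  simp_rw [← (stdOrthonormalBasis ℝ E).sum_sq_inner_right]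
  exact integrable_finsetSum _ fun i _ => immker_inner_sq_integrable _

theorem immker_norm_sq_integral : ∫ z : E, ‖z‖ ^ 2 ∂(stdGaussian E) = Module.finrank ℝ E := by
  simp_rw [← (stdOrthonormalBasis ℝ E).sum_sq_inner_right]
  rw [integral_finsetSum _ fun i _ => immker_inner_sq_integrable _]
  simp [immker_inner_sq_integral]

theorem immker_log_eq (t : ℝ) (s z : E) :
    immK t s z * Real.log (immK t s z) = immK t s z • (Real.sqrt t * inner ℝ s z - t * ‖s‖ ^ 2 / 2) := by
  rw [smul_eq_mul]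
  congr 1
  unfold immK
  rw [Real.log_exp]

theorem immker_log_shift {t : ℝ} (ht : 0 ≤ t) (s g : E) :
    Real.sqrt t * inner ℝ s (Real.sqrt t • s + g) - t * ‖s‖ ^ 2 / 2 =
      t * ‖s‖ ^ 2 / 2 + Real.sqrt t * inner ℝ s g := by
  rw [inner_add_right, inner_smul_right, real_inner_self_eq_norm_sq]
  have := Real.mul_self_sqrt ht
  linear_combination ‖s‖ ^ 2 * this

/-- `H(N(√t s, Id) | γ) = t |s|² / 2` -/
theorem imm_K_log_integrable {t : ℝ} (ht : 0 ≤ t) (s : E) :
    Integrable (fun z => immK t s z * Real.log (immK t s z)) (stdGaussian E) := by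
  simp_rw [immker_log_eq]
  rw [imm_shift_integrable ht s _ (by fun_prop)]
  simp_rw [immker_log_shift ht]
  exact (integrable_const _).add ((immker_inner_integrable s).const_mul _)

theorem imm_K_log_integral {t : ℝ} (ht : 0 ≤ t) (s : E) :
    ∫ z, immK t s z * Real.log (immK t s z) ∂(stdGaussian E) = t * ‖s‖ ^ 2 / 2 := by
  simp_rw [immker_log_eq]
  rw [imm_shift_integral ht s]
  simp_rw [immker_log_shift ht]
  rw [integral_add (integrable_const _) ((immker_inner_integrable s).const_mul _), integral_const_mul,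
    immker_inner_integral]
  simp

theorem immker_sq_shift {t : ℝ} (ht : 0 ≤ t) (s g : E) :
    ‖Real.sqrt t • s + g‖ ^ 2 = t * ‖s‖ ^ 2 + 2 * Real.sqrt t * inner ℝ s g + ‖g‖ ^ 2 := by
  rw [norm_add_sq_real, norm_smul, mul_pow, Real.norm_eq_abs, sq_abs, Real.sq_sqrt ht, inner_smul_left]
  simp
  ring

/-- second moment of `N(√t s, Id)` -/
theorem imm_K_sq_integrable {t : ℝ} (ht : 0 ≤ t) (s : E) :
    Integrable (fun z => immK t s z * ‖z‖ ^ 2) (stdGaussian E) := by
  have h := imm_shift_integrable ht s (fun z : E => ‖z‖ ^ 2) (by fun_prop)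
  simp_rw [smul_eq_mul] at h
  rw [h]
  simp_rw [immker_sq_shift ht]
  exact ((integrable_const _).add ((immker_inner_integrable s).const_mul _)).add immker_norm_sq_integrable

theorem imm_K_sq_integral {t : ℝ} (ht : 0 ≤ t) (s : E) :
    ∫ z, immK t s z * ‖z‖ ^ 2 ∂(stdGaussian E) = t * ‖s‖ ^ 2 + Module.finrank ℝ E := by
  have h := imm_shift_integral ht s (fun z : E => ‖z‖ ^ 2)
  simp_rw [smul_eq_mul] at h
  rw [h]
  simp_rw [immker_sq_shift ht]
  have h1 : Integrable (fun g : E => t * ‖s‖ ^ 2 + 2 * Real.sqrt t * inner ℝ s g) (stdGaussian E) :=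
    (integrable_const _).add ((immker_inner_integrable s).const_mul _)
  rw [integral_add h1 immker_norm_sq_integrable,
    integral_add (integrable_const _) ((immker_inner_integrable s).const_mul _),
    integral_const_mul (2 * Real.sqrt t), immker_inner_integral, immker_norm_sq_integral]
  simp

/-- mean of `N(√t s, Id)` -/
theorem imm_K_mean {t : ℝ} (ht : 0 ≤ t) (s : E) :
    ∫ z, immK t s z • z ∂(stdGaussian E) = Real.sqrt t • s := by
  have h1 : Integrable (fun g : E => g) (stdGaussian E) := IsGaussian.integrable_id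
  rw [imm_shift_integral ht s (fun z => z), integral_add (integrable_const _) h1,
    integral_id_stdGaussian]
  simp

/-- rotation invariance of `γ ⊗ γ` -/
theorem imm_rot {a b : ℝ} (ha : 0 ≤ a) (hb : 0 ≤ b) (hab : 0 < a + b) :
    ((stdGaussian E).prod (stdGaussian E)).map (immRot a b) = stdGaussian E := by
  have hcont : Continuous (immRot a b : E × E → E) := by
    unfold immRot
    fun_prop
  have : IsProbabilityMeasure (((stdGaussian E).prod (stdGaussian E)).map (immRot a b)) :=
    Measure.isProbabilityMeasure_map hcont.aemeasurable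
  apply Measure.ext_of_charFun
  ext ξ
  rw [charFun_apply, integral_map hcont.aemeasurable (by fun_prop)]
  have h : ∀ p : E × E, Complex.exp ((inner ℝ (immRot a b p) ξ : ℝ) * Complex.I) =
      Complex.exp ((inner ℝ p.1 (((Real.sqrt (a + b))⁻¹ * Real.sqrt a) • ξ) : ℝ) * Complex.I) *
      Complex.exp ((inner ℝ p.2 (((Real.sqrt (a + b))⁻¹ * Real.sqrt b) • ξ) : ℝ) * Complex.I) := by
    intro p
    rw [← Complex.exp_add]
    congr 1
    unfold immRot
    simp only [inner_smul_left, inner_smul_right, inner_add_left]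
    simp
    ring
  simp_rw [h]
  rw [integral_prod_mul (fun z : E => Complex.exp ((inner ℝ z (((Real.sqrt (a + b))⁻¹ * Real.sqrt a) • ξ) : ℝ) * Complex.I))
    (fun z : E => Complex.exp ((inner ℝ z (((Real.sqrt (a + b))⁻¹ * Real.sqrt b) • ξ) : ℝ) * Complex.I)),
    ← charFun_apply, ← charFun_apply, charFun_stdGaussian, charFun_stdGaussian, charFun_stdGaussian,
    ← Complex.exp_add]
  congr 1
  rw [norm_smul, norm_smul]
  have h1 : ‖(Real.sqrt (a + b))⁻¹ * Real.sqrt a‖ ^ 2 + ‖(Real.sqrt (a + b))⁻¹ * Real.sqrt b‖ ^ 2 = 1 := by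
    rw [Real.norm_eq_abs, Real.norm_eq_abs, sq_abs, sq_abs, mul_pow, mul_pow, inv_pow, Real.sq_sqrt ha,
      Real.sq_sqrt hb, Real.sq_sqrt hab.le]
    field_simp
  have h2 : ((‖(Real.sqrt (a + b))⁻¹ * Real.sqrt a‖ : ℂ)) ^ 2 + ((‖(Real.sqrt (a + b))⁻¹ * Real.sqrt b‖ : ℂ)) ^ 2 = 1 := by
    exact_mod_cast h1
  push_cast
  linear_combination (-(‖ξ‖ : ℂ) ^ 2 / 2) * h2

end Claimed.Agent.R259
end

/- ===== packed: Claimed.Agent.R259.ImmseLaw ===== -/
section
/-
Row 259, kit IMMSE, leaf group LAW: the density `immL`, the posterior mean `immM`, entropy `immD` and prediction energy `immG`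
of one signal law `σ` with finite second moment: integrability, bounds, regularity.
Statements: helper147.  Inputs: ImmseKer.lean (black boxes).
Hints.  Everything is Tonelli/Fubini for `(s, z) ↦ immK t s z * (...)` on `σ ⊗ γ` + `imm_K_le` (domination for fixed/bounded `z`).
`imm_D_integrable`: `-1/e ≤ x log x`, and Jensen `L log L ≤ ∫ K log K dσ` (`ConvexOn.map_integral_le`, `Real.convexOn_mul_log`),
`∫∫ K |log K| dγ dσ < ∞` by `imm_shift_integral`.  `imm_M_sq_le`: Cauchy-Schwarz for the measure `K dσ`.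
`imm_L_contDiff`: `hasFDerivAt_integral_of_dominated_of_fderiv_le` on balls, derivative `√t K ⟨s, ·⟩`, bound `√t |s| e^{(|z|+1)²/2}`.
-/
set_option autoImplicit false

open MeasureTheory ProbabilityTheory
open scoped ENNReal

namespace Claimed.Agent.R259

variable {E : Type} [NormedAddCommGroup E] [InnerProductSpace ℝ E] [FiniteDimensional ℝ E]
  [MeasurableSpace E] [BorelSpace E]

variable {σ : Measure E} [IsProbabilityMeasure σ]

theorem immlaw_K_cont_s (t : ℝ) (z : E) : Continuous fun s : E => immK t s z :=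
  (imm_K_continuous t).comp (Continuous.prodMk continuous_id continuous_const)

theorem immlaw_K_cont_z (t : ℝ) (s : E) : Continuous fun z : E => immK t s z :=
  (imm_K_continuous t).comp (Continuous.prodMk continuous_const continuous_id)

theorem imm_K_int {t : ℝ} (ht : 0 ≤ t) (z : E) : Integrable (fun s => immK t s z) σ := by
  refine Integrable.mono' (integrable_const (Real.exp (‖z‖ ^ 2 / 2)))
    (immlaw_K_cont_s t z).aestronglyMeasurable (Filter.Eventually.of_forall fun s => ?_)
  rw [Real.norm_eq_abs, abs_of_pos (imm_K_pos t s z)]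
  exact imm_K_le ht s z

theorem immlaw_norm_int (hσ : Integrable (fun s => ‖s‖ ^ 2) σ) : Integrable (fun s : E => ‖s‖) σ := by
  refine Integrable.mono' ((integrable_const (1 : ℝ)).add hσ) continuous_norm.aestronglyMeasurable
    (Filter.Eventually.of_forall fun s => ?_)
  simp only [norm_norm, Pi.add_apply]
  nlinarith [sq_nonneg (‖s‖ - 1), norm_nonneg s]

theorem imm_norm_int (hσ : Integrable (fun s => ‖s‖ ^ 2) σ) : Integrable (fun s : E => s) σ :=
  (integrable_norm_iff aestronglyMeasurable_id).1 (immlaw_norm_int hσ)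

theorem imm_Ks_int (hσ : Integrable (fun s => ‖s‖ ^ 2) σ) {t : ℝ} (ht : 0 ≤ t) (z : E) :
    Integrable (fun s => immK t s z • s) σ := by
  refine Integrable.mono' ((immlaw_norm_int hσ).const_mul (Real.exp (‖z‖ ^ 2 / 2)))
    ((immlaw_K_cont_s t z).smul continuous_id).aestronglyMeasurable (Filter.Eventually.of_forall fun s => ?_)
  rw [norm_smul, Real.norm_eq_abs, abs_of_pos (imm_K_pos t s z)]
  exact mul_le_mul_of_nonneg_right (imm_K_le ht s z) (norm_nonneg s)

theorem imm_Kss_int (hσ : Integrable (fun s => ‖s‖ ^ 2) σ) {t : ℝ} (ht : 0 ≤ t) (z : E) :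
    Integrable (fun s => immK t s z * ‖s‖ ^ 2) σ := by
  refine Integrable.mono' (hσ.const_mul (Real.exp (‖z‖ ^ 2 / 2)))
    ((immlaw_K_cont_s t z).mul (continuous_norm.pow 2)).aestronglyMeasurable
    (Filter.Eventually.of_forall fun s => ?_)
  rw [norm_mul, Real.norm_eq_abs, abs_of_pos (imm_K_pos t s z), Real.norm_eq_abs, abs_of_nonneg (by positivity)]
  exact mul_le_mul_of_nonneg_right (imm_K_le ht s z) (by positivity)

theorem imm_L_pos {t : ℝ} (ht : 0 ≤ t) (z : E) : 0 < immL σ t z := by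
  unfold immL
  rw [integral_pos_iff_support_of_nonneg (fun s => (imm_K_pos t s z).le) (imm_K_int ht z)]
  have : Function.support (fun s : E => immK t s z) = Set.univ := by
    ext s
    simp [(imm_K_pos t s z).ne']
  rw [this]
  simp

theorem imm_L_le {t : ℝ} (ht : 0 ≤ t) (z : E) : immL σ t z ≤ Real.exp (‖z‖ ^ 2 / 2) := by
  unfold immL
  calc ∫ s, immK t s z ∂σ ≤ ∫ _s : E, Real.exp (‖z‖ ^ 2 / 2) ∂σ :=
        integral_mono (imm_K_int ht z) (integrable_const _) fun s => imm_K_le ht s z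
    _ = Real.exp (‖z‖ ^ 2 / 2) := by simp

theorem imm_L_zero (z : E) : immL σ 0 z = 1 := by
  simp [immL, imm_K_zero]

theorem imm_N_zero (z : E) : immN σ 0 z = ∫ s, s ∂σ := by
  simp [immN, imm_K_zero]

theorem immlaw_K_le_ball {t : ℝ} (ht : 0 ≤ t) (s z₀ z : E) (hz : z ∈ Metric.ball z₀ 1) :
    immK t s z ≤ Real.exp ((‖z₀‖ + 1) ^ 2 / 2) := by
  refine (imm_K_le ht s z).trans (Real.exp_le_exp.mpr ?_)
  have h1 : ‖z‖ ≤ ‖z₀‖ + 1 := by
    have h2 : ‖z - z₀‖ < 1 := by simpa [dist_eq_norm] using hz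
    have h3 : ‖z‖ ≤ ‖z₀‖ + ‖z - z₀‖ := by
      calc ‖z‖ = ‖z₀ + (z - z₀)‖ := by congr 1; abel
        _ ≤ _ := norm_add_le _ _
    linarith
  have h0 := norm_nonneg z
  gcongr

theorem imm_L_continuous {t : ℝ} (ht : 0 ≤ t) : Continuous (immL σ t) := by
  rw [continuous_iff_continuousAt]
  intro z₀
  unfold immL
  refine continuousAt_of_dominated (bound := fun _ => Real.exp ((‖z₀‖ + 1) ^ 2 / 2))
    (Filter.Eventually.of_forall fun z => (immlaw_K_cont_s t z).aestronglyMeasurable) ?_ (integrable_const _)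
    (Filter.Eventually.of_forall fun s => (immlaw_K_cont_z t s).continuousAt)
  filter_upwards [Metric.ball_mem_nhds z₀ one_pos] with z hz
  refine Filter.Eventually.of_forall fun s => ?_
  rw [Real.norm_eq_abs, abs_of_pos (imm_K_pos t s z)]
  exact immlaw_K_le_ball ht s z₀ z hz

theorem imm_N_continuous (hσ : Integrable (fun s => ‖s‖ ^ 2) σ) {t : ℝ} (ht : 0 ≤ t) : Continuous (immN σ t) := by
  rw [continuous_iff_continuousAt]
  intro z₀
  unfold immN
  refine continuousAt_of_dominated (bound := fun s => Real.exp ((‖z₀‖ + 1) ^ 2 / 2) * ‖s‖)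
    (Filter.Eventually.of_forall fun z => ((immlaw_K_cont_s t z).smul continuous_id).aestronglyMeasurable) ?_
    ((immlaw_norm_int hσ).const_mul _)
    (Filter.Eventually.of_forall fun s => ((immlaw_K_cont_z t s).smul continuous_const).continuousAt)
  filter_upwards [Metric.ball_mem_nhds z₀ one_pos] with z hz
  refine Filter.Eventually.of_forall fun s => ?_
  rw [norm_smul, Real.norm_eq_abs, abs_of_pos (imm_K_pos t s z)]
  exact mul_le_mul_of_nonneg_right (immlaw_K_le_ball ht s z₀ z hz) (norm_nonneg s)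

theorem imm_M_continuous (hσ : Integrable (fun s => ‖s‖ ^ 2) σ) {t : ℝ} (ht : 0 ≤ t) : Continuous (immM σ t) := by
  unfold immM
  exact ((imm_L_continuous ht).inv₀ fun z => (imm_L_pos ht z).ne').smul (imm_N_continuous hσ ht)

/-- weighted kernel is integrable on the product -/
theorem immlaw_Kw_prod {t : ℝ} (ht : 0 ≤ t) (w : E → ℝ) (hw : Integrable w σ) :
    Integrable (fun p : E × E => immK t p.1 p.2 * w p.1) (σ.prod (stdGaussian E)) := by
  have hm : AEStronglyMeasurable (fun p : E × E => immK t p.1 p.2 * w p.1) (σ.prod (stdGaussian E)) :=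
    (imm_K_continuous t).aestronglyMeasurable.mul hw.1.comp_fst
  rw [integrable_prod_iff hm]
  refine ⟨Filter.Eventually.of_forall fun s => (imm_K_integrable ht s).mul_const (w s), ?_⟩
  have h : ∀ s : E, ∫ z, ‖immK t s z * w s‖ ∂(stdGaussian E) = ‖w s‖ := by
    intro s
    simp_rw [norm_mul, Real.norm_eq_abs (immK t s _), abs_of_pos (imm_K_pos t s _)]
    rw [integral_mul_const, imm_K_integral ht, one_mul]
  simp_rw [h]
  exact hw.norm

theorem immlaw_Kw_integrable {t : ℝ} (ht : 0 ≤ t) (w : E → ℝ) (hw : Integrable w σ) :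
    Integrable (fun z => ∫ s, immK t s z * w s ∂σ) (stdGaussian E) :=
  (immlaw_Kw_prod ht w hw).integral_prod_right

theorem immlaw_Kw_integral {t : ℝ} (ht : 0 ≤ t) (w : E → ℝ) (hw : Integrable w σ) :
    ∫ z, ∫ s, immK t s z * w s ∂σ ∂(stdGaussian E) = ∫ s, w s ∂σ := by
  rw [← integral_integral_swap (f := fun s z => immK t s z * w s) (immlaw_Kw_prod ht w hw)]
  refine integral_congr_ae (Filter.Eventually.of_forall fun s => ?_)
  simp only
  rw [integral_mul_const, imm_K_integral ht, one_mul]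

theorem imm_L_integrable {t : ℝ} (ht : 0 ≤ t) : Integrable (immL σ t) (stdGaussian E) := by
  have h := immlaw_Kw_integrable (σ := σ) ht (fun _ => 1) (integrable_const _)
  simp only [mul_one] at h
  exact h

theorem imm_L_integral {t : ℝ} (ht : 0 ≤ t) : ∫ z, immL σ t z ∂(stdGaussian E) = 1 := by
  have h := immlaw_Kw_integral (σ := σ) ht (fun _ => 1) (integrable_const _)
  simp only [mul_one] at h
  rw [integral_const] at h
  simpa [immL] using h

theorem immlaw_K_hasFDerivAt (t : ℝ) (s z : E) :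
    HasFDerivAt (fun z => immK t s z) ((Real.sqrt t * immK t s z) • innerSL ℝ s) z := by
  unfold immK
  have h1 : HasFDerivAt (fun z : E => Real.sqrt t * inner ℝ s z - t * ‖s‖ ^ 2 / 2) (Real.sqrt t • innerSL ℝ s) z :=
    (((innerSL ℝ s).hasFDerivAt).const_mul (Real.sqrt t)).sub_const _
  have h2 := h1.exp
  convert h2 using 1
  rw [smul_smul, mul_comm]

/-- Tweedie: `∇ L = √t N` -/
theorem imm_L_hasGradientAt (hσ : Integrable (fun s => ‖s‖ ^ 2) σ) {t : ℝ} (ht : 0 ≤ t) (z : E) :
    HasGradientAt (immL σ t) (Real.sqrt t • immN σ t z) z := by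
  have hmeas : ∀ z : E, AEStronglyMeasurable (fun s => (Real.sqrt t * immK t s z) • innerSL ℝ s) σ := by
    intro z
    refine Continuous.aestronglyMeasurable ?_
    exact (continuous_const.mul (immlaw_K_cont_s t z)).smul (innerSL ℝ).continuous
  have hbd : ∀ s : E, ∀ x ∈ Metric.ball z 1, ‖(Real.sqrt t * immK t s x) • innerSL ℝ s‖ ≤
      Real.sqrt t * Real.exp ((‖z‖ + 1) ^ 2 / 2) * ‖s‖ := by
    intro s x hx
    rw [norm_smul, innerSL_apply_norm, Real.norm_eq_abs,
      abs_of_nonneg (mul_nonneg (Real.sqrt_nonneg t) (imm_K_pos t s x).le)]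
    exact mul_le_mul_of_nonneg_right
      (mul_le_mul_of_nonneg_left (immlaw_K_le_ball ht s z x hx) (Real.sqrt_nonneg t)) (norm_nonneg s)
  have hbi : Integrable (fun s : E => Real.sqrt t * Real.exp ((‖z‖ + 1) ^ 2 / 2) * ‖s‖) σ :=
    (immlaw_norm_int hσ).const_mul _
  have key := hasFDerivAt_integral_of_dominated_of_fderiv_le (μ := σ) (𝕜 := ℝ)
    (F := fun z s => immK t s z) (F' := fun z s => (Real.sqrt t * immK t s z) • innerSL ℝ s)
    (x₀ := z) (s := Metric.ball z 1) (bound := fun s => Real.sqrt t * Real.exp ((‖z‖ + 1) ^ 2 / 2) * ‖s‖)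
    (Metric.ball_mem_nhds z one_pos)
    (Filter.Eventually.of_forall fun z => (immlaw_K_cont_s t z).aestronglyMeasurable)
    (imm_K_int ht z) (hmeas z) (Filter.Eventually.of_forall hbd) hbi
    (Filter.Eventually.of_forall fun s x _ => immlaw_K_hasFDerivAt t s x)
  rw [hasGradientAt_iff_hasFDerivAt]
  have hint : Integrable (fun s => (Real.sqrt t * immK t s z) • innerSL ℝ s) σ :=
    hbi.mono' (hmeas z) (Filter.Eventually.of_forall fun s => hbd s z (Metric.mem_ball_self one_pos))
  have heq : InnerProductSpace.toDual ℝ E (Real.sqrt t • immN σ t z) =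
      ∫ s, (Real.sqrt t * immK t s z) • innerSL ℝ s ∂σ := ?_
  · rw [heq]
    exact key
  ext v
  rw [ContinuousLinearMap.integral_apply hint]
  simp only [InnerProductSpace.toDual_apply_apply, _root_.smul_apply, innerSL_apply_apply, smul_eq_mul]
  unfold immN
  rw [inner_smul_left, real_inner_comm, ← integral_inner (imm_Ks_int hσ ht z), ← integral_const_mul]
  refine integral_congr_ae (Filter.Eventually.of_forall fun s => ?_)
  simp only [inner_smul_right, real_inner_comm]
  simp
  ring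

theorem imm_L_contDiff (hσ : Integrable (fun s => ‖s‖ ^ 2) σ) {t : ℝ} (ht : 0 ≤ t) : ContDiff ℝ 1 (immL σ t) := by
  rw [contDiff_one_iff_fderiv]
  refine ⟨fun z => (imm_L_hasGradientAt hσ ht z).differentiableAt, ?_⟩
  have h : fderiv ℝ (immL σ t) = fun z => InnerProductSpace.toDual ℝ E (Real.sqrt t • immN σ t z) := by
    ext1 z
    exact (imm_L_hasGradientAt hσ ht z).hasFDerivAt.fderiv
  rw [h]
  exact (InnerProductSpace.toDual ℝ E).continuous.comp (continuous_const.smul (imm_N_continuous hσ ht))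

/-- the joint function `K(s,z) f(z)` is integrable on the product -/
theorem immlaw_Kf_prod {F : Type} [NormedAddCommGroup F] [NormedSpace ℝ F] {t : ℝ} (ht : 0 ≤ t) (f : E → F)
    (hm : AEStronglyMeasurable f (stdGaussian E))
    (hf : Integrable (fun p : E × E => f (Real.sqrt t • p.1 + p.2)) (σ.prod (stdGaussian E))) :
    Integrable (fun p : E × E => immK t p.1 p.2 • f p.2) (σ.prod (stdGaussian E)) := by
  have hm' : AEStronglyMeasurable (fun p : E × E => immK t p.1 p.2 • f p.2) (σ.prod (stdGaussian E)) :=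
    (imm_K_continuous t).aestronglyMeasurable.smul hm.comp_snd
  rw [integrable_prod_iff hm']
  constructor
  · filter_upwards [hf.prod_right_ae] with s hs
    exact (imm_shift_integrable ht s f hm).2 hs
  · have h : ∀ s : E, ∫ z, ‖immK t s z • f z‖ ∂(stdGaussian E) =
        ∫ g, ‖f (Real.sqrt t • s + g)‖ ∂(stdGaussian E) := by
      intro s
      rw [← imm_shift_integral ht s (fun z => ‖f z‖)]
      refine integral_congr_ae (Filter.Eventually.of_forall fun z => ?_)
      simp only [norm_smul, Real.norm_eq_abs, abs_of_pos (imm_K_pos t s z), smul_eq_mul]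
    simp_rw [h]
    exact hf.norm.integral_prod_left

/-- general Fubini rule: integrals against `L dγ` are integrals against the joint law of `(S, Z_t)` -/
theorem imm_L_integral_smul {F : Type} [NormedAddCommGroup F] [NormedSpace ℝ F] {t : ℝ} (ht : 0 ≤ t) (f : E → F)
    (hm : AEStronglyMeasurable f (stdGaussian E))
    (hf : Integrable (fun p : E × E => f (Real.sqrt t • p.1 + p.2)) (σ.prod (stdGaussian E))) :
    Integrable (fun z => immL σ t z • f z) (stdGaussian E) ∧
      ∫ z, immL σ t z • f z ∂(stdGaussian E) =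
        ∫ p, f (Real.sqrt t • p.1 + p.2) ∂(σ.prod (stdGaussian E)) := by
  constructor
  · -- integrability through the norm (no completeness needed)
    have h1 := (immlaw_Kf_prod ht (fun z => ‖f z‖) hm.norm hf.norm).integral_prod_right
    have h2 : ∀ z : E, ∫ s, immK t s z • ‖f z‖ ∂σ = ‖immL σ t z • f z‖ := by
      intro z
      rw [integral_smul_const, norm_smul, Real.norm_eq_abs, abs_of_pos (imm_L_pos ht z), smul_eq_mul]
      rfl
    simp only [h2] at h1
    exact (integrable_norm_iff ((imm_L_continuous ht).aestronglyMeasurable.smul hm)).1 h1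
  · by_cases hF : CompleteSpace F
    · have h1 := immlaw_Kf_prod ht f hm hf
      rw [integral_prod _ hf]
      have h2 := integral_integral_swap (f := fun s z => immK t s z • f z) h1
      have h3 : ∀ z : E, ∫ s, immK t s z • f z ∂σ = immL σ t z • f z := by
        intro z
        rw [integral_smul_const]
        rfl
      simp only [h3] at h2
      rw [← h2]
      refine integral_congr_ae (Filter.Eventually.of_forall fun s => ?_)
      exact imm_shift_integral ht s f
    · rw [integral_of_not_completeSpace hF, integral_of_not_completeSpace hF]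

theorem immlaw_sq_prod (hσ : Integrable (fun s => ‖s‖ ^ 2) σ) (t : ℝ) :
    Integrable (fun p : E × E => ‖Real.sqrt t • p.1 + p.2‖ ^ 2) (σ.prod (stdGaussian E)) := by
  have h1 : Integrable (fun p : E × E => 2 * (Real.sqrt t ^ 2 * ‖p.1‖ ^ 2) + 2 * ‖p.2‖ ^ 2) (σ.prod (stdGaussian E)) :=
    (((hσ.comp_fst (stdGaussian E)).const_mul _).const_mul 2).add
      ((immker_norm_sq_integrable.comp_snd σ).const_mul 2)
  refine h1.mono' (by fun_prop) (Filter.Eventually.of_forall fun p => ?_)
  rw [Real.norm_eq_abs, abs_of_nonneg (by positivity)]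
  have h2 : ‖Real.sqrt t • p.1 + p.2‖ ≤ Real.sqrt t * ‖p.1‖ + ‖p.2‖ := by
    refine (norm_add_le _ _).trans ?_
    rw [norm_smul, Real.norm_eq_abs, abs_of_nonneg (Real.sqrt_nonneg t)]
  have h3 : ‖Real.sqrt t • p.1 + p.2‖ ^ 2 ≤ (Real.sqrt t * ‖p.1‖ + ‖p.2‖) ^ 2 := by
    gcongr
  nlinarith [sq_nonneg (Real.sqrt t * ‖p.1‖ - ‖p.2‖)]

theorem immlaw_id_prod (hσ : Integrable (fun s => ‖s‖ ^ 2) σ) (t : ℝ) :
    Integrable (fun p : E × E => Real.sqrt t • p.1 + p.2) (σ.prod (stdGaussian E)) := by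
  have h1 : Integrable (fun g : E => g) (stdGaussian E) := IsGaussian.integrable_id
  exact (((imm_norm_int hσ).comp_fst (stdGaussian E)).smul (Real.sqrt t)).add (h1.comp_snd σ)

theorem imm_L_sq_integrable (hσ : Integrable (fun s => ‖s‖ ^ 2) σ) {t : ℝ} (ht : 0 ≤ t) :
    Integrable (fun z => immL σ t z * ‖z‖ ^ 2) (stdGaussian E) :=
  (imm_L_integral_smul ht (fun z : E => ‖z‖ ^ 2) (by fun_prop) (immlaw_sq_prod hσ t)).1

theorem imm_L_id_integrable (hσ : Integrable (fun s => ‖s‖ ^ 2) σ) {t : ℝ} (ht : 0 ≤ t) :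
    Integrable (fun z => immL σ t z • z) (stdGaussian E) :=
  (imm_L_integral_smul ht (fun z : E => z) (by fun_prop) (immlaw_id_prod hσ t)).1

/-- the mean of `Z_t` -/
theorem imm_L_mean (hσ : Integrable (fun s => ‖s‖ ^ 2) σ) {t : ℝ} (ht : 0 ≤ t) :
    ∫ z, immL σ t z • z ∂(stdGaussian E) = Real.sqrt t • ∫ s, s ∂σ := by
  rw [(imm_L_integral_smul ht (fun z : E => z) (by fun_prop) (immlaw_id_prod hσ t)).2]
  have h1 : Integrable (fun g : E => g) (stdGaussian E) := IsGaussian.integrable_id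
  have h2 : Integrable (fun p : E × E => Real.sqrt t • p.1) (σ.prod (stdGaussian E)) :=
    ((imm_norm_int hσ).comp_fst (stdGaussian E)).smul (Real.sqrt t)
  rw [integral_add h2 (h1.comp_snd σ),
    integral_smul, integral_fun_fst (fun s : E => s), integral_fun_snd (fun s : E => s), integral_id_stdGaussian]
  simp

theorem imm_M_sq_le (hσ : Integrable (fun s => ‖s‖ ^ 2) σ) {t : ℝ} (ht : 0 ≤ t) (z : E) :
    ‖immM σ t z‖ ^ 2 * immL σ t z ≤ ∫ s, immK t s z * ‖s‖ ^ 2 ∂σ := by
  set m := immM σ t z with hm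
  have hL := imm_L_pos (σ := σ) ht z
  have hN : immN σ t z = immL σ t z • m := by
    rw [hm, immM, smul_smul, mul_inv_cancel₀ hL.ne', one_smul]
  have h0 : 0 ≤ ∫ s, immK t s z * ‖s - m‖ ^ 2 ∂σ :=
    integral_nonneg fun s => mul_nonneg (imm_K_pos t s z).le (by positivity)
  have h1 : ∀ s : E, immK t s z * ‖s - m‖ ^ 2 =
      immK t s z * ‖s‖ ^ 2 - 2 * inner ℝ m (immK t s z • s) + ‖m‖ ^ 2 * immK t s z := by
    intro s
    rw [norm_sub_sq_real, inner_smul_right, real_inner_comm]
    ring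
  simp_rw [h1] at h0
  have hi : Integrable (fun s => inner ℝ m (immK t s z • s)) σ := (imm_Ks_int hσ ht z).const_inner m
  have hi2 : Integrable (fun s => immK t s z * ‖s‖ ^ 2 - 2 * inner ℝ m (immK t s z • s)) σ :=
    (imm_Kss_int hσ ht z).sub (hi.const_mul 2)
  rw [integral_add hi2 ((imm_K_int ht z).const_mul _), integral_sub (imm_Kss_int hσ ht z) (hi.const_mul 2),
    integral_const_mul, integral_const_mul, integral_inner (imm_Ks_int hσ ht z)] at h0
  change 0 ≤ ∫ s, immK t s z * ‖s‖ ^ 2 ∂σ - 2 * inner ℝ m (immN σ t z) + ‖m‖ ^ 2 * immL σ t z at h0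
  rw [hN, inner_smul_right, real_inner_self_eq_norm_sq] at h0
  linarith

theorem imm_G_integrable (hσ : Integrable (fun s => ‖s‖ ^ 2) σ) {t : ℝ} (ht : 0 ≤ t) :
    Integrable (fun z => ‖immM σ t z‖ ^ 2 * immL σ t z) (stdGaussian E) := by
  refine (immlaw_Kw_integrable ht _ hσ).mono'
    (((imm_M_continuous hσ ht).norm.pow 2).mul (imm_L_continuous ht)).aestronglyMeasurable
    (Filter.Eventually.of_forall fun z => ?_)
  rw [Real.norm_eq_abs, abs_of_nonneg (mul_nonneg (by positivity) (imm_L_pos ht z).le)]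
  exact imm_M_sq_le hσ ht z

theorem imm_G_nonneg {t : ℝ} (ht : 0 ≤ t) : 0 ≤ immG σ t :=
  integral_nonneg fun z => mul_nonneg (by positivity) (imm_L_pos ht z).le

theorem imm_G_le (hσ : Integrable (fun s => ‖s‖ ^ 2) σ) {t : ℝ} (ht : 0 ≤ t) : immG σ t ≤ ∫ s, ‖s‖ ^ 2 ∂σ := by
  rw [← immlaw_Kw_integral ht _ hσ]
  exact integral_mono (imm_G_integrable hσ ht) (immlaw_Kw_integrable ht _ hσ) fun z => imm_M_sq_le hσ ht z

theorem imm_G_zero : immG σ 0 = ‖∫ s, s ∂σ‖ ^ 2 := by
  simp [immG, immM, imm_L_zero, imm_N_zero]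

theorem immlaw_KlogK_eq (t : ℝ) (s z : E) :
    immK t s z * Real.log (immK t s z) = immK t s z * (Real.sqrt t * inner ℝ s z - t * ‖s‖ ^ 2 / 2) := by
  congr 1
  unfold immK
  rw [Real.log_exp]

theorem immlaw_KlogK_cont (t : ℝ) : Continuous fun p : E × E => immK t p.1 p.2 * Real.log (immK t p.1 p.2) := by
  simp_rw [immlaw_KlogK_eq]
  exact (imm_K_continuous t).mul (by fun_prop)

theorem immlaw_KlogK_int (hσ : Integrable (fun s => ‖s‖ ^ 2) σ) {t : ℝ} (ht : 0 ≤ t) (z : E) :
    Integrable (fun s => immK t s z * Real.log (immK t s z)) σ := by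
  have hb : Integrable (fun s : E => Real.exp (‖z‖ ^ 2 / 2) * (Real.sqrt t * ‖z‖ * ‖s‖ + t / 2 * ‖s‖ ^ 2)) σ :=
    (((immlaw_norm_int hσ).const_mul _).add (hσ.const_mul _)).const_mul _
  refine hb.mono' ((immlaw_KlogK_cont t).comp (Continuous.prodMk continuous_id continuous_const)).aestronglyMeasurable
    (Filter.Eventually.of_forall fun s => ?_)
  rw [immlaw_KlogK_eq, norm_mul, Real.norm_eq_abs, abs_of_pos (imm_K_pos t s z), Real.norm_eq_abs]
  have h1 : |Real.sqrt t * inner ℝ s z - t * ‖s‖ ^ 2 / 2| ≤ Real.sqrt t * ‖z‖ * ‖s‖ + t / 2 * ‖s‖ ^ 2 := by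
    have h2 : |inner ℝ s z| ≤ ‖s‖ * ‖z‖ := abs_real_inner_le_norm s z
    calc |Real.sqrt t * inner ℝ s z - t * ‖s‖ ^ 2 / 2| ≤ |Real.sqrt t * inner ℝ s z| + |t * ‖s‖ ^ 2 / 2| := abs_sub _ _
      _ = Real.sqrt t * |inner ℝ s z| + t * ‖s‖ ^ 2 / 2 := by
          rw [abs_mul, abs_of_nonneg (Real.sqrt_nonneg t),
            abs_of_nonneg (by positivity : 0 ≤ t * ‖s‖ ^ 2 / 2)]
      _ ≤ Real.sqrt t * (‖s‖ * ‖z‖) + t * ‖s‖ ^ 2 / 2 := by gcongr
      _ = _ := by ring
  exact mul_le_mul (imm_K_le ht s z) h1 (abs_nonneg _) (Real.exp_pos _).le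

theorem immlaw_mul_log_ge {x : ℝ} (hx : 0 < x) : x - 1 ≤ x * Real.log x := by
  have h := Real.one_sub_inv_le_log_of_pos hx
  have h2 := mul_le_mul_of_nonneg_left h hx.le
  rw [mul_sub, mul_one, mul_inv_cancel₀ hx.ne'] at h2
  exact h2

theorem immlaw_abs_mul_log_le {x : ℝ} (hx : 0 < x) : |x * Real.log x| ≤ x * Real.log x + 2 := by
  have h := immlaw_mul_log_ge hx
  rw [abs_le]
  constructor <;> linarith

theorem immlaw_KlogK_prod (hσ : Integrable (fun s => ‖s‖ ^ 2) σ) {t : ℝ} (ht : 0 ≤ t) :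
    Integrable (fun p : E × E => immK t p.1 p.2 * Real.log (immK t p.1 p.2)) (σ.prod (stdGaussian E)) := by
  have hm := (immlaw_KlogK_cont (E := E) t).aestronglyMeasurable (μ := σ.prod (stdGaussian E))
  rw [integrable_prod_iff hm]
  refine ⟨Filter.Eventually.of_forall fun s => imm_K_log_integrable ht s, ?_⟩
  have hb : Integrable (fun s : E => t / 2 * ‖s‖ ^ 2 + 2) σ := (hσ.const_mul _).add (integrable_const _)
  refine hb.mono' hm.norm.integral_prod_right' (Filter.Eventually.of_forall fun s => ?_)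
  rw [Real.norm_eq_abs, abs_of_nonneg (integral_nonneg fun z => norm_nonneg _)]
  calc ∫ z, ‖immK t s z * Real.log (immK t s z)‖ ∂(stdGaussian E)
      ≤ ∫ z, (immK t s z * Real.log (immK t s z) + 2) ∂(stdGaussian E) :=
        integral_mono (imm_K_log_integrable ht s).norm ((imm_K_log_integrable ht s).add (integrable_const _))
          fun z => immlaw_abs_mul_log_le (imm_K_pos t s z)
    _ = t / 2 * ‖s‖ ^ 2 + 2 := by
        rw [integral_add (imm_K_log_integrable ht s) (integrable_const _), imm_K_log_integral ht]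
        simp
        ring

theorem immlaw_jensen (hσ : Integrable (fun s => ‖s‖ ^ 2) σ) {t : ℝ} (ht : 0 ≤ t) (z : E) :
    immL σ t z * Real.log (immL σ t z) ≤ ∫ s, immK t s z * Real.log (immK t s z) ∂σ :=
  Real.convexOn_mul_log.map_integral_le (μ := σ) (f := fun s => immK t s z) Real.continuous_mul_log.continuousOn
    isClosed_Ici (Filter.Eventually.of_forall fun s => (imm_K_pos t s z).le) (imm_K_int ht z)
    (immlaw_KlogK_int hσ ht z)

theorem imm_D_integrable (hσ : Integrable (fun s => ‖s‖ ^ 2) σ) {t : ℝ} (ht : 0 ≤ t) :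
    Integrable (fun z => immL σ t z * Real.log (immL σ t z)) (stdGaussian E) := by
  have hB : Integrable (fun z => ∫ s, immK t s z * Real.log (immK t s z) ∂σ) (stdGaussian E) :=
    (immlaw_KlogK_prod hσ ht).integral_prod_right
  have hb : Integrable (fun z => ‖∫ s, immK t s z * Real.log (immK t s z) ∂σ‖ + (immL σ t z + 1)) (stdGaussian E) :=
    hB.norm.add ((imm_L_integrable ht).add (integrable_const _))
  refine hb.mono' ?_ (Filter.Eventually.of_forall fun z => ?_)
  · exact (Real.continuous_mul_log.comp (imm_L_continuous ht)).aestronglyMeasurable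
  · have h1 := immlaw_jensen hσ ht z
    have h2 := immlaw_mul_log_ge (imm_L_pos (σ := σ) ht z)
    have h3 := imm_L_pos (σ := σ) ht z
    have h4 := le_abs_self (∫ s, immK t s z * Real.log (immK t s z) ∂σ)
    rw [Real.norm_eq_abs, Real.norm_eq_abs, abs_le]
    constructor <;> linarith [abs_nonneg (∫ s, immK t s z * Real.log (immK t s z) ∂σ)]

theorem imm_D_nonneg (hσ : Integrable (fun s => ‖s‖ ^ 2) σ) {t : ℝ} (ht : 0 ≤ t) : 0 ≤ immD σ t := by
  have h1 : ∫ z, (immL σ t z - 1) ∂(stdGaussian E) = 0 := by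
    rw [integral_sub (imm_L_integrable ht) (integrable_const _), imm_L_integral ht]
    simp
  rw [← h1]
  exact integral_mono ((imm_L_integrable ht).sub (integrable_const _)) (imm_D_integrable hσ ht)
    fun z => immlaw_mul_log_ge (imm_L_pos ht z)

theorem imm_D_le (hσ : Integrable (fun s => ‖s‖ ^ 2) σ) {t : ℝ} (ht : 0 ≤ t) :
    immD σ t ≤ t / 2 * ∫ s, ‖s‖ ^ 2 ∂σ := by
  have hB : Integrable (fun z => ∫ s, immK t s z * Real.log (immK t s z) ∂σ) (stdGaussian E) :=
    (immlaw_KlogK_prod hσ ht).integral_prod_right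
  calc immD σ t ≤ ∫ z, ∫ s, immK t s z * Real.log (immK t s z) ∂σ ∂(stdGaussian E) :=
        integral_mono (imm_D_integrable hσ ht) hB fun z => immlaw_jensen hσ ht z
    _ = ∫ s, ∫ z, immK t s z * Real.log (immK t s z) ∂(stdGaussian E) ∂σ :=
        (integral_integral_swap (f := fun s z => immK t s z * Real.log (immK t s z)) (immlaw_KlogK_prod hσ ht)).symm
    _ = ∫ s, t / 2 * ‖s‖ ^ 2 ∂σ := by
        refine integral_congr_ae (Filter.Eventually.of_forall fun s => ?_)
        simp only
        rw [imm_K_log_integral ht]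
        ring
    _ = t / 2 * ∫ s, ‖s‖ ^ 2 ∂σ := integral_const_mul _ _

theorem imm_D_zero : immD σ 0 = 0 := by
  simp [immD, imm_L_zero]

end Claimed.Agent.R259
end

/- ===== packed: Claimed.Agent.R259.ImmsePost ===== -/
section
/-
Row 259, kit IMMSE, leaf group POST: the posterior law `immPost σ t z` of the signal.
Statements: helper147.  Inputs: ImmseKer.lean, ImmseLaw.lean (black boxes).
Hints.  `integral_withDensity_eq_integral_smul`, `integrable_withDensity_iff_integrable_smul'`; `imm_K_mul`.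
-/
set_option autoImplicit false

open MeasureTheory ProbabilityTheory
open scoped ENNReal

namespace Claimed.Agent.R259

variable {E : Type} [NormedAddCommGroup E] [InnerProductSpace ℝ E] [FiniteDimensional ℝ E]
  [MeasurableSpace E] [BorelSpace E]

variable {σ : Measure E} [IsProbabilityMeasure σ]

theorem immpost_dens_meas (σ : Measure E) (t : ℝ) (z : E) :
    Measurable fun s => ENNReal.ofReal (immK t s z / immL σ t z) :=
  ((immlaw_K_cont_s t z).measurable.div_const _).ennreal_ofReal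

theorem immpost_dens_toReal {t : ℝ} (ht : 0 ≤ t) (z s : E) :
    (ENNReal.ofReal (immK t s z / immL σ t z)).toReal = (immL σ t z)⁻¹ * immK t s z := by
  rw [ENNReal.toReal_ofReal (div_nonneg (imm_K_pos t s z).le (imm_L_pos ht z).le), div_eq_mul_inv, mul_comm]

theorem imm_post_integral {F : Type} [NormedAddCommGroup F] [NormedSpace ℝ F] {t : ℝ} (ht : 0 ≤ t) (z : E)
    (f : E → F) :
    ∫ s, f s ∂(immPost σ t z) = (immL σ t z)⁻¹ • ∫ s, immK t s z • f s ∂σ := by
  unfold immPost
  rw [integral_withDensity_eq_integral_toReal_smul (immpost_dens_meas σ t z)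
    (Filter.Eventually.of_forall fun _ => ENNReal.ofReal_lt_top), ← integral_smul]
  simp_rw [immpost_dens_toReal ht, mul_smul]

theorem imm_post_integrable_iff {F : Type} [NormedAddCommGroup F] [NormedSpace ℝ F] {t : ℝ} (ht : 0 ≤ t) (z : E)
    (f : E → F) :
    Integrable f (immPost σ t z) ↔ Integrable (fun s => immK t s z • f s) σ := by
  unfold immPost
  rw [integrable_withDensity_iff_integrable_smul' (immpost_dens_meas σ t z)
    (Filter.Eventually.of_forall fun _ => ENNReal.ofReal_lt_top)]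
  simp_rw [immpost_dens_toReal ht, mul_smul]
  exact integrable_smul_iff (inv_ne_zero (imm_L_pos ht z).ne') _

theorem imm_post_prob {t : ℝ} (ht : 0 ≤ t) (z : E) : IsProbabilityMeasure (immPost σ t z) := by
  constructor
  unfold immPost
  rw [withDensity_apply _ MeasurableSet.univ, Measure.restrict_univ,
    ← ofReal_integral_eq_lintegral_ofReal ((imm_K_int ht z).div_const _)
      (Filter.Eventually.of_forall fun s => div_nonneg (imm_K_pos t s z).le (imm_L_pos ht z).le),
    integral_div]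
  change ENNReal.ofReal (immL σ t z / immL σ t z) = 1
  rw [div_self (imm_L_pos ht z).ne', ENNReal.ofReal_one]

theorem imm_post_mom (hσ : Integrable (fun s => ‖s‖ ^ 2) σ) {t : ℝ} (ht : 0 ≤ t) (z : E) :
    Integrable (fun s => ‖s‖ ^ 2) (immPost σ t z) :=
  (imm_post_integrable_iff ht z _).2 (imm_Kss_int hσ ht z)

theorem imm_post_mean {t : ℝ} (ht : 0 ≤ t) (z : E) : ∫ s, s ∂(immPost σ t z) = immM σ t z :=
  imm_post_integral ht z fun s => s

theorem imm_post_L {a b : ℝ} (ha : 0 ≤ a) (hb : 0 ≤ b) (hab : 0 < a + b) (z z' : E) :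
    immL (immPost σ a z) b z' = immL σ (a + b) (immRot a b (z, z')) / immL σ a z := by
  unfold immL
  rw [imm_post_integral ha z]
  simp_rw [smul_eq_mul, imm_K_mul ha hb hab]
  change (immL σ a z)⁻¹ * _ = _ / immL σ a z
  rw [div_eq_mul_inv, mul_comm]

theorem imm_post_N {a b : ℝ} (ha : 0 ≤ a) (hb : 0 ≤ b) (hab : 0 < a + b) (z z' : E) :
    immN (immPost σ a z) b z' = (immL σ a z)⁻¹ • immN σ (a + b) (immRot a b (z, z')) := by
  unfold immN
  rw [imm_post_integral ha z]
  simp_rw [smul_smul, imm_K_mul ha hb hab]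

theorem imm_post_M {a b : ℝ} (ha : 0 ≤ a) (hb : 0 ≤ b) (hab : 0 < a + b) (z z' : E) :
    immM (immPost σ a z) b z' = immM σ (a + b) (immRot a b (z, z')) := by
  unfold immM
  rw [imm_post_L ha hb hab, imm_post_N ha hb hab, smul_smul, inv_div, div_eq_mul_inv, mul_comm (immL σ a z),
    mul_assoc, mul_inv_cancel₀ (imm_L_pos ha z).ne', mul_one]

end Claimed.Agent.R259
end

/- ===== packed: Claimed.Agent.R259.ImmseInc ===== -/
section
/-
Row 259, kit IMMSE, leaf group INC: increment identities (chain rule + sufficiency, in explicit form).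
Statements: helper147.  Inputs: ImmseKer, ImmseLaw, ImmsePost (black boxes).
Proof of `imm_D_add`.  With `φ x = x log x`:  `immD σ (a+b) = ∫ φ(L_{a+b}) dγ = ∫∫ φ(L_{a+b}(immRot a b (z,z'))) dγ dγ`
(`imm_rot`, `integral_map`, `integrable_map_measure`, `integral_prod`), `L_{a+b}(immRot a b (z,z')) = L_a(z) ℓ_z(z')`, `ℓ_z = immL (immPost σ a z) b`
(`imm_post_L`), `φ(L_a ℓ_z) = ℓ_z φ(L_a) + L_a φ(ℓ_z)`, `∫ ℓ_z dγ = 1` (`imm_L_integral` for the posterior, `imm_post_prob`).
Integrability of `z ↦ L_a(z) immD (post z) b`: `Integrable.integral_prod_left` minus `imm_D_integrable`.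
`imm_G_add`: the same with `imm_post_M`.
-/
set_option autoImplicit false

open MeasureTheory ProbabilityTheory
open scoped ENNReal

namespace Claimed.Agent.R259

variable {E : Type} [NormedAddCommGroup E] [InnerProductSpace ℝ E] [FiniteDimensional ℝ E]
  [MeasurableSpace E] [BorelSpace E]

variable {σ : Measure E} [IsProbabilityMeasure σ]

/-- transfer of integrability and integrals through the rotation -/
theorem imminc_rot {a b : ℝ} (ha : 0 ≤ a) (hb : 0 ≤ b) (hab : 0 < a + b) (f : E → ℝ) (hc : Continuous f)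
    (hf : Integrable f (stdGaussian E)) :
    Integrable (fun p : E × E => f (immRot a b p)) ((stdGaussian E).prod (stdGaussian E)) ∧
      ∫ w, f w ∂(stdGaussian E) = ∫ z, ∫ z', f (immRot a b (z, z')) ∂(stdGaussian E) ∂(stdGaussian E) := by
  have hR : AEMeasurable (immRot a b : E × E → E) ((stdGaussian E).prod (stdGaussian E)) :=
    (imm_rot_continuous a b).aemeasurable
  have h1 : Integrable (fun p : E × E => f (immRot a b p)) ((stdGaussian E).prod (stdGaussian E)) := by
    have h := hf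
    rw [← imm_rot (E := E) ha hb hab, integrable_map_measure hc.aestronglyMeasurable hR] at h
    exact h
  refine ⟨h1, ?_⟩
  rw [← integral_prod _ h1]
  conv_lhs => rw [← imm_rot (E := E) ha hb hab]
  rw [integral_map hR hc.aestronglyMeasurable]

theorem imminc_L_mul {a b : ℝ} (ha : 0 ≤ a) (hb : 0 ≤ b) (hab : 0 < a + b) (z z' : E) :
    immL σ (a + b) (immRot a b (z, z')) = immL σ a z * immL (immPost σ a z) b z' := by
  rw [imm_post_L ha hb hab, mul_div_cancel₀ _ (imm_L_pos ha z).ne']

theorem imm_D_add (hσ : Integrable (fun s => ‖s‖ ^ 2) σ) {a b : ℝ} (ha : 0 ≤ a) (hb : 0 < b) :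
    Integrable (fun z => immL σ a z * immD (immPost σ a z) b) (stdGaussian E) ∧
      immD σ (a + b) = immD σ a + ∫ z, immL σ a z * immD (immPost σ a z) b ∂(stdGaussian E) := by
  have hab : 0 < a + b := by linarith
  obtain ⟨h1, h2⟩ := imminc_rot ha hb.le hab (fun w => immL σ (a + b) w * Real.log (immL σ (a + b) w))
    (Real.continuous_mul_log.comp (imm_L_continuous hab.le)) (imm_D_integrable hσ hab.le)
  have h3 : ∀ z : E, ∫ z', immL σ (a + b) (immRot a b (z, z')) * Real.log (immL σ (a + b) (immRot a b (z, z')))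
      ∂(stdGaussian E) = immL σ a z * Real.log (immL σ a z) + immL σ a z * immD (immPost σ a z) b := by
    intro z
    have := imm_post_prob (σ := σ) ha z
    have hm := imm_post_mom hσ ha z
    have hLa := imm_L_pos (σ := σ) ha z
    have e : ∀ z' : E, immL σ (a + b) (immRot a b (z, z')) * Real.log (immL σ (a + b) (immRot a b (z, z'))) =
        (immL σ a z * Real.log (immL σ a z)) * immL (immPost σ a z) b z' +
          immL σ a z * (immL (immPost σ a z) b z' * Real.log (immL (immPost σ a z) b z')) := by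
      intro z'
      rw [imminc_L_mul ha hb.le hab, Real.log_mul hLa.ne' (imm_L_pos hb.le z').ne']
      ring
    simp_rw [e]
    rw [integral_add ((imm_L_integrable hb.le).const_mul _) ((imm_D_integrable hm hb.le).const_mul _),
      integral_const_mul, integral_const_mul, imm_L_integral hb.le, mul_one]
    rfl
  have h4 := h1.integral_prod_left
  simp only [h3] at h4 h2
  have h5 : Integrable (fun z => immL σ a z * immD (immPost σ a z) b) (stdGaussian E) := by
    refine (h4.sub (imm_D_integrable hσ ha)).congr (Filter.Eventually.of_forall fun z => ?_)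
    simp
  refine ⟨h5, ?_⟩
  rw [integral_add (imm_D_integrable hσ ha) h5] at h2
  exact h2

theorem imm_G_add (hσ : Integrable (fun s => ‖s‖ ^ 2) σ) {a b : ℝ} (ha : 0 ≤ a) (hb : 0 < b) :
    Integrable (fun z => immL σ a z * immG (immPost σ a z) b) (stdGaussian E) ∧
      immG σ (a + b) = ∫ z, immL σ a z * immG (immPost σ a z) b ∂(stdGaussian E) := by
  have hab : 0 < a + b := by linarith
  obtain ⟨h1, h2⟩ := imminc_rot ha hb.le hab (fun w => ‖immM σ (a + b) w‖ ^ 2 * immL σ (a + b) w)
    (((imm_M_continuous hσ hab.le).norm.pow 2).mul (imm_L_continuous hab.le)) (imm_G_integrable hσ hab.le)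
  have h3 : ∀ z : E, ∫ z', ‖immM σ (a + b) (immRot a b (z, z'))‖ ^ 2 * immL σ (a + b) (immRot a b (z, z'))
      ∂(stdGaussian E) = immL σ a z * immG (immPost σ a z) b := by
    intro z
    have e : ∀ z' : E, ‖immM σ (a + b) (immRot a b (z, z'))‖ ^ 2 * immL σ (a + b) (immRot a b (z, z')) =
        immL σ a z * (‖immM (immPost σ a z) b z'‖ ^ 2 * immL (immPost σ a z) b z') := by
      intro z'
      rw [imminc_L_mul ha hb.le hab, imm_post_M ha hb.le hab]
      ring
    simp_rw [e]
    rw [integral_const_mul]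
    rfl
  have h4 := h1.integral_prod_left
  simp only [h3] at h4 h2
  exact ⟨h4, h2⟩

end Claimed.Agent.R259
end

/- ===== packed: Claimed.Agent.R259.ImmseBd ===== -/
section
/-
Row 259, kit IMMSE, leaves LOWER and UPPER: the two bounds for the entropy of a weak observation.
Statements: helper147.  Inputs: ImmseKer, ImmseLaw (black boxes); UPPER also WS.lean, Plsi.lean, GcKernel.lean.

LOWER (`H(p | γ) ≥ |mean|²/2`).  Put `v = √b ∫ s dτ`, `q z = exp(⟨v,z⟩ - |v|²/2) = immK 1 v z`.  From `x log x ≥ x log y + x - y`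
(`x, y > 0`): `L log L ≥ L (⟨v,z⟩ - |v|²/2) + L - q`; integrate: `imm_L_mean`, `imm_L_integral`, `imm_K_integral`.

UPPER (Gaussian LSI + Tweedie).  `u = √L` is `C¹` and positive, `∇u = (√b / 2) L^{-1/2} N`, `|∇u|² = (b/4) |M|² L`;
`stdGaussian E = dm (gk 1)` (`gc_dm_gk`), `LSI (dm (gk 1)) 1` (`plsi_LSI_iso` with `ρ0` constant, `κ = 1`), `ws_H1_of_contDiff`, `ws_LSI_H1`;
`ent γ (u²) = immD τ b` because `∫ L dγ = 1`.
-/
set_option autoImplicit false

open MeasureTheory ProbabilityTheory
open scoped ENNReal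

namespace Claimed.Agent.R259

variable {E : Type} [NormedAddCommGroup E] [InnerProductSpace ℝ E] [FiniteDimensional ℝ E]
  [MeasurableSpace E] [BorelSpace E]

variable {τ : Measure E} [IsProbabilityMeasure τ]

theorem immbd_mul_log_ge {x y : ℝ} (hx : 0 < x) (hy : 0 < y) : x * Real.log y + x - y ≤ x * Real.log x := by
  have h := Real.log_le_sub_one_of_pos (div_pos hy hx)
  rw [Real.log_div hy.ne' hx.ne'] at h
  have h2 := mul_le_mul_of_nonneg_left h hx.le
  have h3 : x * (y / x - 1) = y - x := by field_simp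
  rw [h3] at h2
  linarith

theorem imm_D_lower (hτ : Integrable (fun s => ‖s‖ ^ 2) τ) {b : ℝ} (hb : 0 ≤ b) :
    b / 2 * ‖∫ s, s ∂τ‖ ^ 2 ≤ immD τ b := by
  set v : E := Real.sqrt b • ∫ s, s ∂τ with hv
  have hvn : ‖v‖ ^ 2 = b * ‖∫ s, s ∂τ‖ ^ 2 := by
    rw [hv, norm_smul, mul_pow, Real.norm_eq_abs, sq_abs, Real.sq_sqrt hb]
  have hlogq : ∀ z : E, Real.log (immK 1 v z) = inner ℝ v z - ‖v‖ ^ 2 / 2 := by
    intro z
    unfold immK
    rw [Real.log_exp]
    simp
  have hi1 : Integrable (fun z => inner ℝ v (immL τ b z • z)) (stdGaussian E) :=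
    (imm_L_id_integrable hτ hb).const_inner v
  have hi2 : Integrable (fun z => inner ℝ v (immL τ b z • z) - ‖v‖ ^ 2 / 2 * immL τ b z) (stdGaussian E) :=
    hi1.sub ((imm_L_integrable hb).const_mul _)
  have hi3 : Integrable (fun z => immL τ b z - immK 1 v z) (stdGaussian E) :=
    (imm_L_integrable hb).sub (imm_K_integrable zero_le_one v)
  have hint : ∫ z, ((inner ℝ v (immL τ b z • z) - ‖v‖ ^ 2 / 2 * immL τ b z) + (immL τ b z - immK 1 v z))
      ∂(stdGaussian E) = b / 2 * ‖∫ s, s ∂τ‖ ^ 2 := by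
    rw [integral_add hi2 hi3, integral_sub hi1 ((imm_L_integrable hb).const_mul _),
      integral_sub (imm_L_integrable hb) (imm_K_integrable zero_le_one v), integral_const_mul,
      imm_L_integral hb, imm_K_integral zero_le_one, integral_inner (imm_L_id_integrable hτ hb),
      imm_L_mean hτ hb, ← hv, real_inner_self_eq_norm_sq, hvn]
    ring
  rw [← hint]
  refine integral_mono (hi2.add hi3) (imm_D_integrable hτ hb) fun z => ?_
  have h := immbd_mul_log_ge (imm_L_pos (σ := τ) hb z) (imm_K_pos 1 v z)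
  rw [hlogq] at h
  simp only [inner_smul_right]
  linarith

theorem immbd_dm_gk : dm (gk 1 : E → ℝ) = stdGaussian E := by
  rw [gc_dm_gk one_pos]
  simp

theorem immbd_gk_continuous : Continuous (gk 1 : E → ℝ) := by
  unfold gk
  fun_prop

theorem immbd_gk_pos (z : E) : 0 < gk 1 z := by
  unfold gk
  have : (0 : ℝ) < 2 * Real.pi * 1 := by positivity
  exact mul_pos (Real.rpow_pos_of_pos this _) (Real.exp_pos _)

theorem immbd_logConc_const {c : ℝ} (hc : 0 < c) : LogConc fun _ : E => c := by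
  refine ⟨measurable_const, fun _ => hc.le, fun x y t _ _ => ?_⟩
  rw [← Real.rpow_add hc]
  simp

/-- the Gaussian logarithmic Sobolev inequality in the normalisation of the kit -/
theorem imm_gauss_LSI : LSI (stdGaussian E) 1 := by
  have hc : (0 : ℝ) < (2 * Real.pi * 1) ^ (-(Module.finrank ℝ E : ℝ) / 2) :=
    Real.rpow_pos_of_pos (by positivity) _
  have : IsProbabilityMeasure (dm (gk 1 : E → ℝ)) := by
    rw [immbd_dm_gk]
    infer_instance
  have h := plsi_LSI_iso (E := E) (p := gk 1) (immbd_logConc_const hc) one_pos 0 (fun x => by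
    unfold gk
    congr 2
    simp
    ring)
  rw [immbd_dm_gk, inv_one] at h
  exact h

theorem immbd_grad_sqrt (hτ : Integrable (fun s => ‖s‖ ^ 2) τ) {b : ℝ} (hb : 0 ≤ b) (z : E) :
    gradient (fun z => Real.sqrt (immL τ b z)) z =
      (1 / (2 * Real.sqrt (immL τ b z))) • (Real.sqrt b • immN τ b z) := by
  have h1 := (imm_L_hasGradientAt hτ hb z).hasFDerivAt
  have h2 := h1.sqrt (imm_L_pos hb z).ne'
  apply HasGradientAt.gradient
  rw [hasGradientAt_iff_hasFDerivAt]
  rw [map_smul]
  exact h2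

theorem immbd_grad_sq (hτ : Integrable (fun s => ‖s‖ ^ 2) τ) {b : ℝ} (hb : 0 ≤ b) (z : E) :
    ‖gradient (fun z => Real.sqrt (immL τ b z)) z‖ ^ 2 = b / 4 * (‖immM τ b z‖ ^ 2 * immL τ b z) := by
  have hL := imm_L_pos (σ := τ) hb z
  have hN : immN τ b z = immL τ b z • immM τ b z := by
    rw [immM, smul_smul, mul_inv_cancel₀ hL.ne', one_smul]
  rw [immbd_grad_sqrt hτ hb, hN, norm_smul, norm_smul, norm_smul, mul_pow, mul_pow, mul_pow, Real.norm_eq_abs,
    Real.norm_eq_abs, Real.norm_eq_abs, sq_abs, sq_abs, sq_abs, Real.sq_sqrt hb, div_pow, mul_pow,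
    Real.sq_sqrt hL.le]
  field_simp
  ring

theorem imm_D_upper (hτ : Integrable (fun s => ‖s‖ ^ 2) τ) {b : ℝ} (hb : 0 ≤ b) :
    immD τ b ≤ b / 2 * immG τ b := by
  have hC1 : ContDiff ℝ 1 (fun z => Real.sqrt (immL τ b z)) :=
    (imm_L_contDiff hτ hb).sqrt fun z => (imm_L_pos hb z).ne'
  have hsq : ∀ z : E, Real.sqrt (immL τ b z) ^ 2 = immL τ b z := fun z => Real.sq_sqrt (imm_L_pos hb z).le
  have hgc : Continuous (gradient fun z => Real.sqrt (immL τ b z)) := by
    have : (gradient fun z => Real.sqrt (immL τ b z)) = fun z =>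
        (1 / (2 * Real.sqrt (immL τ b z))) • (Real.sqrt b • immN τ b z) := funext (immbd_grad_sqrt hτ hb)
    rw [this]
    refine Continuous.smul ?_ (continuous_const.smul (imm_N_continuous hτ hb))
    refine continuous_const.div (continuous_const.mul (imm_L_continuous hb).sqrt) fun z => ?_
    have := Real.sqrt_pos.mpr (imm_L_pos (σ := τ) hb z)
    positivity
  have h2 : MemLp (fun z => Real.sqrt (immL τ b z)) 2 (dm (gk 1 : E → ℝ)) := by
    rw [immbd_dm_gk, memLp_two_iff_integrable_sq hC1.continuous.aestronglyMeasurable]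
    simp_rw [hsq]
    exact imm_L_integrable hb
  have hg : MemLp (gradient fun z => Real.sqrt (immL τ b z)) 2 (dm (gk 1 : E → ℝ)) := by
    rw [immbd_dm_gk, memLp_two_iff_integrable_sq_norm hgc.aestronglyMeasurable]
    simp_rw [immbd_grad_sq hτ hb]
    exact (imm_G_integrable hτ hb).const_mul _
  have hH1 := ws_H1_of_contDiff hC1 h2 hg
  have hfin : IsFiniteMeasure (dm (gk 1 : E → ℝ)) := by
    rw [immbd_dm_gk]
    infer_instance
  have hLSI : LSI (dm (gk 1 : E → ℝ)) 1 := by
    rw [immbd_dm_gk]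
    exact imm_gauss_LSI
  have key := (ws_LSI_H1 immbd_gk_continuous immbd_gk_pos hLSI hH1).2
  rw [immbd_dm_gk] at key
  simp_rw [immbd_grad_sq hτ hb] at key
  unfold ent at key
  simp_rw [hsq] at key
  rw [imm_L_integral hb, Real.log_one, mul_zero, sub_zero, integral_const_mul] at key
  unfold immD immG
  linarith

end Claimed.Agent.R259
end

/- ===== packed: Claimed.Agent.R259.Immse ===== -/
section
/-
Row 259, kit IMMSE: MAIN THEOREM for one signal law (paper Lemma 2.4 without side information), glue PROVED from the leaves.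
Owner: helper147.
-/
set_option autoImplicit false

open MeasureTheory ProbabilityTheory
open scoped ENNReal

namespace Claimed.Agent.R259

variable {E : Type} [NormedAddCommGroup E] [InnerProductSpace ℝ E] [FiniteDimensional ℝ E]
  [MeasurableSpace E] [BorelSpace E]

variable {σ : Measure E} [IsProbabilityMeasure σ]

/-- two-sided bound for the increments of the entropy -/
theorem imm_inc (hσ : Integrable (fun s => ‖s‖ ^ 2) σ) {a b : ℝ} (ha : 0 ≤ a) (hb : 0 < b) :
    b / 2 * immG σ a ≤ immD σ (a + b) - immD σ a ∧ immD σ (a + b) - immD σ a ≤ b / 2 * immG σ (a + b) := by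
  obtain ⟨hi, hD⟩ := imm_D_add hσ ha hb
  obtain ⟨hj, hG⟩ := imm_G_add hσ ha hb
  have hL : ∀ z, 0 ≤ immL σ a z := fun z => (imm_L_pos ha z).le
  constructor
  · rw [hD, add_sub_cancel_left, immG, ← integral_const_mul]
    refine integral_mono ((imm_G_integrable hσ ha).const_mul _) hi fun z => ?_
    haveI := imm_post_prob (σ := σ) ha z
    have h1 := imm_D_lower (imm_post_mom hσ ha z) hb.le
    rw [imm_post_mean ha z] at h1
    calc b / 2 * (‖immM σ a z‖ ^ 2 * immL σ a z) = immL σ a z * (b / 2 * ‖immM σ a z‖ ^ 2) := by ring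
      _ ≤ _ := mul_le_mul_of_nonneg_left h1 (hL z)
  · rw [hD, add_sub_cancel_left, hG, ← integral_const_mul]
    refine integral_mono hi (hj.const_mul _) fun z => ?_
    haveI := imm_post_prob (σ := σ) ha z
    have h1 := imm_D_upper (imm_post_mom hσ ha z) hb.le
    calc immL σ a z * immD (immPost σ a z) b ≤ immL σ a z * (b / 2 * immG (immPost σ a z) b) :=
          mul_le_mul_of_nonneg_left h1 (hL z)
      _ = b / 2 * (immL σ a z * immG (immPost σ a z) b) := by ring

/-- the prediction energy is nondecreasing in the signal strength -/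
theorem imm_G_mono (hσ : Integrable (fun s => ‖s‖ ^ 2) σ) {a c : ℝ} (ha : 0 ≤ a) (hac : a ≤ c) :
    immG σ a ≤ immG σ c := by
  rcases hac.eq_or_lt with rfl | hlt
  · exact le_rfl
  · have hb : 0 < c - a := sub_pos.2 hlt
    obtain ⟨h1, h2⟩ := imm_inc hσ ha hb
    rw [add_sub_cancel] at h1 h2
    have := h1.trans h2
    have h3 : 0 < (c - a) / 2 := by positivity
    exact le_of_mul_le_mul_left this h3

/-- **Lemma 2.4** (one law): `H(Law(√T S + G) | γ) = (1/2) ∫_0^T E|E[S | Z_v]|² dv`. -/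
theorem imm_main (hσ : Integrable (fun s => ‖s‖ ^ 2) σ) {T : ℝ} (hT : 0 ≤ T) :
    IntervalIntegrable (immG σ) volume 0 T ∧ immD σ T = 1 / 2 * ∫ v in (0 : ℝ)..T, immG σ v := by
  have key := imm_riemann (D := fun t => 2 * immD σ t) (g := immG σ) hT (fun a b ha hab _ => by
    obtain ⟨h1, h2⟩ := imm_inc hσ ha (sub_pos.2 hab)
    rw [add_sub_cancel] at h1 h2
    constructor <;> linarith)
  refine ⟨key.1, ?_⟩
  have := key.2
  simp only [imm_D_zero] at this
  linarith

end Claimed.Agent.R259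
end

/- ===== packed: Claimed.Agent.R259.ImmseLc ===== -/
section
/-
Row 259, kit IMMSE: EXPORTS in the vocabulary of EntDefs.lean (label channel `lc*` over an arbitrary base `(X, m)`, `S : X → E`),
as ordered by helper220 (brief 6802: (I1)-(I5)).     Owner: helper147.
  * BRIDGE (leaf L-imm-lc-a): `lcZ m S t = immL (m.map S) t`, `lcD m S t = immD (m.map S) t`, `lcPE m S t S = immG (m.map S) t`, ...
  * (I1), (I2), monotonicity in (I3), integral identity: PROVED here from the bridge and Immse.lean.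
  * (I3) for general `g`, (I4) (leaf L-imm-lc-b);  (I5) (leaf L-imm-lc-c).
-/
set_option autoImplicit false

open MeasureTheory ProbabilityTheory InformationTheory
open scoped ENNReal

namespace Claimed.Agent.R259

variable {E : Type} [NormedAddCommGroup E] [InnerProductSpace ℝ E] [FiniteDimensional ℝ E]
  [MeasurableSpace E] [BorelSpace E]

variable {X : Type} [MeasurableSpace X] {m : Measure X} [IsProbabilityMeasure m] {S : X → E}

/-! ### BRIDGE (leaf L-imm-lc-a; `integral_map`, `real_inner_comm`, `klFun x = x log x + 1 - x`) -/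

omit [FiniteDimensional ℝ E] [MeasurableSpace E] [BorelSpace E] [MeasurableSpace X] in
theorem lc_K_eq (S : X → E) (t : ℝ) (l : E) (x : X) : lcK S t l x = immK t (S x) l := by
  unfold lcK immK
  rw [real_inner_comm]

theorem lc_map_prob (hS : AEMeasurable S m) : IsProbabilityMeasure (m.map S) :=
  Measure.isProbabilityMeasure_map hS

theorem lc_mom (hS : MemLp S 2 m) : Integrable (fun s => ‖s‖ ^ 2) (m.map S) := by
  rw [integrable_map_measure (by fun_prop) hS.1.aemeasurable]
  exact (memLp_two_iff_integrable_sq_norm hS.1).1 hS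

theorem lc_mom_eq (hS : AEMeasurable S m) : ∫ s, ‖s‖ ^ 2 ∂(m.map S) = ∫ x, ‖S x‖ ^ 2 ∂m :=
  integral_map hS (by fun_prop)

theorem lc_Z_eq (hS : AEMeasurable S m) (t : ℝ) (l : E) : lcZ m S t l = immL (m.map S) t l := by
  unfold lcZ immL
  rw [integral_map hS (immlaw_K_cont_s t l).aestronglyMeasurable]
  simp_rw [lc_K_eq]

theorem lc_E_eq (hS : AEMeasurable S m) (t : ℝ) (l : E) : lcE m S t S l = immM (m.map S) t l := by
  unfold lcE immM immN
  have hc : Continuous fun s : E => immK t s l • s := (immlaw_K_cont_s t l).smul continuous_id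
  rw [lc_Z_eq hS, integral_map hS hc.aestronglyMeasurable]
  simp_rw [lc_K_eq]

theorem lc_PE_eq (hS : AEMeasurable S m) (t : ℝ) : lcPE m S t S = immG (m.map S) t := by
  unfold lcPE immG
  simp_rw [lc_E_eq hS, lc_Z_eq hS]

theorem lc_klFun_integrable (hS : MemLp S 2 m) {t : ℝ} (ht : 0 ≤ t) :
    Integrable (fun l => klFun (lcZ m S t l)) (stdGaussian E) := by
  have := lc_map_prob hS.1.aemeasurable
  simp_rw [lc_Z_eq hS.1.aemeasurable, klFun_apply]
  exact ((imm_D_integrable (lc_mom hS) ht).add (integrable_const _)).sub (imm_L_integrable ht)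

theorem lc_D_eq (hS : MemLp S 2 m) {t : ℝ} (ht : 0 ≤ t) : lcD m S t = immD (m.map S) t := by
  have := lc_map_prob hS.1.aemeasurable
  unfold lcD immD
  simp_rw [lc_Z_eq hS.1.aemeasurable, klFun_apply]
  have h1 : Integrable (fun l => immL (m.map S) t l * Real.log (immL (m.map S) t l) + 1) (stdGaussian E) :=
    (imm_D_integrable (lc_mom hS) ht).add (integrable_const _)
  rw [integral_sub h1 (imm_L_integrable ht),
    integral_add (imm_D_integrable (lc_mom hS) ht) (integrable_const _), imm_L_integral ht]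
  simp

/-! ### (I1), (I2), monotonicity, integral identity: glue -/

theorem lc_D_nonneg (hS : MemLp S 2 m) {t : ℝ} (ht : 0 ≤ t) : 0 ≤ lcD m S t := by
  haveI := lc_map_prob hS.1.aemeasurable
  rw [lc_D_eq hS ht]
  exact imm_D_nonneg (lc_mom hS) ht

theorem lc_D_zero (hS : MemLp S 2 m) : lcD m S 0 = 0 := by
  haveI := lc_map_prob hS.1.aemeasurable
  rw [lc_D_eq hS le_rfl]
  exact imm_D_zero

theorem lc_D_le (hS : MemLp S 2 m) {t : ℝ} (ht : 0 ≤ t) : lcD m S t ≤ t / 2 * ∫ x, ‖S x‖ ^ 2 ∂m := by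
  haveI := lc_map_prob hS.1.aemeasurable
  rw [lc_D_eq hS ht, ← lc_mom_eq hS.1.aemeasurable]
  exact imm_D_le (lc_mom hS) ht

/-- (I2): the two-sided difference inequality -/
theorem lc_D_inc (hS : MemLp S 2 m) {t₁ t₂ : ℝ} (h1 : 0 ≤ t₁) (h12 : t₁ ≤ t₂) :
    (t₂ - t₁) / 2 * lcPE m S t₁ S ≤ lcD m S t₂ - lcD m S t₁ ∧
      lcD m S t₂ - lcD m S t₁ ≤ (t₂ - t₁) / 2 * lcPE m S t₂ S := by
  haveI := lc_map_prob hS.1.aemeasurable
  rcases h12.eq_or_lt with rfl | hlt
  · simp
  · rw [lc_D_eq hS h1, lc_D_eq hS (h1.trans h12), lc_PE_eq hS.1.aemeasurable, lc_PE_eq hS.1.aemeasurable]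
    have := imm_inc (lc_mom hS) h1 (sub_pos.2 hlt)
    rwa [add_sub_cancel] at this

theorem lc_PE_mono (hS : MemLp S 2 m) {t₁ t₂ : ℝ} (h1 : 0 ≤ t₁) (h12 : t₁ ≤ t₂) :
    lcPE m S t₁ S ≤ lcPE m S t₂ S := by
  haveI := lc_map_prob hS.1.aemeasurable
  rw [lc_PE_eq hS.1.aemeasurable, lc_PE_eq hS.1.aemeasurable]
  exact imm_G_mono (lc_mom hS) h1 h12

/-- **Lemma 2.4** in the label-channel vocabulary -/
theorem lc_D_eq_integral (hS : MemLp S 2 m) {T : ℝ} (hT : 0 ≤ T) :
    IntervalIntegrable (fun v => lcPE m S v S) volume 0 T ∧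
      lcD m S T = 1 / 2 * ∫ v in (0 : ℝ)..T, lcPE m S v S := by
  haveI := lc_map_prob hS.1.aemeasurable
  have h := imm_main (lc_mom hS) hT
  have e : (fun v => lcPE m S v S) = immG (m.map S) := funext fun v => lc_PE_eq hS.1.aemeasurable v
  rw [e, lc_D_eq hS hT]
  exact h

/-! ### (I3), (I4) for general `g` (leaf L-imm-lc-b) -/

section general

variable {F : Type} [NormedAddCommGroup F] [NormedSpace ℝ F]

theorem lc_Z_pos (hS : AEMeasurable S m) {t : ℝ} (ht : 0 ≤ t) (l : E) : 0 < lcZ m S t l := by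
  haveI := lc_map_prob hS
  rw [lc_Z_eq hS]
  exact imm_L_pos ht l

theorem lc_Z_integral (hS : AEMeasurable S m) {t : ℝ} (ht : 0 ≤ t) : ∫ l, lcZ m S t l ∂(stdGaussian E) = 1 := by
  haveI := lc_map_prob hS
  simp_rw [lc_Z_eq hS]
  exact imm_L_integral ht

omit [FiniteDimensional ℝ E] [MeasurableSpace E] [BorelSpace E] [MeasurableSpace X] in
theorem lclc_K_pos (S : X → E) (t : ℝ) (l : E) (x : X) : 0 < lcK S t l x := Real.exp_pos _

theorem lclc_K_le (S : X → E) {t : ℝ} (ht : 0 ≤ t) (l : E) (x : X) : lcK S t l x ≤ Real.exp (‖l‖ ^ 2 / 2) := by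
  rw [lc_K_eq]
  exact imm_K_le ht _ _

theorem lclc_K_aesm (hS : AEMeasurable S m) (t : ℝ) (l : E) : AEStronglyMeasurable (lcK S t l) m := by
  have h : lcK S t l = fun x => immK t (S x) l := funext fun x => lc_K_eq S t l x
  rw [h]
  exact (immlaw_K_cont_s t l).comp_aestronglyMeasurable hS.aestronglyMeasurable

theorem lclc_K_aesm_prod (hS : AEMeasurable S m) (t : ℝ) :
    AEStronglyMeasurable (fun p : X × E => lcK S t p.2 p.1) (m.prod (stdGaussian E)) := by
  simp_rw [lc_K_eq]
  exact (imm_K_continuous t).comp_aestronglyMeasurable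
    (hS.aestronglyMeasurable.comp_fst.prodMk measurable_snd.aestronglyMeasurable)

theorem lclc_K_aesm_prod' (hS : AEMeasurable S m) (t : ℝ) :
    AEStronglyMeasurable (fun p : E × X => lcK S t p.1 p.2) ((stdGaussian E).prod m) := by
  simp_rw [lc_K_eq]
  exact (imm_K_continuous t).comp_aestronglyMeasurable
    (hS.aestronglyMeasurable.comp_snd.prodMk measurable_fst.aestronglyMeasurable)

theorem lclc_Kw_int (hS : AEMeasurable S m) {t : ℝ} (ht : 0 ≤ t) (l : E) {w : X → ℝ} (hw : Integrable w m) :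
    Integrable (fun x => lcK S t l x * w x) m := by
  refine (hw.norm.const_mul (Real.exp (‖l‖ ^ 2 / 2))).mono' ((lclc_K_aesm hS t l).mul hw.1)
    (Filter.Eventually.of_forall fun x => ?_)
  rw [norm_mul, Real.norm_eq_abs, abs_of_pos (lclc_K_pos S t l x)]
  exact mul_le_mul_of_nonneg_right (lclc_K_le S ht l x) (norm_nonneg _)

theorem lclc_Kg_int (hS : AEMeasurable S m) {t : ℝ} (ht : 0 ≤ t) (l : E) {g : X → F} (hg : Integrable g m) :
    Integrable (fun x => lcK S t l x • g x) m := by
  refine (hg.norm.const_mul (Real.exp (‖l‖ ^ 2 / 2))).mono' ((lclc_K_aesm hS t l).smul hg.1)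
    (Filter.Eventually.of_forall fun x => ?_)
  rw [norm_smul, Real.norm_eq_abs, abs_of_pos (lclc_K_pos S t l x)]
  exact mul_le_mul_of_nonneg_right (lclc_K_le S ht l x) (norm_nonneg _)

theorem lclc_K_int (hS : AEMeasurable S m) {t : ℝ} (ht : 0 ≤ t) (l : E) : Integrable (lcK S t l) m := by
  have := lclc_Kw_int hS ht l (integrable_const (μ := m) (1 : ℝ))
  simpa using this

theorem lclc_Kw_prod (hS : AEMeasurable S m) {t : ℝ} (ht : 0 ≤ t) {w : X → ℝ} (hw : Integrable w m) :
    Integrable (fun p : X × E => lcK S t p.2 p.1 * w p.1) (m.prod (stdGaussian E)) := by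
  have hm : AEStronglyMeasurable (fun p : X × E => lcK S t p.2 p.1 * w p.1) (m.prod (stdGaussian E)) :=
    (lclc_K_aesm_prod hS t).mul hw.1.comp_fst
  rw [integrable_prod_iff hm]
  simp_rw [lc_K_eq]
  refine ⟨Filter.Eventually.of_forall fun x => (imm_K_integrable ht (S x)).mul_const (w x), ?_⟩
  have h : ∀ x : X, ∫ z, ‖immK t (S x) z * w x‖ ∂(stdGaussian E) = ‖w x‖ := by
    intro x
    simp_rw [norm_mul, Real.norm_eq_abs (immK t (S x) _), abs_of_pos (imm_K_pos t (S x) _)]
    rw [integral_mul_const, imm_K_integral ht, one_mul]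
  simp_rw [h]
  exact hw.norm

theorem lclc_Kw_integrable (hS : AEMeasurable S m) {t : ℝ} (ht : 0 ≤ t) {w : X → ℝ} (hw : Integrable w m) :
    Integrable (fun l => ∫ x, lcK S t l x * w x ∂m) (stdGaussian E) :=
  (lclc_Kw_prod hS ht hw).integral_prod_right

theorem lclc_Kw_integral (hS : AEMeasurable S m) {t : ℝ} (ht : 0 ≤ t) {w : X → ℝ} (hw : Integrable w m) :
    ∫ l, ∫ x, lcK S t l x * w x ∂m ∂(stdGaussian E) = ∫ x, w x ∂m := by
  rw [← integral_integral_swap (f := fun x l => lcK S t l x * w x) (lclc_Kw_prod hS ht hw)]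
  refine integral_congr_ae (Filter.Eventually.of_forall fun x => ?_)
  simp only [lc_K_eq]
  rw [integral_mul_const, imm_K_integral ht, one_mul]

theorem lclc_Z_continuous (hS : AEMeasurable S m) {t : ℝ} (ht : 0 ≤ t) : Continuous (lcZ m S t) := by
  have := lc_map_prob hS
  have h : lcZ m S t = immL (m.map S) t := funext fun l => lc_Z_eq hS t l
  rw [h]
  exact imm_L_continuous ht

theorem lclc_Z_integrable (hS : AEMeasurable S m) {t : ℝ} (ht : 0 ≤ t) : Integrable (lcZ m S t) (stdGaussian E) := by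
  have := lc_map_prob hS
  have h : lcZ m S t = immL (m.map S) t := funext fun l => lc_Z_eq hS t l
  rw [h]
  exact imm_L_integrable ht

theorem lclc_E_aesm (hS : AEMeasurable S m) {t : ℝ} (ht : 0 ≤ t) {g : X → F} (hg : AEStronglyMeasurable g m) :
    AEStronglyMeasurable (lcE m S t g) (stdGaussian E) := by
  have h1 : AEStronglyMeasurable (fun p : E × X => lcK S t p.1 p.2 • g p.2) ((stdGaussian E).prod m) :=
    (lclc_K_aesm_prod' hS t).smul hg.comp_snd
  have h2 := h1.integral_prod_right'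
  unfold lcE
  exact ((lclc_Z_continuous hS ht).inv₀ fun l => (lc_Z_pos hS ht l).ne').aestronglyMeasurable.smul h2

/-- Cauchy-Schwarz for the measure `lcK dm` -/
theorem lc_E_sq_le (hS : AEMeasurable S m) {t : ℝ} (ht : 0 ≤ t) {g : X → F} (hg : MemLp g 2 m) (l : E) :
    ‖lcE m S t g l‖ ^ 2 * lcZ m S t l ≤ ∫ x, lcK S t l x * ‖g x‖ ^ 2 ∂m := by
  have hZ := lc_Z_pos hS ht l
  have hg1 : Integrable g m := hg.integrable one_le_two
  have hg2 : Integrable (fun x => ‖g x‖ ^ 2) m := (memLp_two_iff_integrable_sq_norm hg.1).1 hg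
  set Z := lcZ m S t l with hZdef
  set B := ∫ x, lcK S t l x * ‖g x‖ ∂m with hB
  set A := ∫ x, lcK S t l x * ‖g x‖ ^ 2 ∂m with hA
  have h1 : ‖∫ x, lcK S t l x • g x ∂m‖ ≤ B := by
    refine (norm_integral_le_integral_norm _).trans (le_of_eq ?_)
    refine integral_congr_ae (Filter.Eventually.of_forall fun x => ?_)
    simp only [norm_smul, Real.norm_eq_abs, abs_of_pos (lclc_K_pos S t l x)]
  have h2 : B ^ 2 ≤ A * Z := by
    have h0 : 0 ≤ ∫ x, lcK S t l x * (‖g x‖ - B / Z) ^ 2 ∂m :=
      integral_nonneg fun x => mul_nonneg (lclc_K_pos S t l x).le (sq_nonneg _)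
    have e : ∀ x, lcK S t l x * (‖g x‖ - B / Z) ^ 2 =
        lcK S t l x * ‖g x‖ ^ 2 - 2 * (B / Z) * (lcK S t l x * ‖g x‖) + (B / Z) ^ 2 * lcK S t l x := by
      intro x; ring
    simp_rw [e] at h0
    have i1 := lclc_Kw_int hS ht l hg2
    have i2 := (lclc_Kw_int hS ht l hg1.norm).const_mul (2 * (B / Z))
    have i3 := (lclc_K_int hS ht l).const_mul ((B / Z) ^ 2)
    have i12 : Integrable (fun x => lcK S t l x * ‖g x‖ ^ 2 - 2 * (B / Z) * (lcK S t l x * ‖g x‖)) m := i1.sub i2
    rw [integral_add i12 i3, integral_sub i1 i2, integral_const_mul, integral_const_mul] at h0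
    change 0 ≤ A - 2 * (B / Z) * B + (B / Z) ^ 2 * Z at h0
    have e2 : A - 2 * (B / Z) * B + (B / Z) ^ 2 * Z = A - B ^ 2 / Z := by
      field_simp
      ring
    rw [e2, sub_nonneg, div_le_iff₀ hZ] at h0
    exact h0
  have hB0 : 0 ≤ B := (norm_nonneg _).trans h1
  unfold lcE
  rw [← hZdef, norm_smul, mul_pow, norm_inv, Real.norm_eq_abs, abs_of_pos hZ]
  have h3 : ‖∫ x, lcK S t l x • g x ∂m‖ ^ 2 ≤ B ^ 2 := by gcongr
  calc Z⁻¹ ^ 2 * ‖∫ x, lcK S t l x • g x ∂m‖ ^ 2 * Z ≤ Z⁻¹ ^ 2 * (A * Z) * Z := by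
        have := h3.trans h2
        gcongr
    _ = A := by field_simp

theorem lc_PE_integrable (hS : AEMeasurable S m) {t : ℝ} (ht : 0 ≤ t) {g : X → F} (hg : MemLp g 2 m) :
    Integrable (fun l => ‖lcE m S t g l‖ ^ 2 * lcZ m S t l) (stdGaussian E) := by
  have hg2 : Integrable (fun x => ‖g x‖ ^ 2) m := (memLp_two_iff_integrable_sq_norm hg.1).1 hg
  refine (lclc_Kw_integrable hS ht hg2).mono'
    (((lclc_E_aesm hS ht hg.1).norm.pow 2).mul (lclc_Z_continuous hS ht).aestronglyMeasurable)
    (Filter.Eventually.of_forall fun l => ?_)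
  rw [Real.norm_eq_abs, abs_of_nonneg (mul_nonneg (by positivity) (lc_Z_pos hS ht l).le)]
  exact lc_E_sq_le hS ht hg l

theorem lc_PE_nonneg (hS : AEMeasurable S m) {t : ℝ} (ht : 0 ≤ t) (g : X → F) : 0 ≤ lcPE m S t g :=
  integral_nonneg fun l => mul_nonneg (by positivity) (lc_Z_pos hS ht l).le

theorem lc_PE_le (hS : AEMeasurable S m) {t : ℝ} (ht : 0 ≤ t) {g : X → F} (hg : MemLp g 2 m) :
    lcPE m S t g ≤ ∫ x, ‖g x‖ ^ 2 ∂m := by
  have hg2 : Integrable (fun x => ‖g x‖ ^ 2) m := (memLp_two_iff_integrable_sq_norm hg.1).1 hg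
  rw [← lclc_Kw_integral hS ht hg2]
  exact integral_mono (lc_PE_integrable hS ht hg) (lclc_Kw_integrable hS ht hg2) fun l => lc_E_sq_le hS ht hg l

theorem lc_PE_zero (g : X → F) : lcPE m S 0 g = ‖∫ x, g x ∂m‖ ^ 2 := by
  have hK : ∀ (l : E) (x : X), lcK S 0 l x = 1 := by
    intro l x
    simp [lcK]
  simp [lcPE, lcE, lcZ, hK]

end general

/-- (I4): variational lower bound for the prediction energy.  (Pointwise in `l`: `∫ ⟨g x, ψ l⟩ lcK dm = lcZ ⟨lcE g l, ψ l⟩` and
`2 ⟨e, ψ⟩ - |ψ|² ≤ |e|²`.) -/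
theorem lc_PE_var {F : Type} [NormedAddCommGroup F] [InnerProductSpace ℝ F] [CompleteSpace F]
    (hS : AEMeasurable S m) {t : ℝ} (ht : 0 ≤ t) {g : X → F} (hg : MemLp g 2 m)
    {ψ : E → F} (hψ : StronglyMeasurable ψ) {C : ℝ} (hC : ∀ l, ‖ψ l‖ ≤ C) :
    2 * ∫ l, ∫ x, inner ℝ (g x) (ψ l) * lcK S t l x ∂m ∂(stdGaussian E)
        - ∫ l, ‖ψ l‖ ^ 2 * lcZ m S t l ∂(stdGaussian E) ≤ lcPE m S t g := by
  have hg1 : Integrable g m := hg.integrable one_le_two
  have hC0 : 0 ≤ C := (norm_nonneg _).trans (hC 0)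
  have ha : ∀ l : E, ∫ x, inner ℝ (g x) (ψ l) * lcK S t l x ∂m =
      lcZ m S t l * inner ℝ (ψ l) (lcE m S t g l) := by
    intro l
    have hZ := lc_Z_pos hS ht l
    have e : ∀ x, inner ℝ (g x) (ψ l) * lcK S t l x = inner ℝ (ψ l) (lcK S t l x • g x) := by
      intro x
      rw [inner_smul_right, real_inner_comm]
      ring
    simp_rw [e]
    rw [integral_inner (lclc_Kg_int hS ht l hg1)]
    unfold lcE
    rw [inner_smul_right, ← mul_assoc, mul_inv_cancel₀ hZ.ne', one_mul]
  simp_rw [ha]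
  have hZc := (lclc_Z_continuous (m := m) hS ht).aestronglyMeasurable (μ := stdGaussian E)
  have hb : Integrable (fun l => ‖ψ l‖ ^ 2 * lcZ m S t l) (stdGaussian E) := by
    refine ((lclc_Z_integrable hS ht).const_mul (C ^ 2)).mono' ((hψ.aestronglyMeasurable.norm.pow 2).mul hZc)
      (Filter.Eventually.of_forall fun l => ?_)
    have hZ := lc_Z_pos hS ht l
    rw [Real.norm_eq_abs, abs_of_nonneg (mul_nonneg (by positivity) hZ.le)]
    have : ‖ψ l‖ ^ 2 ≤ C ^ 2 := by
      have := hC l
      gcongr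
    exact mul_le_mul_of_nonneg_right this hZ.le
  have hc := lc_PE_integrable hS ht hg
  have hpt : ∀ l : E, |lcZ m S t l * inner ℝ (ψ l) (lcE m S t g l)| ≤
      ‖lcE m S t g l‖ ^ 2 * lcZ m S t l + ‖ψ l‖ ^ 2 * lcZ m S t l := by
    intro l
    have hZ := lc_Z_pos hS ht l
    rw [abs_mul, abs_of_pos hZ]
    have h1 := abs_real_inner_le_norm (ψ l) (lcE m S t g l)
    have h2 : ‖ψ l‖ * ‖lcE m S t g l‖ ≤ ‖lcE m S t g l‖ ^ 2 + ‖ψ l‖ ^ 2 := by
      nlinarith [sq_nonneg (‖ψ l‖ - ‖lcE m S t g l‖), sq_nonneg (‖ψ l‖), sq_nonneg (‖lcE m S t g l‖)]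
    nlinarith [h1.trans h2]
  have hai : Integrable (fun l => lcZ m S t l * inner ℝ (ψ l) (lcE m S t g l)) (stdGaussian E) :=
    (hc.add hb).mono' (hZc.mul (hψ.aestronglyMeasurable.inner (lclc_E_aesm hS ht hg.1)))
      (Filter.Eventually.of_forall hpt)
  rw [← integral_const_mul, ← integral_sub (hai.const_mul 2) hb]
  refine integral_mono ((hai.const_mul 2).sub hb) hc fun l => ?_
  have hZ := lc_Z_pos hS ht l
  have h1 : 0 ≤ ‖lcE m S t g l - ψ l‖ ^ 2 := by positivity
  rw [norm_sub_sq_real, real_inner_comm] at h1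
  simp only
  nlinarith

/-! ### (I5): relation with `klDiv` (leaf L-imm-lc-c) -/

theorem lc_law_prob (hS : AEMeasurable S m) {t : ℝ} (ht : 0 ≤ t) : IsProbabilityMeasure (lcLaw m S t) := by
  constructor
  unfold lcLaw
  rw [withDensity_apply _ MeasurableSet.univ, Measure.restrict_univ,
    ← ofReal_integral_eq_lintegral_ofReal (lclc_Z_integrable hS ht)
      (Filter.Eventually.of_forall fun l => (lc_Z_pos hS ht l).le),
    lc_Z_integral hS ht, ENNReal.ofReal_one]

theorem lc_Pm_prob (hS : AEMeasurable S m) {t : ℝ} (ht : 0 ≤ t) (l : E) : IsProbabilityMeasure (lcPm m S t l) := by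
  constructor
  unfold lcPm
  have hZ := lc_Z_pos hS ht l
  rw [withDensity_apply _ MeasurableSet.univ, Measure.restrict_univ,
    ← ofReal_integral_eq_lintegral_ofReal ((lclc_K_int hS ht l).const_mul _)
      (Filter.Eventually.of_forall fun x => mul_nonneg (inv_nonneg.mpr hZ.le) (lclc_K_pos S t l x).le),
    integral_const_mul]
  change ENNReal.ofReal ((lcZ m S t l)⁻¹ * lcZ m S t l) = 1
  rw [inv_mul_cancel₀ hZ.ne', ENNReal.ofReal_one]

theorem lclc_K_aem_prod (hS : AEMeasurable S m) (t : ℝ) (ν : Measure E) [SFinite ν] :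
    AEMeasurable (fun p : X × E => ENNReal.ofReal (immK t (S p.1) p.2)) (m.prod ν) :=
  ((imm_K_continuous t).measurable.comp_aemeasurable
    (hS.comp_fst.prodMk measurable_snd.aemeasurable)).ennreal_ofReal

/-- `lcLaw` is the law of `√t S(x) + G'` -/
theorem lc_law_eq (hS : AEMeasurable S m) {t : ℝ} (ht : 0 ≤ t) :
    lcLaw m S t = (m.prod (stdGaussian E)).map fun p => Real.sqrt t • S p.1 + p.2 := by
  have hφ : AEMeasurable (fun p : X × E => Real.sqrt t • S p.1 + p.2) (m.prod (stdGaussian E)) :=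
    (hS.comp_fst.const_smul _).add measurable_snd.aemeasurable
  ext A hA
  have hind : Measurable (A.indicator (1 : E → ℝ≥0∞)) := measurable_one.indicator hA
  have h1 : ∀ x : X, ∫⁻ g, A.indicator (1 : E → ℝ≥0∞) (Real.sqrt t • S x + g) ∂(stdGaussian E) =
      ∫⁻ l in A, ENNReal.ofReal (immK t (S x) l) ∂(stdGaussian E) := by
    intro x
    rw [← lintegral_map hind (measurable_const_add _), imm_shift ht, lintegral_indicator_one hA,
      withDensity_apply _ hA]
  symm
  have hcomp : AEMeasurable (fun p : X × E => A.indicator (1 : E → ℝ≥0∞) (Real.sqrt t • S p.1 + p.2))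
      (m.prod (stdGaussian E)) := hind.comp_aemeasurable hφ
  rw [← lintegral_indicator_one hA, lintegral_map' hind.aemeasurable hφ, lintegral_prod _ hcomp]
  simp only [h1]
  rw [lintegral_lintegral_swap (f := fun x l => ENNReal.ofReal (immK t (S x) l))
    (lclc_K_aem_prod hS t ((stdGaussian E).restrict A))]
  unfold lcLaw
  rw [withDensity_apply _ hA]
  refine lintegral_congr fun l => ?_
  unfold lcZ
  symm
  rw [ofReal_integral_eq_lintegral_ofReal (lclc_K_int hS ht l)
    (Filter.Eventually.of_forall fun x => (lclc_K_pos S t l x).le)]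
  simp_rw [lc_K_eq]

theorem lc_klDiv_law (hS : MemLp S 2 m) {t : ℝ} (ht : 0 ≤ t) :
    klDiv (lcLaw m S t) (stdGaussian E) = ENNReal.ofReal (lcD m S t) := by
  have hS' := hS.1.aemeasurable
  have := lc_law_prob hS' ht
  have hac : lcLaw m S t ≪ stdGaussian E := withDensity_absolutelyContinuous _ _
  rw [klDiv_eq_lintegral_klFun_of_ac hac]
  unfold lcD
  rw [ofReal_integral_eq_lintegral_ofReal (lc_klFun_integrable hS ht)
    (Filter.Eventually.of_forall fun l => klFun_nonneg (lc_Z_pos hS' ht l).le)]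
  refine lintegral_congr_ae ?_
  have h := Measure.rnDeriv_withDensity (stdGaussian E)
    (lclc_Z_continuous (m := m) hS' ht).measurable.ennreal_ofReal
  filter_upwards [h] with l hl
  unfold lcLaw
  rw [hl, ENNReal.toReal_ofReal (lc_Z_pos hS' ht l).le]

/-- entropy of the posterior as an explicit integral -/
theorem lc_klDiv_Pm (hS : AEMeasurable S m) {t : ℝ} (ht : 0 ≤ t) (l : E) :
    klDiv (lcPm m S t l) m = entF m fun x => (lcZ m S t l)⁻¹ * lcK S t l x := by
  have := lc_Pm_prob hS ht l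
  have hZ := lc_Z_pos hS ht l
  have hac : lcPm m S t l ≪ m := withDensity_absolutelyContinuous _ _
  rw [klDiv_eq_lintegral_klFun_of_ac hac]
  unfold entF
  refine lintegral_congr_ae ?_
  have h := Measure.rnDeriv_withDensity₀ m
    (f := fun x => ENNReal.ofReal ((lcZ m S t l)⁻¹ * lcK S t l x))
    ((lclc_K_aesm hS t l).aemeasurable.const_mul _).ennreal_ofReal
  filter_upwards [h] with x hx
  unfold lcPm
  rw [hx, ENNReal.toReal_ofReal (mul_nonneg (inv_nonneg.mpr hZ.le) (lclc_K_pos S t l x).le)]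

theorem lclc_klFun_int {σ : Measure E} [IsProbabilityMeasure σ] (hσ : Integrable (fun s => ‖s‖ ^ 2) σ) {t : ℝ}
    (ht : 0 ≤ t) (l : E) :
    Integrable (fun s => klFun ((immL σ t l)⁻¹ * immK t s l)) σ ∧
      immL σ t l * ∫ s, klFun ((immL σ t l)⁻¹ * immK t s l) ∂σ =
        (∫ s, immK t s l * Real.log (immK t s l) ∂σ) - immL σ t l * Real.log (immL σ t l) := by
  have hL := imm_L_pos (σ := σ) ht l
  set L := immL σ t l with hLdef
  have e : ∀ s : E, klFun (L⁻¹ * immK t s l) =
      L⁻¹ * (immK t s l * Real.log (immK t s l)) - (L⁻¹ * Real.log L + L⁻¹) * immK t s l + 1 := by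
    intro s
    rw [klFun_apply, Real.log_mul (inv_ne_zero hL.ne') (imm_K_pos t s l).ne', Real.log_inv]
    ring
  have i1 : Integrable (fun s => L⁻¹ * (immK t s l * Real.log (immK t s l))) σ :=
    (immlaw_KlogK_int hσ ht l).const_mul _
  have i2 : Integrable (fun s => (L⁻¹ * Real.log L + L⁻¹) * immK t s l) σ := (imm_K_int ht l).const_mul _
  have i12 : Integrable (fun s => L⁻¹ * (immK t s l * Real.log (immK t s l)) -
      (L⁻¹ * Real.log L + L⁻¹) * immK t s l) σ := i1.sub i2
  simp_rw [e]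
  refine ⟨i12.add (integrable_const _), ?_⟩
  rw [integral_add i12 (integrable_const _), integral_sub i1 i2, integral_const_mul, integral_const_mul]
  have hLi : ∫ s, immK t s l ∂σ = L := rfl
  rw [hLi]
  simp only [integral_const, probReal_univ, smul_eq_mul, mul_one]
  field_simp
  ring

theorem lclc_B_integral {σ : Measure E} [IsProbabilityMeasure σ] (hσ : Integrable (fun s => ‖s‖ ^ 2) σ) {t : ℝ}
    (ht : 0 ≤ t) :
    ∫ l, ∫ s, immK t s l * Real.log (immK t s l) ∂σ ∂(stdGaussian E) = t / 2 * ∫ s, ‖s‖ ^ 2 ∂σ := by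
  rw [← integral_integral_swap (f := fun s z => immK t s z * Real.log (immK t s z)) (immlaw_KlogK_prod hσ ht),
    ← integral_const_mul]
  refine integral_congr_ae (Filter.Eventually.of_forall fun s => ?_)
  simp only
  rw [imm_K_log_integral ht]
  ring

theorem lclc_MI_sigma {σ : Measure E} [IsProbabilityMeasure σ] (hσ : Integrable (fun s => ‖s‖ ^ 2) σ) {t : ℝ}
    (ht : 0 ≤ t) :
    ∫⁻ l, ENNReal.ofReal (immL σ t l) * ∫⁻ s, ENNReal.ofReal (klFun ((immL σ t l)⁻¹ * immK t s l)) ∂σ
      ∂(stdGaussian E) = ENNReal.ofReal (t / 2 * ∫ s, ‖s‖ ^ 2 ∂σ - immD σ t) := by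
  have h1 : ∀ l : E, ENNReal.ofReal (immL σ t l) *
      ∫⁻ s, ENNReal.ofReal (klFun ((immL σ t l)⁻¹ * immK t s l)) ∂σ =
      ENNReal.ofReal ((∫ s, immK t s l * Real.log (immK t s l) ∂σ) - immL σ t l * Real.log (immL σ t l)) := by
    intro l
    have hL := imm_L_pos (σ := σ) ht l
    obtain ⟨hi, he⟩ := lclc_klFun_int hσ ht l
    rw [← ofReal_integral_eq_lintegral_ofReal hi (Filter.Eventually.of_forall fun s =>
      klFun_nonneg (mul_nonneg (inv_nonneg.mpr hL.le) (imm_K_pos t s l).le)), ← ENNReal.ofReal_mul hL.le, he]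
  simp_rw [h1]
  have hB : Integrable (fun z => ∫ s, immK t s z * Real.log (immK t s z) ∂σ) (stdGaussian E) :=
    (immlaw_KlogK_prod hσ ht).integral_prod_right
  have hBD : Integrable (fun l => (∫ s, immK t s l * Real.log (immK t s l) ∂σ) -
      immL σ t l * Real.log (immL σ t l)) (stdGaussian E) := hB.sub (imm_D_integrable hσ ht)
  rw [← ofReal_integral_eq_lintegral_ofReal hBD
    (Filter.Eventually.of_forall fun l => sub_nonneg.mpr (immlaw_jensen hσ ht l)),
    integral_sub hB (imm_D_integrable hσ ht), lclc_B_integral hσ ht]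
  rfl

/-- the mutual information identity `MI(x; L_t) = t E|S|²/2 - d(t)` -/
theorem lc_MI (hS : MemLp S 2 m) {t : ℝ} (ht : 0 ≤ t) :
    ∫⁻ l, klDiv (lcPm m S t l) m ∂(lcLaw m S t) =
      ENNReal.ofReal (t / 2 * ∫ x, ‖S x‖ ^ 2 ∂m - lcD m S t) := by
  have hS' := hS.1.aemeasurable
  have := lc_map_prob hS'
  simp_rw [lc_klDiv_Pm hS' ht]
  unfold lcLaw
  rw [lintegral_withDensity_eq_lintegral_mul_non_measurable _
    (lclc_Z_continuous (m := m) hS' ht).measurable.ennreal_ofReal
    (Filter.Eventually.of_forall fun _ => ENNReal.ofReal_lt_top),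
    lc_D_eq hS ht, ← lc_mom_eq hS', ← lclc_MI_sigma (lc_mom hS) ht]
  refine lintegral_congr fun l => ?_
  simp only [Pi.mul_apply]
  rw [lc_Z_eq hS']
  congr 1
  unfold entF
  have hmeas : Measurable fun s : E => ENNReal.ofReal (klFun ((immL (m.map S) t l)⁻¹ * immK t s l)) :=
    (measurable_klFun.comp ((immlaw_K_cont_s t l).measurable.const_mul _)).ennreal_ofReal
  rw [lintegral_map' hmeas.aemeasurable hS']
  simp_rw [lc_K_eq]

end Claimed.Agent.R259
end
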