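/- Packed by merge_tool.py (helper293): 7 modules of Claimed.Agent.R259 in one file, same declarations.
   Old modules, in this order: Ent, S4CurveEnt, S4LossDefs, S4LossBase, S4LossKit, S4LossFinal, S4LossStart -/
import Claimed.Agent.R259.WS
import Claimed.Agent.R259.Pack007
import Claimed.Agent.R259.Pack003
import Claimed.Agent.R259.Pack001

/- ===== packed: Claimed.Agent.R259.Ent ===== -/
section
/-
Row 259 (S0499), KIT ENT: relative entropy of measures (Mathlib's `InformationTheory.klDiv`) versus explicit integrals.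
Owner: helper212.  Mathlib + `EntDefs.lean` (`entF`) only; sorry-free.  Prefix `ent_`.

EXPORTS
 (E1) `ent_klDiv_withDensity`        : `klDiv (k ν) ν = entF ν k`                     (`ν` finite, `k ≥ 0` a.e., `∫ k < ∞`)
      `ent_entF_ne_top_iff`, `ent_entF_eq_ofReal`, `ent_entF_eq_ent`, `ent_klDiv_of_density` : real forms (`ent` of `S3Defs`)
      `ent_klDiv_density`            : finite `klDiv μ ν` gives a density `f` with `f log f` integrable, `klDiv = ∫ f log f`
      `ent_llr_withDensity`, `ent_klDiv_withDensity_ne_top_iff`, `ent_toReal_klDiv_withDensity` : `∫ log k d(k ν)` forms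
 (E2) `ent_dm_eq_withDensity`, `ent_klDiv_dm`, `ent_klDiv_dm_real`, `ent_integral_dm`
 (E3) `ent_klDiv_prod_chain`, `ent_klDiv_prod_chain'` : chain rule with a product reference (first / second marginal)
 (E4) `ent_klDiv_map_equiv`, `ent_klDiv_map_swap`
 (E5) `ent_klDiv_prod_withDensity`   : `klDiv (K (a ⊗ b)) (a ⊗ b) = ∫ klDiv (K(x,·) b) b da(x)`;  `ent_fst_prod_withDensity`
 (E6) `ent_dv`, `ent_dv_integrable`  : Donsker-Varadhan
 (E7) `ent_mean_subgaussian`         : `|mean μ - a|² ≤ 2 c klDiv μ ν` for a `c`-subgaussian reference `ν`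
      (the Gaussian corollary is in `EntGauss.lean`)
-/
set_option autoImplicit false
set_option linter.unusedSectionVars false

open MeasureTheory Filter Topology ProbabilityTheory InformationTheory
open scoped ENNReal

namespace Claimed.Agent.R259

section abstract

variable {α : Type} [MeasurableSpace α] {ν : Measure α}

theorem ent_entF_congr {k k' : α → ℝ} (h : k =ᵐ[ν] k') : entF ν k = entF ν k' := by
  unfold entF
  refine lintegral_congr_ae ?_
  filter_upwards [h] with x hx
  rw [hx]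

/-- (E1) -/
theorem ent_klDiv_withDensity [IsFiniteMeasure ν] {k : α → ℝ} (hk : AEMeasurable k ν)
    (hk0 : ∀ᵐ x ∂ν, 0 ≤ k x) (hfin : ∫⁻ x, ENNReal.ofReal (k x) ∂ν ≠ ⊤) :
    klDiv (ν.withDensity fun x => ENNReal.ofReal (k x)) ν = entF ν k := by
  have hfm : IsFiniteMeasure (ν.withDensity fun x => ENNReal.ofReal (k x)) :=
    isFiniteMeasure_withDensity hfin
  rw [klDiv_eq_lintegral_klFun_of_ac (withDensity_absolutelyContinuous _ _)]
  unfold entF
  refine lintegral_congr_ae ?_
  filter_upwards [Measure.rnDeriv_withDensity₀ ν hk.ennreal_ofReal, hk0] with x hx h0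
  rw [hx, ENNReal.toReal_ofReal h0]

theorem ent_integrable_klFun_iff [IsFiniteMeasure ν] {k : α → ℝ} (hki : Integrable k ν) :
    Integrable (fun x => klFun (k x)) ν ↔ Integrable (fun x => k x * Real.log (k x)) ν := by
  constructor
  · intro h
    have := (h.sub (integrable_const (1 : ℝ))).add hki
    refine this.congr (Eventually.of_forall fun x => ?_)
    simp only [Pi.add_apply, Pi.sub_apply, klFun]
    ring
  · intro h
    have := (h.add (integrable_const (1 : ℝ))).sub hki
    refine this.congr (Eventually.of_forall fun x => ?_)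
    simp only [Pi.add_apply, Pi.sub_apply, klFun]

theorem ent_entF_ne_top_iff [IsFiniteMeasure ν] {k : α → ℝ} (hk0 : ∀ᵐ x ∂ν, 0 ≤ k x)
    (hki : Integrable k ν) :
    entF ν k ≠ ⊤ ↔ Integrable (fun x => k x * Real.log (k x)) ν := by
  rw [← ent_integrable_klFun_iff hki]
  unfold entF
  refine lintegral_ofReal_ne_top_iff_integrable ?_ ?_
  · exact measurable_klFun.comp_aemeasurable hki.1.aemeasurable |>.aestronglyMeasurable
  · filter_upwards [hk0] with x hx using klFun_nonneg hx

theorem ent_integral_klFun [IsFiniteMeasure ν] {k : α → ℝ} (hki : Integrable k ν)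
    (hkl : Integrable (fun x => k x * Real.log (k x)) ν) :
    ∫ x, klFun (k x) ∂ν = ∫ x, k x * Real.log (k x) ∂ν + ν.real Set.univ - ∫ x, k x ∂ν := by
  have : (fun x => klFun (k x)) = fun x => k x * Real.log (k x) + 1 - k x := by
    funext x; simp [klFun]
  have h1 : Integrable (fun x => k x * Real.log (k x) + 1) ν := hkl.add (integrable_const _)
  rw [this, integral_sub h1 hki, integral_add hkl (integrable_const _)]
  simp

theorem ent_entF_eq_ofReal [IsFiniteMeasure ν] {k : α → ℝ} (hk0 : ∀ᵐ x ∂ν, 0 ≤ k x)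
    (hki : Integrable k ν) (hkl : Integrable (fun x => k x * Real.log (k x)) ν) :
    entF ν k = ENNReal.ofReal (∫ x, k x * Real.log (k x) ∂ν + ν.real Set.univ - ∫ x, k x ∂ν) := by
  have hI := (ent_integrable_klFun_iff hki).2 hkl
  unfold entF
  rw [← ofReal_integral_eq_lintegral_ofReal hI
    (by filter_upwards [hk0] with x hx using klFun_nonneg hx), ent_integral_klFun hki hkl]

/-- Gibbs' inequality at function level -/
theorem ent_integral_mul_log_nonneg [IsProbabilityMeasure ν] {k : α → ℝ} (hk0 : ∀ᵐ x ∂ν, 0 ≤ k x)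
    (hk1 : ∫ x, k x ∂ν = 1) (hkl : Integrable (fun x => k x * Real.log (k x)) ν) :
    0 ≤ ∫ x, k x * Real.log (k x) ∂ν := by
  have hki : Integrable k ν := by
    by_contra hc
    rw [integral_undef hc] at hk1
    exact zero_ne_one hk1
  have h := ent_integral_klFun hki hkl
  have h0 : 0 ≤ ∫ x, klFun (k x) ∂ν :=
    integral_nonneg_of_ae (by filter_upwards [hk0] with x hx using klFun_nonneg hx)
  rw [h, hk1] at h0
  simpa using h0

theorem ent_ent_eq [IsProbabilityMeasure ν] {k : α → ℝ} (hk1 : ∫ x, k x ∂ν = 1) :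
    ent ν k = ∫ x, k x * Real.log (k x) ∂ν := by
  simp [ent, hk1]

theorem ent_entF_eq_ent [IsProbabilityMeasure ν] {k : α → ℝ} (hk0 : ∀ᵐ x ∂ν, 0 ≤ k x)
    (hk1 : ∫ x, k x ∂ν = 1) (hkl : Integrable (fun x => k x * Real.log (k x)) ν) :
    entF ν k = ENNReal.ofReal (ent ν k) := by
  have hki : Integrable k ν := by
    by_contra hc
    rw [integral_undef hc] at hk1
    exact zero_ne_one hk1
  rw [ent_entF_eq_ofReal hk0 hki hkl, hk1]
  simp [ent, hk1]

theorem ent_lintegral_ofReal_eq_one {k : α → ℝ} (hk0 : ∀ᵐ x ∂ν, 0 ≤ k x) (hk1 : ∫ x, k x ∂ν = 1) :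
    ∫⁻ x, ENNReal.ofReal (k x) ∂ν = 1 := by
  have hki : Integrable k ν := by
    by_contra hc
    rw [integral_undef hc] at hk1
    exact zero_ne_one hk1
  rw [← ofReal_integral_eq_lintegral_ofReal hki hk0, hk1, ENNReal.ofReal_one]

/-- relative entropy of a law given by a density -/
theorem ent_klDiv_of_density [IsProbabilityMeasure ν] {f : α → ℝ} (hf0 : ∀ᵐ x ∂ν, 0 ≤ f x)
    (h1 : ∫ x, f x ∂ν = 1) (hfl : Integrable (fun x => f x * Real.log (f x)) ν) :
    klDiv (ν.withDensity fun x => ENNReal.ofReal (f x)) ν = ENNReal.ofReal (ent ν f) := by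
  have hfi : Integrable f ν := by
    by_contra hc
    rw [integral_undef hc] at h1
    exact zero_ne_one h1
  rw [ent_klDiv_withDensity hfi.1.aemeasurable hf0 (by simp [ent_lintegral_ofReal_eq_one hf0 h1]),
    ent_entF_eq_ent hf0 h1 hfl]

/-- a law of finite relative entropy has a density with `f log f` integrable -/
theorem ent_klDiv_density [IsProbabilityMeasure ν] {μ : Measure α} [IsProbabilityMeasure μ]
    (h : klDiv μ ν ≠ ⊤) :
    ∃ f : α → ℝ, Measurable f ∧ (∀ x, 0 ≤ f x) ∧ μ = ν.withDensity (fun x => ENNReal.ofReal (f x)) ∧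
      Integrable f ν ∧ ∫ x, f x ∂ν = 1 ∧ Integrable (fun x => f x * Real.log (f x)) ν ∧
      klDiv μ ν = ENNReal.ofReal (ent ν f) ∧ (klDiv μ ν).toReal = ∫ x, f x * Real.log (f x) ∂ν := by
  have hac : μ ≪ ν := (klDiv_ne_top_iff.1 h).1
  set f : α → ℝ := fun x => (μ.rnDeriv ν x).toReal with hf
  have hfm : Measurable f := (Measure.measurable_rnDeriv μ ν).ennreal_toReal
  have hf0 : ∀ x, 0 ≤ f x := fun x => ENNReal.toReal_nonneg
  have hμ : μ = ν.withDensity (fun x => ENNReal.ofReal (f x)) := by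
    conv_lhs => rw [← Measure.withDensity_rnDeriv_eq μ ν hac]
    refine withDensity_congr_ae ?_
    filter_upwards [Measure.rnDeriv_lt_top μ ν] with x hx
    rw [hf, ENNReal.ofReal_toReal hx.ne]
  have hfi : Integrable f ν := Measure.integrable_toReal_rnDeriv
  have hl1 : ∫⁻ x, ENNReal.ofReal (f x) ∂ν = 1 := by
    have : (ν.withDensity fun x => ENNReal.ofReal (f x)) Set.univ = 1 := by rw [← hμ]; simp
    rwa [withDensity_apply _ MeasurableSet.univ, Measure.restrict_univ] at this
  have hf1 : ∫ x, f x ∂ν = 1 := by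
    rw [integral_eq_lintegral_of_nonneg_ae (Eventually.of_forall hf0) hfm.aestronglyMeasurable, hl1]
    simp
  have hE : klDiv μ ν = entF ν f := by
    conv_lhs => rw [hμ]
    exact ent_klDiv_withDensity hfm.aemeasurable (Eventually.of_forall hf0) (by simp [hl1])
  have hfl : Integrable (fun x => f x * Real.log (f x)) ν :=
    (ent_entF_ne_top_iff (Eventually.of_forall hf0) hfi).1 (hE ▸ h)
  have hE2 : klDiv μ ν = ENNReal.ofReal (ent ν f) := by
    rw [hE, ent_entF_eq_ent (Eventually.of_forall hf0) hf1 hfl]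
  refine ⟨f, hfm, hf0, hμ, hfi, hf1, hfl, hE2, ?_⟩
  rw [hE2, ent_ent_eq hf1,
    ENNReal.toReal_ofReal (ent_integral_mul_log_nonneg (Eventually.of_forall hf0) hf1 hfl)]

/-- the log-likelihood ratio of `k ν` with respect to `ν` -/
theorem ent_llr_withDensity [SigmaFinite ν] {k : α → ℝ} (hk : AEMeasurable k ν) (hk0 : ∀ᵐ x ∂ν, 0 ≤ k x) :
    llr (ν.withDensity fun x => ENNReal.ofReal (k x)) ν
      =ᵐ[ν.withDensity fun x => ENNReal.ofReal (k x)] fun x => Real.log (k x) := by
  refine (withDensity_absolutelyContinuous ν _).ae_le ?_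
  filter_upwards [Measure.rnDeriv_withDensity₀ ν hk.ennreal_ofReal, hk0] with x hx h0
  rw [llr, hx, ENNReal.toReal_ofReal h0]

theorem ent_klDiv_withDensity_ne_top_iff [SigmaFinite ν] {k : α → ℝ} (hk : AEMeasurable k ν)
    (hk0 : ∀ᵐ x ∂ν, 0 ≤ k x) :
    klDiv (ν.withDensity fun x => ENNReal.ofReal (k x)) ν ≠ ⊤ ↔
      Integrable (fun x => Real.log (k x)) (ν.withDensity fun x => ENNReal.ofReal (k x)) := by
  rw [klDiv_ne_top_iff, integrable_congr (ent_llr_withDensity hk hk0)]
  exact and_iff_right (withDensity_absolutelyContinuous ν _)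

theorem ent_toReal_klDiv_withDensity [IsFiniteMeasure ν] {k : α → ℝ} (hk : AEMeasurable k ν)
    (hk0 : ∀ᵐ x ∂ν, 0 ≤ k x) (h1 : ∫⁻ x, ENNReal.ofReal (k x) ∂ν = ν Set.univ) :
    (klDiv (ν.withDensity fun x => ENNReal.ofReal (k x)) ν).toReal =
      ∫ x, Real.log (k x) ∂(ν.withDensity fun x => ENNReal.ofReal (k x)) := by
  have : IsFiniteMeasure (ν.withDensity fun x => ENNReal.ofReal (k x)) :=
    isFiniteMeasure_withDensity (by rw [h1]; exact measure_ne_top _ _)
  rw [toReal_klDiv_of_measure_eq (withDensity_absolutelyContinuous ν _)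
    (by rw [withDensity_apply _ MeasurableSet.univ, Measure.restrict_univ, h1])]
  exact integral_congr_ae (ent_llr_withDensity hk hk0)

theorem ent_integrable_withDensity_iff {f : α → ℝ} (hfm : Measurable f) (hf0 : ∀ x, 0 ≤ f x) {g : α → ℝ} :
    Integrable g (ν.withDensity fun x => ENNReal.ofReal (f x)) ↔ Integrable (fun x => f x * g x) ν := by
  rw [integrable_withDensity_iff_integrable_smul' hfm.ennreal_ofReal
    (Eventually.of_forall fun x => ENNReal.ofReal_lt_top)]
  refine integrable_congr (Eventually.of_forall fun x => ?_)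
  simp [ENNReal.toReal_ofReal (hf0 x)]

theorem ent_integral_withDensity {f : α → ℝ} (hfm : Measurable f) (hf0 : ∀ x, 0 ≤ f x) (g : α → ℝ) :
    ∫ x, g x ∂(ν.withDensity fun x => ENNReal.ofReal (f x)) = ∫ x, f x * g x ∂ν := by
  rw [integral_withDensity_eq_integral_toReal_smul hfm.ennreal_ofReal
    (Eventually.of_forall fun x => ENNReal.ofReal_lt_top)]
  refine integral_congr_ae (Eventually.of_forall fun x => ?_)
  simp [ENNReal.toReal_ofReal (hf0 x)]

/-! ### (E3), (E4), (E5) -/

/-- (E4), general form: invariance under measurable equivalences -/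
theorem ent_klDiv_map_equiv {β : Type} [MeasurableSpace β] (e : α ≃ᵐ β) (μ ν : Measure α)
    [IsFiniteMeasure μ] [IsFiniteMeasure ν] : klDiv (μ.map e) (ν.map e) = klDiv μ ν := by
  refine le_antisymm (klDiv_map_le μ ν e.measurable) ?_
  have h := klDiv_map_le (μ.map e) (ν.map e) e.symm.measurable
  rwa [Measure.map_map e.symm.measurable e.measurable, Measure.map_map e.symm.measurable e.measurable,
    e.symm_comp_self, Measure.map_id, Measure.map_id] at h

/-- (E4) -/
theorem ent_klDiv_map_swap {X Y : Type} [MeasurableSpace X] [MeasurableSpace Y] (P P' : Measure (X × Y))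
    [IsFiniteMeasure P] [IsFiniteMeasure P'] :
    klDiv (P.map Prod.swap) (P'.map Prod.swap) = klDiv P P' :=
  ent_klDiv_map_equiv MeasurableEquiv.prodComm P P'

/-- (E3) chain rule with a product reference -/
theorem ent_klDiv_prod_chain {X Y : Type} [MeasurableSpace X] [MeasurableSpace Y] [StandardBorelSpace Y]
    [Nonempty Y] (P : Measure (X × Y)) [IsProbabilityMeasure P] (a : Measure X) (b : Measure Y)
    [IsProbabilityMeasure a] [IsProbabilityMeasure b] :
    klDiv P (a.prod b) = klDiv P.fst a + klDiv P (P.fst.prod b) := by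
  have h := klDiv_compProd_eq_add P.fst a P.condKernel (Kernel.const X b)
  rwa [Measure.disintegrate, Measure.compProd_const, Measure.compProd_const] at h

/-- (E3) chain rule with a product reference, second marginal -/
theorem ent_klDiv_prod_chain' {X Y : Type} [MeasurableSpace X] [MeasurableSpace Y] [StandardBorelSpace X]
    [Nonempty X] (P : Measure (X × Y)) [IsProbabilityMeasure P] (a : Measure X) (b : Measure Y)
    [IsProbabilityMeasure a] [IsProbabilityMeasure b] :
    klDiv P (a.prod b) = klDiv P.snd b + klDiv P (a.prod P.snd) := by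
  have : IsProbabilityMeasure (P.map Prod.swap) :=
    Measure.isProbabilityMeasure_map measurable_swap.aemeasurable
  have h := ent_klDiv_prod_chain (P.map Prod.swap) b a
  rw [Measure.fst_map_swap, ← Measure.prod_swap, ← Measure.prod_swap (μ := a) (ν := P.snd),
    ent_klDiv_map_swap, ent_klDiv_map_swap] at h
  exact h

/-- (E5) disintegration -/
theorem ent_klDiv_prod_withDensity {X Y : Type} [MeasurableSpace X] [MeasurableSpace Y] (a : Measure X)
    (b : Measure Y) [IsProbabilityMeasure a] [IsProbabilityMeasure b] {K : X × Y → ℝ} (hK : Measurable K)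
    (hK0 : ∀ p, 0 ≤ K p) (hK1 : ∀ x, ∫⁻ y, ENNReal.ofReal (K (x, y)) ∂b = 1) :
    klDiv ((a.prod b).withDensity fun p => ENNReal.ofReal (K p)) (a.prod b) =
      ∫⁻ x, klDiv (b.withDensity fun y => ENNReal.ofReal (K (x, y))) b ∂a := by
  rw [ent_klDiv_withDensity hK.aemeasurable (Eventually.of_forall hK0)]
  · unfold entF
    rw [lintegral_prod _ (by fun_prop)]
    refine lintegral_congr fun x => ?_
    rw [ent_klDiv_withDensity (by fun_prop) (Eventually.of_forall fun y => hK0 _) (by simp [hK1])]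
    rfl
  · rw [lintegral_prod _ (by fun_prop)]
    simp [hK1]

/-- first marginal of a law with a density with respect to a product -/
theorem ent_fst_prod_withDensity {X Y : Type} [MeasurableSpace X] [MeasurableSpace Y] (a : Measure X)
    (b : Measure Y) [SFinite a] [SFinite b] {K : X × Y → ℝ≥0∞} (hK : Measurable K) :
    ((a.prod b).withDensity K).fst = a.withDensity fun x => ∫⁻ y, K (x, y) ∂b := by
  ext s hs
  rw [Measure.fst_apply hs, withDensity_apply _ (measurable_fst hs), withDensity_apply _ hs,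
    ← lintegral_indicator (measurable_fst hs), lintegral_prod _ (by
      exact (hK.indicator (measurable_fst hs)).aemeasurable), ← lintegral_indicator hs]
  refine lintegral_congr fun x => ?_
  by_cases hx : x ∈ s
  · simp [Set.indicator, hx]
  · simp [Set.indicator, hx]

/-! ### (E6) Donsker-Varadhan -/

theorem ent_young (a b : ℝ) (ha : 0 ≤ a) : a * b ≤ a * Real.log a - a + Real.exp b := by
  rcases ha.eq_or_lt with rfl | ha
  · simp [(Real.exp_pos b).le]
  · have h1 := Real.add_one_le_exp (b - Real.log a)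
    have h2 : Real.exp b = a * Real.exp (b - Real.log a) := by
      rw [Real.exp_sub, Real.exp_log ha]; field_simp
    rw [h2]
    nlinarith

/-- (E6), integrability -/
theorem ent_dv_integrable [IsProbabilityMeasure ν] {μ : Measure α} [IsProbabilityMeasure μ]
    (h : klDiv μ ν ≠ ⊤) {g : α → ℝ} (hgm : AEStronglyMeasurable g ν)
    (hg : Integrable (fun x => Real.exp (g x)) ν) (hg' : Integrable (fun x => Real.exp (-g x)) ν) :
    Integrable g μ := by
  obtain ⟨f, hfm, hf0, hμ, hfi, hf1, hfl, -, -⟩ := ent_klDiv_density h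
  rw [hμ, ent_integrable_withDensity_iff hfm hf0]
  refine Integrable.mono' (((hfl.sub hfi).add hg).add hg') (hfi.1.mul hgm)
    (Eventually.of_forall fun x => ?_)
  rw [Real.norm_eq_abs, abs_mul, abs_of_nonneg (hf0 x)]
  have e1 := Real.exp_pos (g x)
  have e2 := Real.exp_pos (-g x)
  simp only [Pi.add_apply, Pi.sub_apply]
  rcases abs_cases (g x) with ⟨h, _⟩ | ⟨h, _⟩
  · rw [h]
    have := ent_young (f x) (g x) (hf0 x)
    linarith
  · rw [h]
    have := ent_young (f x) (-g x) (hf0 x)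
    linarith

/-- (E6) Donsker-Varadhan -/
theorem ent_dv [IsProbabilityMeasure ν] {μ : Measure α} [IsProbabilityMeasure μ]
    (h : klDiv μ ν ≠ ⊤) {g : α → ℝ} (hg : Integrable (fun x => Real.exp (g x)) ν)
    (hgμ : Integrable g μ) :
    ∫ x, g x ∂μ ≤ (klDiv μ ν).toReal + Real.log (∫ x, Real.exp (g x) ∂ν) := by
  obtain ⟨f, hfm, hf0, hμ, hfi, hf1, hfl, -, hkl⟩ := ent_klDiv_density h
  rw [hkl]
  have hgf : Integrable (fun x => f x * g x) ν := by
    rw [← ent_integrable_withDensity_iff hfm hf0, ← hμ]; exact hgμ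
  have e0 : ∫ x, g x ∂μ = ∫ x, f x * g x ∂ν := by
    conv_lhs => rw [hμ]
    exact ent_integral_withDensity hfm hf0 g
  rw [e0]
  set Z := ∫ x, Real.exp (g x) ∂ν with hZ
  have hZpos : 0 < Z := integral_exp_pos hg
  have hpt : ∀ x, f x * g x - Real.log Z * f x ≤
      f x * Real.log (f x) - f x + Z⁻¹ * Real.exp (g x) := by
    intro x
    have := ent_young (f x) (g x - Real.log Z) (hf0 x)
    rw [Real.exp_sub, Real.exp_log hZpos] at this
    have e : Real.exp (g x) / Z = Z⁻¹ * Real.exp (g x) := by field_simp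
    rw [e] at this
    linarith
  have hI := integral_mono (hgf.sub (hfi.const_mul (Real.log Z)))
    ((hfl.sub hfi).add (hg.const_mul Z⁻¹)) hpt
  rw [integral_sub' hgf (hfi.const_mul _), integral_add' (hfl.sub hfi) (hg.const_mul _),
    integral_sub' hfl hfi, integral_const_mul, integral_const_mul, hf1, ← hZ,
    inv_mul_cancel₀ hZpos.ne'] at hI
  linarith

end abstract

variable {E : Type} [NormedAddCommGroup E] [InnerProductSpace ℝ E] [FiniteDimensional ℝ E]
  [MeasurableSpace E] [BorelSpace E]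

/-! ### (E7) means -/

theorem ent_integrable_id_of_inner {μ : Measure E} (h : ∀ v : E, Integrable (fun x => inner ℝ v x) μ) :
    Integrable (fun x : E => x) μ := by
  have : (fun x : E => x) =
      fun x => ∑ i, (inner ℝ (stdOrthonormalBasis ℝ E i) x) • stdOrthonormalBasis ℝ E i := by
    funext x
    exact ((stdOrthonormalBasis ℝ E).sum_repr' x).symm
  rw [this]
  exact integrable_finsetSum _ fun i _ => (h _).smul_const _

/-- (E7) -/
theorem ent_mean_subgaussian {μ ν : Measure E} [IsProbabilityMeasure μ] [IsProbabilityMeasure ν]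
    (h : klDiv μ ν ≠ ⊤) {a : E} {c : ℝ} (hc : 0 < c)
    (hint : ∀ v : E, Integrable (fun x => Real.exp (inner ℝ v (x - a))) ν)
    (hsub : ∀ v : E, ∫ x, Real.exp (inner ℝ v (x - a)) ∂ν ≤ Real.exp (c * ‖v‖ ^ 2 / 2)) :
    Integrable (fun x : E => x) μ ∧ ‖∫ x, x ∂μ - a‖ ^ 2 ≤ 2 * c * (klDiv μ ν).toReal := by
  have hI : ∀ v : E, Integrable (fun x => inner ℝ v (x - a)) μ := by
    intro v
    refine ent_dv_integrable h (by fun_prop) (hint v) ?_
    refine (hint (-v)).congr (Eventually.of_forall fun x => ?_)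
    simp [inner_neg_left]
  have hI' : ∀ v : E, Integrable (fun x => inner ℝ v x) μ := by
    intro v
    refine ((hI v).add (integrable_const (inner ℝ v a))).congr (Eventually.of_forall fun x => ?_)
    simp [inner_sub_right]
  have hid := ent_integrable_id_of_inner hI'
  refine ⟨hid, ?_⟩
  set m := ∫ x, x ∂μ with hm
  set D := (klDiv μ ν).toReal with hD
  have key : ∀ v : E, inner ℝ v (m - a) ≤ D + c * ‖v‖ ^ 2 / 2 := by
    intro v
    have h1 := ent_dv h (hint v) (hI v)
    have h2 : ∫ x, inner ℝ v (x - a) ∂μ = inner ℝ v (m - a) := by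
      have hsubi : Integrable (fun x : E => x - a) μ := hid.sub (integrable_const a)
      rw [integral_inner hsubi, integral_sub hid (integrable_const a)]
      simp [hm]
    have h3 : Real.log (∫ x, Real.exp (inner ℝ v (x - a)) ∂ν) ≤ c * ‖v‖ ^ 2 / 2 := by
      have := Real.log_le_log (integral_exp_pos (hint v)) (hsub v)
      rwa [Real.log_exp] at this
    rw [h2] at h1
    linarith
  have := key (c⁻¹ • (m - a))
  rw [inner_smul_left, real_inner_self_eq_norm_sq, norm_smul, mul_pow] at this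
  simp only [conj_trivial, Real.norm_eq_abs, sq_abs] at this
  have e : c * (c⁻¹ ^ 2 * ‖m - a‖ ^ 2) / 2 = c⁻¹ * ‖m - a‖ ^ 2 / 2 := by field_simp
  rw [e] at this
  have h4 : c⁻¹ * ‖m - a‖ ^ 2 ≤ 2 * D := by linarith
  rw [inv_mul_le_iff₀ hc] at h4
  linarith

/-! ### (E2) laws with Lebesgue densities -/

theorem ent_dm_eq_withDensity {p q : E → ℝ} (hp : Measurable p) (hq : Measurable q)
    (hq0 : ∀ x, 0 < q x) : dm p = (dm q).withDensity fun x => ENNReal.ofReal (p x / q x) := by
  unfold dm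
  have hm : Measurable fun x => ENNReal.ofReal (p x / q x) := (hp.div hq).ennreal_ofReal
  rw [← withDensity_mul _ hq.ennreal_ofReal hm]
  congr 1
  funext x
  rw [Pi.mul_apply, ← ENNReal.ofReal_mul (hq0 x).le, mul_div_cancel₀ _ (hq0 x).ne']

theorem ent_lintegral_dm_div {p q : E → ℝ} (hp : Measurable p) (hq : Measurable q) (hq0 : ∀ x, 0 < q x) :
    ∫⁻ x, ENNReal.ofReal (p x / q x) ∂(dm q) = dm p Set.univ := by
  rw [ent_dm_eq_withDensity hp hq hq0, withDensity_apply _ MeasurableSet.univ, Measure.restrict_univ]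

/-- (E2) -/
theorem ent_klDiv_dm {p q : E → ℝ} (hp : Measurable p) (hq : Measurable q) (hp0 : ∀ x, 0 ≤ p x)
    (hq0 : ∀ x, 0 < q x) [IsFiniteMeasure (dm p)] [IsFiniteMeasure (dm q)] :
    klDiv (dm p) (dm q) = entF (dm q) fun x => p x / q x := by
  conv_lhs => rw [ent_dm_eq_withDensity hp hq hq0]
  exact ent_klDiv_withDensity (hp.div hq).aemeasurable
    (Eventually.of_forall fun x => div_nonneg (hp0 x) (hq0 x).le)
    (by rw [ent_lintegral_dm_div hp hq hq0]; exact measure_ne_top _ _)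

/-- (E2), real form -/
theorem ent_klDiv_dm_real {p q : E → ℝ} (hp : Measurable p) (hq : Measurable q) (hp0 : ∀ x, 0 ≤ p x)
    (hq0 : ∀ x, 0 < q x) [IsProbabilityMeasure (dm p)] [IsProbabilityMeasure (dm q)] :
    (klDiv (dm p) (dm q) ≠ ⊤ ↔ Integrable (fun x => Real.log (p x / q x)) (dm p)) ∧
    (klDiv (dm p) (dm q)).toReal = ∫ x, Real.log (p x / q x) ∂(dm p) := by
  have hk : AEMeasurable (fun x => p x / q x) (dm q) := (hp.div hq).aemeasurable
  have hk0 : ∀ᵐ x ∂(dm q), 0 ≤ p x / q x := Eventually.of_forall fun x => div_nonneg (hp0 x) (hq0 x).le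
  have e := ent_dm_eq_withDensity hp hq hq0
  constructor
  · have := ent_klDiv_withDensity_ne_top_iff hk hk0
    rwa [← e] at this
  · have := ent_toReal_klDiv_withDensity hk hk0 (by rw [ent_lintegral_dm_div hp hq hq0]; simp)
    rwa [← e] at this

theorem ent_integral_dm {p : E → ℝ} (hp : Measurable p) (hp0 : ∀ x, 0 ≤ p x) (g : E → ℝ) :
    ∫ x, g x ∂(dm p) = ∫ x, p x * g x :=
  ent_integral_withDensity hp hp0 g

theorem ent_integrable_dm_iff {p : E → ℝ} (hp : Measurable p) (hp0 : ∀ x, 0 ≤ p x) {g : E → ℝ} :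
    Integrable g (dm p) ↔ Integrable fun x => p x * g x :=
  ent_integrable_withDensity_iff hp hp0

end Claimed.Agent.R259
end

/- ===== packed: Claimed.Agent.R259.S4CurveEnt ===== -/
section
/-
Row 259 (S0499), section 4, package BP-S4-curve, file ENT: relative entropy at DENSITY level (`entF ν k = ∫⁻ klFun(k) dν`), chain rule in both
orders for a joint density with respect to a product of two probability measures, identification with `klDiv`.
Owner: helper147.   Mathlib + EntDefs + Ent (kit ENT) only.  Leaves proved by helper212: sorry-free.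

CHAIN RULE WITHOUT KERNELS.  `klFun (a b) = a klFun b + (b - 1) a log a + klFun a`.  Integrate in `y` with `a = ∫ g dβ`, `b = g / a`, `∫ b dβ = 1`
(`s4c_ent_pt`; all integrands `≥ 0`, values in `[0,∞]`; if `∫⁻ klFun b = ∞` both sides are `∞` because `(b - 1) a log a` is integrable).
Then Tonelli in both orders (`s4c_ent_two`, PROVED here).
-/
set_option autoImplicit false

open MeasureTheory ProbabilityTheory InformationTheory
open scoped ENNReal

namespace Claimed.Agent.R259

section abstract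

variable {X Y : Type} [MeasurableSpace X] [MeasurableSpace Y]

/-- algebra behind the chain rule -/
theorem s4c_klFun_mul {a b : ℝ} (ha : 0 < a) (hb : 0 ≤ b) :
    klFun (a * b) = a * klFun b + (b - 1) * (a * Real.log a) + klFun a := by
  rcases hb.eq_or_lt with rfl | hb
  · simp only [klFun, mul_zero, Real.log_zero]
    ring
  · simp only [klFun]
    rw [Real.log_mul ha.ne' hb.ne']
    ring

/-- LEAF.  Pointwise chain rule: `g ≥ 0` integrable with respect to the probability `β`, `a = ∫ g dβ`. -/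
theorem s4c_ent_pt {β : Measure Y} [IsProbabilityMeasure β] {g : Y → ℝ} (hm : Measurable g)
    (h0 : ∀ y, 0 ≤ g y) (hi : Integrable g β) :
    entF β g = ENNReal.ofReal (klFun (∫ y, g y ∂β)) +
      ENNReal.ofReal (∫ y, g y ∂β) * entF β (fun y => g y / ∫ y', g y' ∂β) := by
  set a := ∫ y, g y ∂β with ha
  have ha0 : 0 ≤ a := integral_nonneg h0
  rcases ha0.eq_or_lt with ha' | hapos
  · -- `g = 0` a.e.
    have hg : g =ᵐ[β] 0 := (integral_eq_zero_iff_of_nonneg h0 hi).1 ha'.symm
    rw [← ha', ent_entF_congr (k' := fun _ => 0) hg]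
    simp [entF]
  · have hb0 : ∀ y, 0 ≤ g y / a := fun y => div_nonneg (h0 y) ha0
    have hbi : Integrable (fun y => g y / a) β := hi.div_const a
    have hb1 : ∫ y, g y / a ∂β = 1 := by
      rw [integral_div, ← ha, div_self hapos.ne']
    have hpt : ∀ y, klFun (g y) =
        a * klFun (g y / a) + (g y / a - 1) * (a * Real.log a) + klFun a := by
      intro y
      rw [← s4c_klFun_mul hapos (hb0 y), mul_div_cancel₀ _ hapos.ne']
    have hlin : Integrable (fun y => (g y / a - 1) * (a * Real.log a)) β :=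
      (hbi.sub (integrable_const 1)).mul_const _
    have hmb : Measurable fun y => klFun (g y / a) := measurable_klFun.comp (hm.div_const a)
    by_cases hI : Integrable (fun y => klFun (g y / a)) β
    · have hIg : Integrable (fun y => klFun (g y)) β := by
        refine (((hI.const_mul a).add hlin).add (integrable_const (klFun a))).congr
          (Filter.Eventually.of_forall fun y => ?_)
        simp only [Pi.add_apply]
        rw [hpt y]
      have e1 : entF β g = ENNReal.ofReal (∫ y, klFun (g y) ∂β) := by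
        unfold entF
        rw [ofReal_integral_eq_lintegral_ofReal hIg
          (Filter.Eventually.of_forall fun y => klFun_nonneg (h0 y))]
      have e2 : entF β (fun y => g y / a) = ENNReal.ofReal (∫ y, klFun (g y / a) ∂β) := by
        unfold entF
        rw [ofReal_integral_eq_lintegral_ofReal hI
          (Filter.Eventually.of_forall fun y => klFun_nonneg (hb0 y))]
      have e3 : ∫ y, klFun (g y) ∂β = klFun a + a * ∫ y, klFun (g y / a) ∂β := by
        simp_rw [hpt]
        have i1 : Integrable (fun y => a * klFun (g y / a)) β := hI.const_mul a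
        have i2 : Integrable (fun y => a * klFun (g y / a) + (g y / a - 1) * (a * Real.log a)) β :=
          i1.add hlin
        rw [integral_add i2 (integrable_const _), integral_add i1 hlin, integral_const_mul,
          integral_mul_const, integral_sub hbi (integrable_const 1), hb1]
        simp
        ring
      rw [e1, e2, e3, ENNReal.ofReal_add (klFun_nonneg ha0)
        (mul_nonneg ha0 (integral_nonneg fun y => klFun_nonneg (hb0 y))), ENNReal.ofReal_mul ha0]
    · have hIg : ¬ Integrable (fun y => klFun (g y)) β := by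
        intro hIg
        apply hI
        refine (((hIg.sub hlin).sub (integrable_const (klFun a))).const_mul a⁻¹).congr
          (Filter.Eventually.of_forall fun y => ?_)
        simp only [Pi.sub_apply]
        rw [hpt y]
        field_simp
        ring
      have t1 : entF β g = ⊤ := by
        by_contra h
        exact hIg ((lintegral_ofReal_ne_top_iff_integrable
          (measurable_klFun.comp hm).aestronglyMeasurable
          (Filter.Eventually.of_forall fun y => klFun_nonneg (h0 y))).1 h)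
      have t2 : entF β (fun y => g y / a) = ⊤ := by
        by_contra h
        exact hI ((lintegral_ofReal_ne_top_iff_integrable hmb.aestronglyMeasurable
          (Filter.Eventually.of_forall fun y => klFun_nonneg (hb0 y))).1 h)
      rw [t1, t2, ENNReal.mul_top (by simpa using hapos)]
      simp

variable {α : Measure X} {β : Measure Y} [IsProbabilityMeasure α] [IsProbabilityMeasure β]

theorem s4c_ent_chain {j : X → Y → ℝ} (hj : Measurable (Function.uncurry j)) (h0 : ∀ x y, 0 ≤ j x y)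
    (hi : ∀ x, Integrable (j x) β) :
    ∫⁻ x, entF β (j x) ∂α = entF α (fun x => ∫ y, j x y ∂β) +
      ∫⁻ x, ENNReal.ofReal (∫ y, j x y ∂β) * entF β (fun y => j x y / ∫ y', j x y' ∂β) ∂α := by
  have h1 : ∀ x, entF β (j x) = ENNReal.ofReal (klFun (∫ y, j x y ∂β)) +
      ENNReal.ofReal (∫ y, j x y ∂β) * entF β (fun y => j x y / ∫ y', j x y' ∂β) := fun x =>
    s4c_ent_pt (hj.comp measurable_prodMk_left) (h0 x) (hi x)
  have hmeas : Measurable fun x => ∫ y, j x y ∂β :=
    (hj.stronglyMeasurable.integral_prod_right (ν := β)).measurable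
  simp_rw [h1]
  have hm2 : Measurable fun x => ENNReal.ofReal (klFun (∫ y, j x y ∂β)) :=
    (measurable_klFun.comp hmeas).ennreal_ofReal
  rw [lintegral_add_left hm2]
  rfl

theorem s4c_ent_swap {j : X → Y → ℝ} (hj : Measurable (Function.uncurry j)) :
    ∫⁻ x, entF β (j x) ∂α = ∫⁻ y, entF α (fun x => j x y) ∂β := by
  unfold entF
  exact lintegral_lintegral_swap (measurable_klFun.comp hj).ennreal_ofReal.aemeasurable

/-- **Chain rule in both orders** for the joint density `j` with respect to `α ⊗ β`. -/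
theorem s4c_ent_two {j : X → Y → ℝ} (hj : Measurable (Function.uncurry j)) (h0 : ∀ x y, 0 ≤ j x y)
    (hx : ∀ x, Integrable (j x) β) (hy : ∀ y, Integrable (fun x => j x y) α) :
    entF α (fun x => ∫ y, j x y ∂β) +
        ∫⁻ x, ENNReal.ofReal (∫ y, j x y ∂β) * entF β (fun y => j x y / ∫ y', j x y' ∂β) ∂α =
      entF β (fun y => ∫ x, j x y ∂α) +
        ∫⁻ y, ENNReal.ofReal (∫ x, j x y ∂α) * entF α (fun x => j x y / ∫ x', j x' y ∂α) ∂β := by
  rw [← s4c_ent_chain hj h0 hx, s4c_ent_swap hj]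
  exact s4c_ent_chain (j := fun y x => j x y) (hj.comp measurable_swap) (fun y x => h0 x y) hy

end abstract

/-! ### identification with `klDiv` and with real integrals (LEAVES) -/

section kl

variable {X : Type} [MeasurableSpace X] {ν : Measure X} [IsProbabilityMeasure ν]

theorem s4c_entF_congr {k k' : X → ℝ} (h : k =ᵐ[ν] k') : entF ν k = entF ν k' := by
  unfold entF
  exact lintegral_congr_ae (h.mono fun x hx => by simp only [hx])

/-- (`klDiv_eq_lintegral_klFun_of_ac`, `Measure.rnDeriv_withDensity`) -/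
theorem s4c_kl_withDensity {k : X → ℝ} (hm : Measurable k) (h0 : ∀ x, 0 ≤ k x) (hi : Integrable k ν) :
    klDiv (ν.withDensity fun x => ENNReal.ofReal (k x)) ν = entF ν k :=
  ent_klDiv_withDensity hm.aemeasurable (Filter.Eventually.of_forall h0)
    (by rw [← ofReal_integral_eq_lintegral_ofReal hi (Filter.Eventually.of_forall h0)]
        exact ENNReal.ofReal_ne_top)

/-- `entF` as a real integral -/
theorem s4c_entF_real {k : X → ℝ} (h0 : ∀ x, 0 ≤ k x) (hi : Integrable k ν) (h1 : ∫ x, k x ∂ν = 1)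
    (hl : Integrable (fun x => k x * Real.log (k x)) ν) :
    entF ν k = ENNReal.ofReal (∫ x, k x * Real.log (k x) ∂ν) := by
  rw [ent_entF_eq_ofReal (Filter.Eventually.of_forall h0) hi hl, h1]
  simp

theorem s4c_entF_of_integrable {k : X → ℝ} (h0 : ∀ x, 0 ≤ k x) (hi : Integrable (fun x => klFun (k x)) ν) :
    entF ν k = ENNReal.ofReal (∫ x, klFun (k x) ∂ν) := by
  unfold entF
  rw [ofReal_integral_eq_lintegral_ofReal hi (Filter.Eventually.of_forall fun x => klFun_nonneg (h0 x))]

/-- for every nonnegative function, measurable or not -/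
theorem s4c_ofReal_integral_le {m : Measure X} {F : X → ℝ} (h0 : ∀ x, 0 ≤ F x) :
    ENNReal.ofReal (∫ x, F x ∂m) ≤ ∫⁻ x, ENNReal.ofReal (F x) ∂m := by
  by_cases h : Integrable F m
  · rw [ofReal_integral_eq_lintegral_ofReal h (Filter.Eventually.of_forall h0)]
  · rw [integral_undef h]; simp

end kl

section dm

variable {E : Type} [NormedAddCommGroup E] [InnerProductSpace ℝ E] [FiniteDimensional ℝ E]
  [MeasurableSpace E] [BorelSpace E]

/-- change of density in a `lintegral` -/
theorem s4c_lintegral_dm {q : E → ℝ} (hq : Measurable q) (F : E → ℝ≥0∞) :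
    ∫⁻ u, F u ∂(dm q) = ∫⁻ u, ENNReal.ofReal (q u) * F u := by
  unfold dm
  rw [lintegral_withDensity_eq_lintegral_mul_non_measurable _ hq.ennreal_ofReal
    (Filter.Eventually.of_forall fun _ => ENNReal.ofReal_lt_top)]
  rfl

/-- `dm p = (dm q).withDensity (p / q)` -/
theorem s4c_dm_eq_withDensity {p q : E → ℝ} (hp : Measurable p) (hq : Measurable q) (hq0 : ∀ u, 0 < q u) :
    dm p = (dm q).withDensity fun u => ENNReal.ofReal (p u / q u) :=
  ent_dm_eq_withDensity hp hq hq0

theorem s4c_kl_dm {p q : E → ℝ} (hp : Measurable p) (hp0 : ∀ u, 0 ≤ p u) (hq : Measurable q) (hq0 : ∀ u, 0 < q u)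
    [IsProbabilityMeasure (dm p)] [IsProbabilityMeasure (dm q)] :
    klDiv (dm p) (dm q) = entF (dm q) fun u => p u / q u :=
  ent_klDiv_dm hp hq hp0 hq0

end dm

end Claimed.Agent.R259
end

/- ===== packed: Claimed.Agent.R259.S4LossDefs ===== -/
section
/-
Row 259 (S0499), Lemma 4.2 (entropy loss under a Gaussian observation): definitions.
Owner: helper103.

SINGLE-COPY PROOF (differs from the paper: no independent copies, no projections, no matrix precisions).
For `t > 0`, `h ∈ E` put `e_{t,h}(y) = exp(⟨h,y⟩ - t|y|²/2)` (`s4lT`), `N_f(t,h) = ∫ f p e_{t,h}` (`s4lN`),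
`Z_p(t,h) = ∫ p e_{t,h}` (`s4lZ`), `π^p_{t,h} = p e_{t,h} / Z_p(t,h)`, `a_p(t,h)` its mean (`s4lA`).
STATE `(t,z,c)`: the `p`-posterior `π^p_{t,z}` is compared with the TILTED `q`-posterior `π^q_{t,z-c}`;
`s4lR p q t z c = Z_p(t,z) · H(π^p_{t,z} | π^q_{t,z-c})`, `s4lD = a_p(t,z) - a_q(t,z-c)`.
An observation of strength `δ` moves `z ↦ z + ζ` (`ζ` has density `gk δ ζ · Z_p(t+δ,z+ζ)/Z_p(t,z)`), and we move
`c ↦ c + δ D`.  Chain rule: `E R' = R + δ|D|²/2 - H(h_p | h_q)` where the two output laws have EQUAL means, so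
`H(h_p | h_q) ≤ χ² ≤ C δ²` (`s4l_one_step`).  At the end the isotropic LSI of the `T`-strongly log-concave law
`π^q_{T,z-c}` gives `2 R ≤ E|w + c|²/T` (`s4l_final`), and `|a + δD|²/(t+δ) - δ|D|² ≤ |a|²/t`.
Backward induction, POINTWISE in `(z,c)` (`s4l_dp`); integration at `c = 0` gives Lemma 4.2.
-/
set_option autoImplicit false

open MeasureTheory Filter Topology
open scoped ContDiff ENNReal

namespace Claimed.Agent.R259

variable {E : Type} [NormedAddCommGroup E] [InnerProductSpace ℝ E] [FiniteDimensional ℝ E]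
  [MeasurableSpace E] [BorelSpace E]

/-- Gaussian tilt `exp(⟨h,y⟩ - t|y|²/2)`. -/
noncomputable def s4lT (t : ℝ) (h y : E) : ℝ := Real.exp (inner ℝ h y - t * ‖y‖ ^ 2 / 2)

section

variable {F : Type} [NormedAddCommGroup F] [NormedSpace ℝ F]

/-- `N_f(t,h) = ∫ f(y) p(y) exp(⟨h,y⟩ - t|y|²/2) dy`. -/
noncomputable def s4lN (p : E → ℝ) (f : E → F) (t : ℝ) (h : E) : F := ∫ y, (p y * s4lT t h y) • f y

/-- Gaussian averaging `(K_δ f)(z) = ∫ gk δ ζ • f (z + ζ) dζ`. -/
noncomputable def s4lK (δ : ℝ) (f : E → F) (z : E) : F := ∫ ζ, gk δ ζ • f (z + ζ)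

end

/-- `Z_p(t,h) = ∫ p(y) exp(⟨h,y⟩ - t|y|²/2) dy`. -/
noncomputable def s4lZ (p : E → ℝ) (t : ℝ) (h : E) : ℝ := ∫ y, p y * s4lT t h y

/-- mean of the tilted law. -/
noncomputable def s4lA (p : E → ℝ) (t : ℝ) (h : E) : E := (s4lZ p t h)⁻¹ • s4lN p (fun y => y) t h

/-- density of the tilted law. -/
noncomputable def s4lP (p : E → ℝ) (t : ℝ) (h y : E) : ℝ := (s4lZ p t h)⁻¹ * (p y * s4lT t h y)

/-- `log (p/q)`. -/
noncomputable def s4lL (p q : E → ℝ) (y : E) : ℝ := Real.log (p y / q y)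

/-- `Z_p(t,z) · H(π^p_{t,z} | π^q_{t,z-c})`. -/
noncomputable def s4lR (p q : E → ℝ) (t : ℝ) (z c : E) : ℝ :=
  s4lN p (s4lL p q) t z + inner ℝ c (s4lN p (fun y => y) t z)
    - s4lZ p t z * Real.log (s4lZ p t z / s4lZ q t (z - c))

/-- difference of the two posterior means. -/
noncomputable def s4lD (p q : E → ℝ) (t : ℝ) (z c : E) : E := s4lA p t z - s4lA q t (z - c)

/-- `Z_p(t,z) · |E_{π^p_{t,z}} w|²`. -/
noncomputable def s4lV (p : E → ℝ) (w : E → E) (t : ℝ) (z : E) : ℝ := ‖s4lN p w t z‖ ^ 2 / s4lZ p t z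

/-- Laplace transform `∫ exp(⟨ζ,y⟩ - δ|y|²/2) dα(y)` of a measure. -/
noncomputable def s4lLap (α : Measure E) (δ : ℝ) (ζ : E) : ℝ := ∫ y, s4lT δ ζ y ∂α

/-- the dimensional constant `∫ gk 1 g · exp(|g|²/4) dg` (`= 2^{d/2}`). -/
noncomputable def s4lCq (E : Type) [NormedAddCommGroup E] [InnerProductSpace ℝ E] [FiniteDimensional ℝ E]
    [MeasurableSpace E] [BorelSpace E] : ℝ := ∫ g : E, gk 1 g * Real.exp (‖g‖ ^ 2 / 4)

/-- the error density of one step. -/
noncomputable def s4lErr (κ δ : ℝ) (y : E) : ℝ :=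
  4 * Real.exp (s4lCq E / 2) * (δ ^ 2 / κ ^ 2) * (Real.exp (8 * κ * ‖y‖ ^ 2) + s4lCq E ^ 2)

/-- the hypotheses of Lemma 4.2, in Lebesgue form. -/
structure S4LHyp (p q : E → ℝ) (w : E → E) (c₀ : ℝ) : Prop where
  hp : SPD p
  hq : SPD q
  lc : LogConc q
  hw : ∀ x, w x = gradient (s4lL p q) x
  hH : Integrable (fun y => p y * s4lL p q y)
  hI : Integrable (fun y => p y * ‖w y‖ ^ 2)
  hc : 0 < c₀
  hexp : Integrable (fun y => p y * Real.exp (c₀ * ‖y‖ ^ 2))

/-- generates the equation lemmas of the definitions above in this file (rule 6: unique names) -/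
theorem s4lossdefs_eqns_cite : True := by
  have := @s4lT.eq_1
  have := @s4lN.eq_1
  have := @s4lK.eq_1
  have := @s4lZ.eq_1
  have := @s4lA.eq_1
  have := @s4lP.eq_1
  have := @s4lL.eq_1
  have := @s4lR.eq_1
  have := @s4lD.eq_1
  have := @s4lV.eq_1
  have := @s4lLap.eq_1
  have := @s4lCq.eq_1
  have := @s4lErr.eq_1
  have := @s4lR.congr_simp
  trivial

end Claimed.Agent.R259
end

/- ===== packed: Claimed.Agent.R259.S4LossBase ===== -/
section
/-
Row 259 (S0499), Lemma 4.2: Gaussian kernel facts, tilt calculus and the Gaussian averaging operator.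
Owner: helper103.
-/
set_option autoImplicit false
set_option linter.unusedSectionVars false

open MeasureTheory Filter Topology
open scoped ContDiff ENNReal

namespace Claimed.Agent.R259

variable {E : Type} [NormedAddCommGroup E] [InnerProductSpace ℝ E] [FiniteDimensional ℝ E]
  [MeasurableSpace E] [BorelSpace E]

variable {F : Type} [NormedAddCommGroup F] [NormedSpace ℝ F] [CompleteSpace F]

/-! ### integrals against `dm ρ` -/

theorem s4l_integral_dm {ρ : E → ℝ} (hm : Measurable ρ) (h0 : ∀ x, 0 ≤ ρ x) (f : E → F) :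
    ∫ x, f x ∂(dm ρ) = ∫ x, ρ x • f x := by
  unfold dm
  rw [integral_withDensity_eq_integral_toReal_smul hm.ennreal_ofReal
    (ae_of_all _ fun _ => ENNReal.ofReal_lt_top)]
  simp only [ENNReal.toReal_ofReal (h0 _)]

theorem s4l_integrable_dm {ρ : E → ℝ} (hm : Measurable ρ) (h0 : ∀ x, 0 ≤ ρ x) {f : E → F} :
    Integrable f (dm ρ) ↔ Integrable (fun x => ρ x • f x) := by
  unfold dm
  rw [integrable_withDensity_iff_integrable_smul' hm.ennreal_ofReal
    (ae_of_all _ fun _ => ENNReal.ofReal_lt_top)]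
  simp only [ENNReal.toReal_ofReal (h0 _)]

/-! ### the tilt -/

theorem s4l_T_pos (t : ℝ) (h y : E) : 0 < s4lT t h y := Real.exp_pos _

theorem s4l_T_continuous (t : ℝ) : Continuous (fun x : E × E => s4lT t x.1 x.2) := by
  unfold s4lT; fun_prop

theorem s4l_T_continuous_right (t : ℝ) (h : E) : Continuous (fun y : E => s4lT t h y) := by
  unfold s4lT; fun_prop

theorem s4l_T_le {t : ℝ} (ht : 0 < t) (h y : E) : s4lT t h y ≤ Real.exp (‖h‖ ^ 2 / (2 * t)) := by
  unfold s4lT
  apply Real.exp_le_exp.2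
  have h1 : 0 ≤ ‖h - t • y‖ ^ 2 := by positivity
  rw [norm_sub_sq_real, norm_smul, inner_smul_right, Real.norm_eq_abs, abs_of_pos ht] at h1
  rw [le_div_iff₀ (by positivity)]
  nlinarith

theorem s4l_T_mul (s t : ℝ) (h k y : E) : s4lT s h y * s4lT t k y = s4lT (s + t) (h + k) y := by
  unfold s4lT
  rw [← Real.exp_add, inner_add_left]
  congr 1; ring

theorem s4l_T_zero (y : E) : s4lT 0 (0 : E) y = 1 := by
  unfold s4lT; simp

/-- recentring: `e_{δ,ζ}(a + x) = e_{δ,ζ}(a) e_{δ,ζ-δa}(x)`. -/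
theorem s4l_T_shift (δ : ℝ) (ζ a x : E) : s4lT δ ζ (a + x) = s4lT δ ζ a * s4lT δ (ζ - δ • a) x := by
  unfold s4lT
  rw [← Real.exp_add, norm_add_sq_real, inner_add_right, inner_sub_left, inner_smul_left]
  congr 1
  simp only [RCLike.conj_to_real]
  ring

/-! ### the Gaussian kernel -/

theorem s4l_gk_continuous (s : ℝ) : Continuous (gk s : E → ℝ) := by
  unfold gk; fun_prop

theorem s4l_gk_integrable {s : ℝ} (hs : 0 < s) : Integrable (gk s : E → ℝ) :=
  integrable_of_integral_eq_one (gc_gk_integral hs)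

theorem s4l_gk_nonneg {s : ℝ} (hs : 0 < s) (z : E) : 0 ≤ gk s z := (gc_gk_pos hs z).le

theorem s4l_gk_le {s : ℝ} (hs : 0 < s) (z : E) : gk s z ≤ gk s (0 : E) := by
  unfold gk
  apply mul_le_mul_of_nonneg_left _ (by positivity)
  apply Real.exp_le_exp.2
  have : 0 ≤ ‖z‖ ^ 2 / (2 * s) := by positivity
  simp only [norm_zero, ne_eq, OfNat.ofNat_ne_zero, not_false_eq_true, zero_pow, neg_zero, zero_div]
  rw [neg_div]; linarith

theorem s4l_gk_neg (s : ℝ) (z : E) : gk s (-z) = gk s z := by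
  unfold gk; rw [norm_neg]

theorem s4l_gk_mul_T {δ : ℝ} (hδ : 0 < δ) (ζ y : E) : gk δ ζ * s4lT δ ζ y = gk δ (ζ - δ • y) := by
  unfold gk s4lT
  rw [mul_assoc, ← Real.exp_add, norm_sub_sq_real, norm_smul, inner_smul_right, Real.norm_eq_abs,
    abs_of_pos hδ]
  congr 2
  field_simp
  ring

theorem s4l_gk_T_integral {δ : ℝ} (hδ : 0 < δ) (y : E) : ∫ ζ, gk δ ζ * s4lT δ ζ y = 1 := by
  simp only [s4l_gk_mul_T hδ]
  rw [integral_sub_right_eq_self (fun ζ : E => gk δ ζ)]
  exact gc_gk_integral hδ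

/-- semigroup property of the kernel. -/
theorem s4l_gk_conv {s t : ℝ} (hs : 0 < s) (ht : 0 < t) (y : E) :
    ∫ x, gk s x * gk t (y - x) = gk (s + t) y := by
  have h := congrFun (gc_semigroup (μ := Measure.dirac (0 : E)) hs ht) y
  have h1 : gconv (Measure.dirac (0 : E)) s = gk s := by
    ext u; unfold gconv
    rw [integral_dirac]; simp
  have h2 : gconv (Measure.dirac (0 : E)) (s + t) = gk (s + t) := by
    ext u; unfold gconv
    rw [integral_dirac]; simp
  rw [h1, h2] at h
  rw [← h]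
  unfold gconv
  rw [s4l_integral_dm (s4l_gk_continuous s).measurable (s4l_gk_nonneg hs)]
  simp only [smul_eq_mul]

/-- scaling. -/
theorem s4l_gk_scale {b : ℝ} (hb : 0 < b) (v : E) :
    gk b (b • v) = (b ^ Module.finrank ℝ E)⁻¹ * gk b⁻¹ v := by
  unfold gk
  rw [norm_smul, Real.norm_eq_abs, abs_of_pos hb]
  have e1 : -(b * ‖v‖) ^ 2 / (2 * b) = -‖v‖ ^ 2 / (2 * b⁻¹) := by
    field_simp
  have e2 : (2 * Real.pi * b) ^ (-(Module.finrank ℝ E : ℝ) / 2) =
      (b ^ Module.finrank ℝ E)⁻¹ * (2 * Real.pi * b⁻¹) ^ (-(Module.finrank ℝ E : ℝ) / 2) := by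
    have h1 : 2 * Real.pi * b = (b ^ (2 : ℝ)) * (2 * Real.pi * b⁻¹) := by
      rw [Real.rpow_two]; field_simp
    rw [h1, Real.mul_rpow (by positivity) (by positivity), ← Real.rpow_mul hb.le]
    congr 1
    rw [show (2 : ℝ) * (-(Module.finrank ℝ E : ℝ) / 2) = -(Module.finrank ℝ E : ℝ) by ring,
      Real.rpow_neg hb.le, Real.rpow_natCast]
  rw [e1, e2, mul_assoc]

/-- Gaussian integrability of `exp(a|z|²)`, `2 a s < 1`. -/
theorem s4l_gk_exp_integrable {s a : ℝ} (hs : 0 < s) (ha : 2 * a * s < 1) :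
    Integrable (fun z : E => gk s z * Real.exp (a * ‖z‖ ^ 2)) := by
  have h1 : 0 < 1 - 2 * a * s := by linarith
  have hs' : 0 < s / (1 - 2 * a * s) := by positivity
  have hc : 0 < (2 * Real.pi * (s / (1 - 2 * a * s))) ^ (-(Module.finrank ℝ E : ℝ) / 2) := by
    positivity
  refine ((s4l_gk_integrable (E := E) hs').const_mul ((2 * Real.pi * s) ^ (-(Module.finrank ℝ E : ℝ) / 2) *
    ((2 * Real.pi * (s / (1 - 2 * a * s))) ^ (-(Module.finrank ℝ E : ℝ) / 2))⁻¹)).congr
    (ae_of_all _ fun z => ?_)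
  unfold gk
  have e1 : -‖z‖ ^ 2 / (2 * (s / (1 - 2 * a * s))) = -‖z‖ ^ 2 / (2 * s) + a * ‖z‖ ^ 2 := by
    field_simp; ring
  beta_reduce
  rw [e1, Real.exp_add]
  set A := (2 * Real.pi * (s / (1 - 2 * a * s))) ^ (-(Module.finrank ℝ E : ℝ) / 2) with hA
  field_simp

theorem s4l_gk_norm_integrable {s : ℝ} (hs : 0 < s) : Integrable (fun z : E => gk s z * ‖z‖) := by
  have h1 := s4l_gk_exp_integrable (E := E) (a := 1 / (4 * s)) hs (by field_simp; norm_num)
  refine Integrable.mono' ((s4l_gk_integrable (E := E) hs).add (h1.const_mul (4 * s))) ?_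
    (ae_of_all _ fun z => ?_)
  · have : Continuous (fun z : E => gk s z * ‖z‖) := by unfold gk; fun_prop
    exact this.aestronglyMeasurable
  · have hg := (gc_gk_pos hs z).le
    rw [norm_mul, Real.norm_eq_abs, abs_of_nonneg hg, norm_norm]
    simp only [Pi.add_apply]
    have h2 : 1 / (4 * s) * ‖z‖ ^ 2 + 1 ≤ Real.exp (1 / (4 * s) * ‖z‖ ^ 2) := Real.add_one_le_exp _
    have h3 : ‖z‖ ^ 2 ≤ 4 * s * Real.exp (1 / (4 * s) * ‖z‖ ^ 2) := by
      have : ‖z‖ ^ 2 = 4 * s * (1 / (4 * s) * ‖z‖ ^ 2) := by field_simp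
      nlinarith
    have h4 : ‖z‖ ≤ 1 + 4 * s * Real.exp (1 / (4 * s) * ‖z‖ ^ 2) := by
      nlinarith [sq_nonneg (‖z‖ - 1), norm_nonneg z]
    calc gk s z * ‖z‖ ≤ gk s z * (1 + 4 * s * Real.exp (1 / (4 * s) * ‖z‖ ^ 2)) :=
          mul_le_mul_of_nonneg_left h4 hg
      _ = _ := by ring
theorem s4l_gk_first (s : ℝ) : ∫ z : E, gk s z • z = 0 := by
  have h := integral_neg_eq_self (fun z : E => gk s z • z) volume
  simp only [s4l_gk_neg, smul_neg] at h
  rw [integral_neg] at h
  have h2 : (2 : ℝ) • ∫ z : E, gk s z • z = 0 := by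
    rw [two_smul]; nth_rewrite 1 [← h]; simp
  simpa using h2

/-! ### smooth positive probability densities -/

theorem s4l_spd_continuous {p : E → ℝ} (hp : SPD p) : Continuous p := hp.1.continuous

theorem s4l_spd_integrable {p : E → ℝ} (hp : SPD p) : Integrable p :=
  integrable_of_integral_eq_one hp.2.2

theorem s4l_spd_nonneg {p : E → ℝ} (hp : SPD p) (x : E) : 0 ≤ p x := (hp.2.1 x).le

/-! ### tilted integrals -/

theorem s4l_tilt_integrable {p : E → ℝ} {f : E → F} (hpf : Integrable (fun y => p y • f y)) {t : ℝ}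
    (ht : 0 < t) (h : E) : Integrable (fun y => (p y * s4lT t h y) • f y) := by
  have h1 := hpf.bdd_smul (φ := fun y => s4lT t h y) (Real.exp (‖h‖ ^ 2 / (2 * t)))
    (s4l_T_continuous_right t h).aestronglyMeasurable
    (ae_of_all _ fun y => by
      rw [Real.norm_eq_abs, abs_of_pos (s4l_T_pos _ _ _)]; exact s4l_T_le ht h y)
  refine h1.congr (ae_of_all _ fun y => ?_)
  simp only [Pi.smul_apply', smul_smul]; rw [mul_comm]

theorem s4l_tilt_integrable' {p : E → ℝ} (hp : Integrable p) {t : ℝ}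
    (ht : 0 < t) (h : E) : Integrable (fun y => p y * s4lT t h y) := by
  have h1 : Integrable (fun y => p y • (1 : ℝ)) := by simpa using hp
  simpa using s4l_tilt_integrable h1 ht h

theorem s4l_Z_eq_N (p : E → ℝ) (t : ℝ) (h : E) : s4lZ p t h = s4lN p (fun _ => (1 : ℝ)) t h := by
  unfold s4lZ s4lN; simp

theorem s4l_Z_pos {p : E → ℝ} (hp : SPD p) {t : ℝ} (ht : 0 < t) (h : E) : 0 < s4lZ p t h := by
  unfold s4lZ
  rw [integral_pos_iff_support_of_nonneg
    (fun y => mul_nonneg (s4l_spd_nonneg hp y) (s4l_T_pos _ _ _).le)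
    (s4l_tilt_integrable' (s4l_spd_integrable hp) ht h)]
  have : Function.support (fun y => p y * s4lT t h y) = Set.univ := by
    ext y
    simp only [Function.mem_support, ne_eq, mul_eq_zero, not_or, Set.mem_univ, iff_true]
    exact ⟨(hp.2.1 y).ne', (s4l_T_pos _ _ _).ne'⟩
  rw [this]
  exact Measure.measure_univ_pos.2 (NeZero.ne _)

theorem s4l_N_stronglyMeasurable {p : E → ℝ} (hp : Continuous p) {f : E → F} (hf : Continuous f)
    (t : ℝ) : StronglyMeasurable (s4lN p f t) := by
  unfold s4lN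
  have h1 : Continuous (fun x : E × E => (p x.2 * s4lT t x.1 x.2) • f x.2) := by
    have := s4l_T_continuous (E := E) t
    fun_prop
  exact h1.stronglyMeasurable.integral_prod_right

theorem s4l_Z_measurable {p : E → ℝ} (hp : Continuous p) (t : ℝ) : Measurable (s4lZ p t) := by
  have h : s4lZ p t = s4lN p (fun _ => (1 : ℝ)) t := funext fun h => s4l_Z_eq_N p t h
  rw [h]
  exact (s4l_N_stronglyMeasurable hp continuous_const t).measurable

/-- **martingale property**: `K_δ N_f(t+δ,·) = N_f(t,·)`. -/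
theorem s4l_K_N {p : E → ℝ} (hp : Continuous p) {f : E → F} (hf : Continuous f) {t δ : ℝ}
    (hδ : 0 < δ) {z : E} (hint : Integrable (fun y => (p y * s4lT t z y) • f y)) :
    Integrable (fun ζ => gk δ ζ • s4lN p f (t + δ) (z + ζ)) ∧
      s4lK δ (s4lN p f (t + δ)) z = s4lN p f t z := by
  set Φ : E → E → F := fun ζ y => gk δ (ζ - δ • y) • ((p y * s4lT t z y) • f y) with hΦ
  have hΦ' : ∀ ζ y, gk δ ζ • ((p y * s4lT (t + δ) (z + ζ) y) • f y) = Φ ζ y := by
    intro ζ y
    rw [hΦ]
    simp only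
    rw [← s4l_gk_mul_T hδ, ← s4l_T_mul, smul_smul, smul_smul]
    congr 1; ring
  have hcont : Continuous (Function.uncurry Φ) := by
    have h1 := s4l_gk_continuous (E := E) δ
    have h2 := s4l_T_continuous_right t z
    rw [hΦ]
    simp only [Function.uncurry_def]
    fun_prop
  have hI : Integrable (Function.uncurry Φ) (volume.prod volume) := by
    rw [integrable_prod_iff' hcont.aestronglyMeasurable]
    constructor
    · refine ae_of_all _ fun y => ?_
      have h5 : Integrable (fun ζ : E => gk δ (ζ - δ • y)) :=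
        (s4l_gk_integrable hδ).comp_sub_right (δ • y)
      exact h5.smul_const ((p y * s4lT t z y) • f y)
    · have h3 : ∀ y, ∫ ζ, ‖Function.uncurry Φ (ζ, y)‖ = ‖(p y * s4lT t z y) • f y‖ := by
        intro y
        have h4 : ∀ ζ, ‖Function.uncurry Φ (ζ, y)‖ = gk δ (ζ - δ • y) * ‖(p y * s4lT t z y) • f y‖ := by
          intro ζ
          simp only [Function.uncurry_apply_pair, hΦ]
          rw [norm_smul, Real.norm_eq_abs, abs_of_nonneg (s4l_gk_nonneg hδ _)]
        simp only [h4]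
        rw [integral_mul_const, integral_sub_right_eq_self (fun ζ : E => gk δ ζ), gc_gk_integral hδ,
          one_mul]
      simp only [h3]
      exact hint.norm
  have hN : ∀ ζ, gk δ ζ • s4lN p f (t + δ) (z + ζ) = ∫ y, Φ ζ y := by
    intro ζ
    unfold s4lN
    rw [← integral_smul]
    simp only [hΦ']
  constructor
  · simp only [hN]
    exact hI.integral_prod_left
  · unfold s4lK
    simp only [hN]
    rw [integral_integral_swap hI]
    unfold s4lN
    congr 1
    ext y
    simp only [hΦ]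
    rw [integral_smul_const, integral_sub_right_eq_self (fun ζ : E => gk δ ζ), gc_gk_integral hδ,
      one_smul]

theorem s4l_K_Z {p : E → ℝ} (hp : SPD p) {t δ : ℝ} (ht : 0 < t) (hδ : 0 < δ) (z : E) :
    Integrable (fun ζ => gk δ ζ * s4lZ p (t + δ) (z + ζ)) ∧
      ∫ ζ, gk δ ζ * s4lZ p (t + δ) (z + ζ) = s4lZ p t z := by
  have h1 : Integrable (fun y => (p y * s4lT t z y) • (1 : ℝ)) := by
    simpa using s4l_tilt_integrable' (s4l_spd_integrable hp) ht z
  have h2 := s4l_K_N (s4l_spd_continuous hp) (continuous_const (y := (1 : ℝ))) hδ h1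
  unfold s4lK at h2
  simpa only [← s4l_Z_eq_N, smul_eq_mul] using h2

/-! ### linearity of `s4lN` -/

theorem s4l_N_add {p : E → ℝ} {f g : E → F} {t : ℝ} {h : E}
    (hf : Integrable (fun y => (p y * s4lT t h y) • f y))
    (hg : Integrable (fun y => (p y * s4lT t h y) • g y)) :
    s4lN p (fun y => f y + g y) t h = s4lN p f t h + s4lN p g t h := by
  unfold s4lN
  rw [← integral_add hf hg]
  simp only [smul_add]

theorem s4l_N_smul (p : E → ℝ) (f : E → F) (t : ℝ) (h : E) (a : ℝ) :
    s4lN p (fun y => a • f y) t h = a • s4lN p f t h := by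
  unfold s4lN
  rw [← integral_smul]
  congr 1; ext y
  rw [smul_comm]

theorem s4l_N_const_mul (p : E → ℝ) (f : E → ℝ) (t : ℝ) (h : E) (a : ℝ) :
    s4lN p (fun y => a * f y) t h = a * s4lN p f t h := by
  simpa using s4l_N_smul p f t h a

theorem s4l_N_const (p : E → ℝ) (t : ℝ) (h : E) (a : ℝ) :
    s4lN p (fun _ => a) t h = a * s4lZ p t h := by
  have := s4l_N_const_mul p (fun _ => (1 : ℝ)) t h a
  rw [← s4l_Z_eq_N] at this
  simpa using this

theorem s4l_N_inner {p : E → ℝ} {f : E → E} {t : ℝ} {h : E}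
    (hf : Integrable (fun y => (p y * s4lT t h y) • f y)) (c : E) :
    s4lN p (fun y => inner ℝ c (f y)) t h = inner ℝ c (s4lN p f t h) := by
  unfold s4lN
  rw [← integral_inner hf]
  simp only [inner_smul_right, smul_eq_mul]

theorem s4l_N_mono {p : E → ℝ} (hp : ∀ y, 0 ≤ p y) {f g : E → ℝ} {t : ℝ} {h : E}
    (hf : Integrable (fun y => (p y * s4lT t h y) • f y))
    (hg : Integrable (fun y => (p y * s4lT t h y) • g y)) (hfg : ∀ y, f y ≤ g y) :
    s4lN p f t h ≤ s4lN p g t h := by
  unfold s4lN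
  refine integral_mono hf hg fun y => ?_
  simp only [smul_eq_mul]
  exact mul_le_mul_of_nonneg_left (hfg y) (mul_nonneg (hp y) (s4l_T_pos _ _ _).le)

theorem s4l_N_nonneg {p : E → ℝ} (hp : ∀ y, 0 ≤ p y) {f : E → ℝ} (hf : ∀ y, 0 ≤ f y) (t : ℝ) (h : E) :
    0 ≤ s4lN p f t h := by
  unfold s4lN
  refine integral_nonneg fun y => ?_
  simp only [smul_eq_mul]
  exact mul_nonneg (mul_nonneg (hp y) (s4l_T_pos _ _ _).le) (hf y)

theorem s4l_norm_N_le {p : E → ℝ} (hp : ∀ y, 0 ≤ p y) (f : E → F) (t : ℝ) (h : E) :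
    ‖s4lN p f t h‖ ≤ s4lN p (fun y => ‖f y‖) t h := by
  unfold s4lN
  refine (norm_integral_le_integral_norm _).trans (le_of_eq ?_)
  congr 1; ext y
  rw [norm_smul, Real.norm_eq_abs, abs_of_nonneg (mul_nonneg (hp y) (s4l_T_pos _ _ _).le), smul_eq_mul]

/-! ### the tilted laws -/

theorem s4l_P_continuous {p : E → ℝ} (hp : Continuous p) (t : ℝ) (h : E) :
    Continuous (s4lP p t h) := by
  have := s4l_T_continuous_right t h
  unfold s4lP; fun_prop

theorem s4l_P_pos {p : E → ℝ} (hp : SPD p) {t : ℝ} (ht : 0 < t) (h y : E) : 0 < s4lP p t h y := by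
  unfold s4lP
  exact mul_pos (inv_pos.2 (s4l_Z_pos hp ht h)) (mul_pos (hp.2.1 y) (s4l_T_pos _ _ _))

theorem s4l_P_integral {p : E → ℝ} (hp : SPD p) {t : ℝ} (ht : 0 < t) (h : E) (f : E → F) :
    ∫ y, f y ∂(dm (s4lP p t h)) = (s4lZ p t h)⁻¹ • s4lN p f t h := by
  rw [s4l_integral_dm (s4l_P_continuous (s4l_spd_continuous hp) t h).measurable
    (fun y => (s4l_P_pos hp ht h y).le)]
  unfold s4lP s4lN
  rw [← integral_smul]
  simp only [smul_smul]

theorem s4l_P_integrable {p : E → ℝ} (hp : SPD p) {t : ℝ} (ht : 0 < t) (h : E) {f : E → F} :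
    Integrable f (dm (s4lP p t h)) ↔ Integrable (fun y => (p y * s4lT t h y) • f y) := by
  rw [s4l_integrable_dm (s4l_P_continuous (s4l_spd_continuous hp) t h).measurable
    (fun y => (s4l_P_pos hp ht h y).le)]
  unfold s4lP
  simp only [← smul_smul]
  exact integrable_smul_iff (inv_pos.2 (s4l_Z_pos hp ht h)).ne' _

theorem s4l_P_prob {p : E → ℝ} (hp : SPD p) {t : ℝ} (ht : 0 < t) (h : E) :
    IsProbabilityMeasure (dm (s4lP p t h)) := by
  constructor
  have h1 : ∫ y, s4lP p t h y = 1 := by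
    unfold s4lP
    rw [integral_const_mul]
    exact inv_mul_cancel₀ (s4l_Z_pos hp ht h).ne'
  unfold dm
  rw [withDensity_apply _ MeasurableSet.univ, Measure.restrict_univ,
    ← ofReal_integral_eq_lintegral_ofReal (integrable_of_integral_eq_one h1)
      (ae_of_all _ fun y => (s4l_P_pos hp ht h y).le), h1]
  simp

theorem s4l_P_mean {p : E → ℝ} (hp : SPD p) {t : ℝ} (ht : 0 < t) (h : E) :
    ∫ y, y ∂(dm (s4lP p t h)) = s4lA p t h := s4l_P_integral hp ht h (fun y => y)

theorem s4l_Lap_P {p : E → ℝ} (hp : SPD p) {t : ℝ} (ht : 0 < t) (z : E) (δ : ℝ) (ζ : E) :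
    s4lLap (dm (s4lP p t z)) δ ζ = (s4lZ p t z)⁻¹ * s4lZ p (t + δ) (z + ζ) := by
  unfold s4lLap
  rw [s4l_P_integral hp ht z, smul_eq_mul]
  congr 1
  unfold s4lN s4lZ
  congr 1; ext y
  rw [smul_eq_mul, mul_assoc, s4l_T_mul]

/-! ### consequences of the hypotheses -/

section hyp

variable {p q : E → ℝ} {w : E → E} {c₀ : ℝ}

theorem S4LHyp.L_contDiff (H : S4LHyp p q w c₀) : ContDiff ℝ ∞ (s4lL p q) := by
  unfold s4lL
  exact (H.hp.1.div H.hq.1 (fun x => (H.hq.2.1 x).ne')).log
    (fun x => (div_pos (H.hp.2.1 x) (H.hq.2.1 x)).ne')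

theorem S4LHyp.L_continuous (H : S4LHyp p q w c₀) : Continuous (s4lL p q) := H.L_contDiff.continuous

theorem S4LHyp.w_continuous (H : S4LHyp p q w c₀) : Continuous w := by
  have h1 : w = fun x => (InnerProductSpace.toDual ℝ E).symm (fderiv ℝ (s4lL p q) x) := by
    ext x; rw [H.hw]; rfl
  rw [h1]
  exact (InnerProductSpace.toDual ℝ E).symm.continuous.comp
    (H.L_contDiff.continuous_fderiv (by simp))

theorem S4LHyp.p_continuous (H : S4LHyp p q w c₀) : Continuous p := s4l_spd_continuous H.hp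

theorem S4LHyp.q_continuous (H : S4LHyp p q w c₀) : Continuous q := s4l_spd_continuous H.hq

theorem S4LHyp.int_L (H : S4LHyp p q w c₀) : Integrable (fun y => p y • s4lL p q y) := by
  simpa using H.hH

theorem S4LHyp.int_w2 (H : S4LHyp p q w c₀) : Integrable (fun y => p y • ‖w y‖ ^ 2) := by
  simpa using H.hI

theorem S4LHyp.int_w (H : S4LHyp p q w c₀) : Integrable (fun y => p y • w y) := by
  refine Integrable.mono' ((s4l_spd_integrable H.hp).add H.hI)
    (H.p_continuous.smul H.w_continuous).aestronglyMeasurable (ae_of_all _ fun y => ?_)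
  rw [norm_smul, Real.norm_eq_abs, abs_of_pos (H.hp.2.1 y)]
  simp only [Pi.add_apply]
  have h1 := H.hp.2.1 y
  nlinarith [sq_nonneg (‖w y‖ - 1), norm_nonneg (w y)]

theorem S4LHyp.int_exp (H : S4LHyp p q w c₀) {a : ℝ} (ha : a ≤ c₀) :
    Integrable (fun y => p y • Real.exp (a * ‖y‖ ^ 2)) := by
  refine Integrable.mono' H.hexp
    (H.p_continuous.smul (by fun_prop)).aestronglyMeasurable (ae_of_all _ fun y => ?_)
  rw [norm_smul, Real.norm_eq_abs, abs_of_pos (H.hp.2.1 y), Real.norm_eq_abs,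
    abs_of_pos (Real.exp_pos _)]
  exact mul_le_mul_of_nonneg_left (Real.exp_le_exp.2
    (mul_le_mul_of_nonneg_right ha (by positivity))) (H.hp.2.1 y).le

theorem S4LHyp.int_id (H : S4LHyp p q w c₀) : Integrable (fun y => p y • y) := by
  refine Integrable.mono' ((s4l_spd_integrable H.hp).add (H.hexp.const_mul c₀⁻¹))
    (H.p_continuous.smul continuous_id).aestronglyMeasurable (ae_of_all _ fun y => ?_)
  rw [norm_smul, Real.norm_eq_abs, abs_of_pos (H.hp.2.1 y)]
  simp only [Pi.add_apply]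
  have h1 := H.hp.2.1 y
  have h2 : c₀ * ‖y‖ ^ 2 + 1 ≤ Real.exp (c₀ * ‖y‖ ^ 2) := Real.add_one_le_exp _
  have h3 : ‖y‖ ^ 2 ≤ c₀⁻¹ * Real.exp (c₀ * ‖y‖ ^ 2) := by
    rw [← div_eq_inv_mul, le_div_iff₀ H.hc]; linarith
  have h4 : ‖y‖ ≤ 1 + c₀⁻¹ * Real.exp (c₀ * ‖y‖ ^ 2) := by
    nlinarith [sq_nonneg (‖y‖ - 1), norm_nonneg y]
  calc p y * ‖y‖ ≤ p y * (1 + c₀⁻¹ * Real.exp (c₀ * ‖y‖ ^ 2)) := mul_le_mul_of_nonneg_left h4 h1.le
    _ = _ := by ring

end hyp

end Claimed.Agent.R259
end

/- ===== packed: Claimed.Agent.R259.S4LossKit ===== -/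
section
/-
Row 259 (S0499), Lemma 4.2: semigroup property of the Gaussian averaging, domination, energy identities.
Owner: helper103.
-/
set_option autoImplicit false
set_option linter.unusedSectionVars false

open MeasureTheory Filter Topology
open scoped ContDiff ENNReal

namespace Claimed.Agent.R259

variable {E : Type} [NormedAddCommGroup E] [InnerProductSpace ℝ E] [FiniteDimensional ℝ E]
  [MeasurableSpace E] [BorelSpace E]

/-- semigroup property of the Gaussian averaging. -/
theorem s4l_K_K {f : E → ℝ} (hf : Measurable f) {s t : ℝ} (hs : 0 < s) (ht : 0 < t) (z : E)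
    (hint : Integrable (fun ζ => gk (s + t) ζ * f (z + ζ))) :
    Integrable (fun ζ₁ => gk s ζ₁ * ∫ ζ₂, gk t ζ₂ * f (z + ζ₁ + ζ₂)) ∧
    ∫ ζ₁, gk s ζ₁ * (∫ ζ₂, gk t ζ₂ * f (z + ζ₁ + ζ₂)) = ∫ ζ, gk (s + t) ζ * f (z + ζ) := by
  set Φ : E → E → ℝ := fun ζ₁ ζ => gk s ζ₁ * gk t (ζ - ζ₁) * f (z + ζ) with hΦ
  have hin : ∀ ζ₁, gk s ζ₁ * ∫ ζ₂, gk t ζ₂ * f (z + ζ₁ + ζ₂) = ∫ ζ, Φ ζ₁ ζ := by
    intro ζ₁
    rw [← integral_sub_right_eq_self (fun ζ₂ => gk t ζ₂ * f (z + ζ₁ + ζ₂)) ζ₁, ← integral_const_mul]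
    congr 1; ext ζ
    simp only [hΦ]
    rw [show z + ζ₁ + (ζ - ζ₁) = z + ζ by abel]
    ring
  have hmeas : Measurable (Function.uncurry Φ) := by
    have h1 := (s4l_gk_continuous (E := E) s).measurable
    have h2 := (s4l_gk_continuous (E := E) t).measurable
    simp only [hΦ, Function.uncurry_def]
    fun_prop
  have hg : ∀ ζ : E, Integrable (fun ζ₁ : E => gk s ζ₁ * gk t (ζ - ζ₁)) := by
    intro ζ
    refine (s4l_gk_integrable hs).mul_bdd (c := gk t (0 : E)) ?_ (ae_of_all _ fun ζ₁ => ?_)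
    · exact ((s4l_gk_continuous (E := E) t).comp (by fun_prop)).aestronglyMeasurable
    · rw [Real.norm_eq_abs, abs_of_nonneg (s4l_gk_nonneg ht _)]
      exact s4l_gk_le ht _
  have hI : Integrable (Function.uncurry Φ) (volume.prod volume) := by
    rw [integrable_prod_iff' hmeas.aestronglyMeasurable]
    constructor
    · refine ae_of_all _ fun ζ => ?_
      exact (hg ζ).mul_const (f (z + ζ))
    · have h3 : ∀ ζ, ∫ ζ₁, ‖Function.uncurry Φ (ζ₁, ζ)‖ = ‖gk (s + t) ζ * f (z + ζ)‖ := by
        intro ζ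
        have h4 : ∀ ζ₁, ‖Function.uncurry Φ (ζ₁, ζ)‖ = gk s ζ₁ * gk t (ζ - ζ₁) * ‖f (z + ζ)‖ := by
          intro ζ₁
          simp only [Function.uncurry_apply_pair, hΦ]
          rw [norm_mul, Real.norm_eq_abs, abs_of_nonneg
            (mul_nonneg (s4l_gk_nonneg hs _) (s4l_gk_nonneg ht _))]
        simp only [h4]
        rw [integral_mul_const, s4l_gk_conv hs ht, norm_mul, Real.norm_eq_abs (gk _ _),
          abs_of_nonneg (s4l_gk_nonneg (add_pos hs ht) _)]
      simp only [h3]
      exact hint.norm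
  constructor
  · simp only [hin]
    exact hI.integral_prod_left
  · simp only [hin]
    rw [integral_integral_swap hI]
    congr 1; ext ζ
    simp only [hΦ]
    rw [integral_mul_const, s4l_gk_conv hs ht]

/-- measurability of a Gaussian average. -/
theorem s4l_K_measurable {f : E → ℝ} (hf : Measurable f) (δ : ℝ) :
    Measurable (fun z => ∫ ζ, gk δ ζ * f (z + ζ)) := by
  have h1 := (s4l_gk_continuous (E := E) δ).measurable
  have h2 : Measurable (fun x : E × E => gk δ x.2 * f (x.1 + x.2)) := by fun_prop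
  exact h2.stronglyMeasurable.integral_prod_right.measurable

/-- domination by a tilted integral gives integrability of the Gaussian average. -/
theorem s4l_dom {p : E → ℝ} (hp : SPD p) {Φ : E → ℝ} (hΦc : Continuous Φ) {f : E → ℝ}
    (hf : Measurable f) {t δ : ℝ} (hδ : 0 < δ) {z : E}
    (hint : Integrable (fun y => (p y * s4lT t z y) • Φ y))
    (hdom : ∀ z', |f z'| ≤ s4lN p Φ (t + δ) z') :
    Integrable (fun ζ => gk δ ζ * f (z + ζ)) ∧ |∫ ζ, gk δ ζ * f (z + ζ)| ≤ s4lN p Φ t z := by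
  obtain ⟨h1, h2⟩ := s4l_K_N (s4l_spd_continuous hp) hΦc hδ hint
  unfold s4lK at h2
  simp only [smul_eq_mul] at h1 h2
  have hb : ∀ ζ, ‖gk δ ζ * f (z + ζ)‖ ≤ gk δ ζ * s4lN p Φ (t + δ) (z + ζ) := by
    intro ζ
    rw [norm_mul, Real.norm_eq_abs, abs_of_nonneg (s4l_gk_nonneg hδ _), Real.norm_eq_abs]
    exact mul_le_mul_of_nonneg_left (hdom _) (s4l_gk_nonneg hδ _)
  have hm : AEStronglyMeasurable (fun ζ => gk δ ζ * f (z + ζ)) volume := by
    have h3 := (s4l_gk_continuous (E := E) δ).measurable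
    have : Measurable (fun ζ => gk δ ζ * f (z + ζ)) := by fun_prop
    exact this.aestronglyMeasurable
  refine ⟨h1.mono' hm (ae_of_all _ hb), ?_⟩
  rw [← h2, ← Real.norm_eq_abs]
  exact norm_integral_le_of_norm_le h1 (ae_of_all _ hb)

/-- integrals against `gk t` of tilted integrals at time `t`. -/
theorem s4l_L_N {F : Type} [NormedAddCommGroup F] [NormedSpace ℝ F] [CompleteSpace F]
    {p : E → ℝ} (hp : Continuous p) {f : E → F} (hf : Continuous f) {t : ℝ} (ht : 0 < t)
    (hint : Integrable (fun y => p y • f y)) :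
    Integrable (fun z => gk t z • s4lN p f t z) ∧ ∫ z, gk t z • s4lN p f t z = ∫ y, p y • f y := by
  have h0 : Integrable (fun y => (p y * s4lT 0 (0 : E) y) • f y) := by
    simpa only [s4l_T_zero, mul_one] using hint
  have h := s4l_K_N hp hf ht h0
  unfold s4lK s4lN at h
  unfold s4lN
  simpa only [zero_add, s4l_T_zero, mul_one] using h

/-- domination, version at the initial time. -/
theorem s4l_dom0 {p : E → ℝ} (hp : SPD p) {Φ : E → ℝ} (hΦc : Continuous Φ) {f : E → ℝ}
    (hf : Measurable f) {t : ℝ} (ht : 0 < t) (hint : Integrable (fun y => p y • Φ y))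
    (hdom : ∀ z', |f z'| ≤ s4lN p Φ t z') : Integrable (fun z => gk t z * f z) := by
  have h0 : Integrable (fun y => (p y * s4lT 0 (0 : E) y) • Φ y) := by
    simpa only [s4l_T_zero, mul_one] using hint
  have h := (s4l_dom hp hΦc hf (t := 0) ht h0 (by simpa using hdom)).1
  simpa using h

/-! ### energy identities -/

section energy

variable {p q : E → ℝ} {w : E → E} {c₀ : ℝ}

theorem s4l_N_sq_add (H : S4LHyp p q w c₀) {t : ℝ} (ht : 0 < t) (z c : E) :
    s4lN p (fun y => ‖w y + c‖ ^ 2) t z =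
      s4lN p (fun y => ‖w y‖ ^ 2) t z + 2 * inner ℝ c (s4lN p w t z) + ‖c‖ ^ 2 * s4lZ p t z := by
  have h1 := s4l_tilt_integrable H.int_w2 ht z
  have h2 := s4l_tilt_integrable H.int_w ht z
  have h3 : Integrable (fun y => (p y * s4lT t z y) • (2 * inner ℝ c (w y))) := by
    have := (h2.const_inner c).const_mul (2 : ℝ)
    refine this.congr (ae_of_all _ fun y => ?_)
    simp only [inner_smul_right, smul_eq_mul]; ring
  have h4 : Integrable (fun y => (p y * s4lT t z y) • (‖c‖ ^ 2)) := by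
    have h5 : Integrable (fun y => p y • (‖c‖ ^ 2)) := by
      simpa using (s4l_spd_integrable H.hp).mul_const (‖c‖ ^ 2)
    exact s4l_tilt_integrable h5 ht z
  have e : (fun y => ‖w y + c‖ ^ 2) = fun y => (‖w y‖ ^ 2 + 2 * inner ℝ c (w y)) + ‖c‖ ^ 2 := by
    ext y; rw [norm_add_sq_real, real_inner_comm]
  have h13 : Integrable (fun y => (p y * s4lT t z y) • (‖w y‖ ^ 2 + 2 * inner ℝ c (w y))) := by
    refine (h1.add h3).congr (ae_of_all _ fun y => ?_)
    simp only [Pi.add_apply, smul_add]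
  rw [e, s4l_N_add h13 h4, s4l_N_add h1 h3, s4l_N_const_mul, s4l_N_inner h2, s4l_N_const]

theorem s4l_sq_div (H : S4LHyp p q w c₀) {t : ℝ} (ht : 0 < t) (z c : E) :
    ‖s4lN p w t z + s4lZ p t z • c‖ ^ 2 / s4lZ p t z =
      s4lV p w t z + 2 * inner ℝ c (s4lN p w t z) + ‖c‖ ^ 2 * s4lZ p t z := by
  have hZ := s4l_Z_pos H.hp ht z
  unfold s4lV
  rw [norm_add_sq_real, inner_smul_right, norm_smul, Real.norm_eq_abs, abs_of_pos hZ, real_inner_comm]
  field_simp

theorem s4l_V_nonneg (H : S4LHyp p q w c₀) {t : ℝ} (ht : 0 < t) (z : E) : 0 ≤ s4lV p w t z := by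
  unfold s4lV
  exact div_nonneg (by positivity) (s4l_Z_pos H.hp ht z).le

/-- Cauchy-Schwarz. -/
theorem s4l_V_le (H : S4LHyp p q w c₀) {t : ℝ} (ht : 0 < t) (z : E) :
    s4lV p w t z ≤ s4lN p (fun y => ‖w y‖ ^ 2) t z := by
  have hZ := s4l_Z_pos H.hp ht z
  have h1 := s4l_N_sq_add H ht z (-((s4lZ p t z)⁻¹ • s4lN p w t z))
  have h2 : 0 ≤ s4lN p (fun y => ‖w y + -((s4lZ p t z)⁻¹ • s4lN p w t z)‖ ^ 2) t z :=
    s4l_N_nonneg (s4l_spd_nonneg H.hp) (fun y => by positivity) t z
  rw [h1, inner_neg_left, inner_smul_left, norm_neg, norm_smul, real_inner_self_eq_norm_sq] at h2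
  simp only [RCLike.conj_to_real, Real.norm_eq_abs, abs_of_pos (inv_pos.2 hZ)] at h2
  unfold s4lV
  have h3 : ((s4lZ p t z)⁻¹ * ‖s4lN p w t z‖) ^ 2 * s4lZ p t z = ‖s4lN p w t z‖ ^ 2 / s4lZ p t z := by
    field_simp
  have h4 : (s4lZ p t z)⁻¹ * ‖s4lN p w t z‖ ^ 2 = ‖s4lN p w t z‖ ^ 2 / s4lZ p t z := by
    field_simp
  rw [h3, h4] at h2
  linarith

theorem s4l_V_measurable (H : S4LHyp p q w c₀) (t : ℝ) : Measurable (s4lV p w t) := by
  unfold s4lV
  exact ((s4l_N_stronglyMeasurable H.p_continuous H.w_continuous t).measurable.norm.pow_const 2).div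
    (s4l_Z_measurable H.p_continuous t)

end energy

end Claimed.Agent.R259
end

/- ===== packed: Claimed.Agent.R259.S4LossFinal ===== -/
section
/-
Row 259 (S0499), Lemma 4.2, leaf `L-s4l-final` (PROVED): the posterior LSI at the final time, and Gibbs' inequality.
Owner of the statements: helper103.

PLAN for `s4l_final`.  `h = z - c`, `η y = s4lP q T h y = const · q(y) exp(-T|y-h/T|²/2)`: `LSI (dm η) T⁻¹` by
`plsi_LSI_iso` (+ `LogConc.const_mul`).  `f y = exp((s4lL p q y + ⟨c,y⟩ + log(Z_q/Z_p))/2)` is smooth, `f² η = s4lP p T z`,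
`gradient f y = (f y / 2) • (w y + c)`.  `ws_H1_of_contDiff` + `ws_LSI_H1`:
`ent (dm η) f² ≤ 2 T⁻¹ ∫ |∇f|² dη`; `∫ f² dη = 1`; `∫ f² log f² dη = s4lR / Z_p`; `∫ |∇f|² dη = N_{|w+c|²}/(4 Z_p)`.
PLAN for `s4l_R_nonneg`: `log x ≤ x - 1` with `x = s4lP q t (z-c) y / s4lP p t z y`, integrate against `s4lP p t z`.
-/
set_option autoImplicit false
set_option linter.unusedSectionVars false

open MeasureTheory Filter Topology
open scoped ContDiff ENNReal

namespace Claimed.Agent.R259

variable {E : Type} [NormedAddCommGroup E] [InnerProductSpace ℝ E] [FiniteDimensional ℝ E]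
  [MeasurableSpace E] [BorelSpace E]

section

variable {p q : E → ℝ} {w : E → E} {c₀ : ℝ}

/-- `s4lR` as one tilted integral. -/
theorem s4lf_R_eq (H : S4LHyp p q w c₀) {t : ℝ} (ht : 0 < t) (z c : E) :
    Integrable (fun y => (p y * s4lT t z y) •
      (s4lL p q y + inner ℝ c y - Real.log (s4lZ p t z / s4lZ q t (z - c)))) ∧
    s4lR p q t z c = s4lN p (fun y => s4lL p q y + inner ℝ c y
      - Real.log (s4lZ p t z / s4lZ q t (z - c))) t z := by
  set K := Real.log (s4lZ p t z / s4lZ q t (z - c)) with hK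
  have h1 := s4l_tilt_integrable H.int_L ht z
  have h2 := s4l_tilt_integrable H.int_id ht z
  have h3 : Integrable (fun y => (p y * s4lT t z y) • (inner ℝ c y)) := by
    refine (h2.const_inner c).congr (ae_of_all _ fun y => ?_)
    simp only [inner_smul_right, smul_eq_mul]
  have h4 : Integrable (fun y => (p y * s4lT t z y) • (-K)) := by
    have h5 : Integrable (fun y => p y • (-K)) := by
      simpa using (s4l_spd_integrable H.hp).mul_const (-K)
    exact s4l_tilt_integrable h5 ht z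
  have h13 : Integrable (fun y => (p y * s4lT t z y) • (s4lL p q y + inner ℝ c y)) := by
    refine (h1.add h3).congr (ae_of_all _ fun y => ?_)
    simp only [Pi.add_apply, smul_add]
  have e : (fun y => s4lL p q y + inner ℝ c y - K) = fun y => (s4lL p q y + inner ℝ c y) + (-K) := by
    ext y; ring
  constructor
  · refine (h13.add h4).congr (ae_of_all _ fun y => ?_)
    simp only [Pi.add_apply, ← smul_add, sub_eq_add_neg]
  · rw [e, s4l_N_add h13 h4, s4l_N_add h1 h3, s4l_N_inner h2, s4l_N_const]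
    unfold s4lR
    ring

theorem s4lf_T_ratio (t : ℝ) (z c y : E) : s4lT t (z - c) y * Real.exp (inner ℝ c y) = s4lT t z y := by
  unfold s4lT
  rw [← Real.exp_add, inner_sub_left]
  congr 1; ring

theorem s4l_R_nonneg (H : S4LHyp p q w c₀) {t : ℝ} (ht : 0 < t)
    (z c : E) : 0 ≤ s4lR p q t z c := by
  obtain ⟨h1, h2⟩ := s4lf_R_eq H ht z c
  have hZp := s4l_Z_pos H.hp ht z
  have hZq := s4l_Z_pos H.hq ht (z - c)
  set Zp := s4lZ p t z with hZp'
  set Zq := s4lZ q t (z - c) with hZq'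
  rw [h2]
  unfold s4lN
  have i1 := s4l_tilt_integrable' (s4l_spd_integrable H.hp) ht z
  have i2 := s4l_tilt_integrable' (s4l_spd_integrable H.hq) ht (z - c)
  have hpt : ∀ y, p y * s4lT t z y - Zp / Zq * (q y * s4lT t (z - c) y) ≤
      (p y * s4lT t z y) • (s4lL p q y + inner ℝ c y - Real.log (Zp / Zq)) := by
    intro y
    have hp := H.hp.2.1 y
    have hq := H.hq.2.1 y
    have hT1 := s4l_T_pos t z y
    have hT2 := s4l_T_pos t (z - c) y
    set x := Zp / Zq * (q y * s4lT t (z - c) y) / (p y * s4lT t z y) with hx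
    have hx0 : 0 < x := by positivity
    have h3 := Real.log_le_sub_one_of_pos hx0
    have h4 : Real.log x = -(s4lL p q y + inner ℝ c y - Real.log (Zp / Zq)) := by
      have e1 : x = (Zp / Zq) * ((p y / q y)⁻¹ * Real.exp (-(inner ℝ c y))) := by
        rw [hx, ← s4lf_T_ratio t z c y, Real.exp_neg]
        have := (Real.exp_pos (inner ℝ c y)).ne'
        field_simp
      rw [e1, Real.log_mul (by positivity) (by positivity), Real.log_mul (by positivity)
        (by positivity), Real.log_inv, Real.log_exp]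
      unfold s4lL
      ring
    have h5 := mul_le_mul_of_nonneg_left h3 (mul_pos hp hT1).le
    have h6 : p y * s4lT t z y * (x - 1) =
        Zp / Zq * (q y * s4lT t (z - c) y) - p y * s4lT t z y := by
      rw [hx]; field_simp
    rw [h4, h6] at h5
    rw [smul_eq_mul]
    linarith
  have h7 := integral_mono (i1.sub (i2.const_mul (Zp / Zq))) h1 hpt
  have h8 : ∫ y, (p y * s4lT t z y - Zp / Zq * (q y * s4lT t (z - c) y)) = 0 := by
    rw [integral_sub i1 (i2.const_mul _), integral_const_mul]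
    change Zp - Zp / Zq * Zq = 0
    field_simp
    ring
  have h9 : ∫ y, ((fun y => p y * s4lT t z y) - fun y => Zp / Zq * (q y * s4lT t (z - c) y)) y = 0 := h8
  rw [h9] at h7
  exact h7

/-- the LSI of the tilted `q`-posterior. -/
theorem s4lf_LSI (hq : SPD q) (hlc : LogConc q) {T : ℝ} (hT : 0 < T) (h : E) :
    LSI (dm (s4lP q T h)) T⁻¹ := by
  have hZ := s4l_Z_pos hq hT h
  have hP := s4l_P_prob hq hT h
  set c := (s4lZ q T h)⁻¹ * Real.exp (‖h‖ ^ 2 / (2 * T)) with hc
  have hc0 : 0 ≤ c := by positivity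
  refine plsi_LSI_iso (hlc.const_mul hc0) hT (T⁻¹ • h) fun y => ?_
  unfold s4lP s4lT
  have e1 : inner ℝ h y - T * ‖y‖ ^ 2 / 2 = ‖h‖ ^ 2 / (2 * T) + -(T * ‖y - T⁻¹ • h‖ ^ 2 / 2) := by
    rw [norm_sub_sq_real, norm_smul, inner_smul_right, Real.norm_eq_abs, abs_of_pos (inv_pos.2 hT),
      real_inner_comm]
    field_simp
    ring
  rw [e1, Real.exp_add, hc]
  ring

theorem s4l_final (H : S4LHyp p q w c₀) {T : ℝ} (hT : 0 < T)
    (z c : E) : 2 * s4lR p q T z c ≤ s4lN p (fun y => ‖w y + c‖ ^ 2) T z / T := by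
  have hZp := s4l_Z_pos H.hp hT z
  have hZq := s4l_Z_pos H.hq hT (z - c)
  set Zp := s4lZ p T z with hZp'
  set Zq := s4lZ q T (z - c) with hZq'
  set K := Real.log (Zp / Zq) with hK
  set η := s4lP q T (z - c) with hη
  set π := s4lP p T z with hπ
  have hηc : Continuous η := s4l_P_continuous H.q_continuous T (z - c)
  have hηp : ∀ y, 0 < η y := s4l_P_pos H.hq hT (z - c)
  have hπc : Continuous π := s4l_P_continuous H.p_continuous T z
  have hπp : ∀ y, 0 < π y := s4l_P_pos H.hp hT z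
  have hPη := s4l_P_prob H.hq hT (z - c)
  have hPπ := s4l_P_prob H.hp hT z
  set u : E → ℝ := fun y => (s4lL p q y + inner ℝ c y - K) / 2 with hu
  set f : E → ℝ := fun y => Real.exp (u y) with hf
  have huC : ContDiff ℝ ∞ u := by
    exact ((H.L_contDiff.add (contDiff_const.inner ℝ contDiff_id)).sub contDiff_const).div_const 2
  have hfC : ContDiff ℝ ∞ f := huC.exp
  -- (a)
  have ha : ∀ y, η y * f y ^ 2 = π y := by
    intro y
    have hp := H.hp.2.1 y
    have hq := H.hq.2.1 y
    have e1 : f y ^ 2 = (p y / q y) * Real.exp (inner ℝ c y) * (Zq / Zp) := by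
      simp only [hf, hu]
      rw [← Real.exp_nat_mul]
      have e2 : ((2 : ℕ) : ℝ) * ((s4lL p q y + inner ℝ c y - K) / 2) =
          s4lL p q y + inner ℝ c y + -K := by push_cast; ring
      rw [e2, Real.exp_add, Real.exp_add, hK, ← Real.log_inv, Real.exp_log (by positivity), inv_div]
      unfold s4lL
      rw [Real.exp_log (by positivity)]
    rw [e1, hη, hπ]
    unfold s4lP
    rw [← s4lf_T_ratio T z c y, ← hZp', ← hZq']
    field_simp
  -- (b)
  have hb : ∀ y, gradient f y = (f y / 2) • (w y + c) := by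
    intro y
    have h1 : HasFDerivAt (s4lL p q) (InnerProductSpace.toDual ℝ E (w y)) y := by
      have := ((H.L_contDiff.differentiable (by simp)) y).hasGradientAt
      rw [← H.hw] at this
      exact this.hasFDerivAt
    have h2 : HasFDerivAt (fun y : E => inner ℝ c y) (InnerProductSpace.toDual ℝ E c) y := by
      have : (fun y : E => inner ℝ c y) = (InnerProductSpace.toDual ℝ E c) := by
        ext y; simp
      rw [this]
      exact (InnerProductSpace.toDual ℝ E c).hasFDerivAt
    have h3 : HasFDerivAt u ((1 / 2 : ℝ) • (InnerProductSpace.toDual ℝ E (w y) +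
        InnerProductSpace.toDual ℝ E c)) y := by
      have h4 := ((h1.add h2).sub_const K).const_mul (1 / 2 : ℝ)
      refine h4.congr_of_eventuallyEq (Eventually.of_forall fun x => ?_)
      simp only [hu, Pi.add_apply]; ring
    have h5 := h3.exp
    apply HasGradientAt.gradient
    have e6 : InnerProductSpace.toDual ℝ E ((f y / 2) • (w y + c)) =
        Real.exp (u y) • (1 / 2 : ℝ) • (InnerProductSpace.toDual ℝ E (w y) +
          InnerProductSpace.toDual ℝ E c) := by
      rw [map_smulₛₗ, map_add, smul_smul]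
      simp only [hf, RCLike.conj_to_real]
      congr 1; ring
    rw [hasGradientAt_iff_hasFDerivAt, e6]
    exact h5
  -- change of measure
  have hcm : ∀ g : E → ℝ, ∫ y, f y ^ 2 * g y ∂(dm η) = ∫ y, g y ∂(dm π) := by
    intro g
    rw [s4l_integral_dm hηc.measurable (fun y => (hηp y).le),
      s4l_integral_dm hπc.measurable (fun y => (hπp y).le)]
    congr 1; ext y
    simp only [smul_eq_mul]
    rw [← mul_assoc, ha]
  have hci : ∀ g : E → ℝ, Integrable (fun y => f y ^ 2 * g y) (dm η) ↔ Integrable g (dm π) := by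
    intro g
    rw [s4l_integrable_dm hηc.measurable (fun y => (hηp y).le),
      s4l_integrable_dm hπc.measurable (fun y => (hπp y).le)]
    have : (fun y => η y • (f y ^ 2 * g y)) = fun y => π y • g y := by
      ext y
      simp only [smul_eq_mul]
      rw [← mul_assoc, ha]
    rw [this]
  have hwc := H.w_continuous
  have hWi : Integrable (fun y => ‖w y + c‖ ^ 2) (dm π) := by
    rw [hπ, s4l_P_integrable H.hp hT z]
    have h1 := s4l_tilt_integrable H.int_w2 hT z
    have h5 : Integrable (fun y => p y • (‖c‖ ^ 2)) := by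
      simpa using (s4l_spd_integrable H.hp).mul_const (‖c‖ ^ 2)
    have h4 := s4l_tilt_integrable h5 hT z
    refine ((h1.add h4).const_mul 2).mono' ?_ (ae_of_all _ fun y => ?_)
    · have := s4l_T_continuous_right T z
      have := H.p_continuous
      exact Continuous.aestronglyMeasurable (by fun_prop)
    · have h6 : 0 ≤ p y * s4lT T z y := mul_nonneg (s4l_spd_nonneg H.hp y) (s4l_T_pos _ _ _).le
      rw [norm_smul, Real.norm_eq_abs, abs_of_nonneg h6, Real.norm_eq_abs,
        abs_of_nonneg (by positivity)]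
      simp only [Pi.add_apply, smul_eq_mul]
      have h7 : ‖w y + c‖ ^ 2 ≤ 2 * (‖w y‖ ^ 2 + ‖c‖ ^ 2) := by
        have h8 : ‖w y + c‖ ^ 2 ≤ (‖w y‖ + ‖c‖) ^ 2 :=
          pow_le_pow_left₀ (norm_nonneg _) (norm_add_le _ _) 2
        nlinarith [sq_nonneg (‖w y‖ - ‖c‖)]
      calc p y * s4lT T z y * ‖w y + c‖ ^ 2 ≤ p y * s4lT T z y * (2 * (‖w y‖ ^ 2 + ‖c‖ ^ 2)) :=
            mul_le_mul_of_nonneg_left h7 h6
        _ = _ := by ring
  -- H¹
  have hm1 : MemLp f 2 (dm η) := by
    rw [memLp_two_iff_integrable_sq_norm hfC.continuous.aestronglyMeasurable]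
    have := (hci fun _ => 1).2 (integrable_const _)
    simpa using this
  have hgn : ∀ y, ‖gradient f y‖ ^ 2 = f y ^ 2 * (‖w y + c‖ ^ 2 / 4) := by
    intro y
    rw [hb, norm_smul, mul_pow, Real.norm_eq_abs, sq_abs]
    ring
  have hgc : Continuous (gradient f) := by
    have : gradient f = fun y => (f y / 2) • (w y + c) := funext hb
    rw [this]
    have := hfC.continuous
    fun_prop
  have hm2 : MemLp (gradient f) 2 (dm η) := by
    rw [memLp_two_iff_integrable_sq_norm hgc.aestronglyMeasurable]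
    simp only [hgn]
    exact (hci _).2 (hWi.div_const 4)
  have hH1 : H1 (dm η) f (gradient f) := ws_H1_of_contDiff (hfC.of_le (by simp)) hm1 hm2
  obtain ⟨_, hLSI⟩ := ws_LSI_H1 hηc hηp (s4lf_LSI H.hq H.lc hT (z - c)) hH1
  -- evaluate
  have e1 : ∫ y, f y ^ 2 ∂(dm η) = 1 := by
    have := hcm fun _ => 1
    simpa using this
  have e2 : ∫ y, f y ^ 2 * Real.log (f y ^ 2) ∂(dm η) = Zp⁻¹ * s4lR p q T z c := by
    have e3 : ∀ y, Real.log (f y ^ 2) = s4lL p q y + inner ℝ c y - K := by
      intro y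
      simp only [hf, hu]
      rw [Real.log_pow, Real.log_exp]; push_cast; ring
    simp only [e3]
    rw [hcm, hπ, s4l_P_integral H.hp hT z, smul_eq_mul, (s4lf_R_eq H hT z c).2]
  have e4 : ∫ y, ‖gradient f y‖ ^ 2 ∂(dm η) = Zp⁻¹ * s4lN p (fun y => ‖w y + c‖ ^ 2) T z / 4 := by
    simp only [hgn]
    rw [hcm, integral_div, hπ, s4l_P_integral H.hp hT z, smul_eq_mul]
  unfold ent at hLSI
  rw [e1, e2, e4, Real.log_one, mul_zero, sub_zero] at hLSI
  have h9 := mul_le_mul_of_nonneg_left hLSI hZp.le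
  rw [← mul_assoc, mul_inv_cancel₀ hZp.ne', one_mul] at h9
  have h10 : Zp * (2 * T⁻¹ * (Zp⁻¹ * s4lN p (fun y => ‖w y + c‖ ^ 2) T z / 4)) =
      s4lN p (fun y => ‖w y + c‖ ^ 2) T z / T / 2 := by
    field_simp
    ring
  rw [h10] at h9
  linarith

end

end Claimed.Agent.R259
end

/- ===== packed: Claimed.Agent.R259.S4LossStart ===== -/
section
/-
Row 259 (S0499), Lemma 4.2, LEAF `L-s4l-start`: identification of the initial quantities with the heat channel
(`gconv`, `hpe`), and the bridge to Mathlib's `klDiv`.  Owner of the statements: helper103.  Proofs: helper212 (sorry-free modulo `s4l_R_nonneg` of S4LossFinal).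

PLAN.  `r = b⁻¹`, `z = b • u`.  `gk b (b•u) * (p y * s4lT b (b•u) y) = p y * gk b (b • (u - y))`
(`s4l_gk_mul_T`) `= (b^d)⁻¹ * (p y * gk r (u - y))` (`s4l_gk_scale`), hence
`gk b (b•u) * s4lZ p b (b•u) = (b^d)⁻¹ * gconv (dm p) r u`, `gk b (b•u) • s4lN p f b (b•u) = (b^d)⁻¹ • ∫ gk r (u-y) • f y ∂(dm p)`;
`∫ Φ(z) dz = b^d ∫ Φ(b•u) du` (`Measure.integral_comp_smul`).
`s4l_start`: `s4lR p q b z 0 = N_ℓ(b,z) - Z_p log(Z_p/Z_q)`; `∫ gk b N_ℓ(b,·) = ∫ p ℓ` (`s4l_K_N` at `t = 0`, `z = 0`);
integrability of `gk b · Z_p log(Z_p/Z_q)`: `Z_p - Z_q ≤ Z_p log(Z_p/Z_q) ≤ N_ℓ` (`log x ≥ 1 - 1/x`, `s4l_R_nonneg`).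
`s4l_klDiv`: `dm p = (dm q).withDensity (ofReal (p/q))` (`withDensity_mul`), `Measure.rnDeriv_withDensity`,
`klDiv_ne_top_iff`, `toReal_klDiv_of_measure_eq`.
-/
set_option autoImplicit false
set_option linter.unusedSectionVars false

open MeasureTheory Filter Topology InformationTheory
open scoped ContDiff ENNReal

namespace Claimed.Agent.R259

variable {E : Type} [NormedAddCommGroup E] [InnerProductSpace ℝ E] [FiniteDimensional ℝ E]
  [MeasurableSpace E] [BorelSpace E]

section
variable {F : Type} [NormedAddCommGroup F] [NormedSpace ℝ F] [CompleteSpace F]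

/-- `gk b (b•u) • N_f(b, b•u) = b^{-d} ∫ gk b⁻¹ (u - x) f(x) p(x) dx` -/
theorem s4ls_N {p : E → ℝ} (hp : Measurable p) (hp0 : ∀ x, 0 ≤ p x) (f : E → F) {b : ℝ} (hb : 0 < b) (u : E) :
    gk b (b • u) • s4lN p f b (b • u) =
      (b ^ Module.finrank ℝ E)⁻¹ • ∫ x, gk b⁻¹ (u - x) • f x ∂(dm p) := by
  rw [s4l_integral_dm hp hp0, s4lN, ← integral_smul, ← integral_smul]
  refine integral_congr_ae (Eventually.of_forall fun y => ?_)
  simp only [smul_smul]
  congr 1
  have h1 := s4l_gk_mul_T hb (b • u) y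
  rw [← smul_sub, s4l_gk_scale hb (u - y)] at h1
  calc gk b (b • u) * (p y * s4lT b (b • u) y) = p y * (gk b (b • u) * s4lT b (b • u) y) := by ring
    _ = _ := by rw [h1]; ring

end

theorem s4ls_Z {p : E → ℝ} (hp : Measurable p) (hp0 : ∀ x, 0 ≤ p x) {b : ℝ} (hb : 0 < b) (u : E) :
    gk b (b • u) * s4lZ p b (b • u) = (b ^ Module.finrank ℝ E)⁻¹ * gconv (dm p) b⁻¹ u := by
  have := s4ls_N hp hp0 (fun _ => (1 : ℝ)) hb u
  simpa [← s4l_Z_eq_N, gconv] using this

theorem s4ls_gconv_eq {p : E → ℝ} (hp : Measurable p) (hp0 : ∀ x, 0 ≤ p x) {b : ℝ} (hb : 0 < b) (u : E) :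
    gconv (dm p) b⁻¹ u = b ^ Module.finrank ℝ E * (gk b (b • u) * s4lZ p b (b • u)) := by
  rw [s4ls_Z hp hp0 hb]
  have : b ^ Module.finrank ℝ E ≠ 0 := (pow_pos hb _).ne'
  field_simp

theorem s4ls_gconv_pos {p : E → ℝ} (hp : SPD p) {b : ℝ} (hb : 0 < b) (u : E) :
    0 < gconv (dm p) b⁻¹ u := by
  rw [s4ls_gconv_eq (s4l_spd_continuous hp).measurable (s4l_spd_nonneg hp) hb]
  exact mul_pos (pow_pos hb _) (mul_pos (gc_gk_pos hb _) (s4l_Z_pos hp hb _))

theorem s4ls_gconv_measurable {p : E → ℝ} (hp : SPD p) {b : ℝ} (hb : 0 < b) :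
    Measurable (gconv (dm p) b⁻¹) := by
  have : gconv (dm p) b⁻¹ = fun u => b ^ Module.finrank ℝ E * (gk b (b • u) * s4lZ p b (b • u)) := by
    funext u
    exact s4ls_gconv_eq (s4l_spd_continuous hp).measurable (s4l_spd_nonneg hp) hb u
  rw [this]
  have h1 : Measurable fun u : E => gk b (b • u) :=
    ((s4l_gk_continuous b).comp (continuous_const_smul b)).measurable
  have h2 : Measurable fun u : E => s4lZ p b (b • u) :=
    (s4l_Z_measurable (s4l_spd_continuous hp) b).comp (continuous_const_smul b).measurable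
  exact (h1.mul h2).const_mul _

/-- change of variables `z = b • u` -/
theorem s4ls_cov (Φ : E → ℝ) {b : ℝ} (hb : 0 < b) :
    ∫ z, Φ z = b ^ Module.finrank ℝ E * ∫ u, Φ (b • u) := by
  rw [Measure.integral_comp_smul_of_nonneg volume Φ b (hR := hb.le), smul_eq_mul, ← mul_assoc,
    mul_inv_cancel₀ (pow_pos hb _).ne', one_mul]

theorem s4l_mu_eq {p q : E → ℝ} {w : E → E} {c₀ : ℝ} (H : S4LHyp p q w c₀) {t : ℝ} (ht : 0 < t) :
    ∫ z, gk t z * s4lV p w t z = hpe (dm p) t⁻¹ w := by
  have hpm := H.p_continuous.measurable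
  have hp0 := s4l_spd_nonneg H.hp
  rw [hpe, s4l_integral_dm (s4ls_gconv_measurable H.hp ht) (fun u => (s4ls_gconv_pos H.hp ht u).le),
    s4ls_cov _ ht, ← integral_const_mul]
  refine integral_congr_ae (Eventually.of_forall fun u => ?_)
  have hc : 0 < t ^ Module.finrank ℝ E := pow_pos ht _
  have hg : 0 < gk t (t • u) := gc_gk_pos ht _
  have hZ : 0 < s4lZ p t (t • u) := s4l_Z_pos H.hp ht _
  have hG := s4ls_gconv_pos H.hp ht u
  have h1 := s4ls_N hpm hp0 w ht u
  have h2 := s4ls_Z hpm hp0 ht u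
  simp only [s4lV, hpost, smul_eq_mul]
  set M := ∫ x, gk t⁻¹ (u - x) • w x ∂(dm p) with hM
  set G := gconv (dm p) t⁻¹ u with hGd
  set N := s4lN p w t (t • u) with hN
  set Z := s4lZ p t (t • u) with hZd
  set g := gk t (t • u) with hgd
  set c := t ^ Module.finrank ℝ E with hcd
  have h3 : ‖M‖ = c * g * ‖N‖ := by
    have : M = (c * g) • N := by
      rw [mul_smul, h1, smul_smul, mul_inv_cancel₀ hc.ne', one_smul]
    rw [this, norm_smul, Real.norm_eq_abs, abs_of_pos (mul_pos hc hg)]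
  have h4 : G = c * g * Z := by
    rw [mul_assoc, h2, ← mul_assoc, mul_inv_cancel₀ hc.ne', one_mul]
  rw [norm_smul, norm_inv, Real.norm_eq_abs, abs_of_pos hG, h3, h4]
  field_simp

theorem s4ls_J {p q : E → ℝ} (hp : SPD p) (hq : SPD q) {b : ℝ} (hb : 0 < b) (u : E) :
    gk b (b • u) * (s4lZ p b (b • u) * Real.log (s4lZ p b (b • u) / s4lZ q b (b • u))) =
      (b ^ Module.finrank ℝ E)⁻¹ *
        (gconv (dm p) b⁻¹ u * Real.log (gconv (dm p) b⁻¹ u / gconv (dm q) b⁻¹ u)) := by
  have h1 := s4ls_Z (s4l_spd_continuous hp).measurable (s4l_spd_nonneg hp) hb u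
  have e1 := s4ls_gconv_eq (s4l_spd_continuous hp).measurable (s4l_spd_nonneg hp) hb u
  have e2 := s4ls_gconv_eq (s4l_spd_continuous hq).measurable (s4l_spd_nonneg hq) hb u
  have hc : 0 < b ^ Module.finrank ℝ E := pow_pos hb _
  have hg : 0 < gk b (b • u) := gc_gk_pos hb _
  have hZq : 0 < s4lZ q b (b • u) := s4l_Z_pos hq hb _
  have h3 : gconv (dm p) b⁻¹ u / gconv (dm q) b⁻¹ u = s4lZ p b (b • u) / s4lZ q b (b • u) := by
    rw [e1, e2]
    field_simp
  rw [h3, ← mul_assoc, h1, mul_assoc]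

theorem s4l_start {p q : E → ℝ} {w : E → E} {c₀ : ℝ} (H : S4LHyp p q w c₀) {b : ℝ} (hb : 0 < b) :
    Integrable (fun z => gk b z * s4lR p q b z 0) ∧
    Integrable (fun u => Real.log (gconv (dm p) b⁻¹ u / gconv (dm q) b⁻¹ u))
      (dm (gconv (dm p) b⁻¹)) ∧
    ∫ z, gk b z * s4lR p q b z 0 = (∫ y, p y * s4lL p q y) -
      ∫ u, Real.log (gconv (dm p) b⁻¹ u / gconv (dm q) b⁻¹ u) ∂(dm (gconv (dm p) b⁻¹)) := by
  have hc : 0 < b ^ Module.finrank ℝ E := pow_pos hb _
  have hR : ∀ z, s4lR p q b z 0 =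
      s4lN p (s4lL p q) b z - s4lZ p b z * Real.log (s4lZ p b z / s4lZ q b z) := by
    intro z
    simp [s4lR]
  obtain ⟨hNi, hNe⟩ := s4l_L_N H.p_continuous H.L_continuous hb H.int_L
  simp only [smul_eq_mul] at hNi hNe
  have hZi : ∀ {ρ : E → ℝ}, SPD ρ → Integrable (fun z => gk b z * s4lZ ρ b z) := by
    intro ρ hρ
    have := (s4l_L_N (s4l_spd_continuous hρ) (continuous_const (y := (1 : ℝ))) hb
      (by simpa using s4l_spd_integrable hρ)).1
    simpa [← s4l_Z_eq_N] using this
  have hJ : Integrable (fun z => gk b z * (s4lZ p b z * Real.log (s4lZ p b z / s4lZ q b z))) := by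
    have hmp := s4l_Z_measurable H.p_continuous b
    have hmq := s4l_Z_measurable H.q_continuous b
    refine integrable_of_le_of_le
      ((s4l_gk_continuous b).measurable.mul (hmp.mul (hmp.div hmq).log)).aestronglyMeasurable
      (Eventually.of_forall fun z => ?_) (Eventually.of_forall fun z => ?_)
      ((hZi H.hp).sub (hZi H.hq)) hNi
    · have hg := s4l_gk_nonneg hb z
      have hZp := s4l_Z_pos H.hp hb z
      have hZq := s4l_Z_pos H.hq hb z
      have h1 := Real.one_sub_inv_le_log_of_pos (div_pos hZp hZq)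
      have h2 : s4lZ p b z - s4lZ q b z = s4lZ p b z * (1 - (s4lZ p b z / s4lZ q b z)⁻¹) := by
        field_simp
      simp only [Pi.sub_apply]
      rw [← mul_sub, h2]
      exact mul_le_mul_of_nonneg_left (mul_le_mul_of_nonneg_left h1 hZp.le) hg
    · have h1 := s4l_R_nonneg H hb z 0
      rw [hR] at h1
      exact mul_le_mul_of_nonneg_left (by linarith) (s4l_gk_nonneg hb z)
  have hJ' : Integrable (fun u =>
      gconv (dm p) b⁻¹ u * Real.log (gconv (dm p) b⁻¹ u / gconv (dm q) b⁻¹ u)) := by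
    have h1 := (integrable_comp_smul_iff volume _ hb.ne').mpr hJ
    refine (h1.const_mul (b ^ Module.finrank ℝ E)).congr (Eventually.of_forall fun u => ?_)
    simp only
    rw [s4ls_J H.hp H.hq hb, ← mul_assoc, mul_inv_cancel₀ hc.ne', one_mul]
  have hGm := s4ls_gconv_measurable H.hp hb
  have hG0 : ∀ u, 0 ≤ gconv (dm p) b⁻¹ u := fun u => (s4ls_gconv_pos H.hp hb u).le
  refine ⟨?_, ?_, ?_⟩
  · refine (hNi.sub hJ).congr (Eventually.of_forall fun z => ?_)
    simp only [Pi.sub_apply]
    rw [hR]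
    ring
  · rw [s4l_integrable_dm hGm hG0]
    simpa using hJ'
  · rw [s4l_integral_dm hGm hG0]
    simp only [smul_eq_mul]
    have e1 : ∫ z, gk b z * s4lR p q b z 0 = (∫ z, gk b z * s4lN p (s4lL p q) b z) -
        ∫ z, gk b z * (s4lZ p b z * Real.log (s4lZ p b z / s4lZ q b z)) := by
      rw [← integral_sub hNi hJ]
      refine integral_congr_ae (Eventually.of_forall fun z => ?_)
      simp only
      rw [hR]
      ring
    rw [e1, hNe, s4ls_cov (fun z => gk b z * (s4lZ p b z * Real.log (s4lZ p b z / s4lZ q b z))) hb,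
      ← integral_const_mul]
    congr 1
    refine integral_congr_ae (Eventually.of_forall fun u => ?_)
    simp only
    rw [s4ls_J H.hp H.hq hb, ← mul_assoc, mul_inv_cancel₀ hc.ne', one_mul]

/-- relative entropy of two laws with positive measurable densities. -/
theorem s4l_klDiv {p q : E → ℝ} (hp : Measurable p) (hq : Measurable q) (hp0 : ∀ x, 0 < p x)
    (hq0 : ∀ x, 0 < q x) [IsProbabilityMeasure (dm p)] [IsProbabilityMeasure (dm q)] :
    (klDiv (dm p) (dm q) ≠ ⊤ ↔ Integrable (fun x => Real.log (p x / q x)) (dm p)) ∧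
    (klDiv (dm p) (dm q)).toReal = ∫ x, Real.log (p x / q x) ∂(dm p) :=
  ent_klDiv_dm_real hp hq (fun x => (hp0 x).le) hq0

end Claimed.Agent.R259
end
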