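/- Packed by merge_tool.py (helper293): 8 modules of Claimed.Agent.R259 in one file, same declarations.
   Old modules, in this order: S5Defs, S7Defs, S7ScDefs, S7LowDefs, S7FishB1, S7ValDefs, S7ValSc, S7LawDefs -/
import Claimed.Agent.R260.MxDefs
import Claimed.Agent.R259.Pack020

/- ===== packed: Claimed.Agent.R259.S5Defs ===== -/
section
/-
Row 259 (S0499), section 5 of the paper (symmetric tensor hierarchy): definitions.
Owner: helper88.

`HiInput n` = the hypotheses of Proposition 5.1 in classical form (ONE datum, ONE deterministic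
projection `Pi`, see the board decisions).  It is the TARGET of the exports of sections 3 and 4.
-/
set_option autoImplicit false

open MeasureTheory
open scoped ContDiff BigOperators Matrix
open Claimed.Agent.R260 (Mx mxFun mxSchur mxSq mxIP mxEig mxU mxRot)

namespace Claimed.Agent.R259

noncomputable section

variable {n : ℕ}

/-! ### Prediction from the Gaussian observation `U_r = Y + √r G`, `Y ∼ μ` -/

/-- posterior expectation `E[F(Y) | U_r = u]` -/
def postE {V : Type} [NormedAddCommGroup V] [NormedSpace ℝ V] (μ : Measure (EE n)) (r : ℝ)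
    (F : EE n → V) (u : EE n) : V :=
  (gconv μ r u)⁻¹ • ∫ y, gk r (u - y) • F y ∂μ

/-- normalised prediction energy `m(r) = E|E[w(Y)|U_r]|² / E|w|²` -/
def predM (η : EE n → ℝ) (w : EE n → EE n) (r : ℝ) : ℝ :=
  nSq (gconv (dm η) r) (postE (dm η) r w) / nSq η w

/-- conditional covariance matrix `C_r(u) = Cov(w(Y) | U_r = u)` -/
def postCovMx (μ : Measure (EE n)) (r : ℝ) (w : EE n → EE n) (u : EE n) : Mx n :=
  Matrix.of fun a b =>
    postE μ r (fun y => w y a * w y b) u - postE μ r w u a * postE μ r w u b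

/-- `tr(C 1_{C > a})` for a symmetric matrix -/
def tailTr (a : ℝ) (C : Mx n) : ℝ := Matrix.trace (mxFun (fun x => if a < x then x else 0) C)

/-- a vector field as a tensor field of order one -/
def vecT (w : EE n → EE n) (y : EE n) : TT n 1 := WithLp.toLp 2 (fun α => w y (α 0))

/-! ### The input of Proposition 5.1 -/

/-- Hypotheses of Proposition 5.1 (exact part). `om = w` is the strict branch, `om = 0` the gap
branch; `s = s0 = 1/8`. -/
structure HiInput (n : ℕ) where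
  η : EE n → ℝ
  spd : SPD η
  lam : ℝ
  lam_pos : 0 < lam
  lsi : LSI (dm η) lam⁻¹
  pi : PI (dm η) lam⁻¹
  b : EE n → EE n
  w : EE n → EE n
  om : EE n → EE n
  K : EE n → Mx n
  Pi : Mx n
  b_smooth : ContDiff ℝ ∞ b
  w_smooth : ContDiff ℝ ∞ w
  branch : om = w ∨ om = 0
  drift : ∀ y, gradient (fun z => Real.log (η z)) y = -(s0⁻¹ • (y - b y)) + om y
  Db : ∀ y i j, dI j b y i = (1 : Mx n) i j - s0 * K y i j
  K_symm : ∀ y, (K y).IsSymm
  K_nonneg : ∀ y, (K y).PosSemidef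
  K_le : ∀ y, (s0⁻¹ • (1 : Mx n) - K y).PosSemidef
  w_symm : ∀ y i j, dI j w y i = dI i w y j
  mom2 : Integrable (fun y => ‖y‖ ^ 2) (dm η)
  b_L2 : MemLp b 2 (dm η)
  w_L2 : MemLp w 2 (dm η)
  Aw_L2 : MemLp (opA η w) 2 (dm η)
  I_pos : 0 < nSq η w
  Pi_sq : Pi * Pi = Pi
  Pi_symm : Pi.IsSymm

namespace HiInput

variable (Z : HiInput n)

/-- `I = E|w|²` -/
def I : ℝ := nSq Z.η Z.w

/-- `M_s = 1 - s K_s` -/
def M (y : EE n) : Mx n := 1 - s0 • Z.K y

/-- Hypotheses of Proposition 5.1 (asymptotic part): all defects are at most `δ`. -/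
structure Small (δ : ℝ) : Prop where
  lam_lo : 1 - δ ≤ Z.lam
  lam_hi : Z.lam ≤ 1 + δ
  eigen : nSq Z.η (fun y => opA Z.η Z.w y - Z.w y) ≤ δ * Z.I
  mean : ‖meanF Z.η Z.w‖ ^ 2 ≤ δ * Z.I
  curv : ipF Z.η Z.w (fun y => mv (Z.K y) (Z.w y)) ≤ δ * Z.I
  /-- (i) the prediction curve, uniformly on compact subintervals of `(0, 1/4)` -/
  pred : ∀ r, δ ≤ r → r ≤ 1 / 4 - δ → |predM Z.η Z.w r - Real.exp (-r)| ≤ δ
  /-- (ii) the deterministic projection -/
  projw : nSq Z.η (fun y => mv Z.Pi (Z.w y)) ≤ δ * Z.I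
  outb : ∀ v : EE n, ∫ y, inner ℝ (Z.b y) (mv (1 - Z.Pi) v) ^ 2 ∂(dm Z.η) ≤ δ * ‖v‖ ^ 2
  outom : ∀ v : EE n, ∫ y, inner ℝ (Z.om y) (mv (1 - Z.Pi) v) ^ 2 ∂(dm Z.η) ≤ δ * ‖v‖ ^ 2
  outM : ∀ v : EE n, ∫ y, inner ℝ (mv (1 - Z.Pi) v) (mv (Z.M y) (mv (1 - Z.Pi) v)) ∂(dm Z.η)
    ≤ δ * ‖v‖ ^ 2
  /-- (iii) conditional covariance tails, strict branch only -/
  tail : Z.om = Z.w → ∀ r a, δ ≤ r → r ≤ 1 / 4 - δ → δ ≤ a →
    ∫ u, tailTr a (postCovMx (dm Z.η) r Z.w u) ∂(dm (gconv (dm Z.η) r)) ≤ δ * Z.I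

/-- `h_r(u) = E[w(Y) | U_r = u]` -/
def hR (r : ℝ) : EE n → EE n := postE (dm Z.η) r Z.w

/-- `g_r(y) = E_G h_r(y + √r G)` -/
def gR (r : ℝ) (y : EE n) : EE n := ∫ z, Z.hR r (y + Real.sqrt r • z) ∂(gam n)

/-- `D^j g_r` as a tensor field of order `j + 1` -/
def gD (r : ℝ) : (j : ℕ) → EE n → TT n (j + 1)
  | 0 => vecT (Z.gR r)
  | j + 1 => tD (gD r j)

/-- one level of the hierarchy before the curvature estimate (Lemma 5.4) -/
structure Lvl {d : ℕ} (T : EE n → TT n (d + 1)) (ε : ℝ) : Prop where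
  test : IsTestV T
  symm : ∀ y, TSym (T y)
  norm : |nSq Z.η T - Z.I| ≤ ε * Z.I
  eigen : nSq Z.η (fun y => opA Z.η T y - T y) ≤ ε * Z.I
  mean : ‖meanF Z.η T‖ ^ 2 ≤ ε * Z.I
  proj : nSq Z.η (fun y => slot 0 Z.Pi (T y)) ≤ ε * Z.I

/-- the hierarchy up to level `L` before the curvature estimate -/
structure Chain (L : ℕ) (T : (l : ℕ) → EE n → TT n (l + 1)) (ε : ℝ) : Prop where
  lvl : ∀ l ≤ L, Z.Lvl (T l) ε
  deriv : ∀ l < L, nSq Z.η (fun y => tD (T l) y - T (l + 1) y) ≤ ε * Z.I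
  zero : nSq Z.η (fun y => T 0 y - vecT Z.w y) ≤ ε * Z.I
  zeroD : nSq Z.η (fun y => tD (T 0) y - tD (vecT Z.w) y) ≤ ε * Z.I

end HiInput

end

/-- generates the equation lemmas of the definitions above in this file (rule 6: unique names) -/
theorem s5defs_eqns_cite : True := by
  have := @postE.eq_1
  have := @predM.eq_1
  have := @postCovMx.eq_1
  have := @tailTr.eq_1
  have := @vecT.eq_1
  have := @HiInput.I.eq_1
  have := @HiInput.M.eq_1
  have := @HiInput.hR.eq_1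
  have := @HiInput.gR.eq_1
  have := @HiInput.gD.eq_1
  have := @HiInput.gD.eq_2
  trivial

end Claimed.Agent.R259
end

/- ===== packed: Claimed.Agent.R259.S7Defs ===== -/
section
/-
Row 259 (S0499), section 7 of the paper (covariance observations and the contradiction):
definitions.  Owner: helper79 (sub-captain S7).

DESIGN (differs from the paper, see the channel memo of helper79):
* mutual information never appears as an object: at every fixed scale `T` we prove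
  `obsU T ≥ (value of a test at scale T)` through `ent`, and integrate the two explicit ends
  against `dT/T²`;
* the tests are BOUNDED: finite sums `∑ c_k(u,x) e^{i s_k a} e^{i r_k b}` (structure `Tst`) instead
  of polynomials.  So only Hilbert-Schmidt norms and operator norms occur (no Schatten-Hoelder, no
  interpolation, no high moments, no Wick calculus, no polynomial density).
-/
set_option autoImplicit false

open MeasureTheory ProbabilityTheory
open scoped BigOperators Matrix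
open Claimed.Agent.R260 (Mx mxFun mxSchur mxSq mxIP mxEig mxU mxRot)

namespace Claimed.Agent.R259

noncomputable section

variable {n : ℕ}

/-! ### Scalar functions -/

/-- the cap function `f_L(q) = q / (1 + q/L)` -/
def fL (L q : ℝ) : ℝ := q / (1 + q / L)

/-- `h_T(v) = √(1 + f_L(T v²))` -/
def hT (L T v : ℝ) : ℝ := Real.sqrt (1 + fL L (T * v ^ 2))

/-- `g_x(v) = √(1 + f_L(x e^{√(8t) v - 4t}))` -/
def gx (t L x v : ℝ) : ℝ :=
  Real.sqrt (1 + fL L (x * Real.exp (Real.sqrt (8 * t) * v - 4 * t)))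

/-- `κ(u) = α²/(1-α²)²`, `α = e^{-u}` -/
def kap (u : ℝ) : ℝ := Real.exp (-u) ^ 2 / (1 - Real.exp (-u) ^ 2) ^ 2

/-- the Ornstein-Uhlenbeck combination `α a + √(1-α²) b`, `α = e^{-u}` (scalars) -/
def ouS (u a b : ℝ) : ℝ := Real.exp (-u) * a + Real.sqrt (1 - Real.exp (-u) ^ 2) * b

/-- the Ornstein-Uhlenbeck combination `α a + √(1-α²) b`, `α = e^{-u}` (vectors) -/
def ouV (u : ℝ) (a b : EE n) : EE n :=
  Real.exp (-u) • a + Real.sqrt (1 - Real.exp (-u) ^ 2) • b

/-! ### The covariance observation -/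

/-- `E_T = (1 + Tρ/L)⁻¹` -/
def obsE (L T : ℝ) (ρ : Mx n) : Mx n := (1 + (T / L) • ρ)⁻¹

/-- the covariance `C_T = 1 + f_L(Tρ) = 1 + T ρ E_T` -/
def obsC (L T : ℝ) (ρ : Mx n) : Mx n := 1 + T • (ρ * obsE L T ρ)

/-- the derivative `T E_T Δ E_T` of the covariance in the direction `Δ = D_i ρ` -/
def obsDC (L T : ℝ) (ρ Δ : Mx n) : Mx n := T • (obsE L T ρ * Δ * obsE L T ρ)

/-- `tr(C⁻¹ DC C⁻¹ DC)`: twice the Fisher information of the centred Gaussian family -/
def fish (L T : ℝ) (ρ Δ : Mx n) : ℝ :=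
  Matrix.trace ((obsC L T ρ)⁻¹ * obsDC L T ρ Δ * (obsC L T ρ)⁻¹ * obsDC L T ρ Δ)

/-- the right side of (7.gaussian-fisher):
`U(T) = (4λ)⁻¹ E ∑_i tr(C_T⁻¹ D_iC_T C_T⁻¹ D_iC_T)` -/
def HierData.obsU (X : HierData n) (k : ℕ) (L T : ℝ) : ℝ :=
  (4 * X.lam)⁻¹ * ∑ i, ∫ y, fish L T (X.rho k y) (X.Drho k i y) ∂(dm X.η)

/-- `∫_0^∞ U(T) dT/T²` -/
def HierData.obsUU (X : HierData n) (k : ℕ) (L : ℝ) : ℝ :=
  ∫ T in Set.Ioi (0 : ℝ), X.obsU k L T / T ^ 2

/-! ### Bounded tests -/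

/-- A bounded test `P(u,x,a,b) = ∑_k c_k(u,x) e^{i s_k a} e^{i r_k b}`; the coefficients are
continuous and supported in `x ∈ [x0,x1] ⊂ (0,∞)`. -/
structure Tst where
  K : ℕ
  c : Fin K → ℝ → ℝ → ℂ
  s : Fin K → ℝ
  r : Fin K → ℝ
  x0 : ℝ
  x1 : ℝ
  x0_pos : 0 < x0
  x0_lt : x0 < x1
  c_cont : ∀ k, Continuous fun p : ℝ × ℝ => c k p.1 p.2
  c_supp : ∀ k u x, x ∉ Set.Icc x0 x1 → c k u x = 0

/-- scalar evaluation of a test -/
def Tst.ev (P : Tst) (u x a b : ℝ) : ℂ :=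
  ∑ k, P.c k u x * Complex.exp (Complex.I * ((P.s k * a : ℝ) : ℂ))
    * Complex.exp (Complex.I * ((P.r k * b : ℝ) : ℂ))

/-- the scalar value of a test at fixed `(u,x)`:
`E[2 (n - α n_u) Re P(u,x,n_u,g_x(n) g) - 4 |P(u,x,n_u,g_x(n) g)|²]`, `w = (n, g', g)` -/
def scInt (t L : ℝ) (P : Tst) (u x : ℝ) : ℝ :=
  ∫ w : ℝ × ℝ × ℝ,
    (2 * (w.1 - Real.exp (-u) * ouS u w.1 w.2.1)
        * (P.ev u x (ouS u w.1 w.2.1) (gx t L x w.1 * w.2.2)).re
      - 4 * ‖P.ev u x (ouS u w.1 w.2.1) (gx t L x w.1 * w.2.2)‖ ^ 2)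
    ∂((gaussianReal 0 1).prod ((gaussianReal 0 1).prod (gaussianReal 0 1)))

/-- the scalar value of a test: `∫_{u0}^{u1} κ(u) ∫_0^∞ scInt dx/x² du` -/
def scJ (t L u0 u1 : ℝ) (P : Tst) : ℝ :=
  ∫ u in Set.Icc u0 u1, kap u * ∫ x in Set.Ioi (0 : ℝ), scInt t L P u x / x ^ 2

end

/-- generates the equation lemmas of the definitions above in this file (rule 6: unique names) -/
theorem s7defs_eqns_cite : True := by
  have := @fL.eq_1
  have := @hT.eq_1
  have := @gx.eq_1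
  have := @kap.eq_1
  have := @ouS.eq_1
  have := @ouV.eq_1
  have := @obsE.eq_1
  have := @obsC.eq_1
  have := @obsDC.eq_1
  have := @fish.eq_1
  have := @HierData.obsU.eq_1
  have := @HierData.obsUU.eq_1
  have := @Tst.ev.eq_1
  have := @scInt.eq_1
  have := @scJ.eq_1
  trivial

end Claimed.Agent.R259
end

/- ===== packed: Claimed.Agent.R259.S7ScDefs ===== -/
section
/-
Row 259 (S0499), package BP-S7-SCALAR (owner helper210): definitions.

DESIGN (differs from the paper and from the A-F chain of the first memo).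
`α = e^{-u}`, `β = √(1-α²)`, `a = √(8t)`, `ℓ(n) = e^{a n - 4t}`, `γ = N(0,1)`.
* The observation `b = g_x(n) g` is QUANTISED: only the shell `j ≤ J` with `j ≤ b² < j+1`
  (last shell `J ≤ b²`) is used.  `l_{x,j}(n) = P(shell j | n) = s7sLam t J j (a n - 4t + log x)`
  is a `C¹` function of `n` with values in `[a0,1]`, `a0 > 0`, and bounded derivative (`S7sNice`).
* The best test that depends on `(n_u, j)` is explicit (`s7sQ`); its value at `(u,x)` is
  `(β⁴/4) ∑_j FI_u(l_{x,j})` (rotation + 1-D Stein), `κ β⁴ = α²`, and de Bruijn's identity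
  `∫ α² FI_u(l) du = Φ_{u0}(l) - Φ_{u1}(l)` needs only `C¹`.
* `Φ_{u0}(l) - Φ_{u1}(l) → ent γ l` uniformly in the class `S7sNice _ _ a0 C1`.
* `∑_j ent γ l_{x,j}` (= mutual information of `n` and the shell) is bounded below by one Fenchel
  inequality, and `∫ dx/x²` of the bound is `≥ (c/2) log (t/h0)`.
* A bounded measurable test is approximated by elements of `Tst` in `L²` (duality + uniqueness of
  characteristic functions).
-/
set_option autoImplicit false

open MeasureTheory ProbabilityTheory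
open scoped BigOperators

namespace Claimed.Agent.R259

noncomputable section

/-! ### The Ornstein-Uhlenbeck semigroup on nice functions -/

/-- Mehler's formula: `P_u f (y) = E f(α y + β g)` -/
def s7sP (u : ℝ) (f : ℝ → ℝ) (y : ℝ) : ℝ := ∫ g, f (ouS u y g) ∂(gaussianReal 0 1)

/-- `Φ_u(l) = E[P_u l log P_u l]` -/
def s7sPhi (u : ℝ) (l : ℝ → ℝ) : ℝ :=
  ∫ y, s7sP u l y * Real.log (s7sP u l y) ∂(gaussianReal 0 1)

/-- `FI_u(l) = E[(P_u l')² / P_u l]` -/
def s7sFI (u : ℝ) (l l1 : ℝ → ℝ) : ℝ :=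
  ∫ y, (s7sP u l1 y) ^ 2 / s7sP u l y ∂(gaussianReal 0 1)

/-- `l` is `C¹` with derivative `l1`, `a0 ≤ l ≤ 1`, `|l1| ≤ C1`. -/
structure S7sNice (l l1 : ℝ → ℝ) (a0 C1 : ℝ) : Prop where
  a0_pos : 0 < a0
  lb : ∀ n, a0 ≤ l n
  ub : ∀ n, l n ≤ 1
  der : ∀ n, HasDerivAt l (l1 n) n
  cont1 : Continuous l1
  bd1 : ∀ n, |l1 n| ≤ C1

/-! ### Shells -/

/-- `σ(τ) = √(1 + f_t(e^τ))`, so that `g_x(n) = σ(a n - 4t + log x)` -/
def s7sSig (t τ : ℝ) : ℝ := Real.sqrt (1 + fL t (Real.exp τ))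

/-- the shells `{j ≤ b² < j+1}` (`j < J`) and `{J ≤ b²}` (`j ≥ J`; only `j = J` is used) -/
def s7sSh (J j : ℕ) : Set ℝ :=
  if j < J then {b : ℝ | (j : ℝ) ≤ b ^ 2 ∧ b ^ 2 < (j : ℝ) + 1} else {b : ℝ | (J : ℝ) ≤ b ^ 2}

/-- the probability of the shell `j` when the standard deviation is `σ(τ)` -/
def s7sLam (t : ℝ) (J j : ℕ) (τ : ℝ) : ℝ :=
  (gaussianReal 0 1).real {g : ℝ | s7sSig t τ * g ∈ s7sSh J j}

/-- `l_{x,j}(n) = P(shell j | n)` -/
def s7sL (t : ℝ) (J j : ℕ) (x n : ℝ) : ℝ :=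
  s7sLam t J j (Real.sqrt (8 * t) * n - 4 * t + Real.log x)

/-- the derivative of `l_{x,j}` -/
def s7sL1 (t : ℝ) (J j : ℕ) (x n : ℝ) : ℝ :=
  Real.sqrt (8 * t) * deriv (s7sLam t J j) (Real.sqrt (8 * t) * n - 4 * t + Real.log x)

/-! ### Values of general (bounded measurable) tests -/

/-- `scInt` for a general test `F(a,b)` at fixed `(u,x)` (`L = t`) -/
def s7sI (t u x : ℝ) (F : ℝ → ℝ → ℂ) : ℝ :=
  ∫ w : ℝ × ℝ × ℝ,
    (2 * (w.1 - Real.exp (-u) * ouS u w.1 w.2.1)
        * (F (ouS u w.1 w.2.1) (gx t t x w.1 * w.2.2)).re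
      - 4 * ‖F (ouS u w.1 w.2.1) (gx t t x w.1 * w.2.2)‖ ^ 2)
    ∂((gaussianReal 0 1).prod ((gaussianReal 0 1).prod (gaussianReal 0 1)))

/-- `scJ` for a general test, `x` restricted to `[x0,x1]` -/
def s7sJ (t u0 u1 x0 x1 : ℝ) (F : ℝ → ℝ → ℝ → ℝ → ℂ) : ℝ :=
  ∫ u in Set.Icc u0 u1, kap u * ∫ x in Set.Icc x0 x1, s7sI t u x (F u x) / x ^ 2

/-- the optimal test among the functions of `(n_u, shell)`:
`Q(u,x,a,b) = β² P_u l'_{x,j}(a) / (4 P_u l_{x,j}(a))` for `b` in the shell `j` -/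
def s7sQ (t : ℝ) (J : ℕ) (u x a b : ℝ) : ℝ :=
  ∑ j ∈ Finset.range (J + 1), (s7sSh J j).indicator
    (fun _ => Real.sqrt (1 - Real.exp (-u) ^ 2) ^ 2 * s7sP u (s7sL1 t J j x) a
      / (4 * s7sP u (s7sL t J j x) a)) b

/-- `D(x) = ∑_j (Φ_{u0}(l_{x,j}) - Φ_{u1}(l_{x,j}))` -/
def s7sD (t : ℝ) (J : ℕ) (u0 u1 x : ℝ) : ℝ :=
  ∑ j ∈ Finset.range (J + 1), (s7sPhi u0 (s7sL t J j x) - s7sPhi u1 (s7sL t J j x))

/-! ### The heavy tail -/

/-- `ℓ(n) = e^{√(8t) n - 4t}` (`E ℓ = 1`) -/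
def s7sEll (t n : ℝ) : ℝ := Real.exp (Real.sqrt (8 * t) * n - 4 * t)

/-- the good event `{e^{2t} ≤ ℓ ≤ e^{6t}, h0 ≤ x ℓ ≤ t}` -/
def s7sE (t h0 x : ℝ) : Set ℝ :=
  {n : ℝ | Real.exp (2 * t) ≤ s7sEll t n ∧ s7sEll t n ≤ Real.exp (6 * t)
    ∧ h0 ≤ x * s7sEll t n ∧ x * s7sEll t n ≤ t}

end

/-- generates the equation lemmas of the definitions above in this file (rule 6: unique names) -/
theorem s7scdefs_eqns_cite : True := by
  have := @s7sP.eq_1
  have := @s7sPhi.eq_1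
  have := @s7sFI.eq_1
  have := @s7sSig.eq_1
  have := @s7sSh.eq_1
  have := @s7sLam.eq_1
  have := @s7sL.eq_1
  have := @s7sL1.eq_1
  have := @s7sI.eq_1
  have := @s7sJ.eq_1
  have := @s7sQ.eq_1
  have := @s7sD.eq_1
  have := @s7sEll.eq_1
  have := @s7sE.eq_1
  trivial

/-- affine reparametrisation of a nice function -/
theorem S7sNice.comp_affine {l l1 : ℝ → ℝ} {a0 C1 : ℝ} (h : S7sNice l l1 a0 C1) (a b : ℝ) :
    S7sNice (fun n => l (a * n + b)) (fun n => a * l1 (a * n + b)) a0 (|a| * C1) where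
  a0_pos := h.a0_pos
  lb n := h.lb _
  ub n := h.ub _
  der n := by
    have h1 : HasDerivAt (fun n : ℝ => a * n + b) a n := by
      simpa using ((hasDerivAt_id n).const_mul a).add_const b
    have h2 := (h.der (a * n + b)).comp n h1
    rw [mul_comm] at h2
    exact h2
  cont1 := by
    have := h.cont1
    fun_prop
  bd1 n := by
    rw [abs_mul]
    exact mul_le_mul_of_nonneg_left (h.bd1 _) (abs_nonneg _)

theorem S7sNice.continuous {l l1 : ℝ → ℝ} {a0 C1 : ℝ} (h : S7sNice l l1 a0 C1) : Continuous l :=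
  continuous_iff_continuousAt.2 fun n => (h.der n).continuousAt

theorem S7sNice.C1_nonneg {l l1 : ℝ → ℝ} {a0 C1 : ℝ} (h : S7sNice l l1 a0 C1) : 0 ≤ C1 :=
  (abs_nonneg _).trans (h.bd1 0)

theorem S7sNice.pos {l l1 : ℝ → ℝ} {a0 C1 : ℝ} (h : S7sNice l l1 a0 C1) (n : ℝ) : 0 < l n :=
  h.a0_pos.trans_le (h.lb n)

/-- `g_x(n) = σ(a n - 4t + log x)` -/
theorem s7s_gx_eq (t x n : ℝ) (hx : 0 < x) :
    gx t t x n = s7sSig t (Real.sqrt (8 * t) * n - 4 * t + Real.log x) := by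
  unfold gx s7sSig
  rw [Real.exp_add, Real.exp_log hx, mul_comm x]

end Claimed.Agent.R259
end

/- ===== packed: Claimed.Agent.R259.S7LowDefs ===== -/
section
/-
Row 259 (S0499), section 7: definitions for the lower bound `s7_lower`.  Owner: helper79.

* complex functional calculus `mxFunC f A` of a real symmetric matrix, unitaries `cE s A = e^{isA}`;
* the matrix version `tQ` of a bounded test at scale `T`, its pay-off `pay`;
* `valT` (actual observation `Z_T = h_T(R(Y_t)) G`), `valF` (frozen observation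
  `h_T(σ^{1/2}) G`), `mInt` (value at fixed `(u,x)` after the substitution `x = T β²`).
-/
set_option autoImplicit false

open MeasureTheory ProbabilityTheory
open scoped BigOperators Matrix
open Claimed.Agent.R260 (Mx mxFun mxSchur mxSq mxIP mxEig mxU mxRot)

namespace Claimed.Agent.R259

noncomputable section

variable {n : ℕ}

/-- complex square matrices -/
abbrev CMx (n : ℕ) := Matrix (Fin n) (Fin n) ℂ

/-- a real matrix as a complex matrix -/
def toC (A : Mx n) : CMx n := A.map fun x => (x : ℂ)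

/-- complex valued functional calculus of a real symmetric matrix (junk otherwise) -/
def mxFunC (f : ℝ → ℂ) (A : Mx n) : CMx n :=
  toC (mxU A) * Matrix.diagonal (fun i => f (mxEig A i)) * toC (mxU A)ᵀ

/-- the unitary `e^{isA}` -/
def cE (s : ℝ) (A : Mx n) : CMx n :=
  mxFunC (fun v => Complex.exp (Complex.I * ((s * v : ℝ) : ℂ))) A

/-- squared Hilbert-Schmidt norm of a complex matrix -/
def cSq (Q : CMx n) : ℝ := ∑ a, ∑ b, ‖Q a b‖ ^ 2

namespace BlockModel

variable {D : Type} [MeasurableSpace D] {Q : Measure D} (B : BlockModel n Q)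

/-- matrix version of the test at scale `T`:
`∑_k c_k(u, T R_*²) e^{i s_k H[y]} e^{i r_k H[z]}` -/
def tQ (P : Tst) (u T : ℝ) (d : D) (y z : EE n) : CMx n :=
  ∑ k, mxFunC (fun v => P.c k u (T * v ^ 2)) (B.Rs d) * cE (P.s k) (colAt (B.H d) y)
    * cE (P.r k) (colAt (B.H d) z)

/-- pay-off `2 Re tr(H[v] Q) - 4 ‖Q‖²` of the test vector `Re (tr(H_i Q))_i` against `v` -/
def pay (d : D) (v : EE n) (Qm : CMx n) : ℝ :=
  2 * (Matrix.trace (toC (colAt (B.H d) v) * Qm)).re - 4 * cSq Qm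

/-- the test at fixed `x`, frozen observation `g_x(A) G`:
`∑_k c_k(u,x) e^{i s_k H[N_u]} e^{i r_k H[g_x(H[N]) G]}`, `w = (N, G', G)` -/
def xQ (t L : ℝ) (P : Tst) (u x : ℝ) (d : D) (w : EE n × EE n × EE n) : CMx n :=
  ∑ k, P.c k u x • (cE (P.s k) (colAt (B.H d) (ouV u w.1 w.2.1))
    * cE (P.r k) (colAt (B.H d) (mv (mxFun (gx t L x) (colAt (B.H d) w.1)) w.2.2)))

/-- weighted value at fixed `(u,x)`:
`τ(2 Re (A - α A_u) Q^x - 4 Q^{x*} Q^x)` -/
def mInt (t L : ℝ) (P : Tst) (u x : ℝ) : ℝ :=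
  ∫ d, ∫ w : EE n × EE n × EE n,
    (2 * (Matrix.trace (toC (B.Rs d * B.Rs d
          * colAt (B.H d) (w.1 - Real.exp (-u) • ouV u w.1 w.2.1)) * B.xQ t L P u x d w)).re
      - 4 * cSq (B.xQ t L P u x d w * toC (B.Rs d)))
    ∂((gam n).prod ((gam n).prod (gam n))) ∂Q

/-- `∫_{u0}^{u1} κ(u) ∫_0^∞ mInt dx/x² du` -/
def mJ (t L u0 u1 : ℝ) (P : Tst) : ℝ :=
  ∫ u in Set.Icc u0 u1, kap u * ∫ x in Set.Ioi (0 : ℝ), B.mInt t L P u x / x ^ 2

end BlockModel

namespace Frozen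

variable {X : HierData n} {k : ℕ} {h t ε : ℝ} (F : Frozen X k h t ε)

/-- value of the test at `(u,T)` for an observation `Z = M(ω) G` with a matrix `M` depending on the
sample point; `ω = (o, (G', G))` -/
def valM (M : F.Ω → Mx n) (P : Tst) (u T : ℝ) : ℝ :=
  letI := F.mΩ
  ∫ ω : F.Ω × (EE n × EE n),
    F.B.pay (F.Dt ω.1) (F.N ω.1 - Real.exp (-u) • ouV u (F.N ω.1) ω.2.1)
      (F.B.tQ P u T (F.Dt ω.1) (ouV u (F.N ω.1) ω.2.1) (mv (M ω.1) ω.2.2))
    ∂(F.P.prod ((gam n).prod (gam n)))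

/-- actual observation `Z_T = h_T(R(Y_t)) G` -/
def valT (L : ℝ) (P : Tst) (u T : ℝ) : ℝ :=
  F.valM (fun o => mxFun (hT L T) (X.R k (F.Yt o))) P u T

/-- frozen observation `h_T(σ^{1/2}) G` -/
def valF (L : ℝ) (P : Tst) (u T : ℝ) : ℝ :=
  F.valM (fun o => mxFun (hT L T) (F.B.sigHalf t (F.Dt o) (F.N o))) P u T

/-- `∫_{u0}^{u1} κ(u) valT du` -/
def lowT (L u0 u1 : ℝ) (P : Tst) (T : ℝ) : ℝ := ∫ u in Set.Icc u0 u1, kap u * F.valT L P u T

/-- `∫_{u0}^{u1} κ(u) valF du` -/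
def lowF (L u0 u1 : ℝ) (P : Tst) (T : ℝ) : ℝ := ∫ u in Set.Icc u0 u1, kap u * F.valF L P u T

end Frozen

end

/-- generates the equation lemmas of the definitions above in this file (rule 6: unique names) -/
theorem s7lowdefs_eqns_cite : True := by
  have := @toC.eq_1
  have := @mxFunC.eq_1
  have := @cE.eq_1
  have := @cSq.eq_1
  have := @BlockModel.tQ.eq_1
  have := @BlockModel.pay.eq_1
  have := @BlockModel.xQ.eq_1
  have := @BlockModel.mInt.eq_1
  have := @BlockModel.mJ.eq_1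
  have := @Frozen.valM.eq_1
  have := @Frozen.valT.eq_1
  have := @Frozen.valF.eq_1
  have := @Frozen.lowT.eq_1
  have := @Frozen.lowF.eq_1
  trivial

end Claimed.Agent.R259
end

/- ===== packed: Claimed.Agent.R259.S7FishB1 ===== -/
section
/-
Row 259 (S0499), section 7, package L-S7-FISH-B, file 1: entrywise calculus of matrix valued functions
(no norm on matrices is used): smoothness of `det`, `⁻¹`; one-dimensional derivatives: product rule, JACOBI's formula
`(det A)' = tr(adj(A) A')`, `(A⁻¹)' = -A⁻¹ A' A⁻¹`.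
Prover: helper65.  No sorry.  Mathlib only (+ `Mx`).
-/
set_option autoImplicit false

open scoped BigOperators Matrix Topology
open Claimed.Agent.R260 (Mx)

namespace Claimed.Agent.R259

variable {n : ℕ}

/-! ### entrywise `C¹` -/

section smooth

variable {V : Type} [NormedAddCommGroup V] [NormedSpace ℝ V]

/-- all entries are of class `C¹` -/
def s7fbCD (A : V → Mx n) : Prop := ∀ a b, ContDiff ℝ 1 fun y => A y a b

theorem s7fbCD_const (A : Mx n) : s7fbCD (fun _ : V => A) := fun _ _ => contDiff_const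

theorem s7fbCD.add {A B : V → Mx n} (hA : s7fbCD A) (hB : s7fbCD B) : s7fbCD fun y => A y + B y :=
  fun a b => (hA a b).add (hB a b)

theorem s7fbCD.smul {A : V → Mx n} (c : ℝ) (hA : s7fbCD A) : s7fbCD fun y => c • A y :=
  fun a b => contDiff_const.mul (hA a b)

theorem s7fbCD.mul {A B : V → Mx n} (hA : s7fbCD A) (hB : s7fbCD B) : s7fbCD fun y => A y * B y := by
  intro a b
  simp only [Matrix.mul_apply]
  exact ContDiff.sum fun c _ => (hA a c).mul (hB c b)

theorem s7fbCD.det {A : V → Mx n} (hA : s7fbCD A) : ContDiff ℝ 1 fun y => (A y).det := by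
  simp only [Matrix.det_apply']
  exact ContDiff.sum fun σ _ => contDiff_const.mul (contDiff_prod fun i _ => hA (σ i) i)

theorem s7fbCD.adjugate {A : V → Mx n} (hA : s7fbCD A) : s7fbCD fun y => (A y).adjugate := by
  intro a b
  simp only [Matrix.adjugate_apply]
  refine s7fbCD.det (A := fun y => (A y).updateRow b (Pi.single a 1)) fun r c => ?_
  simp only [Matrix.updateRow_apply]
  split_ifs
  · exact contDiff_const
  · exact hA r c

theorem s7fbCD.inv {A : V → Mx n} (hA : s7fbCD A) (hdet : ∀ y, (A y).det ≠ 0) :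
    s7fbCD fun y => (A y)⁻¹ := by
  intro a b
  simp only [Matrix.inv_def, Ring.inverse_eq_inv', Matrix.smul_apply, smul_eq_mul]
  exact (hA.det.inv hdet).mul (hA.adjugate a b)

end smooth

/-! ### one-dimensional derivatives -/

/-- entrywise derivative of a matrix valued function of one real variable -/
def s7fbMD (A : ℝ → Mx n) (A' : Mx n) (t : ℝ) : Prop := ∀ a b, HasDerivAt (fun s => A s a b) (A' a b) t

theorem s7fbMD_const (A : Mx n) (t : ℝ) : s7fbMD (fun _ => A) 0 t := fun a b => hasDerivAt_const t (A a b)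

theorem s7fbMD.add {A B : ℝ → Mx n} {A' B' : Mx n} {t : ℝ} (hA : s7fbMD A A' t) (hB : s7fbMD B B' t) :
    s7fbMD (fun s => A s + B s) (A' + B') t := fun a b => (hA a b).add (hB a b)

theorem s7fbMD.smul {A : ℝ → Mx n} {A' : Mx n} {t : ℝ} (c : ℝ) (hA : s7fbMD A A' t) :
    s7fbMD (fun s => c • A s) (c • A') t := fun a b => (hA a b).const_mul c

theorem s7fbMD.mul {A B : ℝ → Mx n} {A' B' : Mx n} {t : ℝ} (hA : s7fbMD A A' t) (hB : s7fbMD B B' t) :
    s7fbMD (fun s => A s * B s) (A' * B t + A t * B') t := by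
  intro a b
  simp only [Matrix.mul_apply, Matrix.add_apply, ← Finset.sum_add_distrib]
  exact HasDerivAt.fun_sum fun c _ => (hA a c).mul (hB c b)

theorem s7fbMD.congr_val {A : ℝ → Mx n} {A' B' : Mx n} {t : ℝ} (hA : s7fbMD A A' t) (h : A' = B') :
    s7fbMD A B' t := h ▸ hA

theorem s7fb_det_updateCol (M : Mx n) (i : Fin n) (b : Fin n → ℝ) :
    (M.updateCol i b).det =
      ∑ σ : Equiv.Perm (Fin n), ((Equiv.Perm.sign σ : ℤ) : ℝ) *
        ((∏ j ∈ Finset.univ.erase i, M (σ j) j) * b (σ i)) := by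
  rw [Matrix.det_apply']
  refine Finset.sum_congr rfl fun σ _ => ?_
  congr 1
  rw [← Finset.mul_prod_erase Finset.univ _ (Finset.mem_univ i), Matrix.updateCol_self, mul_comm]
  congr 1
  refine Finset.prod_congr rfl fun j hj => ?_
  rw [Matrix.updateCol_ne (Finset.ne_of_mem_erase hj)]

/-- **Jacobi's formula.** -/
theorem s7fbMD.det {A : ℝ → Mx n} {A' : Mx n} {t : ℝ} (hA : s7fbMD A A' t) :
    HasDerivAt (fun s => (A s).det) (Matrix.trace ((A t).adjugate * A')) t := by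
  have h1 : HasDerivAt (fun s => ∑ σ : Equiv.Perm (Fin n), ((Equiv.Perm.sign σ : ℤ) : ℝ) *
      ∏ i, A s (σ i) i)
      (∑ σ : Equiv.Perm (Fin n), ((Equiv.Perm.sign σ : ℤ) : ℝ) *
        ∑ i, (∏ j ∈ Finset.univ.erase i, A t (σ j) j) • A' (σ i) i) t :=
    HasDerivAt.fun_sum fun σ _ =>
      (HasDerivAt.fun_finsetProd (u := Finset.univ) fun i _ => hA (σ i) i).const_mul _
  have h2 : (fun s => (A s).det) = fun s => ∑ σ : Equiv.Perm (Fin n), ((Equiv.Perm.sign σ : ℤ) : ℝ) *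
      ∏ i, A s (σ i) i := by
    funext s
    rw [Matrix.det_apply']
  rw [h2]
  refine h1.congr_deriv ?_
  have h3 : Matrix.trace ((A t).adjugate * A') = ∑ i, ((A t).updateCol i fun r => A' r i).det := by
    simp only [Matrix.trace, Matrix.diag]
    refine Finset.sum_congr rfl fun i _ => ?_
    rw [← Matrix.cramer_apply, Matrix.cramer_eq_adjugate_mulVec, Matrix.mul_apply]
    rfl
  rw [h3]
  simp only [s7fb_det_updateCol, Finset.mul_sum, smul_eq_mul]
  exact Finset.sum_comm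

theorem s7fb_adjugate_eq {M : Mx n} (h : M.det ≠ 0) : M.adjugate = M.det • M⁻¹ := by
  rw [Matrix.inv_def, Ring.inverse_eq_inv', smul_smul, mul_inv_cancel₀ h, one_smul]

theorem s7fbMD.det' {A : ℝ → Mx n} {A' : Mx n} {t : ℝ} (hA : s7fbMD A A' t) (h : (A t).det ≠ 0) :
    HasDerivAt (fun s => (A s).det) ((A t).det * Matrix.trace ((A t)⁻¹ * A')) t := by
  refine hA.det.congr_deriv ?_
  rw [s7fb_adjugate_eq h, Matrix.smul_mul, Matrix.trace_smul, smul_eq_mul]

theorem s7fbMD.adjugate_exists {A : ℝ → Mx n} {A' : Mx n} {t : ℝ} (hA : s7fbMD A A' t) :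
    ∃ D : Mx n, s7fbMD (fun s => (A s).adjugate) D t := by
  have h : ∀ a b, ∃ d : ℝ, HasDerivAt (fun s => (A s).adjugate a b) d t := by
    intro a b
    simp only [Matrix.adjugate_apply]
    have h1 : s7fbMD (fun s => (A s).updateRow b (Pi.single a 1)) (A'.updateRow b 0) t := by
      intro r c
      simp only [Matrix.updateRow_apply]
      split_ifs
      · exact hasDerivAt_const _ _
      · exact hA r c
    exact ⟨_, h1.det⟩
  choose D hD using h
  exact ⟨Matrix.of D, hD⟩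

theorem s7fbMD.inv {A : ℝ → Mx n} {A' : Mx n} {t : ℝ} (hA : s7fbMD A A' t) (h : (A t).det ≠ 0) :
    s7fbMD (fun s => (A s)⁻¹) (-((A t)⁻¹ * A' * (A t)⁻¹)) t := by
  obtain ⟨D, hD⟩ := hA.adjugate_exists
  -- some derivative exists
  have hE : ∃ E' : Mx n, s7fbMD (fun s => (A s)⁻¹) E' t := by
    refine ⟨Matrix.of fun a b => (-(Matrix.trace ((A t).adjugate * A')) / (A t).det ^ 2) *
      (A t).adjugate a b + ((A t).det)⁻¹ * D a b, fun a b => ?_⟩
    simp only [Matrix.inv_def, Ring.inverse_eq_inv', Matrix.smul_apply, smul_eq_mul, Matrix.of_apply]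
    exact (hA.det.inv h).mul (hD a b)
  obtain ⟨E', hE'⟩ := hE
  have hunit : IsUnit (A t).det := isUnit_iff_ne_zero.2 h
  have hev : ∀ᶠ s in 𝓝 t, (A s).det ≠ 0 := hA.det.continuousAt.eventually_ne h
  have hz : A' * (A t)⁻¹ + A t * E' = 0 := by
    ext a b
    have h1 := (hA.mul hE') a b
    have h2 : (fun s => (A s * (A s)⁻¹) a b) =ᶠ[𝓝 t] fun _ => (1 : Mx n) a b := by
      filter_upwards [hev] with s hs
      rw [Matrix.mul_nonsing_inv _ (isUnit_iff_ne_zero.2 hs)]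
    have h3 : HasDerivAt (fun s => (A s * (A s)⁻¹) a b) 0 t :=
      (hasDerivAt_const t ((1 : Mx n) a b)).congr_of_eventuallyEq h2
    exact h1.unique h3
  refine hE'.congr_val ?_
  have h4 : (A t)⁻¹ * (A' * (A t)⁻¹ + A t * E') = 0 := by rw [hz, Matrix.mul_zero]
  rw [Matrix.mul_add, ← Matrix.mul_assoc, ← Matrix.mul_assoc, Matrix.nonsing_inv_mul _ hunit,
    Matrix.one_mul] at h4
  exact eq_neg_of_add_eq_zero_right h4

end Claimed.Agent.R259
end

/- ===== packed: Claimed.Agent.R259.S7ValDefs ===== -/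
section
/-
Row 259 (S0499), section 7: SHARED KIT VAL (used by BP-S7-JAC and BP-S7-STAB): definitions.
Owner: helper121.

The integrand of `Frozen.valM` is studied on an ABSTRACT sample space `(S, μ)` carrying measurable
maps `d : S → D` (initial data), `N, G1, G2 : S → EE n` (structure `S7vSp`).  The only integrability
input is `∫ (1 + |N| + |G1|) |R_*(d)|² dμ < ∞`.
* `Tst.s7vChi`  : continuous cutoff, `1` on `[x0,x1]`, `0` outside `[x0/2, 2 x1]`;
* `BlockModel.s7vCnt P T d = ∑_i χ(T r_i²)` (`r_i` = eigenvalues of `R_*(d)`) dominates the number of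
  eigenvalues which are seen by the test at scale `T`; it is continuous in `(T, R_*)`;
* `S7vSp.val` : the integrand of `valM`.
-/
set_option autoImplicit false

open MeasureTheory ProbabilityTheory
open scoped BigOperators Matrix
open Claimed.Agent.R260 (Mx mxFun mxSchur mxSq mxIP mxEig mxU mxRot)

namespace Claimed.Agent.R259

noncomputable section

variable {n : ℕ}

/-- continuous cutoff: `1` on `[x0,x1]`, `0` outside `[x0/2, 2 x1]`, values in `[0,1]` -/
def Tst.s7vChi (P : Tst) (x : ℝ) : ℝ := max 0 (min 1 (min (2 * x / P.x0 - 1) (2 - x / P.x1)))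

/-- `∫_0^∞ χ(x) dx/x²` -/
def Tst.s7vCchi (P : Tst) : ℝ := ∫ x in Set.Ioi (0 : ℝ), P.s7vChi x / x ^ 2

/-- `∑_i χ(T r_i²)`, `r_i` the eigenvalues of `R_*(d)` -/
def BlockModel.s7vCnt {D : Type} [MeasurableSpace D] {Q : Measure D} (B : BlockModel n Q)
    (P : Tst) (T : ℝ) (d : D) : ℝ :=
  ∑ i, P.s7vChi (T * mxEig (B.Rs d) i ^ 2)

/-- An abstract sample space for the integrand of `valM`. -/
structure S7vSp {D : Type} [MeasurableSpace D] {Q : Measure D} (B : BlockModel n Q)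
    {S : Type} [MeasurableSpace S] (μ : Measure S) where
  d : S → D
  N : S → EE n
  G1 : S → EE n
  G2 : S → EE n
  d_meas : Measurable d
  N_meas : Measurable N
  G1_meas : Measurable G1
  G2_meas : Measurable G2
  int : Integrable (fun s => (1 + ‖N s‖ + ‖G1 s‖) * mxSq (B.Rs (d s))) μ

namespace S7vSp

variable {D : Type} [MeasurableSpace D] {Q : Measure D} {B : BlockModel n Q}
  {S : Type} [MeasurableSpace S] {μ : Measure S} (Z : S7vSp B μ)

/-- `N_u = α N + √(1-α²) G'` -/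
def y (u : ℝ) (s : S) : EE n := ouV u (Z.N s) (Z.G1 s)

/-- `N - α N_u` -/
def v (u : ℝ) (s : S) : EE n := Z.N s - Real.exp (-u) • ouV u (Z.N s) (Z.G1 s)

/-- the triple `(N, G', G)` -/
def w (s : S) : EE n × EE n × EE n := (Z.N s, Z.G1 s, Z.G2 s)

/-- the integrand of `valM` for the observation `Z = M G` -/
def val (P : Tst) (u T : ℝ) (M : Mx n) (s : S) : ℝ :=
  B.pay (Z.d s) (Z.N s - Real.exp (-u) • ouV u (Z.N s) (Z.G1 s))
    (B.tQ P u T (Z.d s) (ouV u (Z.N s) (Z.G1 s)) (mv M (Z.G2 s)))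

end S7vSp

end

/-- generates the equation lemmas of the definitions above in this file (rule 6: unique names) -/
theorem s7valdefs_eqns_cite : True := by
  have := @Tst.s7vChi.eq_1
  have := @Tst.s7vCchi.eq_1
  have := @BlockModel.s7vCnt.eq_1
  have := @S7vSp.y.eq_1
  have := @S7vSp.v.eq_1
  have := @S7vSp.w.eq_1
  have := @S7vSp.val.eq_1
  trivial

end Claimed.Agent.R259
end

/- ===== packed: Claimed.Agent.R259.S7ValSc ===== -/
section
/-
Row 259 (S0499), section 7, SHARED KIT VAL: scalar facts (cutoff, window integrals against `dx/x²`,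
scaling `x = T c`, bounds of `kap` and of the coefficients of a test, `hT`/`gx`).
LEAF L-s7v-sc: PROVED (helper121).
Mathlib only, no paper reading.

PLAN.
* cutoff: unfold `Tst.s7vChi`; `Continuous.max/min`, `P.x0_pos`, `P.x0_lt`; case analysis with
  `max_eq_left/right`, `min_eq_left/right`, `div_le_iff₀`, ...
* `s7v_window_integrableOn`: `φ x / x² = indicator (Icc a b) (..)`; bounded by `C / a²` on `Icc a b`,
  measurable: `Measure.integrableOn_of_bounded` on `Icc a b` (finite measure), then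
  `IntegrableOn.mono_set`/`integrableOn_congr`/`IntegrableOn.of_forall_diff_eq_zero`-type argument for
  the rest of `Ioi 0` where the function is `0`.
* `s7v_scale`: `c = 0`: both sides are `0` (`φ 0 = 0`).  `c > 0`:
  `φ (T c)/T² = c² * (fun x => φ x / x²) (T * c)` and `MeasureTheory.integral_comp_mul_right_Ioi`
  (`∫ x in Ioi a, g (x * b) = b⁻¹ • ∫ x in Ioi (a * b), g x`).  No integrability is needed.
* `s7v_scale_integrableOn`: `integrableOn_Ioi_comp_mul_right_iff`.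
* `s7v_kap_bound`: `kap` is continuous on `Icc u0 u1` (`1 - e^{-2u} > 0` for `u > 0`):
  `IsCompact.exists_bound_of_continuousOn`.
* `s7v_coef_bound`: `IsCompact.exists_bound_of_continuousOn` on `Icc u0 u1 ×ˢ Icc x0 x1`, `P.c_supp`
  outside; finite max over `k` (`Finset.sum` of the bounds is good enough).
* `s7v_hT_gx`: `√(8t) = 2 √(2t)` (`Real.sqrt_mul`), `(b e^a)² = b² e^{2a}` (`Real.exp_add`/`← Real.exp_nat_mul`).
* continuity of `hT L |T| v`: `1 + q/L ≥ 1 > 0` for `q = |T| v² ≥ 0`: `Continuous.div`, `Real.continuous_sqrt`.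
-/
set_option autoImplicit false

open MeasureTheory ProbabilityTheory
open scoped BigOperators Matrix

namespace Claimed.Agent.R259

variable {n : ℕ}

/-! ### the cutoff -/

theorem s7v_chi_continuous (P : Tst) : Continuous P.s7vChi := by
  unfold Tst.s7vChi
  fun_prop
theorem s7v_chi_nonneg (P : Tst) (x : ℝ) : 0 ≤ P.s7vChi x := le_max_left _ _
theorem s7v_chi_le_one (P : Tst) (x : ℝ) : P.s7vChi x ≤ 1 :=
  max_le zero_le_one (min_le_left _ _)
theorem s7v_chi_eq_one (P : Tst) {x : ℝ} (hx : x ∈ Set.Icc P.x0 P.x1) : P.s7vChi x = 1 := by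
  have h0 := P.x0_pos
  have h1 : 0 < P.x1 := h0.trans P.x0_lt
  have a1 : 1 ≤ 2 * x / P.x0 - 1 := by
    have : 2 ≤ 2 * x / P.x0 := by rw [le_div_iff₀ h0]; linarith [hx.1]
    linarith
  have a2 : 1 ≤ 2 - x / P.x1 := by
    have : x / P.x1 ≤ 1 := by rw [div_le_iff₀ h1]; linarith [hx.2]
    linarith
  unfold Tst.s7vChi
  rw [min_eq_left (le_min a1 a2), max_eq_right zero_le_one]
theorem s7v_chi_eq_zero (P : Tst) {x : ℝ} (hx : x ∉ Set.Icc (P.x0 / 2) (2 * P.x1)) :
    P.s7vChi x = 0 := by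
  have h0 := P.x0_pos
  have h1 : 0 < P.x1 := h0.trans P.x0_lt
  unfold Tst.s7vChi
  refine max_eq_left ?_
  rw [Set.mem_Icc, not_and_or, not_le, not_le] at hx
  rcases hx with hx | hx
  · refine (min_le_right _ _).trans ((min_le_left _ _).trans ?_)
    have : 2 * x / P.x0 ≤ 1 := by rw [div_le_iff₀ h0]; linarith
    linarith
  · refine (min_le_right _ _).trans ((min_le_right _ _).trans ?_)
    have : 2 ≤ x / P.x1 := by rw [le_div_iff₀ h1]; linarith
    linarith
theorem s7v_chi_zero (P : Tst) : P.s7vChi 0 = 0 := by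
  refine s7v_chi_eq_zero P ?_
  intro h
  have := h.1
  linarith [P.x0_pos]

/-! ### window integrals and scaling -/

theorem s7v_window_integrableOn {φ : ℝ → ℝ} (hm : Measurable φ) {C a b : ℝ} (ha : 0 < a)
    (hb : ∀ x, |φ x| ≤ C) (hs : ∀ x, x ∉ Set.Icc a b → φ x = 0) :
    IntegrableOn (fun x => φ x / x ^ 2) (Set.Ioi 0) := by
  have hmeas : Measurable fun x : ℝ => φ x / x ^ 2 := hm.div (measurable_id.pow_const 2)
  have h1 : IntegrableOn (fun x => φ x / x ^ 2) (Set.Icc a b) := by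
    refine Measure.integrableOn_of_bounded (M := C / a ^ 2) (by simp) hmeas.aestronglyMeasurable ?_
    refine (ae_restrict_iff' measurableSet_Icc).2 (Filter.Eventually.of_forall fun x hx => ?_)
    have hxa : a ^ 2 ≤ x ^ 2 := pow_le_pow_left₀ ha.le hx.1 2
    rw [Real.norm_eq_abs, abs_div, abs_of_nonneg (sq_nonneg x)]
    have hC : 0 ≤ C := (abs_nonneg _).trans (hb x)
    exact div_le_div₀ hC (hb x) (by positivity) hxa
  have h2 : Integrable (fun x => φ x / x ^ 2) := by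
    rw [← integrableOn_univ]
    refine h1.of_forall_sdiff_eq_zero MeasurableSet.univ ?_
    intro x hx
    rw [hs x hx.2, zero_div]
  exact h2.integrableOn

theorem s7v_scale (φ : ℝ → ℝ) (h0 : φ 0 = 0) {c : ℝ} (hc : 0 ≤ c) :
    ∫ T in Set.Ioi (0 : ℝ), φ (T * c) / T ^ 2 = c * ∫ x in Set.Ioi (0 : ℝ), φ x / x ^ 2 := by
  rcases hc.eq_or_lt with rfl | hc
  · simp [h0]
  · have h := integral_comp_mul_right_Ioi (fun x => φ x / x ^ 2) 0 hc
    rw [zero_mul] at h
    have e : ∀ T : ℝ, φ (T * c) / T ^ 2 = c ^ 2 * (φ (T * c) / (T * c) ^ 2) := by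
      intro T
      rw [mul_pow]
      by_cases hT : T = 0
      · simp [hT]
      · field_simp
    simp only [e]
    rw [integral_const_mul, h, smul_eq_mul, ← mul_assoc]
    congr 1
    field_simp

theorem s7v_scale_integrableOn {φ : ℝ → ℝ} (h0 : φ 0 = 0)
    (hφ : IntegrableOn (fun x => φ x / x ^ 2) (Set.Ioi 0)) {c : ℝ} (hc : 0 ≤ c) :
    IntegrableOn (fun T => φ (T * c) / T ^ 2) (Set.Ioi 0) := by
  rcases hc.eq_or_lt with rfl | hc
  · simp [h0]
  · have h := (integrableOn_Ioi_comp_mul_right_iff (fun x => φ x / x ^ 2) 0 hc).2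
      (by rwa [zero_mul])
    have e : (fun T : ℝ => φ (T * c) / T ^ 2) = fun T => c ^ 2 * (φ (T * c) / (T * c) ^ 2) := by
      funext T
      rw [mul_pow]
      by_cases hT : T = 0
      · simp [hT]
      · field_simp
    rw [e]
    exact h.const_mul _

theorem s7v_chi_integrableOn (P : Tst) :
    IntegrableOn (fun x => P.s7vChi x / x ^ 2) (Set.Ioi 0) :=
  s7v_window_integrableOn (s7v_chi_continuous P).measurable (C := 1) (a := P.x0 / 2)
    (b := 2 * P.x1) (by linarith [P.x0_pos])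
    (fun x => by rw [abs_of_nonneg (s7v_chi_nonneg P x)]; exact s7v_chi_le_one P x)
    (fun _ hx => s7v_chi_eq_zero P hx)

theorem s7v_cchi_nonneg (P : Tst) : 0 ≤ P.s7vCchi :=
  integral_nonneg fun x => div_nonneg (s7v_chi_nonneg P x) (sq_nonneg x)

/-! ### `kap`, the coefficients, `ouV` -/

theorem s7v_kap_measurable : Measurable kap := by
  unfold kap
  fun_prop

theorem s7v_kap_bound {u0 : ℝ} (hu0 : 0 < u0) (u1 : ℝ) :
    ∃ C : ℝ, 0 ≤ C ∧ ∀ u ∈ Set.Icc u0 u1, |kap u| ≤ C := by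
  have hc : ContinuousOn kap (Set.Icc u0 u1) := by
    unfold kap
    refine ContinuousOn.div (by fun_prop) (by fun_prop) ?_
    intro u hu
    have hu' : 0 < u := hu0.trans_le hu.1
    have h1 : Real.exp (-u) < 1 := by rw [Real.exp_lt_one_iff]; linarith
    have h2 : 0 < Real.exp (-u) := Real.exp_pos _
    have h3 : Real.exp (-u) ^ 2 < 1 := by nlinarith
    have : 0 < 1 - Real.exp (-u) ^ 2 := by linarith
    positivity
  obtain ⟨C, hC⟩ := isCompact_Icc.exists_bound_of_continuousOn hc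
  refine ⟨max C 0, le_max_right _ _, fun u hu => ?_⟩
  have := hC u hu
  rw [Real.norm_eq_abs] at this
  exact this.trans (le_max_left _ _)

theorem s7v_coef_bound (P : Tst) (u0 u1 : ℝ) :
    ∃ C : ℝ, 0 ≤ C ∧ ∀ k, ∀ u ∈ Set.Icc u0 u1, ∀ x, ‖P.c k u x‖ ≤ C := by
  have h1 : ∀ k, ∃ C : ℝ, 0 ≤ C ∧ ∀ u ∈ Set.Icc u0 u1, ∀ x, ‖P.c k u x‖ ≤ C := by
    intro k
    obtain ⟨C, hC⟩ := (isCompact_Icc.prod isCompact_Icc : IsCompact
      (Set.Icc u0 u1 ×ˢ Set.Icc P.x0 P.x1)).exists_bound_of_continuousOn (P.c_cont k).continuousOn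
    refine ⟨max C 0, le_max_right _ _, fun u hu x => ?_⟩
    by_cases hx : x ∈ Set.Icc P.x0 P.x1
    · exact (hC (u, x) ⟨hu, hx⟩).trans (le_max_left _ _)
    · rw [P.c_supp k u x hx, norm_zero]
      exact le_max_right _ _
  choose C hC0 hC using h1
  refine ⟨∑ k, C k, Finset.sum_nonneg fun k _ => hC0 k, fun k u hu x => ?_⟩
  exact (hC k u hu x).trans (Finset.single_le_sum (fun j _ => hC0 j) (Finset.mem_univ k))

theorem s7v_coef_zero (P : Tst) (k : Fin P.K) (u : ℝ) : P.c k u 0 = 0 := by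
  refine P.c_supp k u 0 ?_
  intro h
  have := h.1
  linarith [P.x0_pos]

/-- the coefficients are dominated by the cutoff -/
theorem s7v_coef_le_chi (P : Tst) {u C : ℝ} (hC : ∀ k x, ‖P.c k u x‖ ≤ C) (k : Fin P.K) (x : ℝ) :
    ‖P.c k u x‖ ≤ C * P.s7vChi x := by
  by_cases hx : x ∈ Set.Icc P.x0 P.x1
  · rw [s7v_chi_eq_one P hx, mul_one]
    exact hC k x
  · rw [P.c_supp k u x hx, norm_zero]
    exact mul_nonneg ((norm_nonneg _).trans (hC k x)) (s7v_chi_nonneg P x)

theorem s7v_exp_le_one {u : ℝ} (hu : 0 ≤ u) : Real.exp (-u) ≤ 1 := by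
  rw [Real.exp_le_one_iff]; linarith

theorem s7v_norm_ouV_le {u : ℝ} (hu : 0 ≤ u) (a b : EE n) : ‖ouV u a b‖ ≤ ‖a‖ + ‖b‖ := by
  unfold ouV
  have h1 := s7v_exp_le_one hu
  have h2 : 0 < Real.exp (-u) := Real.exp_pos _
  have h3 : Real.sqrt (1 - Real.exp (-u) ^ 2) ≤ 1 := by
    rw [Real.sqrt_le_left (by norm_num : (0 : ℝ) ≤ 1)]
    nlinarith
  refine (norm_add_le _ _).trans ?_
  rw [norm_smul, norm_smul, Real.norm_eq_abs, Real.norm_eq_abs, abs_of_pos h2,
    abs_of_nonneg (Real.sqrt_nonneg _)]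
  have := mul_le_mul_of_nonneg_right h1 (norm_nonneg a)
  have := mul_le_mul_of_nonneg_right h3 (norm_nonneg b)
  linarith

theorem s7v_norm_v_le {u : ℝ} (hu : 0 ≤ u) (a b : EE n) :
    ‖a - Real.exp (-u) • ouV u a b‖ ≤ 2 * ‖a‖ + ‖b‖ := by
  have h1 := s7v_exp_le_one hu
  have h2 : 0 < Real.exp (-u) := Real.exp_pos _
  refine (norm_sub_le _ _).trans ?_
  rw [norm_smul, Real.norm_eq_abs, abs_of_pos h2]
  have h3 := s7v_norm_ouV_le hu a b
  have h4 := mul_le_mul_of_nonneg_right h1 (norm_nonneg (ouV u a b))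
  linarith

/-! ### `hT` and `gx` -/

theorem s7v_hT_gx (t L T b v : ℝ) :
    hT L T (b * Real.exp (Real.sqrt (2 * t) * v - 2 * t)) = gx t L (T * b ^ 2) v := by
  unfold hT gx
  have h1 : Real.sqrt (8 * t) = 2 * Real.sqrt (2 * t) := by
    have : (8 : ℝ) * t = 2 ^ 2 * (2 * t) := by ring
    rw [this, Real.sqrt_mul (by positivity), Real.sqrt_sq (by norm_num)]
  have h2 : Real.exp (Real.sqrt (8 * t) * v - 4 * t)
      = Real.exp (Real.sqrt (2 * t) * v - 2 * t) ^ 2 := by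
    rw [← Real.exp_nat_mul, h1]
    congr 1
    push_cast
    ring
  rw [h2, mul_pow, mul_assoc]

theorem s7v_fL_continuous {L : ℝ} (hL : 0 < L) {Y : Type} [TopologicalSpace Y] {q : Y → ℝ}
    (hq : Continuous q) (h0 : ∀ y, 0 ≤ q y) : Continuous fun y => fL L (q y) := by
  unfold fL
  refine hq.div (by fun_prop) fun y => ?_
  have : 0 ≤ q y / L := div_nonneg (h0 y) hL.le
  linarith

theorem s7v_hT_continuous {L : ℝ} (hL : 0 < L) : Continuous fun p : ℝ × ℝ => hT L |p.1| p.2 := by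
  unfold hT
  refine Real.continuous_sqrt.comp (continuous_const.add ?_)
  exact s7v_fL_continuous hL (by fun_prop) fun p => by positivity

theorem s7v_gx_continuous (t : ℝ) {L : ℝ} (hL : 0 < L) :
    Continuous fun p : ℝ × ℝ => gx t L |p.1| p.2 := by
  unfold gx
  refine Real.continuous_sqrt.comp (continuous_const.add ?_)
  exact s7v_fL_continuous hL (by fun_prop) fun p => by positivity

end Claimed.Agent.R259
end

/- ===== packed: Claimed.Agent.R259.S7LawDefs ===== -/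
section
/-
Row 259 (S0499), section 7: definitions for the trace law `s7_law`.  Owner: helper79.
-/
set_option autoImplicit false

open MeasureTheory ProbabilityTheory
open scoped BigOperators Matrix
open Claimed.Agent.R260 (Mx mxFun mxSchur mxSq mxIP mxEig mxU mxRot)

namespace Claimed.Agent.R259

noncomputable section

variable {n : ℕ}

/-- entrywise integral of a complex matrix valued function -/
def cInt {α : Type} [MeasurableSpace α] (μ : Measure α) (Φ : α → CMx n) : CMx n :=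
  Matrix.of fun a b => ∫ x, Φ x a b ∂μ

/-- `F(r) = E_G e^{i r K[G]}` -/
def gF (K : Fin n → Mx n) (r : ℝ) : CMx n := cInt (gam n) fun G => cE r (colAt K G)

/-- `E_G K[G] e^{i r K[G]}` -/
def gF1 (K : Fin n → Mx n) (r : ℝ) : CMx n :=
  cInt (gam n) fun G => toC (colAt K G) * cE r (colAt K G)

/-- summed weighted commutator defect `∑_{j,l} ‖[K_j,K_l] W‖²` of a column -/
def ccW (K : Fin n → Mx n) (W : Mx n) : ℝ := ∑ j, ∑ l, mxSq (cmm (K j) (K l) * W)

/-- weighted index exchange defect `∑_{i,a,b} ((H_i W)_{ab} - (H_a W)_{ib})²` -/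
def xdW (H : Fin n → Mx n) (W : Mx n) : ℝ :=
  ∑ i, ∑ a, ∑ b, ((H i * W) a b - (H a * W) i b) ^ 2

/-- the column `K_j = H[q e_j]`, so that `K[G] = H[q G]` -/
def colQ (H : Fin n → Mx n) (q : Mx n) (j : Fin n) : Mx n := colAt H (mv q (eb j))

/-- `χ_r(v) = exp(-r² g_x(v)²/2)` -/
def chiR (t L x r v : ℝ) : ℝ := Real.exp (-(r ^ 2 * gx t L x v ^ 2 / 2))

namespace BlockModel

variable {D : Type} [MeasurableSpace D] {Q : Measure D} (B : BlockModel n Q)

/-- `τ(e^{i s A_u} e^{i r B̃})`, `B̃ = H[g_x(A) G]`, `w = (N, G', G)` -/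
def J1 (t L u x s r : ℝ) : ℂ :=
  ∫ d, ∫ w : EE n × EE n × EE n,
    Matrix.trace (toC (B.Rs d * B.Rs d) * cE s (colAt (B.H d) (ouV u w.1 w.2.1))
      * cE r (colAt (B.H d) (mv (mxFun (gx t L x) (colAt (B.H d) w.1)) w.2.2)))
    ∂((gam n).prod ((gam n).prod (gam n))) ∂Q

/-- `τ((A - α A_u) e^{i s A_u} e^{i r B̃})` -/
def J2 (t L u x s r : ℝ) : ℂ :=
  ∫ d, ∫ w : EE n × EE n × EE n,
    Matrix.trace (toC (B.Rs d * B.Rs d
        * colAt (B.H d) (w.1 - Real.exp (-u) • ouV u w.1 w.2.1))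
      * cE s (colAt (B.H d) (ouV u w.1 w.2.1))
      * cE r (colAt (B.H d) (mv (mxFun (gx t L x) (colAt (B.H d) w.1)) w.2.2)))
    ∂((gam n).prod ((gam n).prod (gam n))) ∂Q

/-- the spectral functional `τ(f(A))`, `A = H[N]` -/
def spec (f : ℝ → ℂ) : ℂ :=
  ∫ d, ∫ N, Matrix.trace (toC (B.Rs d * B.Rs d) * mxFunC f (colAt (B.H d) N)) ∂(gam n) ∂Q

end BlockModel

/-- `E e^{i s n_u} e^{i r g_x(n) g}`, `w = (n, g', g)` -/
def j1 (t L u x s r : ℝ) : ℂ :=
  ∫ w : ℝ × ℝ × ℝ, Complex.exp (Complex.I * ((s * ouS u w.1 w.2.1 : ℝ) : ℂ))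
      * Complex.exp (Complex.I * ((r * (gx t L x w.1 * w.2.2) : ℝ) : ℂ))
    ∂((gaussianReal 0 1).prod ((gaussianReal 0 1).prod (gaussianReal 0 1)))

/-- `E (n - α n_u) e^{i s n_u} e^{i r g_x(n) g}` -/
def j2 (t L u x s r : ℝ) : ℂ :=
  ∫ w : ℝ × ℝ × ℝ, ((w.1 - Real.exp (-u) * ouS u w.1 w.2.1 : ℝ) : ℂ)
      * Complex.exp (Complex.I * ((s * ouS u w.1 w.2.1 : ℝ) : ℂ))
      * Complex.exp (Complex.I * ((r * (gx t L x w.1 * w.2.2) : ℝ) : ℂ))
    ∂((gaussianReal 0 1).prod ((gaussianReal 0 1).prod (gaussianReal 0 1)))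

end

/-- generates the equation lemmas of the definitions above in this file (rule 6: unique names) -/
theorem s7lawdefs_eqns_cite : True := by
  have := @cInt.eq_1
  have := @gF.eq_1
  have := @gF1.eq_1
  have := @ccW.eq_1
  have := @xdW.eq_1
  have := @colQ.eq_1
  have := @chiR.eq_1
  have := @BlockModel.J1.eq_1
  have := @BlockModel.J2.eq_1
  have := @BlockModel.spec.eq_1
  have := @j1.eq_1
  have := @j2.eq_1
  trivial

end Claimed.Agent.R259
end
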