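/- Packed by merge_tool.py (helper293): 5 modules of Claimed.Agent.R259 in one file, same declarations.
   Old modules, in this order: S7Cx, S7ValAlg, S7ValMeas, S7LawGEa, S7LawGEb -/
import Claimed.Agent.R260.MxCont
import Claimed.Agent.R260.MxPoly
import Claimed.Agent.R260.GKIbp
import Claimed.Agent.R259.Pack035
import Claimed.Agent.R259.Pack030

/- ===== packed: Claimed.Agent.R259.S7Cx ===== -/
section
/-
Row 259 (S0499), section 7: KIT CX = complex functional calculus of real symmetric matrices.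
EXPORT FILE of package L-S7-CX (all lemmas proved by helper283; auxiliary lemmas have the prefix `s7c_`).  The package owner owns this file: keep names and statements
(report a false/awkward one to helper79 at once), replace the sorries (proofs may stay in this file
or in helper files `S7Cx*.lean`, prefix `s7c`, which never import this file).
Everything is elementary: `mxFunC f A = U diag(f(a_i)) Uᵀ`; use `R260/MxFun`, `MxFunB`, `MxCont`.
-/
set_option autoImplicit false

open MeasureTheory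
open scoped BigOperators Matrix
open Claimed.Agent.R260 (Mx mxFun mxSchur mxSq mxIP mxEig mxU mxRot)

namespace Claimed.Agent.R259

variable {n : ℕ}

/-! ### `toC` -/

theorem toC_apply (A : Mx n) (a b : Fin n) : toC A a b = ((A a b : ℝ) : ℂ) := rfl
theorem toC_zero : toC (0 : Mx n) = 0 := by ext a b; simp [toC]
theorem toC_one : toC (1 : Mx n) = 1 := by
  ext a b
  by_cases h : a = b
  · subst h; simp [toC]
  · simp [toC, Matrix.one_apply_ne h]
theorem toC_add (A B : Mx n) : toC (A + B) = toC A + toC B := by ext a b; simp [toC]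
theorem toC_sub (A B : Mx n) : toC (A - B) = toC A - toC B := by ext a b; simp [toC]
theorem toC_neg (A : Mx n) : toC (-A) = -toC A := by ext a b; simp [toC]
theorem toC_mul (A B : Mx n) : toC (A * B) = toC A * toC B := by
  ext a b; simp [toC, Matrix.mul_apply]
theorem toC_smul (c : ℝ) (A : Mx n) : toC (c • A) = (c : ℂ) • toC A := by ext a b; simp [toC]
theorem toC_sum {ι : Type} (s : Finset ι) (A : ι → Mx n) :
    toC (∑ i ∈ s, A i) = ∑ i ∈ s, toC (A i) := by
  ext a b; simp [toC, Matrix.sum_apply]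
theorem toC_transpose (A : Mx n) : toC Aᵀ = (toC A)ᵀ := rfl
theorem toC_conjTranspose (A : Mx n) : (toC A)ᴴ = toC Aᵀ := by
  ext a b; simp [toC, Matrix.conjTranspose_apply]
theorem toC_trace (A : Mx n) : Matrix.trace (toC A) = ((Matrix.trace A : ℝ) : ℂ) := by
  simp [toC, Matrix.trace]
theorem toC_diagonal (c : Fin n → ℝ) :
    toC (Matrix.diagonal c) = Matrix.diagonal fun i => ((c i : ℝ) : ℂ) := by
  ext a b
  by_cases h : a = b
  · subst h; simp [toC]
  · simp [toC, Matrix.diagonal_apply_ne _ h]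

theorem s7c_toC_injective {A B : Mx n} (h : toC A = toC B) : A = B := by
  ext a b
  have := congrFun (congrFun h a) b
  rw [toC_apply, toC_apply] at this
  exact_mod_cast this

/-! ### the Hilbert-Schmidt norm -/

theorem cSq_nonneg (Q : CMx n) : 0 ≤ cSq Q :=
  Finset.sum_nonneg fun _ _ => Finset.sum_nonneg fun _ _ => by positivity
theorem cSq_zero : cSq (0 : CMx n) = 0 := by simp [cSq]
theorem cSq_toC (A : Mx n) : cSq (toC A) = mxSq A := by
  rw [Claimed.Agent.R260.mxSq_eq_sum]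
  unfold cSq
  refine Finset.sum_congr rfl fun a _ => Finset.sum_congr rfl fun b _ => ?_
  rw [toC_apply, Complex.norm_real, Real.norm_eq_abs, sq_abs]
theorem cSq_eq_trace' (Q : CMx n) : ((cSq Q : ℝ) : ℂ) = Matrix.trace (Qᴴ * Q) := by
  unfold cSq
  simp only [Matrix.trace, Matrix.diag_apply, Matrix.mul_apply, Matrix.conjTranspose_apply]
  rw [Finset.sum_comm]
  push_cast
  refine Finset.sum_congr rfl fun a _ => Finset.sum_congr rfl fun b _ => ?_
  rw [Complex.star_def, Complex.conj_mul']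
theorem cSq_eq_trace (Q : CMx n) : cSq Q = (Matrix.trace (Qᴴ * Q)).re := by
  rw [← cSq_eq_trace', Complex.ofReal_re]
theorem cSq_conjTranspose (Q : CMx n) : cSq Qᴴ = cSq Q := by
  unfold cSq
  rw [Finset.sum_comm]
  refine Finset.sum_congr rfl fun a _ => Finset.sum_congr rfl fun b _ => ?_
  rw [Matrix.conjTranspose_apply, norm_star]
theorem cSq_neg (Q : CMx n) : cSq (-Q) = cSq Q := by simp [cSq]
theorem cSq_smul (c : ℂ) (Q : CMx n) : cSq (c • Q) = ‖c‖ ^ 2 * cSq Q := by
  unfold cSq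
  rw [Finset.mul_sum]
  refine Finset.sum_congr rfl fun a _ => ?_
  rw [Finset.mul_sum]
  refine Finset.sum_congr rfl fun b _ => ?_
  rw [Matrix.smul_apply, smul_eq_mul, norm_mul, mul_pow]
theorem cSq_re_im (A B : Mx n) : cSq (toC A + Complex.I • toC B) = mxSq A + mxSq B := by
  rw [Claimed.Agent.R260.mxSq_eq_sum, Claimed.Agent.R260.mxSq_eq_sum]
  unfold cSq
  rw [← Finset.sum_add_distrib]
  refine Finset.sum_congr rfl fun a _ => ?_
  rw [← Finset.sum_add_distrib]
  refine Finset.sum_congr rfl fun b _ => ?_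
  rw [Matrix.add_apply, Matrix.smul_apply, toC_apply, toC_apply, smul_eq_mul, Complex.sq_norm,
    Complex.normSq_apply]
  simp
  ring

/-- `cSq` as a sum over pairs -/
theorem s7c_cSq_prod (Q : CMx n) : cSq Q = ∑ p : Fin n × Fin n, ‖Q p.1 p.2‖ ^ 2 := by
  unfold cSq
  rw [Fintype.sum_prod_type]

/-- triangle inequality -/
theorem cSq_sqrt_add_le (X Y : CMx n) :
    Real.sqrt (cSq (X + Y)) ≤ Real.sqrt (cSq X) + Real.sqrt (cSq Y) := by
  have hX := cSq_nonneg X
  have hY := cSq_nonneg Y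
  rw [Real.sqrt_le_left (by positivity)]
  have h1 : ∑ p : Fin n × Fin n, ‖X p.1 p.2‖ * ‖Y p.1 p.2‖ ≤ Real.sqrt (cSq X) * Real.sqrt (cSq Y) := by
    rw [s7c_cSq_prod X, s7c_cSq_prod Y]
    exact Real.sum_mul_le_sqrt_mul_sqrt _ _ _
  have h2 : cSq (X + Y) ≤ cSq X + 2 * (∑ p : Fin n × Fin n, ‖X p.1 p.2‖ * ‖Y p.1 p.2‖) + cSq Y := by
    rw [s7c_cSq_prod X, s7c_cSq_prod Y, s7c_cSq_prod (X + Y), Finset.mul_sum, ← Finset.sum_add_distrib,
      ← Finset.sum_add_distrib]
    refine Finset.sum_le_sum fun p _ => ?_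
    have h3 : ‖(X + Y) p.1 p.2‖ ≤ ‖X p.1 p.2‖ + ‖Y p.1 p.2‖ := norm_add_le _ _
    calc ‖(X + Y) p.1 p.2‖ ^ 2 ≤ (‖X p.1 p.2‖ + ‖Y p.1 p.2‖) ^ 2 :=
          pow_le_pow_left₀ (norm_nonneg _) h3 2
      _ = _ := by ring
  calc cSq (X + Y) ≤ cSq X + 2 * (Real.sqrt (cSq X) * Real.sqrt (cSq Y)) + cSq Y := by linarith
    _ = (Real.sqrt (cSq X) + Real.sqrt (cSq Y)) ^ 2 := by
        rw [add_sq, Real.sq_sqrt hX, Real.sq_sqrt hY]; ring
theorem cSq_add_le (X Y : CMx n) : cSq (X + Y) ≤ 2 * cSq X + 2 * cSq Y := by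
  rw [s7c_cSq_prod X, s7c_cSq_prod Y, s7c_cSq_prod (X + Y), Finset.mul_sum, Finset.mul_sum,
    ← Finset.sum_add_distrib]
  refine Finset.sum_le_sum fun p _ => ?_
  have h3 : ‖(X + Y) p.1 p.2‖ ≤ ‖X p.1 p.2‖ + ‖Y p.1 p.2‖ := norm_add_le _ _
  calc ‖(X + Y) p.1 p.2‖ ^ 2 ≤ (‖X p.1 p.2‖ + ‖Y p.1 p.2‖) ^ 2 :=
        pow_le_pow_left₀ (norm_nonneg _) h3 2
    _ ≤ _ := by nlinarith [sq_nonneg (‖X p.1 p.2‖ - ‖Y p.1 p.2‖)]
theorem cSq_sum_le {ι : Type} (s : Finset ι) (X : ι → CMx n) :
    cSq (∑ i ∈ s, X i) ≤ (s.card : ℝ) * ∑ i ∈ s, cSq (X i) := by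
  have h : ∀ i, cSq (X i) = ∑ p : Fin n × Fin n, ‖X i p.1 p.2‖ ^ 2 := fun i => s7c_cSq_prod _
  simp only [h]
  rw [s7c_cSq_prod, Finset.sum_comm, Finset.mul_sum]
  refine Finset.sum_le_sum fun p _ => ?_
  rw [Matrix.sum_apply]
  calc ‖∑ i ∈ s, X i p.1 p.2‖ ^ 2 ≤ (∑ i ∈ s, ‖X i p.1 p.2‖) ^ 2 :=
        pow_le_pow_left₀ (norm_nonneg _) (norm_sum_le _ _) 2
    _ ≤ _ := sq_sum_le_card_mul_sum_sq
/-- Cauchy-Schwarz for the trace pairing -/
theorem cSq_trace_mul_le (X Y : CMx n) :
    ‖Matrix.trace (X * Y)‖ ≤ Real.sqrt (cSq X) * Real.sqrt (cSq Y) := by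
  have h2 : Matrix.trace (X * Y) = ∑ p : Fin n × Fin n, X p.1 p.2 * Y p.2 p.1 := by
    rw [Fintype.sum_prod_type]
    simp [Matrix.trace, Matrix.mul_apply]
  rw [h2, ← cSq_conjTranspose Y, s7c_cSq_prod X, s7c_cSq_prod Yᴴ]
  refine le_trans (norm_sum_le _ _) ?_
  refine le_trans (le_of_eq ?_) (Real.sum_mul_le_sqrt_mul_sqrt _ _ _)
  refine Finset.sum_congr rfl fun p _ => ?_
  rw [norm_mul, Matrix.conjTranspose_apply, norm_star]
theorem cSq_mul_unitary (Q : CMx n) {U : CMx n} (hU : U * Uᴴ = 1) : cSq (Q * U) = cSq Q := by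
  rw [cSq_eq_trace, cSq_eq_trace, Matrix.conjTranspose_mul, Matrix.trace_mul_comm, Matrix.mul_assoc,
    ← Matrix.mul_assoc U, hU, Matrix.one_mul, Matrix.trace_mul_comm]
theorem cSq_unitary_mul (Q : CMx n) {U : CMx n} (hU : Uᴴ * U = 1) : cSq (U * Q) = cSq Q := by
  rw [cSq_eq_trace, cSq_eq_trace, Matrix.conjTranspose_mul, Matrix.mul_assoc, ← Matrix.mul_assoc Uᴴ, hU,
    Matrix.one_mul]
/-- the real part of a complex matrix has a smaller norm -/
theorem cSq_re_le (Q : CMx n) : mxSq (Q.map Complex.re) ≤ cSq Q := by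
  rw [Claimed.Agent.R260.mxSq_eq_sum]
  unfold cSq
  refine Finset.sum_le_sum fun a _ => Finset.sum_le_sum fun b _ => ?_
  rw [Matrix.map_apply, ← sq_abs]
  exact pow_le_pow_left₀ (abs_nonneg _) (Complex.abs_re_le_norm _) 2

/-! ### `mxFunC` -/

theorem s7c_U_mul_Ut (A : Mx n) : toC (mxU A) * toC (mxU A)ᵀ = 1 := by
  rw [← toC_mul, Claimed.Agent.R260.mxU_mul_transpose, toC_one]

theorem s7c_Ut_mul_U (A : Mx n) : toC (mxU A)ᵀ * toC (mxU A) = 1 := by
  rw [← toC_mul, Claimed.Agent.R260.mxU_transpose_mul, toC_one]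

theorem s7c_U_conjTranspose (A : Mx n) : (toC (mxU A))ᴴ = toC (mxU A)ᵀ := toC_conjTranspose _

theorem s7c_Ut_conjTranspose (A : Mx n) : (toC (mxU A)ᵀ)ᴴ = toC (mxU A) := by
  rw [toC_conjTranspose, Matrix.transpose_transpose]

theorem s7c_conj_mul (A : Mx n) (D E : CMx n) :
    (toC (mxU A) * D * toC (mxU A)ᵀ) * (toC (mxU A) * E * toC (mxU A)ᵀ)
      = toC (mxU A) * (D * E) * toC (mxU A)ᵀ := by
  calc (toC (mxU A) * D * toC (mxU A)ᵀ) * (toC (mxU A) * E * toC (mxU A)ᵀ)
      = toC (mxU A) * D * (toC (mxU A)ᵀ * toC (mxU A)) * E * toC (mxU A)ᵀ := by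
        simp only [Matrix.mul_assoc]
    _ = _ := by rw [s7c_Ut_mul_U, Matrix.mul_one]; simp only [Matrix.mul_assoc]

/-- unitary invariance in the form used below -/
theorem s7c_cSq_conj (A B : Mx n) (Z : CMx n) :
    cSq (toC (mxU A)ᵀ * Z * toC (mxU B)) = cSq Z := by
  rw [cSq_mul_unitary _ (by rw [s7c_U_conjTranspose, s7c_U_mul_Ut]),
    cSq_unitary_mul _ (by rw [s7c_Ut_conjTranspose, s7c_U_mul_Ut])]

theorem s7c_cSq_conj' (A B : Mx n) (Z : CMx n) :
    cSq (toC (mxU A) * Z * toC (mxU B)ᵀ) = cSq Z := by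
  rw [cSq_mul_unitary _ (by rw [s7c_Ut_conjTranspose, s7c_Ut_mul_U]),
    cSq_unitary_mul _ (by rw [s7c_U_conjTranspose, s7c_Ut_mul_U])]

theorem mxFunC_ofReal (f : ℝ → ℝ) (A : Mx n) :
    mxFunC (fun v => ((f v : ℝ) : ℂ)) A = toC (mxFun f A) := by
  unfold mxFunC mxFun
  rw [toC_mul, toC_mul, toC_diagonal]
theorem mxFunC_add (f g : ℝ → ℂ) (A : Mx n) :
    mxFunC (fun v => f v + g v) A = mxFunC f A + mxFunC g A := by
  unfold mxFunC
  rw [← Matrix.add_mul, ← Matrix.mul_add, Matrix.diagonal_add]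
theorem mxFunC_sub (f g : ℝ → ℂ) (A : Mx n) :
    mxFunC (fun v => f v - g v) A = mxFunC f A - mxFunC g A := by
  unfold mxFunC
  rw [← Matrix.sub_mul, ← Matrix.mul_sub, Matrix.diagonal_sub]
theorem mxFunC_smul (c : ℂ) (f : ℝ → ℂ) (A : Mx n) :
    mxFunC (fun v => c * f v) A = c • mxFunC f A := by
  unfold mxFunC
  have : (Matrix.diagonal fun i => c * f (mxEig A i)) = c • Matrix.diagonal fun i => f (mxEig A i) := by
    rw [← Matrix.diagonal_smul]; rfl
  rw [this, Matrix.mul_smul, Matrix.smul_mul]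
theorem mxFunC_re_im (f : ℝ → ℂ) (A : Mx n) :
    mxFunC f A = toC (mxFun (fun v => (f v).re) A)
      + Complex.I • toC (mxFun (fun v => (f v).im) A) := by
  rw [← mxFunC_ofReal, ← mxFunC_ofReal, ← mxFunC_smul, ← mxFunC_add]
  congr 1
  funext v
  rw [mul_comm]
  exact (Complex.re_add_im (f v)).symm
theorem mxFunC_const (c : ℂ) (A : Mx n) : mxFunC (fun _ => c) A = c • (1 : CMx n) := by
  unfold mxFunC
  have : (Matrix.diagonal fun _ : Fin n => c) = c • (1 : CMx n) := by
    rw [← Matrix.diagonal_one, ← Matrix.diagonal_smul]; congr 1; funext i; simp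
  rw [this, Matrix.mul_smul, Matrix.smul_mul, Matrix.mul_one, s7c_U_mul_Ut]
theorem mxFunC_mul (f g : ℝ → ℂ) (A : Mx n) :
    mxFunC (fun v => f v * g v) A = mxFunC f A * mxFunC g A := by
  unfold mxFunC
  rw [s7c_conj_mul, Matrix.diagonal_mul_diagonal]
theorem mxFunC_congr {f g : ℝ → ℂ} {A : Mx n} (h : ∀ i, f (mxEig A i) = g (mxEig A i)) :
    mxFunC f A = mxFunC g A := by
  unfold mxFunC
  congr 3
  funext i
  exact h i
theorem mxFunC_conjTranspose (f : ℝ → ℂ) (A : Mx n) :
    (mxFunC f A)ᴴ = mxFunC (fun v => (starRingEnd ℂ) (f v)) A := by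
  unfold mxFunC
  rw [Matrix.conjTranspose_mul, Matrix.conjTranspose_mul, s7c_U_conjTranspose, s7c_Ut_conjTranspose,
    Matrix.diagonal_conjTranspose, Matrix.mul_assoc]
  rfl
theorem mxFunC_trace (f : ℝ → ℂ) (A : Mx n) :
    Matrix.trace (mxFunC f A) = ∑ i, f (mxEig A i) := by
  unfold mxFunC
  rw [Matrix.trace_mul_comm, ← Matrix.mul_assoc, s7c_Ut_mul_U, Matrix.one_mul, Matrix.trace_diagonal]
/-- independence of the eigenbasis -/
theorem mxFunC_of_diag (V : Mx n) (hV : Vᵀ * V = 1) (c : Fin n → ℝ) (f : ℝ → ℂ) :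
    mxFunC f (V * Matrix.diagonal c * Vᵀ)
      = toC V * Matrix.diagonal (fun i => f (c i)) * toC Vᵀ := by
  rw [mxFunC_re_im, Claimed.Agent.R260.mxFun_of_diag V hV, Claimed.Agent.R260.mxFun_of_diag V hV,
    toC_mul, toC_mul, toC_mul, toC_mul, toC_diagonal, toC_diagonal, ← Matrix.smul_mul, ← Matrix.mul_smul,
    ← Matrix.add_mul, ← Matrix.mul_add, ← Matrix.diagonal_smul, Matrix.diagonal_add]
  congr 3
  funext i
  simp only [Pi.smul_apply, smul_eq_mul]
  rw [mul_comm]
  exact Complex.re_add_im (f (c i))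
theorem mxFunC_comp (f : ℝ → ℂ) (g : ℝ → ℝ) (A : Mx n) :
    mxFunC f (mxFun g A) = mxFunC (fun v => f (g v)) A :=
  mxFunC_of_diag (mxU A) (Claimed.Agent.R260.mxU_transpose_mul A) _ f
theorem s7c_cSq_diagonal (d : Fin n → ℂ) : cSq (Matrix.diagonal d) = ∑ i, ‖d i‖ ^ 2 := by
  unfold cSq
  refine Finset.sum_congr rfl fun a _ => ?_
  rw [Finset.sum_eq_single a]
  · rw [Matrix.diagonal_apply_eq]
  · intro b _ hb
    rw [Matrix.diagonal_apply_ne _ (Ne.symm hb)]; simp
  · intro h; exact absurd (Finset.mem_univ a) h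
theorem cSq_mxFunC (f : ℝ → ℂ) (A : Mx n) : cSq (mxFunC f A) = ∑ i, ‖f (mxEig A i)‖ ^ 2 := by
  unfold mxFunC
  rw [s7c_cSq_conj', s7c_cSq_diagonal]
theorem s7c_cSq_diagonal_mul_le {d : Fin n → ℂ} {C : ℝ} (h : ∀ i, ‖d i‖ ≤ C) (Q : CMx n) :
    cSq (Matrix.diagonal d * Q) ≤ C ^ 2 * cSq Q := by
  unfold cSq
  rw [Finset.mul_sum]
  refine Finset.sum_le_sum fun a _ => ?_
  rw [Finset.mul_sum]
  refine Finset.sum_le_sum fun b _ => ?_
  rw [Matrix.diagonal_mul, norm_mul, mul_pow]
  exact mul_le_mul_of_nonneg_right (pow_le_pow_left₀ (norm_nonneg _) (h a) 2) (by positivity)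
/-- operator norm bound, left factor -/
theorem cSq_mxFunC_mul_le {f : ℝ → ℂ} {A : Mx n} {C : ℝ} (h : ∀ i, ‖f (mxEig A i)‖ ≤ C)
    (Q : CMx n) : cSq (mxFunC f A * Q) ≤ C ^ 2 * cSq Q := by
  unfold mxFunC
  rw [Matrix.mul_assoc, Matrix.mul_assoc,
    cSq_unitary_mul _ (by rw [s7c_U_conjTranspose, s7c_Ut_mul_U])]
  refine (s7c_cSq_diagonal_mul_le h _).trans (le_of_eq ?_)
  rw [cSq_unitary_mul _ (by rw [s7c_Ut_conjTranspose, s7c_U_mul_Ut])]
/-- operator norm bound, right factor -/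
theorem cSq_mul_mxFunC_le {f : ℝ → ℂ} {A : Mx n} {C : ℝ} (h : ∀ i, ‖f (mxEig A i)‖ ≤ C)
    (Q : CMx n) : cSq (Q * mxFunC f A) ≤ C ^ 2 * cSq Q := by
  rw [← cSq_conjTranspose, Matrix.conjTranspose_mul, mxFunC_conjTranspose, ← cSq_conjTranspose Q]
  refine cSq_mxFunC_mul_le (fun i => ?_) _
  rw [RCLike.norm_conj]
  exact h i

/-- `A` itself as a function of `A` -/
theorem s7c_toC_eq {A : Mx n} (hA : A.IsSymm) : toC A = mxFunC (fun v => ((v : ℝ) : ℂ)) A := by
  rw [mxFunC_ofReal, Claimed.Agent.R260.mxFun_id hA]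

/-- rotation of `f(A) X - X g(B)` into the two eigenbases -/
theorem s7c_rot_apply (f g : ℝ → ℂ) (A B : Mx n) (X : CMx n) (i j : Fin n) :
    (toC (mxU A)ᵀ * (mxFunC f A * X - X * mxFunC g B) * toC (mxU B)) i j
      = (f (mxEig A i) - g (mxEig B j)) * (toC (mxU A)ᵀ * X * toC (mxU B)) i j := by
  have h1 : toC (mxU A)ᵀ * (mxFunC f A * X - X * mxFunC g B) * toC (mxU B)
      = Matrix.diagonal (fun i => f (mxEig A i)) * (toC (mxU A)ᵀ * X * toC (mxU B))
        - (toC (mxU A)ᵀ * X * toC (mxU B)) * Matrix.diagonal (fun i => g (mxEig B i)) := by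
    unfold mxFunC
    rw [Matrix.mul_sub, Matrix.sub_mul]
    congr 1
    · calc toC (mxU A)ᵀ * (toC (mxU A) * Matrix.diagonal (fun i => f (mxEig A i)) * toC (mxU A)ᵀ * X) * toC (mxU B)
          = (toC (mxU A)ᵀ * toC (mxU A)) * Matrix.diagonal (fun i => f (mxEig A i)) * (toC (mxU A)ᵀ * X * toC (mxU B)) := by
            simp only [Matrix.mul_assoc]
        _ = _ := by rw [s7c_Ut_mul_U, Matrix.one_mul]
    · calc toC (mxU A)ᵀ * (X * (toC (mxU B) * Matrix.diagonal (fun i => g (mxEig B i)) * toC (mxU B)ᵀ)) * toC (mxU B)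
          = (toC (mxU A)ᵀ * X * toC (mxU B)) * Matrix.diagonal (fun i => g (mxEig B i)) * (toC (mxU B)ᵀ * toC (mxU B)) := by
            simp only [Matrix.mul_assoc]
        _ = _ := by rw [s7c_Ut_mul_U, Matrix.mul_one]
  rw [h1, Matrix.sub_apply, Matrix.diagonal_mul, Matrix.mul_diagonal]
  ring

theorem s7c_eq_zero_of_rot (A B : Mx n) {Z : CMx n} (h : toC (mxU A)ᵀ * Z * toC (mxU B) = 0) : Z = 0 := by
  have : Z = toC (mxU A) * (toC (mxU A)ᵀ * Z * toC (mxU B)) * toC (mxU B)ᵀ := by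
    calc Z = (toC (mxU A) * toC (mxU A)ᵀ) * Z * (toC (mxU B) * toC (mxU B)ᵀ) := by
          rw [s7c_U_mul_Ut, s7c_U_mul_Ut, Matrix.one_mul, Matrix.mul_one]
      _ = _ := by simp only [Matrix.mul_assoc]
  rw [this, h, Matrix.mul_zero, Matrix.zero_mul]

/-- intertwining: `A M = M B` implies `f(A) M = M f(B)` -/
theorem s7c_intertwine (f : ℝ → ℂ) {A B : Mx n} (hA : A.IsSymm) (hB : B.IsSymm) {M : CMx n}
    (h : toC A * M = M * toC B) : mxFunC f A * M = M * mxFunC f B := by
  rw [← sub_eq_zero]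
  apply s7c_eq_zero_of_rot A B
  ext i j
  rw [s7c_rot_apply, Matrix.zero_apply]
  have h0 : toC (mxU A)ᵀ * (toC A * M - M * toC B) * toC (mxU B) = 0 := by
    rw [h, sub_self, Matrix.mul_zero, Matrix.zero_mul]
  have h1 := congrFun (congrFun h0 i) j
  rw [s7c_toC_eq hA, s7c_toC_eq hB, s7c_rot_apply, Matrix.zero_apply] at h1
  rcases mul_eq_zero.1 h1 with h2 | h2
  · have h3 : mxEig A i = mxEig B j := by
      have := sub_eq_zero.1 h2
      exact_mod_cast this
    rw [h3, sub_self, zero_mul]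
  · rw [h2, mul_zero]

/-- whatever commutes with `A` commutes with `f(A)` -/
theorem mxFunC_commute (f : ℝ → ℂ) {A : Mx n} (hA : A.IsSymm) {M : CMx n}
    (h : M * toC A = toC A * M) : M * mxFunC f A = mxFunC f A * M :=
  (s7c_intertwine f hA hA h.symm).symm
theorem mxFun_commute_of {f : ℝ → ℝ} {A : Mx n} (hA : A.IsSymm) {M : Mx n}
    (h : M * A = A * M) : M * mxFun f A = mxFun f A * M := by
  apply s7c_toC_injective
  rw [toC_mul, toC_mul, ← mxFunC_ofReal]
  exact mxFunC_commute _ hA (by rw [← toC_mul, ← toC_mul, h])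
/-- localisation principle: if `M A = M B` and `M` commutes with `A` and `B`, then
`M f(A) = M f(B)` (interpolate `f` on the two spectra by a polynomial) -/
theorem mxFunC_local (f : ℝ → ℂ) {A B M : Mx n} (hA : A.IsSymm) (hB : B.IsSymm)
    (hMA : M * A = A * M) (hMB : M * B = B * M) (h : M * A = M * B) :
    toC M * mxFunC f A = toC M * mxFunC f B := by
  rw [mxFunC_commute f hA (M := toC M) (by rw [← toC_mul, ← toC_mul, hMA])]
  exact s7c_intertwine f hA hB (by rw [← toC_mul, ← toC_mul, ← hMA, h])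
theorem mxFun_local (f : ℝ → ℝ) {A B M : Mx n} (hA : A.IsSymm) (hB : B.IsSymm)
    (hMA : M * A = A * M) (hMB : M * B = B * M) (h : M * A = M * B) :
    M * mxFun f A = M * mxFun f B := by
  apply s7c_toC_injective
  rw [toC_mul, toC_mul, ← mxFunC_ofReal, ← mxFunC_ofReal]
  exact mxFunC_local _ hA hB hMA hMB h

/-! ### Lipschitz estimates in the Hilbert-Schmidt norm -/

theorem s7c_cSq_gen (f g : ℝ → ℂ) (A B : Mx n) (X : CMx n) :
    cSq (mxFunC f A * X - X * mxFunC g B)
      = ∑ i, ∑ j, ‖f (mxEig A i) - g (mxEig B j)‖ ^ 2 * ‖(toC (mxU A)ᵀ * X * toC (mxU B)) i j‖ ^ 2 := by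
  rw [← s7c_cSq_conj A B]
  unfold cSq
  refine Finset.sum_congr rfl fun i _ => Finset.sum_congr rfl fun j _ => ?_
  rw [s7c_rot_apply, norm_mul, mul_pow]

/-- the general two-sided estimate -/
theorem s7c_gen_le {f : ℝ → ℂ} {K : ℝ} (hf : ∀ a b, ‖f a - f b‖ ≤ K * |a - b|)
    {A B : Mx n} (hA : A.IsSymm) (hB : B.IsSymm) (X : CMx n) :
    cSq (mxFunC f A * X - X * mxFunC f B) ≤ K ^ 2 * cSq (toC A * X - X * toC B) := by
  rw [s7c_toC_eq hA, s7c_toC_eq hB, s7c_cSq_gen, s7c_cSq_gen, Finset.mul_sum]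
  refine Finset.sum_le_sum fun i _ => ?_
  rw [Finset.mul_sum]
  refine Finset.sum_le_sum fun j _ => ?_
  rw [← mul_assoc]
  refine mul_le_mul_of_nonneg_right ?_ (by positivity)
  calc ‖f (mxEig A i) - f (mxEig B j)‖ ^ 2 ≤ (K * |mxEig A i - mxEig B j|) ^ 2 :=
        pow_le_pow_left₀ (norm_nonneg _) (hf _ _) 2
    _ = K ^ 2 * ‖((mxEig A i : ℝ) : ℂ) - ((mxEig B j : ℝ) : ℂ)‖ ^ 2 := by
        rw [← Complex.ofReal_sub, Complex.norm_real, Real.norm_eq_abs, mul_pow]

/-- two eigenbases -/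
theorem cSq_mxFunC_sub_le {f : ℝ → ℂ} {K : ℝ} (hf : ∀ a b, ‖f a - f b‖ ≤ K * |a - b|)
    {A B : Mx n} (hA : A.IsSymm) (hB : B.IsSymm) :
    cSq (mxFunC f A - mxFunC f B) ≤ K ^ 2 * mxSq (A - B) := by
  have := s7c_gen_le hf hA hB 1
  rwa [Matrix.mul_one, Matrix.one_mul, Matrix.mul_one, Matrix.one_mul, ← toC_sub, cSq_toC] at this
theorem mxSq_mxFun_sub_le {f : ℝ → ℝ} {K : ℝ} (hf : ∀ a b, |f a - f b| ≤ K * |a - b|)
    {A B : Mx n} (hA : A.IsSymm) (hB : B.IsSymm) :
    mxSq (mxFun f A - mxFun f B) ≤ K ^ 2 * mxSq (A - B) := by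
  rw [← cSq_toC, toC_sub, ← mxFunC_ofReal, ← mxFunC_ofReal]
  refine cSq_mxFunC_sub_le (fun a b => ?_) hA hB
  rw [← Complex.ofReal_sub, Complex.norm_real, Real.norm_eq_abs]
  exact hf a b
/-- commutators -/
theorem cSq_comm_mxFunC_le {f : ℝ → ℂ} {K : ℝ} (hf : ∀ a b, ‖f a - f b‖ ≤ K * |a - b|)
    {A : Mx n} (hA : A.IsSymm) (X : CMx n) :
    cSq (mxFunC f A * X - X * mxFunC f A) ≤ K ^ 2 * cSq (toC A * X - X * toC A) :=
  s7c_gen_le hf hA hA X
theorem mxSq_comm_mxFun_le {f : ℝ → ℝ} {K : ℝ} (hf : ∀ a b, |f a - f b| ≤ K * |a - b|)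
    {A : Mx n} (hA : A.IsSymm) (X : Mx n) :
    mxSq (mxFun f A * X - X * mxFun f A) ≤ K ^ 2 * mxSq (A * X - X * A) := by
  rw [← cSq_toC, ← cSq_toC, toC_sub, toC_sub, toC_mul, toC_mul, toC_mul, toC_mul, ← mxFunC_ofReal]
  refine cSq_comm_mxFunC_le (fun a b => ?_) hA _
  rw [← Complex.ofReal_sub, Complex.norm_real, Real.norm_eq_abs]
  exact hf a b

/-! ### the unitaries `cE s A = e^{isA}` -/

theorem cE_zero (A : Mx n) : cE 0 A = 1 := by
  unfold cE
  have : (fun v : ℝ => Complex.exp (Complex.I * ((0 * v : ℝ) : ℂ))) = fun _ => (1 : ℂ) := by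
    funext v; simp
  rw [this, mxFunC_const, one_smul]
theorem cE_add (s s' : ℝ) (A : Mx n) : cE (s + s') A = cE s A * cE s' A := by
  unfold cE
  rw [← mxFunC_mul]
  congr 1
  funext v
  rw [← Complex.exp_add]
  congr 1
  push_cast
  ring
theorem cE_conjTranspose (s : ℝ) (A : Mx n) : (cE s A)ᴴ = cE (-s) A := by
  unfold cE
  rw [mxFunC_conjTranspose]
  congr 1
  funext v
  rw [← Complex.exp_conj]
  congr 1
  rw [map_mul, Complex.conj_I, Complex.conj_ofReal]
  push_cast
  ring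
theorem cE_mul_conjTranspose (s : ℝ) (A : Mx n) : cE s A * (cE s A)ᴴ = 1 := by
  rw [cE_conjTranspose, ← cE_add, add_neg_cancel, cE_zero]
theorem cE_conjTranspose_mul (s : ℝ) (A : Mx n) : (cE s A)ᴴ * cE s A = 1 := by
  rw [cE_conjTranspose, ← cE_add, neg_add_cancel, cE_zero]
theorem cE_smul (s c : ℝ) {A : Mx n} (hA : A.IsSymm) : cE s (c • A) = cE (s * c) A := by
  have h : c • A = mxFun (fun v => c * v) A := by
    rw [Claimed.Agent.R260.mxFun_smul c (fun v => v) A, Claimed.Agent.R260.mxFun_id hA]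
  unfold cE
  rw [h, mxFunC_comp]
  congr 1
  funext v
  rw [mul_assoc]
theorem cE_apply_norm_le (s : ℝ) (A : Mx n) (a b : Fin n) : ‖cE s A a b‖ ≤ 1 := by
  have h1 := congrFun (congrFun (cE_mul_conjTranspose s A) a) a
  rw [Matrix.mul_apply, Matrix.one_apply_eq] at h1
  have h2 : ∑ j, ‖cE s A a j‖ ^ 2 = 1 := by
    have h3 : ((∑ j, ‖cE s A a j‖ ^ 2 : ℝ) : ℂ) = 1 := by
      rw [← h1]
      push_cast
      refine Finset.sum_congr rfl fun j _ => ?_
      rw [Matrix.conjTranspose_apply, Complex.star_def, Complex.mul_conj']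
    exact_mod_cast h3
  have h4 : ‖cE s A a b‖ ^ 2 ≤ 1 := by
    rw [← h2]
    exact Finset.single_le_sum (f := fun j => ‖cE s A a j‖ ^ 2) (fun j _ => by positivity) (Finset.mem_univ b)
  exact (sq_le_one_iff₀ (norm_nonneg _)).1 h4
theorem s7c_exp_lip (s a b : ℝ) :
    ‖Complex.exp (Complex.I * ((s * a : ℝ) : ℂ)) - Complex.exp (Complex.I * ((s * b : ℝ) : ℂ))‖
      ≤ |s| * |a - b| := by
  have h1 : Complex.exp (Complex.I * ((s * a : ℝ) : ℂ)) - Complex.exp (Complex.I * ((s * b : ℝ) : ℂ))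
      = Complex.exp (Complex.I * ((s * b : ℝ) : ℂ))
        * (Complex.exp (Complex.I * ((s * (a - b) : ℝ) : ℂ)) - 1) := by
    rw [mul_sub, ← Complex.exp_add, mul_one]
    congr 2
    push_cast
    ring
  rw [h1, norm_mul, mul_comm Complex.I, Complex.norm_exp_ofReal_mul_I, one_mul]
  refine Real.norm_exp_I_mul_ofReal_sub_one_le.trans (le_of_eq ?_)
  rw [Real.norm_eq_abs, abs_mul]
theorem cE_sub_le (s : ℝ) {A B : Mx n} (hA : A.IsSymm) (hB : B.IsSymm) :
    cSq (cE s A - cE s B) ≤ s ^ 2 * mxSq (A - B) := by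
  rw [← sq_abs s]
  exact cSq_mxFunC_sub_le (s7c_exp_lip s) hA hB
theorem cE_comm_le (s : ℝ) {A : Mx n} (hA : A.IsSymm) (X : CMx n) :
    cSq (cE s A * X - X * cE s A) ≤ s ^ 2 * cSq (toC A * X - X * toC A) := by
  rw [← sq_abs s]
  exact cSq_comm_mxFunC_le (s7c_exp_lip s) hA X
theorem s7c_mxFunC_apply (f : ℝ → ℂ) (A : Mx n) (a b : Fin n) :
    mxFunC f A a b = ∑ i, ((mxU A a i : ℝ) : ℂ) * f (mxEig A i) * ((mxU A b i : ℝ) : ℂ) := by
  rw [mxFunC, Matrix.mul_apply]
  simp only [Matrix.mul_diagonal, toC_apply, Matrix.transpose_apply]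
/-- `d/ds e^{isA} = i A e^{isA}`, entrywise -/
theorem cE_hasDerivAt {A : Mx n} (hA : A.IsSymm) (s : ℝ) (a b : Fin n) :
    HasDerivAt (fun s : ℝ => cE s A a b) ((Complex.I • (toC A * cE s A)) a b) s := by
  have h1 : Complex.I • (toC A * cE s A)
      = mxFunC (fun v => Complex.I * (((v : ℝ) : ℂ) * Complex.exp (Complex.I * ((s * v : ℝ) : ℂ)))) A := by
    rw [mxFunC_smul, mxFunC_mul, ← s7c_toC_eq hA]
    rfl
  rw [h1, s7c_mxFunC_apply]
  have h2 : (fun s : ℝ => cE s A a b) = fun s : ℝ => ∑ i, ((mxU A a i : ℝ) : ℂ)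
      * Complex.exp (Complex.I * ((s * mxEig A i : ℝ) : ℂ)) * ((mxU A b i : ℝ) : ℂ) := by
    funext s
    exact s7c_mxFunC_apply _ A a b
  rw [h2]
  have key : ∀ i, HasDerivAt (fun s : ℝ => ((mxU A a i : ℝ) : ℂ)
      * Complex.exp (Complex.I * ((s * mxEig A i : ℝ) : ℂ)) * ((mxU A b i : ℝ) : ℂ))
      (((mxU A a i : ℝ) : ℂ) * (Complex.I * (((mxEig A i : ℝ) : ℂ)
        * Complex.exp (Complex.I * ((s * mxEig A i : ℝ) : ℂ)))) * ((mxU A b i : ℝ) : ℂ)) s := by
    intro i
    have h3 : HasDerivAt (fun s : ℝ => Complex.I * ((s * mxEig A i : ℝ) : ℂ))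
        (Complex.I * ((1 * mxEig A i : ℝ) : ℂ)) s :=
      (((hasDerivAt_id s).mul_const (mxEig A i)).ofReal_comp).const_mul Complex.I
    have h4 := ((h3.cexp).const_mul ((mxU A a i : ℝ) : ℂ)).mul_const ((mxU A b i : ℝ) : ℂ)
    refine h4.congr_deriv ?_
    rw [one_mul]
    ring
  exact HasDerivAt.fun_sum fun i _ => key i
theorem cE_commute_self (s : ℝ) {A : Mx n} (hA : A.IsSymm) :
    toC A * cE s A = cE s A * toC A := by
  unfold cE
  rw [s7c_toC_eq hA, ← mxFunC_mul, ← mxFunC_mul]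
  congr 1
  funext v
  rw [mul_comm]

/-! ### continuity and measurability (through the symmetrisation, as in `R260/MxCont`) -/

theorem s7c_toC_continuous : Continuous (toC : Mx n → CMx n) := by
  unfold toC
  exact Continuous.matrix_map continuous_id Complex.continuous_ofReal

theorem mxFunC_continuous {f : ℝ → ℂ} (hf : Continuous f) :
    Continuous fun A : Mx n => mxFunC f ((1 / 2 : ℝ) • (A + Aᵀ)) := by
  simp only [mxFunC_re_im f]
  exact (s7c_toC_continuous.comp (Claimed.Agent.R260.mxFun_continuous (Complex.continuous_re.comp hf))).add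
    ((s7c_toC_continuous.comp
      (Claimed.Agent.R260.mxFun_continuous (Complex.continuous_im.comp hf))).const_smul Complex.I)
theorem mxFun_continuous_param {Y : Type} [TopologicalSpace Y] {f : Y → ℝ → ℝ}
    (hf : Continuous fun p : Y × ℝ => f p.1 p.2) :
    Continuous fun p : Y × Mx n => mxFun (f p.1) ((1 / 2 : ℝ) • (p.2 + p.2ᵀ)) := by
  change Continuous fun p : Y × Mx n => mxFun (f p.1) (Claimed.Agent.R260.mxiSym p.2)
  refine continuous_matrix fun i j => ?_
  rw [continuous_iff_continuousAt]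
  rintro ⟨y0, A0⟩
  rw [Metric.continuousAt_iff']
  intro ε hε
  set ρ : ℝ := mxSq (Claimed.Agent.R260.mxiSym A0) + 1 with hρ
  have hρ1 : 1 ≤ ρ := by have := Claimed.Agent.R260.mxSq_nonneg (Claimed.Agent.R260.mxiSym A0); linarith
  -- uniform closeness of `f y` to `f y0` on the compact interval
  have h1 : ∀ᶠ y in nhds y0, ∀ v ∈ Set.Icc (-ρ) ρ, |f y v - f y0 v| < ε / 2 := by
    refine isCompact_Icc.eventually_forall_of_forall_eventually fun v _ => ?_
    have hc : Continuous fun z : Y × ℝ => |f z.1 z.2 - f y0 z.2| :=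
      (hf.sub (hf.comp (continuous_const.prodMk continuous_snd))).abs
    have h0 : (fun z : Y × ℝ => |f z.1 z.2 - f y0 z.2|) (y0, v) < ε / 2 := by
      simp only [sub_self, abs_zero]; positivity
    exact hc.continuousAt.eventually_lt continuousAt_const h0
  have h2 : ∀ᶠ A in nhds A0, mxSq (Claimed.Agent.R260.mxiSym A) < ρ :=
    (isOpen_lt (Claimed.Agent.R260.mxSq_continuous.comp Claimed.Agent.R260.mxiSym_continuous)
      continuous_const).mem_nhds (by show mxSq (Claimed.Agent.R260.mxiSym A0) < ρ; linarith)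
  have hc0 : Continuous fun A : Mx n => mxFun (f y0) (Claimed.Agent.R260.mxiSym A) i j :=
    (Claimed.Agent.R260.mxFun_continuous (f := f y0)
      (hf.comp (continuous_const.prodMk continuous_id))).matrix_elem i j
  have h3 : ∀ᶠ A in nhds A0, dist (mxFun (f y0) (Claimed.Agent.R260.mxiSym A) i j)
      (mxFun (f y0) (Claimed.Agent.R260.mxiSym A0) i j) < ε / 2 :=
    Metric.continuousAt_iff'.1 hc0.continuousAt (ε / 2) (by positivity)
  rw [nhds_prod_eq]
  filter_upwards [h1.prod_inl (nhds A0), (h2.and h3).prod_inr (nhds y0)] with p hp1 hp2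
  obtain ⟨hp2, hp3⟩ := hp2
  refine lt_of_le_of_lt (dist_triangle _ (mxFun (f y0) (Claimed.Agent.R260.mxiSym p.2) i j) _) ?_
  have h4 : dist (mxFun (f p.1) (Claimed.Agent.R260.mxiSym p.2) i j)
      (mxFun (f y0) (Claimed.Agent.R260.mxiSym p.2) i j) ≤ ε / 2 := by
    rw [Real.dist_eq, ← Matrix.sub_apply, ← Claimed.Agent.R260.mxFun_sub]
    refine Claimed.Agent.R260.mxFun_apply_abs_le (fun k => ?_) i j
    exact (hp1 _ (Claimed.Agent.R260.mxEig_mem_Icc (Claimed.Agent.R260.mxiSym_isSymm p.2) hρ1 hp2 k)).le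
  linarith
/-- joint continuity in a parameter -/
theorem mxFunC_continuous_param {Y : Type} [TopologicalSpace Y] {f : Y → ℝ → ℂ}
    (hf : Continuous fun p : Y × ℝ => f p.1 p.2) :
    Continuous fun p : Y × Mx n => mxFunC (f p.1) ((1 / 2 : ℝ) • (p.2 + p.2ᵀ)) := by
  simp only [mxFunC_re_im]
  exact (s7c_toC_continuous.comp
      (mxFun_continuous_param (f := fun y v => (f y v).re) (Complex.continuous_re.comp hf))).add
    ((s7c_toC_continuous.comp
      (mxFun_continuous_param (f := fun y v => (f y v).im) (Complex.continuous_im.comp hf))).const_smul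
        Complex.I)

end Claimed.Agent.R259
end

/- ===== packed: Claimed.Agent.R259.S7ValAlg ===== -/
section
/-
Row 259 (S0499), section 7, SHARED KIT VAL: elementary algebra of `mv`, `colAt` and of a block model.
LEAF L-s7v-alg: PROVED (helper121).
Everything is finite dimensional linear algebra.

PLAN.
* `mv`, `colAt`: unfold, `ext`, `Finset.sum_add_distrib`, `Finset.mul_sum`, `Matrix.mulVec_mulVec` ...
* `s7v_colAt_symm`: sum of symmetric matrices (`B.H_symm`).  `s7v_colAt_comm`: `B.comm`, linearity.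
* `s7v_sum_eig_sq`: `mxSq A = tr(Aᵀ A) = tr(A²) = tr(mxFun (·^2) A) = ∑ eig²`
  (`mxFun_pow`/`mxFun_mul`+`mxFun_id`, `mxFun_trace`), or `mxSq_rot A A` + `mxRot_mxFun`.
* `s7v_fun_comm`: `mxFun_commute_of` (S7Cx) twice.
* `s7v_sigHalf_symm`: product of two commuting symmetric matrices.
* `s7v_outer_fun`: `B.outer` gives `H[R v] = R H[v]`; by induction `H[R^k v] = R^k H[v]`, by linearity
  `H[p(R) v] = p(R) H[v]` for polynomials (`mxFun_poly` of R260/MxPoly), and every `f` agrees with a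
  polynomial on the finite spectrum (`Lagrange.interpolate` on `Finset.univ.image (mxEig R)`,
  `mxFun_congr`).  ALTERNATIVE without polynomials: it suffices to check `v = ` columns `u_i` of
  `mxU R` (they span); `R u_i = r_i u_i`, hence `R H[u_i] = r_i H[u_i]`, hence
  `f(R) H[u_i] = f(r_i) H[u_i]` (`mxFun_local`/rotate into the eigenbasis) `= H[f(R) u_i]`.
-/
set_option autoImplicit false

open MeasureTheory ProbabilityTheory
open scoped BigOperators Matrix
open Claimed.Agent.R260 (Mx mxFun mxSchur mxSq mxIP mxEig mxU mxRot)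

namespace Claimed.Agent.R259

variable {n : ℕ}

/-! ### `mv` -/

theorem s7v_mv_apply (A : Mx n) (v : EE n) (i : Fin n) : mv A v i = ∑ j, A i j * v j := by
  simp [mv, Matrix.mulVec, dotProduct]
theorem s7v_mv_add (A : Mx n) (v w : EE n) : mv A (v + w) = mv A v + mv A w := by
  ext i
  simp only [s7v_mv_apply, PiLp.add_apply, mul_add, Finset.sum_add_distrib]
theorem s7v_mv_smul (A : Mx n) (c : ℝ) (v : EE n) : mv A (c • v) = c • mv A v := by
  ext i
  simp only [s7v_mv_apply, PiLp.smul_apply, smul_eq_mul, Finset.mul_sum]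
  exact Finset.sum_congr rfl fun j _ => by ring
theorem s7v_mv_mul (A B : Mx n) (v : EE n) : mv (A * B) v = mv A (mv B v) := by
  ext i
  simp only [s7v_mv_apply, Matrix.mul_apply, Finset.sum_mul, Finset.mul_sum]
  rw [Finset.sum_comm]
  exact Finset.sum_congr rfl fun j _ => Finset.sum_congr rfl fun l _ => by ring
theorem s7v_mv_one (v : EE n) : mv (1 : Mx n) v = v := by
  ext i
  simp [s7v_mv_apply, Matrix.one_apply]
theorem s7v_mv_add_left (A B : Mx n) (v : EE n) : mv (A + B) v = mv A v + mv B v := by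
  ext i
  simp only [s7v_mv_apply, PiLp.add_apply, Matrix.add_apply, add_mul, Finset.sum_add_distrib]
theorem s7v_mv_smul_left (c : ℝ) (A : Mx n) (v : EE n) : mv (c • A) v = c • mv A v := by
  ext i
  simp only [s7v_mv_apply, PiLp.smul_apply, Matrix.smul_apply, smul_eq_mul, Finset.mul_sum]
  exact Finset.sum_congr rfl fun j _ => by ring

/-! ### `colAt` -/

theorem s7v_colAt_add (H : Fin n → Mx n) (v w : EE n) :
    colAt H (v + w) = colAt H v + colAt H w := by
  simp only [colAt, PiLp.add_apply, add_smul, Finset.sum_add_distrib]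
theorem s7v_colAt_smul (H : Fin n → Mx n) (c : ℝ) (v : EE n) :
    colAt H (c • v) = c • colAt H v := by
  simp only [colAt, PiLp.smul_apply, smul_eq_mul, Finset.smul_sum, mul_smul]
theorem s7v_colAt_sub (H : Fin n → Mx n) (v w : EE n) :
    colAt H (v - w) = colAt H v - colAt H w := by
  simp only [colAt, PiLp.sub_apply, sub_smul, Finset.sum_sub_distrib]
theorem s7v_colAt_zero (H : Fin n → Mx n) : colAt H (0 : EE n) = 0 := by
  simp [colAt]

/-! ### symmetric matrices -/

theorem s7v_sum_eig_sq {A : Mx n} (hA : A.IsSymm) : ∑ i, mxEig A i ^ 2 = mxSq A := by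
  rw [← Claimed.Agent.R260.mxFun_trace (fun a => a ^ 2) A, Claimed.Agent.R260.mxFun_pow hA]
  unfold Claimed.Agent.R260.mxSq
  rw [hA, pow_two]

/-! ### block models -/

section block

variable {D : Type} [MeasurableSpace D] {Q : Measure D} (B : BlockModel n Q)

theorem s7v_Rs_symm (d : D) : (B.Rs d).IsSymm := by
  have h := (B.Rs_psd d).1
  unfold Matrix.IsHermitian at h
  rwa [Matrix.conjTranspose_eq_transpose_of_trivial] at h

theorem s7v_colAt_symm (d : D) (v : EE n) : (colAt (B.H d) v).IsSymm := by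
  unfold Matrix.IsSymm colAt
  rw [Matrix.transpose_sum]
  refine Finset.sum_congr rfl fun i _ => ?_
  rw [Matrix.transpose_smul, B.H_symm d i]

theorem s7v_colAt_comm (d : D) (v : EE n) :
    colAt (B.H d) v * B.Rs d = B.Rs d * colAt (B.H d) v := by
  unfold colAt
  rw [Finset.sum_mul, Finset.mul_sum]
  refine Finset.sum_congr rfl fun i _ => ?_
  rw [Matrix.smul_mul, Matrix.mul_smul, B.comm d i]

/-- `H[v]` commutes with functions of `R_*` -/
theorem s7v_colAt_fun_comm (f : ℝ → ℝ) (d : D) (v : EE n) :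
    colAt (B.H d) v * mxFun f (B.Rs d) = mxFun f (B.Rs d) * colAt (B.H d) v :=
  mxFun_commute_of (s7v_Rs_symm B d) (s7v_colAt_comm B d v)

/-- functions of `H[v]` commute with functions of `R_*` -/
theorem s7v_fun_comm (f g : ℝ → ℝ) (d : D) (v : EE n) :
    mxFun g (colAt (B.H d) v) * mxFun f (B.Rs d) = mxFun f (B.Rs d) * mxFun g (colAt (B.H d) v) :=
  (mxFun_commute_of (s7v_colAt_symm B d v) (s7v_colAt_fun_comm B f d v).symm).symm

/-- functions of `H[v]` commute with `R_*` -/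
theorem s7v_fun_comm_Rs (g : ℝ → ℝ) (d : D) (v : EE n) :
    mxFun g (colAt (B.H d) v) * B.Rs d = B.Rs d * mxFun g (colAt (B.H d) v) :=
  (mxFun_commute_of (s7v_colAt_symm B d v) (s7v_colAt_comm B d v).symm).symm

theorem s7v_sigHalf_symm (t : ℝ) (d : D) (N : EE n) : (B.sigHalf t d N).IsSymm := by
  unfold Matrix.IsSymm BlockModel.sigHalf
  rw [Matrix.transpose_mul, Claimed.Agent.R260.mxFun_isSymm, s7v_Rs_symm B d, s7v_fun_comm_Rs]

theorem s7v_outer_pow (d : D) (m : ℕ) (v : EE n) :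
    colAt (B.H d) (mv (B.Rs d ^ m) v) = B.Rs d ^ m * colAt (B.H d) v := by
  induction m generalizing v with
  | zero => rw [pow_zero, s7v_mv_one, one_mul]
  | succ m ih => rw [pow_succ', s7v_mv_mul, B.outer, ih, mul_assoc]

theorem s7v_outer_poly (d : D) (p : Polynomial ℝ) (v : EE n) :
    colAt (B.H d) (mv (Polynomial.aeval (B.Rs d) p) v)
      = Polynomial.aeval (B.Rs d) p * colAt (B.H d) v := by
  induction p using Polynomial.induction_on' with
  | add p q hp hq => rw [map_add, s7v_mv_add_left, s7v_colAt_add, hp, hq, add_mul]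
  | monomial m c =>
    rw [Polynomial.aeval_monomial, Algebra.algebraMap_eq_smul_one, smul_mul_assoc, one_mul,
      s7v_mv_smul_left, s7v_colAt_smul, s7v_outer_pow, smul_mul_assoc]

/-- the outer index may be moved through every function of `R_*` -/
theorem s7v_outer_fun (f : ℝ → ℝ) (d : D) (v : EE n) :
    colAt (B.H d) (mv (mxFun f (B.Rs d)) v) = mxFun f (B.Rs d) * colAt (B.H d) v := by
  set p : Polynomial ℝ := Lagrange.interpolate (Finset.univ.image (mxEig (B.Rs d))) id f with hp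
  have h1 : mxFun f (B.Rs d) = Polynomial.aeval (B.Rs d) p := by
    rw [← Claimed.Agent.R260.mxFun_poly (s7v_Rs_symm B d)]
    refine Claimed.Agent.R260.mxFun_congr fun i => ?_
    have := Lagrange.eval_interpolate_at_node (s := Finset.univ.image (mxEig (B.Rs d))) (v := id) f
      (Function.injective_id.injOn) (i := mxEig (B.Rs d) i)
      (Finset.mem_image_of_mem _ (Finset.mem_univ i))
    exact this.symm
  rw [h1, s7v_outer_poly]

/-- Hilbert-Schmidt bound of `H[v]`, complex form -/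
theorem s7v_cSq_colAt_le (d : D) (v : EE n) : cSq (toC (colAt (B.H d) v)) ≤ 4 * ‖v‖ ^ 2 := by
  rw [cSq_toC]
  exact B.flt d v

end block

end Claimed.Agent.R259
end

/- ===== packed: Claimed.Agent.R259.S7ValMeas ===== -/
section
/-
Row 259 (S0499), section 7, SHARED KIT VAL: MEASURABILITY in all parameters.
LEAF L-s7v-meas: PROVED (helper121).
No paper reading.

All matrix valued maps are treated ENTRYWISE (`∀ a b, Measurable fun s => F s a b`), in the
composition friendly form: `S` is an arbitrary measurable space, all arguments are measurable maps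
on `S`.

PLAN.
* The pattern for the functional calculus is `R260.mxFun_measurable_sym` (R260/MxCont.lean, read its
  12 lines): a continuous function on `Y × (Fin n → Fin n → ℝ)` is measurable, compose it with the
  measurable map `s ↦ (p s, fun k l => A s k l)`; the symmetrisation `(1/2) • (A + Aᵀ)` is `A` for
  symmetric `A` (`R260.mxiSym_of_isSymm`).  Continuity: `mxFun_continuous_param`,
  `mxFunC_continuous_param` (S7Cx.lean), then `.matrix_elem a b` (`Continuous.matrix_elem`).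
* products/sums/traces of entrywise measurable matrices: `Matrix.mul_apply`, `Matrix.trace`,
  `Finset.measurable_sum`, `Measurable.mul`; `toC`: `Complex.measurable_ofReal.comp`.
* vectors: `EE n` is a `PiLp`; `measurable_pi_iff`-type statements: use
  `(EuclideanSpace.measurableEquiv (Fin n))` / `WithLp` API, or continuity of the coordinate maps:
  `fun s => v s i` is measurable by `(EuclideanSpace.proj i).continuous.measurable.comp hv`
  (or `(PiLp.continuous_apply 2 _ i).measurable.comp hv`); conversely `Measurable fun s => toLp 2 (f s)` from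
  `(PiLp.continuous_toLp 2 _).measurable.comp (measurable_pi_iff.2 ..)` (or `MeasurableEquiv.toLp`).
* `tQ`: the first factor is `mxFunC (f (u,T)) R` with `f (u,T) v = c k u (T v²)`, continuous on
  `(ℝ × ℝ) × ℝ` by `P.c_cont`.  `cE r A = mxFunC (fun v => exp(i r v)) A`.
* `s7vCnt P T d = tr (mxFun (fun v => χ(T v²)) (R_* d))` (`R260.mxFun_trace`), `χ` continuous
  (`s7v_chi_continuous`).
-/
set_option autoImplicit false

open MeasureTheory ProbabilityTheory
open scoped BigOperators Matrix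
open Claimed.Agent.R260 (Mx mxFun mxSchur mxSq mxIP mxEig mxU mxRot)

namespace Claimed.Agent.R259

variable {n : ℕ} {S : Type} [MeasurableSpace S]

/-! ### vectors -/

theorem s7v_meas_coord {v : S → EE n} (hv : Measurable v) (i : Fin n) :
    Measurable fun s => v s i :=
  (EuclideanSpace.proj (𝕜 := ℝ) i).continuous.measurable.comp hv

theorem s7v_meas_of_coord {v : S → EE n} (hv : ∀ i, Measurable fun s => v s i) : Measurable v := by
  have h1 : Measurable fun s => (fun i => v s i : Fin n → ℝ) := measurable_pi_iff.2 hv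
  have h2 : Measurable fun f : Fin n → ℝ => (WithLp.toLp 2 f : EE n) :=
    (PiLp.continuous_toLp 2 _).measurable
  exact h2.comp h1

theorem s7v_meas_mv {M : S → Mx n} {G : S → EE n} (hM : ∀ a b, Measurable fun s => M s a b)
    (hG : Measurable G) : Measurable fun s => mv (M s) (G s) := by
  refine s7v_meas_of_coord fun i => ?_
  simp only [s7v_mv_apply]
  exact Finset.measurable_sum _ fun j _ => (hM i j).mul (s7v_meas_coord hG j)

theorem s7v_meas_ouV {u : S → ℝ} {a b : S → EE n} (hu : Measurable u) (ha : Measurable a)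
    (hb : Measurable b) : Measurable fun s => ouV (u s) (a s) (b s) := by
  unfold ouV
  exact ((Real.measurable_exp.comp hu.neg).smul ha).add
    (((measurable_const.sub ((Real.measurable_exp.comp hu.neg).pow_const 2)).sqrt).smul hb)

/-- `N - α N_u` -/
theorem s7v_meas_v {u : S → ℝ} {a b : S → EE n} (hu : Measurable u) (ha : Measurable a)
    (hb : Measurable b) :
    Measurable fun s => a s - Real.exp (-(u s)) • ouV (u s) (a s) (b s) :=
  ha.sub ((Real.measurable_exp.comp hu.neg).smul (s7v_meas_ouV hu ha hb))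

theorem s7v_meas_colAt {H : S → Fin n → Mx n} {v : S → EE n}
    (hH : ∀ i a b, Measurable fun s => H s i a b) (hv : Measurable v) :
    ∀ a b, Measurable fun s => colAt (H s) (v s) a b := by
  intro a b
  simp only [colAt, Matrix.sum_apply, Matrix.smul_apply, smul_eq_mul]
  exact Finset.measurable_sum _ fun i _ => (s7v_meas_coord hv i).mul (hH i a b)

/-! ### real and complex matrices, entrywise -/

theorem s7v_meas_mul {F G : S → Mx n} (hF : ∀ a b, Measurable fun s => F s a b)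
    (hG : ∀ a b, Measurable fun s => G s a b) : ∀ a b, Measurable fun s => (F s * G s) a b := by
  intro a b
  simp only [Matrix.mul_apply]
  exact Finset.measurable_sum _ fun j _ => (hF a j).mul (hG j b)

theorem s7v_meas_mxSq {F : S → Mx n} (hF : ∀ a b, Measurable fun s => F s a b) :
    Measurable fun s => mxSq (F s) := by
  simp only [Claimed.Agent.R260.mxSq_eq_sum]
  exact Finset.measurable_sum _ fun i _ => Finset.measurable_sum _ fun j _ => (hF i j).pow_const 2

theorem s7v_meas_toC {F : S → Mx n} (hF : ∀ a b, Measurable fun s => F s a b) :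
    ∀ a b, Measurable fun s => toC (F s) a b := by
  intro a b
  simp only [toC_apply]
  exact Complex.measurable_ofReal.comp (hF a b)

theorem s7v_meas_mulC {F G : S → CMx n} (hF : ∀ a b, Measurable fun s => F s a b)
    (hG : ∀ a b, Measurable fun s => G s a b) : ∀ a b, Measurable fun s => (F s * G s) a b := by
  intro a b
  simp only [Matrix.mul_apply]
  exact Finset.measurable_sum _ fun j _ => (hF a j).mul (hG j b)

theorem s7v_meas_smulC {c : S → ℂ} {F : S → CMx n} (hc : Measurable c)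
    (hF : ∀ a b, Measurable fun s => F s a b) : ∀ a b, Measurable fun s => (c s • F s) a b := by
  intro a b
  simp only [Matrix.smul_apply, smul_eq_mul]
  exact hc.mul (hF a b)

theorem s7v_meas_sumC {ι : Type} (I : Finset ι) {F : ι → S → CMx n}
    (hF : ∀ k ∈ I, ∀ a b, Measurable fun s => F k s a b) :
    ∀ a b, Measurable fun s => (∑ k ∈ I, F k s) a b := by
  intro a b
  simp only [Matrix.sum_apply]
  exact Finset.measurable_sum _ fun k hk => hF k hk a b

theorem s7v_meas_traceC {F : S → CMx n} (hF : ∀ a b, Measurable fun s => F s a b) :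
    Measurable fun s => Matrix.trace (F s) := by
  simp only [Matrix.trace, Matrix.diag_apply]
  exact Finset.measurable_sum _ fun i _ => hF i i

theorem s7v_meas_cSq {F : S → CMx n} (hF : ∀ a b, Measurable fun s => F s a b) :
    Measurable fun s => cSq (F s) := by
  unfold cSq
  exact Finset.measurable_sum _ fun i _ => Finset.measurable_sum _ fun j _ =>
    (hF i j).norm.pow_const 2

/-! ### functional calculus with a parameter -/

theorem s7v_meas_mxFun {Y : Type} [TopologicalSpace Y] [MeasurableSpace Y] [OpensMeasurableSpace Y]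
    [SecondCountableTopology Y] {f : Y → ℝ → ℝ} (hf : Continuous fun p : Y × ℝ => f p.1 p.2)
    {p : S → Y} {A : S → Mx n} (hp : Measurable p) (hA : ∀ a b, Measurable fun s => A s a b)
    (hs : ∀ s, (A s).IsSymm) : ∀ a b, Measurable fun s => mxFun (f (p s)) (A s) a b := by
  intro a b
  have hc : Continuous fun q : Y × (Fin n → Fin n → ℝ) =>
      mxFun (f q.1) ((1 / 2 : ℝ) • ((Matrix.of q.2 : Mx n) + (Matrix.of q.2 : Mx n)ᵀ)) a b :=
    (mxFun_continuous_param (n := n) hf).matrix_elem a b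
  have hm : Measurable fun s => (fun k l => A s k l : Fin n → Fin n → ℝ) :=
    measurable_pi_iff.mpr fun k => measurable_pi_iff.mpr fun l => hA k l
  have h := hc.measurable.comp (hp.prodMk hm)
  have e : ((fun q : Y × (Fin n → Fin n → ℝ) =>
      mxFun (f q.1) ((1 / 2 : ℝ) • ((Matrix.of q.2 : Mx n) + (Matrix.of q.2 : Mx n)ᵀ)) a b) ∘
      fun s => (p s, (fun k l => A s k l : Fin n → Fin n → ℝ)))
      = fun s => mxFun (f (p s)) (A s) a b := by
    funext s
    show mxFun (f (p s)) (Claimed.Agent.R260.mxiSym (A s)) a b = _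
    rw [Claimed.Agent.R260.mxiSym_of_isSymm (hs s)]
  rwa [e] at h

theorem s7v_meas_mxFunC {Y : Type} [TopologicalSpace Y] [MeasurableSpace Y] [OpensMeasurableSpace Y]
    [SecondCountableTopology Y] {f : Y → ℝ → ℂ} (hf : Continuous fun p : Y × ℝ => f p.1 p.2)
    {p : S → Y} {A : S → Mx n} (hp : Measurable p) (hA : ∀ a b, Measurable fun s => A s a b)
    (hs : ∀ s, (A s).IsSymm) : ∀ a b, Measurable fun s => mxFunC (f (p s)) (A s) a b := by
  intro a b
  have hc : Continuous fun q : Y × (Fin n → Fin n → ℝ) =>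
      mxFunC (f q.1) ((1 / 2 : ℝ) • ((Matrix.of q.2 : Mx n) + (Matrix.of q.2 : Mx n)ᵀ)) a b :=
    (mxFunC_continuous_param (n := n) hf).matrix_elem a b
  have hm : Measurable fun s => (fun k l => A s k l : Fin n → Fin n → ℝ) :=
    measurable_pi_iff.mpr fun k => measurable_pi_iff.mpr fun l => hA k l
  have h := hc.measurable.comp (hp.prodMk hm)
  have e : ((fun q : Y × (Fin n → Fin n → ℝ) =>
      mxFunC (f q.1) ((1 / 2 : ℝ) • ((Matrix.of q.2 : Mx n) + (Matrix.of q.2 : Mx n)ᵀ)) a b) ∘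
      fun s => (p s, (fun k l => A s k l : Fin n → Fin n → ℝ)))
      = fun s => mxFunC (f (p s)) (A s) a b := by
    funext s
    show mxFunC (f (p s)) (Claimed.Agent.R260.mxiSym (A s)) a b = _
    rw [Claimed.Agent.R260.mxiSym_of_isSymm (hs s)]
  rwa [e] at h

theorem s7v_meas_cE (r : ℝ) {A : S → Mx n} (hA : ∀ a b, Measurable fun s => A s a b)
    (hs : ∀ s, (A s).IsSymm) : ∀ a b, Measurable fun s => cE r (A s) a b := by
  unfold cE
  exact s7v_meas_mxFunC (Y := Unit)
    (f := fun _ v => Complex.exp (Complex.I * ((r * v : ℝ) : ℂ))) (by fun_prop)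
    (p := fun _ => ()) measurable_const hA hs

/-- the observation matrices `h_T(A)`; `|T|` because `hT L T` is singular for negative `T` -/
theorem s7v_meas_hT {L : ℝ} (hL : 0 < L) {T : S → ℝ} {A : S → Mx n} (hT' : Measurable T)
    (hA : ∀ a b, Measurable fun s => A s a b) (hs : ∀ s, (A s).IsSymm) :
    ∀ a b, Measurable fun s => mxFun (hT L |T s|) (A s) a b :=
  s7v_meas_mxFun (f := fun T v => hT L |T| v) (s7v_hT_continuous hL) hT' hA hs

theorem s7v_meas_gx (t : ℝ) {L : ℝ} (hL : 0 < L) {x : S → ℝ} {A : S → Mx n} (hx : Measurable x)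
    (hA : ∀ a b, Measurable fun s => A s a b) (hs : ∀ s, (A s).IsSymm) :
    ∀ a b, Measurable fun s => mxFun (gx t L |x s|) (A s) a b :=
  s7v_meas_mxFun (f := fun x v => gx t L |x| v) (s7v_gx_continuous t hL) hx hA hs

/-! ### block models -/

section block

variable {D : Type} [MeasurableSpace D] {Q : Measure D} (B : BlockModel n Q)

theorem s7v_meas_Rs {d : S → D} (hd : Measurable d) : ∀ a b, Measurable fun s => B.Rs (d s) a b :=
  fun a b => (B.Rs_meas a b).comp hd

theorem s7v_meas_H {d : S → D} (hd : Measurable d) :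
    ∀ i a b, Measurable fun s => B.H (d s) i a b :=
  fun i a b => (B.H_meas i a b).comp hd

theorem s7v_meas_HAt {d : S → D} {v : S → EE n} (hd : Measurable d) (hv : Measurable v) :
    ∀ a b, Measurable fun s => colAt (B.H (d s)) (v s) a b :=
  s7v_meas_colAt (s7v_meas_H B hd) hv

theorem s7v_meas_sigHalf (t : ℝ) {d : S → D} {N : S → EE n} (hd : Measurable d)
    (hN : Measurable N) : ∀ a b, Measurable fun s => B.sigHalf t (d s) (N s) a b := by
  unfold BlockModel.sigHalf
  refine s7v_meas_mul (s7v_meas_Rs B hd) ?_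
  exact s7v_meas_mxFun (Y := Unit)
    (f := fun _ x => Real.exp (Real.sqrt (2 * t) * x - 2 * t)) (by fun_prop)
    (p := fun _ => ()) measurable_const (s7v_meas_HAt B hd hN) (fun s => s7v_colAt_symm B _ _)

theorem s7v_meas_tQ (P : Tst) {u T : S → ℝ} {d : S → D} {y z : S → EE n} (hu : Measurable u)
    (hT : Measurable T) (hd : Measurable d) (hy : Measurable y) (hz : Measurable z) :
    ∀ a b, Measurable fun s => B.tQ P (u s) (T s) (d s) (y s) (z s) a b := by
  unfold BlockModel.tQ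
  refine s7v_meas_sumC _ fun k _ => ?_
  refine s7v_meas_mulC (s7v_meas_mulC ?_ ?_) ?_
  · have hc : Continuous fun p : (ℝ × ℝ) × ℝ => P.c k p.1.1 (p.1.2 * p.2 ^ 2) :=
      (P.c_cont k).comp (by fun_prop : Continuous fun p : (ℝ × ℝ) × ℝ => (p.1.1, p.1.2 * p.2 ^ 2))
    exact s7v_meas_mxFunC (Y := ℝ × ℝ) (f := fun q v => P.c k q.1 (q.2 * v ^ 2)) hc
      (p := fun s => (u s, T s)) (hu.prodMk hT) (s7v_meas_Rs B hd) (fun s => s7v_Rs_symm B _)
  · exact s7v_meas_cE _ (s7v_meas_HAt B hd hy) (fun s => s7v_colAt_symm B _ _)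
  · exact s7v_meas_cE _ (s7v_meas_HAt B hd hz) (fun s => s7v_colAt_symm B _ _)

theorem s7v_meas_pay {d : S → D} {v : S → EE n} {Qm : S → CMx n} (hd : Measurable d)
    (hv : Measurable v) (hQ : ∀ a b, Measurable fun s => Qm s a b) :
    Measurable fun s => B.pay (d s) (v s) (Qm s) := by
  unfold BlockModel.pay
  refine Measurable.sub (measurable_const.mul (Complex.measurable_re.comp ?_))
    (measurable_const.mul (s7v_meas_cSq hQ))
  exact s7v_meas_traceC (s7v_meas_mulC (s7v_meas_toC (s7v_meas_HAt B hd hv)) hQ)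

theorem s7v_meas_cnt (P : Tst) {T : S → ℝ} {d : S → D} (hT : Measurable T) (hd : Measurable d) :
    Measurable fun s => B.s7vCnt P (T s) (d s) := by
  have e : ∀ s, B.s7vCnt P (T s) (d s)
      = Matrix.trace (mxFun (fun v => P.s7vChi (T s * v ^ 2)) (B.Rs (d s))) := by
    intro s
    rw [Claimed.Agent.R260.mxFun_trace]
    rfl
  simp only [e, Matrix.trace, Matrix.diag_apply]
  refine Finset.measurable_sum _ fun i _ => ?_
  have hc : Continuous fun p : ℝ × ℝ => P.s7vChi (p.1 * p.2 ^ 2) :=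
    (s7v_chi_continuous P).comp (by fun_prop)
  exact s7v_meas_mxFun (Y := ℝ) (f := fun T v => P.s7vChi (T * v ^ 2)) hc hT
    (s7v_meas_Rs B hd) (fun s => s7v_Rs_symm B _) i i

end block

end Claimed.Agent.R259
end

/- ===== packed: Claimed.Agent.R259.S7LawGEa ===== -/
section
/-
Row 259 (S0499), section 7, package L-S7-LAW-GE, helper file a (owner helper283):
entrywise calculus of matrix valued functions of a real variable, duality for the Hilbert-Schmidt norm,
entrywise integrals `cInt`.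
-/
set_option autoImplicit false

open MeasureTheory ProbabilityTheory
open scoped BigOperators Matrix
open Claimed.Agent.R260 (Mx mxFun mxSchur mxSq mxIP mxEig mxU mxRot)

namespace Claimed.Agent.R259

variable {n : ℕ}

/-! ### entrywise derivatives -/

/-- entrywise derivative of a matrix valued function of a real variable -/
def s7gMD (Φ : ℝ → CMx n) (Φ' : CMx n) (t : ℝ) : Prop :=
  ∀ a b, HasDerivAt (fun s => Φ s a b) (Φ' a b) t

namespace s7gMD

variable {Φ Ψ : ℝ → CMx n} {Φ' Ψ' : CMx n} {t : ℝ}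

theorem const (X : CMx n) (t : ℝ) : s7gMD (fun _ => X) 0 t := fun a b => hasDerivAt_const t (X a b)

theorem add (h : s7gMD Φ Φ' t) (h' : s7gMD Ψ Ψ' t) : s7gMD (fun s => Φ s + Ψ s) (Φ' + Ψ') t :=
  fun a b => (h a b).add (h' a b)

theorem sub (h : s7gMD Φ Φ' t) (h' : s7gMD Ψ Ψ' t) : s7gMD (fun s => Φ s - Ψ s) (Φ' - Ψ') t :=
  fun a b => (h a b).sub (h' a b)

theorem const_smul (c : ℂ) (h : s7gMD Φ Φ' t) : s7gMD (fun s => c • Φ s) (c • Φ') t :=
  fun a b => (h a b).const_mul c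

theorem mul (h : s7gMD Φ Φ' t) (h' : s7gMD Ψ Ψ' t) :
    s7gMD (fun s => Φ s * Ψ s) (Φ' * Ψ t + Φ t * Ψ') t := by
  intro a b
  have key : ∀ c, HasDerivAt (fun s => Φ s a c * Ψ s c b) (Φ' a c * Ψ t c b + Φ t a c * Ψ' c b) t :=
    fun c => (h a c).mul (h' c b)
  have h1 : HasDerivAt (fun s => ∑ c, Φ s a c * Ψ s c b) (∑ c, (Φ' a c * Ψ t c b + Φ t a c * Ψ' c b)) t :=
    HasDerivAt.fun_sum fun c _ => key c
  have h2 : (Φ' * Ψ t + Φ t * Ψ') a b = ∑ c, (Φ' a c * Ψ t c b + Φ t a c * Ψ' c b) := by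
    rw [Matrix.add_apply, Matrix.mul_apply, Matrix.mul_apply, Finset.sum_add_distrib]
  rw [h2]
  exact h1

theorem const_mul (X : CMx n) (h : s7gMD Φ Φ' t) : s7gMD (fun s => X * Φ s) (X * Φ') t := by
  have := (const X t).mul h
  simpa using this

theorem mul_const (h : s7gMD Φ Φ' t) (X : CMx n) : s7gMD (fun s => Φ s * X) (Φ' * X) t := by
  have := h.mul (const X t)
  simpa using this

theorem smul_const {c : ℝ → ℂ} {c' : ℂ} (hc : HasDerivAt c c' t) (X : CMx n) :
    s7gMD (fun s => c s • X) (c' • X) t :=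
  fun a b => hc.mul_const (X a b)

theorem trace (h : s7gMD Φ Φ' t) : HasDerivAt (fun s => Matrix.trace (Φ s)) (Matrix.trace Φ') t := by
  have h1 : HasDerivAt (fun s => ∑ a, Φ s a a) (∑ a, Φ' a a) t := HasDerivAt.fun_sum fun a _ => h a a
  exact h1

theorem congr_deriv (h : s7gMD Φ Φ' t) (e : Φ' = Ψ') : s7gMD Φ Ψ' t := e ▸ h

/-- affine reparametrisation -/
theorem comp_affine {c d : ℝ} (h : s7gMD Φ Φ' (c * t + d)) :
    s7gMD (fun s => Φ (c * s + d)) ((c : ℂ) • Φ') t := by
  intro a b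
  have h1 : HasDerivAt (fun s : ℝ => c * s + d) c t := by
    simpa using ((hasDerivAt_id t).const_mul c).add_const d
  have h2 := (h a b).scomp t h1
  have h3 : c • Φ' a b = ((c : ℂ) • Φ') a b := by
    rw [Matrix.smul_apply, Complex.real_smul, smul_eq_mul]
  rw [← h3]
  exact h2

end s7gMD

theorem s7g_MD_cE {A : Mx n} (hA : A.IsSymm) (t : ℝ) :
    s7gMD (fun s => cE s A) (Complex.I • (toC A * cE t A)) t := fun a b => cE_hasDerivAt hA t a b

/-- derivative of `f_t(A)` in the parameter -/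
theorem s7g_MD_mxFunC {f : ℝ → ℝ → ℂ} {f' : ℝ → ℂ} {t : ℝ} (A : Mx n)
    (h : ∀ v, HasDerivAt (fun s => f s v) (f' v) t) :
    s7gMD (fun s => mxFunC (f s) A) (mxFunC f' A) t := by
  intro a b
  have key : ∀ i, HasDerivAt (fun s => ((mxU A a i : ℝ) : ℂ) * f s (mxEig A i) * ((mxU A b i : ℝ) : ℂ))
      (((mxU A a i : ℝ) : ℂ) * f' (mxEig A i) * ((mxU A b i : ℝ) : ℂ)) t :=
    fun i => ((h (mxEig A i)).const_mul _).mul_const _
  have h1 : HasDerivAt (fun s => ∑ i, ((mxU A a i : ℝ) : ℂ) * f s (mxEig A i) * ((mxU A b i : ℝ) : ℂ))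
      (∑ i, ((mxU A a i : ℝ) : ℂ) * f' (mxEig A i) * ((mxU A b i : ℝ) : ℂ)) t :=
    HasDerivAt.fun_sum fun i _ => key i
  rw [s7c_mxFunC_apply]
  simp only [s7c_mxFunC_apply]
  exact h1

/-! ### duality -/

theorem s7g_dual {X : CMx n} {C : ℝ} (hC : 0 ≤ C)
    (h : ∀ Y : CMx n, ‖Matrix.trace (Y * X)‖ ≤ Real.sqrt (cSq Y) * C) : Real.sqrt (cSq X) ≤ C := by
  have h1 := h Xᴴ
  rw [← cSq_eq_trace', Complex.norm_real, Real.norm_eq_abs, abs_of_nonneg (cSq_nonneg X), cSq_conjTranspose] at h1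
  by_cases h0 : Real.sqrt (cSq X) = 0
  · rw [h0]; exact hC
  · have hpos : 0 < Real.sqrt (cSq X) := lt_of_le_of_ne (Real.sqrt_nonneg _) (Ne.symm h0)
    have h2 : Real.sqrt (cSq X) * Real.sqrt (cSq X) ≤ Real.sqrt (cSq X) * C := by
      rw [Real.mul_self_sqrt (cSq_nonneg X)]; exact h1
    exact le_of_mul_le_mul_left h2 hpos

theorem s7g_apply_norm_le (X : CMx n) (a b : Fin n) : ‖X a b‖ ≤ Real.sqrt (cSq X) := by
  apply Real.le_sqrt_of_sq_le
  unfold cSq
  exact (Finset.single_le_sum (f := fun b => ‖X a b‖ ^ 2) (fun _ _ => by positivity) (Finset.mem_univ b)).trans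
    (Finset.single_le_sum (f := fun a => ∑ b, ‖X a b‖ ^ 2)
      (fun _ _ => Finset.sum_nonneg fun _ _ => by positivity) (Finset.mem_univ a))

/-- `‖X Y‖ ≤ ‖X‖ ‖Y‖` is not needed; the trace of a triple product -/
theorem s7g_trace_le (Y X : CMx n) {C : ℝ} (h : Real.sqrt (cSq X) ≤ C) :
    ‖Matrix.trace (Y * X)‖ ≤ Real.sqrt (cSq Y) * C :=
  (cSq_trace_mul_le Y X).trans (mul_le_mul_of_nonneg_left h (Real.sqrt_nonneg _))

/-! ### entrywise integrals -/

section cInt

variable {α : Type} [MeasurableSpace α] {μ : Measure α}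

/-- all entries are integrable -/
def s7gI (μ : Measure α) (Φ : α → CMx n) : Prop := ∀ a b, Integrable (fun x => Φ x a b) μ

theorem s7g_cInt_apply (Φ : α → CMx n) (a b : Fin n) : cInt μ Φ a b = ∫ x, Φ x a b ∂μ := rfl

namespace s7gI

variable {Φ Ψ : α → CMx n}

theorem add (h : s7gI μ Φ) (h' : s7gI μ Ψ) : s7gI μ (fun x => Φ x + Ψ x) := fun a b => (h a b).add (h' a b)

theorem sub (h : s7gI μ Φ) (h' : s7gI μ Ψ) : s7gI μ (fun x => Φ x - Ψ x) := fun a b => (h a b).sub (h' a b)

theorem smul (c : ℂ) (h : s7gI μ Φ) : s7gI μ (fun x => c • Φ x) := fun a b => (h a b).const_mul c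

theorem mul_left (X : CMx n) (h : s7gI μ Φ) : s7gI μ (fun x => X * Φ x) := by
  intro a b
  simp only [Matrix.mul_apply]
  exact integrable_finsetSum _ fun c _ => (h c b).const_mul (X a c)

theorem mul_right (h : s7gI μ Φ) (X : CMx n) : s7gI μ (fun x => Φ x * X) := by
  intro a b
  simp only [Matrix.mul_apply]
  exact integrable_finsetSum _ fun c _ => (h a c).mul_const (X c b)

theorem sum {ι : Type} (s : Finset ι) {Φ : ι → α → CMx n} (h : ∀ i ∈ s, s7gI μ (Φ i)) :
    s7gI μ (fun x => ∑ i ∈ s, Φ i x) := by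
  intro a b
  simp only [Matrix.sum_apply]
  exact integrable_finsetSum _ fun i hi => h i hi a b

theorem trace (h : s7gI μ Φ) : Integrable (fun x => Matrix.trace (Φ x)) μ := by
  unfold Matrix.trace
  exact integrable_finsetSum _ fun a _ => h a a

end s7gI

variable {Φ Ψ : α → CMx n}

theorem s7g_cInt_add (h : s7gI μ Φ) (h' : s7gI μ Ψ) :
    cInt μ (fun x => Φ x + Ψ x) = cInt μ Φ + cInt μ Ψ := by
  ext a b
  exact integral_add (h a b) (h' a b)

theorem s7g_cInt_sub (h : s7gI μ Φ) (h' : s7gI μ Ψ) :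
    cInt μ (fun x => Φ x - Ψ x) = cInt μ Φ - cInt μ Ψ := by
  ext a b
  exact integral_sub (h a b) (h' a b)

theorem s7g_cInt_smul (c : ℂ) (Φ : α → CMx n) : cInt μ (fun x => c • Φ x) = c • cInt μ Φ := by
  ext a b
  exact integral_const_mul c _

theorem s7g_cInt_mul_left (X : CMx n) (h : s7gI μ Φ) : cInt μ (fun x => X * Φ x) = X * cInt μ Φ := by
  ext a b
  rw [s7g_cInt_apply, Matrix.mul_apply]
  simp only [Matrix.mul_apply, s7g_cInt_apply]
  rw [integral_finsetSum _ fun c _ => (h c b).const_mul (X a c)]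
  exact Finset.sum_congr rfl fun c _ => integral_const_mul _ _

theorem s7g_cInt_mul_right (h : s7gI μ Φ) (X : CMx n) : cInt μ (fun x => Φ x * X) = cInt μ Φ * X := by
  ext a b
  rw [s7g_cInt_apply, Matrix.mul_apply]
  simp only [Matrix.mul_apply, s7g_cInt_apply]
  rw [integral_finsetSum _ fun c _ => (h a c).mul_const (X c b)]
  exact Finset.sum_congr rfl fun c _ => integral_mul_const _ _

theorem s7g_cInt_sum {ι : Type} (s : Finset ι) {Φ : ι → α → CMx n} (h : ∀ i ∈ s, s7gI μ (Φ i)) :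
    cInt μ (fun x => ∑ i ∈ s, Φ i x) = ∑ i ∈ s, cInt μ (Φ i) := by
  ext a b
  rw [s7g_cInt_apply, Matrix.sum_apply]
  simp only [Matrix.sum_apply, s7g_cInt_apply]
  exact integral_finsetSum _ fun i hi => h i hi a b

theorem s7g_trace_cInt (h : s7gI μ Φ) : Matrix.trace (cInt μ Φ) = ∫ x, Matrix.trace (Φ x) ∂μ := by
  unfold Matrix.trace
  simp only [Matrix.diag_apply, s7g_cInt_apply]
  exact (integral_finsetSum _ fun a _ => h a a).symm

theorem s7g_cInt_const [IsProbabilityMeasure μ] (X : CMx n) : cInt μ (fun _ => X) = X := by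
  ext a b
  rw [s7g_cInt_apply]
  simp

/-- Jensen for the squared Hilbert-Schmidt norm -/
theorem s7g_cSq_cInt_le [IsProbabilityMeasure μ] (h : s7gI μ Φ) {g : α → ℝ} (hg : Integrable g μ)
    (hle : ∀ x, cSq (Φ x) ≤ g x) : cSq (cInt μ Φ) ≤ ∫ x, g x ∂μ := by
  set X := cInt μ Φ with hX
  have hI : Integrable (fun x => Matrix.trace (Xᴴ * Φ x)) μ := (h.mul_left Xᴴ).trace
  have h1 : cSq X = ∫ x, (Matrix.trace (Xᴴ * Φ x)).re ∂μ := by
    rw [cSq_eq_trace]
    conv_lhs => rw [hX, ← s7g_cInt_mul_left Xᴴ h, s7g_trace_cInt (h.mul_left Xᴴ)]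
    exact (integral_re hI).symm
  have h2 : ∫ x, (Matrix.trace (Xᴴ * Φ x)).re ∂μ ≤ ∫ x, (cSq X + g x) / 2 ∂μ := by
    refine integral_mono hI.re (((integrable_const _).add hg).div_const 2) fun x => ?_
    have h3 : (Matrix.trace (Xᴴ * Φ x)).re ≤ Real.sqrt (cSq X) * Real.sqrt (cSq (Φ x)) := by
      refine (Complex.re_le_norm _).trans ?_
      have := cSq_trace_mul_le Xᴴ (Φ x)
      rwa [cSq_conjTranspose] at this
    have h4 : Real.sqrt (cSq X) * Real.sqrt (cSq (Φ x)) ≤ (cSq X + cSq (Φ x)) / 2 := by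
      have e1 := Real.sq_sqrt (cSq_nonneg X)
      have e2 := Real.sq_sqrt (cSq_nonneg (Φ x))
      nlinarith [sq_nonneg (Real.sqrt (cSq X) - Real.sqrt (cSq (Φ x)))]
    show (Matrix.trace (Xᴴ * Φ x)).re ≤ (cSq X + g x) / 2
    linarith [hle x]
  have h5 : ∫ x, (cSq X + g x) / 2 ∂μ = (cSq X + ∫ x, g x ∂μ) / 2 := by
    rw [integral_div, integral_add (integrable_const _) hg]
    simp
  linarith

end cInt

/-- generates the equation lemmas of the definitions above in this file (rule 6: unique names) -/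
theorem s7lawgea_eqns_cite : True := by
  have := @s7gMD.eq_1
  have := @s7gI.eq_1
  trivial

end Claimed.Agent.R259
end

/- ===== packed: Claimed.Agent.R259.S7LawGEb ===== -/
section
/-
Row 259 (S0499), section 7, package L-S7-LAW-GE, helper file b (owner helper283):
`e^{isA}` is the matrix exponential, smoothness of `G ↦ e^{iρK[G]}`, complex Gaussian integration by parts.
-/
set_option autoImplicit false

open MeasureTheory ProbabilityTheory
open scoped BigOperators Matrix
open Claimed.Agent.R260 (Mx mxFun mxSchur mxSq mxIP mxEig mxU mxRot)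

namespace Claimed.Agent.R259

variable {n : ℕ}

/-- `e^{isA}` is the matrix exponential -/
theorem s7g_cE_eq_exp (s : ℝ) {A : Mx n} (hA : A.IsSymm) :
    cE s A = NormedSpace.exp ((Complex.I * (s : ℂ)) • toC A) := by
  have hinv : (toC (mxU A))⁻¹ = toC (mxU A)ᵀ := Matrix.inv_eq_right_inv (s7c_U_mul_Ut A)
  have hunit : IsUnit (toC (mxU A)) := by
    rw [Matrix.isUnit_iff_isUnit_det]
    exact Matrix.isUnit_det_of_right_inverse (s7c_U_mul_Ut A)
  have h1 : (Complex.I * (s : ℂ)) • toC A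
      = toC (mxU A) * Matrix.diagonal (fun i => Complex.I * ((s * mxEig A i : ℝ) : ℂ)) * (toC (mxU A))⁻¹ := by
    rw [hinv]
    conv_lhs => rw [s7c_toC_eq hA, ← mxFunC_smul]
    unfold mxFunC
    congr 3
    funext i
    push_cast
    ring
  rw [h1, Matrix.exp_conj _ _ hunit, Matrix.exp_diagonal, hinv]
  unfold cE mxFunC
  congr 3
  funext i
  rw [Pi.coe_exp, Complex.exp_eq_exp_ℂ]

/-! ### the linear map `colAt K` -/

theorem s7g_colAt_symm {K : Fin n → Mx n} (hK : ∀ j, (K j).IsSymm) (G : EE n) : (colAt K G).IsSymm := by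
  unfold colAt Matrix.IsSymm
  rw [Matrix.transpose_sum]
  refine Finset.sum_congr rfl fun i _ => ?_
  rw [Matrix.transpose_smul, (hK i).eq]

theorem s7g_colAt_sub (K : Fin n → Mx n) (G G' : EE n) : colAt K (G - G') = colAt K G - colAt K G' := by
  unfold colAt
  rw [← Finset.sum_sub_distrib]
  refine Finset.sum_congr rfl fun i _ => ?_
  rw [← sub_smul]
  rfl

theorem s7g_colAt_add_smul (K : Fin n → Mx n) (G : EE n) (h : ℝ) (j : Fin n) :
    colAt K (G + h • eb j) = colAt K G + h • K j := by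
  unfold colAt
  have h1 : ∀ i, (G + h • eb j) i • K i = G i • K i + (if i = j then h • K j else 0) := by
    intro i
    have h2 : (G + h • eb j) i = G i + h * (if i = j then 1 else 0) := by
      simp [eb]
    rw [h2, add_smul]
    congr 1
    split_ifs with hij
    · rw [hij, mul_one]
    · rw [mul_zero, zero_smul]
  simp only [h1]
  rw [Finset.sum_add_distrib, Finset.sum_ite_eq' Finset.univ j, if_pos (Finset.mem_univ j)]

theorem s7g_colAt_apply (K : Fin n → Mx n) (v : EE n) (a b : Fin n) :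
    colAt K v a b = ∑ j, v j * K j a b := by
  unfold colAt
  rw [Matrix.sum_apply]
  rfl

theorem s7g_mxSq_colAt_le (K : Fin n → Mx n) (v : EE n) :
    mxSq (colAt K v) ≤ (∑ j, mxSq (K j)) * ‖v‖ ^ 2 := by
  have h1 : ‖v‖ ^ 2 = ∑ j, v j ^ 2 := by
    rw [EuclideanSpace.norm_sq_eq]
    exact Finset.sum_congr rfl fun j _ => by rw [Real.norm_eq_abs, sq_abs]
  have h2 : ∑ j, mxSq (K j) = ∑ a, ∑ b, ∑ j, K j a b ^ 2 := by
    simp only [Claimed.Agent.R260.mxSq_eq_sum]
    rw [Finset.sum_comm]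
    exact Finset.sum_congr rfl fun a _ => Finset.sum_comm
  rw [Claimed.Agent.R260.mxSq_eq_sum, h2, Finset.sum_mul]
  refine Finset.sum_le_sum fun a _ => ?_
  rw [Finset.sum_mul]
  refine Finset.sum_le_sum fun b _ => ?_
  rw [s7g_colAt_apply, h1, mul_comm]
  exact Finset.sum_mul_sq_le_sq_mul_sq _ _ _

/-! ### smoothness -/

open scoped Matrix.Norms.Operator in
theorem s7g_contDiff {K : Fin n → Mx n} (hK : ∀ j, (K j).IsSymm) (ρ : ℝ) (a b : Fin n) :
    ContDiff ℝ 1 (fun G : EE n => cE ρ (colAt K G) a b) := by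
  have h1 : (fun G : EE n => cE ρ (colAt K G) a b)
      = fun G : EE n => (NormedSpace.exp (∑ i, (G i) • ((Complex.I * (ρ : ℂ)) • toC (K i)))) a b := by
    funext G
    have h0 : (Complex.I * (ρ : ℂ)) • toC (colAt K G)
        = ∑ i, (G i) • ((Complex.I * (ρ : ℂ)) • toC (K i)) := by
      unfold colAt
      rw [toC_sum, Finset.smul_sum]
      refine Finset.sum_congr rfl fun i _ => ?_
      rw [toC_smul, smul_comm, Complex.coe_smul]
    rw [s7g_cE_eq_exp ρ (s7g_colAt_symm hK G), h0]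
  rw [h1]
  have h2 : ContDiff ℝ 1 (fun G : EE n => ∑ i, (G i) • ((Complex.I * (ρ : ℂ)) • toC (K i))) := by
    refine ContDiff.sum fun i _ => ?_
    refine ContDiff.fun_smul ?_ contDiff_const
    exact (EuclideanSpace.proj (𝕜 := ℝ) i).contDiff
  have h3 : ContDiff ℝ 1 (NormedSpace.exp : CMx n → CMx n) := by
    rw [contDiff_iff_contDiffAt]
    intro x
    exact (NormedSpace.exp_analytic (𝕂 := ℝ) x).contDiffAt
  have h4 : ContDiff ℝ 1 (fun X : CMx n => X a b) :=
    (LinearMap.toContinuousLinearMap (Matrix.entryLinearMap ℝ ℂ a b)).contDiff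
  exact h4.comp (h3.comp h2)

theorem s7g_lipschitz {K : Fin n → Mx n} (hK : ∀ j, (K j).IsSymm) (ρ : ℝ) (a b : Fin n) :
    LipschitzWith (Real.toNNReal (|ρ| * Real.sqrt (∑ j, mxSq (K j))))
      (fun G : EE n => cE ρ (colAt K G) a b) := by
  refine LipschitzWith.of_dist_le_mul fun G G' => ?_
  rw [Real.coe_toNNReal _ (by positivity), dist_eq_norm, dist_eq_norm, ← Matrix.sub_apply]
  refine (s7g_apply_norm_le _ a b).trans ?_
  have h1 := cE_sub_le ρ (s7g_colAt_symm hK G) (s7g_colAt_symm hK G')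
  rw [← s7g_colAt_sub] at h1
  have h2 := s7g_mxSq_colAt_le K (G - G')
  have hS : 0 ≤ ∑ j, mxSq (K j) := Finset.sum_nonneg fun j _ => Claimed.Agent.R260.mxSq_nonneg _
  apply Real.sqrt_le_iff.2
  refine ⟨by positivity, h1.trans ?_⟩
  calc ρ ^ 2 * mxSq (colAt K (G - G')) ≤ ρ ^ 2 * ((∑ j, mxSq (K j)) * ‖G - G'‖ ^ 2) :=
        mul_le_mul_of_nonneg_left h2 (sq_nonneg _)
    _ = (|ρ| * Real.sqrt (∑ j, mxSq (K j)) * ‖G - G'‖) ^ 2 := by
        rw [mul_pow, mul_pow, sq_abs, Real.sq_sqrt hS]; ring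

/-! ### complex Gaussian integration by parts -/

instance s7g_gam_prob : IsProbabilityMeasure (gam n) := by
  rw [gam_eq_std]; infer_instance

theorem s7g_ibp {u : EE n → ℂ} (hu : ContDiff ℝ 1 u) {C : NNReal} (hl : LipschitzWith C u) (j : Fin n) :
    Integrable (fun G => ((G j : ℝ) : ℂ) * u G) (gam n) ∧
      Integrable (fun G => fderiv ℝ u G (eb j)) (gam n) ∧
      ∫ G, ((G j : ℝ) : ℂ) * u G ∂(gam n) = ∫ G, fderiv ℝ u G (eb j) ∂(gam n) := by
  rw [gam_eq_std]
  have hd : ∀ G, HasFDerivAt u (fderiv ℝ u G) G := fun G => (hu.differentiable one_ne_zero G).hasFDerivAt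
  -- real part
  have hRc : ContDiff ℝ 1 (fun G => (u G).re) := Complex.reCLM.contDiff.comp hu
  have hIc : ContDiff ℝ 1 (fun G => (u G).im) := Complex.imCLM.contDiff.comp hu
  have hRl : LipschitzWith C (fun G => (u G).re) := by
    refine LipschitzWith.of_dist_le_mul fun G G' => ?_
    refine le_trans ?_ (hl.dist_le_mul G G')
    rw [Real.dist_eq, dist_eq_norm, ← Complex.sub_re]
    exact Complex.abs_re_le_norm _
  have hIl : LipschitzWith C (fun G => (u G).im) := by
    refine LipschitzWith.of_dist_le_mul fun G G' => ?_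
    refine le_trans ?_ (hl.dist_le_mul G G')
    rw [Real.dist_eq, dist_eq_norm, ← Complex.sub_im]
    exact Complex.abs_im_le_norm _
  have hR : Claimed.Agent.R260.C1P (fun G : EE n => (u G).re) :=
    Claimed.Agent.R260.C1L.toC1P ⟨hRc, C, fun x => norm_fderiv_le_of_lipschitz ℝ hRl⟩
  have hI : Claimed.Agent.R260.C1P (fun G : EE n => (u G).im) :=
    Claimed.Agent.R260.C1L.toC1P ⟨hIc, C, fun x => norm_fderiv_le_of_lipschitz ℝ hIl⟩
  have hRd : ∀ G, Claimed.Agent.R260.pd j (fun G : EE n => (u G).re) G = (fderiv ℝ u G (eb j)).re := by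
    intro G
    unfold Claimed.Agent.R260.pd
    have h := (Complex.reCLM.hasFDerivAt.comp G (hd G)).fderiv
    have h' : fderiv ℝ (fun G : EE n => (u G).re) G = Complex.reCLM.comp (fderiv ℝ u G) := h
    rw [h']
    rfl
  have hId : ∀ G, Claimed.Agent.R260.pd j (fun G : EE n => (u G).im) G = (fderiv ℝ u G (eb j)).im := by
    intro G
    unfold Claimed.Agent.R260.pd
    have h := (Complex.imCLM.hasFDerivAt.comp G (hd G)).fderiv
    have h' : fderiv ℝ (fun G : EE n => (u G).im) G = Complex.imCLM.comp (fderiv ℝ u G) := h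
    rw [h']
    rfl
  have i1 : Integrable (fun G : EE n => ((G j : ℝ) : ℂ) * u G) (stdGaussian (EE n)) := by
    rw [← MeasureTheory.Integrable.re_im_iff]
    constructor
    · refine (((Claimed.Agent.R260.gk_PG_coord j).mul hR.toPG).integrable).congr (Filter.Eventually.of_forall fun G => ?_)
      simp
    · refine (((Claimed.Agent.R260.gk_PG_coord j).mul hI.toPG).integrable).congr (Filter.Eventually.of_forall fun G => ?_)
      simp
  have i2 : Integrable (fun G : EE n => fderiv ℝ u G (eb j)) (stdGaussian (EE n)) := by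
    rw [← MeasureTheory.Integrable.re_im_iff]
    constructor
    · exact ((hR.pd_PG j).integrable).congr (Filter.Eventually.of_forall fun G => hRd G)
    · exact ((hI.pd_PG j).integrable).congr (Filter.Eventually.of_forall fun G => hId G)
  refine ⟨i1, i2, ?_⟩
  apply Complex.ext
  · have e1 := integral_re i1
    have e2 := integral_re i2
    have e3 := Claimed.Agent.R260.gk_ibp hR j
    simp only [hRd] at e3
    calc (∫ G : EE n, ((G j : ℝ) : ℂ) * u G ∂stdGaussian (EE n)).re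
        = ∫ G : EE n, G j * (u G).re ∂stdGaussian (EE n) := by
          rw [show (∫ G : EE n, ((G j : ℝ) : ℂ) * u G ∂stdGaussian (EE n)).re
            = RCLike.re (∫ G : EE n, ((G j : ℝ) : ℂ) * u G ∂stdGaussian (EE n)) from rfl, ← e1]
          refine integral_congr_ae (Filter.Eventually.of_forall fun G => ?_)
          simp
      _ = ∫ G : EE n, (fderiv ℝ u G (eb j)).re ∂stdGaussian (EE n) := e3
      _ = _ := e2
  · have e1 := integral_im i1
    have e2 := integral_im i2
    have e3 := Claimed.Agent.R260.gk_ibp hI j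
    simp only [hId] at e3
    calc (∫ G : EE n, ((G j : ℝ) : ℂ) * u G ∂stdGaussian (EE n)).im
        = ∫ G : EE n, G j * (u G).im ∂stdGaussian (EE n) := by
          rw [show (∫ G : EE n, ((G j : ℝ) : ℂ) * u G ∂stdGaussian (EE n)).im
            = RCLike.im (∫ G : EE n, ((G j : ℝ) : ℂ) * u G ∂stdGaussian (EE n)) from rfl, ← e1]
          refine integral_congr_ae (Filter.Eventually.of_forall fun G => ?_)
          simp
      _ = ∫ G : EE n, (fderiv ℝ u G (eb j)).im ∂stdGaussian (EE n) := e3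
      _ = _ := e2

end Claimed.Agent.R259
end
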