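/- Packed by merge_tool.py (helper293): 6 modules of Claimed.Agent.R259 in one file, same declarations.
   Old modules, in this order: DbDefs, DbSmooth, DbTower, DbApply, S7LawGEc, S7LawAlgA -/
import Claimed.Agent.R259.WS
import Claimed.Agent.R259.Pack007
import Claimed.Agent.R259.Pack003
import Claimed.Agent.R259.Pack036
import Claimed.Agent.R259.Pack020

/- ===== packed: Claimed.Agent.R259.DbDefs ===== -/
section
/-
Row 259, kit DB (discrete de Bruijn = bypass (G3) of memo 5738, replaces (2.heat-entropy) of the paper).  DEFINITIONS.  Owner: helper147.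
Heat channel of EntDefs.lean: `Y ∼ ν`, `U = Y + √h G`; `gconv ν h` = density of `U`, `hpost ν h g u = E[g(Y) | U = u]`,
`hpm ν h u = Law(Y | U = u)`.   EXPORTS (Db.lean): `db_contract`, `db_var_contract` (statements ordered by helper220, brief 6802).

ONE STEP (`ν = dm ρ`, `ρ` log-concave, `f ≥ 0` a density ratio, `F = hpost ν h f`, `ν_h = dm (gconv ν h)`):
 (a) `ent ν f = ent ν_h F + ∫ ent (hpm ν h u) f dν_h(u)`                                   [DbTower: `db_ent_split`]
 (b) `ent (hpm ν h u) f ≥ (h/2) |∇F(u)|² / F(u)`                                            [DbPost: `db_ent_post_ge`]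
     (Donsker-Varadhan with linear tests; `∫ e^{⟨v,x⟩} d(hpm ν h u) = e^{h|v|²/2 + ⟨v,u⟩} q_h(u + h v)/q_h(u)` EXACTLY, `q_h = gconv ν h` is
      log-concave, tangent inequality + Tweedie: NO Herbst argument; `∇F/F = (mean of f·post - mean of post)/h`)
 (c) `ent ν_h F ≤ (R/2) ∫ |∇F|²/F dν_h`  (LSI for `√F ∈ H¹(ν_h)`)                            [DbApply: `db_lsi_apply`]
 hence `(1 + h/R) ent ν_h F ≤ ent ν f`.
-/
set_option autoImplicit false

open MeasureTheory ProbabilityTheory
open scoped ENNReal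

namespace Claimed.Agent.R259

variable {E : Type} [NormedAddCommGroup E] [InnerProductSpace ℝ E] [FiniteDimensional ℝ E]
  [MeasurableSpace E] [BorelSpace E]

/-- numerator of the posterior mean: `∫ φ_h(u - x) g(x) dν(x)` -/
noncomputable def dbNum {F : Type} [NormedAddCommGroup F] [NormedSpace ℝ F] (ν : Measure E) (h : ℝ) (g : E → F) (u : E) : F :=
  ∫ x, gk h (u - x) • g x ∂ν

/-- generates the equation lemmas of the definitions above in this file (unique names) -/
theorem dbdefs_eqns_cite : True := by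
  have := @dbNum.eq_1
  trivial

end Claimed.Agent.R259
end

/- ===== packed: Claimed.Agent.R259.DbSmooth ===== -/
section
/-
Row 259, kit DB, leaf group SMOOTH: Gaussian smoothing of `L¹(ν)` data, `ν` an ARBITRARY probability measure on `E` (no support condition):
positivity, `C¹` regularity, Tweedie / covariance formula for the gradient.     Statements: helper147.   Mathlib + S3Defs/EntDefs/DbDefs.
Hints.  `gk h z` and `gk h z * ‖z‖` are bounded; `hasFDerivAt_integral_of_dominated_of_fderiv_le` with the bound `C ‖g x‖`;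
`∇_u gk h (u - x) = - h⁻¹ gk h (u - x) (u - x)`; continuity of the gradient by dominated convergence.
`db_gconv_spd`: all derivatives of `gk h` are bounded (or: `gconv ν h` = convolution; `ContDiff` by induction with `contDiff_succ_iff_fderiv`, or
`HasCompactSupport`-free version: `iteratedFDeriv` of a Gaussian is bounded since it is a Schwartz function).
-/
set_option autoImplicit false
set_option linter.unusedSectionVars false

open MeasureTheory ProbabilityTheory
open scoped ENNReal ContDiff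

namespace Claimed.Agent.R259

variable {E : Type} [NormedAddCommGroup E] [InnerProductSpace ℝ E] [FiniteDimensional ℝ E]
  [MeasurableSpace E] [BorelSpace E]

variable {ν : Measure E} [IsProbabilityMeasure ν] {h : ℝ}

theorem db_gk_pos (hh : 0 < h) (z : E) : 0 < gk h z := gc_gk_pos hh z

theorem db_gk_le (hh : 0 < h) (z : E) : gk h z ≤ gk h (0 : E) := by
  have h1 := gck_le hh z
  have h2 : gk h (0 : E) = (2 * Real.pi * h) ^ (-(Module.finrank ℝ E : ℝ) / 2) := by
    unfold gk
    simp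
  rw [h2]
  exact h1

/-- the Gaussian kills every polynomial weight -/
theorem dbs_gk_pow_le (hh : 0 < h) (k : ℕ) : ∃ C : ℝ, 0 ≤ C ∧ ∀ z : E, gk h z * (1 + ‖z‖) ^ k ≤ C := by
  set c : ℝ := (2 * Real.pi * h) ^ (-(Module.finrank ℝ E : ℝ) / 2) with hc
  have hc0 : 0 < c := Real.rpow_pos_of_pos (by positivity) _
  refine ⟨c * (k.factorial * Real.exp (1 + h / 2)), by positivity, fun z => ?_⟩
  have h1 : (1 + ‖z‖) ^ k ≤ k.factorial * Real.exp (1 + ‖z‖) := by
    have := Real.pow_div_factorial_le_exp (1 + ‖z‖) (by positivity) k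
    rwa [div_le_iff₀' (by positivity)] at this
  have h2 : -‖z‖ ^ 2 / (2 * h) + (1 + ‖z‖) ≤ 1 + h / 2 := by
    have h3 : 0 ≤ (‖z‖ - h) ^ 2 / (2 * h) := by positivity
    have h4 : (‖z‖ - h) ^ 2 / (2 * h) = ‖z‖ ^ 2 / (2 * h) - ‖z‖ + h / 2 := by
      field_simp
      ring
    rw [neg_div]
    linarith
  calc gk h z * (1 + ‖z‖) ^ k = c * (Real.exp (-‖z‖ ^ 2 / (2 * h)) * (1 + ‖z‖) ^ k) := by
        unfold gk; ring
    _ ≤ c * (Real.exp (-‖z‖ ^ 2 / (2 * h)) * (k.factorial * Real.exp (1 + ‖z‖))) := by gcongr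
    _ = c * (k.factorial * Real.exp (-‖z‖ ^ 2 / (2 * h) + (1 + ‖z‖))) := by
        rw [Real.exp_add (-‖z‖ ^ 2 / (2 * h))]; ring
    _ ≤ c * (k.factorial * Real.exp (1 + h / 2)) := by gcongr

theorem db_gk_norm_le (hh : 0 < h) : ∃ C : ℝ, ∀ z : E, gk h z * ‖z‖ ≤ C := by
  obtain ⟨C, -, hC⟩ := dbs_gk_pow_le (E := E) hh 1
  refine ⟨C, fun z => le_trans ?_ (hC z)⟩
  rw [pow_one]
  exact mul_le_mul_of_nonneg_left (by linarith) (db_gk_pos hh z).le

theorem db_gk_continuous (hh : 0 < h) : Continuous (gk h : E → ℝ) := gck_continuous h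

theorem dbs_gk_sub_continuous (h : ℝ) (u : E) : Continuous fun x : E => gk h (u - x) :=
  (gck_continuous h).comp (continuous_const.sub continuous_id)

section vec

variable {F : Type} [NormedAddCommGroup F] [NormedSpace ℝ F]

theorem dbs_norm_num_le (hh : 0 < h) (g : E → F) (u x : E) : ‖gk h (u - x) • g x‖ ≤ gk h (0 : E) * ‖g x‖ := by
  rw [norm_smul, Real.norm_eq_abs, abs_of_pos (db_gk_pos hh _)]
  exact mul_le_mul_of_nonneg_right (db_gk_le hh _) (norm_nonneg _)

theorem db_num_integrable (hh : 0 < h) {g : E → F} (hg : Integrable g ν) (u : E) :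
    Integrable (fun x => gk h (u - x) • g x) ν :=
  (hg.norm.const_mul (gk h (0 : E))).mono'
    ((dbs_gk_sub_continuous h u).aestronglyMeasurable.smul hg.aestronglyMeasurable)
    (Filter.Eventually.of_forall fun x => dbs_norm_num_le hh g u x)

theorem dbs_norm_num_id_le (hh : 0 < h) : ∃ C : ℝ, ∀ (g : E → ℝ) (u x : E),
    ‖gk h (u - x) • (g x • x)‖ ≤ (C + gk h (0 : E) * ‖u‖) * ‖g x‖ := by
  obtain ⟨C, hC⟩ := db_gk_norm_le (E := E) hh
  refine ⟨C, fun g u x => ?_⟩
  rw [norm_smul, norm_smul, Real.norm_eq_abs, abs_of_pos (db_gk_pos hh _)]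
  have h1 : ‖x‖ ≤ ‖u - x‖ + ‖u‖ := by
    have := norm_sub_le u (u - x)
    simpa [add_comm] using this
  have h2 : gk h (u - x) * ‖x‖ ≤ C + gk h (0 : E) * ‖u‖ := by
    calc gk h (u - x) * ‖x‖ ≤ gk h (u - x) * (‖u - x‖ + ‖u‖) :=
          mul_le_mul_of_nonneg_left h1 (db_gk_pos hh _).le
      _ = gk h (u - x) * ‖u - x‖ + gk h (u - x) * ‖u‖ := by ring
      _ ≤ C + gk h (0 : E) * ‖u‖ :=
          add_le_add (hC _) (mul_le_mul_of_nonneg_right (db_gk_le hh _) (norm_nonneg _))
  calc gk h (u - x) * (‖g x‖ * ‖x‖) = (gk h (u - x) * ‖x‖) * ‖g x‖ := by ring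
    _ ≤ _ := mul_le_mul_of_nonneg_right h2 (norm_nonneg _)

/-- one more factor `x` is harmless -/
theorem db_num_integrable_id (hh : 0 < h) {g : E → ℝ} (hg : Integrable g ν) (u : E) :
    Integrable (fun x => gk h (u - x) • (g x • x)) ν := by
  obtain ⟨C, hC⟩ := dbs_norm_num_id_le (E := E) hh
  exact (hg.norm.const_mul (C + gk h (0 : E) * ‖u‖)).mono'
    ((dbs_gk_sub_continuous h u).aestronglyMeasurable.smul
      (hg.aestronglyMeasurable.smul aestronglyMeasurable_id))
    (Filter.Eventually.of_forall fun x => hC g u x)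

theorem db_num_continuous (hh : 0 < h) {g : E → F} (hg : Integrable g ν) : Continuous (dbNum ν h g) := by
  unfold dbNum
  refine continuous_of_dominated (bound := fun x => gk h (0 : E) * ‖g x‖)
    (fun u => (dbs_gk_sub_continuous h u).aestronglyMeasurable.smul hg.aestronglyMeasurable)
    (fun u => Filter.Eventually.of_forall fun x => dbs_norm_num_le hh g u x)
    (hg.norm.const_mul _) (Filter.Eventually.of_forall fun x => ?_)
  exact ((gck_continuous h).comp (continuous_id.sub continuous_const)).smul continuous_const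

theorem db_num_id_continuous (hh : 0 < h) {g : E → ℝ} (hg : Integrable g ν) :
    Continuous (dbNum ν h fun x => g x • x) := by
  obtain ⟨C, hC⟩ := dbs_norm_num_id_le (E := E) hh
  rw [continuous_iff_continuousAt]
  intro u0
  unfold dbNum
  refine continuousAt_of_dominated (bound := fun x => (C + gk h (0 : E) * (‖u0‖ + 1)) * ‖g x‖)
    (Filter.Eventually.of_forall fun u => (dbs_gk_sub_continuous h u).aestronglyMeasurable.smul
      (hg.aestronglyMeasurable.smul aestronglyMeasurable_id)) ?_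
    (hg.norm.const_mul _) (Filter.Eventually.of_forall fun x => ?_)
  · filter_upwards [Metric.ball_mem_nhds u0 one_pos] with u hu
    refine Filter.Eventually.of_forall fun x => (hC g u x).trans ?_
    refine mul_le_mul_of_nonneg_right ?_ (norm_nonneg _)
    have h1 : ‖u‖ ≤ ‖u0‖ + 1 := by
      have h2 : ‖u - u0‖ < 1 := by simpa [dist_eq_norm] using hu
      have h3 := norm_sub_norm_le u u0
      linarith
    have := mul_le_mul_of_nonneg_left h1 (db_gk_pos (E := E) hh 0).le
    linarith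
  · exact (((gck_continuous h).comp (continuous_id.sub continuous_const)).smul continuous_const).continuousAt

end vec

theorem db_gconv_eq (u : E) : gconv ν h u = dbNum ν h (fun _ => (1 : ℝ)) u := by
  simp [gconv, dbNum]

theorem db_gconv_pos (hh : 0 < h) (u : E) : 0 < gconv ν h u := by
  unfold gconv
  rw [integral_pos_iff_support_of_nonneg (fun x => (db_gk_pos hh _).le) (gck_gconv_integrable hh u)]
  have : Function.support (fun x => gk h (u - x)) = Set.univ := by
    ext x
    simp [(db_gk_pos hh (u - x)).ne']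
  rw [this]
  simp

theorem db_hpost_pos (hh : 0 < h) {f : E → ℝ} (hf0 : ∀ x, 0 ≤ f x) (hf : Integrable f ν) (hpos : 0 < ∫ x, f x ∂ν)
    (u : E) : 0 < hpost ν h f u := by
  unfold hpost
  rw [smul_eq_mul]
  refine mul_pos (inv_pos.2 (db_gconv_pos hh u)) ?_
  rw [integral_pos_iff_support_of_nonneg (fun x => smul_nonneg (db_gk_pos hh _).le (hf0 x))
    (db_num_integrable hh hf u)]
  rw [integral_pos_iff_support_of_nonneg hf0 hf] at hpos
  have : Function.support (fun x => gk h (u - x) • f x) = Function.support f := by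
    ext x
    simp [(db_gk_pos hh (u - x)).ne']
  rw [this]
  exact hpos

/-! ### differentiation under the integral sign: Gaussian times a field of temperate growth -/

section smooth

variable {G : Type} [NormedAddCommGroup G] [NormedSpace ℝ G]

/-- Gaussian times a field -/
noncomputable def dbsW (h : ℝ) (T : E → G) (z : E) : G := gk h z • T z

/-- the field of the derivative of `dbsW h T` -/
noncomputable def dbsD (h : ℝ) (T : E → G) (z : E) : E →L[ℝ] G :=
  fderiv ℝ T z - h⁻¹ • (innerSL ℝ z).smulRight (T z)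

/-- generates the equation lemmas of the definitions above in this file (unique names) -/
theorem dbsmooth_eqns_cite : True := by
  have := @dbsW.eq_1
  have := @dbsD.eq_1
  trivial

theorem dbs_temperate_fderiv {T : E → G} (hT : T.HasTemperateGrowth) : (fderiv ℝ T).HasTemperateGrowth := by
  refine ⟨hT.1.fderiv_right (m := ∞) (by simp), fun n => ?_⟩
  obtain ⟨k, C, hC⟩ := hT.2 (n + 1)
  exact ⟨k, C, fun x => by rw [norm_iteratedFDeriv_fderiv]; exact hC x⟩

theorem dbs_temperate_D (h : ℝ) {T : E → G} (hT : T.HasTemperateGrowth) : (dbsD h T).HasTemperateGrowth := by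
  have hB := (ContinuousLinearMap.smulRightL ℝ E G).bilinear_hasTemperateGrowth
    (f := fun z : E => innerSL ℝ z) (g := T) (innerSL ℝ).hasTemperateGrowth hT
  have hc : (fun _ : E => h⁻¹).HasTemperateGrowth := Function.HasTemperateGrowth.const _
  exact (dbs_temperate_fderiv hT).sub (hc.smul hB)

theorem dbs_W_bdd (hh : 0 < h) {T : E → G} (hT : T.HasTemperateGrowth) : ∃ C : ℝ, ∀ z, ‖dbsW h T z‖ ≤ C := by
  obtain ⟨k, C, hC⟩ := hT.2 0
  obtain ⟨C', hC'0, hC'⟩ := dbs_gk_pow_le (E := E) hh k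
  refine ⟨|C| * C', fun z => ?_⟩
  have h1 : ‖T z‖ ≤ |C| * (1 + ‖z‖) ^ k := by
    have := hC z
    rw [norm_iteratedFDeriv_zero] at this
    exact this.trans (mul_le_mul_of_nonneg_right (le_abs_self C) (by positivity))
  unfold dbsW
  rw [norm_smul, Real.norm_eq_abs, abs_of_pos (db_gk_pos hh _)]
  calc gk h z * ‖T z‖ ≤ gk h z * (|C| * (1 + ‖z‖) ^ k) := mul_le_mul_of_nonneg_left h1 (db_gk_pos hh _).le
    _ = |C| * (gk h z * (1 + ‖z‖) ^ k) := by ring
    _ ≤ |C| * C' := mul_le_mul_of_nonneg_left (hC' z) (abs_nonneg _)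

theorem dbs_gk_hasFDerivAt (h : ℝ) (z : E) : HasFDerivAt (gk h : E → ℝ) ((-(h⁻¹ * gk h z)) • innerSL ℝ z) z := by
  have h1 : HasFDerivAt (fun z : E => ‖z‖ ^ 2) (2 • innerSL ℝ z) z := (hasStrictFDerivAt_norm_sq z).hasFDerivAt
  have h2 : HasFDerivAt (fun z : E => -‖z‖ ^ 2 / (2 * h)) ((-(2 * h)⁻¹) • (2 • innerSL ℝ z)) z := by
    have := h1.const_mul (-(2 * h)⁻¹)
    refine this.congr_of_eventuallyEq (Filter.Eventually.of_forall fun w => ?_)
    simp only [div_eq_mul_inv]
    ring
  have h3 := (h2.exp).const_mul ((2 * Real.pi * h) ^ (-(Module.finrank ℝ E : ℝ) / 2))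
  have e : (-(h⁻¹ * gk h z)) • innerSL ℝ z = (2 * Real.pi * h) ^ (-(Module.finrank ℝ E : ℝ) / 2) •
      Real.exp (-‖z‖ ^ 2 / (2 * h)) • (-(2 * h)⁻¹) • (2 • innerSL ℝ z) := by
    have e2 : (2 : ℕ) • innerSL ℝ z = (2 : ℝ) • innerSL ℝ z := by rw [two_nsmul, two_smul]
    rw [e2, smul_smul, smul_smul, smul_smul]
    congr 1
    unfold gk
    ring
  rw [e]
  exact h3

theorem dbs_W_hasFDerivAt (h : ℝ) {T : E → G} (hT : Differentiable ℝ T) (z : E) :
    HasFDerivAt (dbsW h T) (dbsW h (dbsD h T) z) z := by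
  have h1 := (dbs_gk_hasFDerivAt h z).smul (hT z).hasFDerivAt
  have e : dbsW h (dbsD h T) z =
      gk h z • fderiv ℝ T z + ((-(h⁻¹ * gk h z)) • innerSL ℝ z).smulRight (T z) := by
    unfold dbsW dbsD
    ext v
    simp only [ContinuousLinearMap.smul_apply, ContinuousLinearMap.sub_apply, ContinuousLinearMap.add_apply,
      ContinuousLinearMap.smulRight_apply, smul_sub, smul_smul, smul_eq_mul]
    rw [sub_eq_add_neg, ← neg_smul]
    congr 2
    ring
  rw [e]
  exact h1

theorem dbs_W_continuous (h : ℝ) {T : E → G} (hT : Continuous T) : Continuous (dbsW h T) :=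
  (gck_continuous h).smul hT

theorem dbs_integrable (μ : Measure E) (hh : 0 < h) {g : E → ℝ} (hg : Integrable g μ) {T : E → G}
    (hT : T.HasTemperateGrowth) (y : E) : Integrable (fun x => g x • dbsW h T (y - x)) μ := by
  obtain ⟨C, hC⟩ := dbs_W_bdd hh hT
  refine (hg.norm.const_mul C).mono' (hg.aestronglyMeasurable.smul
    ((dbs_W_continuous h hT.1.continuous).comp (continuous_const.sub continuous_id)).aestronglyMeasurable)
    (Filter.Eventually.of_forall fun x => ?_)
  rw [norm_smul, mul_comm]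
  exact mul_le_mul_of_nonneg_right (hC _) (norm_nonneg _)

/-- differentiation under the integral sign -/
theorem dbs_hasFDerivAt_integral (μ : Measure E) (hh : 0 < h) {g : E → ℝ} (hg : Integrable g μ) {T : E → G}
    (hT : T.HasTemperateGrowth) (y : E) :
    HasFDerivAt (fun y => ∫ x, g x • dbsW h T (y - x) ∂μ) (∫ x, g x • dbsW h (dbsD h T) (y - x) ∂μ) y := by
  obtain ⟨C, hC⟩ := dbs_W_bdd hh hT
  have hT' := dbs_temperate_D h hT
  obtain ⟨C', hC'⟩ := dbs_W_bdd hh hT'
  have m1 : ∀ y, AEStronglyMeasurable (fun x => g x • dbsW h T (y - x)) μ := fun y =>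
    hg.aestronglyMeasurable.smul
      ((dbs_W_continuous h hT.1.continuous).comp (continuous_const.sub continuous_id)).aestronglyMeasurable
  have m2 : ∀ y, AEStronglyMeasurable (fun x => g x • dbsW h (dbsD h T) (y - x)) μ := fun y =>
    hg.aestronglyMeasurable.smul
      ((dbs_W_continuous h hT'.1.continuous).comp (continuous_const.sub continuous_id)).aestronglyMeasurable
  refine hasFDerivAt_integral_of_dominated_of_fderiv_le (s := Set.univ) (bound := fun x => C' * ‖g x‖)
    (F := fun y x => g x • dbsW h T (y - x)) (F' := fun y x => g x • dbsW h (dbsD h T) (y - x))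
    Filter.univ_mem (Filter.Eventually.of_forall m1) ?_ (m2 y) ?_ (hg.norm.const_mul _) ?_
  · refine (hg.norm.const_mul C).mono' (m1 y) (Filter.Eventually.of_forall fun x => ?_)
    rw [norm_smul, mul_comm]
    exact mul_le_mul_of_nonneg_right (hC _) (norm_nonneg _)
  · refine Filter.Eventually.of_forall fun x y _ => ?_
    rw [norm_smul, mul_comm]
    exact mul_le_mul_of_nonneg_right (hC' _) (norm_nonneg _)
  · refine Filter.Eventually.of_forall fun x y _ => ?_
    have h1 := dbs_W_hasFDerivAt h (hT.1.differentiable (by simp)) (y - x)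
    have h2 : HasFDerivAt (fun y : E => y - x) (ContinuousLinearMap.id ℝ E) y := (hasFDerivAt_id y).sub_const x
    have h3 := (h1.comp y h2).const_smul (g x)
    rw [ContinuousLinearMap.comp_id] at h3
    exact h3

theorem dbs_contDiff_nat (μ : Measure E) (hh : 0 < h) {g : E → ℝ} (hg : Integrable g μ) (n : ℕ) :
    ∀ (G : Type) [NormedAddCommGroup G] [NormedSpace ℝ G] (T : E → G), T.HasTemperateGrowth →
      ContDiff ℝ n (fun y => ∫ x, g x • dbsW h T (y - x) ∂μ) := by
  induction n with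
  | zero =>
    intro G _ _ T hT
    rw [Nat.cast_zero, contDiff_zero]
    exact continuous_iff_continuousAt.2 fun y => (dbs_hasFDerivAt_integral μ hh hg hT y).continuousAt
  | succ n ih =>
    intro G _ _ T hT
    rw [Nat.cast_succ, contDiff_succ_iff_fderiv]
    refine ⟨fun y => (dbs_hasFDerivAt_integral μ hh hg hT y).differentiableAt, by simp, ?_⟩
    have e : fderiv ℝ (fun y => ∫ x, g x • dbsW h T (y - x) ∂μ) =
        fun y => ∫ x, g x • dbsW h (dbsD h T) (y - x) ∂μ :=
      funext fun y => (dbs_hasFDerivAt_integral μ hh hg hT y).fderiv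
    rw [e]
    exact ih _ _ (dbs_temperate_D h hT)

theorem dbs_contDiff (μ : Measure E) (hh : 0 < h) {g : E → ℝ} (hg : Integrable g μ) {T : E → G}
    (hT : T.HasTemperateGrowth) : ContDiff ℝ ∞ (fun y => ∫ x, g x • dbsW h T (y - x) ∂μ) :=
  contDiff_infty.2 fun n => dbs_contDiff_nat μ hh hg n G T hT

end smooth

theorem dbs_num_eq (g : E → ℝ) :
    dbNum ν h g = fun y => ∫ x, g x • dbsW h (fun _ => (1 : ℝ)) (y - x) ∂ν := by
  funext y
  unfold dbNum dbsW
  refine integral_congr_ae (Filter.Eventually.of_forall fun x => ?_)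
  simp only [smul_eq_mul, mul_one]
  ring

theorem db_num_contDiff_top (hh : 0 < h) {g : E → ℝ} (hg : Integrable g ν) : ContDiff ℝ ∞ (dbNum ν h g) := by
  rw [dbs_num_eq]
  exact dbs_contDiff ν hh hg (Function.HasTemperateGrowth.const _)

/-- `gconv` of an arbitrary probability measure is a smooth positive probability density -/
theorem db_gconv_spd (hh : 0 < h) : SPD (gconv ν h) := by
  refine ⟨?_, db_gconv_pos hh, ?_⟩
  · have e : gconv ν h = dbNum ν h (fun _ => (1 : ℝ)) := funext db_gconv_eq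
    rw [e]
    exact db_num_contDiff_top hh (integrable_const _)
  · have hp := (gc_isProb (μ := ν) hh).measure_univ
    unfold dm at hp
    rw [withDensity_apply _ MeasurableSet.univ, Measure.restrict_univ] at hp
    rw [integral_eq_lintegral_of_nonneg_ae (Filter.Eventually.of_forall fun u => (db_gconv_pos hh u).le)
      (gck_gconv_measurable h).aestronglyMeasurable, hp]
    rfl

theorem db_num_hasGradientAt (hh : 0 < h) {g : E → ℝ} (hg : Integrable g ν) (u : E) :
    HasGradientAt (dbNum ν h g) (h⁻¹ • (dbNum ν h (fun x => g x • x) u - dbNum ν h g u • u)) u := by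
  rw [hasGradientAt_iff_hasFDerivAt]
  have hT : (fun _ : E => (1 : ℝ)).HasTemperateGrowth := Function.HasTemperateGrowth.const _
  have h1 := dbs_hasFDerivAt_integral ν hh hg hT u
  rw [← dbs_num_eq] at h1
  have e : ∫ x, g x • dbsW h (dbsD h fun _ : E => (1 : ℝ)) (u - x) ∂ν =
      InnerProductSpace.toDual ℝ E (h⁻¹ • (dbNum ν h (fun x => g x • x) u - dbNum ν h g u • u)) := by
    ext v
    rw [ContinuousLinearMap.integral_apply (dbs_integrable ν hh hg (dbs_temperate_D h hT) u),
      InnerProductSpace.toDual_apply_apply, real_inner_comm, inner_smul_right, inner_sub_right, inner_smul_right]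
    unfold dbNum
    rw [← integral_inner (db_num_integrable_id hh hg u), ← integral_mul_const,
      ← integral_sub ((db_num_integrable_id hh hg u).const_inner v) ((db_num_integrable hh hg u).mul_const _),
      ← integral_const_mul]
    refine integral_congr_ae (Filter.Eventually.of_forall fun x => ?_)
    simp only [dbsW, dbsD, fderiv_fun_const, Pi.zero_apply, zero_sub, FunLike.coe_smul, Pi.smul_apply,
      FunLike.coe_neg, Pi.neg_apply, ContinuousLinearMap.smulRight_apply, innerSL_apply_apply, smul_eq_mul,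
      inner_smul_right, inner_sub_left, mul_one]
    rw [real_inner_comm v u, real_inner_comm v x]
    ring
  rw [← e]
  exact h1

theorem db_num_contDiff (hh : 0 < h) {g : E → ℝ} (hg : Integrable g ν) : ContDiff ℝ 1 (dbNum ν h g) :=
  (db_num_contDiff_top hh hg).of_le (by simp)

theorem db_hpost_eq {F : Type} [NormedAddCommGroup F] [NormedSpace ℝ F] (g : E → F) (u : E) :
    hpost ν h g u = (gconv ν h u)⁻¹ • dbNum ν h g u := rfl

theorem db_hpost_contDiff (hh : 0 < h) {g : E → ℝ} (hg : Integrable g ν) : ContDiff ℝ 1 (hpost ν h g) := by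
  have h1 : ContDiff ℝ 1 (gconv ν h) := (db_gconv_spd hh).1.of_le (by simp)
  exact (h1.inv fun u => (db_gconv_pos hh u).ne').smul (db_num_contDiff hh hg)

theorem dbs_gconv_hasGradientAt (hh : 0 < h) (u : E) :
    HasGradientAt (gconv ν h) (h⁻¹ • (dbNum ν h (fun x => x) u - gconv ν h u • u)) u := by
  have h1 := db_num_hasGradientAt (ν := ν) hh (g := fun _ => (1 : ℝ)) (integrable_const _) u
  have e : gconv ν h = dbNum ν h (fun _ => (1 : ℝ)) := funext db_gconv_eq
  simp only [one_smul] at h1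
  rw [e]
  exact h1

theorem dbs_hpost_hasGradientAt (hh : 0 < h) {g : E → ℝ} (hg : Integrable g ν) (u : E) :
    HasGradientAt (hpost ν h g)
      (h⁻¹ • (hpost ν h (fun x => g x • x) u - hpost ν h g u • hpost ν h (fun x => x) u)) u := by
  have hq0 := (db_gconv_pos (ν := ν) hh u).ne'
  have hq := (dbs_gconv_hasGradientAt (ν := ν) hh u).hasFDerivAt
  have hN := (db_num_hasGradientAt hh hg u).hasFDerivAt
  have hi := (hasDerivAt_inv hq0).comp_hasFDerivAt u hq
  have hm := hi.mul hN
  rw [hasGradientAt_iff_hasFDerivAt]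
  have e : InnerProductSpace.toDual ℝ E
      (h⁻¹ • (hpost ν h (fun x => g x • x) u - hpost ν h g u • hpost ν h (fun x => x) u)) =
      ((fun x => x⁻¹) ∘ gconv ν h) u • InnerProductSpace.toDual ℝ E
          (h⁻¹ • (dbNum ν h (fun x => g x • x) u - dbNum ν h g u • u)) +
        dbNum ν h g u • (-(gconv ν h u ^ 2)⁻¹ • InnerProductSpace.toDual ℝ E
          (h⁻¹ • (dbNum ν h (fun x => x) u - gconv ν h u • u))) := by
    rw [← map_smul, ← map_smul, ← map_smul, ← map_add]
    congr 1
    simp only [db_hpost_eq, Function.comp, smul_eq_mul]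
    match_scalars <;> field_simp <;> ring
  rw [e]
  exact hm

/-- covariance formula `∇ E[g | U = u] = Cov(g, Y | U = u) / h` -/
theorem db_hpost_gradient (hh : 0 < h) {g : E → ℝ} (hg : Integrable g ν) (u : E) :
    gradient (hpost ν h g) u =
      h⁻¹ • (hpost ν h (fun x => g x • x) u - hpost ν h g u • hpost ν h (fun x => x) u) :=
  (dbs_hpost_hasGradientAt hh hg u).gradient

theorem db_hpost_gradient_continuous (hh : 0 < h) {g : E → ℝ} (hg : Integrable g ν) :
    Continuous (gradient (hpost ν h g)) := by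
  have e : gradient (hpost ν h g) = fun u =>
      h⁻¹ • (hpost ν h (fun x => g x • x) u - hpost ν h g u • hpost ν h (fun x => x) u) :=
    funext fun u => db_hpost_gradient hh hg u
  rw [e]
  have hq : Continuous fun u => (gconv ν h u)⁻¹ :=
    (db_gconv_spd hh).1.continuous.inv₀ fun u => (db_gconv_pos hh u).ne'
  have c1 : Continuous (hpost ν h fun x => g x • x) := hq.smul (db_num_id_continuous hh hg)
  have c2 : Continuous (hpost ν h g) := hq.smul (db_num_continuous hh hg)
  have c3 : Continuous (hpost ν h fun x : E => x) := by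
    have := db_num_id_continuous (ν := ν) hh (g := fun _ => (1 : ℝ)) (integrable_const _)
    simp only [one_smul] at this
    exact hq.smul this
  exact (c1.sub (c2.smul c3)).const_smul _

/-- Tweedie: `∇ log q_h (u) = (E[Y | U = u] - u) / h` -/
theorem db_gconv_gradient_log (hh : 0 < h) (u : E) :
    gradient (fun y => Real.log (gconv ν h y)) u = h⁻¹ • (hpost ν h (fun x => x) u - u) := by
  have hq0 := (db_gconv_pos (ν := ν) hh u).ne'
  have hq := (dbs_gconv_hasGradientAt (ν := ν) hh u).hasFDerivAt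
  have hl := hq.log hq0
  rw [← map_smul] at hl
  have hg := (hasGradientAt_iff_hasFDerivAt.2 hl).gradient
  rw [hg, db_hpost_eq]
  match_scalars <;> field_simp

end Claimed.Agent.R259
end

/- ===== packed: Claimed.Agent.R259.DbTower ===== -/
section
/-
Row 259, kit DB, leaf group TOWER: the posterior laws `hpm ν h u`, disintegration of the joint law of `(Y, U)`, decomposition of entropy and variance,
tower property.     Statements: helper147.    Inputs: DbSmooth.lean (black box), `gc_semigroup` (GcKernel.lean).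
Hints.  `∫ Φ(u) d(dm (gconv ν h)) = ∫ Φ(u) gconv ν h u du` (`integral_withDensity_eq_integral_smul`), Fubini on `ν ⊗ volume` with the kernel
`gk h (u - x)`, `∫ gk h (u - x) du = 1` (`gc_gk_integral`, translation invariance).
`db_ent_split`: `ent (hpm ν h u) f = hpost (f log f) u - F u log F u`; `-1/e ≤ F log F ≤ hpost (f log f)` (Jensen, `Real.convexOn_mul_log`).
-/
set_option autoImplicit false
set_option linter.unusedSectionVars false

open MeasureTheory ProbabilityTheory
open scoped ENNReal ContDiff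

namespace Claimed.Agent.R259

variable {E : Type} [NormedAddCommGroup E] [InnerProductSpace ℝ E] [FiniteDimensional ℝ E]
  [MeasurableSpace E] [BorelSpace E]

variable {ν : Measure E} [IsProbabilityMeasure ν] {h : ℝ}

section vec

variable {F : Type} [NormedAddCommGroup F] [NormedSpace ℝ F]

/-! ### auxiliary facts -/

theorem dbt_gk_meas (hh : 0 < h) (u : E) : Measurable fun x : E => gk h (u - x) :=
  ((db_gk_continuous hh).comp (continuous_const.sub continuous_id)).measurable

theorem dbt_gk_integrable (hh : 0 < h) (u : E) : Integrable (fun x => gk h (u - x)) ν := by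
  have := db_num_integrable (ν := ν) hh (g := fun _ => (1 : ℝ)) (integrable_const _) u
  simpa using this

theorem dbt_dens_nonneg (hh : 0 < h) (u x : E) : 0 ≤ (gconv ν h u)⁻¹ * gk h (u - x) :=
  mul_nonneg (inv_nonneg.2 (db_gconv_pos hh u).le) (db_gk_pos hh _).le

theorem dbt_dens_meas (hh : 0 < h) (u : E) :
    Measurable fun x : E => Real.toNNReal ((gconv ν h u)⁻¹ * gk h (u - x)) :=
  ((dbt_gk_meas hh u).const_mul _).real_toNNReal

theorem dbt_hpm_eq (u : E) : hpm ν h u =
    ν.withDensity (fun x => ((Real.toNNReal ((gconv ν h u)⁻¹ * gk h (u - x)) : NNReal) : ℝ≥0∞)) := rfl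

theorem dbt_dm_eq (ρ : E → ℝ) : dm ρ =
    volume.withDensity (fun x => ((Real.toNNReal (ρ x) : NNReal) : ℝ≥0∞)) := rfl

theorem dbt_dm_integral {ρ : E → ℝ} (hρ : Measurable ρ) (h0 : ∀ x, 0 ≤ ρ x) (Φ : E → F) :
    ∫ u, Φ u ∂(dm ρ) = ∫ u, ρ u • Φ u := by
  rw [dbt_dm_eq, integral_withDensity_eq_integral_smul hρ.real_toNNReal]
  refine integral_congr_ae (Filter.Eventually.of_forall fun x => ?_)
  simp only [NNReal.smul_def, Real.coe_toNNReal _ (h0 x)]

theorem dbt_dm_integrable_iff {ρ : E → ℝ} (hρ : Measurable ρ) (h0 : ∀ x, 0 ≤ ρ x) (Φ : E → F) :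
    Integrable Φ (dm ρ) ↔ Integrable (fun u => ρ u • Φ u) volume := by
  rw [dbt_dm_eq, integrable_withDensity_iff_integrable_smul hρ.real_toNNReal]
  refine integrable_congr (Filter.Eventually.of_forall fun x => ?_)
  simp only [NNReal.smul_def, Real.coe_toNNReal _ (h0 x)]

theorem dbt_gconv_continuous (hh : 0 < h) : Continuous (gconv ν h) := (db_gconv_spd hh).1.continuous

theorem dbt_gconv_smul_hpost (hh : 0 < h) (g : E → F) (u : E) :
    gconv ν h u • hpost ν h g u = dbNum ν h g u := by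
  rw [db_hpost_eq, smul_smul, mul_inv_cancel₀ (db_gconv_pos hh u).ne', one_smul]

theorem dbt_gk_integrable_vol (hh : 0 < h) : Integrable (gk h : E → ℝ) volume := by
  by_contra hn
  have h1 := integral_undef hn
  rw [gc_gk_integral hh] at h1
  exact one_ne_zero h1

theorem dbt_gk_integral_sub (hh : 0 < h) (x : E) : ∫ u, gk h (u - x) = 1 := by
  rw [integral_sub_right_eq_self (fun z => gk h z) x, gc_gk_integral hh]

theorem dbt_prod_integrable (hh : 0 < h) {g : E → F} (hg : Integrable g ν) :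
    Integrable (fun p : E × E => gk h (p.2 - p.1) • g p.1) (ν.prod volume) := by
  have hm : AEStronglyMeasurable (fun p : E × E => gk h (p.2 - p.1) • g p.1) (ν.prod volume) :=
    ((db_gk_continuous hh).comp (continuous_snd.sub continuous_fst)).aestronglyMeasurable.smul
      hg.aestronglyMeasurable.comp_fst
  rw [integrable_prod_iff hm]
  refine ⟨Filter.Eventually.of_forall fun x => ?_, ?_⟩
  · exact ((dbt_gk_integrable_vol hh).comp_sub_right x).smul_const (g x)
  · have e : (fun x => ∫ u, ‖gk h (u - x) • g x‖) = fun x => ‖g x‖ := by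
      funext x
      simp only [norm_smul, Real.norm_eq_abs, abs_of_pos (db_gk_pos hh _)]
      rw [integral_mul_const, dbt_gk_integral_sub hh, one_mul]
    rw [e]
    exact hg.norm

/-! ### the statements -/

theorem db_hpm_prob (hh : 0 < h) (u : E) : IsProbabilityMeasure (hpm ν h u) := by
  constructor
  rw [hpm, withDensity_apply _ MeasurableSet.univ, Measure.restrict_univ,
    ← ofReal_integral_eq_lintegral_ofReal ((dbt_gk_integrable hh u).const_mul _)
      (Filter.Eventually.of_forall fun x => dbt_dens_nonneg hh u x), integral_const_mul]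
  show ENNReal.ofReal ((gconv ν h u)⁻¹ * gconv ν h u) = 1
  rw [inv_mul_cancel₀ (db_gconv_pos hh u).ne', ENNReal.ofReal_one]

theorem db_hpm_integral (hh : 0 < h) (u : E) (g : E → F) : ∫ x, g x ∂(hpm ν h u) = hpost ν h g u := by
  rw [dbt_hpm_eq, integral_withDensity_eq_integral_smul (dbt_dens_meas hh u)]
  have e : ∀ x, Real.toNNReal ((gconv ν h u)⁻¹ * gk h (u - x)) • g x =
      (gconv ν h u)⁻¹ • (gk h (u - x) • g x) := fun x => by
    rw [NNReal.smul_def, Real.coe_toNNReal _ (dbt_dens_nonneg hh u x), mul_smul]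
  simp only [e]
  rw [integral_smul]
  rfl

theorem db_hpm_integrable_iff (hh : 0 < h) (u : E) (g : E → F) :
    Integrable g (hpm ν h u) ↔ Integrable (fun x => gk h (u - x) • g x) ν := by
  rw [dbt_hpm_eq, integrable_withDensity_iff_integrable_smul (dbt_dens_meas hh u)]
  have e : (fun x => Real.toNNReal ((gconv ν h u)⁻¹ * gk h (u - x)) • g x) =
      (gconv ν h u)⁻¹ • (fun x => gk h (u - x) • g x) := by
    funext x
    rw [Pi.smul_apply, NNReal.smul_def, Real.coe_toNNReal _ (dbt_dens_nonneg hh u x), mul_smul]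
  rw [e, integrable_smul_iff (inv_ne_zero (db_gconv_pos hh u).ne')]

theorem db_hpm_integrable (hh : 0 < h) (u : E) {g : E → F} (hg : Integrable g ν) : Integrable g (hpm ν h u) :=
  (db_hpm_integrable_iff hh u g).2 (db_num_integrable hh hg u)

/-- all moments of the posterior are finite as soon as the weight is integrable -/
theorem db_hpm_integrable_id (hh : 0 < h) (u : E) {g : E → ℝ} (hg : Integrable g ν) :
    Integrable (fun x => g x • x) (hpm ν h u) :=
  (db_hpm_integrable_iff hh u _).2 (db_num_integrable_id hh hg u)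

/-- `E[E[g(Y) | U]] = E g(Y)` -/
theorem db_tower (hh : 0 < h) {g : E → F} (hg : Integrable g ν) :
    Integrable (hpost ν h g) (dm (gconv ν h)) ∧ ∫ u, hpost ν h g u ∂(dm (gconv ν h)) = ∫ x, g x ∂ν := by
  have hm := (dbt_gconv_continuous (ν := ν) hh).measurable
  have h0 : ∀ u, 0 ≤ gconv ν h u := fun u => (db_gconv_pos hh u).le
  have hp := dbt_prod_integrable hh hg
  constructor
  · rw [dbt_dm_integrable_iff hm h0]
    simp only [dbt_gconv_smul_hpost hh]
    exact hp.integral_prod_right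
  · by_cases hF : CompleteSpace F
    swap
    · simp [integral, hF]
    rw [dbt_dm_integral hm h0]
    simp only [dbt_gconv_smul_hpost hh]
    have hs := integral_integral_swap (f := fun (x u : E) => gk h (u - x) • g x) hp
    unfold dbNum
    rw [← hs]
    refine integral_congr_ae (Filter.Eventually.of_forall fun x => ?_)
    simp only
    rw [integral_smul_const, dbt_gk_integral_sub hh, one_smul]

/-- Chapman-Kolmogorov for the Gaussian kernel (from `gc_semigroup` at a Dirac mass) -/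
theorem dbt_gk_conv {s t : ℝ} (hs : 0 < s) (ht : 0 < t) (u x : E) :
    ∫ y, gk t (u - y) * gk s (y - x) = gk (s + t) (u - x) := by
  have h1 := congrFun (gc_semigroup (μ := Measure.dirac x) hs ht) u
  have e1 : ∀ r : ℝ, gconv (Measure.dirac x) r = fun y => gk r (y - x) := fun r => by
    funext y
    unfold gconv
    rw [integral_dirac]
  rw [e1 s, e1 (s + t)] at h1
  have h2 : gk (s + t) (u - x) = gconv (dm fun y => gk s (y - x)) t u := h1.symm
  rw [h2]
  unfold gconv
  have hm : Measurable fun y : E => gk s (y - x) :=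
    ((db_gk_continuous hs).comp (continuous_id.sub continuous_const)).measurable
  rw [dbt_dm_integral hm fun y => (db_gk_pos hs _).le]
  refine integral_congr_ae (Filter.Eventually.of_forall fun y => ?_)
  simp only [smul_eq_mul]
  ring

/-- tower property for two successive heat channels -/
theorem db_hpost_hpost {s t : ℝ} (hs : 0 < s) (ht : 0 < t) {g : E → F} (hg : Integrable g ν) (u : E) :
    hpost (dm (gconv ν s)) t (hpost ν s g) u = hpost ν (s + t) g u := by
  by_cases hF : CompleteSpace F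
  swap
  · simp [hpost, integral, hF]
  have hm := (dbt_gconv_continuous (ν := ν) hs).measurable
  have h0 : ∀ u, 0 ≤ gconv ν s u := fun u => (db_gconv_pos hs u).le
  unfold hpost
  rw [gc_semigroup hs ht]
  congr 1
  rw [dbt_dm_integral hm h0]
  have e1 : ∀ y, gconv ν s y • gk t (u - y) • (gconv ν s y)⁻¹ • ∫ x, gk s (y - x) • g x ∂ν =
      ∫ x, gk t (u - y) • gk s (y - x) • g x ∂ν := fun y => by
    rw [smul_comm (gconv ν s y), smul_smul (gconv ν s y), mul_inv_cancel₀ (db_gconv_pos hs y).ne', one_smul,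
      integral_smul]
  simp only [e1]
  have hp : Integrable (Function.uncurry fun (x y : E) => gk t (u - y) • gk s (y - x) • g x) (ν.prod volume) := by
    have hp0 := (dbt_prod_integrable hs hg).smul (gk t (0 : E))
    refine hp0.mono ?_ (Filter.Eventually.of_forall fun p => ?_)
    · exact ((db_gk_continuous ht).comp (continuous_const.sub continuous_snd)).aestronglyMeasurable.smul
        (dbt_prod_integrable hs hg).aestronglyMeasurable
    · simp only [Function.uncurry, Pi.smul_apply]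
      rw [norm_smul, norm_smul (gk t (0 : E))]
      refine mul_le_mul_of_nonneg_right ?_ (norm_nonneg _)
      rw [Real.norm_eq_abs, Real.norm_eq_abs, abs_of_pos (db_gk_pos ht _), abs_of_pos (db_gk_pos ht _)]
      exact db_gk_le ht _
  rw [← integral_integral_swap hp]
  refine integral_congr_ae (Filter.Eventually.of_forall fun x => ?_)
  simp only [smul_smul]
  rw [integral_smul_const, dbt_gk_conv hs ht]

theorem dbt_hpost_continuous (hh : 0 < h) {g : E → F} (hg : Integrable g ν) : Continuous (hpost ν h g) := by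
  have h1 : Continuous fun u => (gconv ν h u)⁻¹ :=
    (dbt_gconv_continuous hh).inv₀ fun u => (db_gconv_pos hh u).ne'
  exact h1.smul (db_num_continuous hh hg)

end vec

/-- Jensen for the square under a probability measure -/
theorem dbt_sq_integral_le {α : Type} [MeasurableSpace α] (π : Measure α) [IsProbabilityMeasure π] {φ : α → ℝ}
    (h1 : Integrable φ π) (h2 : Integrable (fun x => φ x ^ 2) π) : (∫ x, φ x ∂π) ^ 2 ≤ ∫ x, φ x ^ 2 ∂π :=
  ConvexOn.map_integral_le (g := fun x : ℝ => x ^ 2) (s := Set.univ) (even_two.convexOn_pow)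
    (continuous_pow 2).continuousOn isClosed_univ (Filter.Eventually.of_forall fun _ => Set.mem_univ _) h1 h2

/-- conditional Jensen in `L²` -/
theorem db_hpost_memLp (hh : 0 < h) {F : Type} [NormedAddCommGroup F] [NormedSpace ℝ F] {g : E → F} (hg : MemLp g 2 ν) :
    MemLp (hpost ν h g) 2 (dm (gconv ν h)) := by
  have hg1 : Integrable g ν := hg.integrable one_le_two
  have hg2 : Integrable (fun x => ‖g x‖ ^ 2) ν := (memLp_two_iff_integrable_sq_norm hg.1).1 hg
  have hc := dbt_hpost_continuous hh hg1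
  rw [memLp_two_iff_integrable_sq_norm hc.aestronglyMeasurable]
  refine (db_tower hh hg2).1.mono' (hc.norm.pow 2).aestronglyMeasurable (Filter.Eventually.of_forall fun u => ?_)
  have := db_hpm_prob (ν := ν) hh u
  rw [Real.norm_eq_abs, abs_of_nonneg (by positivity), ← db_hpm_integral hh u g, ← db_hpm_integral hh u]
  have i1 : Integrable (fun x => ‖g x‖) (hpm ν h u) := (db_hpm_integrable hh u hg1).norm
  have i2 : Integrable (fun x => ‖g x‖ ^ 2) (hpm ν h u) := db_hpm_integrable hh u hg2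
  calc ‖∫ x, g x ∂(hpm ν h u)‖ ^ 2 ≤ (∫ x, ‖g x‖ ∂(hpm ν h u)) ^ 2 := by
        gcongr
        exact norm_integral_le_integral_norm _
    _ ≤ _ := dbt_sq_integral_le _ i1 i2

/-- decomposition of the entropy -/
theorem db_ent_split (hh : 0 < h) {f : E → ℝ} (hf0 : ∀ x, 0 ≤ f x) (hf : Integrable f ν)
    (hfl : Integrable (fun x => f x * Real.log (f x)) ν) :
    Integrable (fun u => hpost ν h f u * Real.log (hpost ν h f u)) (dm (gconv ν h)) ∧
    Integrable (fun u => ent (hpm ν h u) f) (dm (gconv ν h)) ∧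
    ent ν f = ent (dm (gconv ν h)) (hpost ν h f) + ∫ u, ent (hpm ν h u) f ∂(dm (gconv ν h)) := by
  have hprob : IsProbabilityMeasure (dm (gconv ν h)) := gc_isProb hh
  have hFc : Continuous (hpost ν h f) := dbt_hpost_continuous hh hf
  obtain ⟨iF, eF⟩ := db_tower hh hf
  obtain ⟨iG, eG⟩ := db_tower hh hfl
  have hF0 : ∀ u, 0 ≤ hpost ν h f u := by
    intro u
    rw [← db_hpm_integral hh u]
    exact integral_nonneg hf0
  have jensen : ∀ u, hpost ν h f u * Real.log (hpost ν h f u) ≤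
      hpost ν h (fun x => f x * Real.log (f x)) u := by
    intro u
    have := db_hpm_prob (ν := ν) hh u
    rw [← db_hpm_integral hh u, ← db_hpm_integral hh u]
    exact ConvexOn.map_integral_le (g := fun x : ℝ => x * Real.log x) Real.convexOn_mul_log
      Real.continuous_mul_log.continuousOn isClosed_Ici (Filter.Eventually.of_forall fun x => hf0 x)
      (db_hpm_integrable hh u hf) (db_hpm_integrable hh u hfl)
  have lower : ∀ u, -1 ≤ hpost ν h f u * Real.log (hpost ν h f u) := by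
    intro u
    have h1 := InformationTheory.klFun_nonneg (hF0 u)
    unfold InformationTheory.klFun at h1
    linarith [hF0 u]
  have iFl : Integrable (fun u => hpost ν h f u * Real.log (hpost ν h f u)) (dm (gconv ν h)) := by
    refine ((integrable_const (1 : ℝ)).add iG.norm).mono'
      (Real.continuous_mul_log.comp hFc).aestronglyMeasurable (Filter.Eventually.of_forall fun u => ?_)
    rw [Real.norm_eq_abs, abs_le]
    have h1 := lower u
    have h2 := jensen u
    have h3 := le_abs_self (hpost ν h (fun x => f x * Real.log (f x)) u)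
    have h4 := abs_nonneg (hpost ν h (fun x => f x * Real.log (f x)) u)
    simp only [Pi.add_apply, Real.norm_eq_abs]
    constructor <;> linarith
  have eent : ∀ u, ent (hpm ν h u) f = hpost ν h (fun x => f x * Real.log (f x)) u -
      hpost ν h f u * Real.log (hpost ν h f u) := by
    intro u
    unfold ent
    rw [db_hpm_integral hh u, db_hpm_integral hh u]
  refine ⟨iFl, ?_, ?_⟩
  · simp only [eent]
    exact iG.sub iFl
  · simp only [eent]
    rw [integral_sub iG iFl, eG]
    unfold ent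
    rw [eF]
    ring

/-- decomposition of the second moment -/
theorem db_var_split (hh : 0 < h) {g : E → ℝ} (hg : MemLp g 2 ν) :
    Integrable (fun u => vari (hpm ν h u) g) (dm (gconv ν h)) ∧
    ∫ x, g x ^ 2 ∂ν = ∫ u, hpost ν h g u ^ 2 ∂(dm (gconv ν h)) + ∫ u, vari (hpm ν h u) g ∂(dm (gconv ν h)) := by
  have hg2 : Integrable (fun x => g x ^ 2) ν := (memLp_two_iff_integrable_sq hg.1).1 hg
  obtain ⟨iG, eG⟩ := db_tower hh hg2
  have hL := db_hpost_memLp hh hg
  have iF : Integrable (fun u => hpost ν h g u ^ 2) (dm (gconv ν h)) :=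
    (memLp_two_iff_integrable_sq hL.1).1 hL
  have ev : ∀ u, vari (hpm ν h u) g = hpost ν h (fun x => g x ^ 2) u - hpost ν h g u ^ 2 := by
    intro u
    unfold vari
    rw [db_hpm_integral hh u, db_hpm_integral hh u]
  refine ⟨?_, ?_⟩
  · simp only [ev]
    exact iG.sub iF
  · simp only [ev]
    rw [integral_sub iG iF, eG]
    ring

end Claimed.Agent.R259
end

/- ===== packed: Claimed.Agent.R259.DbApply ===== -/
section
/-
Row 259, kit DB, leaf group APPLY: the logarithmic Sobolev / Poincare inequality of `ν_h = dm (gconv ν h)` applied to `√F`, resp. `G`.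
Statements: helper147.   Inputs: DbSmooth, DbTower (black boxes), WS.lean (`ws_H1_of_contDiff`, `ws_LSI_H1`, `ws_PI_H1`).
`u = √F` is `C¹` (`F` is `C¹` and positive), `∇u = ∇F / (2 √F)`, `|∇u|² = |∇F|²/(4F)`, `u² = F`.
-/
set_option autoImplicit false

open MeasureTheory ProbabilityTheory
open scoped ENNReal ContDiff

namespace Claimed.Agent.R259

variable {E : Type} [NormedAddCommGroup E] [InnerProductSpace ℝ E] [FiniteDimensional ℝ E]
  [MeasurableSpace E] [BorelSpace E]

variable {ν : Measure E} [IsProbabilityMeasure ν] {h R : ℝ}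

theorem db_lsi_apply (hh : 0 < h) (hR : LSI (dm (gconv ν h)) R) {f : E → ℝ} (hf0 : ∀ x, 0 ≤ f x)
    (hf : Integrable f ν) (hpos : 0 < ∫ x, f x ∂ν)
    (hI : Integrable (fun u => ‖gradient (hpost ν h f) u‖ ^ 2 / hpost ν h f u) (dm (gconv ν h))) :
    ent (dm (gconv ν h)) (hpost ν h f) ≤
      R / 2 * ∫ u, ‖gradient (hpost ν h f) u‖ ^ 2 / hpost ν h f u ∂(dm (gconv ν h)) := by
  have : IsProbabilityMeasure (dm (gconv ν h)) := gc_isProb hh
  have hspd := db_gconv_spd (ν := ν) hh
  have hF : ContDiff ℝ 1 (hpost ν h f) := db_hpost_contDiff hh hf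
  have hFpos : ∀ u, 0 < hpost ν h f u := db_hpost_pos hh hf0 hf hpos
  have hU : ContDiff ℝ 1 (fun u => Real.sqrt (hpost ν h f u)) := hF.sqrt fun u => (hFpos u).ne'
  have hgradU : ∀ u, gradient (fun u => Real.sqrt (hpost ν h f u)) u =
      (1 / (2 * Real.sqrt (hpost ν h f u))) • gradient (hpost ν h f) u := fun u => by
    have h1 : HasFDerivAt (hpost ν h f) (fderiv ℝ (hpost ν h f) u) u :=
      ((hF.differentiable (by simp)) u).hasFDerivAt
    have h2 := h1.sqrt (hFpos u).ne'
    unfold gradient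
    rw [h2.fderiv, map_smul]
  have hnorm : ∀ u, ‖gradient (fun u => Real.sqrt (hpost ν h f u)) u‖ ^ 2 =
      (1 / 4) * (‖gradient (hpost ν h f) u‖ ^ 2 / hpost ν h f u) := fun u => by
    rw [hgradU, norm_smul, mul_pow, Real.norm_eq_abs, sq_abs, div_pow, mul_pow,
      Real.sq_sqrt (hFpos u).le]
    ring
  have hsq : (fun u => Real.sqrt (hpost ν h f u) ^ 2) = hpost ν h f :=
    funext fun u => Real.sq_sqrt (hFpos u).le
  have m1 : MemLp (fun u => Real.sqrt (hpost ν h f u)) 2 (dm (gconv ν h)) := by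
    rw [memLp_two_iff_integrable_sq hU.continuous.aestronglyMeasurable, hsq]
    exact (db_tower hh hf).1
  have hgc : Continuous (gradient (fun u => Real.sqrt (hpost ν h f u))) := by
    unfold gradient
    exact (LinearIsometryEquiv.continuous _).comp (hU.continuous_fderiv (by simp))
  have m2 : MemLp (gradient (fun u => Real.sqrt (hpost ν h f u))) 2 (dm (gconv ν h)) := by
    rw [memLp_two_iff_integrable_sq_norm hgc.aestronglyMeasurable]
    simp only [hnorm]
    exact hI.const_mul _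
  have hH1 := ws_H1_of_contDiff hU m1 m2
  have h5 := (ws_LSI_H1 hspd.1.continuous hspd.2.1 hR hH1).2
  simp only [hnorm] at h5
  rw [hsq, integral_const_mul] at h5
  linarith

theorem db_pi_apply (hh : 0 < h) (hR : PI (dm (gconv ν h)) R) {g : E → ℝ} (hg : MemLp g 2 ν)
    (hI : Integrable (fun u => ‖gradient (hpost ν h g) u‖ ^ 2) (dm (gconv ν h))) :
    vari (dm (gconv ν h)) (hpost ν h g) ≤ R * ∫ u, ‖gradient (hpost ν h g) u‖ ^ 2 ∂(dm (gconv ν h)) := by
  have : IsProbabilityMeasure (dm (gconv ν h)) := gc_isProb hh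
  have hspd := db_gconv_spd (ν := ν) hh
  have hg1 : Integrable g ν := hg.integrable (by norm_num)
  have hF : ContDiff ℝ 1 (hpost ν h g) := db_hpost_contDiff hh hg1
  have m2 : MemLp (gradient (hpost ν h g)) 2 (dm (gconv ν h)) := by
    rw [memLp_two_iff_integrable_sq_norm (db_hpost_gradient_continuous hh hg1).aestronglyMeasurable]
    exact hI
  have hH1 := ws_H1_of_contDiff hF (db_hpost_memLp hh hg) m2
  exact ws_PI_H1 hspd.1.continuous hspd.2.1 hR hH1

end Claimed.Agent.R259
end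

/- ===== packed: Claimed.Agent.R259.S7LawGEc ===== -/
section
/-
Row 259 (S0499), section 7, package L-S7-LAW-GE, helper file c (owner helper283):
first order perturbation of `e^{iρB}` in a direction `K` (Duhamel without integrals: mean value inequality for
`v ↦ e^{iρv(B+hK)} e^{iρ(1-v)B} - iρhv K e^{iρB}`).
-/
set_option autoImplicit false

open MeasureTheory ProbabilityTheory
open scoped BigOperators Matrix
open Claimed.Agent.R260 (Mx mxFun mxSchur mxSq mxIP mxEig mxU mxRot)

namespace Claimed.Agent.R259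

variable {n : ℕ}

theorem s7g_norm_deriv_le {g : ℝ → ℂ} {g' : ℂ} (hg : HasDerivAt g g' 0) {c1 c2 : ℝ}
    (h : ∀ t, ‖g t - g 0‖ ≤ |t| * (c1 + |t| * c2)) : ‖g'‖ ≤ c1 := by
  have T := (hasDerivAt_iff_tendsto_slope_zero.1 hg).norm
  have T2 : Filter.Tendsto (fun t : ℝ => c1 + |t| * c2) (nhdsWithin 0 {0}ᶜ) (nhds c1) := by
    have hc : Continuous fun t : ℝ => c1 + |t| * c2 := by fun_prop
    have := hc.tendsto 0
    simp only [abs_zero, zero_mul, add_zero] at this
    exact this.mono_left nhdsWithin_le_nhds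
  refine le_of_tendsto_of_tendsto T T2 (eventually_nhdsWithin_of_forall fun t ht => ?_)
  have ht0 : t ≠ 0 := ht
  have hpos : 0 < |t| := abs_pos.2 ht0
  show ‖t⁻¹ • (g (0 + t) - g 0)‖ ≤ c1 + |t| * c2
  rw [norm_smul, norm_inv, Real.norm_eq_abs, zero_add, inv_mul_le_iff₀ hpos]
  exact h t

theorem s7g_sqrt_mxSq_add_smul_le (P Q : Mx n) (h : ℝ) :
    Real.sqrt (mxSq (P + h • Q)) ≤ Real.sqrt (mxSq P) + |h| * Real.sqrt (mxSq Q) := by
  rw [← cSq_toC, ← cSq_toC P, ← cSq_toC Q, toC_add, toC_smul]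
  refine (cSq_sqrt_add_le _ _).trans (le_of_eq ?_)
  rw [cSq_smul, Real.sqrt_mul (by positivity), Real.sqrt_sq (norm_nonneg _), Complex.norm_real, Real.norm_eq_abs]

theorem s7g_cE_comm_W {B W : Mx n} (hB : B.IsSymm) (hBW : B * W = W * B) (s : ℝ) :
    toC W * cE s B = cE s B * toC W :=
  mxFunC_commute _ hB (by rw [← toC_mul, ← toC_mul, hBW])

/-- two-sided Lipschitz estimate for the unitaries -/
theorem s7g_cE_gen_le (s : ℝ) {A B : Mx n} (hA : A.IsSymm) (hB : B.IsSymm) (X : CMx n) :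
    cSq (cE s A * X - X * cE s B) ≤ s ^ 2 * cSq (toC A * X - X * toC B) := by
  rw [← sq_abs s]
  exact s7c_gen_le (s7c_exp_lip s) hA hB X

theorem s7g_perturb {B K W : Mx n} (hB : B.IsSymm) (hK : K.IsSymm) (hBW : B * W = W * B) (ρ h : ℝ)
    (Y : CMx n) :
    ‖Matrix.trace (Y * ((cE ρ (B + h • K) - cE ρ B
        - (Complex.I * (ρ : ℂ) * (h : ℂ)) • (toC K * cE ρ B)) * toC W))‖
      ≤ Real.sqrt (cSq Y) * (ρ ^ 2 * |h| * (Real.sqrt (mxSq (cmm B K * W))
          + |h| * Real.sqrt (mxSq (K * K * W)))) := by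
  set A : Mx n := B + h • K with hAdef
  have hA : A.IsSymm := by
    unfold Matrix.IsSymm
    rw [hAdef, Matrix.transpose_add, Matrix.transpose_smul, hB.eq, hK.eq]
  set p : ℝ := Real.sqrt (mxSq (cmm B K * W)) + |h| * Real.sqrt (mxSq (K * K * W)) with hp
  have hp0 : 0 ≤ p := by positivity
  -- the path
  let Ψ : ℝ → CMx n := fun v => cE (ρ * v + 0) A * cE (-ρ * v + ρ) B
    - ((Complex.I * (ρ : ℂ) * (h : ℂ)) * (v : ℂ)) • (toC K * cE ρ B)
  let Ψ' : ℝ → CMx n := fun v => ((ρ : ℂ) • (Complex.I • (toC A * cE (ρ * v + 0) A))) * cE (-ρ * v + ρ) B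
    + cE (ρ * v + 0) A * (((-ρ : ℝ) : ℂ) • (Complex.I • (toC B * cE (-ρ * v + ρ) B)))
    - (Complex.I * (ρ : ℂ) * (h : ℂ)) • (toC K * cE ρ B)
  have hMD : ∀ v, s7gMD Ψ (Ψ' v) v := by
    intro v
    refine (((s7g_MD_cE hA (ρ * v + 0)).comp_affine).mul ((s7g_MD_cE hB (-ρ * v + ρ)).comp_affine)).sub ?_
    refine s7gMD.smul_const ?_ _
    have := ((hasDerivAt_id v).ofReal_comp).const_mul (Complex.I * (ρ : ℂ) * (h : ℂ))
    simpa using this
  -- simplification of the derivative
  have hΨ' : ∀ v, Ψ' v * toC W = (Complex.I * (ρ : ℂ) * (h : ℂ)) •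
      ((cE (ρ * v + 0) A * toC (K * W) - toC (K * W) * cE (ρ * v + 0) B) * cE (-ρ * v + ρ) B) := by
    intro v
    have e1 : toC A * cE (ρ * v + 0) A = cE (ρ * v + 0) A * toC A := cE_commute_self _ hA
    have e2 : cE ρ B = cE (ρ * v + 0) B * cE (-ρ * v + ρ) B := by
      rw [← cE_add]; congr 1; ring
    have e3 : toC A = toC B + (h : ℂ) • toC K := by rw [hAdef, toC_add, toC_smul]
    have e4 : cE (-ρ * v + ρ) B * toC W = toC W * cE (-ρ * v + ρ) B := (s7g_cE_comm_W hB hBW _).symm
    have e5 : cE (ρ * v + 0) B * toC W = toC W * cE (ρ * v + 0) B := (s7g_cE_comm_W hB hBW _).symm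
    show (((ρ : ℂ) • (Complex.I • (toC A * cE (ρ * v + 0) A))) * cE (-ρ * v + ρ) B
      + cE (ρ * v + 0) A * (((-ρ : ℝ) : ℂ) • (Complex.I • (toC B * cE (-ρ * v + ρ) B)))
      - (Complex.I * (ρ : ℂ) * (h : ℂ)) • (toC K * cE ρ B)) * toC W = _
    rw [e1, e3]
    generalize cE (ρ * v + 0) A = E1 at *
    rw [e2]
    generalize cE (ρ * v + 0) B = E3 at *
    generalize cE (-ρ * v + ρ) B = E2 at *
    rw [toC_mul]
    have e6 : E1 * (toC K * toC W) * E2 = E1 * toC K * E2 * toC W := by
      rw [Matrix.mul_assoc (E1 * toC K), e4]; simp only [Matrix.mul_assoc]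
    have e7 : toC K * toC W * E3 * E2 = toC K * (E3 * E2) * toC W := by
      rw [Matrix.mul_assoc (toC K) (toC W), ← e5, Matrix.mul_assoc (toC K), Matrix.mul_assoc E3, ← e4]
      simp only [Matrix.mul_assoc]
    rw [Matrix.sub_mul (E1 * (toC K * toC W)), e6, e7]
    simp only [Matrix.mul_add, Matrix.add_mul, Matrix.sub_mul, Matrix.mul_smul, Matrix.smul_mul, smul_sub,
      smul_add, smul_smul, Matrix.mul_assoc]
    push_cast
    module
  have hbound : ∀ v ∈ Set.Ico (0 : ℝ) 1, ‖Matrix.trace (Y * (Ψ' v * toC W))‖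
      ≤ Real.sqrt (cSq Y) * (ρ ^ 2 * |h| * p) := by
    intro v hv
    refine s7g_trace_le Y _ ?_
    rw [hΨ' v, cSq_smul, cSq_mul_unitary _ (cE_mul_conjTranspose _ _)]
    have h1 := s7g_cE_gen_le (ρ * v + 0) hA hB (toC (K * W))
    have h2 : toC A * toC (K * W) - toC (K * W) * toC B = toC (cmm B K * W + h • (K * K * W)) := by
      rw [← toC_mul, ← toC_mul, ← toC_sub]
      congr 1
      rw [hAdef]
      unfold cmm
      rw [Matrix.mul_assoc K W B, ← hBW]
      simp only [Matrix.add_mul, Matrix.sub_mul, Matrix.smul_mul, Matrix.mul_assoc]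
      abel
    rw [h2, cSq_toC] at h1
    have h3 := s7g_sqrt_mxSq_add_smul_le (cmm B K * W) (K * K * W) h
    have h4 : mxSq (cmm B K * W + h • (K * K * W)) ≤ p ^ 2 := by
      have := Real.sqrt_le_left (x := mxSq (cmm B K * W + h • (K * K * W))) hp0
      exact this.1 h3
    apply Real.sqrt_le_iff.2
    refine ⟨by positivity, ?_⟩
    have h5 : ‖Complex.I * (ρ : ℂ) * (h : ℂ)‖ ^ 2 = ρ ^ 2 * h ^ 2 := by
      rw [norm_mul, norm_mul, Complex.norm_I, Complex.norm_real, Complex.norm_real, Real.norm_eq_abs,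
        Real.norm_eq_abs, one_mul, mul_pow, sq_abs, sq_abs]
    rw [h5]
    have h6 : (ρ * v + 0) ^ 2 ≤ ρ ^ 2 := by
      have hv2 : v ^ 2 ≤ 1 := by nlinarith [hv.1, hv.2]
      nlinarith [sq_nonneg ρ]
    calc ρ ^ 2 * h ^ 2 * cSq (cE (ρ * v + 0) A * toC (K * W) - toC (K * W) * cE (ρ * v + 0) B)
        ≤ ρ ^ 2 * h ^ 2 * (ρ ^ 2 * p ^ 2) := by
          refine mul_le_mul_of_nonneg_left (h1.trans ?_) (by positivity)
          exact mul_le_mul h6 h4 (Claimed.Agent.R260.mxSq_nonneg _) (sq_nonneg _)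
      _ = (ρ ^ 2 * |h| * p) ^ 2 := by
          rw [mul_pow, mul_pow, sq_abs]; ring
  have hmv := norm_image_sub_le_of_norm_deriv_le_segment_01'
    (f := fun v => Matrix.trace (Y * (Ψ v * toC W))) (f' := fun v => Matrix.trace (Y * (Ψ' v * toC W)))
    (C := Real.sqrt (cSq Y) * (ρ ^ 2 * |h| * p))
    (fun v _ => ((((hMD v).mul_const (toC W)).const_mul Y).trace).hasDerivWithinAt) hbound
  refine le_trans (le_of_eq ?_) hmv
  congr 1
  rw [← Matrix.trace_sub, ← Matrix.mul_sub, ← Matrix.sub_mul]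
  congr 3
  show _ = (cE (ρ * 1 + 0) A * cE (-ρ * 1 + ρ) B
      - ((Complex.I * (ρ : ℂ) * (h : ℂ)) * ((1 : ℝ) : ℂ)) • (toC K * cE ρ B))
    - (cE (ρ * 0 + 0) A * cE (-ρ * 0 + ρ) B
      - ((Complex.I * (ρ : ℂ) * (h : ℂ)) * ((0 : ℝ) : ℂ)) • (toC K * cE ρ B))
  have z1 : ρ * 1 + 0 = ρ := by ring
  have z2 : -ρ * 1 + ρ = 0 := by ring
  have z3 : ρ * 0 + 0 = 0 := by ring
  have z4 : -ρ * 0 + ρ = ρ := by ring
  rw [z1, z2, z3, z4, cE_zero, cE_zero, Matrix.mul_one, Matrix.one_mul]
  simp only [Complex.ofReal_one, Complex.ofReal_zero, mul_one, mul_zero, zero_smul, sub_zero]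
  abel

/-- the derivative of `h ↦ e^{iρ(B+hK)}` at `0` is `iρ K e^{iρB}` up to a commutator -/
theorem s7g_deriv_bound {B K W : Mx n} (hB : B.IsSymm) (hK : K.IsSymm) (hBW : B * W = W * B) (ρ : ℝ)
    {P : CMx n} (hP : s7gMD (fun h => cE ρ (B + h • K)) P 0) :
    Real.sqrt (cSq ((P - (Complex.I * (ρ : ℂ)) • (toC K * cE ρ B)) * toC W))
      ≤ ρ ^ 2 * Real.sqrt (mxSq (cmm B K * W)) := by
  refine s7g_dual (by positivity) fun Y => ?_
  have hMD : s7gMD (fun h : ℝ => cE ρ (B + h • K) - ((Complex.I * (ρ : ℂ)) * (h : ℂ)) • (toC K * cE ρ B))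
      (P - (Complex.I * (ρ : ℂ)) • (toC K * cE ρ B)) 0 := by
    refine hP.sub (s7gMD.smul_const ?_ _)
    have := ((hasDerivAt_id (0 : ℝ)).ofReal_comp).const_mul (Complex.I * (ρ : ℂ))
    simpa using this
  have hg := (((hMD.mul_const (toC W)).const_mul Y).trace)
  have := s7g_norm_deriv_le hg (c1 := Real.sqrt (cSq Y) * (ρ ^ 2 * Real.sqrt (mxSq (cmm B K * W))))
    (c2 := Real.sqrt (cSq Y) * (ρ ^ 2 * Real.sqrt (mxSq (K * K * W)))) ?_
  · exact this
  · intro t
    have h1 := s7g_perturb hB hK hBW ρ t Y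
    refine le_trans (le_of_eq ?_) (h1.trans (le_of_eq ?_))
    · congr 1
      rw [← Matrix.trace_sub, ← Matrix.mul_sub, ← Matrix.sub_mul]
      congr 3
      simp only [zero_smul, add_zero, Complex.ofReal_zero, mul_zero, sub_zero]
      abel
    · ring

end Claimed.Agent.R259
end

/- ===== packed: Claimed.Agent.R259.S7LawAlgA ===== -/
section
/-
Row 259 (S0499), section 7, package L-S7-LAW-ALG, helper file A (owner helper283):
Gaussian isometry, column / row bounds, contraction of an index, the column `H[q ·]`, index swap,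
the function `g_x`, splitting of exponentials.
-/
set_option autoImplicit false

open MeasureTheory ProbabilityTheory
open scoped BigOperators Matrix
open Claimed.Agent.R260 (Mx mxFun mxSchur mxSq mxIP mxEig mxU mxRot)

namespace Claimed.Agent.R259

variable {n : ℕ}

/-! ### Gaussian isometry -/

theorem s7a_cov (i j : Fin n) : Integrable (fun G : EE n => G i * G j) (gam n) ∧
    ∫ G : EE n, G i * G j ∂(gam n) = if i = j then 1 else 0 := by
  rw [gam_eq_std]
  have hC : Claimed.Agent.R260.C1P (fun x : EE n => x j) := by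
    refine Claimed.Agent.R260.C1L.toC1P ⟨(EuclideanSpace.proj (𝕜 := ℝ) j).contDiff,
      ‖(EuclideanSpace.proj (𝕜 := ℝ) j : EE n →L[ℝ] ℝ)‖, fun x => ?_⟩
    have e : (fun x : EE n => x j) = (EuclideanSpace.proj j : EE n →L[ℝ] ℝ) := by
      ext x; rfl
    rw [e, ContinuousLinearMap.fderiv]
  refine ⟨((Claimed.Agent.R260.gk_PG_coord i).mul (Claimed.Agent.R260.gk_PG_coord j)).integrable, ?_⟩
  have h := Claimed.Agent.R260.gk_ibp hC i
  simp only [Claimed.Agent.R260.gk_pd_coord] at h
  rw [h]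
  simp

theorem s7a_avg_sq (M : Fin n → Mx n) :
    Integrable (fun G => mxSq (colAt M G)) (gam n) ∧
      ∫ G, mxSq (colAt M G) ∂(gam n) = ∑ i, mxSq (M i) := by
  have hexp : ∀ G : EE n, mxSq (colAt M G)
      = ∑ a, ∑ b, ∑ i, ∑ j, (G i * G j) * (M i a b * M j a b) := by
    intro G
    rw [Claimed.Agent.R260.mxSq_eq_sum]
    refine Finset.sum_congr rfl fun a _ => Finset.sum_congr rfl fun b _ => ?_
    rw [s7g_colAt_apply, sq, Finset.sum_mul_sum]
    refine Finset.sum_congr rfl fun i _ => Finset.sum_congr rfl fun j _ => ?_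
    ring
  have hI : ∀ a b i j, Integrable (fun G : EE n => (G i * G j) * (M i a b * M j a b)) (gam n) :=
    fun a b i j => ((s7a_cov i j).1).mul_const _
  simp only [hexp]
  constructor
  · exact integrable_finsetSum _ fun a _ => integrable_finsetSum _ fun b _ =>
      integrable_finsetSum _ fun i _ => integrable_finsetSum _ fun j _ => hI a b i j
  · rw [integral_finsetSum _ fun a _ => integrable_finsetSum _ fun b _ =>
      integrable_finsetSum _ fun i _ => integrable_finsetSum _ fun j _ => hI a b i j]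
    have h1 : ∀ a, ∫ G : EE n, ∑ b, ∑ i, ∑ j, (G i * G j) * (M i a b * M j a b) ∂(gam n)
        = ∑ b, ∑ i, (M i a b) ^ 2 := by
      intro a
      rw [integral_finsetSum _ fun b _ => integrable_finsetSum _ fun i _ =>
        integrable_finsetSum _ fun j _ => hI a b i j]
      refine Finset.sum_congr rfl fun b _ => ?_
      rw [integral_finsetSum _ fun i _ => integrable_finsetSum _ fun j _ => hI a b i j]
      refine Finset.sum_congr rfl fun i _ => ?_
      rw [integral_finsetSum _ fun j _ => hI a b i j]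
      simp only [integral_mul_const, (s7a_cov _ _).2]
      rw [Finset.sum_eq_single i]
      · rw [if_pos rfl]; ring
      · intro j _ hj
        rw [if_neg (Ne.symm hj), zero_mul]
      · intro h; exact absurd (Finset.mem_univ i) h
    simp only [h1, Claimed.Agent.R260.mxSq_eq_sum]
    calc ∑ a, ∑ b, ∑ i, M i a b ^ 2 = ∑ a, ∑ i, ∑ b, M i a b ^ 2 :=
          Finset.sum_congr rfl fun a _ => Finset.sum_comm
      _ = ∑ i, ∑ a, ∑ b, M i a b ^ 2 := Finset.sum_comm

/-! ### positive semidefinite matrices and the Hilbert-Schmidt norm -/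

/-- `∑_j ‖K_jᵀ Z‖² ≤ c ‖Z‖²` if `∑ K_j K_jᵀ ≤ c` -/
theorem s7a_sum_tr_le {K : Fin n → Mx n} {c : ℝ}
    (hcol : (c • (1 : Mx n) - ∑ j, K j * (K j)ᵀ).PosSemidef) (Z : Mx n) :
    ∑ j, mxSq ((K j)ᵀ * Z) ≤ c * mxSq Z := by
  have h1 := mk_trace_nonneg (mk_psd_conj hcol Zᵀ)
  have e : Matrix.trace (Zᵀ * (c • (1 : Mx n) - ∑ j, K j * (K j)ᵀ) * Zᵀᵀ)
      = c * mxSq Z - ∑ j, mxSq ((K j)ᵀ * Z) := by
    rw [Matrix.transpose_transpose, Matrix.mul_sub, Matrix.sub_mul, Matrix.trace_sub, Matrix.mul_smul,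
      Matrix.mul_one, Matrix.smul_mul, Matrix.trace_smul, smul_eq_mul, Finset.mul_sum, Finset.sum_mul,
      Matrix.trace_sum]
    congr 1
    refine Finset.sum_congr rfl fun j _ => ?_
    unfold mxSq
    rw [Matrix.transpose_mul, Matrix.transpose_transpose]
    simp only [Matrix.mul_assoc]
  rw [e] at h1
  linarith

theorem s7a_c_mul_nonneg {K : Fin n → Mx n} {c : ℝ}
    (hcol : (c • (1 : Mx n) - ∑ j, K j * (K j)ᵀ).PosSemidef) (Z : Mx n) : 0 ≤ c * mxSq Z :=
  le_trans (Finset.sum_nonneg fun _ _ => Claimed.Agent.R260.mxSq_nonneg _) (s7a_sum_tr_le hcol Z)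

/-- Cauchy-Schwarz for families of matrices -/
theorem s7a_cs (A B : Fin n → Mx n) :
    (∑ j, mxIP (A j) (B j)) ^ 2 ≤ (∑ j, mxSq (A j)) * ∑ j, mxSq (B j) := by
  have h1 : ∑ j, mxIP (A j) (B j) = ∑ p : Fin n × Fin n × Fin n, A p.1 p.2.1 p.2.2 * B p.1 p.2.1 p.2.2 := by
    simp only [Claimed.Agent.R260.mxIP_eq_sum, Fintype.sum_prod_type]
  have h2 : ∀ A : Fin n → Mx n, ∑ j, mxSq (A j) = ∑ p : Fin n × Fin n × Fin n, A p.1 p.2.1 p.2.2 ^ 2 := by
    intro A
    simp only [Claimed.Agent.R260.mxSq_eq_sum, Fintype.sum_prod_type]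
  rw [h1, h2, h2]
  exact Finset.sum_mul_sq_le_sq_mul_sq _ _ _

/-- real column bound -/
theorem s7a_col_real {K : Fin n → Mx n} {c : ℝ}
    (hcol : (c • (1 : Mx n) - ∑ j, K j * (K j)ᵀ).PosSemidef) (A : Fin n → Mx n) :
    mxSq (∑ j, K j * A j) ≤ c * ∑ j, mxSq (A j) := by
  set Z : Mx n := ∑ j, K j * A j with hZ
  have hT0 : 0 ≤ ∑ j, mxSq (A j) := Finset.sum_nonneg fun _ _ => Claimed.Agent.R260.mxSq_nonneg _
  have hs0 : 0 ≤ mxSq Z := Claimed.Agent.R260.mxSq_nonneg _
  have h1 : mxSq Z = ∑ j, mxIP (A j) ((K j)ᵀ * Z) := by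
    have : mxSq Z = Matrix.trace (Zᵀ * Z) := rfl
    rw [this]
    conv_lhs => rw [hZ, Matrix.transpose_sum, Finset.sum_mul, Matrix.trace_sum]
    refine Finset.sum_congr rfl fun j _ => ?_
    unfold mxIP
    rw [Matrix.transpose_mul, Matrix.mul_assoc]
  have h2 := s7a_cs A fun j => (K j)ᵀ * Z
  rw [← h1] at h2
  have h3 := s7a_sum_tr_le hcol Z
  have h4 : mxSq Z ^ 2 ≤ (∑ j, mxSq (A j)) * (c * mxSq Z) :=
    h2.trans (mul_le_mul_of_nonneg_left h3 hT0)
  by_cases h0 : mxSq Z = 0
  · rw [h0, Finset.mul_sum]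
    exact Finset.sum_nonneg fun j _ => s7a_c_mul_nonneg hcol (A j)
  · have hpos : 0 < mxSq Z := lt_of_le_of_ne hs0 (Ne.symm h0)
    have h5 : mxSq Z * mxSq Z ≤ (c * ∑ j, mxSq (A j)) * mxSq Z := by nlinarith
    exact le_of_mul_le_mul_right h5 hpos

/-- decomposition of a complex matrix -/
theorem s7a_re_im (X : CMx n) : X = toC (X.map Complex.re) + Complex.I • toC (X.map Complex.im) := by
  ext a b
  rw [Matrix.add_apply, Matrix.smul_apply, toC_apply, toC_apply, Matrix.map_apply, Matrix.map_apply, smul_eq_mul,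
    mul_comm]
  exact (Complex.re_add_im _).symm

theorem s7a_cSq_eq (X : CMx n) : cSq X = mxSq (X.map Complex.re) + mxSq (X.map Complex.im) := by
  conv_lhs => rw [s7a_re_im X, cSq_re_im]

theorem s7a_col_mul_le {K : Fin n → Mx n} {c : ℝ}
    (hcol : (c • (1 : Mx n) - ∑ j, K j * (K j)ᵀ).PosSemidef) (X : Fin n → CMx n) :
    cSq (∑ j, toC (K j) * X j) ≤ c * ∑ j, cSq (X j) := by
  have h1 : ∑ j, toC (K j) * X j = toC (∑ j, K j * (X j).map Complex.re)
      + Complex.I • toC (∑ j, K j * (X j).map Complex.im) := by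
    rw [toC_sum, toC_sum, Finset.smul_sum, ← Finset.sum_add_distrib]
    refine Finset.sum_congr rfl fun j _ => ?_
    conv_lhs => rw [s7a_re_im (X j)]
    rw [Matrix.mul_add, Matrix.mul_smul, toC_mul, toC_mul]
  rw [h1, cSq_re_im]
  simp only [s7a_cSq_eq]
  rw [Finset.sum_add_distrib, mul_add]
  exact add_le_add (s7a_col_real hcol _) (s7a_col_real hcol _)

theorem s7a_mul_col_le {K : Fin n → Mx n} {c : ℝ}
    (hcol : (c • (1 : Mx n) - ∑ j, (K j)ᵀ * K j).PosSemidef) (X : Fin n → CMx n) :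
    cSq (∑ j, X j * toC (K j)) ≤ c * ∑ j, cSq (X j) := by
  have h := s7a_col_mul_le (K := fun j => (K j)ᵀ) (c := c)
    (by simpa only [Matrix.transpose_transpose] using hcol) fun j => (X j)ᴴ
  simp only [cSq_conjTranspose] at h
  refine le_trans (le_of_eq ?_) h
  rw [← cSq_conjTranspose, Matrix.conjTranspose_sum]
  congr 1
  refine Finset.sum_congr rfl fun j _ => ?_
  rw [Matrix.conjTranspose_mul, toC_conjTranspose]

/-! ### contraction of an index -/

theorem s7a_contract_vec {q : Mx n} {c : ℝ} (hq : (c • (1 : Mx n) - q * qᵀ).PosSemidef) (x : Fin n → ℝ) :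
    ∑ l, (∑ i, q i l * x i) ^ 2 ≤ c * ∑ i, x i ^ 2 := by
  have h := (mk_psd_iff.1 hq).2 x
  have e : x ⬝ᵥ ((c • (1 : Mx n) - q * qᵀ) *ᵥ x) = c * ∑ i, x i ^ 2 - ∑ l, (∑ i, q i l * x i) ^ 2 := by
    rw [Matrix.sub_mulVec, dotProduct_sub, Matrix.smul_mulVec, Matrix.one_mulVec, dotProduct_smul, smul_eq_mul]
    congr 1
    · congr 1
      unfold dotProduct
      exact Finset.sum_congr rfl fun i _ => by ring
    · rw [← Matrix.mulVec_mulVec, Matrix.dotProduct_mulVec, ← Matrix.mulVec_transpose]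
      unfold dotProduct Matrix.mulVec dotProduct
      refine Finset.sum_congr rfl fun l _ => ?_
      simp only [Matrix.transpose_apply]
      ring
  rw [e] at h
  linarith

theorem s7a_contract_le {q : Mx n} {c : ℝ} (hq : (c • (1 : Mx n) - q * qᵀ).PosSemidef)
    (X : Fin n → Mx n) :
    ∑ l, mxSq (∑ i, q i l • X i) ≤ c * ∑ i, mxSq (X i) := by
  simp only [Claimed.Agent.R260.mxSq_eq_sum]
  have h1 : ∑ l, ∑ a, ∑ b, ((∑ i, q i l • X i) a b) ^ 2 = ∑ a, ∑ b, ∑ l, (∑ i, q i l * X i a b) ^ 2 := by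
    rw [Finset.sum_comm]
    refine Finset.sum_congr rfl fun a _ => ?_
    rw [Finset.sum_comm]
    refine Finset.sum_congr rfl fun b _ => Finset.sum_congr rfl fun l _ => ?_
    rw [Matrix.sum_apply]
    rfl
  have h2 : ∑ i, ∑ a, ∑ b, (X i a b) ^ 2 = ∑ a, ∑ b, ∑ i, (X i a b) ^ 2 := by
    rw [Finset.sum_comm]
    exact Finset.sum_congr rfl fun a _ => Finset.sum_comm
  rw [h1, h2, Finset.mul_sum]
  refine Finset.sum_le_sum fun a _ => ?_
  rw [Finset.mul_sum]
  exact Finset.sum_le_sum fun b _ => s7a_contract_vec hq fun i => X i a b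

/-- `c ≥ 0` unless the dimension is zero -/
theorem s7a_c_nonneg {q : Mx n} {c : ℝ} (hq : (c • (1 : Mx n) - q * qᵀ).PosSemidef) (a : Fin n) : 0 ≤ c := by
  have h := s7a_contract_vec hq (fun i => if i = a then 1 else 0)
  have h1 : ∑ i, (if i = a then (1 : ℝ) else 0) ^ 2 = 1 := by
    simp
  rw [h1, mul_one] at h
  exact le_trans (Finset.sum_nonneg fun _ _ => sq_nonneg _) h

/-! ### the column `H[q ·]` -/

theorem s7a_mv_apply (q : Mx n) (v : EE n) (i : Fin n) : mv q v i = ∑ k, q i k * v k := rfl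

theorem s7a_mv_eb (q : Mx n) (j i : Fin n) : mv q (eb j) i = q i j := by
  rw [s7a_mv_apply, Finset.sum_eq_single j]
  · simp [eb]
  · intro k _ hk
    simp [eb, hk]
  · intro h; exact absurd (Finset.mem_univ j) h

theorem s7a_colQ_eq (H : Fin n → Mx n) (q : Mx n) (j : Fin n) : colQ H q j = ∑ i, q i j • H i := by
  unfold colQ colAt
  simp only [s7a_mv_eb]

theorem s7a_colQ_at (H : Fin n → Mx n) (q : Mx n) (G : EE n) :
    colAt (colQ H q) G = colAt H (mv q G) := by
  unfold colAt
  simp only [s7a_colQ_eq, s7a_mv_apply, Finset.smul_sum, Finset.sum_smul, smul_smul]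
  rw [Finset.sum_comm]
  refine Finset.sum_congr rfl fun i _ => Finset.sum_congr rfl fun j _ => ?_
  rw [mul_comm]

theorem s7a_colAt_comm {H : Fin n → Mx n} {W : Mx n} (hH : ∀ i, H i * W = W * H i) (v : EE n) :
    colAt H v * W = W * colAt H v := by
  unfold colAt
  rw [Finset.sum_mul, Finset.mul_sum]
  refine Finset.sum_congr rfl fun i _ => ?_
  rw [Matrix.smul_mul, Matrix.mul_smul, hH]

theorem s7a_colS_symm {K : Fin n → Mx n} (hK : ∀ j, (K j).IsSymm) : (colS K).IsSymm := by
  unfold colS Matrix.IsSymm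
  rw [Matrix.transpose_sum]
  refine Finset.sum_congr rfl fun j _ => ?_
  rw [Matrix.transpose_mul, (hK j).eq]

theorem s7a_quad_colS {K : Fin n → Mx n} (hK : ∀ j, (K j).IsSymm) (x : Fin n → ℝ) :
    x ⬝ᵥ (colS K *ᵥ x) = ∑ a, ∑ j, ((K j *ᵥ x) a) ^ 2 := by
  unfold colS
  rw [Matrix.sum_mulVec, dotProduct_sum, Finset.sum_comm]
  refine Finset.sum_congr rfl fun j _ => ?_
  rw [← Matrix.mulVec_mulVec, Matrix.dotProduct_mulVec, ← Matrix.mulVec_transpose, (hK j).eq]
  unfold dotProduct
  exact Finset.sum_congr rfl fun a _ => by ring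

theorem s7a_colQ_col {H : Fin n → Mx n} (hH : ∀ i, (H i).IsSymm)
    (hcol : ((4 : ℝ) • (1 : Mx n) - colS H).PosSemidef) {q : Mx n} (hq : q.IsSymm)
    {cq : ℝ} (hcq : (cq • (1 : Mx n) - q * q).PosSemidef) :
    ((4 * cq) • (1 : Mx n) - colS (colQ H q)).PosSemidef := by
  have hK : ∀ j, (colQ H q j).IsSymm := fun j => s7g_colAt_symm hH _
  have hcq' : (cq • (1 : Mx n) - q * qᵀ).PosSemidef := by rwa [hq.eq]
  rw [mk_psd_iff]
  refine ⟨?_, fun x => ?_⟩
  · unfold Matrix.IsSymm
    rw [Matrix.transpose_sub, Matrix.transpose_smul, Matrix.transpose_one, (s7a_colS_symm hK).eq]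
  · have h4 := (mk_psd_iff.1 hcol).2 x
    rw [Matrix.sub_mulVec, dotProduct_sub, Matrix.smul_mulVec, Matrix.one_mulVec, dotProduct_smul, smul_eq_mul,
      s7a_quad_colS hH] at h4
    rw [Matrix.sub_mulVec, dotProduct_sub, Matrix.smul_mulVec, Matrix.one_mulVec, dotProduct_smul, smul_eq_mul,
      s7a_quad_colS hK]
    have h1 : ∑ a, ∑ j, ((colQ H q j *ᵥ x) a) ^ 2 ≤ cq * ∑ a, ∑ i, ((H i *ᵥ x) a) ^ 2 := by
      rw [Finset.mul_sum]
      refine Finset.sum_le_sum fun a _ => ?_
      refine le_trans (le_of_eq ?_) (s7a_contract_vec hcq' fun i => (H i *ᵥ x) a)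
      refine Finset.sum_congr rfl fun j _ => ?_
      rw [s7a_colQ_eq, Matrix.sum_mulVec, Finset.sum_apply]
      simp only [Matrix.smul_mulVec, Pi.smul_apply, smul_eq_mul]
    rcases isEmpty_or_nonempty (Fin n) with he | ⟨⟨a⟩⟩
    · simp [dotProduct]
    · have hc := s7a_c_nonneg hcq' a
      nlinarith [mul_le_mul_of_nonneg_left (sub_nonneg.1 h4) hc]

theorem s7a_cmm_sum_left (c : Fin n → ℝ) (A : Fin n → Mx n) (B W : Mx n) :
    cmm (∑ i, c i • A i) B * W = ∑ i, c i • (cmm (A i) B * W) := by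
  unfold cmm
  rw [Finset.sum_mul, Finset.mul_sum, ← Finset.sum_sub_distrib, Finset.sum_mul]
  refine Finset.sum_congr rfl fun i _ => ?_
  rw [Matrix.smul_mul, Matrix.mul_smul, ← smul_sub, Matrix.smul_mul]

theorem s7a_cmm_sum_right (c : Fin n → ℝ) (A : Fin n → Mx n) (B W : Mx n) :
    cmm B (∑ i, c i • A i) * W = ∑ i, c i • (cmm B (A i) * W) := by
  unfold cmm
  rw [Finset.sum_mul, Finset.mul_sum, ← Finset.sum_sub_distrib, Finset.sum_mul]
  refine Finset.sum_congr rfl fun i _ => ?_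
  rw [Matrix.smul_mul, Matrix.mul_smul, ← smul_sub, Matrix.smul_mul]

theorem s7a_colQ_cc (H : Fin n → Mx n) (W : Mx n) {q : Mx n} (hq : q.IsSymm)
    {cq : ℝ} (hcq : (cq • (1 : Mx n) - q * q).PosSemidef) :
    ccW (colQ H q) W ≤ cq ^ 2 * ccW H W := by
  have hcq' : (cq • (1 : Mx n) - q * qᵀ).PosSemidef := by rwa [hq.eq]
  unfold ccW
  rcases isEmpty_or_nonempty (Fin n) with he | ⟨⟨a⟩⟩
  · simp
  have hc := s7a_c_nonneg hcq' a
  have h1 : ∀ l, ∑ j, mxSq (cmm (colQ H q j) (colQ H q l) * W)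
      ≤ cq * ∑ i, mxSq (cmm (H i) (colQ H q l) * W) := by
    intro l
    refine le_trans (le_of_eq ?_) (s7a_contract_le hcq' fun i => cmm (H i) (colQ H q l) * W)
    refine Finset.sum_congr rfl fun j _ => ?_
    rw [s7a_colQ_eq H q j, s7a_cmm_sum_left]
  have h2 : ∀ i, ∑ l, mxSq (cmm (H i) (colQ H q l) * W) ≤ cq * ∑ m, mxSq (cmm (H i) (H m) * W) := by
    intro i
    refine le_trans (le_of_eq ?_) (s7a_contract_le hcq' fun m => cmm (H i) (H m) * W)
    refine Finset.sum_congr rfl fun l _ => ?_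
    rw [s7a_colQ_eq H q l, s7a_cmm_sum_right]
  calc ∑ j, ∑ l, mxSq (cmm (colQ H q j) (colQ H q l) * W)
      = ∑ l, ∑ j, mxSq (cmm (colQ H q j) (colQ H q l) * W) := Finset.sum_comm
    _ ≤ ∑ l, cq * ∑ i, mxSq (cmm (H i) (colQ H q l) * W) := Finset.sum_le_sum fun l _ => h1 l
    _ = cq * ∑ i, ∑ l, mxSq (cmm (H i) (colQ H q l) * W) := by
        rw [← Finset.mul_sum, Finset.sum_comm]
    _ ≤ cq * ∑ i, cq * ∑ m, mxSq (cmm (H i) (H m) * W) :=
        mul_le_mul_of_nonneg_left (Finset.sum_le_sum fun i _ => h2 i) hc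
    _ = cq ^ 2 * ∑ i, ∑ m, mxSq (cmm (H i) (H m) * W) := by
        rw [← Finset.mul_sum]; ring

/-! ### index swap -/

theorem s7a_swap_id {q : Mx n} (hq : q.IsSymm) {T : Fin n → Fin n → Fin n → ℝ}
    (hT : ∀ j a b, T j a b = T j b a) (l a b : Fin n) :
    ∑ i, q i l * T i a b - ∑ i, q a i * T l i b
      = -(∑ i, T b l i * q i a - ∑ i, q l i * T b i a) + ∑ i, q i l * (T i b a - T b i a)
        - ∑ i, q i a * (T l b i - T b l i) := by
  rw [← Finset.sum_sub_distrib, ← Finset.sum_sub_distrib, ← Finset.sum_neg_distrib, ← Finset.sum_add_distrib,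
    ← Finset.sum_sub_distrib]
  refine Finset.sum_congr rfl fun i _ => ?_
  rw [hq.apply l i, hq.apply a i, hT i a b, hT l i b]
  ring

theorem s7a_swap_arr {q : Mx n} (hq : q.IsSymm) {cq : ℝ} (hcq : (cq • (1 : Mx n) - q * qᵀ).PosSemidef)
    {T : Fin n → Fin n → Fin n → ℝ} (hT : ∀ j a b, T j a b = T j b a) :
    ∑ l, ∑ a, ∑ b, (∑ i, q i l * T i a b - ∑ i, q a i * T l i b) ^ 2
      ≤ 6 * cq * (∑ i, ∑ a, ∑ b, (T i a b - T a i b) ^ 2)
        + 3 * ∑ b, ∑ l, ∑ a, (∑ i, T b l i * q i a - ∑ i, q l i * T b i a) ^ 2 := by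
  have hv : ∑ l, ∑ a, ∑ b, (∑ i, q i l * (T i b a - T b i a)) ^ 2
      ≤ cq * ∑ i, ∑ a, ∑ b, (T i a b - T a i b) ^ 2 := by
    calc ∑ l, ∑ a, ∑ b, (∑ i, q i l * (T i b a - T b i a)) ^ 2
        = ∑ a, ∑ b, ∑ l, (∑ i, q i l * (T i b a - T b i a)) ^ 2 := by
          rw [Finset.sum_comm]
          exact Finset.sum_congr rfl fun a _ => Finset.sum_comm
      _ ≤ ∑ a, ∑ b, cq * ∑ i, (T i b a - T b i a) ^ 2 :=
          Finset.sum_le_sum fun a _ => Finset.sum_le_sum fun b _ =>
            s7a_contract_vec hcq fun i => T i b a - T b i a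
      _ = cq * ∑ a, ∑ b, ∑ i, (T i b a - T b i a) ^ 2 := by
          simp only [Finset.mul_sum]
      _ = cq * ∑ i, ∑ a, ∑ b, (T i a b - T a i b) ^ 2 := by
          congr 1
          rw [Finset.sum_comm]
          calc ∑ b, ∑ a, ∑ i, (T i b a - T b i a) ^ 2 = ∑ b, ∑ i, ∑ a, (T i b a - T b i a) ^ 2 :=
                Finset.sum_congr rfl fun b _ => Finset.sum_comm
            _ = ∑ i, ∑ b, ∑ a, (T i b a - T b i a) ^ 2 := Finset.sum_comm
  have hw : ∑ l, ∑ a, ∑ b, (∑ i, q i a * (T l b i - T b l i)) ^ 2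
      ≤ cq * ∑ i, ∑ a, ∑ b, (T i a b - T a i b) ^ 2 := by
    calc ∑ l, ∑ a, ∑ b, (∑ i, q i a * (T l b i - T b l i)) ^ 2
        = ∑ l, ∑ b, ∑ a, (∑ i, q i a * (T l b i - T b l i)) ^ 2 :=
          Finset.sum_congr rfl fun l _ => Finset.sum_comm
      _ ≤ ∑ l, ∑ b, cq * ∑ i, (T l b i - T b l i) ^ 2 :=
          Finset.sum_le_sum fun l _ => Finset.sum_le_sum fun b _ =>
            s7a_contract_vec hcq fun i => T l b i - T b l i
      _ = cq * ∑ i, ∑ a, ∑ b, (T i a b - T a i b) ^ 2 := by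
          simp only [Finset.mul_sum]
  have hu : ∑ l, ∑ a, ∑ b, (∑ i, T b l i * q i a - ∑ i, q l i * T b i a) ^ 2
      = ∑ b, ∑ l, ∑ a, (∑ i, T b l i * q i a - ∑ i, q l i * T b i a) ^ 2 := by
    calc ∑ l, ∑ a, ∑ b, (∑ i, T b l i * q i a - ∑ i, q l i * T b i a) ^ 2
        = ∑ l, ∑ b, ∑ a, (∑ i, T b l i * q i a - ∑ i, q l i * T b i a) ^ 2 :=
          Finset.sum_congr rfl fun l _ => Finset.sum_comm
      _ = _ := Finset.sum_comm
  have hp : ∑ l, ∑ a, ∑ b, (∑ i, q i l * T i a b - ∑ i, q a i * T l i b) ^ 2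
      ≤ ∑ l, ∑ a, ∑ b, (3 * (∑ i, T b l i * q i a - ∑ i, q l i * T b i a) ^ 2
        + 3 * (∑ i, q i l * (T i b a - T b i a)) ^ 2 + 3 * (∑ i, q i a * (T l b i - T b l i)) ^ 2) := by
    refine Finset.sum_le_sum fun l _ => Finset.sum_le_sum fun a _ => Finset.sum_le_sum fun b _ => ?_
    rw [s7a_swap_id hq hT]
    generalize (∑ i, T b l i * q i a - ∑ i, q l i * T b i a) = u
    generalize (∑ i, q i l * (T i b a - T b i a)) = v
    generalize (∑ i, q i a * (T l b i - T b l i)) = w
    nlinarith [sq_nonneg (u + v), sq_nonneg (u - w), sq_nonneg (v + w)]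
  refine hp.trans ?_
  simp only [Finset.sum_add_distrib, ← Finset.mul_sum]
  rw [hu]
  linarith

/-- the integrand of the index swap is a column -/
theorem s7a_swap_col (H : Fin n → Mx n) (q W : Mx n) (G : EE n) :
    (colAt H (mv q G) - q * colAt H G) * W = colAt (fun l => (colQ H q l - q * H l) * W) G := by
  rw [← s7a_colQ_at]
  unfold colAt
  rw [Finset.mul_sum, ← Finset.sum_sub_distrib, Finset.sum_mul]
  refine Finset.sum_congr rfl fun l _ => ?_
  rw [Matrix.mul_smul, ← smul_sub, Matrix.smul_mul]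

theorem s7a_swap_int (H : Fin n → Mx n) (q W : Mx n) :
    ∫ G, mxSq ((colAt H (mv q G) - q * colAt H G) * W) ∂(gam n)
      = ∑ l, mxSq ((colQ H q l - q * H l) * W) := by
  simp only [s7a_swap_col]
  exact (s7a_avg_sq _).2

theorem s7a_swap_sum {H : Fin n → Mx n} {W : Mx n} (hH : ∀ i, (H i).IsSymm) (hW : W.IsSymm)
    (hHW : ∀ i, H i * W = W * H i) {q : Mx n} (hq : q.IsSymm)
    (hqW : q * W = W * q) {cq : ℝ} (hcq : (cq • (1 : Mx n) - q * q).PosSemidef) :
    ∑ l, mxSq ((colQ H q l - q * H l) * W)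
      ≤ 6 * cq * xdW H W + 3 * ∑ b, mxSq (cmm (H b) q * W) := by
  have hcq' : (cq • (1 : Mx n) - q * qᵀ).PosSemidef := by rwa [hq.eq]
  have hT : ∀ j a b, (H j * W) a b = (H j * W) b a := by
    intro j a b
    have : (H j * W)ᵀ = H j * W := by
      rw [Matrix.transpose_mul, hW.eq, (hH j).eq, hHW]
    conv_lhs => rw [← this]
    rfl
  have h := s7a_swap_arr hq hcq' (T := fun j a b => (H j * W) a b) hT
  have e1 : ∀ l a b, ((colQ H q l - q * H l) * W) a b
      = ∑ i, q i l * (H i * W) a b - ∑ i, q a i * (H l * W) i b := by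
    intro l a b
    rw [Matrix.sub_mul, Matrix.sub_apply, s7a_colQ_eq, Finset.sum_mul, Matrix.sum_apply, Matrix.mul_assoc,
      Matrix.mul_apply]
    simp only [Matrix.smul_mul, Matrix.smul_apply, smul_eq_mul]
  have e2 : ∀ b l a, (cmm (H b) q * W) l a
      = ∑ i, (H b * W) l i * q i a - ∑ i, q l i * (H b * W) i a := by
    intro b l a
    unfold cmm
    rw [Matrix.sub_mul, Matrix.sub_apply, Matrix.mul_assoc, hqW, ← Matrix.mul_assoc, Matrix.mul_apply,
      Matrix.mul_assoc, Matrix.mul_apply]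
  simp only [Claimed.Agent.R260.mxSq_eq_sum, e1, e2]
  exact h

/-! ### the square of the column `H[q ·]` -/

theorem s7a_mxSq_transpose (A : Mx n) : mxSq Aᵀ = mxSq A := by
  rw [mxSq_eq_hs2, mxSq_eq_hs2, hs2_transpose]

theorem s7a_row_real {K : Fin n → Mx n} {c : ℝ}
    (hcol : (c • (1 : Mx n) - ∑ j, (K j)ᵀ * K j).PosSemidef) (A : Fin n → Mx n) :
    mxSq (∑ j, A j * K j) ≤ c * ∑ j, mxSq (A j) := by
  have h := s7a_col_real (K := fun j => (K j)ᵀ) (c := c)
    (by simpa only [Matrix.transpose_transpose] using hcol) fun j => (A j)ᵀ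
  simp only [s7a_mxSq_transpose] at h
  refine le_trans (le_of_eq ?_) h
  rw [← s7a_mxSq_transpose, Matrix.transpose_sum]
  congr 1
  refine Finset.sum_congr rfl fun j _ => ?_
  rw [Matrix.transpose_mul]

theorem s7a_sqrt_add_le (A B : Mx n) :
    Real.sqrt (mxSq (A + B)) ≤ Real.sqrt (mxSq A) + Real.sqrt (mxSq B) := by
  simp only [mxSq_eq_hs2]
  exact sqrt_hs2_add_le A B

/-- the algebraic identity behind `s7_colQ_S`, one term -/
theorem s7a_S_term {K H q W : Mx n} (hK : K.IsSymm) (hH : H.IsSymm) (hq : q.IsSymm) (hW : W.IsSymm)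
    (hKW : K * W = W * K) (hHW : H * W = W * H) (hqW : q * W = W * q) :
    K * K * W - q * (H * H) * q * W = K * ((K - q * H) * W)ᵀ + (K - q * H) * W * H * q := by
  have e : ((K - q * H) * W)ᵀ = (K - H * q) * W := by
    rw [Matrix.transpose_mul, Matrix.transpose_sub, Matrix.transpose_mul, hW.eq, hK.eq, hH.eq, hq.eq,
      Matrix.mul_sub, Matrix.sub_mul, hKW, ← Matrix.mul_assoc, ← hHW, Matrix.mul_assoc, ← hqW, Matrix.mul_assoc]
  have e2 : W * H * q = H * q * W := by
    rw [← hHW, Matrix.mul_assoc, ← hqW, Matrix.mul_assoc]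
  rw [e, Matrix.mul_assoc (K - q * H) W H, Matrix.mul_assoc (K - q * H) (W * H) q, e2]
  noncomm_ring

theorem s7a_S_id {H : Fin n → Mx n} {W : Mx n} (hH : ∀ i, (H i).IsSymm) (hW : W.IsSymm)
    (hHW : ∀ i, H i * W = W * H i) {q : Mx n} (hq : q.IsSymm) (hqW : q * W = W * q) :
    (colS (colQ H q) - q * q) * W
      = ∑ j, colQ H q j * ((colQ H q j - q * H j) * W)ᵀ + (∑ j, (colQ H q j - q * H j) * W * H j) * q
        + q * ((colS H - 1) * W) * q := by
  have h1 : ∀ j, colQ H q j * colQ H q j * W - q * (H j * H j) * q * W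
      = colQ H q j * ((colQ H q j - q * H j) * W)ᵀ + (colQ H q j - q * H j) * W * H j * q := fun j =>
    s7a_S_term (s7g_colAt_symm hH _) (hH j) hq hW (s7a_colAt_comm hHW _) (hHW j) hqW
  have h2 : colS (colQ H q) * W - q * colS H * q * W
      = ∑ j, colQ H q j * ((colQ H q j - q * H j) * W)ᵀ
        + (∑ j, (colQ H q j - q * H j) * W * H j) * q := by
    rw [Finset.sum_mul, ← Finset.sum_add_distrib]
    simp only [← h1]
    unfold colS
    rw [Finset.sum_sub_distrib, Finset.sum_mul, Finset.mul_sum, Finset.sum_mul, Finset.sum_mul]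
  rw [← h2]
  have e3 : q * ((colS H - 1) * W) * q = q * colS H * q * W - q * q * W := by
    rw [Matrix.mul_assoc q _ q, Matrix.mul_assoc _ W q, ← hqW]
    noncomm_ring
  rw [e3]
  noncomm_ring

theorem s7a_colQ_S {H : Fin n → Mx n} {W : Mx n} (hH : ∀ i, (H i).IsSymm) (hW : W.IsSymm)
    (hHW : ∀ i, H i * W = W * H i) (hcol : ((4 : ℝ) • (1 : Mx n) - colS H).PosSemidef)
    {q : Mx n} (hq : q.IsSymm)
    (hqW : q * W = W * q) {cq : ℝ} (hcq : (cq • (1 : Mx n) - q * q).PosSemidef) :
    Real.sqrt (mxSq ((colS (colQ H q) - q * q) * W))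
      ≤ 4 * Real.sqrt cq * Real.sqrt (∑ l, mxSq ((colQ H q l - q * H l) * W))
        + cq * Real.sqrt (mxSq ((colS H - 1) * W)) := by
  have hcq' : (cq • (1 : Mx n) - q * qᵀ).PosSemidef := by rwa [hq.eq]
  have hcq'' : (cq • (1 : Mx n) - qᵀ * q).PosSemidef := by rwa [hq.eq]
  rcases isEmpty_or_nonempty (Fin n) with he | ⟨⟨a⟩⟩
  · simp [Claimed.Agent.R260.mxSq_eq_sum]
  have hc := s7a_c_nonneg hcq' a
  have hK : ∀ j, (colQ H q j).IsSymm := fun j => s7g_colAt_symm hH _
  set D : ℝ := ∑ l, mxSq ((colQ H q l - q * H l) * W) with hD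
  have hD0 : 0 ≤ D := Finset.sum_nonneg fun _ _ => Claimed.Agent.R260.mxSq_nonneg _
  have s4 : Real.sqrt 4 = 2 := by
    rw [show (4 : ℝ) = 2 ^ 2 by norm_num, Real.sqrt_sq (by norm_num)]
  -- first term
  have b1 : Real.sqrt (mxSq (∑ j, colQ H q j * ((colQ H q j - q * H j) * W)ᵀ))
      ≤ 2 * Real.sqrt cq * Real.sqrt D := by
    have hKc : ((4 * cq) • (1 : Mx n) - ∑ j, colQ H q j * (colQ H q j)ᵀ).PosSemidef := by
      have := s7a_colQ_col hH hcol hq hcq
      unfold colS at this
      simpa only [(hK _).eq] using this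
    have h := s7a_col_real hKc fun j => ((colQ H q j - q * H j) * W)ᵀ
    simp only [s7a_mxSq_transpose] at h
    refine (Real.sqrt_le_sqrt h).trans (le_of_eq ?_)
    rw [Real.sqrt_mul (by positivity), Real.sqrt_mul (by norm_num), s4]
  -- second term
  have b2 : Real.sqrt (mxSq ((∑ j, (colQ H q j - q * H j) * W * H j) * q))
      ≤ 2 * Real.sqrt cq * Real.sqrt D := by
    have hHc : ((4 : ℝ) • (1 : Mx n) - ∑ j, (H j)ᵀ * H j).PosSemidef := by
      have := hcol
      unfold colS at this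
      simpa only [(hH _).eq] using this
    have h := s7a_row_real hHc fun j => (colQ H q j - q * H j) * W
    have h' := hs2_mul_le_right (∑ j, (colQ H q j - q * H j) * W * H j) hcq'
    rw [← mxSq_eq_hs2, ← mxSq_eq_hs2] at h'
    have h'' : mxSq ((∑ j, (colQ H q j - q * H j) * W * H j) * q) ≤ 4 * cq * D := by
      calc _ ≤ cq * mxSq (∑ j, (colQ H q j - q * H j) * W * H j) := h'
        _ ≤ cq * (4 * D) := mul_le_mul_of_nonneg_left h hc
        _ = 4 * cq * D := by ring
    refine (Real.sqrt_le_sqrt h'').trans (le_of_eq ?_)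
    rw [Real.sqrt_mul (by positivity), Real.sqrt_mul (by norm_num), s4]
  -- third term
  have b3 : Real.sqrt (mxSq (q * ((colS H - 1) * W) * q)) ≤ cq * Real.sqrt (mxSq ((colS H - 1) * W)) := by
    have h' := hs2_mul_le_right (q * ((colS H - 1) * W)) hcq'
    have h'' := hs2_mul_le_left hcq'' ((colS H - 1) * W)
    rw [← mxSq_eq_hs2, ← mxSq_eq_hs2] at h' h''
    have h3 : mxSq (q * ((colS H - 1) * W) * q) ≤ cq ^ 2 * mxSq ((colS H - 1) * W) := by
      calc _ ≤ cq * mxSq (q * ((colS H - 1) * W)) := h'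
        _ ≤ cq * (cq * mxSq ((colS H - 1) * W)) := mul_le_mul_of_nonneg_left h'' hc
        _ = _ := by ring
    refine (Real.sqrt_le_sqrt h3).trans (le_of_eq ?_)
    rw [Real.sqrt_mul (by positivity), Real.sqrt_sq hc]
  rw [s7a_S_id hH hW hHW hq hqW]
  refine (s7a_sqrt_add_le _ _).trans ?_
  have := s7a_sqrt_add_le (∑ j, colQ H q j * ((colQ H q j - q * H j) * W)ᵀ)
    ((∑ j, (colQ H q j - q * H j) * W * H j) * q)
  linarith

/-! ### the scalar function `g_x` -/

theorem s7a_fL_nonneg {L q : ℝ} (hL : 0 < L) (hq : 0 < q) : 0 ≤ fL L q := by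
  unfold fL
  positivity

theorem s7a_fL_le {L q : ℝ} (hL : 0 < L) (hq : 0 < q) : fL L q ≤ L := by
  unfold fL
  rw [div_le_iff₀ (by positivity)]
  have : L * (1 + q / L) = L + q := by field_simp
  rw [this]
  linarith

theorem s7a_gx_hasDeriv {t L x : ℝ} (hL : 0 < L) (hx : 0 < x) (v : ℝ) :
    HasDerivAt (gx t L x)
      (Real.sqrt (8 * t) * (x * Real.exp (Real.sqrt (8 * t) * v - 4 * t))
        / (1 + x * Real.exp (Real.sqrt (8 * t) * v - 4 * t) / L) ^ 2 / (2 * gx t L x v)) v := by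
  set c := Real.sqrt (8 * t) with hc
  have hQ : HasDerivAt (fun v => x * Real.exp (c * v - 4 * t)) (x * (Real.exp (c * v - 4 * t) * c)) v := by
    have h1 : HasDerivAt (fun v => c * v - 4 * t) c v := by
      simpa using ((hasDerivAt_id v).const_mul c).sub_const (4 * t)
    exact (h1.exp).const_mul x
  have hQ0 : 0 < x * Real.exp (c * v - 4 * t) := by positivity
  have hden : (1 + x * Real.exp (c * v - 4 * t) / L) ≠ 0 := by positivity
  have hF := hQ.div ((hQ.div_const L).const_add 1) hden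
  have hpos : 1 + fL L (x * Real.exp (c * v - 4 * t)) ≠ 0 := by
    have := s7a_fL_nonneg hL hQ0
    positivity
  have hG := (hF.const_add 1).sqrt hpos
  refine hG.congr_deriv ?_
  unfold gx
  rw [← hc]
  congr 1
  field_simp
  ring

theorem s7a_gx_one_le {t L x : ℝ} (hL : 0 < L) (hx : 0 < x) (v : ℝ) : 1 ≤ gx t L x v := by
  unfold gx
  rw [Real.one_le_sqrt]
  have := s7a_fL_nonneg hL (q := x * Real.exp (Real.sqrt (8 * t) * v - 4 * t)) (by positivity)
  linarith

theorem s7a_gx_deriv_le {t L x : ℝ} (hL : 0 < L) (hx : 0 < x) (v : ℝ) :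
    ‖Real.sqrt (8 * t) * (x * Real.exp (Real.sqrt (8 * t) * v - 4 * t))
        / (1 + x * Real.exp (Real.sqrt (8 * t) * v - 4 * t) / L) ^ 2 / (2 * gx t L x v)‖
      ≤ Real.sqrt (8 * t) * L / 8 := by
  have hg := s7a_gx_one_le (t := t) hL hx v
  set c := Real.sqrt (8 * t) with hc
  have hc0 : 0 ≤ c := Real.sqrt_nonneg _
  set Q := x * Real.exp (c * v - 4 * t) with hQ
  have hQ0 : 0 < Q := by positivity
  rw [Real.norm_of_nonneg (by positivity)]
  have h1 : Q / (1 + Q / L) ^ 2 ≤ L / 4 := by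
    rw [div_le_iff₀ (by positivity)]
    have : L / 4 * (1 + Q / L) ^ 2 - Q = (L - Q) ^ 2 / (4 * L) := by
      field_simp
      ring
    have h2 : 0 ≤ (L - Q) ^ 2 / (4 * L) := by positivity
    linarith
  have h0 : 0 ≤ Q / (1 + Q / L) ^ 2 := by positivity
  calc c * Q / (1 + Q / L) ^ 2 / (2 * gx t L x v)
      ≤ c * Q / (1 + Q / L) ^ 2 / 2 := by
        apply div_le_div_of_nonneg_left (by positivity) (by norm_num)
        linarith
    _ = c * (Q / (1 + Q / L) ^ 2) / 2 := by ring
    _ ≤ c * (L / 4) / 2 := by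
        have := mul_le_mul_of_nonneg_left h1 hc0
        linarith
    _ = c * L / 8 := by ring

theorem s7a_gx_bounds {t L x : ℝ} (ht : 0 < t) (hL : 1 ≤ L) (hx : 0 < x) :
    (∀ v, 1 ≤ gx t L x v) ∧ (∀ v, gx t L x v ^ 2 ≤ 1 + L) ∧ Continuous (gx t L x) ∧
      ∀ a b, |gx t L x a - gx t L x b| ≤ Real.sqrt (8 * t) * L / 8 * |a - b| := by
  have hL0 : 0 < L := by linarith
  refine ⟨s7a_gx_one_le hL0 hx, fun v => ?_, ?_, fun a b => ?_⟩
  · have hq : 0 < x * Real.exp (Real.sqrt (8 * t) * v - 4 * t) := by positivity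
    unfold gx
    rw [Real.sq_sqrt (by have := s7a_fL_nonneg hL0 hq; positivity)]
    have := s7a_fL_le hL0 hq
    linarith
  · exact continuous_iff_continuousAt.2 fun v => (s7a_gx_hasDeriv hL0 hx v).continuousAt
  · have h := Convex.norm_image_sub_le_of_norm_hasDerivWithin_le (s := Set.univ) (x := b) (y := a)
      (fun v _ => (s7a_gx_hasDeriv (t := t) hL0 hx v).hasDerivWithinAt)
      (fun v _ => s7a_gx_deriv_le hL0 hx v) convex_univ (Set.mem_univ _) (Set.mem_univ _)
    simpa only [Real.norm_eq_abs] using h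

/-! ### splitting of exponentials -/

/-- the path `e^{i(1-v)(X+Y)} e^{ivX} e^{ivY}` -/
noncomputable def s7aPath (X Y : Mx n) (v : ℝ) : CMx n := cE (-1 * v + 1) (X + Y) * (cE v X * cE v Y)

/-- its derivative -/
noncomputable def s7aPath' (X Y : Mx n) (v : ℝ) : CMx n :=
  (((-1 : ℝ) : ℂ) • (Complex.I • (toC (X + Y) * cE (-1 * v + 1) (X + Y)))) * (cE v X * cE v Y)
    + cE (-1 * v + 1) (X + Y) * ((Complex.I • (toC X * cE v X)) * cE v Y
      + cE v X * (Complex.I • (toC Y * cE v Y)))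

theorem s7a_path_MD {X Y : Mx n} (hX : X.IsSymm) (hY : Y.IsSymm) (v : ℝ) :
    s7gMD (s7aPath X Y) (s7aPath' X Y v) v := by
  have hZ : (X + Y).IsSymm := by
    unfold Matrix.IsSymm
    rw [Matrix.transpose_add, hX.eq, hY.eq]
  exact ((s7g_MD_cE hZ (-1 * v + 1)).comp_affine).mul ((s7g_MD_cE hX v).mul (s7g_MD_cE hY v))

theorem s7a_path'_W {X Y W : Mx n} (hX : X.IsSymm) (hY : Y.IsSymm) (hXW : X * W = W * X)
    (hYW : Y * W = W * Y) (v : ℝ) :
    s7aPath' X Y v * toC W = Complex.I •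
      (cE (-1 * v + 1) (X + Y) * (cE v X * toC (Y * W) - toC (Y * W) * cE v X) * cE v Y) := by
  have hZ : (X + Y).IsSymm := by
    unfold Matrix.IsSymm
    rw [Matrix.transpose_add, hX.eq, hY.eq]
  have e1 : toC (X + Y) * cE (-1 * v + 1) (X + Y) = cE (-1 * v + 1) (X + Y) * toC (X + Y) :=
    cE_commute_self _ hZ
  have e4 : cE v Y * toC W = toC W * cE v Y := (s7g_cE_comm_W hY hYW _).symm
  have e5 : cE v X * toC W = toC W * cE v X := (s7g_cE_comm_W hX hXW _).symm
  unfold s7aPath'
  rw [e1, toC_add, toC_mul]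
  generalize cE (-1 * v + 1) (X + Y) = E0 at *
  generalize cE v X = E1 at *
  generalize cE v Y = E2 at *
  have e6 : E0 * (E1 * (toC Y * toC W) - toC Y * toC W * E1) * E2
      = E0 * (E1 * toC Y * E2 - toC Y * E1 * E2) * toC W := by
    rw [Matrix.mul_assoc E0 _ E2, Matrix.mul_assoc E0 _ (toC W)]
    congr 1
    rw [Matrix.sub_mul, Matrix.sub_mul, Matrix.mul_assoc (E1 * toC Y) E2, e4, Matrix.mul_assoc (toC Y * E1) E2, e4,
      ← Matrix.mul_assoc (toC Y * E1) (toC W), Matrix.mul_assoc (toC Y) E1 (toC W), e5]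
    simp only [Matrix.mul_assoc]
  rw [e6]
  simp only [Matrix.mul_add, Matrix.add_mul, Matrix.sub_mul, Matrix.mul_sub, Matrix.mul_smul, Matrix.smul_mul, smul_sub,
    smul_add, smul_smul, Matrix.mul_assoc]
  push_cast
  module

theorem s7a_path'_le {X Y W : Mx n} (hX : X.IsSymm) (hY : Y.IsSymm) (hXW : X * W = W * X)
    (hYW : Y * W = W * Y) {v : ℝ} (hv : 0 ≤ v) :
    Real.sqrt (cSq (s7aPath' X Y v * toC W)) ≤ Real.sqrt (mxSq (cmm X Y * W)) * v := by
  rw [s7a_path'_W hX hY hXW hYW, cSq_smul, Complex.norm_I, one_pow, one_mul,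
    cSq_mul_unitary _ (cE_mul_conjTranspose _ _), cSq_unitary_mul _ (cE_conjTranspose_mul _ _)]
  have h1 := cE_comm_le v hX (toC (Y * W))
  have h2 : toC X * toC (Y * W) - toC (Y * W) * toC X = toC (cmm X Y * W) := by
    rw [← toC_mul, ← toC_mul, ← toC_sub]
    congr 1
    unfold cmm
    rw [Matrix.mul_assoc Y W X, ← hXW]
    simp only [Matrix.sub_mul, Matrix.mul_assoc]
  rw [h2, cSq_toC] at h1
  refine (Real.sqrt_le_sqrt h1).trans (le_of_eq ?_)
  rw [Real.sqrt_mul (by positivity), Real.sqrt_sq hv, mul_comm]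

theorem s7a_split {X Y W : Mx n} (hX : X.IsSymm) (hY : Y.IsSymm) (hXW : X * W = W * X)
    (hYW : Y * W = W * Y) :
    cSq ((cE 1 (X + Y) - cE 1 X * cE 1 Y) * toC W) ≤ 1 / 4 * mxSq (cmm X Y * W) := by
  set c : ℝ := Real.sqrt (mxSq (cmm X Y * W)) with hc
  have hc0 : 0 ≤ c := Real.sqrt_nonneg _
  have key : Real.sqrt (cSq ((cE 1 (X + Y) - cE 1 X * cE 1 Y) * toC W)) ≤ c / 2 := by
    refine s7g_dual (by positivity) fun Z => ?_
    have hder : ∀ v, HasDerivAt (fun v => Matrix.trace (Z * (s7aPath X Y v * toC W))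
        - Matrix.trace (Z * (s7aPath X Y 0 * toC W)))
        (Matrix.trace (Z * (s7aPath' X Y v * toC W))) v := fun v =>
      (((((s7a_path_MD hX hY v).mul_const (toC W)).const_mul Z).trace).sub_const _)
    have hB : ∀ v : ℝ, HasDerivAt (fun v : ℝ => Real.sqrt (cSq Z) * c * (v ^ 2 / 2)) (Real.sqrt (cSq Z) * c * v) v := by
      intro v
      have := ((hasDerivAt_pow 2 v).div_const 2).const_mul (Real.sqrt (cSq Z) * c)
      refine this.congr_deriv ?_
      simp
    have h := image_norm_le_of_norm_deriv_right_le_deriv_boundary (a := 0) (b := 1)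
      (f := fun v => Matrix.trace (Z * (s7aPath X Y v * toC W)) - Matrix.trace (Z * (s7aPath X Y 0 * toC W)))
      (f' := fun v => Matrix.trace (Z * (s7aPath' X Y v * toC W)))
      (B := fun v : ℝ => Real.sqrt (cSq Z) * c * (v ^ 2 / 2)) (B' := fun v => Real.sqrt (cSq Z) * c * v)
      (fun v _ => (hder v).continuousAt.continuousWithinAt)
      (fun v _ => (hder v).hasDerivWithinAt) (by simp) hB
      (fun v hv => by
        have := s7g_trace_le Z _ (s7a_path'_le hX hY hXW hYW hv.1)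
        rw [mul_assoc]
        exact this)
      (x := 1) (by simp)
    have e0 : s7aPath X Y 0 = cE 1 (X + Y) := by
      unfold s7aPath
      rw [cE_zero, cE_zero, Matrix.mul_one, Matrix.mul_one]
      congr 1; norm_num
    have e1 : s7aPath X Y 1 = cE 1 X * cE 1 Y := by
      unfold s7aPath
      have : (-1 * 1 + 1 : ℝ) = 0 := by norm_num
      rw [this, cE_zero, Matrix.one_mul]
    simp only [e0, e1] at h
    rw [← Matrix.trace_sub, ← Matrix.mul_sub, ← Matrix.sub_mul, ← norm_neg, ← Matrix.trace_neg, ← Matrix.mul_neg,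
      ← Matrix.neg_mul, neg_sub] at h
    refine h.trans (le_of_eq ?_)
    ring
  have h2 := Real.sqrt_le_left (x := cSq ((cE 1 (X + Y) - cE 1 X * cE 1 Y) * toC W)) (y := c / 2) (by positivity)
  have h3 := h2.1 key
  have h4 : c ^ 2 = mxSq (cmm X Y * W) := Real.sq_sqrt (Claimed.Agent.R260.mxSq_nonneg _)
  calc _ ≤ (c / 2) ^ 2 := h3
    _ = 1 / 4 * mxSq (cmm X Y * W) := by rw [← h4]; ring

/-- generates the equation lemmas of the definitions above in this file (rule 6: unique names) -/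
theorem s7lawalga_eqns_cite : True := by
  have := @s7aPath.eq_1
  have := @s7aPath'.eq_1
  trivial

end Claimed.Agent.R259
end
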