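/- Packed by merge_tool.py (helper293): 12 modules of Claimed.Agent.R259 in one file, same declarations.
   Old modules, in this order: ExBase, ExExtract, ExDefect, ExVan, ExEuler, ExGapL, S4CurveKer, S4CurveJoint, DbPost, DbStep, DbKl, Db -/
import Claimed.Agent.R259.WsLim
import Claimed.Agent.R259.Pack007
import Claimed.Agent.R259.Pack039
import Claimed.Agent.R259.Pack011
import Claimed.Agent.R259.Pack008
import Claimed.Agent.R259.Pack037
import Claimed.Agent.R259.Pack004
import Claimed.Agent.R259.Pack005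

/- ===== packed: Claimed.Agent.R259.ExBase ===== -/
section
/-
Row 259, kit EX (direct method): shared toolkit (`H¹` is a vector space, quadratic expansions).
Owner: helper54.
-/
set_option autoImplicit false
set_option linter.unusedSectionVars false

open MeasureTheory Filter Topology ProbabilityTheory
open scoped ContDiff ENNReal

namespace Claimed.Agent.R259

variable {E : Type} [NormedAddCommGroup E] [InnerProductSpace ℝ E] [FiniteDimensional ℝ E]
  [MeasurableSpace E] [BorelSpace E]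

theorem exk_ent_unit {m : Measure E} {u : E → ℝ} (h : ∫ x, u x ^ 2 ∂m = 1) :
    ent m (fun x => u x ^ 2) = ∫ x, u x ^ 2 * Real.log (u x ^ 2) ∂m := by
  unfold ent
  rw [h]
  simp

/-! ### `H¹` is a vector space containing the constants -/

theorem exk_H1_smul {m : Measure E} {u : E → ℝ} {g : E → E} (c : ℝ) (h : H1 m u g) :
    H1 m (fun x => c * u x) (fun x => c • g x) :=
  ⟨ws_weakGrad_smul c h.1, h.2.1.const_mul c, h.2.2.const_smul c⟩

theorem exk_H1_add {m : Measure E} {u v : E → ℝ} {g k : E → E} (h : H1 m u g) (h' : H1 m v k) :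
    H1 m (fun x => u x + v x) (fun x => g x + k x) :=
  ⟨ws_weakGrad_add h.1 h'.1, h.2.1.add h'.2.1, h.2.2.add h'.2.2⟩

theorem exk_H1_neg {m : Measure E} {u : E → ℝ} {g : E → E} (h : H1 m u g) :
    H1 m (fun x => - u x) (fun x => - g x) := by
  have := exk_H1_smul (-1) h
  simpa using this

theorem exk_H1_add_const {m : Measure E} [IsFiniteMeasure m] {u : E → ℝ} {g : E → E} (c : ℝ)
    (h : H1 m u g) : H1 m (fun x => u x + c) g := by
  have h1 : WeakGrad (fun _ : E => c) (gradient fun _ : E => c) :=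
    ws_weakGrad_of_contDiff contDiff_const
  have e : (gradient fun _ : E => c) = fun _ => 0 := by
    funext x
    unfold gradient
    simp
  rw [e] at h1
  have h2 := ws_weakGrad_add h.1 h1
  simp only [add_zero] at h2
  exact ⟨h2, h.2.1.add (memLp_const c), h.2.2⟩

theorem exk_H1_sub_const {m : Measure E} [IsFiniteMeasure m] {u : E → ℝ} {g : E → E} (c : ℝ)
    (h : H1 m u g) : H1 m (fun x => u x - c) g := by
  simpa [sub_eq_add_neg] using exk_H1_add_const (-c) h

/-! ### quadratic expansions -/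

theorem exk_int_sq_smul {m : Measure E} (c : ℝ) (u : E → ℝ) :
    ∫ x, (c * u x) ^ 2 ∂m = c ^ 2 * ∫ x, u x ^ 2 ∂m := by
  rw [← integral_const_mul]
  exact integral_congr_ae (Eventually.of_forall fun x => by simp only; ring)

theorem exk_int_normsq_smul {m : Measure E} (c : ℝ) (g : E → E) :
    ∫ x, ‖c • g x‖ ^ 2 ∂m = c ^ 2 * ∫ x, ‖g x‖ ^ 2 ∂m := by
  rw [← integral_const_mul]
  refine integral_congr_ae (Eventually.of_forall fun x => ?_)
  simp only
  rw [norm_smul, mul_pow, Real.norm_eq_abs, sq_abs]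

theorem exk_integrable_inner {m : Measure E} {g k : E → E} (hg : MemLp g 2 m) (hk : MemLp k 2 m) :
    Integrable (fun x => inner ℝ (g x) (k x)) m := by
  have h1 := (memLp_two_iff_integrable_sq_norm hg.1).mp hg
  have h2 := (memLp_two_iff_integrable_sq_norm hk.1).mp hk
  refine Integrable.mono' (h1.add h2) (hg.1.inner hk.1) (Eventually.of_forall fun x => ?_)
  have h3 := abs_real_inner_le_norm (g x) (k x)
  rw [Real.norm_eq_abs]
  simp only [Pi.add_apply]
  nlinarith [sq_nonneg (‖g x‖ - ‖k x‖), sq_nonneg ‖g x‖, sq_nonneg ‖k x‖]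

theorem exk_int_sq_add {m : Measure E} {u w : E → ℝ} (hu : MemLp u 2 m) (hw : MemLp w 2 m)
    (t : ℝ) :
    ∫ x, (u x + t * w x) ^ 2 ∂m =
      ∫ x, u x ^ 2 ∂m + 2 * t * ∫ x, u x * w x ∂m + t ^ 2 * ∫ x, w x ^ 2 ∂m := by
  have h1 := hu.integrable_sq
  have h2 := hw.integrable_sq
  have h3 : Integrable (fun x => u x * w x) m := hu.integrable_mul hw
  have e : (fun x => (u x + t * w x) ^ 2) =
      fun x => u x ^ 2 + (2 * t) * (u x * w x) + t ^ 2 * w x ^ 2 := by
    funext x; ring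
  have h4 : Integrable (fun x => u x ^ 2 + (2 * t) * (u x * w x)) m := h1.add (h3.const_mul _)
  rw [e, integral_add h4 (h2.const_mul _),
    integral_add h1 (h3.const_mul _), integral_const_mul, integral_const_mul]

theorem exk_int_normsq_add {m : Measure E} {g k : E → E} (hg : MemLp g 2 m) (hk : MemLp k 2 m)
    (t : ℝ) :
    ∫ x, ‖g x + t • k x‖ ^ 2 ∂m =
      ∫ x, ‖g x‖ ^ 2 ∂m + 2 * t * ∫ x, inner ℝ (g x) (k x) ∂m + t ^ 2 * ∫ x, ‖k x‖ ^ 2 ∂m := by
  have h1 := (memLp_two_iff_integrable_sq_norm hg.1).mp hg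
  have h2 := (memLp_two_iff_integrable_sq_norm hk.1).mp hk
  have h3 := exk_integrable_inner hg hk
  have e : (fun x => ‖g x + t • k x‖ ^ 2) =
      fun x => ‖g x‖ ^ 2 + (2 * t) * (inner ℝ (g x) (k x)) + t ^ 2 * ‖k x‖ ^ 2 := by
    funext x
    rw [norm_add_sq_real, inner_smul_right, norm_smul, mul_pow, Real.norm_eq_abs, sq_abs]
    ring
  have h4 : Integrable (fun x => ‖g x‖ ^ 2 + (2 * t) * (inner ℝ (g x) (k x))) m :=
    h1.add (h3.const_mul _)
  rw [e, integral_add h4 (h2.const_mul _),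
    integral_add h1 (h3.const_mul _), integral_const_mul, integral_const_mul]

/-- a linear function dominated by a quadratic one vanishes. -/
theorem exk_lin_zero {a b : ℝ} (h : ∀ t : ℝ, a * t ≤ b * t ^ 2) : a = 0 := by
  by_contra ha
  have hb : 0 < b := by
    have h1 := h a
    have h2 : 0 < a * a := mul_self_pos.mpr ha
    by_contra hb
    have : b * a ^ 2 ≤ 0 := mul_nonpos_of_nonpos_of_nonneg (not_lt.mp hb) (sq_nonneg a)
    linarith
  have h1 := h (a / (2 * b))
  have e1 : a * (a / (2 * b)) = a ^ 2 / (2 * b) := by ring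
  have e2 : b * (a / (2 * b)) ^ 2 = a ^ 2 / (4 * b) := by
    field_simp
    ring
  rw [e1, e2] at h1
  have h2 : 0 < a ^ 2 := by positivity
  have e3 : a ^ 2 / (2 * b) = 2 * (a ^ 2 / (4 * b)) := by
    field_simp
    ring
  have h3 : 0 < a ^ 2 / (4 * b) := by positivity
  linarith

end Claimed.Agent.R259
end

/- ===== packed: Claimed.Agent.R259.ExExtract ===== -/
section
/-
Row 259, kit EX, leaf EXTRACT.  Architect and owner: helper54.
(1) `cpt_embedding` gives `φ₁`, `v ∈ L²`; (2) Bolzano-Weierstrass for the energies; (3) `ws_lsc` gives the weak gradient of the limit;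
(4) `dfk_lsc` gives the sharp lower semicontinuity.
-/
set_option autoImplicit false
set_option linter.unusedSectionVars false

open MeasureTheory Filter Topology ProbabilityTheory
open scoped ContDiff ENNReal

namespace Claimed.Agent.R259

variable {E : Type} [NormedAddCommGroup E] [InnerProductSpace ℝ E] [FiniteDimensional ℝ E]
  [MeasurableSpace E] [BorelSpace E]

theorem exk_extract {μ : Measure E} [IsProbabilityMeasure μ] (hb : BddSupp μ) {s : ℝ} (hs : 0 < s)
    {u : ℕ → E → ℝ} {g : ℕ → E → E} (h : ∀ k, H1 (dm (gconv μ s)) (u k) (g k)) {B : ℝ}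
    (hB : ∀ k, ∫ x, u k x ^ 2 ∂(dm (gconv μ s)) + ∫ x, ‖g k x‖ ^ 2 ∂(dm (gconv μ s)) ≤ B) :
    ∃ (φ : ℕ → ℕ) (v : E → ℝ) (gv : E → E) (Es : ℝ), StrictMono φ ∧ H1 (dm (gconv μ s)) v gv ∧
      Tendsto (fun k => ∫ x, (u (φ k) x - v x) ^ 2 ∂(dm (gconv μ s))) atTop (𝓝 0) ∧
      Tendsto (fun k => ∫ x, ‖g (φ k) x‖ ^ 2 ∂(dm (gconv μ s))) atTop (𝓝 Es) ∧
      ∫ x, ‖gv x‖ ^ 2 ∂(dm (gconv μ s)) ≤ Es := by
  obtain ⟨hsm, hpos, -⟩ := gc_spd (μ := μ) hb hs
  have hcont : Continuous (gconv μ s) := hsm.continuous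
  obtain ⟨φ₁, v, hφ₁, hv2, hconv₁⟩ := cpt_embedding hb hs h hB
  have hmem : ∀ k, ∫ x, ‖g (φ₁ k) x‖ ^ 2 ∂(dm (gconv μ s)) ∈ Set.Icc 0 B := by
    intro k
    refine ⟨integral_nonneg fun x => sq_nonneg _, ?_⟩
    have h1 : 0 ≤ ∫ x, u (φ₁ k) x ^ 2 ∂(dm (gconv μ s)) := integral_nonneg fun x => sq_nonneg _
    linarith [hB (φ₁ k)]
  obtain ⟨Es, -, φ₂, hφ₂, hE⟩ := isCompact_Icc.tendsto_subseq hmem
  have hconv : Tendsto (fun k => ∫ x, (u (φ₁ (φ₂ k)) x - v x) ^ 2 ∂(dm (gconv μ s))) atTop (𝓝 0) :=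
    hconv₁.comp hφ₂.tendsto_atTop
  have hE' : Tendsto (fun k => ∫ x, ‖g (φ₁ (φ₂ k)) x‖ ^ 2 ∂(dm (gconv μ s))) atTop (𝓝 Es) := hE
  have hfreq : ∃ᶠ k in atTop, ∫ x, ‖g (φ₁ (φ₂ k)) x‖ ^ 2 ∂(dm (gconv μ s)) ≤ Es + 1 :=
    (hE'.eventually (gt_mem_nhds (show Es < Es + 1 by linarith))).frequently.mono
      fun k hk => le_of_lt hk
  obtain ⟨gv, hv, -⟩ := ws_lsc hcont hpos (fun k => h (φ₁ (φ₂ k))) hv2 hconv hfreq
  refine ⟨fun k => φ₁ (φ₂ k), v, gv, Es, hφ₁.comp hφ₂, hv, hconv, hE', ?_⟩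
  refine le_of_forall_pos_le_add fun δ hδ => ?_
  have h1 := dfk_lsc hcont hpos (fun k => h (φ₁ (φ₂ k))) hv hconv hδ
  have h2 := ge_of_tendsto hE' h1
  linarith

end Claimed.Agent.R259
end

/- ===== packed: Claimed.Agent.R259.ExDefect ===== -/
section
/-
Row 259, kit EX, leaf DEFECT (entropy defect, Lemma 3.3 last assertion).  Architect and owner: helper54.
`ψ z = z² log z²`, `ψ_K = ψ ∘ clip_K`.  For `K ≥ 1`: `ψ_K ≤ ψ`, `ψ ≤ ψ_K + 1_{|z|>K} ψ`, `ψ_K` is Lipschitz.
`∫ ψ(u_k) ≤ ∫ ψ_K(u_k) + ∫_{|u_k|>K} ψ(u_k) ≤ ∫ ψ_K(v) + L_K ‖u_k - v‖₂ + (2s(Es - ‖gv‖²) + δ/2)` by `def_tail`.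
-/
set_option autoImplicit false
set_option linter.unusedSectionVars false

open MeasureTheory Filter Topology ProbabilityTheory
open scoped ContDiff ENNReal

namespace Claimed.Agent.R259

variable {E : Type} [NormedAddCommGroup E] [InnerProductSpace ℝ E] [FiniteDimensional ℝ E]
  [MeasurableSpace E] [BorelSpace E]

/-! ### integrals over `{K < |w|}` -/

theorem exk_null_lt {m : Measure E} {w : E → ℝ} (hw : AEStronglyMeasurable w m) (K : ℝ) :
    NullMeasurableSet {x | K < |w x|} m :=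
  nullMeasurableSet_lt aemeasurable_const hw.aemeasurable.abs

theorem exk_ite_eq (w F : E → ℝ) (K : ℝ) :
    (fun x => if K < |w x| then F x else 0) = Set.indicator {x | K < |w x|} F := by
  funext x
  simp [Set.indicator]

theorem exk_integral_ite {m : Measure E} {w : E → ℝ} (hw : AEStronglyMeasurable w m) (F : E → ℝ)
    (K : ℝ) :
    ∫ x, (if K < |w x| then F x else 0) ∂m = ∫ x in {x | K < |w x|}, F x ∂m := by
  rw [exk_ite_eq, integral_indicator₀ (exk_null_lt hw K)]

theorem exk_integrable_ite {m : Measure E} {w : E → ℝ} (hw : AEStronglyMeasurable w m)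
    {F : E → ℝ} (hF : Integrable F m) (K : ℝ) :
    Integrable (fun x => if K < |w x| then F x else 0) m := by
  rw [exk_ite_eq]
  exact hF.indicator₀ (exk_null_lt hw K)

/-! ### the truncated entropy -/

theorem exk_psi_clip_bdd {K : ℝ} (hK : 0 ≤ K) (z : ℝ) :
    |exkClip K z ^ 2 * Real.log (exkClip K z ^ 2)| ≤ 6 * (1 + K ^ 2) * K := by
  have h1 := exk_psi_lip (exk_clip_abs_le hK z) (by simpa using hK : |(0 : ℝ)| ≤ K)
  simp only [ne_eq, OfNat.ofNat_ne_zero, not_false_eq_true, zero_pow, Real.log_zero, mul_zero,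
    sub_zero] at h1
  exact h1.trans (mul_le_mul_of_nonneg_left (exk_clip_abs_le hK z) (by positivity))

theorem exk_psi_clip_integrable {m : Measure E} [IsFiniteMeasure m] {w : E → ℝ}
    (hw : AEStronglyMeasurable w m) {K : ℝ} (hK : 0 ≤ K) :
    Integrable (fun x => exkClip K (w x) ^ 2 * Real.log (exkClip K (w x) ^ 2)) m := by
  refine Integrable.mono' (integrable_const (6 * (1 + K ^ 2) * K))
    ((exk_psi_cont.comp (exk_clip_cont K)).comp_aestronglyMeasurable hw)
    (Eventually.of_forall fun x => ?_)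
  rw [Real.norm_eq_abs]
  exact exk_psi_clip_bdd hK _

theorem exk_int_psi_le_clip {m : Measure E} [IsFiniteMeasure m] {w : E → ℝ}
    (hw : AEStronglyMeasurable w m)
    (hi : Integrable (fun x => w x ^ 2 * Real.log (w x ^ 2)) m) {K : ℝ} (hK : 1 ≤ K) :
    ∫ x, w x ^ 2 * Real.log (w x ^ 2) ∂m ≤
      ∫ x, exkClip K (w x) ^ 2 * Real.log (exkClip K (w x) ^ 2) ∂m
        + ∫ x in {x | K < |w x|}, w x ^ 2 * Real.log (w x ^ 2) ∂m := by
  have h1 := exk_psi_clip_integrable hw (by linarith : 0 ≤ K)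
  have h2 := exk_integrable_ite hw hi K
  rw [← exk_integral_ite hw, ← integral_add h1 h2]
  exact integral_mono hi (h1.add h2) fun x => exk_psi_le_clip hK (w x)

theorem exk_int_psi_clip_le {m : Measure E} [IsFiniteMeasure m] {w : E → ℝ}
    (hw : AEStronglyMeasurable w m)
    (hi : Integrable (fun x => w x ^ 2 * Real.log (w x ^ 2)) m) {K : ℝ} (hK : 1 ≤ K) :
    ∫ x, exkClip K (w x) ^ 2 * Real.log (exkClip K (w x) ^ 2) ∂m ≤
      ∫ x, w x ^ 2 * Real.log (w x ^ 2) ∂m :=
  integral_mono (exk_psi_clip_integrable hw (by linarith : 0 ≤ K)) hi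
    fun x => exk_psi_clip_le hK (w x)

theorem exk_int_abs_le_sqrt {m : Measure E} [IsProbabilityMeasure m] {w : E → ℝ}
    (hw : MemLp w 2 m) : ∫ x, |w x| ∂m ≤ Real.sqrt (∫ x, w x ^ 2 ∂m) := by
  have h1 := Claimed.Agent.R260.gk_l2_sq_integral_le (μ := m) (f := fun x => |w x|) hw.abs
  simp only [sq_abs] at h1
  exact Real.le_sqrt_of_sq_le h1

theorem exk_int_psi_clip_sub {m : Measure E} [IsProbabilityMeasure m] {w v : E → ℝ}
    (hw : MemLp w 2 m) (hv : MemLp v 2 m) {K : ℝ} (hK : 0 ≤ K) :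
    ∫ x, exkClip K (w x) ^ 2 * Real.log (exkClip K (w x) ^ 2) ∂m ≤
      ∫ x, exkClip K (v x) ^ 2 * Real.log (exkClip K (v x) ^ 2) ∂m
        + 6 * (1 + K ^ 2) * Real.sqrt (∫ x, (w x - v x) ^ 2 ∂m) := by
  have h1 := exk_psi_clip_integrable hw.1 hK
  have h2 := exk_psi_clip_integrable hv.1 hK
  have h3 : Integrable (fun x => |w x - v x|) m := ((hw.sub hv).integrable (by norm_num)).abs
  have h4 := exk_int_abs_le_sqrt (hw.sub hv)
  simp only [Pi.sub_apply] at h4
  have h5 : ∫ x, exkClip K (w x) ^ 2 * Real.log (exkClip K (w x) ^ 2) ∂m ≤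
      ∫ x, (exkClip K (v x) ^ 2 * Real.log (exkClip K (v x) ^ 2)
        + 6 * (1 + K ^ 2) * |w x - v x|) ∂m := by
    refine integral_mono h1 (h2.add (h3.const_mul _)) fun x => ?_
    have h6 := exk_psi_lip (exk_clip_abs_le hK (w x)) (exk_clip_abs_le hK (v x))
    have h7 := mul_le_mul_of_nonneg_left (exk_clip_lip K (w x) (v x))
      (by positivity : 0 ≤ 6 * (1 + K ^ 2))
    have h8 := (le_abs_self _).trans (h6.trans h7)
    simp only
    linarith
  rw [integral_add h2 (h3.const_mul _), integral_const_mul] at h5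
  have h6 := mul_le_mul_of_nonneg_left h4 (by positivity : 0 ≤ 6 * (1 + K ^ 2))
  linarith

theorem exk_defect {μ : Measure E} [IsProbabilityMeasure μ] (hb : BddSupp μ) {s : ℝ} (hs : 0 < s)
    {u : ℕ → E → ℝ} {g : ℕ → E → E} (h : ∀ k, H1 (dm (gconv μ s)) (u k) (g k))
    {v : E → ℝ} {gv : E → E} (hv : H1 (dm (gconv μ s)) v gv)
    (hu : Tendsto (fun k => ∫ x, (u k x - v x) ^ 2 ∂(dm (gconv μ s))) atTop (𝓝 0))
    {Es : ℝ} (hE : Tendsto (fun k => ∫ x, ‖g k x‖ ^ 2 ∂(dm (gconv μ s))) atTop (𝓝 Es))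
    {δ : ℝ} (hδ : 0 < δ) :
    ∀ᶠ k in atTop, ∫ x, u k x ^ 2 * Real.log (u k x ^ 2) ∂(dm (gconv μ s)) ≤
      ∫ x, v x ^ 2 * Real.log (v x ^ 2) ∂(dm (gconv μ s))
        + 2 * s * (Es - ∫ x, ‖gv x‖ ^ 2 ∂(dm (gconv μ s))) + δ := by
  have : IsProbabilityMeasure (dm (gconv μ s)) := gc_isProb hs
  obtain ⟨C, hC⟩ := def_lsi hb hs (ε := 1) one_pos
  obtain ⟨K₀, hK₀⟩ := def_tail hb hs h hv hu hE (δ := δ / 2) (by linarith)
  obtain ⟨K, hKK₀, hK1⟩ : ∃ K : ℝ, K₀ ≤ K ∧ 1 ≤ K := ⟨max K₀ 1, le_max_left _ _, le_max_right _ _⟩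
  have htail := hK₀ K hKK₀
  have hsq : Tendsto (fun k => 6 * (1 + K ^ 2) *
      Real.sqrt (∫ x, (u k x - v x) ^ 2 ∂(dm (gconv μ s)))) atTop (𝓝 0) := by
    have h1 := (Real.continuous_sqrt.tendsto 0).comp hu
    rw [Real.sqrt_zero] at h1
    simpa using h1.const_mul (6 * (1 + K ^ 2))
  have hsmall := hsq.eventually (gt_mem_nhds (show (0 : ℝ) < δ / 2 by linarith))
  filter_upwards [htail, hsmall] with k hk1 hk2
  have a1 := exk_int_psi_le_clip (h k).2.1.1 (hC _ _ (h k)).1 hK1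
  have a2 := exk_int_psi_clip_sub (h k).2.1 hv.2.1 (by linarith : 0 ≤ K)
  have a3 := exk_int_psi_clip_le hv.2.1.1 (hC _ _ hv).1 hK1
  linarith

end Claimed.Agent.R259
end

/- ===== packed: Claimed.Agent.R259.ExVan ===== -/
section
/-
Row 259, kit EX, leaf VAN (maximising sequences do not converge to constants; the only place where `P < R` is used).
Architect and owner: helper54.
By contradiction with `R' = (max P s + R)/2`: `u_k`, `∫ u_k² = 1`, `ε_k² = ∫ ‖g_k‖² ≤ 1/(k+1)`, `∫ ψ(u_k) > 2 R' ε_k²`,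
wlog `c_k = ∫ u_k ≥ 0`.  `h_k = (u_k - c_k)/ε_k`: `∫ h_k = 0`, energy `1`, `∫ h_k² ≤ P`, `c_k² = 1 - ε_k² ∫ h_k²`.
Scalar inequality `exk_scalar_van`; integrate, use `log c² ≤ c² - 1`, `exk_extract`, `def_tail`, `ws_PI_H1` for the limit.
-/
set_option autoImplicit false
set_option linter.unusedSectionVars false

open MeasureTheory Filter Topology ProbabilityTheory
open scoped ContDiff ENNReal

namespace Claimed.Agent.R259

variable {E : Type} [NormedAddCommGroup E] [InnerProductSpace ℝ E] [FiniteDimensional ℝ E]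
  [MeasurableSpace E] [BorelSpace E]

/-- the integrated scalar inequality. -/
theorem exk_van_int {m : Measure E} [IsProbabilityMeasure m] {u h : E → ℝ} {c ε θ K : ℝ}
    (hc : 0 < c) (hε : 0 < ε) (hθ : ε ≤ θ * c) (hθ1 : θ ≤ 1) (hK : 1 < K)
    (hh2 : MemLp h 2 m) (hhi : Integrable (fun x => h x ^ 2 * Real.log (h x ^ 2)) m)
    (huh : ∀ x, u x = c + ε * h x)
    (hui : Integrable (fun x => u x ^ 2 * Real.log (u x ^ 2)) m)
    (hN : ∫ x, u x ^ 2 ∂m = 1) :
    ∫ x, u x ^ 2 * Real.log (u x ^ 2) ∂m ≤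
      ε ^ 2 * ((2 + 2 * θ * K) * ∫ x, h x ^ 2 ∂m
        + (1 + Real.log 2 / Real.log K) *
          ∫ x in {x | K < |h x|}, h x ^ 2 * Real.log (h x ^ 2) ∂m) := by
  have hu2 : MemLp u 2 m := by
    have : u = fun x => c + ε * h x := funext huh
    rw [this]
    exact (memLp_const c).add (hh2.const_mul ε)
  have i1 := hu2.integrable_sq
  have i2 := hh2.integrable_sq
  have i3 := exk_integrable_ite hh2.1 (hhi.const_mul (1 + Real.log 2 / Real.log K)) K
  have j1 : Integrable (fun x => u x ^ 2 * Real.log (c ^ 2) + u x ^ 2 - c ^ 2) m :=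
    ((i1.mul_const _).add i1).sub (integrable_const _)
  have j2 : Integrable (fun x => (2 + 2 * θ * K) * h x ^ 2
      + if K < |h x| then (1 + Real.log 2 / Real.log K) * (h x ^ 2 * Real.log (h x ^ 2)) else 0) m :=
    (i2.const_mul _).add i3
  have h1 : ∫ x, u x ^ 2 * Real.log (u x ^ 2) ∂m ≤
      ∫ x, ((u x ^ 2 * Real.log (c ^ 2) + u x ^ 2 - c ^ 2)
        + ε ^ 2 * ((2 + 2 * θ * K) * h x ^ 2
          + if K < |h x| then (1 + Real.log 2 / Real.log K) * (h x ^ 2 * Real.log (h x ^ 2))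
            else 0)) ∂m := by
    refine integral_mono hui (j1.add (j2.const_mul _)) fun x => ?_
    have := exk_scalar_van hc hε hθ hθ1 hK (h x)
    simp only [huh x]
    exact this
  have j3 : Integrable (fun x => u x ^ 2 * Real.log (c ^ 2) + u x ^ 2) m := (i1.mul_const _).add i1
  rw [integral_add j1 (j2.const_mul _), integral_const_mul, integral_add (i2.const_mul _) i3,
    integral_const_mul, exk_integral_ite hh2.1, integral_const_mul,
    integral_sub j3 (integrable_const _), integral_add (i1.mul_const _) i1, integral_mul_const,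
    hN, integral_const] at h1
  simp only [probReal_univ, smul_eq_mul, one_mul] at h1
  have h2 := Real.log_le_sub_one_of_pos (by positivity : 0 < c ^ 2)
  linarith

theorem exk_van {μ : Measure E} [IsProbabilityMeasure μ] (hb : BddSupp μ) {s : ℝ} (hs : 0 < s)
    {R P : ℝ} (hR : LSI (dm (gconv μ s)) R) (hP : PI (dm (gconv μ s)) P)
    (hPR : P < R) (hsR : s < R) :
    ∃ e₀ : ℝ, 0 < e₀ ∧ ∃ R' : ℝ, R' < R ∧ ∀ (u : E → ℝ) (g : E → E), H1 (dm (gconv μ s)) u g →
      ∫ x, u x ^ 2 ∂(dm (gconv μ s)) = 1 → ∫ x, ‖g x‖ ^ 2 ∂(dm (gconv μ s)) ≤ e₀ →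
      ∫ x, u x ^ 2 * Real.log (u x ^ 2) ∂(dm (gconv μ s)) ≤
        2 * R' * ∫ x, ‖g x‖ ^ 2 ∂(dm (gconv μ s)) := by
  obtain ⟨hsm, hpos, -⟩ := gc_spd (μ := μ) hb hs
  have hcont : Continuous (gconv μ s) := hsm.continuous
  have : IsProbabilityMeasure (dm (gconv μ s)) := gc_isProb hs
  obtain ⟨M, hPM, hsM, hMR⟩ : ∃ M, P ≤ M ∧ s ≤ M ∧ M < R :=
    ⟨max P s, le_max_left _ _, le_max_right _ _, max_lt hPR hsR⟩
  by_contra hcon
  push Not at hcon
  obtain ⟨R', hMR', hR'R⟩ : ∃ R', M < R' ∧ R' < R := ⟨(M + R) / 2, by linarith, by linarith⟩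
  have hseq : ∀ k : ℕ, ∃ (u : E → ℝ) (g : E → E), H1 (dm (gconv μ s)) u g ∧
      ∫ x, u x ^ 2 ∂(dm (gconv μ s)) = 1 ∧
      ∫ x, ‖g x‖ ^ 2 ∂(dm (gconv μ s)) ≤ 1 / ((k : ℝ) + 1) ∧
      2 * R' * ∫ x, ‖g x‖ ^ 2 ∂(dm (gconv μ s)) <
        ∫ x, u x ^ 2 * Real.log (u x ^ 2) ∂(dm (gconv μ s)) ∧
      0 ≤ ∫ x, u x ∂(dm (gconv μ s)) := by
    intro k
    obtain ⟨u, g, h1, h2, h3, h4⟩ := hcon (1 / ((k : ℝ) + 1)) (by positivity) R' hR'R
    rcases le_total 0 (∫ x, u x ∂(dm (gconv μ s))) with h5 | h5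
    · exact ⟨u, g, h1, h2, h3, h4, h5⟩
    · refine ⟨fun x => - u x, fun x => - g x, exk_H1_neg h1, ?_, ?_, ?_, ?_⟩
      · simpa only [neg_sq] using h2
      · simpa only [norm_neg] using h3
      · simpa only [norm_neg, neg_sq] using h4
      · rw [integral_neg]; linarith
  choose u g hH hN hEle hgt hc0 using hseq
  have hE0 : ∀ k, 0 ≤ ∫ x, ‖g k x‖ ^ 2 ∂(dm (gconv μ s)) :=
    fun k => integral_nonneg fun x => sq_nonneg _
  have hui : ∀ k, Integrable (fun x => u k x ^ 2 * Real.log (u k x ^ 2)) (dm (gconv μ s)) :=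
    fun k => (ws_LSI_H1 hcont hpos hR (hH k)).1
  have hEpos : ∀ k, 0 < ∫ x, ‖g k x‖ ^ 2 ∂(dm (gconv μ s)) := by
    intro k
    refine lt_of_le_of_ne (hE0 k) fun h0 => ?_
    have h1 := (ws_LSI_H1 hcont hpos hR (hH k)).2
    have h2 := hgt k
    rw [exk_ent_unit (hN k), ← h0] at h1
    rw [← h0] at h2
    linarith
  have hvar : ∀ k, 1 - (∫ x, u k x ∂(dm (gconv μ s))) ^ 2 ≤
      P * ∫ x, ‖g k x‖ ^ 2 ∂(dm (gconv μ s)) := by
    intro k
    have h1 := ws_PI_H1 hcont hpos hP (hH k)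
    unfold vari at h1
    rwa [hN k] at h1
  -- notation
  set Ek : ℕ → ℝ := fun k => ∫ x, ‖g k x‖ ^ 2 ∂(dm (gconv μ s)) with hEk
  set ck : ℕ → ℝ := fun k => ∫ x, u k x ∂(dm (gconv μ s)) with hck
  set ek : ℕ → ℝ := fun k => Real.sqrt (Ek k) with hek
  have hek0 : ∀ k, 0 < ek k := fun k => Real.sqrt_pos.mpr (hEpos k)
  have hek2 : ∀ k, ek k ^ 2 = Ek k := fun k => Real.sq_sqrt (hE0 k)
  -- the rescaled functions
  set hk : ℕ → E → ℝ := fun k x => (ek k)⁻¹ * (u k x - ck k) with hhk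
  set ghk : ℕ → E → E := fun k x => (ek k)⁻¹ • g k x with hghk
  have hHh : ∀ k, H1 (dm (gconv μ s)) (hk k) (ghk k) :=
    fun k => exk_H1_smul _ (exk_H1_sub_const _ (hH k))
  have hint : ∀ k, Integrable (u k) (dm (gconv μ s)) := fun k => (hH k).2.1.integrable (by norm_num)
  have hh0 : ∀ k, ∫ x, hk k x ∂(dm (gconv μ s)) = 0 := by
    intro k
    simp only [hhk]
    rw [integral_const_mul, integral_sub (hint k) (integrable_const _), integral_const]
    simp [hck]
  have hhE : ∀ k, ∫ x, ‖ghk k x‖ ^ 2 ∂(dm (gconv μ s)) = 1 := by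
    intro k
    simp only [hghk]
    rw [exk_int_normsq_smul, inv_pow, hek2 k]
    exact inv_mul_cancel₀ (hEpos k).ne'
  have hsub : ∀ k, ∫ x, (u k x - ck k) ^ 2 ∂(dm (gconv μ s)) = 1 - ck k ^ 2 := by
    intro k
    have h1 := exk_int_sq_add (hH k).2.1 (memLp_const (1 : ℝ) (μ := dm (gconv μ s)) (p := 2))
      (- ck k)
    simp only [mul_one, one_pow, integral_const, probReal_univ, smul_eq_mul, hN k] at h1
    have e : (fun x => (u k x - ck k) ^ 2) = fun x => (u k x + - ck k) ^ 2 := by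
      funext x; ring
    rw [e, h1]
    simp only [hck]
    ring
  have hhN : ∀ k, Ek k * ∫ x, hk k x ^ 2 ∂(dm (gconv μ s)) = 1 - ck k ^ 2 := by
    intro k
    simp only [hhk]
    rw [exk_int_sq_smul, inv_pow, hek2 k, hsub k, ← mul_assoc, mul_inv_cancel₀ (hEpos k).ne',
      one_mul]
  have hhP : ∀ k, ∫ x, hk k x ^ 2 ∂(dm (gconv μ s)) ≤ P := by
    intro k
    have h1 := hvar k
    rw [← hhN k, mul_comm P] at h1
    exact le_of_mul_le_mul_left h1 (hEpos k)
  have huh : ∀ k x, u k x = ck k + ek k * hk k x := by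
    intro k x
    simp only [hhk]
    rw [← mul_assoc, mul_inv_cancel₀ (hek0 k).ne']
    ring
  have hhi : ∀ k, Integrable (fun x => hk k x ^ 2 * Real.log (hk k x ^ 2)) (dm (gconv μ s)) :=
    fun k => (ws_LSI_H1 hcont hpos hR (hHh k)).1
  -- limits of the parameters
  have hEk0 : Tendsto Ek atTop (𝓝 0) :=
    squeeze_zero hE0 hEle tendsto_one_div_add_atTop_nhds_zero_nat
  have hek0' : Tendsto ek atTop (𝓝 0) := by
    have h1 := (Real.continuous_sqrt.tendsto 0).comp hEk0
    rwa [Real.sqrt_zero] at h1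
  have hck12 : ∀ᶠ k in atTop, 1 / 2 ≤ ck k := by
    have h1 : Tendsto (fun k => 1 - P * Ek k) atTop (𝓝 (1 - P * 0)) :=
      (hEk0.const_mul P).const_sub 1
    have h2 := h1.eventually (lt_mem_nhds (show (1 / 4 : ℝ) < 1 - P * 0 by norm_num))
    filter_upwards [h2] with k hk
    by_contra hcon2
    have h3 := hvar k
    have h4 : ck k < 1 / 2 := not_le.mp hcon2
    have h5 : 0 ≤ ck k := hc0 k
    nlinarith
  have hek12 : ∀ᶠ k in atTop, 2 * ek k ≤ 1 := by
    have h2 := hek0'.eventually (gt_mem_nhds (show (0 : ℝ) < 1 / 2 by norm_num))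
    filter_upwards [h2] with k hk
    linarith
  -- extraction
  obtain ⟨φ, hl, ghl, Es, hφ, hHl, hconv, hEconv, hle⟩ := exk_extract hb hs hHh
    (B := P + 1) (fun k => by rw [hhE k]; linarith [hhP k])
  have hEs : Es = 1 := by
    simp only [hhE] at hEconv
    exact tendsto_nhds_unique hEconv tendsto_const_nhds
  subst hEs
  have hl0 : ∫ x, hl x ∂(dm (gconv μ s)) = 0 := by
    have h1 := Claimed.Agent.R260.gk_l2_tendsto_integral_mul_right
      (Eventually.of_forall fun k => (hHh (φ k)).2.1) hHl.2.1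
      (memLp_const (1 : ℝ) (μ := dm (gconv μ s)) (p := 2)) hconv
    simp only [mul_one, hh0] at h1
    exact tendsto_nhds_unique h1 tendsto_const_nhds
  have hlN := Claimed.Agent.R260.gk_l2_tendsto_integral_sq
      (Eventually.of_forall fun k => (hHh (φ k)).2.1) hHl.2.1 hconv
  have hlP := ws_PI_H1 hcont hpos hP hHl
  unfold vari at hlP
  rw [hl0] at hlP
  have he0 : 0 ≤ ∫ x, ‖ghl x‖ ^ 2 ∂(dm (gconv μ s)) := integral_nonneg fun x => sq_nonneg _
  -- the key inequality
  have hkey : 2 * R' ≤ 2 * ∫ x, hl x ^ 2 ∂(dm (gconv μ s))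
      + 2 * s * (1 - ∫ x, ‖ghl x‖ ^ 2 ∂(dm (gconv μ s))) := by
    refine le_of_forall_pos_le_add fun δ hδ => ?_
    obtain ⟨K₀, hK₀⟩ := def_tail hb hs (fun k => hHh (φ k)) hHl hconv hEconv hδ
    have hK : ∀ K : ℝ, max K₀ 2 ≤ K → 2 * R' ≤ 2 * ∫ x, hl x ^ 2 ∂(dm (gconv μ s))
        + (1 + Real.log 2 / Real.log K) *
          (2 * s * (1 - ∫ x, ‖ghl x‖ ^ 2 ∂(dm (gconv μ s))) + δ) := by
      intro K hKK
      have hK1 : 1 < K := by linarith [(le_max_right K₀ 2).trans hKK]
      have hκ : 0 ≤ 1 + Real.log 2 / Real.log K := by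
        have h1 : 0 ≤ Real.log 2 := Real.log_nonneg (by norm_num)
        have h2 : 0 < Real.log K := Real.log_pos hK1
        positivity
      have hlim : Tendsto (fun k => (2 + 2 * (2 * ek (φ k)) * K) *
          ∫ x, hk (φ k) x ^ 2 ∂(dm (gconv μ s))
          + (1 + Real.log 2 / Real.log K) *
            (2 * s * (1 - ∫ x, ‖ghl x‖ ^ 2 ∂(dm (gconv μ s))) + δ)) atTop
          (𝓝 ((2 + 2 * (2 * 0) * K) * ∫ x, hl x ^ 2 ∂(dm (gconv μ s))
          + (1 + Real.log 2 / Real.log K) *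
            (2 * s * (1 - ∫ x, ‖ghl x‖ ^ 2 ∂(dm (gconv μ s))) + δ))) := by
        refine Tendsto.add_const _ (Tendsto.mul ?_ hlN)
        exact ((((hek0'.comp hφ.tendsto_atTop).const_mul 2).const_mul 2).mul_const K).const_add 2
      have e0 : (2 + 2 * (2 * 0) * K) * ∫ x, hl x ^ 2 ∂(dm (gconv μ s))
          = 2 * ∫ x, hl x ^ 2 ∂(dm (gconv μ s)) := by ring
      rw [e0] at hlim
      refine ge_of_tendsto hlim ?_
      filter_upwards [hK₀ K ((le_max_left K₀ 2).trans hKK), hφ.tendsto_atTop.eventually hck12,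
        hφ.tendsto_atTop.eventually hek12] with k k1 k2 k3
      have hc : 0 < ck (φ k) := by linarith
      have hθ : ek (φ k) ≤ 2 * ek (φ k) * ck (φ k) := by
        have := mul_le_mul_of_nonneg_left k2 (by linarith [hek0 (φ k)] : 0 ≤ 2 * ek (φ k))
        linarith
      have h1 := exk_van_int hc (hek0 (φ k)) hθ k3 hK1 (hHh (φ k)).2.1 (hhi (φ k)) (huh (φ k))
        (hui (φ k)) (hN (φ k))
      have h2 := hgt (φ k)
      rw [hek2 (φ k)] at h1
      have h3 : Ek (φ k) * (2 * R') < Ek (φ k) * ((2 + 2 * (2 * ek (φ k)) * K) *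
          ∫ x, hk (φ k) x ^ 2 ∂(dm (gconv μ s)) + (1 + Real.log 2 / Real.log K) *
          ∫ x in {x | K < |hk (φ k) x|}, hk (φ k) x ^ 2 * Real.log (hk (φ k) x ^ 2)
            ∂(dm (gconv μ s))) := by
        have e : Ek (φ k) * (2 * R') = 2 * R' * ∫ x, ‖g (φ k) x‖ ^ 2 ∂(dm (gconv μ s)) := by
          simp only [hEk]; ring
        rw [e]
        exact lt_of_lt_of_le h2 h1
      have h4 := lt_of_mul_lt_mul_left h3 (hE0 (φ k))
      have h5 := mul_le_mul_of_nonneg_left k1 hκ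
      linarith
    -- `K → ∞`
    have hlimK : Tendsto (fun K : ℝ => 2 * ∫ x, hl x ^ 2 ∂(dm (gconv μ s))
        + (1 + Real.log 2 / Real.log K) *
          (2 * s * (1 - ∫ x, ‖ghl x‖ ^ 2 ∂(dm (gconv μ s))) + δ)) atTop
        (𝓝 (2 * ∫ x, hl x ^ 2 ∂(dm (gconv μ s))
        + (1 + 0) * (2 * s * (1 - ∫ x, ‖ghl x‖ ^ 2 ∂(dm (gconv μ s))) + δ))) := by
      refine Tendsto.const_add _ (Tendsto.mul_const _ (Tendsto.const_add _ ?_))
      exact Real.tendsto_log_atTop.const_div_atTop _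
    have h6 := ge_of_tendsto hlimK (eventually_ge_atTop (max K₀ 2) |>.mono hK)
    linarith
  have h7 := mul_le_mul_of_nonneg_right hPM he0
  have h8 := mul_le_mul_of_nonneg_right hsM
    (by linarith : 0 ≤ 1 - ∫ x, ‖ghl x‖ ^ 2 ∂(dm (gconv μ s)))
  nlinarith

end Claimed.Agent.R259
end

/- ===== packed: Claimed.Agent.R259.ExEuler ===== -/
section
/-
Row 259, kit EX, leaf EULER (first variation of the entropy functional).  Architect and owner: helper54.
`ψ z = z² log z²`.  `A t = ∫ ψ(f + t ζ)` has derivative `∫ (2 f log f² + 2 f) ζ` at `0` (dominated differentiation),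
`N t = ∫ (f+tζ)²`, `D t = ∫ ‖g + t ∇ζ‖²` are quadratic polynomials, `j t = A t - N t log N t - 2 R D t ≤ 0 = j 0`.
-/
set_option autoImplicit false
set_option linter.unusedSectionVars false

open MeasureTheory Filter Topology ProbabilityTheory
open scoped ContDiff ENNReal

namespace Claimed.Agent.R259

variable {E : Type} [NormedAddCommGroup E] [InnerProductSpace ℝ E] [FiniteDimensional ℝ E]
  [MeasurableSpace E] [BorelSpace E]

theorem exk_psiD_cont : Continuous fun z : ℝ => 2 * z * Real.log (z ^ 2) + 2 * z := by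
  have e : (fun z : ℝ => 2 * z * Real.log (z ^ 2) + 2 * z)
      = fun z : ℝ => 4 * (z * Real.log z) + 2 * z := by
    funext z
    rw [Real.log_pow]
    push_cast
    ring
  rw [e]
  exact (continuous_const.mul Real.continuous_mul_log).add (continuous_const.mul continuous_id)

/-- differentiation of the entropy integral along a bounded direction. -/
theorem exk_hasDerivAt_int_psi {m : Measure E} [IsFiniteMeasure m] {f ζ : E → ℝ}
    (hf : MemLp f 2 m) (hζ : AEStronglyMeasurable ζ m) {M : ℝ} (hM : ∀ x, |ζ x| ≤ M)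
    (hi : Integrable (fun x => f x ^ 2 * Real.log (f x ^ 2)) m) :
    Integrable (fun x => (2 * f x * Real.log (f x ^ 2) + 2 * f x) * ζ x) m ∧
    HasDerivAt (fun t : ℝ => ∫ x, (f x + t * ζ x) ^ 2 * Real.log ((f x + t * ζ x) ^ 2) ∂m)
      (∫ x, (2 * f x * Real.log (f x ^ 2) + 2 * f x) * ζ x ∂m) 0 := by
  have hM0 : 0 ≤ M := (abs_nonneg _).trans (hM 0)
  have hw : ∀ t : ℝ, AEStronglyMeasurable (fun x => f x + t * ζ x) m :=
    fun t => hf.1.add (hζ.const_mul t)
  have key := hasDerivAt_integral_of_dominated_loc_of_deriv_le (μ := m) (𝕜 := ℝ)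
    (F := fun (t : ℝ) x => (f x + t * ζ x) ^ 2 * Real.log ((f x + t * ζ x) ^ 2))
    (F' := fun (t : ℝ) x => (2 * (f x + t * ζ x) * Real.log ((f x + t * ζ x) ^ 2)
      + 2 * (f x + t * ζ x)) * ζ x)
    (x₀ := (0 : ℝ)) (s := Set.Ioo (-1) 1)
    (bound := fun x => 6 * (1 + (2 * f x ^ 2 + 2 * M ^ 2)) * M)
    (Ioo_mem_nhds (by norm_num) (by norm_num))
    (Eventually.of_forall fun t => exk_psi_cont.comp_aestronglyMeasurable (hw t))
    (by simpa using hi)
    ((exk_psiD_cont.comp_aestronglyMeasurable (hw 0)).mul hζ)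
    (Eventually.of_forall fun x t ht => by
      rw [Real.norm_eq_abs, abs_mul]
      have h1 := exk_psi_deriv_le (f x + t * ζ x)
      have h2 : (f x + t * ζ x) ^ 2 ≤ 2 * f x ^ 2 + 2 * M ^ 2 := by
        have h3 : (t * ζ x) ^ 2 ≤ M ^ 2 := by
          rw [← sq_abs, abs_mul]
          have h4 : |t| ≤ 1 := abs_le.mpr ⟨ht.1.le, ht.2.le⟩
          have h5 : |t| * |ζ x| ≤ 1 * M :=
            mul_le_mul h4 (hM x) (abs_nonneg _) (by norm_num)
          rw [one_mul] at h5
          exact pow_le_pow_left₀ (by positivity) h5 2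
        nlinarith [sq_nonneg (f x - t * ζ x)]
      calc |2 * (f x + t * ζ x) * Real.log ((f x + t * ζ x) ^ 2) + 2 * (f x + t * ζ x)| * |ζ x|
          ≤ (6 * (1 + (2 * f x ^ 2 + 2 * M ^ 2))) * M :=
            mul_le_mul (h1.trans (by linarith)) (hM x) (abs_nonneg _) (by positivity))
    ((((integrable_const (1 : ℝ)).add
      ((hf.integrable_sq.const_mul 2).add (integrable_const _))).const_mul 6).mul_const M)
    (Eventually.of_forall fun x t _ => by
      have h1 : HasDerivAt (fun t : ℝ => f x + t * ζ x) (ζ x) t := by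
        simpa using ((hasDerivAt_id t).mul_const (ζ x)).const_add (f x)
      exact (exk_psi_hasDerivAt (f x + t * ζ x)).comp t h1)
  simpa using key

theorem exk_euler {η : E → ℝ} (hη : Continuous η) (hpos : ∀ x, 0 < η x)
    [IsProbabilityMeasure (dm η)] {R : ℝ} (hR0 : 0 < R) (hR : LSI (dm η) R)
    {f : E → ℝ} {g : E → E} (h : H1 (dm η) f g) (_hf : ∀ x, 0 ≤ f x)
    (h1 : ∫ x, f x ^ 2 ∂(dm η) = 1)
    (hopt : ∫ x, f x ^ 2 * Real.log (f x ^ 2) ∂(dm η) = 2 * R * ∫ x, ‖g x‖ ^ 2 ∂(dm η))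
    {ζ : E → ℝ} (hζ : IsTest ζ) :
    ∫ x, inner ℝ (g x) (gradient ζ x) ∂(dm η) =
      R⁻¹ * ∫ x, f x * Real.log (f x) * ζ x ∂(dm η) := by
  have hZ := ws_H1_of_test hη hpos hζ
  obtain ⟨M, -, hM⟩ := hζ.isTestC.exists_bound
  have hHt : ∀ t : ℝ, H1 (dm η) (fun x => f x + t * ζ x) (fun x => g x + t • gradient ζ x) :=
    fun t => exk_H1_add h (exk_H1_smul t hZ)
  obtain ⟨hAi, hA⟩ := exk_hasDerivAt_int_psi h.2.1 hZ.2.1.1 hM (ws_LSI_H1 hη hpos hR h).1
  -- the polynomials
  set a := ∫ x, f x * ζ x ∂(dm η) with ha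
  set b := ∫ x, ζ x ^ 2 ∂(dm η) with hb
  set D0 := ∫ x, ‖g x‖ ^ 2 ∂(dm η) with hD0
  set d := ∫ x, inner ℝ (g x) (gradient ζ x) ∂(dm η) with hd
  set e := ∫ x, ‖gradient ζ x‖ ^ 2 ∂(dm η) with he
  have hNt : ∀ t : ℝ, ∫ x, (f x + t * ζ x) ^ 2 ∂(dm η) = 1 + 2 * t * a + t ^ 2 * b := by
    intro t
    rw [exk_int_sq_add h.2.1 hZ.2.1 t, h1]
  have hDt : ∀ t : ℝ, ∫ x, ‖g x + t • gradient ζ x‖ ^ 2 ∂(dm η) = D0 + 2 * t * d + t ^ 2 * e :=
    fun t => exk_int_normsq_add h.2.2 hZ.2.2 t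
  have hN : HasDerivAt (fun t : ℝ => 1 + 2 * t * a + t ^ 2 * b) (2 * a) 0 := by
    have h2 : HasDerivAt (fun t : ℝ => 2 * t * a) (2 * a) 0 := by
      simpa using ((hasDerivAt_id (0 : ℝ)).const_mul 2).mul_const a
    have h3 : HasDerivAt (fun t : ℝ => t ^ 2 * b) 0 0 := by
      simpa using (hasDerivAt_pow 2 (0 : ℝ)).mul_const b
    exact ((h2.const_add 1).add h3).congr_deriv (by ring)
  have hD : HasDerivAt (fun t : ℝ => D0 + 2 * t * d + t ^ 2 * e) (2 * d) 0 := by
    have h2 : HasDerivAt (fun t : ℝ => 2 * t * d) (2 * d) 0 := by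
      simpa using ((hasDerivAt_id (0 : ℝ)).const_mul 2).mul_const d
    have h3 : HasDerivAt (fun t : ℝ => t ^ 2 * e) 0 0 := by
      simpa using (hasDerivAt_pow 2 (0 : ℝ)).mul_const e
    exact ((h2.const_add D0).add h3).congr_deriv (by ring)
  have hNlog : HasDerivAt (fun t : ℝ => (1 + 2 * t * a + t ^ 2 * b) *
      Real.log (1 + 2 * t * a + t ^ 2 * b)) (2 * a) 0 := by
    have h2 := hN.mul (hN.log (by norm_num))
    refine h2.congr_deriv ?_
    norm_num
  have hj := (hA.sub hNlog).sub (hD.const_mul (2 * R))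
  have hmax : IsLocalMax (fun t : ℝ =>
      (∫ x, (f x + t * ζ x) ^ 2 * Real.log ((f x + t * ζ x) ^ 2) ∂(dm η))
      - (1 + 2 * t * a + t ^ 2 * b) * Real.log (1 + 2 * t * a + t ^ 2 * b)
      - 2 * R * (D0 + 2 * t * d + t ^ 2 * e)) 0 := by
    refine Eventually.of_forall fun t => ?_
    have h2 := (ws_LSI_H1 hη hpos hR (hHt t)).2
    unfold ent at h2
    rw [hNt t, hDt t] at h2
    simp only [zero_mul, add_zero, mul_zero, ne_eq, OfNat.ofNat_ne_zero, not_false_eq_true,
      zero_pow, Real.log_one, sub_zero, hopt]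
    linarith
  have hzero := hmax.hasDerivAt_eq_zero hj
  -- rewrite the derivative of the entropy term
  have hfz : Integrable (fun x => f x * ζ x) (dm η) := h.2.1.integrable_mul hZ.2.1
  have hlz : Integrable (fun x => f x * Real.log (f x) * ζ x) (dm η) := by
    have e1 : (fun x => f x * Real.log (f x) * ζ x) = fun x =>
        (1 / 4 : ℝ) * ((2 * f x * Real.log (f x ^ 2) + 2 * f x) * ζ x - 2 * (f x * ζ x)) := by
      funext x
      rw [Real.log_pow]
      push_cast
      ring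
    rw [e1]
    exact (hAi.sub (hfz.const_mul 2)).const_mul _
  have hA' : ∫ x, (2 * f x * Real.log (f x ^ 2) + 2 * f x) * ζ x ∂(dm η)
      = 4 * ∫ x, f x * Real.log (f x) * ζ x ∂(dm η) + 2 * a := by
    rw [ha, ← integral_const_mul, ← integral_const_mul,
      ← integral_add (hlz.const_mul 4) (hfz.const_mul 2)]
    refine integral_congr_ae (Eventually.of_forall fun x => ?_)
    simp only
    rw [Real.log_pow]
    push_cast
    ring
  rw [hA'] at hzero
  have : R * d = ∫ x, f x * Real.log (f x) * ζ x ∂(dm η) := by linarith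
  rw [← this]
  field_simp

end Claimed.Agent.R259
end

/- ===== packed: Claimed.Agent.R259.ExGapL ===== -/
section
/-
Row 259, kit EX, leaf GAP (three lemmas for the gap eigenfunction).  Architect and owner: helper54.
`exk_PI_pos`: the sharp Poincare constant is positive; `exk_gap_maxseq`: normalised almost-maximisers;
`exk_gap_euler`: quadratic first variation.
-/
set_option autoImplicit false
set_option linter.unusedSectionVars false

open MeasureTheory Filter Topology ProbabilityTheory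
open scoped ContDiff ENNReal

namespace Claimed.Agent.R259

variable {E : Type} [NormedAddCommGroup E] [InnerProductSpace ℝ E] [FiniteDimensional ℝ E]
  [MeasurableSpace E] [BorelSpace E]

theorem exk_int_sub_const_sq {m : Measure E} [IsProbabilityMeasure m] {u : E → ℝ}
    (hu : MemLp u 2 m) (c : ℝ) :
    ∫ x, (u x - c) ^ 2 ∂m = ∫ x, u x ^ 2 ∂m - 2 * c * ∫ x, u x ∂m + c ^ 2 := by
  have h1 := exk_int_sq_add hu (memLp_const (1 : ℝ) (μ := m) (p := 2)) (- c)
  simp only [mul_one, one_pow, integral_const, probReal_univ, smul_eq_mul] at h1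
  have e : (fun x => (u x - c) ^ 2) = fun x => (u x + - c) ^ 2 := by
    funext x; ring
  rw [e, h1]
  ring

theorem exk_vari_eq {m : Measure E} [IsProbabilityMeasure m] {u : E → ℝ} (hu : MemLp u 2 m) :
    vari m u = ∫ x, (u x - ∫ y, u y ∂m) ^ 2 ∂m := by
  rw [exk_int_sub_const_sq hu]
  unfold vari
  ring

theorem exk_vol_ac_dm {η : E → ℝ} (hη : Continuous η) (hpos : ∀ x, 0 < η x) :
    (volume : Measure E) ≪ dm η := by
  unfold dm
  refine withDensity_absolutelyContinuous' ?_ (Eventually.of_forall fun x => ?_)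
  · exact (ENNReal.measurable_ofReal.comp hη.measurable).aemeasurable
  · simpa using hpos x

/-- a test function of zero variance has zero energy. -/
theorem exk_nrg_zero_of_vari_zero {η : E → ℝ} (hη : Continuous η) (hpos : ∀ x, 0 < η x)
    [IsProbabilityMeasure (dm η)] {F : E → ℝ} (hF : IsTest F) (hv : vari (dm η) F = 0) :
    nrg (dm η) F = 0 := by
  have hH := ws_H1_of_test hη hpos hF
  rw [exk_vari_eq hH.2.1] at hv
  have h1 := Claimed.Agent.R260.gk_l2_ae_eq_zero
    (hH.2.1.sub (memLp_const (∫ y, F y ∂(dm η)))) hv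
  have h2 : F =ᵐ[volume] fun _ => ∫ y, F y ∂(dm η) := by
    filter_upwards [(exk_vol_ac_dm hη hpos).ae_le h1] with x hx
    have : F x - ∫ y, F y ∂(dm η) = 0 := hx
    linarith
  have h3 := (Continuous.ae_eq_iff_eq volume hF.1.continuous continuous_const).mp h2
  unfold nrg
  rw [h3]
  have e : (gradient fun _ : E => ∫ y, F y ∂(dm η)) = fun _ => 0 := by
    funext x
    unfold gradient
    simp
  rw [e]
  simp

theorem exk_vari_nonneg {m : Measure E} [IsProbabilityMeasure m] {u : E → ℝ} (hu : MemLp u 2 m) :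
    0 ≤ vari m u := by
  rw [exk_vari_eq hu]
  exact integral_nonneg fun x => sq_nonneg _

theorem exk_PI_pos {η : E → ℝ} (hη : Continuous η) (hpos : ∀ x, 0 < η x)
    [IsProbabilityMeasure (dm η)] {P : ℝ} (hP : PIsharp (dm η) P) : 0 < P := by
  have h1 := hP.2 (P - 1) (by linarith)
  unfold PI at h1
  push Not at h1
  obtain ⟨F, hF, hlt⟩ := h1
  have h2 := hP.1 F hF
  have hH := ws_H1_of_test hη hpos hF
  have hn : 0 < nrg (dm η) F := by nlinarith
  have hv : 0 < vari (dm η) F := by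
    refine lt_of_le_of_ne (exk_vari_nonneg hH.2.1) fun h0 => ?_
    have := exk_nrg_zero_of_vari_zero hη hpos hF h0.symm
    linarith
  by_contra hcon
  have : P * nrg (dm η) F ≤ 0 := mul_nonpos_of_nonpos_of_nonneg (not_lt.mp hcon) hn.le
  linarith

theorem exk_gap_maxseq {η : E → ℝ} (hη : Continuous η) (hpos : ∀ x, 0 < η x)
    [IsProbabilityMeasure (dm η)] {P₁ : ℝ} (h0 : 0 ≤ P₁) (hP : ¬ PI (dm η) P₁) :
    ∃ (u : E → ℝ) (g : E → E), H1 (dm η) u g ∧ ∫ x, u x ∂(dm η) = 0 ∧
      ∫ x, u x ^ 2 ∂(dm η) = 1 ∧ P₁ * ∫ x, ‖g x‖ ^ 2 ∂(dm η) < 1 := by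
  unfold PI at hP
  push Not at hP
  obtain ⟨F, hF, hlt⟩ := hP
  have hH := ws_H1_of_test hη hpos hF
  have hnrg : 0 ≤ nrg (dm η) F := integral_nonneg fun x => sq_nonneg _
  have hV : 0 < vari (dm η) F := lt_of_le_of_lt (by positivity) hlt
  set V := vari (dm η) F with hVdef
  have hsq : 0 < Real.sqrt V := Real.sqrt_pos.mpr hV
  have ha2 : ((Real.sqrt V)⁻¹) ^ 2 = V⁻¹ := by rw [inv_pow, Real.sq_sqrt hV.le]
  have hint : Integrable F (dm η) := hH.2.1.integrable (by norm_num)
  refine ⟨fun x => (Real.sqrt V)⁻¹ * (F x - ∫ y, F y ∂(dm η)),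
    fun x => (Real.sqrt V)⁻¹ • gradient F x,
    exk_H1_smul _ (exk_H1_sub_const _ hH), ?_, ?_, ?_⟩
  · rw [integral_const_mul, integral_sub hint (integrable_const _), integral_const]
    simp
  · rw [exk_int_sq_smul, ha2, ← exk_vari_eq hH.2.1, ← hVdef, inv_mul_cancel₀ hV.ne']
  · rw [exk_int_normsq_smul, ha2]
    unfold nrg at hlt
    have h1 := mul_lt_mul_of_pos_left hlt (inv_pos.mpr hV)
    rw [inv_mul_cancel₀ hV.ne'] at h1
    calc P₁ * (V⁻¹ * ∫ x, ‖gradient F x‖ ^ 2 ∂(dm η))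
        = V⁻¹ * (P₁ * ∫ x, ‖gradient F x‖ ^ 2 ∂(dm η)) := by ring
      _ < 1 := h1

theorem exk_gap_euler {η : E → ℝ} (hη : Continuous η) (hpos : ∀ x, 0 < η x)
    [IsProbabilityMeasure (dm η)] {P : ℝ} (hP0 : 0 < P) (hP : PI (dm η) P)
    {φ : E → ℝ} {g : E → E} (h : H1 (dm η) φ g) (h0 : ∫ x, φ x ∂(dm η) = 0)
    (h1 : ∫ x, φ x ^ 2 ∂(dm η) = 1) (hopt : P * ∫ x, ‖g x‖ ^ 2 ∂(dm η) = 1)
    {ζ : E → ℝ} (hζ : IsTest ζ) :
    ∫ x, inner ℝ (g x) (gradient ζ x) ∂(dm η) = P⁻¹ * ∫ x, φ x * ζ x ∂(dm η) := by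
  have hZ := ws_H1_of_test hη hpos hζ
  have hi1 : Integrable φ (dm η) := h.2.1.integrable (by norm_num)
  have hi2 : Integrable ζ (dm η) := hZ.2.1.integrable (by norm_num)
  have key : ∀ t : ℝ, (2 * ∫ x, φ x * ζ x ∂(dm η)
      - 2 * P * ∫ x, inner ℝ (g x) (gradient ζ x) ∂(dm η)) * t ≤
      (P * ∫ x, ‖gradient ζ x‖ ^ 2 ∂(dm η) - ∫ x, ζ x ^ 2 ∂(dm η)
        + (∫ x, ζ x ∂(dm η)) ^ 2) * t ^ 2 := by
    intro t
    have h2 := ws_PI_H1 hη hpos hP (exk_H1_add h (exk_H1_smul t hZ))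
    unfold vari at h2
    rw [exk_int_sq_add h.2.1 hZ.2.1 t, exk_int_normsq_add h.2.2 hZ.2.2 t,
      integral_add hi1 (hi2.const_mul t), integral_const_mul, h0, h1] at h2
    nlinarith
  have h3 := exk_lin_zero key
  have h4 : P * ∫ x, inner ℝ (g x) (gradient ζ x) ∂(dm η) = ∫ x, φ x * ζ x ∂(dm η) := by linarith
  rw [← h4]
  field_simp

end Claimed.Agent.R259
end

/- ===== packed: Claimed.Agent.R259.S4CurveKer ===== -/
section
/-
Row 259 (S0499), section 4, package BP-S4-curve, file KER (LEAF L-s4c-ker): the likelihood ratio `lcK` and the joint density `s4cK` of `(U_r, L_T)`.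
Owner of the statements: helper147.  Proofs: helper212 (sorry-free).   `m` = law of `Y` (ANY probability on `E`), `w : E → E` measurable, `U_r = Y + √r G`, `L_T = √T w(Y) + G'`, `γ = stdGaussian E`.
Hints.  `lcK w T l y = exp(√T ⟨l, w y⟩ - T |w y|²/2)`; `s4c_lcK_le`: `√T ⟨l,s⟩ ≤ |l|²/2 + T|s|²/2`.
`s4c_lcK_integral`: Gaussian mgf (ImmseKer.lean has `imm_K_*` lemmas for `immK t s l = lcK`, see `lc_K_eq` in ImmseLc.lean: cite them).
`s4c_lcK_ent`: apply `lc_D_le`, `lc_klFun_integrable` (ImmseLc.lean) to the probability `stdGaussian E` (or any) and the CONSTANT signal `fun _ => w y`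
   (`lcZ m (fun _ => s) T l = lcK .. `by `integral_const`), then `s4c_entF_of_integrable`.
`s4c_K_measurable`: `StronglyMeasurable.integral_prod_right`.   `s4c_K_integral_l / _u`: Tonelli/Fubini (`integrable_prod_iff`, `integral_integral_swap`),
   `∫ gk r (u - y) du = 1` (`dfk_gk_integral`, `integral_sub_right_eq_self`), `0 ≤ gk ≤ gk r 0`, `0 < lcK ≤ exp(|l|²/2)`.
`s4c_Z_hpm`: `db_hpm_integral` (DbTower.lean).   `s4c_gconv_Pm`: `dfk_integral_wd` (DefBase.lean).
-/
set_option autoImplicit false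

open MeasureTheory ProbabilityTheory InformationTheory
open scoped ENNReal

namespace Claimed.Agent.R259

variable {E : Type} [NormedAddCommGroup E] [InnerProductSpace ℝ E] [FiniteDimensional ℝ E]
  [MeasurableSpace E] [BorelSpace E]

/-- joint density of `(U_r, L_T)` with respect to `du ⊗ γ(dl)` -/
noncomputable def s4cK (m : Measure E) (w : E → E) (r T : ℝ) (u l : E) : ℝ :=
  ∫ y, gk r (u - y) * lcK w T l y ∂m

theorem s4cjoint_eqns_cite : True := by
  have := @s4cK.eq_1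
  trivial

/-! ### the likelihood ratio `lcK` -/

theorem s4c_lcK_pos (w : E → E) (T : ℝ) (l y : E) : 0 < lcK w T l y := Real.exp_pos _

/-- `√T ⟨l, s⟩ - T |s|²/2 ≤ |l|²/2` -/
theorem s4c_lcK_le (w : E → E) {T : ℝ} (hT : 0 ≤ T) (l y : E) : lcK w T l y ≤ Real.exp (‖l‖ ^ 2 / 2) :=
  lclc_K_le w hT l y

theorem s4c_lcK_measurable {w : E → E} (hw : Measurable w) (T : ℝ) :
    Measurable fun p : E × E => lcK w T p.1 p.2 := by
  unfold lcK
  have h2 : Measurable fun p : E × E => w p.2 := hw.comp measurable_snd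
  exact (((measurable_fst.inner h2).const_mul _).sub ((h2.norm.pow_const 2).const_mul T |>.div_const 2)).exp

/-- Gaussian exponential moment -/
theorem s4c_lcK_integral (w : E → E) {T : ℝ} (hT : 0 ≤ T) (y : E) :
    Integrable (fun l => lcK w T l y) (stdGaussian E) ∧ ∫ l, lcK w T l y ∂(stdGaussian E) = 1 := by
  simp only [lc_K_eq]
  exact ⟨imm_K_integrable hT _, imm_K_integral hT _⟩

/-- `H(N(√T s, Id) | γ) = T |s|²/2`  (apply `lc_D_le`, `lc_klFun_integrable` to the constant signal `fun _ => w y`) -/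
theorem s4c_lcK_ent (w : E → E) {T : ℝ} (hT : 0 ≤ T) (y : E) :
    entF (stdGaussian E) (fun l => lcK w T l y) ≤ ENNReal.ofReal (T / 2 * ‖w y‖ ^ 2) := by
  simp only [lc_K_eq]
  rw [s4c_entF_real (fun l => (imm_K_pos T (w y) l).le) (imm_K_integrable hT _) (imm_K_integral hT _)
    (imm_K_log_integrable hT _), imm_K_log_integral hT]
  exact ENNReal.ofReal_le_ofReal (by ring_nf; exact le_rfl)

variable {m : Measure E} [IsProbabilityMeasure m] {w : E → E} {r T : ℝ}

/-! ### the joint density -/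

theorem s4c_K_nonneg (hr : 0 < r) (u l : E) : 0 ≤ s4cK m w r T u l :=
  integral_nonneg fun y => mul_nonneg (dfk_gk_pos hr _).le (s4c_lcK_pos w T l y).le

theorem s4c_K_measurable (hw : Measurable w) : Measurable (Function.uncurry (s4cK m w r T)) := by
  have h1 : Measurable fun q : (E × E) × E => gk r (q.1.1 - q.2) * lcK w T q.1.2 q.2 := by
    have a1 : Measurable fun q : (E × E) × E => gk r (q.1.1 - q.2) :=
      (dfk_gk_cont r).measurable.comp ((measurable_fst.comp measurable_fst).sub measurable_snd)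
    have a2 : Measurable fun q : (E × E) × E => lcK w T q.1.2 q.2 :=
      (s4c_lcK_measurable hw T).comp ((measurable_snd.comp measurable_fst).prodMk measurable_snd)
    exact a1.mul a2
  exact (h1.stronglyMeasurable.integral_prod_right (ν := m)).measurable

theorem s4c_K_integral_l (hw : Measurable w) (hr : 0 < r) (hT : 0 ≤ T) (u : E) :
    Integrable (fun l => s4cK m w r T u l) (stdGaussian E) ∧
      ∫ l, s4cK m w r T u l ∂(stdGaussian E) = gconv m r u := by
  have hg : Integrable (fun y => gk r (u - y)) m := dbt_gk_integrable hr u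
  have e : (fun l => s4cK m w r T u l) = fun l => ∫ x, lcK w T l x * gk r (u - x) ∂m := by
    funext l
    simp only [s4cK, mul_comm]
  rw [e]
  exact ⟨lclc_Kw_integrable hw.aemeasurable hT hg, lclc_Kw_integral hw.aemeasurable hT hg⟩

theorem s4c_K_integral_u (hw : Measurable w) (hr : 0 < r) (hT : 0 ≤ T) (l : E) :
    Integrable (fun u => s4cK m w r T u l) volume ∧ ∫ u, s4cK m w r T u l = lcZ m w T l := by
  have hK : Integrable (lcK w T l) m := lclc_K_int hw.aemeasurable hT l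
  have hP := dbt_prod_integrable (ν := m) hr hK
  simp only [smul_eq_mul] at hP
  refine ⟨hP.swap.integral_prod_left, ?_⟩
  simp only [s4cK]
  rw [integral_integral_swap (f := fun u y => gk r (u - y) * lcK w T l y) hP.swap]
  simp only [integral_mul_const, dbt_gk_integral_sub hr, one_mul]
  rfl

theorem s4c_Z_hpm (hw : Measurable w) (hr : 0 < r) (hT : 0 ≤ T) (u l : E) :
    lcZ (hpm m r u) w T l = s4cK m w r T u l / gconv m r u := by
  rw [lcZ, db_hpm_integral hr, hpost, s4cK, div_eq_inv_mul]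
  rfl

theorem s4c_gconv_Pm (hw : Measurable w) (hr : 0 < r) (hT : 0 ≤ T) (u l : E) :
    gconv (lcPm m w T l) r u = s4cK m w r T u l / lcZ m w T l := by
  have hZ := lc_Z_pos (m := m) hw.aemeasurable hT l
  have hm : Measurable fun x => (lcZ m w T l)⁻¹ * lcK w T l x :=
    ((s4c_lcK_measurable hw T).comp measurable_prodMk_left).const_mul _
  rw [gconv, lcPm, dfk_integral_wd m hm
    (fun x => mul_nonneg (inv_nonneg.2 hZ.le) (s4c_lcK_pos w T l x).le), s4cK, div_eq_inv_mul,
    ← integral_const_mul]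
  refine integral_congr_ae (Filter.Eventually.of_forall fun x => ?_)
  simp only [smul_eq_mul]
  ring

end Claimed.Agent.R259
end

/- ===== packed: Claimed.Agent.R259.S4CurveJoint ===== -/
section
/-
Row 259 (S0499), section 4, package BP-S4-curve, file JOINT (LEAF L-s4c-joint): the two applications of the chain rule `s4c_ent_two` (S4CurveEnt.lean).
Owner: helper147.  Proofs: helper212 (sorry-free).   `m` = law of `Y` (ANY probability on `E`), `w : E → E` measurable in `L²(m)`, `U_r = Y + √r G`, `L_T = √T w(Y) + G'`, `γ = stdGaussian E`.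

(HEAT)  joint density of `(U_r, L_T)` with respect to `du ⊗ γ(dl)`:  `s4cK m w r T u l = ∫ gk r (u - y) lcK w T l y dm(y)`.
  Apply `s4c_ent_two` with `α = dm q`, `β = γ`, `j u l = s4cK u l / q u`:
   * `∫ j u l dγ(l) = gconv m r u / q u`          (`s4c_K_integral_l`)
   * `∫ j u l d(dm q)(u) = ∫ s4cK u l du = lcZ m w T l`    (`s4c_K_integral_u`, `dfk_integral_dm`)
   * `j u l / (gconv m r u / q u) = lcZ (hpm m r u) w T l`   (`s4c_Z_hpm`), so `entF γ (..) = ofReal (lcD (hpm m r u) w T)`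
     (`s4c_entF_of_integrable`, `lc_klFun_integrable` for the probability `hpm m r u`)
   * `∫⁻ ofReal (p/q) F d(dm q) = ∫⁻ F d(dm p)`    (`s4c_lintegral_dm` twice)
   * `j u l / lcZ m w T l = gconv (lcPm m w T l) r u / q u`  (`s4c_gconv_Pm`), so `entF (dm q) (..) = klDiv (dm (gconv (lcPm ..) r)) (dm q)` (`s4c_kl_dm`)
   * `entF γ (lcZ m w T) = ofReal (lcD m w T)`;   drop `entF (dm q) (p/q) ≥ 0`.
(LABEL) joint density of `(Y, L_T)` with respect to `ν ⊗ γ`, `m = k ν`:  `j y l = k y * lcK w T l y`.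
   * `∫ j y l dγ(l) = k y`   (`s4c_lcK_integral`),  `entF γ (lcK w T · y) ≤ ofReal (T |w y|²/2)`   (`s4c_lcK_ent`)
   * `∫ j y l dν(y) = lcZ m w T l`,   `entF ν (j · l / lcZ) = klDiv (lcPm m w T l) ν`  (`s4c_kl_withDensity`, `withDensity_mul`);  drop `entF γ (lcZ) ≥ 0`.
-/
set_option autoImplicit false

open MeasureTheory ProbabilityTheory InformationTheory
open scoped ENNReal

namespace Claimed.Agent.R259

variable {E : Type} [NormedAddCommGroup E] [InnerProductSpace ℝ E] [FiniteDimensional ℝ E]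
  [MeasurableSpace E] [BorelSpace E]

variable {m : Measure E} [IsProbabilityMeasure m] {w : E → E} {r T : ℝ}

theorem s4c_memLp_hpm (hw : Measurable w) (hw2 : MemLp w 2 m) (hr : 0 < r) (u : E) : MemLp w 2 (hpm m r u) := by
  rw [memLp_two_iff_integrable_sq_norm hw.aestronglyMeasurable]
  exact db_hpm_integrable hr u ((memLp_two_iff_integrable_sq_norm hw.aestronglyMeasurable).1 hw2)

/-- **(HEAT)**: `E H(Law(L_T | U_r) | γ) ≤ d(T) + E H(Law(U_r | L_T) | q)`. -/
theorem s4c_chain_heat (hw : Measurable w) (hw2 : MemLp w 2 m) {q : E → ℝ} (hqm : Measurable q)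
    (hq : ∀ u, 0 < q u) [IsProbabilityMeasure (dm q)] (hr : 0 < r) (hT : 0 ≤ T) :
    ∫⁻ u, ENNReal.ofReal (lcD (hpm m r u) w T) ∂(dm (gconv m r)) ≤
      ENNReal.ofReal (lcD m w T) +
        ∫⁻ l, ENNReal.ofReal (lcZ m w T l) * klDiv (dm (gconv (lcPm m w T l) r)) (dm q) ∂(stdGaussian E) := by
  have hq0 : ∀ u, 0 ≤ q u := fun u => (hq u).le
  have hpmeas : Measurable (gconv m r) := (dbt_gconv_continuous hr).measurable
  -- the joint density
  have hj : Measurable (Function.uncurry fun u l => s4cK m w r T u l / q u) :=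
    (s4c_K_measurable hw).div (hqm.comp measurable_fst)
  have h0 : ∀ u l, 0 ≤ s4cK m w r T u l / q u := fun u l => div_nonneg (s4c_K_nonneg hr u l) (hq0 u)
  have hx : ∀ u, Integrable (fun l => s4cK m w r T u l / q u) (stdGaussian E) := fun u =>
    (s4c_K_integral_l hw hr hT u).1.div_const _
  have hcancel : ∀ u l, q u • (s4cK m w r T u l / q u) = s4cK m w r T u l := by
    intro u l
    rw [smul_eq_mul, mul_div_cancel₀ _ (hq u).ne']
  have hy : ∀ l, Integrable (fun u => s4cK m w r T u l / q u) (dm q) := by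
    intro l
    rw [dfk_integrable_dm hqm hq0]
    simp only [hcancel]
    exact (s4c_K_integral_u hw hr hT l).1
  have key := s4c_ent_two (α := dm q) (β := stdGaussian E) hj h0 hx hy
  -- marginals
  have e1 : ∀ u, ∫ l, s4cK m w r T u l / q u ∂(stdGaussian E) = gconv m r u / q u := by
    intro u
    rw [integral_div, (s4c_K_integral_l hw hr hT u).2]
  have e2 : ∀ l, ∫ u, s4cK m w r T u l / q u ∂(dm q) = lcZ m w T l := by
    intro l
    rw [dfk_integral_dm hqm hq0]
    simp only [hcancel]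
    exact (s4c_K_integral_u hw hr hT l).2
  simp only [e1, e2] at key
  -- conditional entropies
  have e3 : ∀ u, entF (stdGaussian E) (fun l => s4cK m w r T u l / q u / (gconv m r u / q u)) =
      ENNReal.ofReal (lcD (hpm m r u) w T) := by
    intro u
    have : IsProbabilityMeasure (hpm m r u) := db_hpm_prob hr u
    have : (fun l => s4cK m w r T u l / q u / (gconv m r u / q u)) = lcZ (hpm m r u) w T := by
      funext l
      rw [div_div_div_cancel_right₀ (hq u).ne', s4c_Z_hpm hw hr hT]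
    rw [this, s4c_entF_of_integrable (fun l => (lc_Z_pos hw.aemeasurable hT l).le)
      (lc_klFun_integrable (s4c_memLp_hpm hw hw2 hr u) hT)]
    rfl
  have e4 : ∀ l, entF (dm q) (fun u => s4cK m w r T u l / q u / lcZ m w T l) =
      klDiv (dm (gconv (lcPm m w T l) r)) (dm q) := by
    intro l
    have : IsProbabilityMeasure (lcPm m w T l) := lc_Pm_prob hw.aemeasurable hT l
    have : IsProbabilityMeasure (dm (gconv (lcPm m w T l) r)) := gc_isProb hr
    rw [s4c_kl_dm (dbt_gconv_continuous hr).measurable (fun u => (db_gconv_pos hr u).le) hqm hq]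
    congr 1
    funext u
    rw [s4c_gconv_Pm hw hr hT, div_right_comm]
  have e5 : entF (stdGaussian E) (fun l => lcZ m w T l) = ENNReal.ofReal (lcD m w T) := by
    rw [s4c_entF_of_integrable (fun l => (lc_Z_pos hw.aemeasurable hT l).le)
      (lc_klFun_integrable hw2 hT)]
    rfl
  simp only [e3, e4, e5] at key
  have e6 : ∫⁻ u, ENNReal.ofReal (gconv m r u / q u) * ENNReal.ofReal (lcD (hpm m r u) w T) ∂(dm q) =
      ∫⁻ u, ENNReal.ofReal (lcD (hpm m r u) w T) ∂(dm (gconv m r)) := by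
    rw [s4c_lintegral_dm hqm, s4c_lintegral_dm hpmeas]
    refine lintegral_congr fun u => ?_
    rw [← mul_assoc, ← ENNReal.ofReal_mul (hq0 u), mul_div_cancel₀ _ (hq u).ne']
  rw [e6] at key
  rw [← key]
  exact le_add_self

/-- **(LABEL)**: `E H(Law(Y | L_T) | ν) ≤ H(m | ν) + T E|w|²/2`. -/
theorem s4c_chain_label {ν : Measure E} [IsProbabilityMeasure ν] {k : E → ℝ} (hk : Measurable k)
    (hk0 : ∀ y, 0 ≤ k y) (hm : m = ν.withDensity fun y => ENNReal.ofReal (k y))
    (hw : Measurable w) (hw2 : MemLp w 2 m) (hT : 0 ≤ T) :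
    ∫⁻ l, ENNReal.ofReal (lcZ m w T l) * klDiv (lcPm m w T l) ν ∂(stdGaussian E) ≤
      entF ν k + ENNReal.ofReal (T / 2 * ∫ y, ‖w y‖ ^ 2 ∂m) := by
  have hj : Measurable (Function.uncurry fun y l => k y * lcK w T l y) :=
    (hk.comp measurable_fst).mul ((s4c_lcK_measurable hw T).comp measurable_swap)
  have h0 : ∀ y l, 0 ≤ k y * lcK w T l y := fun y l => mul_nonneg (hk0 y) (s4c_lcK_pos w T l y).le
  have hx : ∀ y, Integrable (fun l => k y * lcK w T l y) (stdGaussian E) := fun y =>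
    (s4c_lcK_integral w hT y).1.const_mul _
  have hy : ∀ l, Integrable (fun y => k y * lcK w T l y) ν := by
    intro l
    have h1 : Integrable (lcK w T l) m := lclc_K_int hw.aemeasurable hT l
    rw [hm, dfk_integrable_wd ν hk hk0] at h1
    simpa using h1
  have key := s4c_ent_two (α := ν) (β := stdGaussian E) hj h0 hx hy
  have e1 : ∀ y, ∫ l, k y * lcK w T l y ∂(stdGaussian E) = k y := by
    intro y
    rw [integral_const_mul, (s4c_lcK_integral w hT y).2, mul_one]
  have e2 : ∀ l, ∫ y, k y * lcK w T l y ∂ν = lcZ m w T l := by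
    intro l
    rw [lcZ]
    conv_rhs => rw [hm]
    rw [dfk_integral_wd ν hk hk0]
    rfl
  simp only [e1, e2] at key
  have hwd : ∀ f : E → ℝ≥0∞, Measurable f →
      m.withDensity f = ν.withDensity (fun y => ENNReal.ofReal (k y) * f y) := by
    intro f hf
    rw [hm, ← withDensity_mul _ hk.ennreal_ofReal hf]
    rfl
  have e4 : ∀ l, entF ν (fun y => k y * lcK w T l y / lcZ m w T l) = klDiv (lcPm m w T l) ν := by
    intro l
    have hZ := lc_Z_pos (m := m) hw.aemeasurable hT l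
    have hKm : Measurable fun y => lcK w T l y := (s4c_lcK_measurable hw T).comp measurable_prodMk_left
    have hd : lcPm m w T l = ν.withDensity fun y => ENNReal.ofReal (k y * lcK w T l y / lcZ m w T l) := by
      rw [lcPm, hwd _ (hKm.const_mul _).ennreal_ofReal]
      congr 1
      funext y
      rw [← ENNReal.ofReal_mul (hk0 y)]
      congr 1
      field_simp
    rw [hd, s4c_kl_withDensity (k := fun y => k y * lcK w T l y / lcZ m w T l)
      ((hk.mul hKm).div_const _) (fun y => div_nonneg (h0 y l) hZ.le) ((hy l).div_const _)]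
  simp only [e4] at key
  have e3 : ∫⁻ y, ENNReal.ofReal (k y) * entF (stdGaussian E) (fun l => k y * lcK w T l y / k y) ∂ν ≤
      ENNReal.ofReal (T / 2 * ∫ y, ‖w y‖ ^ 2 ∂m) := by
    have hwi : Integrable (fun y => T / 2 * ‖w y‖ ^ 2) m :=
      ((memLp_two_iff_integrable_sq_norm hw.aestronglyMeasurable).1 hw2).const_mul _
    rw [← integral_const_mul, ofReal_integral_eq_lintegral_ofReal hwi
      (Filter.Eventually.of_forall fun y => by positivity)]
    conv_rhs => rw [hm]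
    rw [lintegral_withDensity_eq_lintegral_mul _ hk.ennreal_ofReal
      ((hw.norm.pow_const 2).const_mul _).ennreal_ofReal]
    refine lintegral_mono fun y => ?_
    rw [Pi.mul_apply]
    rcases (hk0 y).eq_or_lt with hky | hky
    · simp [← hky]
    · refine mul_le_mul_right ?_ _
      have : (fun l => k y * lcK w T l y / k y) = fun l => lcK w T l y := by
        funext l
        rw [mul_div_cancel_left₀ _ hky.ne']
      rw [this]
      exact s4c_lcK_ent w hT y
  calc ∫⁻ l, ENNReal.ofReal (lcZ m w T l) * klDiv (lcPm m w T l) ν ∂(stdGaussian E)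
      ≤ entF (stdGaussian E) (fun l => lcZ m w T l) +
        ∫⁻ l, ENNReal.ofReal (lcZ m w T l) * klDiv (lcPm m w T l) ν ∂(stdGaussian E) := le_add_self
    _ = _ := key.symm
    _ ≤ _ := by gcongr

end Claimed.Agent.R259
end

/- ===== packed: Claimed.Agent.R259.DbPost ===== -/
section
/-
Row 259, kit DB, leaf group POST: posteriors of a LOG-CONCAVE base law are subgaussian with variance proxy `h`; pointwise lower bounds for the
posterior entropy and the posterior variance.        Statements: helper147.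
Inputs: DbSmooth, DbTower (black boxes), `gc_logConc` (GcBounds.lean), `tg_dv` (Tg.lean: Donsker-Varadhan at function level).

`db_gk_tilt` (completing the square): `gk h (u - x) e^{⟨v,x⟩} = gk h (u + h v - x) e^{⟨v,u⟩ + h|v|²/2}`.
`db_post_mgf_eq`: integrate.     `db_logconc_tangent`: `q` log-concave, positive, differentiable at `u` ⇒ `q y ≤ q u exp⟨∇ log q (u), y - u⟩`.
`db_post_mgf`: combine with Tweedie `db_gconv_gradient_log`.
`db_post_var`: `e^{tX} + e^{-tX} ≥ 2 + t² X²` and `t → 0` in the mgf bound.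
`db_ent_post_ge`: `π = hpm ν h u`, `F = hpost ν h f u > 0`, `tg_dv` with `q = f / F`, `G x = ⟨v, x⟩`, `v = ∇F(u)/F(u)`; by `db_hpost_gradient`
  `∫ ⟨v,x⟩ q dπ - ⟨v, mean π⟩ = h |v|²`, so `ent π f / F ≥ h|v|² - h|v|²/2`.
`db_var_post_ge`: `⟨v, h ∇G(u)⟩ = Cov_π(g, ⟨v,x⟩) ≤ √(Var g) √(h|v|²)`, `v = ∇G(u)`.
-/
set_option autoImplicit false
set_option linter.unusedSectionVars false

open MeasureTheory ProbabilityTheory Filter Topology
open scoped ENNReal ContDiff

namespace Claimed.Agent.R259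

theorem dbp_sq_le_exp (z : ℝ) : z ^ 2 ≤ Real.exp z + Real.exp (-z) - 2 := by
  have e1 : Real.exp z + Real.exp (-z) - 2 = 4 * Real.sinh (z / 2) ^ 2 := by
    rw [Real.sinh_eq]
    have h1 : Real.exp z = Real.exp (z / 2) ^ 2 := by rw [← Real.exp_nat_mul]; congr 1; push_cast; ring
    have h2 : Real.exp (-z) = Real.exp (-(z / 2)) ^ 2 := by
      rw [← Real.exp_nat_mul]; congr 1; push_cast; ring
    have h3 : Real.exp (z / 2) * Real.exp (-(z / 2)) = 1 := by rw [← Real.exp_add]; simp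
    rw [h1, h2]
    nlinarith
  rw [e1]
  have h4 : (z / 2) ^ 2 ≤ Real.sinh (z / 2) ^ 2 := by
    rcases le_total 0 (z / 2) with h | h
    · exact pow_le_pow_left₀ h (Real.self_le_sinh_iff.2 h) 2
    · have := Real.sinh_le_self_iff.2 h
      nlinarith
  nlinarith

theorem dbp_var_of_mgf {α : Type} [MeasurableSpace α] {π : Measure α} [IsProbabilityMeasure π]
    {X : α → ℝ} (hXm : AEStronglyMeasurable X π) {a : ℝ} (ha : 0 ≤ a)
    (hint : ∀ t : ℝ, Integrable (fun x => Real.exp (t * X x)) π)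
    (hmgf : ∀ t : ℝ, ∫ x, Real.exp (t * X x) ∂π ≤ Real.exp (a * t ^ 2)) :
    Integrable (fun x => X x ^ 2) π ∧ ∫ x, X x ^ 2 ∂π ≤ 2 * a := by
  have hI : Integrable (fun x => X x ^ 2) π := by
    have h1 := (hint 1).add (hint (-1))
    refine h1.mono' (hXm.pow 2) (Eventually.of_forall fun x => ?_)
    rw [Real.norm_eq_abs, abs_of_nonneg (sq_nonneg _)]
    have := dbp_sq_le_exp (X x)
    simp only [Pi.add_apply, one_mul, neg_mul]
    linarith
  refine ⟨hI, ?_⟩
  have hbound : ∀ t : ℝ, t ≠ 0 → ∫ x, X x ^ 2 ∂π ≤ 2 * a * Real.exp (a * t ^ 2) := by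
    intro t ht
    have ht2 : 0 < t ^ 2 := by positivity
    have h1 : ∫ x, t ^ 2 * X x ^ 2 ∂π ≤
        ∫ x, (Real.exp (t * X x) + Real.exp (-t * X x) - 2) ∂π := by
      refine integral_mono (hI.const_mul _) (((hint t).add (hint (-t))).sub (integrable_const 2))
        fun x => ?_
      have := dbp_sq_le_exp (t * X x)
      simp only
      rw [mul_pow] at this
      rw [neg_mul]
      exact this
    have hadd : Integrable (fun x => Real.exp (t * X x) + Real.exp (-t * X x)) π :=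
      (hint t).add (hint (-t))
    rw [integral_const_mul, integral_sub hadd (integrable_const 2),
      integral_add (hint t) (hint (-t))] at h1
    simp only [integral_const, probReal_univ, smul_eq_mul, one_mul] at h1
    have h2 := hmgf t
    have h3 := hmgf (-t)
    rw [neg_sq] at h3
    set s := a * t ^ 2 with hs
    have hs0 : 0 ≤ s := by positivity
    have h4 : Real.exp s - 1 ≤ s * Real.exp s := by
      have := Real.add_one_le_exp (-s)
      have h5 : Real.exp s * Real.exp (-s) = 1 := by rw [← Real.exp_add]; simp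
      nlinarith [Real.exp_pos s]
    have h6 : t ^ 2 * ∫ x, X x ^ 2 ∂π ≤ t ^ 2 * (2 * a * Real.exp s) := by
      calc _ ≤ 2 * (Real.exp s - 1) := by linarith
        _ ≤ 2 * (s * Real.exp s) := by linarith
        _ = _ := by rw [hs]; ring
    exact le_of_mul_le_mul_left h6 ht2
  have hlim : Tendsto (fun t : ℝ => 2 * a * Real.exp (a * t ^ 2)) (𝓝[≠] 0) (𝓝 (2 * a)) := by
    have : Continuous fun t : ℝ => 2 * a * Real.exp (a * t ^ 2) := by fun_prop
    have h1 := (this.tendsto 0).mono_left (nhdsWithin_le_nhds (s := {0}ᶜ))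
    simpa using h1
  exact ge_of_tendsto hlim (eventually_nhdsWithin_of_forall fun t ht => hbound t ht)

theorem dbp_vari_le {α : Type} [MeasurableSpace α] {π : Measure α} [IsProbabilityMeasure π]
    {Y : α → ℝ} (hY : MemLp Y 2 π) (c : ℝ) : vari π Y ≤ ∫ x, (Y x - c) ^ 2 ∂π := by
  have i1 : Integrable Y π := hY.integrable (by norm_num)
  have i2 : Integrable (fun x => Y x ^ 2) π := hY.integrable_sq
  have e1 : ∫ x, (Y x - c) ^ 2 ∂π = ∫ x, Y x ^ 2 ∂π - 2 * c * ∫ x, Y x ∂π + c ^ 2 := by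
    have : ∀ x, (Y x - c) ^ 2 = Y x ^ 2 - 2 * c * Y x + c ^ 2 := fun x => by ring
    simp only [this]
    have i3 : Integrable (fun x => Y x ^ 2 - 2 * c * Y x) π := i2.sub (i1.const_mul _)
    rw [integral_add i3 (integrable_const _), integral_sub i2 (i1.const_mul _),
      integral_const_mul]
    simp
  rw [e1]
  unfold vari
  nlinarith [sq_nonneg (∫ x, Y x ∂π - c)]

variable {E : Type} [NormedAddCommGroup E] [InnerProductSpace ℝ E] [FiniteDimensional ℝ E]
  [MeasurableSpace E] [BorelSpace E]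

variable {h : ℝ}

theorem db_gk_tilt (hh : 0 < h) (u v x : E) :
    gk h (u - x) * Real.exp (inner ℝ v x) =
      gk h (u + h • v - x) * Real.exp (inner ℝ v u + h * ‖v‖ ^ 2 / 2) := by
  unfold gk
  rw [mul_assoc _ (Real.exp _) (Real.exp _), mul_assoc _ (Real.exp _) (Real.exp _),
    ← Real.exp_add, ← Real.exp_add]
  congr 2
  have e1 : u + h • v - x = (u - x) + h • v := by abel
  rw [e1, norm_add_sq_real, norm_smul, inner_smul_right, inner_sub_left, mul_pow, Real.norm_eq_abs,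
    sq_abs, real_inner_comm v u, real_inner_comm v x]
  field_simp
  ring

theorem db_post_mgf_eq {ν : Measure E} [IsProbabilityMeasure ν] (hh : 0 < h) (u v : E) :
    Integrable (fun x => Real.exp (inner ℝ v x)) (hpm ν h u) ∧
    ∫ x, Real.exp (inner ℝ v x) ∂(hpm ν h u) =
      Real.exp (inner ℝ v u + h * ‖v‖ ^ 2 / 2) * (gconv ν h (u + h • v) / gconv ν h u) := by
  have e1 : ∀ x, gk h (u - x) • Real.exp (inner ℝ v x) =
      gk h (u + h • v - x) * Real.exp (inner ℝ v u + h * ‖v‖ ^ 2 / 2) := fun x => by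
    rw [smul_eq_mul, db_gk_tilt hh]
  constructor
  · rw [db_hpm_integrable_iff hh]
    simp only [e1]
    exact (dbt_gk_integrable hh _).mul_const _
  · rw [db_hpm_integral hh, hpost]
    simp only [e1]
    rw [integral_mul_const, smul_eq_mul]
    unfold gconv
    ring

theorem db_logconc_tangent {q : E → ℝ} (hq : LogConc q) (hpos : ∀ x, 0 < q x) {u : E} (hd : DifferentiableAt ℝ q u)
    (y : E) : q y ≤ q u * Real.exp (inner ℝ (gradient (fun z => Real.log (q z)) u) (y - u)) := by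
  set φ : E → ℝ := fun z => Real.log (q z) with hφ
  have hφd : DifferentiableAt ℝ φ u := hd.log (hpos u).ne'
  -- derivative along the segment
  have hline : HasDerivAt (fun t : ℝ => u + t • (y - u)) (y - u) 0 := by
    simpa using ((hasDerivAt_id (0 : ℝ)).smul_const (y - u)).const_add u
  have hψ : HasDerivAt (fun t : ℝ => φ (u + t • (y - u))) (fderiv ℝ φ u (y - u)) 0 := by
    have h1 : HasFDerivAt φ (fderiv ℝ φ u) (u + (0 : ℝ) • (y - u)) := by
      simpa using hφd.hasFDerivAt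
    exact h1.comp_hasDerivAt 0 hline
  have hslope := hψ.tendsto_slope_zero_right
  have hev : ∀ᶠ t in 𝓝[>] (0 : ℝ), φ y - φ u ≤
      t⁻¹ • (φ (u + (0 + t) • (y - u)) - φ (u + (0 : ℝ) • (y - u))) := by
    have : Set.Ioo (0 : ℝ) 1 ∈ 𝓝[>] (0 : ℝ) := Ioo_mem_nhdsGT one_pos
    filter_upwards [this] with t ht
    have h1 := hq.2.2 u y t ht.1 ht.2
    have h2 : (1 - t) • u + t • y = u + (0 + t) • (y - u) := by
      rw [zero_add, smul_sub, sub_smul, one_smul]; abel
    rw [h2] at h1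
    have h3 : Real.log (q u ^ (1 - t) * q y ^ t) ≤ Real.log (q (u + (0 + t) • (y - u))) :=
      Real.log_le_log (mul_pos (Real.rpow_pos_of_pos (hpos u) _) (Real.rpow_pos_of_pos (hpos y) _)) h1
    rw [Real.log_mul (Real.rpow_pos_of_pos (hpos u) _).ne' (Real.rpow_pos_of_pos (hpos y) _).ne',
      Real.log_rpow (hpos u), Real.log_rpow (hpos y)] at h3
    rw [zero_smul, add_zero, smul_eq_mul, le_inv_mul_iff₀ ht.1]
    simp only [hφ]
    linarith
  have hle : φ y - φ u ≤ fderiv ℝ φ u (y - u) := ge_of_tendsto hslope hev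
  have hgrad : inner ℝ (gradient φ u) (y - u) = fderiv ℝ φ u (y - u) := by
    unfold gradient; simp
  rw [hgrad]
  have h4 : Real.log (q y) ≤ Real.log (q u) + fderiv ℝ φ u (y - u) := by
    simp only [hφ] at hle ⊢; linarith
  calc q y = Real.exp (Real.log (q y)) := (Real.exp_log (hpos y)).symm
    _ ≤ Real.exp (Real.log (q u) + fderiv ℝ φ u (y - u)) := Real.exp_le_exp.2 h4
    _ = _ := by rw [Real.exp_add, Real.exp_log (hpos u)]

variable {ρ : E → ℝ}

/-- subgaussian bound for the posteriors of a log-concave law -/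
theorem db_post_mgf (hρ : LogConc ρ) [IsProbabilityMeasure (dm ρ)] (hh : 0 < h) (u v : E) :
    ∫ x, Real.exp (inner ℝ v x) ∂(hpm (dm ρ) h u) ≤
      Real.exp (inner ℝ v (hpost (dm ρ) h (fun x => x) u) + h * ‖v‖ ^ 2 / 2) := by
  rw [(db_post_mgf_eq hh u v).2]
  have hq : LogConc (gconv (dm ρ) h) := gc_logConc ⟨ρ, hρ, rfl⟩ hh
  have hspd := db_gconv_spd (ν := dm ρ) hh
  have hd : DifferentiableAt ℝ (gconv (dm ρ) h) u := (hspd.1.differentiable (by simp)) u
  have h1 := db_logconc_tangent hq hspd.2.1 hd (u + h • v)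
  rw [db_gconv_gradient_log hh, add_sub_cancel_left, inner_smul_left, inner_smul_right] at h1
  have e1 : (starRingEnd ℝ) h⁻¹ * (h * inner ℝ (hpost (dm ρ) h (fun x => x) u - u) v) =
      inner ℝ v (hpost (dm ρ) h (fun x => x) u) - inner ℝ v u := by
    rw [inner_sub_left, real_inner_comm v, real_inner_comm v]
    simp only [RCLike.conj_to_real]
    field_simp
  rw [e1] at h1
  have h2 : gconv (dm ρ) h (u + h • v) / gconv (dm ρ) h u ≤
      Real.exp (inner ℝ v (hpost (dm ρ) h (fun x => x) u) - inner ℝ v u) := by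
    rw [div_le_iff₀ (hspd.2.1 u), mul_comm]; exact h1
  calc _ ≤ Real.exp (inner ℝ v u + h * ‖v‖ ^ 2 / 2) *
        Real.exp (inner ℝ v (hpost (dm ρ) h (fun x => x) u) - inner ℝ v u) :=
        mul_le_mul_of_nonneg_left h2 (Real.exp_pos _).le
    _ = _ := by rw [← Real.exp_add]; congr 1; ring

theorem dbp_post_centred (hρ : LogConc ρ) [IsProbabilityMeasure (dm ρ)] (hh : 0 < h) (u v : E) :
    Integrable (fun x => (inner ℝ v x - inner ℝ v (hpost (dm ρ) h (fun x => x) u)) ^ 2)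
      (hpm (dm ρ) h u) ∧
    ∫ x, (inner ℝ v x - inner ℝ v (hpost (dm ρ) h (fun x => x) u)) ^ 2 ∂(hpm (dm ρ) h u) ≤
      h * ‖v‖ ^ 2 := by
  have := db_hpm_prob (ν := dm ρ) hh u
  set c := inner ℝ v (hpost (dm ρ) h (fun x => x) u) with hc
  have e1 : ∀ (t : ℝ) (x : E), Real.exp (t * (inner ℝ v x - c)) =
      Real.exp (inner ℝ (t • v) x) * Real.exp (-(t * c)) := fun t x => by
    rw [← Real.exp_add, inner_smul_left]; congr 1; simp; ring
  have h1 := dbp_var_of_mgf (π := hpm (dm ρ) h u) (X := fun x => inner ℝ v x - c)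
    (a := h * ‖v‖ ^ 2 / 2) (Continuous.aestronglyMeasurable (by fun_prop)) (by positivity)
    (fun t => by
      simp only [e1]
      exact (db_post_mgf_eq hh u (t • v)).1.mul_const _)
    (fun t => by
      simp only [e1]
      rw [integral_mul_const]
      calc _ ≤ Real.exp (inner ℝ (t • v) (hpost (dm ρ) h (fun x => x) u) + h * ‖t • v‖ ^ 2 / 2) *
            Real.exp (-(t * c)) :=
            mul_le_mul_of_nonneg_right (db_post_mgf hρ hh u (t • v)) (Real.exp_pos _).le
        _ = _ := by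
            rw [← Real.exp_add, inner_smul_left, norm_smul, mul_pow, Real.norm_eq_abs, sq_abs]
            congr 1
            simp only [RCLike.conj_to_real, ← hc]
            ring)
  refine ⟨h1.1, h1.2.trans (le_of_eq (by ring))⟩

theorem dbp_inner_memLp (hρ : LogConc ρ) [IsProbabilityMeasure (dm ρ)] (hh : 0 < h) (u v : E) :
    MemLp (fun x => inner ℝ v x) 2 (hpm (dm ρ) h u) := by
  have := db_hpm_prob (ν := dm ρ) hh u
  have h1 : MemLp (fun x => inner ℝ v x - inner ℝ v (hpost (dm ρ) h (fun x => x) u)) 2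
      (hpm (dm ρ) h u) := by
    rw [memLp_two_iff_integrable_sq (Continuous.aestronglyMeasurable (by fun_prop))]
    exact (dbp_post_centred hρ hh u v).1
  have h2 := h1.add (memLp_const (inner ℝ v (hpost (dm ρ) h (fun x => x) u)))
  refine h2.congr_norm (Continuous.aestronglyMeasurable (by fun_prop))
    (Eventually.of_forall fun x => ?_)
  simp

theorem db_post_var (hρ : LogConc ρ) [IsProbabilityMeasure (dm ρ)] (hh : 0 < h) (u v : E) :
    vari (hpm (dm ρ) h u) (fun x => inner ℝ v x) ≤ h * ‖v‖ ^ 2 := by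
  have := db_hpm_prob (ν := dm ρ) hh u
  exact (dbp_vari_le (dbp_inner_memLp hρ hh u v) _).trans (dbp_post_centred hρ hh u v).2

theorem db_ent_post_ge (hρ : LogConc ρ) [IsProbabilityMeasure (dm ρ)] (hh : 0 < h) {f : E → ℝ} (hf0 : ∀ x, 0 ≤ f x)
    (hf : Integrable f (dm ρ)) (hfl : Integrable (fun x => f x * Real.log (f x)) (dm ρ))
    (hpos : 0 < ∫ x, f x ∂(dm ρ)) (u : E) :
    h / 2 * (‖gradient (hpost (dm ρ) h f) u‖ ^ 2 / hpost (dm ρ) h f u) ≤ ent (hpm (dm ρ) h u) f := by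
  have := db_hpm_prob (ν := dm ρ) hh u
  set π := hpm (dm ρ) h u with hπ
  set F := hpost (dm ρ) h f u with hF
  set b := hpost (dm ρ) h (fun x => x) u with hb
  have hFpos : 0 < F := db_hpost_pos hh hf0 hf hpos u
  have if1 : Integrable f π := db_hpm_integrable hh u hf
  have if2 : Integrable (fun x => f x * Real.log (f x)) π := db_hpm_integrable hh u hfl
  have if3 : Integrable (fun x => f x • x) π := db_hpm_integrable_id hh u hf
  have ef1 : ∫ x, f x ∂π = F := db_hpm_integral hh u f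
  have ef3 : ∫ x, f x • x ∂π = hpost (dm ρ) h (fun x => f x • x) u := db_hpm_integral hh u _
  obtain ⟨v, hv⟩ : ∃ v : E, v = F⁻¹ • gradient (hpost (dm ρ) h f) u := ⟨_, rfl⟩
  have hgrad : gradient (hpost (dm ρ) h f) u =
      h⁻¹ • (hpost (dm ρ) h (fun x => f x • x) u - F • b) := db_hpost_gradient hh hf u
  -- the normalised density
  have eq1 : ∀ x, F⁻¹ * f x * Real.log (F⁻¹ * f x) =
      F⁻¹ * (f x * Real.log (f x)) - F⁻¹ * Real.log F * f x := by
    intro x
    rcases (hf0 x).eq_or_lt with h0 | h0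
    · rw [← h0]; simp
    · rw [Real.log_mul (inv_pos.2 hFpos).ne' h0.ne', Real.log_inv]; ring
  have hdv := tg_dv (m := π) (q := fun x => F⁻¹ * f x) (G := fun x => inner ℝ v x)
    (fun x => mul_nonneg (inv_pos.2 hFpos).le (hf0 x))
    (by rw [integral_const_mul, ef1, inv_mul_cancel₀ hFpos.ne'])
    (by simp only [eq1]; exact (if2.const_mul _).sub (if1.const_mul _))
    (db_post_mgf_eq hh u v).1
    (by
      have := (if3.const_inner v).const_mul F⁻¹
      refine this.congr (Eventually.of_forall fun x => ?_)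
      simp only [inner_smul_right]; ring)
  have el : ∫ x, inner ℝ v x * (F⁻¹ * f x) ∂π =
      F⁻¹ * inner ℝ v (hpost (dm ρ) h (fun x => f x • x) u) := by
    rw [← ef3, ← integral_inner if3, ← integral_const_mul]
    refine integral_congr_ae (Eventually.of_forall fun x => ?_)
    simp only [inner_smul_right]; ring
  have er : ∫ x, F⁻¹ * f x * Real.log (F⁻¹ * f x) ∂π = F⁻¹ * ent π f := by
    simp only [eq1]
    rw [integral_sub (if2.const_mul _) (if1.const_mul _), integral_const_mul, integral_const_mul]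
    unfold ent
    rw [ef1]
    field_simp
  have hlog : Real.log (∫ x, Real.exp (inner ℝ v x) ∂π) ≤ inner ℝ v b + h * ‖v‖ ^ 2 / 2 := by
    have h1 := db_post_mgf hρ hh u v
    have h2 : 0 < ∫ x, Real.exp (inner ℝ v x) ∂π := integral_exp_pos (db_post_mgf_eq hh u v).1
    calc _ ≤ Real.log (Real.exp (inner ℝ v b + h * ‖v‖ ^ 2 / 2)) := Real.log_le_log h2 h1
      _ = _ := Real.log_exp _
  rw [el, er] at hdv
  -- `⟨v, hpost (f x)⟩ = ⟨v, h ∇F + F b⟩`
  have e5 : hpost (dm ρ) h (fun x => f x • x) u = h • gradient (hpost (dm ρ) h f) u + F • b := by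
    rw [hgrad, smul_smul, mul_inv_cancel₀ hh.ne', one_smul]; abel
  have e6 : gradient (hpost (dm ρ) h f) u = F • v := by
    rw [hv, smul_smul, mul_inv_cancel₀ hFpos.ne', one_smul]
  rw [e5, e6, inner_add_right, inner_smul_right, inner_smul_right, inner_smul_right,
    real_inner_self_eq_norm_sq] at hdv
  rw [e6, norm_smul, mul_pow, Real.norm_eq_abs, sq_abs]
  have h7 : F⁻¹ * (h * (F * ‖v‖ ^ 2) + F * inner ℝ v b) = h * ‖v‖ ^ 2 + inner ℝ v b := by
    field_simp
  rw [h7] at hdv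
  have h8 : h * ‖v‖ ^ 2 / 2 ≤ F⁻¹ * ent π f := by linarith
  have h9 : F * (h * ‖v‖ ^ 2 / 2) ≤ F * (F⁻¹ * ent π f) := mul_le_mul_of_nonneg_left h8 hFpos.le
  rw [← mul_assoc, mul_inv_cancel₀ hFpos.ne', one_mul] at h9
  calc _ = F * (h * ‖v‖ ^ 2 / 2) := by field_simp
    _ ≤ _ := h9

theorem db_var_post_ge (hρ : LogConc ρ) [IsProbabilityMeasure (dm ρ)] (hh : 0 < h) {g : E → ℝ}
    (hg : MemLp g 2 (dm ρ)) (u : E) :
    h * ‖gradient (hpost (dm ρ) h g) u‖ ^ 2 ≤ vari (hpm (dm ρ) h u) g := by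
  have := db_hpm_prob (ν := dm ρ) hh u
  set π := hpm (dm ρ) h u with hπ
  set G := hpost (dm ρ) h g u with hG
  set b := hpost (dm ρ) h (fun x => x) u with hb
  set v := gradient (hpost (dm ρ) h g) u with hv
  have hg1 : Integrable g (dm ρ) := hg.integrable (by norm_num)
  have ig1 : Integrable g π := db_hpm_integrable hh u hg1
  have ig2 : Integrable (fun x => g x ^ 2) π := db_hpm_integrable hh u hg.integrable_sq
  have ig3 : Integrable (fun x => g x • x) π := db_hpm_integrable_id hh u hg1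
  have eg1 : ∫ x, g x ∂π = G := db_hpm_integral hh u g
  have eg3 : ∫ x, g x • x ∂π = hpost (dm ρ) h (fun x => g x • x) u := db_hpm_integral hh u _
  have hgm : AEStronglyMeasurable g π := ig1.aestronglyMeasurable
  have mg : MemLp g 2 π := (memLp_two_iff_integrable_sq hgm).2 ig2
  have mgc : MemLp (fun x => g x - G) 2 π := mg.sub (memLp_const G)
  have mY : MemLp (fun x => inner ℝ v x - inner ℝ v b) 2 π :=
    (dbp_inner_memLp hρ hh u v).sub (memLp_const _)
  have hcs := ws_cauchy_schwarz_mul mgc mY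
  have hgrad : v = h⁻¹ • (hpost (dm ρ) h (fun x => g x • x) u - G • b) := db_hpost_gradient hh hg1 u
  have iY : Integrable (fun x => inner ℝ v x) π := (dbp_inner_memLp hρ hh u v).integrable (by norm_num)
  have igY : Integrable (fun x => g x * inner ℝ v x) π := by
    refine (ig3.const_inner v).congr (Eventually.of_forall fun x => ?_)
    simp only [inner_smul_right]
  -- the covariance
  have ecov : ∫ x, (g x - G) * (inner ℝ v x - inner ℝ v b) ∂π = h * ‖v‖ ^ 2 := by
    have e1 : ∀ x, (g x - G) * (inner ℝ v x - inner ℝ v b) =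
        g x * inner ℝ v x - inner ℝ v b * g x - G * (inner ℝ v x - inner ℝ v b) := fun x => by ring
    have eb : ∫ x, inner ℝ v x ∂π = inner ℝ v b := by
      have hid : Integrable (fun x : E => x) π := by
        have := db_hpm_integrable_id (ν := dm ρ) hh u (g := fun _ => (1 : ℝ)) (integrable_const 1)
        simpa using this
      rw [integral_inner hid, hb, ← db_hpm_integral hh u]
    have i4 : Integrable (fun x => g x * inner ℝ v x - inner ℝ v b * g x) π :=
      igY.sub (ig1.const_mul _)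
    have i5 : Integrable (fun x => inner ℝ v x - inner ℝ v b) π := iY.sub (integrable_const _)
    simp only [e1]
    rw [integral_sub i4 (i5.const_mul _), integral_sub igY (ig1.const_mul _), integral_const_mul,
      integral_const_mul, integral_sub iY (integrable_const _), eb, eg1]
    have e2 : ∫ x, g x * inner ℝ v x ∂π = inner ℝ v (hpost (dm ρ) h (fun x => g x • x) u) := by
      rw [← eg3, ← integral_inner ig3]
      refine integral_congr_ae (Eventually.of_forall fun x => ?_)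
      simp only [inner_smul_right]
    have e3 : hpost (dm ρ) h (fun x => g x • x) u = h • v + G • b := by
      rw [hgrad, smul_smul, mul_inv_cancel₀ hh.ne', one_smul]; abel
    rw [e2, e3, inner_add_right, inner_smul_right, inner_smul_right, real_inner_self_eq_norm_sq]
    simp
    ring
  have evar : ∫ x, (g x - G) ^ 2 ∂π = vari π g := by
    have e1 : ∀ x, (g x - G) ^ 2 = g x ^ 2 - 2 * G * g x + G ^ 2 := fun x => by ring
    have i3 : Integrable (fun x => g x ^ 2 - 2 * G * g x) π := ig2.sub (ig1.const_mul _)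
    simp only [e1]
    rw [integral_add i3 (integrable_const _), integral_sub ig2 (ig1.const_mul _),
      integral_const_mul, eg1]
    unfold vari
    rw [eg1]
    simp
    ring
  rw [ecov, evar] at hcs
  have hY := (dbp_post_centred hρ hh u v).2
  have hvar0 : 0 ≤ vari π g := by rw [← evar]; exact integral_nonneg fun x => sq_nonneg _
  have h1 : (h * ‖v‖ ^ 2) ^ 2 ≤ vari π g * (h * ‖v‖ ^ 2) :=
    hcs.trans (mul_le_mul_of_nonneg_left hY hvar0)
  rcases (by positivity : 0 ≤ h * ‖v‖ ^ 2).eq_or_lt with h0 | h0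
  · rw [← h0]; exact hvar0
  · rw [sq] at h1
    exact le_of_mul_le_mul_right h1 h0

end Claimed.Agent.R259
end

/- ===== packed: Claimed.Agent.R259.DbStep ===== -/
section
/-
Row 259, kit DB: ONE STEP of the discrete de Bruijn argument at function level; glue PROVED from the leaf groups SMOOTH, TOWER, POST, APPLY.
Leaf VEC (`db_hpe_sum`, `db_sq_sum`, ...): reduction of vector valued fields to coordinates.      Owner: helper147.
-/
set_option autoImplicit false

open MeasureTheory ProbabilityTheory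
open scoped ENNReal ContDiff

namespace Claimed.Agent.R259

variable {E : Type} [NormedAddCommGroup E] [InnerProductSpace ℝ E] [FiniteDimensional ℝ E]
  [MeasurableSpace E] [BorelSpace E]

variable {ρ : E → ℝ} {h R : ℝ}

/-- entropy: `(1 + h/R) Ent_{ν_h}(E[f | U]) ≤ Ent_ν(f)` -/
theorem db_step_fun (hρ : LogConc ρ) [IsProbabilityMeasure (dm ρ)] (hh : 0 < h) (hR0 : 0 < R)
    (hR : LSI (dm (gconv (dm ρ) h)) R) {f : E → ℝ} (hf0 : ∀ x, 0 ≤ f x) (hf : Integrable f (dm ρ))
    (hfl : Integrable (fun x => f x * Real.log (f x)) (dm ρ)) (hpos : 0 < ∫ x, f x ∂(dm ρ)) :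
    (1 + h / R) * ent (dm (gconv (dm ρ) h)) (hpost (dm ρ) h f) ≤ ent (dm ρ) f := by
  obtain ⟨-, h2, h3⟩ := db_ent_split hh hf0 hf hfl
  have hFpos := db_hpost_pos hh hf0 hf hpos
  have hc : Continuous fun u => ‖gradient (hpost (dm ρ) h f) u‖ ^ 2 / hpost (dm ρ) h f u :=
    ((db_hpost_gradient_continuous hh hf).norm.pow 2).div (db_hpost_contDiff hh hf).continuous
      fun u => (hFpos u).ne'
  have hb := db_ent_post_ge hρ hh hf0 hf hfl hpos
  have hI' : Integrable (fun u => h / 2 * (‖gradient (hpost (dm ρ) h f) u‖ ^ 2 / hpost (dm ρ) h f u))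
      (dm (gconv (dm ρ) h)) := by
    refine Integrable.mono' h2 (hc.const_mul _).aestronglyMeasurable (Filter.Eventually.of_forall fun u => ?_)
    rw [Real.norm_eq_abs, abs_of_nonneg]
    · exact hb u
    · have := (hFpos u).le
      positivity
  have hI : Integrable (fun u => ‖gradient (hpost (dm ρ) h f) u‖ ^ 2 / hpost (dm ρ) h f u)
      (dm (gconv (dm ρ) h)) := by
    have := hI'.const_mul (2 / h)
    refine this.congr (Filter.Eventually.of_forall fun u => ?_)
    simp only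
    field_simp
  have h4 := db_lsi_apply hh hR hf0 hf hpos hI
  have h5 : h / 2 * ∫ u, ‖gradient (hpost (dm ρ) h f) u‖ ^ 2 / hpost (dm ρ) h f u ∂(dm (gconv (dm ρ) h)) ≤
      ∫ u, ent (hpm (dm ρ) h u) f ∂(dm (gconv (dm ρ) h)) := by
    rw [← integral_const_mul]
    exact integral_mono hI' h2 hb
  rw [h3]
  set A := ent (dm (gconv (dm ρ) h)) (hpost (dm ρ) h f)
  set J := ∫ u, ‖gradient (hpost (dm ρ) h f) u‖ ^ 2 / hpost (dm ρ) h f u ∂(dm (gconv (dm ρ) h))
  have h6 : h / R * A ≤ h / 2 * J := by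
    have : h / R * A ≤ h / R * (R / 2 * J) := mul_le_mul_of_nonneg_left h4 (by positivity)
    calc h / R * A ≤ h / R * (R / 2 * J) := this
      _ = h / 2 * J := by field_simp
  nlinarith

/-- variance, scalar functions -/
theorem db_var_step_fun (hρ : LogConc ρ) [IsProbabilityMeasure (dm ρ)] (hh : 0 < h) (hR0 : 0 < R)
    (hR : PI (dm (gconv (dm ρ) h)) R) {g : E → ℝ} (hg : MemLp g 2 (dm ρ)) (hg0 : ∫ x, g x ∂(dm ρ) = 0) :
    (1 + h / R) * ∫ u, hpost (dm ρ) h g u ^ 2 ∂(dm (gconv (dm ρ) h)) ≤ ∫ x, g x ^ 2 ∂(dm ρ) := by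
  have hgi : Integrable g (dm ρ) := hg.integrable (by norm_num)
  obtain ⟨h2, h3⟩ := db_var_split hh hg
  have hb := db_var_post_ge hρ hh hg
  have hc : Continuous fun u => ‖gradient (hpost (dm ρ) h g) u‖ ^ 2 :=
    (db_hpost_gradient_continuous hh hgi).norm.pow 2
  have hI' : Integrable (fun u => h * ‖gradient (hpost (dm ρ) h g) u‖ ^ 2) (dm (gconv (dm ρ) h)) := by
    refine Integrable.mono' h2 (hc.const_mul _).aestronglyMeasurable (Filter.Eventually.of_forall fun u => ?_)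
    rw [Real.norm_eq_abs, abs_of_nonneg (by positivity)]
    exact hb u
  have hI : Integrable (fun u => ‖gradient (hpost (dm ρ) h g) u‖ ^ 2) (dm (gconv (dm ρ) h)) := by
    have := hI'.const_mul (1 / h)
    refine this.congr (Filter.Eventually.of_forall fun u => ?_)
    simp only
    field_simp
  have h4 := db_pi_apply hh hR hg hI
  have h5 : h * ∫ u, ‖gradient (hpost (dm ρ) h g) u‖ ^ 2 ∂(dm (gconv (dm ρ) h)) ≤
      ∫ u, vari (hpm (dm ρ) h u) g ∂(dm (gconv (dm ρ) h)) := by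
    rw [← integral_const_mul]
    exact integral_mono hI' h2 hb
  have h7 : vari (dm (gconv (dm ρ) h)) (hpost (dm ρ) h g) =
      ∫ u, hpost (dm ρ) h g u ^ 2 ∂(dm (gconv (dm ρ) h)) := by
    unfold vari
    rw [(db_tower hh hgi).2, hg0]
    simp
  rw [h7] at h4
  rw [h3]
  set A := ∫ u, hpost (dm ρ) h g u ^ 2 ∂(dm (gconv (dm ρ) h))
  set J := ∫ u, ‖gradient (hpost (dm ρ) h g) u‖ ^ 2 ∂(dm (gconv (dm ρ) h))
  have h6 : h / R * A ≤ h * J := by
    have : h / R * A ≤ h / R * (R * J) := mul_le_mul_of_nonneg_left h4 (by positivity)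
    calc h / R * A ≤ h / R * (R * J) := this
      _ = h * J := by field_simp
  nlinarith

/-! ### leaf VEC: coordinates -/

section vec

variable {F : Type} [NormedAddCommGroup F] [InnerProductSpace ℝ F] [FiniteDimensional ℝ F]
variable {ν : Measure E} [IsProbabilityMeasure ν]

theorem db_coord_memLp {g : E → F} (hg : MemLp g 2 ν) (e : F) : MemLp (fun x => inner ℝ e (g x)) 2 ν :=
  hg.const_inner e

theorem db_coord_integral {g : E → F} (hg : Integrable g ν) (e : F) :
    ∫ x, inner ℝ e (g x) ∂ν = inner ℝ e (∫ x, g x ∂ν) :=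
  integral_inner hg e

theorem db_norm_sq_eq_sum (v : F) : ‖v‖ ^ 2 = ∑ i, inner ℝ (stdOrthonormalBasis ℝ F i) v ^ 2 := by
  have h1 := (stdOrthonormalBasis ℝ F).sum_sq_norm_inner_right v
  rw [← h1]
  refine Finset.sum_congr rfl fun i _ => ?_
  rw [Real.norm_eq_abs, sq_abs]

theorem db_sq_sum {g : E → F} (hg : MemLp g 2 ν) :
    ∫ x, ‖g x‖ ^ 2 ∂ν = ∑ i, ∫ x, inner ℝ (stdOrthonormalBasis ℝ F i) (g x) ^ 2 ∂ν := by
  simp only [db_norm_sq_eq_sum]
  exact integral_finsetSum _ fun i _ =>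
    (memLp_two_iff_integrable_sq (db_coord_memLp hg _).1).1 (db_coord_memLp hg _)

theorem db_hpe_sum (hh : 0 < h) {g : E → F} (hg : MemLp g 2 ν) :
    hpe ν h g = ∑ i, ∫ u, hpost ν h (fun x => inner ℝ (stdOrthonormalBasis ℝ F i) (g x)) u ^ 2 ∂(dm (gconv ν h)) := by
  have hg1 : Integrable g ν := hg.integrable one_le_two
  have e : ∀ (e : F) (u : E), inner ℝ e (hpost ν h g u) = hpost ν h (fun x => inner ℝ e (g x)) u := by
    intro e u
    unfold hpost
    rw [inner_smul_right, ← integral_inner (db_num_integrable hh hg1 u), smul_eq_mul]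
    simp only [inner_smul_right, smul_eq_mul]
  unfold hpe
  simp only [db_norm_sq_eq_sum, e]
  exact integral_finsetSum _ fun i _ =>
    (memLp_two_iff_integrable_sq (db_hpost_memLp hh (db_coord_memLp hg _)).1).1
      (db_hpost_memLp hh (db_coord_memLp hg _))

end vec

/-- variance, vector fields -/
theorem db_var_step (hρ : LogConc ρ) [IsProbabilityMeasure (dm ρ)] (hh : 0 < h) (hR0 : 0 < R)
    (hR : PI (dm (gconv (dm ρ) h)) R) {F : Type} [NormedAddCommGroup F] [InnerProductSpace ℝ F] [FiniteDimensional ℝ F]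
    {g : E → F} (hg : MemLp g 2 (dm ρ)) (hg0 : ∫ x, g x ∂(dm ρ) = 0) :
    (1 + h / R) * hpe (dm ρ) h g ≤ ∫ x, ‖g x‖ ^ 2 ∂(dm ρ) := by
  rw [db_hpe_sum hh hg, db_sq_sum hg, Finset.mul_sum]
  refine Finset.sum_le_sum fun i _ => ?_
  refine db_var_step_fun hρ hh hR0 hR (db_coord_memLp hg _) ?_
  rw [db_coord_integral (hg.integrable (by norm_num)), hg0, inner_zero_right]

end Claimed.Agent.R259
end

/- ===== packed: Claimed.Agent.R259.DbKl ===== -/
section
/-
Row 259, kit DB: bridge between `klDiv` of measures and `ent` of densities (leaf group KL), one step in `klDiv` form (glue PROVED).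
Owner: helper147.
Hints for KL.  `klDiv_ne_top_iff`, `toReal_klDiv_of_measure_eq`, `Measure.withDensity_rnDeriv_eq`, `integral_rnDeriv_smul`, `llr`,
`klDiv_eq_lintegral_klFun_of_ac`, `Measure.rnDeriv_withDensity₀`; `f := fun x => (sig.rnDeriv ν x).toReal`.
`db_dm_gconv_withDensity`: `gconv (ν.withDensity f) h u = dbNum ν h f u = hpost ν h f u * gconv ν h u`, `withDensity_mul`.
-/
set_option autoImplicit false

open MeasureTheory ProbabilityTheory InformationTheory
open scoped ENNReal ContDiff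

namespace Claimed.Agent.R259

section abstract

variable {α : Type} [MeasurableSpace α] {ν sig : Measure α} [IsProbabilityMeasure ν]

theorem db_kl_of_density {f : α → ℝ} (hm : Measurable f) (hf0 : ∀ x, 0 ≤ f x) (hf : Integrable f ν)
    (h1 : ∫ x, f x ∂ν = 1) (hfl : Integrable (fun x => f x * Real.log (f x)) ν) :
    klDiv (ν.withDensity fun x => ENNReal.ofReal (f x)) ν = ENNReal.ofReal (ent ν f) := by
  set σ := ν.withDensity fun x => ENNReal.ofReal (f x) with hσ
  have hac : σ ≪ ν := withDensity_absolutelyContinuous _ _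
  have hprob : IsProbabilityMeasure σ := by
    constructor
    rw [hσ, withDensity_apply _ MeasurableSet.univ, Measure.restrict_univ,
      ← ofReal_integral_eq_lintegral_ofReal hf (Filter.Eventually.of_forall hf0), h1, ENNReal.ofReal_one]
  have hrn : σ.rnDeriv ν =ᵐ[ν] fun x => ENNReal.ofReal (f x) :=
    Measure.rnDeriv_withDensity ν hm.ennreal_ofReal
  have hrn' : (fun a => (σ.rnDeriv ν a).toReal * Real.log (σ.rnDeriv ν a).toReal) =ᵐ[ν]
      fun x => f x * Real.log (f x) := by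
    filter_upwards [hrn] with x hx
    rw [hx, ENNReal.toReal_ofReal (hf0 x)]
  have hint : Integrable (llr σ ν) σ :=
    (integrable_rnDeriv_mul_log_iff hac).1 ((integrable_congr hrn').2 hfl)
  rw [klDiv_of_ac_of_integrable hac hint, ← integral_rnDeriv_mul_log hac, integral_congr_ae hrn']
  unfold ent
  rw [h1]
  simp

theorem db_kl_density [IsProbabilityMeasure sig] (h : klDiv sig ν ≠ ⊤) :
    ∃ f : α → ℝ, Measurable f ∧ (∀ x, 0 ≤ f x) ∧ sig = ν.withDensity (fun x => ENNReal.ofReal (f x)) ∧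
      Integrable f ν ∧ ∫ x, f x ∂ν = 1 ∧ Integrable (fun x => f x * Real.log (f x)) ν ∧
      klDiv sig ν = ENNReal.ofReal (ent ν f) := by
  obtain ⟨hac, hint⟩ := klDiv_ne_top_iff.1 h
  have hm : Measurable fun x => (sig.rnDeriv ν x).toReal := (Measure.measurable_rnDeriv _ _).ennreal_toReal
  have h0 : ∀ x, 0 ≤ (sig.rnDeriv ν x).toReal := fun x => ENNReal.toReal_nonneg
  have hsig : sig = ν.withDensity (fun x => ENNReal.ofReal (sig.rnDeriv ν x).toReal) := by
    conv_lhs => rw [← Measure.withDensity_rnDeriv_eq _ _ hac]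
    refine withDensity_congr_ae ?_
    filter_upwards [Measure.rnDeriv_lt_top sig ν] with x hx
    rw [ENNReal.ofReal_toReal hx.ne]
  have hi : Integrable (fun x => (sig.rnDeriv ν x).toReal) ν := Measure.integrable_toReal_rnDeriv
  have h1 : ∫ x, (sig.rnDeriv ν x).toReal ∂ν = 1 := by
    rw [Measure.integral_toReal_rnDeriv hac]
    simp
  have hl := (integrable_rnDeriv_mul_log_iff hac).2 hint
  refine ⟨_, hm, h0, hsig, hi, h1, hl, ?_⟩
  have := db_kl_of_density hm h0 hi h1 hl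
  rwa [← hsig] at this

end abstract

variable {E : Type} [NormedAddCommGroup E] [InnerProductSpace ℝ E] [FiniteDimensional ℝ E]
  [MeasurableSpace E] [BorelSpace E]

theorem db_dm_gconv_withDensity {ν : Measure E} [IsProbabilityMeasure ν] {h : ℝ} (hh : 0 < h) {f : E → ℝ}
    (hm : Measurable f) (hf0 : ∀ x, 0 ≤ f x) (hf : Integrable f ν) :
    dm (gconv (ν.withDensity fun x => ENNReal.ofReal (f x)) h) =
      (dm (gconv ν h)).withDensity fun u => ENNReal.ofReal (hpost ν h f u) := by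
  have e1 : ∀ u, gconv (ν.withDensity fun x => ENNReal.ofReal (f x)) h u = gconv ν h u * hpost ν h f u := by
    intro u
    have h2 := dbt_gconv_smul_hpost (ν := ν) hh f u
    rw [smul_eq_mul] at h2
    rw [h2]
    unfold gconv dbNum
    have h3 : (ν.withDensity fun x => ENNReal.ofReal (f x)) =
      ν.withDensity (fun x => ((Real.toNNReal (f x) : NNReal) : ℝ≥0∞)) := rfl
    rw [h3, integral_withDensity_eq_integral_smul hm.real_toNNReal]
    refine integral_congr_ae (Filter.Eventually.of_forall fun x => ?_)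
    simp only [NNReal.smul_def, Real.coe_toNNReal _ (hf0 x), smul_eq_mul]
    ring
  have hg : Measurable fun u => ENNReal.ofReal (gconv ν h u) :=
    (dbt_gconv_continuous hh).measurable.ennreal_ofReal
  have hp : Measurable fun u => ENNReal.ofReal (hpost ν h f u) :=
    (dbt_hpost_continuous hh hf).measurable.ennreal_ofReal
  unfold dm
  rw [← withDensity_mul _ hg hp]
  congr 1
  funext u
  rw [e1 u, Pi.mul_apply, ENNReal.ofReal_mul (db_gconv_pos hh u).le]

variable {ρ : E → ℝ} {h R : ℝ}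

/-- ONE STEP: `(1 + h/R) H(σ * γ_h | ν * γ_h) ≤ H(σ | ν)` -/
theorem db_step (hρ : LogConc ρ) [IsProbabilityMeasure (dm ρ)] (hh : 0 < h) (hR0 : 0 < R)
    (hR : LSI (dm (gconv (dm ρ) h)) R) (sig : Measure E) [IsProbabilityMeasure sig] :
    ENNReal.ofReal (1 + h / R) * klDiv (dm (gconv sig h)) (dm (gconv (dm ρ) h)) ≤ klDiv sig (dm ρ) := by
  by_cases htop : klDiv sig (dm ρ) = ⊤
  · rw [htop]; exact le_top
  obtain ⟨f, hm, hf0, hsig, hf, h1, hfl, hkl⟩ := db_kl_density htop
  have hpos : 0 < ∫ x, f x ∂(dm ρ) := by rw [h1]; exact one_pos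
  haveI : IsProbabilityMeasure (dm (gconv (dm ρ) h)) := gc_isProb hh
  have hFpos := db_hpost_pos hh hf0 hf hpos
  obtain ⟨hFl, -, -⟩ := db_ent_split hh hf0 hf hfl
  obtain ⟨hFi, hF1⟩ := db_tower hh hf
  have e1 : klDiv (dm (gconv sig h)) (dm (gconv (dm ρ) h)) =
      ENNReal.ofReal (ent (dm (gconv (dm ρ) h)) (hpost (dm ρ) h f)) := by
    rw [hsig, db_dm_gconv_withDensity hh hm hf0 hf]
    exact db_kl_of_density (db_hpost_contDiff hh hf).continuous.measurable (fun u => (hFpos u).le) hFi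
      (by rw [hF1, h1]) hFl
  rw [e1, hkl, ← ENNReal.ofReal_mul (by positivity)]
  exact ENNReal.ofReal_le_ofReal (db_step_fun hρ hh hR0 hR hf0 hf hfl hpos)

end Claimed.Agent.R259
end

/- ===== packed: Claimed.Agent.R259.Db ===== -/
section
/-
Row 259, kit DB: EXPORTS `db_contract`, `db_var_contract` (statements ordered by helper220, brief 6802).  Iteration and limit: glue PROVED.
Owner: helper147.
-/
set_option autoImplicit false

open MeasureTheory ProbabilityTheory InformationTheory Filter Topology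
open scoped ENNReal ContDiff

namespace Claimed.Agent.R259

/-- `(1 + x/m)^m A ≤ B` for all `m ≥ 1` implies `e^x A ≤ B` -/
theorem db_limit {A B x : ℝ} (h : ∀ m : ℕ, 1 ≤ m → (1 + x / m) ^ m * A ≤ B) : Real.exp x * A ≤ B := by
  have h1 : Tendsto (fun n : ℕ => (1 + x / n) ^ n * A) atTop (𝓝 (Real.exp x * A)) :=
    (Real.tendsto_one_add_div_pow_exp x).mul_const A
  exact le_of_tendsto h1 (eventually_atTop.2 ⟨1, fun m hm => h m hm⟩)

variable {E : Type} [NormedAddCommGroup E] [InnerProductSpace ℝ E] [FiniteDimensional ℝ E]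
  [MeasurableSpace E] [BorelSpace E]

variable {ρ0 : E → ℝ} {R : ℝ}

/-- `k` steps of size `h` -/
theorem db_iter (h0 : LogConc ρ0) [IsProbabilityMeasure (dm ρ0)] (hR : 0 < R) {h : ℝ} (hh : 0 < h) (sig : Measure E)
    [IsProbabilityMeasure sig] (k : ℕ)
    (hL : ∀ j : ℕ, 1 ≤ j → j ≤ k + 1 → LSI (dm (gconv (dm ρ0) (j * h))) R) :
    ENNReal.ofReal (1 + h / R) ^ (k + 1) *
        klDiv (dm (gconv sig ((k + 1 : ℕ) * h))) (dm (gconv (dm ρ0) ((k + 1 : ℕ) * h))) ≤ klDiv sig (dm ρ0) := by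
  induction k with
  | zero =>
    have := db_step h0 hh hR (by simpa using hL 1 le_rfl le_rfl) sig
    simpa using this
  | succ k ih =>
    have ih' := ih fun j hj1 hj2 => hL j hj1 (by omega)
    have hkh : 0 < ((k + 1 : ℕ) : ℝ) * h := by positivity
    haveI : IsProbabilityMeasure (dm (gconv (dm ρ0) (((k + 1 : ℕ) : ℝ) * h))) := gc_isProb hkh
    haveI : IsProbabilityMeasure (dm (gconv sig (((k + 1 : ℕ) : ℝ) * h))) := gc_isProb hkh
    have hlc : LogConc (gconv (dm ρ0) (((k + 1 : ℕ) : ℝ) * h)) := gc_logConc ⟨ρ0, h0, rfl⟩ hkh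
    have e : ((k + 1 : ℕ) : ℝ) * h + h = ((k + 1 + 1 : ℕ) : ℝ) * h := by push_cast; ring
    have hs1 : gconv (dm (gconv (dm ρ0) (((k + 1 : ℕ) : ℝ) * h))) h = gconv (dm ρ0) (((k + 1 + 1 : ℕ) : ℝ) * h) := by
      rw [gc_semigroup hkh hh, e]
    have hs2 : gconv (dm (gconv sig (((k + 1 : ℕ) : ℝ) * h))) h = gconv sig (((k + 1 + 1 : ℕ) : ℝ) * h) := by
      rw [gc_semigroup hkh hh, e]
    have st := db_step hlc hh hR (by rw [hs1]; exact hL (k + 1 + 1) (by omega) le_rfl)
      (dm (gconv sig (((k + 1 : ℕ) : ℝ) * h)))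
    rw [hs1, hs2] at st
    calc ENNReal.ofReal (1 + h / R) ^ (k + 1 + 1) *
          klDiv (dm (gconv sig (((k + 1 + 1 : ℕ) : ℝ) * h))) (dm (gconv (dm ρ0) (((k + 1 + 1 : ℕ) : ℝ) * h)))
        = ENNReal.ofReal (1 + h / R) ^ (k + 1) * (ENNReal.ofReal (1 + h / R) *
          klDiv (dm (gconv sig (((k + 1 + 1 : ℕ) : ℝ) * h))) (dm (gconv (dm ρ0) (((k + 1 + 1 : ℕ) : ℝ) * h)))) := by
          rw [pow_succ, mul_assoc]
      _ ≤ ENNReal.ofReal (1 + h / R) ^ (k + 1) *
          klDiv (dm (gconv sig (((k + 1 : ℕ) : ℝ) * h))) (dm (gconv (dm ρ0) (((k + 1 : ℕ) : ℝ) * h))) := by gcongr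
      _ ≤ _ := ih'

/-- **Entropy contraction along the common heat flow** (replaces (2.heat-entropy) + Gronwall). -/
theorem db_contract (h0 : LogConc ρ0) [IsProbabilityMeasure (dm ρ0)] {r : ℝ} (hR : 0 < R) (hr : 0 < r)
    (hL : ∀ t, 0 < t → t ≤ r → LSI (dm (gconv (dm ρ0) t)) R) (sig : Measure E) [IsProbabilityMeasure sig] :
    klDiv (dm (gconv sig r)) (dm (gconv (dm ρ0) r)) ≤ ENNReal.ofReal (Real.exp (-r / R)) * klDiv sig (dm ρ0) := by
  by_cases htop : klDiv sig (dm ρ0) = ⊤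
  · rw [htop, ENNReal.mul_top (by simp [Real.exp_pos])]; exact le_top
  have key : ∀ m : ℕ, 1 ≤ m → ENNReal.ofReal (1 + r / R / m) ^ m *
      klDiv (dm (gconv sig r)) (dm (gconv (dm ρ0) r)) ≤ klDiv sig (dm ρ0) := by
    intro m hm
    obtain ⟨k, rfl⟩ : ∃ k, m = k + 1 := ⟨m - 1, by omega⟩
    have hk : (0 : ℝ) < ((k + 1 : ℕ) : ℝ) := by positivity
    have hh : 0 < r / ((k + 1 : ℕ) : ℝ) := by positivity
    have := db_iter h0 hR hh sig k (fun j hj1 hj2 => hL _ (by positivity) (by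
      have h1 : (j : ℝ) ≤ ((k + 1 : ℕ) : ℝ) := by exact_mod_cast hj2
      calc (j : ℝ) * (r / ((k + 1 : ℕ) : ℝ)) ≤ ((k + 1 : ℕ) : ℝ) * (r / ((k + 1 : ℕ) : ℝ)) := by gcongr
        _ = r := by field_simp))
    have e1 : ((k + 1 : ℕ) : ℝ) * (r / ((k + 1 : ℕ) : ℝ)) = r := by field_simp
    have e2 : r / ((k + 1 : ℕ) : ℝ) / R = r / R / ((k + 1 : ℕ) : ℝ) := by ring
    rwa [e1, e2] at this
  have hfin : klDiv (dm (gconv sig r)) (dm (gconv (dm ρ0) r)) ≠ ⊤ := by
    intro hK
    have := key 1 le_rfl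
    have hpos : (0 : ℝ) < 1 + r / R / ((1 : ℕ) : ℝ) := by positivity
    rw [hK, ENNReal.mul_top (pow_ne_zero _ (ENNReal.ofReal_pos.2 hpos).ne')] at this
    exact htop (top_le_iff.1 this)
  have hreal : ∀ m : ℕ, 1 ≤ m → (1 + r / R / m) ^ m *
      (klDiv (dm (gconv sig r)) (dm (gconv (dm ρ0) r))).toReal ≤ (klDiv sig (dm ρ0)).toReal := by
    intro m hm
    have h1 := ENNReal.toReal_mono htop (key m hm)
    have hp : (0 : ℝ) ≤ 1 + r / R / m := by positivity
    rwa [ENNReal.toReal_mul, ENNReal.toReal_pow, ENNReal.toReal_ofReal hp] at h1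
  have hlim := db_limit hreal
  have h2 : (klDiv (dm (gconv sig r)) (dm (gconv (dm ρ0) r))).toReal ≤
      Real.exp (-r / R) * (klDiv sig (dm ρ0)).toReal := by
    have h3 : Real.exp (-r / R) * Real.exp (r / R) = 1 := by
      rw [← Real.exp_add]; ring_nf; simp
    calc (klDiv (dm (gconv sig r)) (dm (gconv (dm ρ0) r))).toReal
        = Real.exp (-r / R) * (Real.exp (r / R) * (klDiv (dm (gconv sig r)) (dm (gconv (dm ρ0) r))).toReal) := by
          rw [← mul_assoc, h3, one_mul]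
      _ ≤ _ := mul_le_mul_of_nonneg_left hlim (Real.exp_pos _).le
  rw [← ENNReal.ofReal_toReal hfin, ← ENNReal.ofReal_toReal htop, ← ENNReal.ofReal_mul (Real.exp_pos _).le]
  exact ENNReal.ofReal_le_ofReal h2

section var

variable {F : Type} [NormedAddCommGroup F] [InnerProductSpace ℝ F] [FiniteDimensional ℝ F]

theorem db_var_iter (h0 : LogConc ρ0) [IsProbabilityMeasure (dm ρ0)] (hR : 0 < R) {h : ℝ} (hh : 0 < h)
    {g : E → F} (hg : MemLp g 2 (dm ρ0)) (hg0 : ∫ x, g x ∂(dm ρ0) = 0) (k : ℕ)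
    (hP : ∀ j : ℕ, 1 ≤ j → j ≤ k + 1 → PI (dm (gconv (dm ρ0) (j * h))) R) :
    (1 + h / R) ^ (k + 1) * hpe (dm ρ0) ((k + 1 : ℕ) * h) g ≤ ∫ x, ‖g x‖ ^ 2 ∂(dm ρ0) := by
  have hgi : Integrable g (dm ρ0) := hg.integrable (by norm_num)
  induction k with
  | zero =>
    have := db_var_step h0 hh hR (by simpa using hP 1 le_rfl le_rfl) hg hg0
    simpa using this
  | succ k ih =>
    have ih' := ih fun j hj1 hj2 => hP j hj1 (by omega)
    have hkh : 0 < ((k + 1 : ℕ) : ℝ) * h := by positivity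
    haveI : IsProbabilityMeasure (dm (gconv (dm ρ0) (((k + 1 : ℕ) : ℝ) * h))) := gc_isProb hkh
    have hlc : LogConc (gconv (dm ρ0) (((k + 1 : ℕ) : ℝ) * h)) := gc_logConc ⟨ρ0, h0, rfl⟩ hkh
    have e : ((k + 1 : ℕ) : ℝ) * h + h = ((k + 1 + 1 : ℕ) : ℝ) * h := by push_cast; ring
    have hs1 : gconv (dm (gconv (dm ρ0) (((k + 1 : ℕ) : ℝ) * h))) h = gconv (dm ρ0) (((k + 1 + 1 : ℕ) : ℝ) * h) := by
      rw [gc_semigroup hkh hh, e]
    have st := db_var_step hlc hh hR (by rw [hs1]; exact hP (k + 1 + 1) (by omega) le_rfl)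
      (db_hpost_memLp hkh hg) (by rw [(db_tower hkh hgi).2, hg0])
    have e3 : hpe (dm (gconv (dm ρ0) (((k + 1 : ℕ) : ℝ) * h))) h (hpost (dm ρ0) (((k + 1 : ℕ) : ℝ) * h) g) =
        hpe (dm ρ0) (((k + 1 + 1 : ℕ) : ℝ) * h) g := by
      unfold hpe
      rw [hs1]
      congr 1
      funext u
      rw [db_hpost_hpost hkh hh hgi, e]
    rw [e3] at st
    have hc : 0 ≤ (1 + h / R) ^ (k + 1) := by positivity
    calc (1 + h / R) ^ (k + 1 + 1) * hpe (dm ρ0) (((k + 1 + 1 : ℕ) : ℝ) * h) g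
        = (1 + h / R) ^ (k + 1) * ((1 + h / R) * hpe (dm ρ0) (((k + 1 + 1 : ℕ) : ℝ) * h) g) := by
          rw [pow_succ, mul_assoc]
      _ ≤ (1 + h / R) ^ (k + 1) * hpe (dm ρ0) (((k + 1 : ℕ) : ℝ) * h) g := mul_le_mul_of_nonneg_left st hc
      _ ≤ _ := ih'

/-- **Variance twin** (gap branch; replaces the heat variance identity (4.heat-variance) + Gronwall). -/
theorem db_var_contract (h0 : LogConc ρ0) [IsProbabilityMeasure (dm ρ0)] {r : ℝ} (hR : 0 < R) (hr : 0 < r)
    (hP : ∀ t, 0 < t → t ≤ r → PI (dm (gconv (dm ρ0) t)) R) {g : E → F} (hg : MemLp g 2 (dm ρ0))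
    (hg0 : ∫ x, g x ∂(dm ρ0) = 0) :
    hpe (dm ρ0) r g ≤ Real.exp (-r / R) * ∫ x, ‖g x‖ ^ 2 ∂(dm ρ0) := by
  have key : ∀ m : ℕ, 1 ≤ m → (1 + r / R / m) ^ m * hpe (dm ρ0) r g ≤ ∫ x, ‖g x‖ ^ 2 ∂(dm ρ0) := by
    intro m hm
    obtain ⟨k, rfl⟩ : ∃ k, m = k + 1 := ⟨m - 1, by omega⟩
    have hk : (0 : ℝ) < ((k + 1 : ℕ) : ℝ) := by positivity
    have hh : 0 < r / ((k + 1 : ℕ) : ℝ) := by positivity
    have := db_var_iter h0 hR hh hg hg0 k (fun j hj1 hj2 => hP _ (by positivity) (by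
      have h1 : (j : ℝ) ≤ ((k + 1 : ℕ) : ℝ) := by exact_mod_cast hj2
      calc (j : ℝ) * (r / ((k + 1 : ℕ) : ℝ)) ≤ ((k + 1 : ℕ) : ℝ) * (r / ((k + 1 : ℕ) : ℝ)) := by gcongr
        _ = r := by field_simp))
    have e1 : ((k + 1 : ℕ) : ℝ) * (r / ((k + 1 : ℕ) : ℝ)) = r := by field_simp
    have e2 : r / ((k + 1 : ℕ) : ℝ) / R = r / R / ((k + 1 : ℕ) : ℝ) := by ring
    rwa [e1, e2] at this
  have hlim := db_limit key
  have h3 : Real.exp (-r / R) * Real.exp (r / R) = 1 := by
    rw [← Real.exp_add]; ring_nf; simp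
  calc hpe (dm ρ0) r g = Real.exp (-r / R) * (Real.exp (r / R) * hpe (dm ρ0) r g) := by
        rw [← mul_assoc, h3, one_mul]
    _ ≤ _ := mul_le_mul_of_nonneg_left hlim (Real.exp_pos _).le

end var

end Claimed.Agent.R259
end
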