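/- Packed by merge_tool.py (helper293): 7 modules of Claimed.Agent.R259 in one file, same declarations.
   Old modules, in this order: DiniDefs, DiniBase, DiniIbp, S4CurveHerbstC, S7ScGauss, S7ScShell, S7ScLog -/
import Claimed.Agent.R259.S3Defs
import Mathlib
import Claimed.Agent.R259.Pack004
import Claimed.Agent.R259.Pack001
import Claimed.Agent.R259.Pack035
import Claimed.Agent.R259.Pack021

/- ===== packed: Claimed.Agent.R259.DiniDefs ===== -/
section
/-
Row 259, kit DINI (one backward heat step): definitions.  Owner: helper108.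

`ν = gconv μ σ`, `ν⁻ = gconv μ (σ - h)`, `ν = ν⁻ * N(0,h)`.
* `dinP h G x = ∫ gk h (x - y) • G y dy`            heat average,
* `dinL h u v Z x = 2 P_h⟨v, Z(x,·)⟩ - P_h(u |Z(x,·)|²)`   the dual (lower) form of the conditional
  variance `P_h(u |v/u - mean|²)`; it is a lower bound as soon as `P_h(u Z(x,·)) = 0`,
* `DinAdm h u Z ρ`: `Z` is an admissible corrector (continuous, supported in `|x|,|y| ≤ ρ`, mean zero),
* `dinTr A B = ∑ ⟨A e_i, B e_i⟩`  Hilbert-Schmidt inner product,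
* `dinS h u ζ x y = ζ(y)(y - x) - h ∇(ζ u)(y)/u(y)`  so that `gk h (x-y) u(y) S = - h ∇_y (ζ u gk h (x - ·))`,
* `dinF0`, `dinF1`: `dinL h u (u w) (M x ∘ dinS) x = h ∫ gk h (x - y) (F0 (x,y) + h F1 (x,y)) dy`.
-/
set_option autoImplicit false

open MeasureTheory Filter Topology
open scoped ContDiff ENNReal

namespace Claimed.Agent.R259

variable {E : Type} [NormedAddCommGroup E] [InnerProductSpace ℝ E] [FiniteDimensional ℝ E]
  [MeasurableSpace E] [BorelSpace E]

/-- heat average `P_h G`. -/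
noncomputable def dinP {F : Type} [NormedAddCommGroup F] [NormedSpace ℝ F] (h : ℝ) (G : E → F)
    (x : E) : F := ∫ y, gk h (x - y) • G y

/-- dual form of the conditional variance. -/
noncomputable def dinL (h : ℝ) (u : E → ℝ) (v : E → E) (Z : E → E → E) (x : E) : ℝ :=
  2 * (∫ y, gk h (x - y) * inner ℝ (v y) (Z x y)) - ∫ y, gk h (x - y) * (u y * ‖Z x y‖ ^ 2)

/-- admissible correctors. -/
structure DinAdm (h : ℝ) (u : E → ℝ) (Z : E → E → E) (ρ : ℝ) : Prop where
  cont : Continuous (fun p : E × E => Z p.1 p.2)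
  supp : ∀ x y, (ρ < ‖x‖ ∨ ρ < ‖y‖) → Z x y = 0
  mean : ∀ x, ∫ y, gk h (x - y) • (u y • Z x y) = 0

/-- Hilbert-Schmidt inner product. -/
noncomputable def dinTr (A B : E →L[ℝ] E) : ℝ :=
  ∑ i, inner ℝ (A (stdOrthonormalBasis ℝ E i)) (B (stdOrthonormalBasis ℝ E i))

/-- `∇(ζ u)/u`. -/
noncomputable def dinR (u ζ : E → ℝ) (y : E) : E := (u y)⁻¹ • gradient (fun z => ζ z * u z) y

/-- the score of the localised posterior. -/
noncomputable def dinS (h : ℝ) (u ζ : E → ℝ) (x y : E) : E := ζ y • (y - x) - h • dinR u ζ y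

/-- leading density of `dinL / h` for the corrector `Z x y = M x (dinS h u ζ x y)`. -/
noncomputable def dinF0 (u ζ : E → ℝ) (w : E → E) (M : E → E →L[ℝ] E) (p : E × E) : ℝ :=
  (ζ p.2 * u p.2) * (2 * dinTr (fderiv ℝ w p.2) (M p.1) - ζ p.2 * hsSq (M p.1) -
    ∑ i, fderiv ℝ ζ p.2 (stdOrthonormalBasis ℝ E i) *
      inner ℝ (M p.1 (p.2 - p.1)) (M p.1 (stdOrthonormalBasis ℝ E i)))

/-- remainder density (it comes with a factor `h`). -/
noncomputable def dinF1 (u ζ : E → ℝ) (M : E → E →L[ℝ] E) (p : E × E) : ℝ :=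
  (ζ p.2 * u p.2) * dinTr ((M p.1).comp (fderiv ℝ (dinR u ζ) p.2)) (M p.1)

/-- generates the equation lemmas of the definitions above in this file (rule 6: unique names) -/
theorem dinidefs_eqns_cite : True := by
  have := @dinP.eq_1
  have := @dinL.eq_1
  have := @dinTr.eq_1
  have := @dinR.eq_1
  have := @dinS.eq_1
  have := @dinF0.eq_1
  have := @dinF1.eq_1
  have := @dinL.congr_simp
  trivial

end Claimed.Agent.R259
end

/- ===== packed: Claimed.Agent.R259.DiniBase ===== -/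
section
/-
Row 259, kit DINI, package BASE (owner of the kit: helper108).
Integrals against `dm ρ`, the Gaussian kernel, Fubini for one heat step, Gaussian LSI / Poincare in
`dinP` form, approximate identity, cutoffs.
-/
set_option autoImplicit false
set_option linter.unusedSectionVars false

open MeasureTheory Filter Topology ProbabilityTheory
open scoped ContDiff ENNReal

namespace Claimed.Agent.R259

variable {E : Type} [NormedAddCommGroup E] [InnerProductSpace ℝ E] [FiniteDimensional ℝ E]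
  [MeasurableSpace E] [BorelSpace E]

theorem dini_integral_dm {F : Type} [NormedAddCommGroup F] [NormedSpace ℝ F] {ρ : E → ℝ}
    (hm : Measurable ρ) (h0 : ∀ x, 0 ≤ ρ x) (G : E → F) :
    ∫ x, G x ∂(dm ρ) = ∫ x, ρ x • G x := by
  unfold dm
  rw [integral_withDensity_eq_integral_toReal_smul hm.ennreal_ofReal
    (Eventually.of_forall fun x => ENNReal.ofReal_lt_top)]
  simp only [ENNReal.toReal_ofReal (h0 _)]

theorem dini_integrable_dm {F : Type} [NormedAddCommGroup F] [NormedSpace ℝ F] {ρ : E → ℝ}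
    (hm : Measurable ρ) (h0 : ∀ x, 0 ≤ ρ x) (G : E → F) :
    Integrable G (dm ρ) ↔ Integrable (fun x => ρ x • G x) := by
  unfold dm
  rw [integrable_withDensity_iff_integrable_smul' hm.ennreal_ofReal
    (Eventually.of_forall fun x => ENNReal.ofReal_lt_top)]
  simp only [ENNReal.toReal_ofReal (h0 _)]

theorem dini_gk_continuous (h : ℝ) : Continuous (gk h : E → ℝ) := by
  unfold gk; fun_prop

theorem dini_gk_symm (h : ℝ) (x y : E) : gk h (x - y) = gk h (y - x) := by
  unfold gk; rw [norm_sub_rev]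

theorem dini_gk_le {h : ℝ} (hh : 0 < h) (z : E) : gk h z ≤ gk h (0 : E) := by
  unfold gk
  apply mul_le_mul_of_nonneg_left _ (Real.rpow_nonneg (by positivity) _)
  apply Real.exp_le_exp.2
  simp only [norm_zero]
  have : 0 ≤ ‖z‖ ^ 2 / (2 * h) := by positivity
  have h2 : -‖z‖ ^ 2 / (2 * h) = -(‖z‖ ^ 2 / (2 * h)) := by ring
  rw [h2]; simp; positivity

theorem dini_gk_integrable0 {h : ℝ} (hh : 0 < h) : Integrable (gk h : E → ℝ) :=
  integrable_of_integral_eq_one (gc_gk_integral hh)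

theorem dini_gk_integrable {h : ℝ} (hh : 0 < h) (x : E) : Integrable (fun y : E => gk h (x - y)) :=
  (dini_gk_integrable0 hh).comp_sub_left x

theorem dini_gk_integral {h : ℝ} (hh : 0 < h) (x : E) : ∫ y : E, gk h (x - y) = 1 := by
  rw [integral_sub_left_eq_self (gk h : E → ℝ) volume x, gc_gk_integral hh]

/-- `∇_y gk h (x - y) = h⁻¹ gk h (x - y) (x - y)`. -/
theorem dini_gk_gradient {h : ℝ} (hh : 0 < h) (x y : E) :
    HasGradientAt (fun z : E => gk h (x - z)) ((h⁻¹ * gk h (x - y)) • (x - y)) y := by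
  rw [hasGradientAt_iff_hasFDerivAt]
  unfold gk
  have h1 : HasFDerivAt (fun z : E => x - z) (-(ContinuousLinearMap.id ℝ E)) y :=
    (hasFDerivAt_id y).const_sub x
  have h2 := h1.norm_sq
  have h3 := ((h2.const_mul (-(2 * h)⁻¹)).exp).const_mul
    ((2 * Real.pi * h) ^ (-(Module.finrank ℝ E : ℝ) / 2))
  have e1 : ∀ z : E, -‖x - z‖ ^ 2 / (2 * h) = -(2 * h)⁻¹ * ‖x - z‖ ^ 2 := fun z => by
    field_simp
  simp only [e1]
  have key : (InnerProductSpace.toDual ℝ E) ((h⁻¹ * ((2 * Real.pi * h) ^ (-(Module.finrank ℝ E : ℝ) / 2) *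
      Real.exp (-(2 * h)⁻¹ * ‖x - y‖ ^ 2))) • (x - y)) =
      (2 * Real.pi * h) ^ (-(Module.finrank ℝ E : ℝ) / 2) •
      Real.exp (-(2 * h)⁻¹ * ‖x - y‖ ^ 2) • -(2 * h)⁻¹ • 2 • (innerSL ℝ) (x - y) ∘SL
        (-ContinuousLinearMap.id ℝ E) := by
    ext v
    simp only [map_smul, _root_.smul_apply, InnerProductSpace.toDual_apply_apply,
      ContinuousLinearMap.comp_apply, _root_.neg_apply, ContinuousLinearMap.id_apply,
      innerSL_apply_apply, inner_neg_right, smul_eq_mul, nsmul_eq_mul]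
    field_simp
    push_cast
    ring
  rw [key]
  exact h3

theorem dini_gk_moment : ∃ C : ℝ, 0 ≤ C ∧ ∀ h : ℝ, 0 < h → ∀ x : E,
    Integrable (fun y : E => gk h (x - y) * ‖x - y‖ ^ 2) ∧
      ∫ y : E, gk h (x - y) * ‖x - y‖ ^ 2 = C * h := by
  refine ⟨∫ z : E, ‖z‖ ^ 2 ∂(stdGaussian E), by positivity, fun h hh x => ?_⟩
  have hm : Measurable (gk h : E → ℝ) := (dini_gk_continuous h).measurable
  have h0 : ∀ z : E, 0 ≤ gk h z := fun z => (gc_gk_pos hh z).le
  have hmap : Measurable (fun z : E => Real.sqrt h • z) := by fun_prop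
  have hL2 : MemLp (id : E → E) 2 (stdGaussian E) := IsGaussian.memLp_id _ 2 (by simp)
  have hint : Integrable (fun z : E => ‖z‖ ^ 2) (stdGaussian E) := by
    simpa using hL2.integrable_norm_pow (by simp)
  have hsm : AEStronglyMeasurable (fun z : E => ‖z‖ ^ 2) ((stdGaussian E).map (fun z => Real.sqrt h • z)) := by
    apply Continuous.aestronglyMeasurable; fun_prop
  have hcomp : ∀ z : E, ‖Real.sqrt h • z‖ ^ 2 = h * ‖z‖ ^ 2 := fun z => by
    rw [norm_smul, mul_pow, Real.norm_eq_abs, sq_abs, Real.sq_sqrt hh.le]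
  have i0 : Integrable (fun z : E => gk h z * ‖z‖ ^ 2) := by
    have : Integrable (fun z : E => ‖z‖ ^ 2) (dm (gk h : E → ℝ)) := by
      rw [gc_dm_gk hh, integrable_map_measure hsm hmap.aemeasurable]
      simp only [Function.comp_def, hcomp]
      exact hint.const_mul h
    simpa using (dini_integrable_dm hm h0 _).1 this
  have e0 : ∫ z : E, gk h z * ‖z‖ ^ 2 = (∫ z : E, ‖z‖ ^ 2 ∂(stdGaussian E)) * h := by
    have : ∫ z : E, ‖z‖ ^ 2 ∂(dm (gk h : E → ℝ)) = ∫ z : E, gk h z * ‖z‖ ^ 2 := by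
      simpa using dini_integral_dm hm h0 (fun z : E => ‖z‖ ^ 2)
    rw [← this, gc_dm_gk hh, integral_map hmap.aemeasurable hsm]
    simp only [hcomp]
    rw [integral_const_mul, mul_comm]
  refine ⟨i0.comp_sub_left x, ?_⟩
  rw [integral_sub_left_eq_self (fun z : E => gk h z * ‖z‖ ^ 2) volume x, e0]

theorem dini_P_real (h : ℝ) (G : E → ℝ) (x : E) : dinP h G x = ∫ y, gk h (x - y) * G y := rfl

theorem dini_gk_integrable_bdd {F : Type} [NormedAddCommGroup F] [NormedSpace ℝ F] {h : ℝ}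
    (hh : 0 < h) (x : E) {G : E → F} (hG : Continuous G) {B : ℝ} (hB : ∀ y, ‖G y‖ ≤ B) :
    Integrable (fun y => gk h (x - y) • G y) := by
  refine Integrable.mono' ((dini_gk_integrable hh x).mul_const B) ?_ (Eventually.of_forall fun y => ?_)
  · apply Continuous.aestronglyMeasurable
    have := dini_gk_continuous (E := E) h
    fun_prop
  · rw [norm_smul, Real.norm_eq_abs, abs_of_pos (gc_gk_pos hh _)]
    exact mul_le_mul_of_nonneg_left (hB y) (gc_gk_pos hh _).le

theorem dini_P_norm_le {F : Type} [NormedAddCommGroup F] [NormedSpace ℝ F] {h : ℝ}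
    (hh : 0 < h) (x : E) {G : E → F} {B : ℝ} (hB : ∀ y, ‖G y‖ ≤ B) : ‖dinP h G x‖ ≤ B := by
  unfold dinP
  have := norm_integral_le_of_norm_le ((dini_gk_integrable hh x).mul_const B)
    (f := fun y => gk h (x - y) • G y) (Eventually.of_forall fun y => by
      rw [norm_smul, Real.norm_eq_abs, abs_of_pos (gc_gk_pos hh _)]
      exact mul_le_mul_of_nonneg_left (hB y) (gc_gk_pos hh _).le)
  rwa [integral_mul_const, dini_gk_integral hh, one_mul] at this


section step

variable {μ : Measure E} [IsProbabilityMeasure μ]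

theorem dini_P_integral (hb : BddSupp μ) {σ h : ℝ} (hh : 0 < h) (hhσ : h < σ) {G : E → ℝ}
    (hG : Integrable G (dm (gconv μ σ))) :
    Integrable (dinP h G) (dm (gconv μ (σ - h))) ∧
      ∫ x, dinP h G x ∂(dm (gconv μ (σ - h))) = ∫ y, G y ∂(dm (gconv μ σ)) := by
  have hσ : 0 < σ := hh.trans hhσ
  have hσh : 0 < σ - h := sub_pos.2 hhσ
  have hspd := gc_spd hb hσ
  have hνm : Measurable (gconv μ σ) := hspd.1.continuous.measurable
  have hν0 : ∀ x, 0 ≤ gconv μ σ x := fun x => (hspd.2.1 x).le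
  have : IsProbabilityMeasure (dm (gconv μ (σ - h))) := gc_isProb hσh
  have hsemi : ∀ y, ∫ x, gk h (x - y) ∂(dm (gconv μ (σ - h))) = gconv μ σ y := fun y => by
    have := congrFun (gc_semigroup (μ := μ) hσh hh) y
    rw [sub_add_cancel] at this
    rw [← this]
    unfold gconv
    simp only [dini_gk_symm h _ y]
  have hG' : Integrable (fun y => gconv μ σ y * G y) := by
    simpa using (dini_integrable_dm hνm hν0 G).1 hG
  have hGm : AEStronglyMeasurable G volume := by
    have h1 : AEStronglyMeasurable (fun y => (gconv μ σ y)⁻¹ * (gconv μ σ y * G y)) volume :=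
      (hνm.inv.aestronglyMeasurable).mul hG'.aestronglyMeasurable
    refine h1.congr (Eventually.of_forall fun y => ?_)
    simp only
    rw [← mul_assoc, inv_mul_cancel₀ (hspd.2.1 y).ne', one_mul]
  have hgc := dini_gk_continuous (E := E) h
  have hK : Integrable (Function.uncurry fun x y => gk h (x - y) * G y)
      ((dm (gconv μ (σ - h))).prod volume) := by
    rw [integrable_prod_iff']
    · refine ⟨Eventually.of_forall fun y => ?_, ?_⟩
      · simp only [Function.uncurry_apply_pair]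
        refine Integrable.mul_const ?_ _
        refine Integrable.mono' (integrable_const (gk h (0 : E))) ?_ (Eventually.of_forall fun x => ?_)
        · apply Continuous.aestronglyMeasurable; fun_prop
        · rw [Real.norm_eq_abs, abs_of_pos (gc_gk_pos hh _)]; exact dini_gk_le hh _
      · simp only [Function.uncurry_apply_pair, norm_mul]
        have : (fun y => ∫ x, ‖gk h (x - y)‖ * ‖G y‖ ∂(dm (gconv μ (σ - h)))) =
            fun y => ‖gconv μ σ y * G y‖ := by
          funext y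
          rw [integral_mul_const, norm_mul, Real.norm_eq_abs (gconv μ σ y), abs_of_nonneg (hν0 y),
            ← hsemi y]
          congr 2
          funext x
          rw [Real.norm_eq_abs, abs_of_pos (gc_gk_pos hh _)]
        rw [this]
        exact hG'.norm
    · refine AEStronglyMeasurable.mul ?_ hGm.comp_snd
      apply Continuous.aestronglyMeasurable
      fun_prop
  refine ⟨hK.integral_prod_left, ?_⟩
  have := integral_integral_swap hK
  simp only [dini_P_real]
  rw [this, dini_integral_dm hνm hν0]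
  refine integral_congr_ae (Eventually.of_forall fun y => ?_)
  simp only [smul_eq_mul]
  rw [integral_mul_const, hsemi]

end step

theorem dini_logConc_one : LogConc (fun _ : E => (1 : ℝ)) :=
  ⟨measurable_const, fun _ => zero_le_one, fun _ _ _ _ _ => by simp⟩

theorem dini_post_meas (h : ℝ) (x : E) :
    Measurable (fun y : E => 1 * (gk h (x - y) * (1 : ℝ))) := by
  have := dini_gk_continuous (E := E) h
  apply Continuous.measurable; fun_prop

theorem dini_post_integral {h : ℝ} (hh : 0 < h) (x : E) (G : E → ℝ) :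
    ∫ y, G y ∂(dm fun y : E => 1 * (gk h (x - y) * (1 : ℝ))) = dinP h G x := by
  rw [dini_integral_dm (dini_post_meas h x) (fun y => by simpa using (gc_gk_pos hh _).le)]
  simp [dinP]

theorem dini_post_isProb {h : ℝ} (hh : 0 < h) (x : E) :
    IsProbabilityMeasure (dm fun y : E => 1 * (gk h (x - y) * (1 : ℝ))) := by
  constructor
  unfold dm
  rw [withDensity_apply _ MeasurableSet.univ, Measure.restrict_univ,
    ← ofReal_integral_eq_lintegral_ofReal]
  · simp [dini_gk_integral hh]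
  · simpa using dini_gk_integrable hh x
  · exact Eventually.of_forall fun y => by simpa using (gc_gk_pos hh _).le

theorem dini_gauss_LSI {h : ℝ} (hh : 0 < h) (x : E) {g : E → ℝ} (hg : IsTest g) :
    dinP h (fun y => g y ^ 2 * Real.log (g y ^ 2)) x -
      dinP h (fun y => g y ^ 2) x * Real.log (dinP h (fun y => g y ^ 2) x) ≤
      2 * h * dinP h (fun y => ‖gradient g y‖ ^ 2) x := by
  have := dini_post_isProb hh x
  have h1 := plsi_LSI_post (dini_logConc_one (E := E)) hh x zero_le_one g hg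
  unfold ent nrg at h1
  simpa only [dini_post_integral hh x] using h1

theorem dini_gauss_PI {h : ℝ} (hh : 0 < h) (x : E) {g : E → ℝ} (hg : IsTest g) :
    dinP h (fun y => g y ^ 2) x - (dinP h g x) ^ 2 ≤ h * dinP h (fun y => ‖gradient g y‖ ^ 2) x := by
  have := dini_post_isProb hh x
  have h1 := plsi_PI_post (dini_logConc_one (E := E)) hh x zero_le_one g hg
  unfold vari nrg at h1
  simpa only [dini_post_integral hh x] using h1

theorem dini_approx_id {Φ : E × E → ℝ} (hΦ : UniformContinuous Φ) {B : ℝ} (hB : ∀ p, |Φ p| ≤ B)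
    {δ : ℝ} (hδ : 0 < δ) :
    ∃ h₁ > 0, ∀ h, 0 < h → h < h₁ → ∀ x, |(∫ y, gk h (x - y) * Φ (x, y)) - Φ (x, x)| ≤ δ := by
  obtain ⟨C, hC0, hC⟩ := dini_gk_moment (E := E)
  have hB0 : 0 ≤ B := (abs_nonneg _).trans (hB (0, 0))
  obtain ⟨r, hr, hr'⟩ := Metric.uniformContinuous_iff.1 hΦ (δ / 2) (half_pos hδ)
  -- pointwise bound
  have hpt : ∀ x y : E, |Φ (x, y) - Φ (x, x)| ≤ δ / 2 + 2 * B / r ^ 2 * ‖x - y‖ ^ 2 := by
    intro x y
    by_cases hxy : ‖x - y‖ < r
    · have h1 : dist (x, y) (x, x) < r := by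
        rw [Prod.dist_eq, dist_self, dist_eq_norm, norm_sub_rev]
        exact max_lt hr hxy
      have h2 := hr' h1
      rw [Real.dist_eq] at h2
      have : 0 ≤ 2 * B / r ^ 2 * ‖x - y‖ ^ 2 := by positivity
      linarith
    · have hxy' : r ≤ ‖x - y‖ := not_lt.1 hxy
      have h1 : |Φ (x, y) - Φ (x, x)| ≤ 2 * B := by
        have := abs_sub (Φ (x, y)) (Φ (x, x))
        have := hB (x, y); have := hB (x, x); linarith
      have h2 : 1 ≤ ‖x - y‖ ^ 2 / r ^ 2 := by
        rw [le_div_iff₀ (by positivity), one_mul]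
        exact pow_le_pow_left₀ hr.le hxy' 2
      have h3 : 2 * B ≤ 2 * B / r ^ 2 * ‖x - y‖ ^ 2 := by
        calc 2 * B = 2 * B * 1 := by ring
          _ ≤ 2 * B * (‖x - y‖ ^ 2 / r ^ 2) := mul_le_mul_of_nonneg_left h2 (by positivity)
          _ = _ := by ring
      linarith
  refine ⟨δ / 2 / (2 * B / r ^ 2 * C + 1), by positivity, fun h hh hh1 x => ?_⟩
  have hΦc : Continuous Φ := hΦ.continuous
  have hgc := dini_gk_continuous (E := E) h
  have i1 : Integrable (fun y => gk h (x - y) * Φ (x, y)) := by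
    have := dini_gk_integrable_bdd hh x (G := fun y => Φ (x, y)) (by fun_prop) (B := B)
      (fun y => hB _)
    simpa using this
  have i2 : Integrable (fun y => gk h (x - y) * Φ (x, x)) := (dini_gk_integrable hh x).mul_const _
  have e1 : (∫ y, gk h (x - y) * Φ (x, y)) - Φ (x, x) =
      ∫ y, gk h (x - y) * (Φ (x, y) - Φ (x, x)) := by
    simp only [mul_sub]
    rw [integral_sub i1 i2, integral_mul_const, dini_gk_integral hh, one_mul]
  rw [e1]
  have i3 : Integrable (fun y => gk h (x - y) * (δ / 2) +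
      2 * B / r ^ 2 * (gk h (x - y) * ‖x - y‖ ^ 2)) :=
    ((dini_gk_integrable hh x).mul_const _).add ((hC h hh x).1.const_mul _)
  have h4 := norm_integral_le_of_norm_le i3 (f := fun y => gk h (x - y) * (Φ (x, y) - Φ (x, x)))
    (Eventually.of_forall fun y => by
      rw [norm_mul, Real.norm_eq_abs, Real.norm_eq_abs, abs_of_pos (gc_gk_pos hh _)]
      have := mul_le_mul_of_nonneg_left (hpt x y) (gc_gk_pos hh (x - y)).le
      linarith)
  rw [integral_add ((dini_gk_integrable hh x).mul_const _) ((hC h hh x).1.const_mul _),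
    integral_mul_const, dini_gk_integral hh, integral_const_mul, (hC h hh x).2,
    Real.norm_eq_abs] at h4
  have h5 : h * (2 * B / r ^ 2 * C + 1) < δ / 2 := by
    rwa [lt_div_iff₀ (by positivity)] at hh1
  have h6 : 0 ≤ 2 * B / r ^ 2 * C := by positivity
  nlinarith


theorem dini_cutoff : ∃ (χ : ℕ → E → ℝ) (C : ℝ), (∀ k, IsTest (χ k)) ∧
    (∀ k x, 0 ≤ χ k x ∧ χ k x ≤ 1) ∧ (∀ (k : ℕ) x, ‖x‖ ≤ k → χ k x = 1) ∧
    (∀ k x, ‖gradient (χ k) x‖ ≤ C) := by
  let b : ContDiffBump (0 : E) := ⟨1, 2, one_pos, one_lt_two⟩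
  have hb : ContDiff ℝ ∞ (b : E → ℝ) := b.contDiff
  have hbc : HasCompactSupport (b : E → ℝ) := b.hasCompactSupport
  obtain ⟨C, hC⟩ := (hb.continuous_fderiv (by simp)).bounded_above_of_compact_support
    (hbc.fderiv (𝕜 := ℝ))
  have hC0 : 0 ≤ C := (norm_nonneg _).trans (hC 0)
  have hk : ∀ k : ℕ, (0 : ℝ) < ((k : ℝ) + 1)⁻¹ := fun k => by positivity
  refine ⟨fun k x => b (((k : ℝ) + 1)⁻¹ • x), C, fun k => ⟨?_, ?_⟩, fun k x => ⟨b.nonneg, b.le_one⟩,
    fun k x hx => ?_, fun k x => ?_⟩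
  · exact hb.comp (contDiff_const_smul _)
  · exact hbc.comp_smul (hk k).ne'
  · apply b.one_of_mem_closedBall
    rw [mem_closedBall_zero_iff, norm_smul, Real.norm_eq_abs, abs_of_pos (hk k)]
    show ((k : ℝ) + 1)⁻¹ * ‖x‖ ≤ 1
    rw [inv_mul_le_iff₀ (by positivity)]
    linarith
  · rw [lsic_norm_gradient]
    have h1 : HasFDerivAt (fun x : E => b (((k : ℝ) + 1)⁻¹ • x))
        ((fderiv ℝ b (((k : ℝ) + 1)⁻¹ • x)).comp (((k : ℝ) + 1)⁻¹ • ContinuousLinearMap.id ℝ E)) x :=
      ((hb.differentiable (by simp)) _).hasFDerivAt.comp x ((hasFDerivAt_id x).const_smul _)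
    rw [h1.fderiv]
    calc _ ≤ ‖fderiv ℝ b (((k : ℝ) + 1)⁻¹ • x)‖ * ‖((k : ℝ) + 1)⁻¹ • ContinuousLinearMap.id ℝ E‖ :=
          ContinuousLinearMap.opNorm_comp_le _ _
      _ ≤ C * 1 := by
          apply mul_le_mul (hC _) _ (norm_nonneg _) hC0
          rw [norm_smul, Real.norm_eq_abs, abs_of_pos (hk k)]
          have h2 : ‖ContinuousLinearMap.id ℝ E‖ ≤ 1 := ContinuousLinearMap.norm_id_le
          have h3 : ((k : ℝ) + 1)⁻¹ ≤ 1 := inv_le_one_of_one_le₀ (by linarith [(Nat.cast_nonneg k : (0:ℝ) ≤ k)])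
          calc _ ≤ (1 : ℝ) * 1 := mul_le_mul h3 h2 (norm_nonneg _) zero_le_one
            _ = 1 := one_mul 1
      _ = C := mul_one C

end Claimed.Agent.R259
end

/- ===== packed: Claimed.Agent.R259.DiniIbp ===== -/
section
/-
Row 259, kit DINI, package IBP (owner of the kit: helper108).
The explicit corrector `Z x y = A (dinS h u ζ x y)`, `A = M x`.  With `ψ(y) = ζ(y) u(y) gk h (x - y)` (smooth, compact
support) one has `gk h (x - y) u(y) dinS = - h ∇ψ(y)` (`dini_score`), so every integral against `gk u S` is an integration by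
parts (`dini_ibp`, from Mathlib's `integral_mul_fderiv_eq_neg_fderiv_mul_of_integrable`, coordinate by coordinate in
`stdOrthonormalBasis`):
mean zero; cross term `= h ∫ ψ tr(Aᵀ Dw)`; quadratic term `= h ∫ ψ tr(Aᵀ A D_y S)`.
-/
set_option autoImplicit false
set_option linter.unusedSectionVars false
set_option linter.unusedVariables false

open MeasureTheory Filter Topology ProbabilityTheory
open scoped ContDiff ENNReal

namespace Claimed.Agent.R259

variable {E : Type} [NormedAddCommGroup E] [InnerProductSpace ℝ E] [FiniteDimensional ℝ E]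
  [MeasurableSpace E] [BorelSpace E]

theorem dini_hsSq_eq (A : E →L[ℝ] E) : hsSq A = dinTr A A := by
  unfold hsSq dinTr
  simp only [real_inner_self_eq_norm_sq]

theorem dinib_inner_gradient (ψ : E → ℝ) (y v : E) : inner ℝ v (gradient ψ y) = fderiv ℝ ψ y v := by
  rw [real_inner_comm]; unfold gradient; simp

theorem dinib_gradient_expand (ψ : E → ℝ) (y : E) :
    gradient ψ y = ∑ i, fderiv ℝ ψ y (stdOrthonormalBasis ℝ E i) • stdOrthonormalBasis ℝ E i := by
  rw [← (stdOrthonormalBasis ℝ E).sum_repr' (gradient ψ y)]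
  simp only [dinib_inner_gradient]

theorem dinib_gradient_continuous {g : E → ℝ} (hg : ContDiff ℝ 1 g) : Continuous (gradient g) := by
  unfold gradient
  exact (LinearIsometryEquiv.continuous _).comp (hg.continuous_fderiv (by simp))

theorem dinib_gradient_compact {g : E → ℝ} (hc : HasCompactSupport g) :
    HasCompactSupport (gradient g) := by
  have : gradient g = fun y => (InnerProductSpace.toDual ℝ E).symm (fderiv ℝ g y) := rfl
  rw [this]
  exact (hc.fderiv (𝕜 := ℝ)).comp_left (map_zero _)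

theorem dini_ibp {W : E → E} {ψ : E → ℝ} (hW : ContDiff ℝ 1 W) (hψ : ContDiff ℝ 1 ψ)
    (hc : HasCompactSupport ψ) (A : E →L[ℝ] E) :
    ∫ y, inner ℝ (W y) (A (gradient ψ y)) = - ∫ y, ψ y * dinTr (fderiv ℝ W y) A := by
  have hWc : Continuous W := hW.continuous
  have hψc : Continuous ψ := hψ.continuous
  have hDW : Continuous (fderiv ℝ W) := hW.continuous_fderiv (by simp)
  have hDψ : Continuous (fderiv ℝ ψ) := hψ.continuous_fderiv (by simp)
  have hDψc : HasCompactSupport (fderiv ℝ ψ) := hc.fderiv (𝕜 := ℝ)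
  have hWd : Differentiable ℝ W := hW.differentiable (by simp)
  have hψd : Differentiable ℝ ψ := hψ.differentiable (by simp)
  -- one coordinate
  have hone : ∀ i, ∫ y, inner ℝ (W y) (A (stdOrthonormalBasis ℝ E i)) *
      fderiv ℝ ψ y (stdOrthonormalBasis ℝ E i) =
      - ∫ y, inner ℝ (fderiv ℝ W y (stdOrthonormalBasis ℝ E i)) (A (stdOrthonormalBasis ℝ E i)) *
        ψ y := by
    intro i
    set e := stdOrthonormalBasis ℝ E i
    have hfd : ∀ y, HasFDerivAt (fun z => inner ℝ (W z) (A e))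
        ((innerSL ℝ (A e)).comp (fderiv ℝ W y)) y := fun y => by
      have := ((innerSL ℝ (A e)).hasFDerivAt (x := W y)).comp y (hWd y).hasFDerivAt
      simpa [Function.comp_def, real_inner_comm] using this
    have hfe : ∀ y, fderiv ℝ (fun z => inner ℝ (W z) (A e)) y e =
        inner ℝ (fderiv ℝ W y e) (A e) := fun y => by
      rw [(hfd y).fderiv]; simp [real_inner_comm]
    have h1 := integral_mul_fderiv_eq_neg_fderiv_mul_of_integrable (μ := (volume : Measure E))
      (f := fun z => inner ℝ (W z) (A e)) (g := ψ) (v := e) ?_ ?_ ?_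
      (fun y _ => (hfd y).differentiableAt) (fun y _ => hψd y)
    · simpa only [hfe] using h1
    · simp only [hfe]
      exact Continuous.integrable_of_hasCompactSupport (by fun_prop) hc.mul_left
    · refine Continuous.integrable_of_hasCompactSupport (by fun_prop) (HasCompactSupport.mul_left ?_)
      exact hDψc.comp_left (g := fun L : E →L[ℝ] ℝ => L e) (by simp)
    · exact Continuous.integrable_of_hasCompactSupport (by fun_prop) hc.mul_left
  have e1 : ∀ y, inner ℝ (W y) (A (gradient ψ y)) =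
      ∑ i, inner ℝ (W y) (A (stdOrthonormalBasis ℝ E i)) *
        fderiv ℝ ψ y (stdOrthonormalBasis ℝ E i) := fun y => by
    conv_lhs => rw [dinib_gradient_expand ψ y]
    rw [map_sum, inner_sum]
    refine Finset.sum_congr rfl fun i _ => ?_
    rw [map_smul, inner_smul_right, mul_comm]
  have e2 : ∀ y, ψ y * dinTr (fderiv ℝ W y) A =
      ∑ i, inner ℝ (fderiv ℝ W y (stdOrthonormalBasis ℝ E i)) (A (stdOrthonormalBasis ℝ E i)) *
        ψ y := fun y => by
    unfold dinTr
    rw [Finset.mul_sum]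
    exact Finset.sum_congr rfl fun i _ => mul_comm _ _
  simp only [e1, e2]
  rw [integral_finsetSum, integral_finsetSum, ← Finset.sum_neg_distrib]
  · exact Finset.sum_congr rfl fun i _ => hone i
  · intro i _
    exact Continuous.integrable_of_hasCompactSupport (by fun_prop) hc.mul_left
  · intro i _
    refine Continuous.integrable_of_hasCompactSupport (by fun_prop) (HasCompactSupport.mul_left ?_)
    exact hDψc.comp_left (g := fun L : E →L[ℝ] ℝ => L (stdOrthonormalBasis ℝ E i)) (by simp)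

theorem dini_int_gradient {ψ : E → ℝ} (hψ : ContDiff ℝ 1 ψ) (hc : HasCompactSupport ψ) :
    ∫ y, gradient ψ y = 0 := by
  apply ext_inner_left ℝ
  intro v
  have h1 := dini_ibp (W := fun _ => v) contDiff_const hψ hc (ContinuousLinearMap.id ℝ E)
  have hi : Integrable (gradient ψ) :=
    (dinib_gradient_continuous hψ).integrable_of_hasCompactSupport (dinib_gradient_compact hc)
  rw [inner_zero_right, ← integral_inner hi]
  simpa [dinTr] using h1

theorem dinib_gradient_contDiff {g : E → ℝ} (hg : ContDiff ℝ ∞ g) : ContDiff ℝ ∞ (gradient g) := by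
  unfold gradient
  exact (LinearIsometryEquiv.contDiff _).comp (hg.fderiv_right (by simp))

theorem dinib_hasGradientAt_mul {a b : E → ℝ} {a' b' y : E} (ha : HasGradientAt a a' y)
    (hb : HasGradientAt b b' y) : HasGradientAt (fun z => a z * b z) (a y • b' + b y • a') y := by
  rw [hasGradientAt_iff_hasFDerivAt] at *
  have := ha.mul hb
  rw [map_add, map_smul, map_smul]
  exact this

section corr

variable {h : ℝ} {u ζ : E → ℝ}

theorem dini_R_contDiff (hu : ContDiff ℝ ∞ u) (hupos : ∀ x, 0 < u x) (hζ : ContDiff ℝ ∞ ζ) :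
    ContDiff ℝ ∞ (dinR u ζ) := by
  unfold dinR
  exact (hu.inv fun x => (hupos x).ne').smul (dinib_gradient_contDiff (hζ.mul hu))

theorem dini_S_contDiff (hu : ContDiff ℝ ∞ u) (hupos : ∀ x, 0 < u x) (hζ : ContDiff ℝ ∞ ζ)
    (x : E) : ContDiff ℝ ∞ (dinS h u ζ x) := by
  unfold dinS
  exact (hζ.smul (contDiff_id.sub contDiff_const)).sub
    (contDiff_const.smul (dini_R_contDiff hu hupos hζ))

theorem dini_S_fderiv (hu : ContDiff ℝ ∞ u) (hupos : ∀ x, 0 < u x) (hζ : ContDiff ℝ ∞ ζ)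
    (x y e : E) : fderiv ℝ (dinS h u ζ x) y e =
      fderiv ℝ ζ y e • (y - x) + ζ y • e - h • fderiv ℝ (dinR u ζ) y e := by
  have a1 := ((hζ.differentiable (by simp)) y).hasFDerivAt
  have a2 : HasFDerivAt (fun z : E => z - x) (ContinuousLinearMap.id ℝ E) y :=
    (hasFDerivAt_id y).sub_const x
  have a3 := (((dini_R_contDiff hu hupos hζ).differentiable (by simp)) y).hasFDerivAt
  have a4 := (a1.smul a2).sub (a3.const_smul h)
  have a5 : HasFDerivAt (dinS h u ζ x) _ y := a4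
  rw [a5.fderiv]
  simp [add_comm]

/-- `gk u S = - h ∇ψ`. -/
theorem dini_score (hh : 0 < h) (hu : ContDiff ℝ ∞ u) (hupos : ∀ x, 0 < u x)
    (hζ : ContDiff ℝ ∞ ζ) (x y : E) :
    gk h (x - y) • (u y • dinS h u ζ x y) =
      -(h • gradient (fun z => (ζ z * u z) * gk h (x - z)) y) := by
  have a1 : HasGradientAt (fun z => ζ z * u z) (gradient (fun z => ζ z * u z) y) y :=
    (((hζ.mul hu).differentiable (by simp)) y).hasGradientAt
  have a2 := dinib_hasGradientAt_mul a1 (dini_gk_gradient hh x y)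
  rw [a2.gradient]
  unfold dinS dinR
  have hu0 := (hupos y).ne'
  simp only [smul_sub, smul_add, smul_smul, neg_add]
  have e1 : gk h (x - y) * (u y * (h * (u y)⁻¹)) = h * gk h (x - y) := by field_simp
  have e2 : h * (ζ y * u y * (h⁻¹ * gk h (x - y))) = gk h (x - y) * (u y * ζ y) := by
    field_simp
  rw [e1, e2]
  abel

theorem dinib_psi_contDiff (hh : 0 < h) (hu : ContDiff ℝ ∞ u) (hζ : IsTest ζ) (x : E) :
    ContDiff ℝ ∞ (fun z => (ζ z * u z) * gk h (x - z)) :=
  (hζ.1.mul hu).mul ((gc_gk_contDiff hh).comp (contDiff_const.sub contDiff_id))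

theorem dinib_psi_compact (hζ : IsTest ζ) (x : E) :
    HasCompactSupport (fun z => (ζ z * u z) * gk h (x - z)) :=
  hζ.2.mul_right.mul_right

theorem dini_corr_mean (hh : 0 < h) (hu : ContDiff ℝ ∞ u) (hupos : ∀ x, 0 < u x) (hζ : IsTest ζ)
    (A : E →L[ℝ] E) (x : E) : ∫ y, gk h (x - y) • (u y • A (dinS h u ζ x y)) = 0 := by
  have hψ := (dinib_psi_contDiff hh hu hζ x).of_le (m := 1) (by simp)
  have hψc := dinib_psi_compact (h := h) (u := u) hζ x
  have e1 : ∀ y, gk h (x - y) • (u y • A (dinS h u ζ x y)) =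
      A (-(h • gradient (fun z => (ζ z * u z) * gk h (x - z)) y)) := fun y => by
    rw [← dini_score hh hu hupos hζ.1, map_smul, map_smul]
  simp only [e1]
  have hi : Integrable (fun y => -(h • gradient (fun z => (ζ z * u z) * gk h (x - z)) y)) :=
    (((dinib_gradient_continuous hψ).integrable_of_hasCompactSupport
      (dinib_gradient_compact hψc)).smul h).neg
  rw [A.integral_comp_comm hi, integral_neg, integral_smul, dini_int_gradient hψ hψc]
  simp

theorem dini_corr_cross (hh : 0 < h) (hu : ContDiff ℝ ∞ u) (hupos : ∀ x, 0 < u x) (hζ : IsTest ζ)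
    {w : E → E} (hw : ContDiff ℝ ∞ w) (A : E →L[ℝ] E) (x : E) :
    ∫ y, gk h (x - y) * inner ℝ (u y • w y) (A (dinS h u ζ x y)) =
      h * ∫ y, gk h (x - y) * ((ζ y * u y) * dinTr (fderiv ℝ w y) A) := by
  have hψ := (dinib_psi_contDiff hh hu hζ x).of_le (m := 1) (by simp)
  have hψc := dinib_psi_compact (h := h) (u := u) hζ x
  have e1 : ∀ y, gk h (x - y) * inner ℝ (u y • w y) (A (dinS h u ζ x y)) =
      -h * inner ℝ (w y) (A (gradient (fun z => (ζ z * u z) * gk h (x - z)) y)) := fun y => by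
    have : inner ℝ (w y) (A (gk h (x - y) • (u y • dinS h u ζ x y))) =
        gk h (x - y) * inner ℝ (u y • w y) (A (dinS h u ζ x y)) := by
      rw [map_smul, map_smul, inner_smul_right, inner_smul_right, inner_smul_left]
      simp
    rw [← this, dini_score hh hu hupos hζ.1, map_neg, map_smul, inner_neg_right, inner_smul_right]
    ring
  simp only [e1]
  rw [integral_const_mul, dini_ibp (hw.of_le (by simp)) hψ hψc A, neg_mul_neg]
  congr 2
  funext y
  ring

theorem dini_corr_quad (hh : 0 < h) (hu : ContDiff ℝ ∞ u) (hupos : ∀ x, 0 < u x) (hζ : IsTest ζ)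
    (A : E →L[ℝ] E) (x : E) :
    ∫ y, gk h (x - y) * (u y * ‖A (dinS h u ζ x y)‖ ^ 2) =
      h * ∫ y, gk h (x - y) * ((ζ y * u y) * dinTr (A.comp (fderiv ℝ (dinS h u ζ x) y)) A) := by
  have hψ := (dinib_psi_contDiff hh hu hζ x).of_le (m := 1) (by simp)
  have hψc := dinib_psi_compact (h := h) (u := u) hζ x
  have hS := dini_S_contDiff (h := h) hu hupos hζ.1 x
  have e1 : ∀ y, gk h (x - y) * (u y * ‖A (dinS h u ζ x y)‖ ^ 2) =
      -h * inner ℝ (A (dinS h u ζ x y))
        (A (gradient (fun z => (ζ z * u z) * gk h (x - z)) y)) := fun y => by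
    have : inner ℝ (A (dinS h u ζ x y)) (A (gk h (x - y) • (u y • dinS h u ζ x y))) =
        gk h (x - y) * (u y * ‖A (dinS h u ζ x y)‖ ^ 2) := by
      rw [map_smul, map_smul, inner_smul_right, inner_smul_right, real_inner_self_eq_norm_sq]
    rw [← this, dini_score hh hu hupos hζ.1, map_neg, map_smul, inner_neg_right, inner_smul_right]
    ring
  simp only [e1]
  have hAS : ContDiff ℝ 1 (fun y => A (dinS h u ζ x y)) := A.contDiff.comp (hS.of_le (by simp))
  have hfd : ∀ y, fderiv ℝ (fun y => A (dinS h u ζ x y)) y = A.comp (fderiv ℝ (dinS h u ζ x) y) :=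
    fun y => (A.hasFDerivAt.comp y ((hS.differentiable (by simp)) y).hasFDerivAt).fderiv
  rw [integral_const_mul, dini_ibp hAS hψ hψc A, neg_mul_neg]
  simp only [hfd]
  congr 2
  funext y
  ring

theorem dinib_tr_S (hu : ContDiff ℝ ∞ u) (hupos : ∀ x, 0 < u x) (hζ : ContDiff ℝ ∞ ζ)
    (A : E →L[ℝ] E) (x y : E) :
    dinTr (A.comp (fderiv ℝ (dinS h u ζ x) y)) A =
      (∑ i, fderiv ℝ ζ y (stdOrthonormalBasis ℝ E i) *
        inner ℝ (A (y - x)) (A (stdOrthonormalBasis ℝ E i))) + ζ y * hsSq A -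
        h * dinTr (A.comp (fderiv ℝ (dinR u ζ) y)) A := by
  unfold dinTr hsSq
  rw [Finset.mul_sum, Finset.mul_sum, ← Finset.sum_add_distrib, ← Finset.sum_sub_distrib]
  refine Finset.sum_congr rfl fun i _ => ?_
  rw [ContinuousLinearMap.comp_apply, dini_S_fderiv hu hupos hζ, map_sub, map_add, map_smul,
    map_smul, map_smul, inner_sub_left, inner_add_left, inner_smul_left, inner_smul_left,
    inner_smul_left, real_inner_self_eq_norm_sq, ContinuousLinearMap.comp_apply]
  simp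

/-- the formula for `dinL`. -/
theorem dini_corr_L (hh : 0 < h) (hu : ContDiff ℝ ∞ u) (hupos : ∀ x, 0 < u x) (hζ : IsTest ζ)
    {w : E → E} (hw : ContDiff ℝ ∞ w) (M : E → E →L[ℝ] E) (x : E) :
    dinL h u (fun y => u y • w y) (fun x y => M x (dinS h u ζ x y)) x =
      h * ∫ y, gk h (x - y) * (dinF0 u ζ w M (x, y) + h * dinF1 u ζ M (x, y)) := by
  unfold dinL
  rw [dini_corr_cross hh hu hupos hζ hw (M x) x, dini_corr_quad hh hu hupos hζ (M x) x]
  have hg := dini_gk_continuous (E := E) h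
  have hζc := hζ.1.continuous
  have huc := hu.continuous
  have hDw : Continuous (fderiv ℝ w) := hw.continuous_fderiv (by simp)
  have hDS : Continuous (fderiv ℝ (dinS h u ζ x)) :=
    (dini_S_contDiff (h := h) hu hupos hζ.1 x).continuous_fderiv (by simp)
  have ia : Integrable (fun y => gk h (x - y) * ((ζ y * u y) * dinTr (fderiv ℝ w y) (M x))) := by
    unfold dinTr
    exact Continuous.integrable_of_hasCompactSupport (by fun_prop) hζ.2.mul_right.mul_right.mul_left
  have ib : Integrable (fun y => gk h (x - y) *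
      ((ζ y * u y) * dinTr ((M x).comp (fderiv ℝ (dinS h u ζ x) y)) (M x))) := by
    unfold dinTr
    simp only [ContinuousLinearMap.comp_apply]
    exact Continuous.integrable_of_hasCompactSupport (by fun_prop) hζ.2.mul_right.mul_right.mul_left
  have e1 : ∀ y, gk h (x - y) * (dinF0 u ζ w M (x, y) + h * dinF1 u ζ M (x, y)) =
      2 * (gk h (x - y) * ((ζ y * u y) * dinTr (fderiv ℝ w y) (M x))) -
      gk h (x - y) * ((ζ y * u y) * dinTr ((M x).comp (fderiv ℝ (dinS h u ζ x) y)) (M x)) :=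
    fun y => by
    rw [dinib_tr_S hu hupos hζ.1]
    unfold dinF0 dinF1
    ring
  simp only [e1]
  rw [integral_sub (ia.const_mul 2) ib, integral_const_mul]
  ring

end corr

end Claimed.Agent.R259
end

/- ===== packed: Claimed.Agent.R259.S4CurveHerbstC ===== -/
section
/-
Row 259 (S0499), section 4, package BP-S4-curve, file HERBST-C (LEAF L-s4c-herbst-c, Mathlib only): subgaussian Laplace transform ⇒ exponential square moment.
Statement: helper147.
`e^{X²/(4R)} = ∫ e^{g X/√(2R)} dN(0,1)(g)` (`ProbabilityTheory.mgf_gaussianReal`), Tonelli,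
`∫⁻ e^{g X/√(2R)} dP ≤ exp(|g| M/√(2R) + g²/4)` (for `g < 0` the left side is `≤ 1`), and `exp(a|g| + g²/4)` has finite integral for `N(0,1)`
(density `gaussianPDFReal`, `integrable_exp_neg_mul_sq`, `a|g| ≤ a² · 8⁻¹⁻¹ ...` i.e. `a|g| ≤ 2a² + g²/8`).
-/
set_option autoImplicit false

open MeasureTheory ProbabilityTheory
open scoped ENNReal ContDiff

namespace Claimed.Agent.R259

/-- `E e^{a g} = e^{a²/2}` in `lintegral` form -/
theorem s4cc_gauss_mgf (a : ℝ) :
    ∫⁻ g, ENNReal.ofReal (Real.exp (a * g)) ∂(gaussianReal 0 1) = ENNReal.ofReal (Real.exp (a ^ 2 / 2)) := by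
  rw [← ofReal_integral_eq_lintegral_ofReal (integrable_exp_mul_gaussianReal a)
    (Filter.Eventually.of_forall fun g => (Real.exp_pos _).le)]
  have h1 := congrFun (mgf_id_gaussianReal (μ := 0) (v := 1)) a
  unfold mgf at h1
  simp only [id] at h1
  rw [h1]
  congr 2
  simp

/-- `exp(c|g| + g²/4)` has a finite Gaussian integral -/
theorem s4cc_gauss_fin (c : ℝ) :
    ∫⁻ g, ENNReal.ofReal (Real.exp (c * |g| + g ^ 2 / 4)) ∂(gaussianReal 0 1) < ⊤ := by
  rw [gaussianReal_of_var_ne_zero 0 one_ne_zero,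
    lintegral_withDensity_eq_lintegral_mul _ (measurable_gaussianPDF 0 1) (by fun_prop)]
  have hI : Integrable (fun g : ℝ => (Real.sqrt (2 * Real.pi * (1 : NNReal)))⁻¹ * Real.exp (2 * c ^ 2) *
      Real.exp (-(1 / 8) * g ^ 2)) volume := (integrable_exp_neg_mul_sq (by norm_num)).const_mul _
  refine lt_of_le_of_lt (lintegral_mono fun g => ?_) hI.lintegral_lt_top
  simp only [Pi.mul_apply, gaussianPDF]
  rw [← ENNReal.ofReal_mul (gaussianPDFReal_nonneg _ _ _)]
  refine ENNReal.ofReal_le_ofReal ?_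
  unfold gaussianPDFReal
  rw [mul_assoc (Real.sqrt _)⁻¹, mul_assoc (Real.sqrt _)⁻¹, ← Real.exp_add, ← Real.exp_add]
  refine mul_le_mul_of_nonneg_left (Real.exp_le_exp.2 ?_) (by positivity)
  have h1 : c * |g| ≤ 2 * c ^ 2 + g ^ 2 / 8 := by
    have h2 : 0 ≤ (2 * c - |g| / 2) ^ 2 := sq_nonneg _
    have h3 : |g| ^ 2 = g ^ 2 := sq_abs g
    nlinarith
  simp only [sub_zero, NNReal.coe_one, mul_one]
  linarith

/-- subgaussian Laplace transform implies an exponential square moment (one dimensional Gaussian averaging). -/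
theorem s4c_expsq_of_mgf {α : Type} [MeasurableSpace α] {P : Measure α} [IsProbabilityMeasure P] {X : α → ℝ}
    (hX : Measurable X) (hX0 : ∀ a, 0 ≤ X a) {M R : ℝ} (hR : 0 < R) (hM : 0 ≤ M)
    (h : ∀ t, 0 ≤ t → ∫⁻ a, ENNReal.ofReal (Real.exp (t * X a)) ∂P ≤
      ENNReal.ofReal (Real.exp (t * M + R * t ^ 2 / 2))) :
    ∫⁻ a, ENNReal.ofReal (Real.exp (X a ^ 2 / (4 * R))) ∂P < ⊤ := by
  set κ : ℝ := (Real.sqrt (2 * R))⁻¹ with hκ
  have hκ0 : 0 < κ := by positivity
  have hκ2 : κ ^ 2 = 1 / (2 * R) := by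
    rw [hκ, inv_pow, Real.sq_sqrt (by positivity), one_div]
  have e1 : ∀ a, ENNReal.ofReal (Real.exp (X a ^ 2 / (4 * R))) =
      ∫⁻ g, ENNReal.ofReal (Real.exp (κ * X a * g)) ∂(gaussianReal 0 1) := fun a => by
    rw [s4cc_gauss_mgf]
    congr 2
    rw [mul_pow, hκ2]
    field_simp
    ring
  simp only [e1]
  rw [lintegral_lintegral_swap (by fun_prop)]
  refine lt_of_le_of_lt (lintegral_mono fun g => ?_) (s4cc_gauss_fin (κ * M))
  rcases le_or_gt 0 g with hg | hg
  · have h1 := h (κ * g) (by positivity)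
    have e2 : ∀ a, κ * X a * g = κ * g * X a := fun a => by ring
    simp only [e2]
    refine h1.trans (ENNReal.ofReal_le_ofReal (Real.exp_le_exp.2 ?_))
    rw [abs_of_nonneg hg, mul_pow, hκ2]
    have : R * (1 / (2 * R) * g ^ 2) / 2 = g ^ 2 / 4 := by
      field_simp
      ring
    rw [this]
    linarith
  · calc ∫⁻ a, ENNReal.ofReal (Real.exp (κ * X a * g)) ∂P ≤ ∫⁻ _a, 1 ∂P := by
          refine lintegral_mono fun a => ?_
          rw [← ENNReal.ofReal_one]
          refine ENNReal.ofReal_le_ofReal (Real.exp_le_one_iff.2 ?_)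
          exact mul_nonpos_of_nonneg_of_nonpos (mul_nonneg hκ0.le (hX0 a)) hg.le
      _ = 1 := by simp
      _ ≤ _ := by
          rw [← ENNReal.ofReal_one]
          refine ENNReal.ofReal_le_ofReal (Real.one_le_exp ?_)
          positivity

end Claimed.Agent.R259
end

/- ===== packed: Claimed.Agent.R259.S7ScGauss ===== -/
section
/-
Row 259 (S0499), package BP-S7-SCALAR: one-dimensional Gaussian toolbox (`γ = gaussianReal 0 1`).
Rotation invariance of `γ ⊗ γ`, Stein's identity for `C¹` functions with bounded derivative,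
exponential tilt, tail and Chebyshev bounds, first moments.
-/
set_option autoImplicit false

open MeasureTheory ProbabilityTheory
open scoped BigOperators

namespace Claimed.Agent.R259

/-! ### Rotation invariance -/

theorem s7s_charFunDual_gauss (L : StrongDual ℝ ℝ) :
    charFunDual (gaussianReal 0 1) L = Complex.exp (-(((L 1) ^ 2 : ℝ) : ℂ) / 2) := by
  rw [charFunDual_eq_charFun_map_one, gaussianReal_map_continuousLinearMap, charFun_gaussianReal]
  congr 1
  simp [max_eq_left (sq_nonneg (L 1))]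
  ring

/-- the reflection as a continuous linear map -/
noncomputable def s7sRotL (c s : ℝ) : ℝ × ℝ →L[ℝ] ℝ × ℝ :=
  (c • ContinuousLinearMap.fst ℝ ℝ ℝ + s • ContinuousLinearMap.snd ℝ ℝ ℝ).prod
    (s • ContinuousLinearMap.fst ℝ ℝ ℝ - c • ContinuousLinearMap.snd ℝ ℝ ℝ)

theorem s7sRotL_apply (c s : ℝ) (p : ℝ × ℝ) :
    s7sRotL c s p = (c * p.1 + s * p.2, s * p.1 - c * p.2) := rfl

/-- L-s7s-gauss (1).  The reflection `(p,q) ↦ (c p + s q, s p - c q)` preserves `γ ⊗ γ`. -/
theorem s7s_rot_map (c s : ℝ) (h : c ^ 2 + s ^ 2 = 1) :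
    Measure.map (fun p : ℝ × ℝ => (c * p.1 + s * p.2, s * p.1 - c * p.2))
      ((gaussianReal 0 1).prod (gaussianReal 0 1))
      = (gaussianReal 0 1).prod (gaussianReal 0 1) := by
  have hT : (fun p : ℝ × ℝ => (c * p.1 + s * p.2, s * p.1 - c * p.2)) = ⇑(s7sRotL c s) := by
    funext p; rfl
  rw [hT]
  have : IsProbabilityMeasure (Measure.map (⇑(s7sRotL c s))
      ((gaussianReal 0 1).prod (gaussianReal 0 1))) :=
    Measure.isProbabilityMeasure_map (s7sRotL c s).continuous.aemeasurable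
  apply Measure.ext_of_charFunDual
  funext L
  rw [charFunDual_map, charFunDual_prod, charFunDual_prod, s7s_charFunDual_gauss,
    s7s_charFunDual_gauss, s7s_charFunDual_gauss, s7s_charFunDual_gauss, ← Complex.exp_add,
    ← Complex.exp_add]
  have hL : ∀ p : ℝ × ℝ, L p = p.1 * L (1, 0) + p.2 * L (0, 1) := by
    intro p
    have : p = p.1 • ((1 : ℝ), (0 : ℝ)) + p.2 • ((0 : ℝ), (1 : ℝ)) := by
      ext <;> simp
    conv_lhs => rw [this]
    rw [map_add, map_smul, map_smul]
    simp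
  have e1 : ((L.comp (s7sRotL c s)).comp (.inl ℝ ℝ ℝ)) 1 = c * L (1, 0) + s * L (0, 1) := by
    simp only [ContinuousLinearMap.comp_apply, ContinuousLinearMap.inl_apply, s7sRotL_apply]
    rw [hL]
    simp
  have e2 : ((L.comp (s7sRotL c s)).comp (.inr ℝ ℝ ℝ)) 1 = s * L (1, 0) - c * L (0, 1) := by
    simp only [ContinuousLinearMap.comp_apply, ContinuousLinearMap.inr_apply, s7sRotL_apply]
    rw [hL]
    simp
    ring
  have e3 : (L.comp (.inl ℝ ℝ ℝ)) 1 = L (1, 0) := by simp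
  have e4 : (L.comp (.inr ℝ ℝ ℝ)) 1 = L (0, 1) := by simp
  rw [e1, e2, e3, e4]
  congr 1
  have : (c * L (1, 0) + s * L (0, 1)) ^ 2 + (s * L (1, 0) - c * L (0, 1)) ^ 2
      = L (1, 0) ^ 2 + L (0, 1) ^ 2 := by
    have : (c * L (1, 0) + s * L (0, 1)) ^ 2 + (s * L (1, 0) - c * L (0, 1)) ^ 2
      = (c ^ 2 + s ^ 2) * (L (1, 0) ^ 2 + L (0, 1) ^ 2) := by ring
    rw [this, h, one_mul]
  have h2 := congrArg (fun r : ℝ => -((r : ℝ) : ℂ) / 2) this
  push_cast at h2 ⊢
  linear_combination h2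

/-- the reflection as a measurable equivalence -/
noncomputable def s7sRotE (c s : ℝ) (h : c ^ 2 + s ^ 2 = 1) : ℝ × ℝ ≃ᵐ ℝ × ℝ where
  toFun p := (c * p.1 + s * p.2, s * p.1 - c * p.2)
  invFun p := (c * p.1 + s * p.2, s * p.1 - c * p.2)
  left_inv p := by
    ext
    · simp only
      linear_combination p.1 * h
    · simp only
      linear_combination p.2 * h
  right_inv p := by
    ext
    · simp only
      linear_combination p.1 * h
    · simp only
      linear_combination p.2 * h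
  measurable_toFun := by
    change Measurable (fun p : ℝ × ℝ => (c * p.1 + s * p.2, s * p.1 - c * p.2))
    fun_prop
  measurable_invFun := by
    change Measurable (fun p : ℝ × ℝ => (c * p.1 + s * p.2, s * p.1 - c * p.2))
    fun_prop

/-- generates the equation lemmas of the definitions above in this file (rule 6: unique names) -/
theorem s7scgauss_eqns_cite : True := by
  have := @s7sRotL.eq_1
  have := @s7sRotE.eq_1
  trivial

/-- L-s7s-gauss (2).  Integral form (no measurability needed: the reflection is an involution). -/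
theorem s7s_rot_integral (c s : ℝ) (h : c ^ 2 + s ^ 2 = 1) (F : ℝ × ℝ → ℝ) :
    ∫ p : ℝ × ℝ, F (c * p.1 + s * p.2, s * p.1 - c * p.2)
        ∂((gaussianReal 0 1).prod (gaussianReal 0 1))
      = ∫ p, F p ∂((gaussianReal 0 1).prod (gaussianReal 0 1)) := by
  have hmp : MeasurePreserving (s7sRotE c s h) ((gaussianReal 0 1).prod (gaussianReal 0 1))
      ((gaussianReal 0 1).prod (gaussianReal 0 1)) :=
    ⟨(s7sRotE c s h).measurable, s7s_rot_map c s h⟩
  exact hmp.integral_comp' F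

/-- integrability is invariant under the reflection -/
theorem s7s_rot_integrable (c s : ℝ) (h : c ^ 2 + s ^ 2 = 1) (F : ℝ × ℝ → ℝ) :
    Integrable (fun p : ℝ × ℝ => F (c * p.1 + s * p.2, s * p.1 - c * p.2))
        ((gaussianReal 0 1).prod (gaussianReal 0 1))
      ↔ Integrable F ((gaussianReal 0 1).prod (gaussianReal 0 1)) := by
  have hmp : MeasurePreserving (s7sRotE c s h) ((gaussianReal 0 1).prod (gaussianReal 0 1))
      ((gaussianReal 0 1).prod (gaussianReal 0 1)) :=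
    ⟨(s7sRotE c s h).measurable, s7s_rot_map c s h⟩
  exact hmp.integrable_comp_emb (s7sRotE c s h).measurableEmbedding

/-! ### Moments -/

theorem s7s_integrable_sq : Integrable (fun g : ℝ => g ^ 2) (gaussianReal 0 1) :=
  (memLp_id_gaussianReal 2).integrable_sq

/-- L-s7s-gauss (7).  Moments. -/
theorem s7s_int_sq : ∫ g, g ^ 2 ∂(gaussianReal 0 1) = 1 := by
  have h := variance_id_gaussianReal (μ := 0) (v := 1)
  rw [variance_eq_sub (memLp_id_gaussianReal 2)] at h
  simpa using h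

theorem s7s_integrable_abs : Integrable (fun g : ℝ => |g|) (gaussianReal 0 1) :=
  ((memLp_id_gaussianReal 1).integrable le_rfl).abs

theorem s7s_integrable_id : Integrable (fun g : ℝ => g) (gaussianReal 0 1) :=
  (memLp_id_gaussianReal 1).integrable le_rfl

theorem s7s_int_abs_le : ∫ g, |g| ∂(gaussianReal 0 1) ≤ 1 := by
  have h1 : ∫ g, |g| ∂(gaussianReal 0 1) ≤ ∫ g, (1 + g ^ 2) / 2 ∂(gaussianReal 0 1) := by
    apply integral_mono s7s_integrable_abs (((integrable_const 1).add s7s_integrable_sq).div_const 2)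
    intro g
    simp only [Pi.add_apply]
    nlinarith [sq_nonneg (|g| - 1), sq_abs g]
  rw [integral_div, integral_add (integrable_const 1) s7s_integrable_sq, s7s_int_sq] at h1
  simpa using h1

/-! ### Stein's identity -/

/-- a function with bounded derivative is Lipschitz -/
theorem s7s_lip_of_deriv (F F' : ℝ → ℝ) (hF : ∀ y, HasDerivAt F (F' y) y)
    (C : ℝ) (hb : ∀ y, |F' y| ≤ C) (x y : ℝ) : |F y - F x| ≤ C * |y - x| := by
  have := Convex.norm_image_sub_le_of_norm_hasDerivWithin_le (f := F) (f' := F') (s := Set.univ)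
    (C := C) (fun x _ => (hF x).hasDerivWithinAt) (fun x _ => by simpa using hb x) convex_univ
    (Set.mem_univ x) (Set.mem_univ y)
  simpa using this

/-- L-s7s-gauss (3).  Stein's identity. -/
theorem s7s_stein (F F' : ℝ → ℝ) (hF : ∀ y, HasDerivAt F (F' y) y) (hc : Continuous F')
    (C : ℝ) (hb : ∀ y, |F' y| ≤ C) :
    ∫ y, y * F y ∂(gaussianReal 0 1) = ∫ y, F' y ∂(gaussianReal 0 1) := by
  have hFc : Continuous F := continuous_iff_continuousAt.2 fun n => (hF n).continuousAt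
  have hgrow : ∀ y, |F y| ≤ |F 0| + C * |y| := by
    intro y
    have h1 := s7s_lip_of_deriv F F' hF C hb 0 y
    rw [sub_zero] at h1
    have h2 : |F y| ≤ |F y - F 0| + |F 0| := by
      have := abs_add_le (F y - F 0) (F 0)
      simpa using this
    linarith
  have hC : 0 ≤ C := (abs_nonneg _).trans (hb 0)
  have i1 : Integrable F' ghG1 := by
    refine (integrable_const C).mono' hc.aestronglyMeasurable (Filter.Eventually.of_forall ?_)
    intro y; simpa using hb y
  have i2 : Integrable F ghG1 := by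
    refine ((integrable_const |F 0|).add (s7s_integrable_abs.const_mul C)).mono'
      hFc.aestronglyMeasurable (Filter.Eventually.of_forall ?_)
    intro y; simpa using hgrow y
  have i3 : Integrable (fun y => y * F y) ghG1 := by
    refine ((s7s_integrable_abs.const_mul |F 0|).add (s7s_integrable_sq.const_mul C)).mono'
      (by fun_prop) (Filter.Eventually.of_forall ?_)
    intro y
    simp only [Real.norm_eq_abs, abs_mul, Pi.add_apply]
    have := mul_le_mul_of_nonneg_left (hgrow y) (abs_nonneg y)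
    nlinarith [sq_abs y]
  change ∫ y, y * F y ∂ghG1 = ∫ y, F' y ∂ghG1
  rw [gh_integral_eq, gh_integral_eq]
  have key := integral_mul_deriv_eq_deriv_mul_of_integrable
    (u := gaussianPDFReal 0 1) (v := F)
    (u' := fun x => -x * gaussianPDFReal 0 1 x) (v' := F')
    (fun x _ => gh_hasDerivAt_pdf x) (fun x _ => hF x)
    ((gh_integrable_iff _).mp i1)
    (by
      have := ((gh_integrable_iff _).mp i3).neg
      refine this.congr (Filter.Eventually.of_forall fun x => ?_)
      simp; ring)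
    ((gh_integrable_iff _).mp i2)
  rw [key, ← integral_neg]
  congr 1
  ext x
  ring

/-! ### Exponential tilt -/

/-- L-s7s-gauss (4).  Exponential tilt = shift. -/
theorem s7s_tilt (a : ℝ) (f : ℝ → ℝ) :
    ∫ n, f n * Real.exp (a * n - a ^ 2 / 2) ∂(gaussianReal 0 1)
      = ∫ m, f (m + a) ∂(gaussianReal 0 1) := by
  rw [integral_gaussianReal_eq_integral_smul one_ne_zero,
    integral_gaussianReal_eq_integral_smul one_ne_zero]
  rw [← integral_add_right_eq_self (fun n => gaussianPDFReal 0 1 n • (f n * Real.exp (a * n - a ^ 2 / 2))) a]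
  congr 1
  ext m
  simp only [smul_eq_mul, gaussianPDFReal]
  have : Real.exp (-(m + a - 0) ^ 2 / (2 * ((1 : NNReal) : ℝ))) * Real.exp (a * (m + a) - a ^ 2 / 2)
      = Real.exp (-(m - 0) ^ 2 / (2 * ((1 : NNReal) : ℝ))) := by
    rw [← Real.exp_add]
    congr 1
    simp
    ring
  rw [← this]
  ring

/-- `E e^{a n - a²/2} = 1` -/
theorem s7s_int_exp (a : ℝ) :
    ∫ n, Real.exp (a * n - a ^ 2 / 2) ∂(gaussianReal 0 1) = 1 := by
  have := s7s_tilt a (fun _ => 1)
  simpa using this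

theorem s7s_integrable_exp (a b : ℝ) :
    Integrable (fun n : ℝ => Real.exp (a * n - b)) (gaussianReal 0 1) := by
  have := (integrable_exp_mul_gaussianReal (μ := 0) (v := 1) a).mul_const (Real.exp (-b))
  refine this.congr (Filter.Eventually.of_forall fun n => ?_)
  simp only
  rw [← Real.exp_add]
  congr 1

/-! ### Tails -/

/-- L-s7s-gauss (5).  Gaussian tail. -/
theorem s7s_tail (r : ℝ) (hr : 0 ≤ r) :
    (gaussianReal 0 1).real {g : ℝ | r ≤ |g|} ≤ 2 * Real.exp (-r ^ 2 / 2) := by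
  have h1 : (gaussianReal 0 1).real {g : ℝ | r ≤ id g} ≤ Real.exp (-r ^ 2 / 2) := by
    have := measure_ge_le_exp_mul_mgf (μ := gaussianReal 0 1) (X := id) r hr
      (integrable_exp_mul_gaussianReal (μ := 0) (v := 1) r)
    rw [mgf_id_gaussianReal, ← Real.exp_add] at this
    refine this.trans (le_of_eq ?_)
    congr 1
    simp
    ring
  have h2 : (gaussianReal 0 1).real {g : ℝ | id g ≤ -r} ≤ Real.exp (-r ^ 2 / 2) := by
    have := measure_le_le_exp_mul_mgf (μ := gaussianReal 0 1) (X := id) (t := -r) (-r) (by linarith)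
      (integrable_exp_mul_gaussianReal (μ := 0) (v := 1) (-r))
    rw [mgf_id_gaussianReal, ← Real.exp_add] at this
    refine this.trans (le_of_eq ?_)
    congr 1
    simp
    ring
  have h3 : {g : ℝ | r ≤ |g|} ⊆ {g : ℝ | r ≤ id g} ∪ {g : ℝ | id g ≤ -r} := by
    intro g hg
    simp only [Set.mem_ofPred_eq, le_abs] at hg
    rcases hg with hg | hg
    · left; exact hg
    · right; simp only [Set.mem_ofPred_eq, id]; linarith
  calc (gaussianReal 0 1).real {g : ℝ | r ≤ |g|}
      ≤ (gaussianReal 0 1).real ({g : ℝ | r ≤ id g} ∪ {g : ℝ | id g ≤ -r}) :=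
        measureReal_mono h3
    _ ≤ _ := measureReal_union_le _ _
    _ ≤ _ := by linarith

/-- L-s7s-gauss (6).  Chebyshev. -/
theorem s7s_cheb (r : ℝ) (hr : 0 < r) :
    1 - 1 / r ^ 2 ≤ (gaussianReal 0 1).real {g : ℝ | |g| ≤ r} := by
  have hm : MeasurableSet {g : ℝ | |g| ≤ r} := measurableSet_le (by fun_prop) (by fun_prop)
  have h1 : (gaussianReal 0 1).real {g : ℝ | |g| ≤ r}ᶜ ≤ 1 / r ^ 2 := by
    have h2 := mul_meas_ge_le_integral_of_nonneg (μ := gaussianReal 0 1) (f := fun g : ℝ => g ^ 2)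
      (Filter.Eventually.of_forall fun g => sq_nonneg g) s7s_integrable_sq (r ^ 2)
    rw [s7s_int_sq] at h2
    have h3 : {g : ℝ | |g| ≤ r}ᶜ ⊆ {g : ℝ | r ^ 2 ≤ g ^ 2} := by
      intro g hg
      simp only [Set.mem_compl_iff, Set.mem_ofPred_eq, not_le] at hg ⊢
      rw [← sq_abs g]
      exact pow_le_pow_left₀ hr.le hg.le 2
    have h4 := measureReal_mono (μ := gaussianReal 0 1) h3
    rw [le_div_iff₀ (by positivity)]
    calc _ ≤ (gaussianReal 0 1).real {g : ℝ | r ^ 2 ≤ g ^ 2} * r ^ 2 :=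
          mul_le_mul_of_nonneg_right h4 (by positivity)
      _ ≤ 1 := by rw [mul_comm]; exact h2
  rw [probReal_compl_eq_one_sub hm] at h1
  linarith

end Claimed.Agent.R259
end

/- ===== packed: Claimed.Agent.R259.S7ScShell ===== -/
section
/-
Row 259 (S0499), package BP-S7-SCALAR: the shells and their probabilities.
-/
set_option autoImplicit false

open MeasureTheory ProbabilityTheory
open scoped BigOperators

namespace Claimed.Agent.R259

/-- L-s7s-shell (1) -/
theorem s7s_sh_meas (J j : ℕ) : MeasurableSet (s7sSh J j) := by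
  have hsq : Measurable fun b : ℝ => b ^ 2 := by fun_prop
  unfold s7sSh
  split_ifs
  · exact (measurableSet_le measurable_const hsq).inter (measurableSet_lt hsq measurable_const)
  · exact measurableSet_le measurable_const hsq

theorem s7sh_mem_lt {J j : ℕ} (hj : j < J) (b : ℝ) :
    b ∈ s7sSh J j ↔ (j : ℝ) ≤ b ^ 2 ∧ b ^ 2 < (j : ℝ) + 1 := by
  unfold s7sSh
  rw [if_pos hj]
  rfl

theorem s7sh_mem_top (J : ℕ) (b : ℝ) : b ∈ s7sSh J J ↔ (J : ℝ) ≤ b ^ 2 := by
  unfold s7sSh
  rw [if_neg (lt_irrefl J)]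
  rfl

/-- L-s7s-shell (2) -/
theorem s7s_sh_disj (J i j : ℕ) (hi : i ≤ J) (hj : j ≤ J) (hij : i ≠ j) :
    Disjoint (s7sSh J i) (s7sSh J j) := by
  rw [Set.disjoint_left]
  intro b hbi hbj
  rcases hi.lt_or_eq with hi' | rfl
  · rw [s7sh_mem_lt hi'] at hbi
    rcases hj.lt_or_eq with hj' | rfl
    · rw [s7sh_mem_lt hj'] at hbj
      have h1 : (i : ℝ) < (j : ℝ) + 1 := lt_of_le_of_lt hbi.1 hbj.2
      have h2 : (j : ℝ) < (i : ℝ) + 1 := lt_of_le_of_lt hbj.1 hbi.2
      have h1' : i < j + 1 := by exact_mod_cast h1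
      have h2' : j < i + 1 := by exact_mod_cast h2
      omega
    · rw [s7sh_mem_top] at hbj
      have h1 : (j : ℝ) < (i : ℝ) + 1 := lt_of_le_of_lt hbj hbi.2
      have h1' : j < i + 1 := by exact_mod_cast h1
      omega
  · rw [s7sh_mem_top] at hbi
    have hj' : j < i := lt_of_le_of_ne hj (Ne.symm hij)
    rw [s7sh_mem_lt hj'] at hbj
    have h1 : (i : ℝ) < (j : ℝ) + 1 := lt_of_le_of_lt hbi hbj.2
    have h1' : i < j + 1 := by exact_mod_cast h1
    omega

/-- L-s7s-shell (3) -/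
theorem s7s_sh_union (J k : ℕ) (hk : k ≤ J) :
    (⋃ j ∈ Finset.Icc k J, s7sSh J j) = {b : ℝ | (k : ℝ) ≤ b ^ 2} := by
  ext b
  simp only [Set.mem_iUnion, Finset.mem_Icc, exists_prop, Set.mem_ofPred_eq]
  constructor
  · rintro ⟨j, ⟨hkj, hjJ⟩, hb⟩
    have hkj' : (k : ℝ) ≤ j := by exact_mod_cast hkj
    rcases hjJ.lt_or_eq with hj' | rfl
    · rw [s7sh_mem_lt hj'] at hb
      linarith [hb.1]
    · rw [s7sh_mem_top] at hb
      linarith
  · intro hb
    have hb0 : 0 ≤ b ^ 2 := sq_nonneg b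
    by_cases hm : ⌊b ^ 2⌋₊ < J
    · refine ⟨⌊b ^ 2⌋₊, ⟨Nat.le_floor hb, hm.le⟩, ?_⟩
      rw [s7sh_mem_lt hm]
      exact ⟨Nat.floor_le hb0, Nat.lt_floor_add_one _⟩
    · refine ⟨J, ⟨hk, le_rfl⟩, ?_⟩
      rw [s7sh_mem_top]
      have h1 : (J : ℝ) ≤ (⌊b ^ 2⌋₊ : ℝ) := by exact_mod_cast not_lt.1 hm
      exact h1.trans (Nat.floor_le hb0)

/-- L-s7s-shell (4): telescoping -/
theorem s7s_lam_tail (t : ℝ) (J k : ℕ) (hk : k ≤ J) (τ : ℝ) :
    ∑ j ∈ Finset.Icc k J, s7sLam t J j τ
      = (gaussianReal 0 1).real {g : ℝ | (k : ℝ) ≤ (s7sSig t τ * g) ^ 2} := by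
  have hmul : Measurable fun g : ℝ => s7sSig t τ * g := measurable_const.mul measurable_id
  have e1 : {g : ℝ | (k : ℝ) ≤ (s7sSig t τ * g) ^ 2} =
      ⋃ j ∈ Finset.Icc k J, {g : ℝ | s7sSig t τ * g ∈ s7sSh J j} := by
    ext g
    have := Set.ext_iff.1 (s7s_sh_union J k hk) (s7sSig t τ * g)
    simp only [Set.mem_iUnion, Set.mem_ofPred_eq] at this ⊢
    exact this.symm
  rw [e1, measureReal_biUnion_finset]
  · rfl
  · intro i hi j hj hij
    have hi' := (Finset.mem_Icc.1 (Finset.mem_coe.1 hi)).2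
    have hj' := (Finset.mem_Icc.1 (Finset.mem_coe.1 hj)).2
    exact (s7s_sh_disj J i j hi' hj' hij).preimage _
  · intro j _
    exact hmul (s7s_sh_meas J j)

/-! ### the Gaussian distribution function -/

theorem s7sh_pdf_continuous : Continuous (gaussianPDFReal 0 1) := by
  rw [gaussianPDFReal_def]
  fun_prop

theorem s7sh_pdf_even (x : ℝ) : gaussianPDFReal 0 1 (-x) = gaussianPDFReal 0 1 x := by
  simp [gaussianPDFReal_def]

theorem s7sh_pdf_le_one (x : ℝ) : gaussianPDFReal 0 1 x ≤ 1 := by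
  rw [gaussianPDFReal_def]
  have h1 : Real.exp (-(x - 0) ^ 2 / (2 * ((1 : NNReal) : ℝ))) ≤ 1 := by
    rw [Real.exp_le_one_iff]
    have : 0 ≤ (x - 0) ^ 2 := sq_nonneg _
    simp only [NNReal.coe_one, mul_one]
    linarith
  have h2 : (Real.sqrt (2 * Real.pi * ((1 : NNReal) : ℝ)))⁻¹ ≤ 1 := by
    apply inv_le_one_of_one_le₀
    rw [Real.one_le_sqrt]
    simp only [NNReal.coe_one, mul_one]
    linarith [Real.pi_gt_three]
  have h3 : 0 ≤ (Real.sqrt (2 * Real.pi * ((1 : NNReal) : ℝ)))⁻¹ := by positivity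
  calc _ ≤ (1 : ℝ) * 1 := mul_le_mul h2 h1 (Real.exp_pos _).le zero_le_one
    _ = 1 := one_mul 1

theorem s7sh_pdf_anti {x R : ℝ} (h : |x| ≤ R) : gaussianPDFReal 0 1 R ≤ gaussianPDFReal 0 1 x := by
  rw [gaussianPDFReal_def]
  apply mul_le_mul_of_nonneg_left _ (by positivity)
  rw [Real.exp_le_exp]
  have h1 : x ^ 2 ≤ R ^ 2 := sq_le_sq' (by linarith [neg_abs_le x]) ((le_abs_self x).trans h)
  simp only [sub_zero, NNReal.coe_one, mul_one]
  linarith

/-- `F(r) = ∫_0^r pdf` -/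
noncomputable def s7shF (r : ℝ) : ℝ := ∫ x in (0 : ℝ)..r, gaussianPDFReal 0 1 x

theorem s7shF_hasDerivAt (r : ℝ) : HasDerivAt s7shF (gaussianPDFReal 0 1 r) r :=
  (s7sh_pdf_continuous.integral_hasStrictDerivAt 0 r).hasDerivAt

theorem s7sh_abs_lt (r : ℝ) (hr : 0 ≤ r) :
    (gaussianReal 0 1).real {g : ℝ | |g| < r} = 2 * s7shF r := by
  have e1 : {g : ℝ | |g| < r} = Set.Ioo (-r) r := by
    ext g
    simp [abs_lt]
  have hint : ∀ a b : ℝ, IntervalIntegrable (gaussianPDFReal 0 1) volume a b := fun a b =>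
    s7sh_pdf_continuous.intervalIntegrable a b
  rw [e1, Measure.real, gaussianReal_apply_eq_integral 0 one_ne_zero,
    ENNReal.toReal_ofReal (setIntegral_nonneg measurableSet_Ioo fun x _ => gaussianPDFReal_nonneg _ _ _),
    ← integral_Ioc_eq_integral_Ioo, ← intervalIntegral.integral_of_le (by linarith),
    ← intervalIntegral.integral_add_adjacent_intervals (hint (-r) 0) (hint 0 r)]
  have e2 : ∫ x in (-r)..0, gaussianPDFReal 0 1 x = ∫ x in (0 : ℝ)..r, gaussianPDFReal 0 1 x := by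
    have := intervalIntegral.integral_comp_neg (a := 0) (b := r) (gaussianPDFReal 0 1)
    simp only [s7sh_pdf_even, neg_zero] at this
    exact this.symm
  rw [e2]
  unfold s7shF
  ring

theorem s7sh_meas_abs_lt (r : ℝ) : MeasurableSet {g : ℝ | |g| < r} :=
  measurableSet_lt (by fun_prop) measurable_const

theorem s7sh_abs_ge (r : ℝ) (hr : 0 ≤ r) :
    (gaussianReal 0 1).real {g : ℝ | r ≤ |g|} = 1 - 2 * s7shF r := by
  have e1 : {g : ℝ | r ≤ |g|} = {g : ℝ | |g| < r}ᶜ := by
    ext g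
    simp
  rw [e1, probReal_compl_eq_one_sub (s7sh_meas_abs_lt r), s7sh_abs_lt r hr]

theorem s7sh_abs_between (r1 r2 : ℝ) (h1 : 0 ≤ r1) (h12 : r1 ≤ r2) :
    (gaussianReal 0 1).real {g : ℝ | r1 ≤ |g| ∧ |g| < r2} = 2 * s7shF r2 - 2 * s7shF r1 := by
  have e1 : {g : ℝ | r1 ≤ |g| ∧ |g| < r2} = {g : ℝ | |g| < r2} \ {g : ℝ | |g| < r1} := by
    ext g
    simp only [Set.mem_ofPred_eq, Set.mem_sdiff, not_lt]
    tauto
  have hsub : {g : ℝ | |g| < r1} ⊆ {g : ℝ | |g| < r2} := fun g hg => lt_of_lt_of_le hg h12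
  rw [e1, measureReal_sdiff hsub (s7sh_meas_abs_lt r1), s7sh_abs_lt r2 (h1.trans h12),
    s7sh_abs_lt r1 h1]

/-- lower bound for the increments of `F` -/
theorem s7shF_sub_ge {r1 r2 R : ℝ} (h1 : 0 ≤ r1) (h12 : r1 ≤ r2) (h2 : r2 ≤ R) :
    gaussianPDFReal 0 1 R * (r2 - r1) ≤ s7shF r2 - s7shF r1 := by
  have hd : Differentiable ℝ s7shF := fun r => (s7shF_hasDerivAt r).differentiableAt
  refine Convex.mul_sub_le_image_sub_of_le_deriv (convex_Icc r1 r2) hd.continuous.continuousOn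
    hd.differentiableOn (fun x hx => ?_) r1 (Set.left_mem_Icc.2 h12) r2 (Set.right_mem_Icc.2 h12) h12
  rw [(s7shF_hasDerivAt x).deriv]
  rw [interior_Icc] at hx
  apply s7sh_pdf_anti
  rw [abs_of_nonneg (by linarith [hx.1])]
  linarith [hx.2]

/-! ### the standard deviation `σ(τ)` -/

/-- `w'(τ) = e^τ/(1+e^τ/t)²` -/
noncomputable def s7shW' (t τ : ℝ) : ℝ := Real.exp τ / (1 + Real.exp τ / t) ^ 2

theorem s7sh_den_pos {t : ℝ} (ht : 0 < t) (τ : ℝ) : 0 < 1 + Real.exp τ / t := by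
  have := Real.exp_pos τ
  positivity

theorem s7sh_w_ge {t : ℝ} (ht : 0 < t) (τ : ℝ) : 1 ≤ 1 + fL t (Real.exp τ) := by
  have h1 := s7sh_den_pos ht τ
  have h2 : 0 ≤ fL t (Real.exp τ) := by
    unfold fL
    exact div_nonneg (Real.exp_pos τ).le h1.le
  linarith

theorem s7sh_w_le {t : ℝ} (ht : 0 < t) (τ : ℝ) : 1 + fL t (Real.exp τ) ≤ 1 + t := by
  have h1 := s7sh_den_pos ht τ
  have h2 : fL t (Real.exp τ) ≤ t := by
    unfold fL
    rw [div_le_iff₀ h1]
    have : t * (1 + Real.exp τ / t) = t + Real.exp τ := by field_simp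
    rw [this]
    linarith
  linarith

theorem s7sh_sig_ge {t : ℝ} (ht : 0 < t) (τ : ℝ) : 1 ≤ s7sSig t τ := by
  unfold s7sSig
  rw [Real.one_le_sqrt]
  exact s7sh_w_ge ht τ

theorem s7sh_sig_le {t : ℝ} (ht : 0 < t) (τ : ℝ) : s7sSig t τ ≤ Real.sqrt (1 + t) :=
  Real.sqrt_le_sqrt (s7sh_w_le ht τ)

theorem s7sh_W'_nonneg {t : ℝ} (τ : ℝ) : 0 ≤ s7shW' t τ := by
  unfold s7shW'
  have := Real.exp_pos τ
  positivity

theorem s7sh_W'_le {t : ℝ} (ht : 0 < t) (τ : ℝ) : s7shW' t τ ≤ t := by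
  have h1 := s7sh_den_pos ht τ
  have he := Real.exp_pos τ
  unfold s7shW'
  rw [div_le_iff₀ (by positivity)]
  have : t * (1 + Real.exp τ / t) ^ 2 = t + 2 * Real.exp τ + Real.exp τ ^ 2 / t := by
    field_simp
    ring
  rw [this]
  have : 0 ≤ Real.exp τ ^ 2 / t := by positivity
  linarith

theorem s7sh_W'_continuous {t : ℝ} (ht : 0 < t) : Continuous (s7shW' t) := by
  unfold s7shW'
  refine Real.continuous_exp.div (by fun_prop) fun τ => ?_
  have := s7sh_den_pos ht τ
  positivity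

theorem s7sh_sig_hasDerivAt {t : ℝ} (ht : 0 < t) (τ : ℝ) :
    HasDerivAt (s7sSig t) (s7shW' t τ / (2 * s7sSig t τ)) τ := by
  have hd := s7sh_den_pos ht τ
  have h1 : HasDerivAt (fun τ => Real.exp τ) (Real.exp τ) τ := Real.hasDerivAt_exp τ
  have h2 : HasDerivAt (fun τ => 1 + Real.exp τ / t) (Real.exp τ / t) τ :=
    (h1.div_const t).const_add 1
  have h3 := h1.div h2 hd.ne'
  have e1 : (Real.exp τ * (1 + Real.exp τ / t) - Real.exp τ * (Real.exp τ / t))
      / (1 + Real.exp τ / t) ^ 2 = s7shW' t τ := by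
    unfold s7shW'
    congr 1
    ring
  rw [e1] at h3
  have h4 : HasDerivAt (fun τ => 1 + fL t (Real.exp τ)) (s7shW' t τ) τ := h3.const_add 1
  exact h4.sqrt (by have := s7sh_w_ge ht τ; linarith)

theorem s7sh_sig_continuous {t : ℝ} (ht : 0 < t) : Continuous (s7sSig t) :=
  continuous_iff_continuousAt.2 fun τ => (s7sh_sig_hasDerivAt ht τ).continuousAt

/-- `ρ_c(τ) = √c/σ(τ)` -/
noncomputable def s7shRho (t c τ : ℝ) : ℝ := Real.sqrt c / s7sSig t τ

/-- the derivative of `ρ_c` -/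
noncomputable def s7shRho' (t c τ : ℝ) : ℝ :=
  -(Real.sqrt c * (s7shW' t τ / (2 * s7sSig t τ))) / s7sSig t τ ^ 2

theorem s7sh_rho_hasDerivAt {t : ℝ} (ht : 0 < t) (c τ : ℝ) :
    HasDerivAt (s7shRho t c) (s7shRho' t c τ) τ := by
  have hσ := s7sh_sig_ge ht τ
  have h1 := (hasDerivAt_const τ (Real.sqrt c)).div (s7sh_sig_hasDerivAt ht τ) (by linarith)
  have e1 : (0 * s7sSig t τ - Real.sqrt c * (s7shW' t τ / (2 * s7sSig t τ))) / s7sSig t τ ^ 2 =
      s7shRho' t c τ := by
    unfold s7shRho'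
    congr 1
    ring
  rw [e1] at h1
  exact h1

theorem s7sh_rho_continuous {t : ℝ} (ht : 0 < t) (c : ℝ) : Continuous (s7shRho t c) :=
  continuous_iff_continuousAt.2 fun τ => (s7sh_rho_hasDerivAt ht c τ).continuousAt

theorem s7sh_rho'_continuous {t : ℝ} (ht : 0 < t) (c : ℝ) : Continuous (s7shRho' t c) := by
  have h1 := s7sh_sig_continuous ht
  have h2 := s7sh_W'_continuous ht
  have hpos : ∀ τ, 0 < s7sSig t τ := fun τ => lt_of_lt_of_le one_pos (s7sh_sig_ge ht τ)
  unfold s7shRho'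
  refine Continuous.div ?_ (h1.pow 2) fun τ => (pow_pos (hpos τ) 2).ne'
  refine (continuous_const.mul (h2.div (continuous_const.mul h1) fun τ => ?_)).neg
  exact (mul_pos two_pos (hpos τ)).ne'

theorem s7sh_rho'_abs_le {t : ℝ} (ht : 0 < t) (c τ : ℝ) : |s7shRho' t c τ| ≤ Real.sqrt c * t := by
  have hσ := s7sh_sig_ge ht τ
  have hσ0 : 0 < s7sSig t τ := by linarith
  have h1 := s7sh_W'_nonneg (t := t) τ
  have h2 := s7sh_W'_le ht τ
  have hc := Real.sqrt_nonneg c
  unfold s7shRho'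
  rw [abs_div, abs_neg, abs_of_nonneg (by positivity), abs_of_nonneg (by positivity),
    div_le_iff₀ (by positivity)]
  have h3 : s7shW' t τ / (2 * s7sSig t τ) ≤ t := by
    rw [div_le_iff₀ (by positivity)]
    nlinarith
  have h4 : (1 : ℝ) ≤ s7sSig t τ ^ 2 := by nlinarith
  calc Real.sqrt c * (s7shW' t τ / (2 * s7sSig t τ)) ≤ Real.sqrt c * t :=
        mul_le_mul_of_nonneg_left h3 hc
    _ = Real.sqrt c * t * 1 := (mul_one _).symm
    _ ≤ Real.sqrt c * t * s7sSig t τ ^ 2 := mul_le_mul_of_nonneg_left h4 (by positivity)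

theorem s7sh_rho_nonneg {t : ℝ} (ht : 0 < t) (c τ : ℝ) : 0 ≤ s7shRho t c τ := by
  have hσ := s7sh_sig_ge ht τ
  unfold s7shRho
  have := Real.sqrt_nonneg c
  positivity

theorem s7sh_rho_le {t : ℝ} (ht : 0 < t) (c τ : ℝ) : s7shRho t c τ ≤ Real.sqrt c := by
  unfold s7shRho
  exact div_le_self (Real.sqrt_nonneg c) (s7sh_sig_ge ht τ)

/-- `τ ↦ F(ρ_c(τ))` -/
theorem s7sh_Frho_hasDerivAt {t : ℝ} (ht : 0 < t) (c τ : ℝ) :
    HasDerivAt (fun τ => s7shF (s7shRho t c τ))
      (gaussianPDFReal 0 1 (s7shRho t c τ) * s7shRho' t c τ) τ :=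
  (s7shF_hasDerivAt (s7shRho t c τ)).comp τ (s7sh_rho_hasDerivAt ht c τ)

theorem s7sh_D_continuous {t : ℝ} (ht : 0 < t) (c : ℝ) :
    Continuous fun τ => gaussianPDFReal 0 1 (s7shRho t c τ) * s7shRho' t c τ :=
  (s7sh_pdf_continuous.comp (s7sh_rho_continuous ht c)).mul (s7sh_rho'_continuous ht c)

theorem s7sh_D_abs_le {t : ℝ} (ht : 0 < t) (c τ : ℝ) :
    |gaussianPDFReal 0 1 (s7shRho t c τ) * s7shRho' t c τ| ≤ Real.sqrt c * t := by
  rw [abs_mul, abs_of_nonneg (gaussianPDFReal_nonneg _ _ _)]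
  calc gaussianPDFReal 0 1 (s7shRho t c τ) * |s7shRho' t c τ| ≤ 1 * (Real.sqrt c * t) :=
        mul_le_mul (s7sh_pdf_le_one _) (s7sh_rho'_abs_le ht c τ) (abs_nonneg _) zero_le_one
    _ = Real.sqrt c * t := one_mul _

/-! ### the shell probabilities in terms of `F` -/

theorem s7sh_set_ge {σ : ℝ} (hσ : 0 < σ) (c : ℝ) :
    {g : ℝ | c ≤ (σ * g) ^ 2} = {g : ℝ | Real.sqrt c / σ ≤ |g|} := by
  ext g
  simp only [Set.mem_ofPred_eq]
  have e1 : (σ * g) ^ 2 = (|g| * σ) ^ 2 := by
    rw [mul_pow, mul_pow, sq_abs]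
    ring
  rw [e1, div_le_iff₀ hσ, Real.sqrt_le_left (by positivity)]

theorem s7sh_set_lt {σ : ℝ} (hσ : 0 < σ) (c : ℝ) :
    {g : ℝ | (σ * g) ^ 2 < c} = {g : ℝ | |g| < Real.sqrt c / σ} := by
  ext g
  simp only [Set.mem_ofPred_eq]
  have e1 : (σ * g) ^ 2 = (|g| * σ) ^ 2 := by
    rw [mul_pow, mul_pow, sq_abs]
    ring
  rw [e1, lt_div_iff₀ hσ, Real.lt_sqrt (by positivity)]

theorem s7sh_lam_top {t : ℝ} (ht : 0 < t) (J : ℕ) (τ : ℝ) :
    s7sLam t J J τ = 1 - 2 * s7shF (s7shRho t J τ) := by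
  have hσ : 0 < s7sSig t τ := lt_of_lt_of_le one_pos (s7sh_sig_ge ht τ)
  have e1 : {g : ℝ | s7sSig t τ * g ∈ s7sSh J J} = {g : ℝ | (J : ℝ) ≤ (s7sSig t τ * g) ^ 2} := by
    ext g
    exact s7sh_mem_top J _
  unfold s7sLam
  rw [e1, s7sh_set_ge hσ]
  exact s7sh_abs_ge _ (s7sh_rho_nonneg ht _ τ)

theorem s7sh_lam_lt {t : ℝ} (ht : 0 < t) {J j : ℕ} (hj : j < J) (τ : ℝ) :
    s7sLam t J j τ = 2 * s7shF (s7shRho t ((j : ℝ) + 1) τ) - 2 * s7shF (s7shRho t j τ) := by
  have hσ : 0 < s7sSig t τ := lt_of_lt_of_le one_pos (s7sh_sig_ge ht τ)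
  have e1 : {g : ℝ | s7sSig t τ * g ∈ s7sSh J j} =
      {g : ℝ | s7shRho t j τ ≤ |g| ∧ |g| < s7shRho t ((j : ℝ) + 1) τ} := by
    ext g
    have h1 := Set.ext_iff.1 (s7sh_set_ge hσ (j : ℝ)) g
    have h2 := Set.ext_iff.1 (s7sh_set_lt hσ ((j : ℝ) + 1)) g
    simp only [Set.mem_ofPred_eq] at h1 h2 ⊢
    rw [s7sh_mem_lt hj, h1, h2]
    rfl
  unfold s7sLam
  rw [e1]
  refine s7sh_abs_between _ _ (s7sh_rho_nonneg ht _ τ) ?_
  unfold s7shRho
  exact div_le_div_of_nonneg_right (Real.sqrt_le_sqrt (by linarith)) hσ.le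

/-! ### niceness -/

theorem s7sh_nice_of {l D : ℝ → ℝ} {a0 C1 : ℝ} (ha : 0 < a0) (hlb : ∀ n, a0 ≤ l n)
    (hub : ∀ n, l n ≤ 1) (hder : ∀ n, HasDerivAt l (D n) n) (hc : Continuous D)
    (hb : ∀ n, |D n| ≤ C1) : S7sNice l (deriv l) a0 C1 := by
  have e : deriv l = D := funext fun n => (hder n).deriv
  rw [e]
  exact ⟨ha, hlb, hub, hder, hc, hb⟩

theorem s7sh_lam_le_one (t : ℝ) (J j : ℕ) (τ : ℝ) : s7sLam t J j τ ≤ 1 := by
  unfold s7sLam
  exact measureReal_le_one

theorem s7sh_sqrt_succ_sub (x : ℝ) (hx : 0 ≤ x) :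
    1 / (2 * Real.sqrt (x + 1)) ≤ Real.sqrt (x + 1) - Real.sqrt x := by
  have h1 : 0 < Real.sqrt (x + 1) := Real.sqrt_pos.2 (by linarith)
  have h2 : 0 ≤ Real.sqrt x := Real.sqrt_nonneg x
  have h3 : Real.sqrt x ≤ Real.sqrt (x + 1) := Real.sqrt_le_sqrt (by linarith)
  have h4 : Real.sqrt (x + 1) ^ 2 = x + 1 := Real.sq_sqrt (by linarith)
  have h5 : Real.sqrt x ^ 2 = x := Real.sq_sqrt hx
  rw [div_le_iff₀ (by positivity)]
  nlinarith

/-- positivity of the Gaussian tail -/
theorem s7sh_tail_pos (r : ℝ) : 0 < (gaussianReal 0 1).real {g : ℝ | r ≤ |g|} := by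
  have hsub : Set.Icc r (r + 1) ⊆ {g : ℝ | r ≤ |g|} := fun g hg => hg.1.trans (le_abs_self g)
  have h1 : (gaussianReal 0 1) (Set.Icc r (r + 1)) ≠ 0 := by
    intro h0
    have h2 := gaussianReal_absolutelyContinuous' 0 one_ne_zero h0
    rw [Real.volume_Icc] at h2
    simp at h2
  have h2 : 0 < (gaussianReal 0 1).real (Set.Icc r (r + 1)) := by
    rw [Measure.real]
    exact ENNReal.toReal_pos h1 (measure_ne_top _ _)
  exact lt_of_lt_of_le h2 (measureReal_mono hsub)

theorem s7sh_lam_top_ge {t : ℝ} (ht : 0 < t) (J : ℕ) (τ : ℝ) :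
    (gaussianReal 0 1).real {g : ℝ | Real.sqrt J ≤ |g|} ≤ s7sLam t J J τ := by
  have hσ : 0 < s7sSig t τ := lt_of_lt_of_le one_pos (s7sh_sig_ge ht τ)
  have e1 : {g : ℝ | s7sSig t τ * g ∈ s7sSh J J} = {g : ℝ | (J : ℝ) ≤ (s7sSig t τ * g) ^ 2} := by
    ext g
    exact s7sh_mem_top J _
  unfold s7sLam
  rw [e1, s7sh_set_ge hσ]
  exact measureReal_mono fun g hg => (s7sh_rho_le ht J τ).trans hg

theorem s7sh_lam_lt_ge {t : ℝ} (ht : 0 < t) {J j : ℕ} (hj : j < J) (τ : ℝ) :
    gaussianPDFReal 0 1 (Real.sqrt ((J : ℝ) + 1)) / (Real.sqrt ((J : ℝ) + 1) * Real.sqrt (1 + t))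
      ≤ s7sLam t J j τ := by
  have hσ1 := s7sh_sig_ge ht τ
  have hσ : 0 < s7sSig t τ := lt_of_lt_of_le one_pos hσ1
  have hσ2 := s7sh_sig_le ht τ
  have hjJ : (j : ℝ) + 1 ≤ (J : ℝ) + 1 := by
    have : (j : ℝ) ≤ J := by exact_mod_cast hj.le
    linarith
  have hj0 : (0 : ℝ) ≤ j := Nat.cast_nonneg j
  set R := Real.sqrt ((J : ℝ) + 1) with hR
  have hRpos : 0 < R := Real.sqrt_pos.2 (by have : (0 : ℝ) ≤ J := Nat.cast_nonneg J; linarith)
  have hT : 0 < Real.sqrt (1 + t) := Real.sqrt_pos.2 (by linarith)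
  have hp : 0 ≤ gaussianPDFReal 0 1 R := gaussianPDFReal_nonneg _ _ _
  have hs1 : Real.sqrt ((j : ℝ) + 1) ≤ R := Real.sqrt_le_sqrt hjJ
  have hs0 : 0 < Real.sqrt ((j : ℝ) + 1) := Real.sqrt_pos.2 (by linarith)
  have h12 : s7shRho t j τ ≤ s7shRho t ((j : ℝ) + 1) τ := by
    unfold s7shRho
    exact div_le_div_of_nonneg_right (Real.sqrt_le_sqrt (by linarith)) hσ.le
  have h2 : s7shRho t ((j : ℝ) + 1) τ ≤ R := (s7sh_rho_le ht _ τ).trans hs1
  have h3 := s7shF_sub_ge (s7sh_rho_nonneg ht j τ) h12 h2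
  have h4 : 1 / (2 * R * Real.sqrt (1 + t)) ≤ s7shRho t ((j : ℝ) + 1) τ - s7shRho t j τ := by
    unfold s7shRho
    rw [← sub_div, le_div_iff₀ hσ]
    have h5 := s7sh_sqrt_succ_sub (j : ℝ) hj0
    have h6 : 1 / (2 * R) ≤ 1 / (2 * Real.sqrt ((j : ℝ) + 1)) :=
      one_div_le_one_div_of_le (by positivity) (by linarith)
    have h7 : 1 / (2 * R * Real.sqrt (1 + t)) * s7sSig t τ ≤ 1 / (2 * R) := by
      rw [div_mul_eq_mul_div, one_mul, div_le_div_iff₀ (by positivity) (by positivity)]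
      nlinarith
    linarith
  rw [s7sh_lam_lt ht hj τ]
  have h8 : gaussianPDFReal 0 1 R / (R * Real.sqrt (1 + t)) =
      2 * (gaussianPDFReal 0 1 R * (1 / (2 * R * Real.sqrt (1 + t)))) := by
    field_simp
  rw [h8]
  have h9 := mul_le_mul_of_nonneg_left h4 hp
  linarith

/-- L-s7s-shell (5).  The shell probabilities are nice functions of `τ`.
PLAN.  `Tl k τ = γ{k ≤ σ(τ)² g²} = G(√k/σ(τ))`, `G(r) = γ{r ≤ |g|} = 1 - 2 ∫_0^r pdf` is `C¹` with
`G' = - 2 pdf`; `σ(τ)² = 1 + f_t(e^τ) ∈ [1, 1+t]`, `d/dτ f_t(e^τ) = e^τ/(1+e^τ/t)² ∈ [0,t]`, continuous;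
`Lam j = Tl j - Tl (j+1)` (`j < J`), `Lam J = Tl J`.  Lower bound: the shell contains an interval of
length `(√(j+1) - √j)/σ ≥ (√(J+1) - √J)/√(1+t)` inside `[0, √(J+1)]` (last shell:
`[√J, √J + 1]`, as `σ ≥ 1`), on which `pdf ≥ pdf (√J + 1)`. -/
theorem s7s_lam_nice (t : ℝ) (ht : 1 ≤ t) (J : ℕ) :
    ∃ a0 C1 : ℝ, ∀ j ≤ J, S7sNice (s7sLam t J j) (deriv (s7sLam t J j)) a0 C1 := by
  have ht0 : 0 < t := by linarith
  have hJ0 : (0 : ℝ) ≤ J := Nat.cast_nonneg J
  set R := Real.sqrt ((J : ℝ) + 1) with hR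
  have hRpos : 0 < R := Real.sqrt_pos.2 (by linarith)
  have hT : 0 < Real.sqrt (1 + t) := Real.sqrt_pos.2 (by linarith)
  have ha1 : 0 < gaussianPDFReal 0 1 R / (R * Real.sqrt (1 + t)) :=
    div_pos (gaussianPDFReal_pos _ _ _ one_ne_zero) (mul_pos hRpos hT)
  have ha2 := s7sh_tail_pos (Real.sqrt J)
  refine ⟨min (gaussianPDFReal 0 1 R / (R * Real.sqrt (1 + t)))
    ((gaussianReal 0 1).real {g : ℝ | Real.sqrt J ≤ |g|}), 4 * (R * t), fun j hj => ?_⟩
  rcases hj.lt_or_eq with hj' | rfl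
  · have hjJ : (j : ℝ) ≤ J := by exact_mod_cast hj
    have hs1 : Real.sqrt ((j : ℝ) + 1) ≤ R := Real.sqrt_le_sqrt (by linarith)
    have hs2 : Real.sqrt (j : ℝ) ≤ R := Real.sqrt_le_sqrt (by linarith)
    refine s7sh_nice_of
      (D := fun τ => 2 * (gaussianPDFReal 0 1 (s7shRho t ((j : ℝ) + 1) τ) * s7shRho' t ((j : ℝ) + 1) τ)
        - 2 * (gaussianPDFReal 0 1 (s7shRho t j τ) * s7shRho' t j τ))
      (lt_min ha1 ha2) (fun τ => (min_le_left _ _).trans (s7sh_lam_lt_ge ht0 hj' τ))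
      (s7sh_lam_le_one t J j) (fun τ => ?_) ?_ (fun τ => ?_)
    · have e : s7sLam t J j = fun τ =>
          2 * s7shF (s7shRho t ((j : ℝ) + 1) τ) - 2 * s7shF (s7shRho t j τ) :=
        funext fun τ => s7sh_lam_lt ht0 hj' τ
      rw [e]
      exact ((s7sh_Frho_hasDerivAt ht0 _ τ).const_mul 2).sub
        ((s7sh_Frho_hasDerivAt ht0 _ τ).const_mul 2)
    · exact (continuous_const.mul (s7sh_D_continuous ht0 _)).sub
        (continuous_const.mul (s7sh_D_continuous ht0 _))
    · have h1 := s7sh_D_abs_le ht0 ((j : ℝ) + 1) τ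
      have h2 := s7sh_D_abs_le ht0 (j : ℝ) τ
      have h3 : Real.sqrt ((j : ℝ) + 1) * t ≤ R * t := mul_le_mul_of_nonneg_right hs1 ht0.le
      have h4 : Real.sqrt (j : ℝ) * t ≤ R * t := mul_le_mul_of_nonneg_right hs2 ht0.le
      rw [abs_le] at h1 h2 ⊢
      constructor <;> linarith [h1.1, h1.2, h2.1, h2.2]
  · have hs2 : Real.sqrt (j : ℝ) ≤ R := Real.sqrt_le_sqrt (by linarith)
    refine s7sh_nice_of
      (D := fun τ => - (2 * (gaussianPDFReal 0 1 (s7shRho t j τ) * s7shRho' t j τ)))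
      (lt_min ha1 ha2) (fun τ => (min_le_right _ _).trans (s7sh_lam_top_ge ht0 j τ))
      (s7sh_lam_le_one t j j) (fun τ => ?_) ?_ (fun τ => ?_)
    · have e : s7sLam t j j = fun τ => 1 - 2 * s7shF (s7shRho t j τ) :=
        funext fun τ => s7sh_lam_top ht0 j τ
      rw [e]
      exact ((s7sh_Frho_hasDerivAt ht0 _ τ).const_mul 2).const_sub 1
    · exact (continuous_const.mul (s7sh_D_continuous ht0 _)).neg
    · have h2 := s7sh_D_abs_le ht0 (j : ℝ) τ
      have h4 : Real.sqrt (j : ℝ) * t ≤ R * t := mul_le_mul_of_nonneg_right hs2 ht0.le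
      have h5 : 0 ≤ R * t := by positivity
      rw [abs_le] at h2 ⊢
      constructor <;> linarith [h2.1, h2.2]

theorem s7sh_eqns_cite : True := by
  have := @s7shF.eq_1
  have := @s7shW'.eq_1
  have := @s7shRho.eq_1
  have := @s7shRho'.eq_1
  trivial

end Claimed.Agent.R259
end

/- ===== packed: Claimed.Agent.R259.S7ScLog ===== -/
section
/-
Row 259 (S0499), package BP-S7-SCALAR: leaf L-s7s-log (`s7s_log_lower` of S7ScEnt.lean).
Blueprint: helper210, proof: helper219.  Fubini + `∫ dx/x = log (t/h0)` + tilt + Chebyshev.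
-/
set_option autoImplicit false

open MeasureTheory ProbabilityTheory
open scoped BigOperators

namespace Claimed.Agent.R259

/-- the good labels `G = {e^{2t} ≤ ℓ ≤ e^{6t}}` -/
def s7slG (t : ℝ) : Set ℝ := {n : ℝ | Real.exp (2 * t) ≤ s7sEll t n ∧ s7sEll t n ≤ Real.exp (6 * t)}

theorem s7sl_ell_pos (t n : ℝ) : 0 < s7sEll t n := Real.exp_pos _

theorem s7sl_ell_continuous (t : ℝ) : Continuous (s7sEll t) := by
  unfold s7sEll
  fun_prop

theorem s7sl_G_meas (t : ℝ) : MeasurableSet (s7slG t) := by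
  have := (s7sl_ell_continuous t).measurable
  exact (measurableSet_le measurable_const this).inter (measurableSet_le this measurable_const)

theorem s7sl_E_meas (t h0 x : ℝ) : MeasurableSet (s7sE t h0 x) := by
  have := (s7sl_ell_continuous t).measurable
  exact (measurableSet_le measurable_const this).inter ((measurableSet_le this measurable_const).inter
    ((measurableSet_le measurable_const (this.const_mul x)).inter
      (measurableSet_le (this.const_mul x) measurable_const)))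

/-- the region of integration in the two descriptions -/
theorem s7sl_mem_iff (h0 t : ℝ) (hh : 0 ≤ h0) (ht : 0 ≤ t) (x n : ℝ) :
    (x ∈ Set.Icc (h0 * Real.exp (-(6 * t))) (t * Real.exp (-(2 * t))) ∧ n ∈ s7sE t h0 x) ↔
      (n ∈ s7slG t ∧ x ∈ Set.Icc (h0 / s7sEll t n) (t / s7sEll t n)) := by
  have hl := s7sl_ell_pos t n
  constructor
  · rintro ⟨-, h1, h2, h3, h4⟩
    refine ⟨⟨h1, h2⟩, ?_, ?_⟩
    · rwa [div_le_iff₀ hl]
    · rwa [le_div_iff₀ hl]
  · rintro ⟨⟨h1, h2⟩, h3, h4⟩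
    refine ⟨⟨?_, ?_⟩, h1, h2, ?_, ?_⟩
    · refine le_trans ?_ h3
      rw [Real.exp_neg, ← div_eq_mul_inv]
      exact div_le_div_of_nonneg_left hh hl h2
    · refine h4.trans ?_
      rw [Real.exp_neg, ← div_eq_mul_inv]
      exact div_le_div_of_nonneg_left ht (Real.exp_pos _) h1
    · rwa [div_le_iff₀ hl] at h3
    · rwa [le_div_iff₀ hl] at h4

/-- the integrand on the product -/
noncomputable def s7slH (h0 t : ℝ) (p : ℝ × ℝ) : ℝ :=
  Set.indicator {p : ℝ × ℝ | p.1 ∈ Set.Icc (h0 * Real.exp (-(6 * t))) (t * Real.exp (-(2 * t))) ∧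
    p.2 ∈ s7sE t h0 p.1} (fun p => s7sEll t p.2 / p.1) p

theorem s7slH_of_mem {h0 t x n : ℝ}
    (h : x ∈ Set.Icc (h0 * Real.exp (-(6 * t))) (t * Real.exp (-(2 * t))) ∧ n ∈ s7sE t h0 x) :
    s7slH h0 t (x, n) = s7sEll t n / x := by
  unfold s7slH
  rw [Set.indicator_of_mem]
  exact h

theorem s7slH_of_not {h0 t x n : ℝ}
    (h : ¬ (x ∈ Set.Icc (h0 * Real.exp (-(6 * t))) (t * Real.exp (-(2 * t))) ∧ n ∈ s7sE t h0 x)) :
    s7slH h0 t (x, n) = 0 := by
  unfold s7slH
  rw [Set.indicator_of_notMem]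
  exact h

theorem s7sl_H_meas (h0 t : ℝ) : Measurable (s7slH h0 t) := by
  have hl : Measurable fun p : ℝ × ℝ => s7sEll t p.2 :=
    (s7sl_ell_continuous t).measurable.comp measurable_snd
  have hx : Measurable fun p : ℝ × ℝ => p.1 := measurable_fst
  unfold s7slH
  refine Measurable.indicator (hl.div hx) ?_
  refine ((measurableSet_le measurable_const hx).inter (measurableSet_le hx measurable_const)).inter ?_
  exact (measurableSet_le measurable_const hl).inter ((measurableSet_le hl measurable_const).inter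
    ((measurableSet_le measurable_const (hx.mul hl)).inter
      (measurableSet_le (hx.mul hl) measurable_const)))

theorem s7sl_H_bound (h0 t : ℝ) (hh : 0 < h0) (p : ℝ × ℝ) :
    ‖s7slH h0 t p‖ ≤ Real.exp (6 * t) / (h0 * Real.exp (-(6 * t))) := by
  unfold s7slH
  by_cases hp : p ∈ {p : ℝ × ℝ | p.1 ∈ Set.Icc (h0 * Real.exp (-(6 * t))) (t * Real.exp (-(2 * t))) ∧
    p.2 ∈ s7sE t h0 p.1}
  · rw [Set.indicator_of_mem hp]
    obtain ⟨⟨h1, -⟩, -, h2, -, -⟩ := hp
    have hx0 : 0 < h0 * Real.exp (-(6 * t)) := by positivity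
    have hx : 0 < p.1 := lt_of_lt_of_le hx0 h1
    rw [Real.norm_eq_abs, abs_of_nonneg (div_nonneg (s7sl_ell_pos t p.2).le hx.le)]
    exact div_le_div₀ (Real.exp_pos _).le h2 hx0 h1
  · rw [Set.indicator_of_notMem hp, norm_zero]
    positivity

theorem s7sl_H_integrable (h0 t : ℝ) (hh : 0 < h0) :
    Integrable (s7slH h0 t) ((volume.restrict
      (Set.Icc (h0 * Real.exp (-(6 * t))) (t * Real.exp (-(2 * t))))).prod (gaussianReal 0 1)) :=
  Integrable.of_bound (s7sl_H_meas h0 t).aestronglyMeasurable _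
    (Filter.Eventually.of_forall (s7sl_H_bound h0 t hh))

/-- the inner integral in `n` -/
theorem s7sl_inner_n (h0 t x : ℝ)
    (hx : x ∈ Set.Icc (h0 * Real.exp (-(6 * t))) (t * Real.exp (-(2 * t)))) (hx0 : 0 < x) :
    ∫ n, s7slH h0 t (x, n) ∂(gaussianReal 0 1) =
      (x * ∫ n in s7sE t h0 x, s7sEll t n ∂(gaussianReal 0 1)) / x ^ 2 := by
  have e1 : ∀ n, s7slH h0 t (x, n) = (s7sE t h0 x).indicator (s7sEll t) n / x := by
    intro n
    by_cases hn : n ∈ s7sE t h0 x
    · rw [s7slH_of_mem ⟨hx, hn⟩, Set.indicator_of_mem hn]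
    · rw [s7slH_of_not (fun h => hn h.2), Set.indicator_of_notMem hn, zero_div]
  simp only [e1]
  rw [integral_div, integral_indicator (s7sl_E_meas t h0 x)]
  field_simp

/-- the inner integral in `x` -/
theorem s7sl_inner_x (h0 t : ℝ) (hh : 0 < h0) (hht : h0 ≤ t) (n : ℝ) :
    ∫ x in Set.Icc (h0 * Real.exp (-(6 * t))) (t * Real.exp (-(2 * t))), s7slH h0 t (x, n) =
      (s7slG t).indicator (fun n => s7sEll t n * Real.log (t / h0)) n := by
  have hl := s7sl_ell_pos t n
  have ht : 0 < t := lt_of_lt_of_le hh hht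
  by_cases hn : n ∈ s7slG t
  · rw [Set.indicator_of_mem hn]
    have e1 : ∀ x, s7slH h0 t (x, n) =
        (Set.Icc (h0 / s7sEll t n) (t / s7sEll t n)).indicator (fun x => s7sEll t n / x) x := by
      intro x
      by_cases hx : x ∈ Set.Icc (h0 / s7sEll t n) (t / s7sEll t n)
      · rw [Set.indicator_of_mem hx, s7slH_of_mem ((s7sl_mem_iff h0 t hh.le ht.le x n).2 ⟨hn, hx⟩)]
      · rw [Set.indicator_of_notMem hx,
          s7slH_of_not (fun h => hx ((s7sl_mem_iff h0 t hh.le ht.le x n).1 h).2)]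
    have hsub : Set.Icc (h0 / s7sEll t n) (t / s7sEll t n) ⊆
        Set.Icc (h0 * Real.exp (-(6 * t))) (t * Real.exp (-(2 * t))) := fun x hx =>
      ((s7sl_mem_iff h0 t hh.le ht.le x n).2 ⟨hn, hx⟩).1
    simp only [e1]
    rw [setIntegral_indicator measurableSet_Icc, Set.inter_eq_right.2 hsub,
      integral_Icc_eq_integral_Ioc, ← intervalIntegral.integral_of_le
        (div_le_div_of_nonneg_right hht hl.le)]
    simp only [div_eq_mul_inv (s7sEll t n)]
    rw [intervalIntegral.integral_const_mul, integral_inv_of_pos (by positivity) (by positivity)]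
    congr 2
    field_simp
  · rw [Set.indicator_of_notMem hn]
    have e1 : ∀ x, s7slH h0 t (x, n) = 0 := by
      intro x
      exact s7slH_of_not (fun h => hn ((s7sl_mem_iff h0 t hh.le ht.le x n).1 h).1)
    simp [e1]

/-- the mass of the good labels under the tilted law -/
theorem s7sl_G_mass (t : ℝ) (ht4 : 4 ≤ t) :
    1 / 2 ≤ ∫ n in s7slG t, s7sEll t n ∂(gaussianReal 0 1) := by
  have ht : 0 < t := by linarith
  set a : ℝ := Real.sqrt (8 * t) with ha
  have ha0 : 0 < a := Real.sqrt_pos.2 (by positivity)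
  have ha2 : a ^ 2 = 8 * t := Real.sq_sqrt (by positivity)
  have e1 : ∫ n in s7slG t, s7sEll t n ∂(gaussianReal 0 1) =
      ∫ n, (s7slG t).indicator (fun _ => (1 : ℝ)) n * Real.exp (a * n - a ^ 2 / 2)
        ∂(gaussianReal 0 1) := by
    rw [← integral_indicator (s7sl_G_meas t)]
    refine integral_congr_ae (Filter.Eventually.of_forall fun n => ?_)
    by_cases hn : n ∈ s7slG t
    · simp only [Set.indicator_of_mem hn, one_mul]
      unfold s7sEll
      rw [ha2]
      congr 1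
      ring
    · simp only [Set.indicator_of_notMem hn, zero_mul]
  rw [e1, s7s_tilt]
  set r : ℝ := Real.sqrt (t / 2) with hr
  have hr0 : 0 < r := Real.sqrt_pos.2 (by positivity)
  have hr2 : r ^ 2 = t / 2 := Real.sq_sqrt (by positivity)
  have har : a * r = 2 * t := by
    have : (a * r) ^ 2 = (2 * t) ^ 2 := by
      rw [mul_pow, ha2, hr2]
      ring
    exact (pow_left_inj₀ (by positivity) (by positivity) two_ne_zero).1 this
  have hm : MeasurableSet {m : ℝ | m + a ∈ s7slG t} :=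
    (measurable_id.add_const a) (s7sl_G_meas t)
  have e2 : ∫ m, (s7slG t).indicator (fun _ => (1 : ℝ)) (m + a) ∂(gaussianReal 0 1) =
      (gaussianReal 0 1).real {m : ℝ | m + a ∈ s7slG t} := by
    have : ∀ m, (s7slG t).indicator (fun _ => (1 : ℝ)) (m + a) =
        {m : ℝ | m + a ∈ s7slG t}.indicator (fun _ => (1 : ℝ)) m := fun m => rfl
    simp only [this]
    rw [integral_indicator hm]
    simp
  rw [e2]
  have hsub : {g : ℝ | |g| ≤ r} ⊆ {m : ℝ | m + a ∈ s7slG t} := by
    intro m hm'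
    have hm'' : |m| ≤ r := hm'
    obtain ⟨h1, h2⟩ := abs_le.1 hm''
    have e3 : s7sEll t (m + a) = Real.exp (a * m + 4 * t) := by
      unfold s7sEll
      congr 1
      have : a * (m + a) = a * m + a ^ 2 := by ring
      rw [← ha, this, ha2]
      ring
    constructor
    · rw [e3, Real.exp_le_exp]
      nlinarith
    · rw [e3, Real.exp_le_exp]
      nlinarith
  have h3 := s7s_cheb r hr0
  have h4 : (gaussianReal 0 1).real {g : ℝ | |g| ≤ r} ≤
      (gaussianReal 0 1).real {m : ℝ | m + a ∈ s7slG t} := measureReal_mono hsub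
  have h5 : 1 / r ^ 2 ≤ 1 / 2 := by
    rw [hr2]
    rw [div_le_div_iff₀ (by positivity) (by norm_num)]
    linarith
  linarith

theorem s7sl_log_lower (h0 t : ℝ) (hh : 1 ≤ h0) (ht4 : 4 ≤ t) (hht : h0 ≤ t) :
    IntegrableOn (fun x => (x * ∫ n in s7sE t h0 x, s7sEll t n ∂(gaussianReal 0 1)) / x ^ 2)
      (Set.Icc (h0 * Real.exp (-(6 * t))) (t * Real.exp (-(2 * t)))) ∧
    1 / 2 * Real.log (t / h0)
      ≤ ∫ x in Set.Icc (h0 * Real.exp (-(6 * t))) (t * Real.exp (-(2 * t))),
          (x * ∫ n in s7sE t h0 x, s7sEll t n ∂(gaussianReal 0 1)) / x ^ 2 := by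
  have hh0 : 0 < h0 := by linarith
  have hint := s7sl_H_integrable h0 t hh0
  have hae : (fun x => ∫ n, s7slH h0 t (x, n) ∂(gaussianReal 0 1)) =ᵐ[volume.restrict
      (Set.Icc (h0 * Real.exp (-(6 * t))) (t * Real.exp (-(2 * t))))]
      fun x => (x * ∫ n in s7sE t h0 x, s7sEll t n ∂(gaussianReal 0 1)) / x ^ 2 := by
    filter_upwards [ae_restrict_mem measurableSet_Icc] with x hx
    exact s7sl_inner_n h0 t x hx (lt_of_lt_of_le (by positivity) hx.1)
  refine ⟨hint.integral_prod_left.congr hae, ?_⟩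
  rw [← integral_congr_ae hae, integral_integral_swap (f := fun x n => s7slH h0 t (x, n)) hint]
  simp only [s7sl_inner_x h0 t hh0 hht]
  rw [integral_indicator (s7sl_G_meas t), integral_mul_const]
  have hlog : 0 ≤ Real.log (t / h0) := Real.log_nonneg (by rwa [le_div_iff₀ hh0, one_mul])
  exact mul_le_mul_of_nonneg_right (s7sl_G_mass t ht4) hlog

/-- generates the equation lemmas of the definitions above in this file (rule 6: unique names) -/
theorem s7sclog_eqns_cite : True := by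
  have := @s7slG.eq_1
  have := @s7slH.eq_1
  trivial

end Claimed.Agent.R259
end
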