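/-
Row 259, kit POS: Osgood's lemma (package L-pos-osgood; Mathlib only, real analysis in one variable).
Owner of the statement: helper204.
-/
import Mathlib

set_option autoImplicit false

open MeasureTheory Filter Topology

namespace Claimed.Agent.R259

/-! ### package POS-OSGOOD -/

/-- OSGOOD'S LEMMA.  Proof: if `M r₂ > 0`, `r₂ < r₁`, let `a = sSup {r ∈ [0,r₂] | M r = 0}`; then
`M a = 0`, `M > 0` on `(a, r₂]`.  There `L = - log M` satisfies `L' ≥ - r (λ L + C)`, so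
`Y = λ L + C` has `(Y e^{λ r²/2})' ≥ 0`, hence `Y ≤ Y(r₂) e^{λ r₂²/2}` on `(a, r₂]`: `M` is bounded
below by a positive constant on `(a, r₂]`, contradicting continuity at `a`. -/
theorem pos_osgood {M : ℝ → ℝ} {r₁ lam C : ℝ} (hr₁ : 0 < r₁) (hlam : 0 < lam)
    (hcont : ContinuousOn M (Set.Icc 0 r₁)) (h0 : M 0 = 0) (hnn : ∀ r ∈ Set.Icc 0 r₁, 0 ≤ M r)
    (hder : ∀ r ∈ Set.Ioo 0 r₁, ∃ M' : ℝ, HasDerivAt M M' r ∧
      M' ≤ r * (lam * Real.negMulLog (M r) + C * M r)) :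
    ∀ r ∈ Set.Icc 0 r₁, M r = 0 := by
  by_contra hne
  push Not at hne
  obtain ⟨r₃, hr₃, hM₃⟩ := hne
  have hM₃pos : 0 < M r₃ := lt_of_le_of_ne (hnn r₃ hr₃) (Ne.symm hM₃)
  -- a point of the open interval where `M` is positive
  obtain ⟨r₂, ⟨hr₂0, hr₂1⟩, hM₂⟩ : ∃ r₂, r₂ ∈ Set.Ioo 0 r₁ ∧ 0 < M r₂ := by
    have h1 : ∀ᶠ x in 𝓝[Set.Icc 0 r₁] r₃, 0 < M x := (hcont r₃ hr₃).eventually (lt_mem_nhds hM₃pos)
    have h2 : ∀ᶠ x in 𝓝[Set.Ioo 0 r₁] r₃, 0 < M x :=
      h1.filter_mono (nhdsWithin_mono _ Set.Ioo_subset_Icc_self)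
    have : (𝓝[Set.Ioo 0 r₁] r₃).NeBot := by
      rw [← mem_closure_iff_nhdsWithin_neBot, closure_Ioo hr₁.ne]
      exact hr₃
    obtain ⟨x, hx1, hx2⟩ := (eventually_mem_nhdsWithin.and h2).exists
    exact ⟨x, hx1, hx2⟩
  -- the last zero before `r₂`
  have hcont2 : ContinuousOn M (Set.Icc 0 r₂) := hcont.mono (Set.Icc_subset_Icc le_rfl hr₂1.le)
  have hSclosed : IsClosed (Set.Icc 0 r₂ ∩ M ⁻¹' {0}) :=
    hcont2.preimage_isClosed_of_isClosed isClosed_Icc isClosed_singleton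
  have hSne : (Set.Icc 0 r₂ ∩ M ⁻¹' {0}).Nonempty := ⟨0, ⟨le_rfl, hr₂0.le⟩, h0⟩
  have hSbdd : BddAbove (Set.Icc 0 r₂ ∩ M ⁻¹' {0}) := ⟨r₂, fun x hx => hx.1.2⟩
  have haS := hSclosed.csSup_mem hSne hSbdd
  set a := sSup (Set.Icc 0 r₂ ∩ M ⁻¹' {0}) with ha
  have ha0 : 0 ≤ a := haS.1.1
  have haM : M a = 0 := haS.2
  have har₂ : a < r₂ := by
    refine lt_of_le_of_ne haS.1.2 ?_
    intro h
    rw [h] at haM
    linarith
  have hpos : ∀ r ∈ Set.Ioc a r₂, 0 < M r := by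
    intro r hr
    have h1 : 0 ≤ M r := hnn r ⟨by linarith [hr.1], by linarith [hr.2]⟩
    rcases h1.lt_or_eq with h | h
    · exact h
    · exfalso
      have h2 : r ∈ Set.Icc 0 r₂ ∩ M ⁻¹' {0} := ⟨⟨by linarith [hr.1], hr.2⟩, h.symm⟩
      have h3 := le_csSup hSbdd h2
      linarith [hr.1]
  -- the monotone quantity
  set G : ℝ → ℝ := fun x => (lam * (-Real.log (M x)) + C) * Real.exp (lam * x ^ 2 / 2) with hG
  have hGd : ∀ x ∈ Set.Ioc a r₂, ∃ G' : ℝ, HasDerivAt G G' x ∧ 0 ≤ G' := by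
    intro x hx
    have hx0 : 0 < x := lt_of_le_of_lt ha0 hx.1
    obtain ⟨M', hM', hle⟩ := hder x ⟨hx0, lt_of_le_of_lt hx.2 hr₂1⟩
    have hMx := hpos x hx
    have d1 : HasDerivAt (fun y => lam * (-Real.log (M y)) + C) (lam * (-(M' / M x))) x :=
      (((hM'.log hMx.ne').neg).const_mul lam).add_const C
    have d2 : HasDerivAt (fun y : ℝ => Real.exp (lam * y ^ 2 / 2))
        (Real.exp (lam * x ^ 2 / 2) * (lam * x)) x := by
      have d3 : HasDerivAt (fun y : ℝ => lam * y ^ 2 / 2) (lam * x) x := by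
        have h := ((hasDerivAt_pow 2 x).const_mul lam).div_const 2
        refine h.congr_deriv ?_
        norm_num
        ring
      exact d3.exp
    refine ⟨_, d1.mul d2, ?_⟩
    have h1 : M' / M x ≤ x * (lam * (-Real.log (M x)) + C) := by
      rw [div_le_iff₀ hMx]
      calc M' ≤ x * (lam * Real.negMulLog (M x) + C * M x) := hle
        _ = x * (lam * (-Real.log (M x)) + C) * M x := by
            unfold Real.negMulLog
            ring
    have h2 : lam * (-(M' / M x)) * Real.exp (lam * x ^ 2 / 2) +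
        (lam * (-Real.log (M x)) + C) * (Real.exp (lam * x ^ 2 / 2) * (lam * x)) =
        Real.exp (lam * x ^ 2 / 2) * (lam * (x * (lam * (-Real.log (M x)) + C) - M' / M x)) := by
      ring
    rw [h2]
    exact mul_nonneg (Real.exp_pos _).le (mul_nonneg hlam.le (by linarith))
  have hmono : ∀ r ∈ Set.Ioc a r₂, G r ≤ G r₂ := by
    intro r hr
    have hsub : Set.Icc r r₂ ⊆ Set.Ioc a r₂ := fun x hx => ⟨lt_of_lt_of_le hr.1 hx.1, hx.2⟩
    have hm : MonotoneOn G (Set.Icc r r₂) := by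
      refine monotoneOn_of_deriv_nonneg (convex_Icc r r₂) ?_ ?_ ?_
      · intro x hx
        obtain ⟨G', hG', _⟩ := hGd x (hsub hx)
        exact hG'.continuousAt.continuousWithinAt
      · intro x hx
        obtain ⟨G', hG', _⟩ := hGd x (hsub (interior_subset hx))
        exact hG'.differentiableAt.differentiableWithinAt
      · intro x hx
        obtain ⟨G', hG', hnn'⟩ := hGd x (hsub (interior_subset hx))
        rw [hG'.deriv]
        exact hnn'
    exact hm ⟨le_rfl, hr.2⟩ ⟨hr.2, le_rfl⟩ hr.2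
  -- lower bound for `M` on `(a, r₂]`
  have hlow : ∀ r ∈ Set.Ioc a r₂, Real.exp (-((|G r₂| - C) / lam)) ≤ M r := by
    intro r hr
    have h1 := hmono r hr
    have h2 : G r₂ ≤ |G r₂| := le_abs_self _
    have hY : lam * (-Real.log (M r)) + C ≤ |G r₂| := by
      rcases le_or_gt (lam * (-Real.log (M r)) + C) 0 with h | h
      · exact h.trans (abs_nonneg _)
      · have h3 : 1 ≤ Real.exp (lam * r ^ 2 / 2) := Real.one_le_exp (by positivity)
        have h4 : lam * (-Real.log (M r)) + C ≤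
            (lam * (-Real.log (M r)) + C) * Real.exp (lam * r ^ 2 / 2) :=
          le_mul_of_one_le_right h.le h3
        have h5 : G r = (lam * (-Real.log (M r)) + C) * Real.exp (lam * r ^ 2 / 2) := rfl
        linarith
    rw [← Real.le_log_iff_exp_le (hpos r hr), neg_le, le_div_iff₀ hlam]
    linarith
  -- contradiction at `a`
  have hsub2 : Set.Ioc a r₂ ⊆ Set.Icc 0 r₂ := fun x hx => ⟨by linarith [hx.1], hx.2⟩
  have ht : Tendsto M (𝓝[Set.Ioc a r₂] a) (𝓝 (M a)) :=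
    (hcont2 a haS.1).mono_left (nhdsWithin_mono _ hsub2)
  have : (𝓝[Set.Ioc a r₂] a).NeBot := by
    rw [← mem_closure_iff_nhdsWithin_neBot, closure_Ioc har₂.ne]
    exact ⟨le_rfl, har₂.le⟩
  have hfin : Real.exp (-((|G r₂| - C) / lam)) ≤ M a :=
    ge_of_tendsto ht (eventually_mem_nhdsWithin.mono hlow)
  rw [haM] at hfin
  exact absurd hfin (not_le.2 (Real.exp_pos _))

end Claimed.Agent.R259
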