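/-
Row 259, kits REG + POS (Lemma 3.4, second half): definitions.
Owner: helper204.

PLAN (no cutoffs of the solution, no Calderon-Zygmund / Schauder / Weyl / Sobolev; uniform in the
dimension, `finrank = 0, 1, 2` included).

* `regR σ = exp (-1/(1-σ))` for `σ < 1`, `0` otherwise.  `regPsi z = Z⁻¹ R(|z|²/2)`,
  `regRho z = - Z⁻¹ R'(|z|²/2)`, `Z` normalises `∫ regRho = 1`.  Both are test functions supported in
  `|z|² ≤ 2`, and `0 ≤ regPsi ≤ regRho` because `-R' = R/(1-σ)² ≥ R` on `[0,1)`.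
* with `κ_s(w) = s⁻ⁿ κ(w/s)` one has `∂_s ρ_s = Δ (s ψ_s)` ("heat equation" with compact supports).
* hence, if `-Δ u = G` in the very weak sense (`RegVW u G`),
  `d/ds (ρ_s * u)(x) = - s (ψ_s * G)(x)` for EVERY `x` and `s > 0`, and letting the lower end tend
  to `0` at Lebesgue points:  `u = ρ_1 * u + T G` a.e., `T G (x) = ∫_0^1 s (ψ_s * G)(x) ds`.
* `T` gains one classical derivative: `D (T G) = T₁ G = ∫_0^1 ((Dψ)_s * G) ds`.
-/
import Claimed.Agent.R259.WS

set_option autoImplicit false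

open MeasureTheory Filter Topology
open scoped ContDiff ENNReal

namespace Claimed.Agent.R259

/-- The radial profile: `exp (-1/(1-σ))` for `σ < 1` and `0` for `σ ≥ 1`. -/
noncomputable def regR (σ : ℝ) : ℝ := expNegInvGlue (1 - σ)

section generic

variable {E : Type} [NormedAddCommGroup E] [InnerProductSpace ℝ E] [FiniteDimensional ℝ E]
  [MeasurableSpace E] [BorelSpace E]

/-- `-R'(|z|²/2)`, not normalised. -/
noncomputable def regRho0 (z : E) : ℝ := - deriv regR (‖z‖ ^ 2 / 2)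

variable (E) in
/-- The normalising constant. -/
noncomputable def regZ : ℝ := ∫ z : E, regRho0 z

/-- The mollifier `ρ`, `∫ ρ = 1`. -/
noncomputable def regRho (z : E) : ℝ := (regZ E)⁻¹ * regRho0 z

/-- The companion kernel `ψ`, `∇ψ(z) = - ρ(z) z`. -/
noncomputable def regPsi (z : E) : ℝ := (regZ E)⁻¹ * regR (‖z‖ ^ 2 / 2)

/-- `κ_s(w) = s⁻ⁿ κ(w/s)`. -/
noncomputable def regScale {V : Type} [NormedAddCommGroup V] [NormedSpace ℝ V]
    (κ : E → V) (s : ℝ) (w : E) : V := (s ^ Module.finrank ℝ E)⁻¹ • κ (s⁻¹ • w)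

/-- `(κ_s * G)(x)` written after the change of variables `y = x - s z` (so that `s = 0` makes
sense). -/
noncomputable def regAvg {V : Type} [NormedAddCommGroup V] [NormedSpace ℝ V]
    (κ : E → V) (G : E → ℝ) (s : ℝ) (x : E) : V := ∫ z, G (x - s • z) • κ z

/-- The local potential `T G (x) = ∫_0^1 s (ψ_s * G)(x) ds`. -/
noncomputable def regT (G : E → ℝ) (x : E) : ℝ :=
  ∫ s in Set.Ioc (0 : ℝ) 1, s * regAvg regPsi G s x

/-- Its derivative `T₁ G (x) = ∫_0^1 ((Dψ)_s * G)(x) ds`. -/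
noncomputable def regT1 (G : E → ℝ) (x : E) : E →L[ℝ] ℝ :=
  ∫ s in Set.Ioc (0 : ℝ) 1, regAvg (fderiv ℝ regPsi) G s x

/-- `-Δ u = G` in the very weak (distributional) sense. -/
def RegVW (u G : E → ℝ) : Prop :=
  LocallyIntegrable u volume ∧ LocallyIntegrable G volume ∧
    ∀ ξ : E → ℝ, IsTest ξ → ∫ x, u x * Laplacian.laplacian ξ x = - ∫ x, G x * ξ x

/-- Essentially bounded on every ball. -/
def RegLocBdd (G : E → ℝ) : Prop :=
  ∀ r : ℝ, ∃ C : ℝ, ∀ᵐ y : E, y ∈ Metric.closedBall (0 : E) r → |G y| ≤ C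

/-- The kernel of `T` as an `ℝ≥0∞`-valued function: `P(w) = ∫_0^1 s ψ_s(w) ds`. -/
noncomputable def regP (w : E) : ℝ≥0∞ :=
  ∫⁻ s in Set.Ioc (0 : ℝ) 1, ENNReal.ofReal (s * regScale regPsi s w)

/-- The growth condition on the nonlinearity. -/
def RegGrowth (N : E → ℝ → ℝ) : Prop :=
  ∀ r : ℝ, ∃ C : ℝ, ∀ x ∈ Metric.closedBall (0 : E) r, ∀ z : ℝ,
    |N x z| ≤ C * (1 + |z| ^ (1 + 1 / ((Module.finrank ℝ E : ℝ) + 2)))

/-- `a = 1/√ν`. -/
noncomputable def regA (ν : E → ℝ) (x : E) : ℝ := (Real.sqrt (ν x))⁻¹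

/-- The potential `W = √ν · A_ν (1/√ν)`. -/
noncomputable def regW (ν : E → ℝ) (x : E) : ℝ := Real.sqrt (ν x) * opA ν (regA ν) x

/-- The zeroth order coefficient of the conjugated nonlinear equation. -/
noncomputable def regC (ν : E → ℝ) (lam : ℝ) (x : E) : ℝ :=
  lam * Real.log (regA ν x) - regW ν x

/-- The conjugated nonlinearity `N(x,z) = λ z log z + c(x) z`. -/
noncomputable def regN (ν : E → ℝ) (lam : ℝ) (x : E) (z : ℝ) : ℝ :=
  lam * (z * Real.log z) + regC ν lam x * z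

end generic

/-- generates the equation lemmas of the definitions above in this file (rule 6: unique names) -/
theorem regdefs_eqns_cite : True := by
  have := @regR.eq_1
  have := @regRho0.eq_1
  have := @regZ.eq_1
  have := @regRho.eq_1
  have := @regPsi.eq_1
  have := @regScale.eq_1
  have := @regAvg.eq_1
  have := @regT.eq_1
  have := @regT1.eq_1
  have := @RegVW.eq_1
  have := @RegLocBdd.eq_1
  have := @regP.eq_1
  have := @RegGrowth.eq_1
  have := @regA.eq_1
  have := @regW.eq_1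
  have := @regC.eq_1
  have := @regN.eq_1
  have := @regPsi.congr_simp
  have := @regRho.congr_simp
  trivial

end Claimed.Agent.R259
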