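/-
Row 259, kit REG: the kernels `regRho`, `regPsi`, basic facts (package L-reg-kerA).
Owner of the statements: helper204.
For `σ < 1`: `regR σ = exp (-(1-σ)⁻¹)`, `deriv regR σ = - regR σ / (1-σ)²`; for `σ > 1` both vanish,
at `σ = 1` the derivative vanishes by continuity of `deriv regR` (`regR` is smooth).
-/
import Claimed.Agent.R259.RegDefs

set_option autoImplicit false
set_option linter.unusedSectionVars false

open MeasureTheory Filter Topology
open scoped ContDiff ENNReal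

namespace Claimed.Agent.R259

/-! ### the profile -/

theorem reg_R_contDiff : ContDiff ℝ ∞ regR := by
  unfold regR
  exact expNegInvGlue.contDiff.comp (contDiff_const.sub contDiff_id)

theorem reg_R_nonneg (σ : ℝ) : 0 ≤ regR σ := expNegInvGlue.nonneg _

theorem reg_R_pos {σ : ℝ} (h : σ < 1) : 0 < regR σ :=
  expNegInvGlue.pos_of_pos (by linarith)

theorem reg_R_zero {σ : ℝ} (h : 1 ≤ σ) : regR σ = 0 :=
  expNegInvGlue.zero_of_nonpos (by linarith)

/-- the explicit derivative of the profile -/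
theorem reg_R_hasDerivAt (σ : ℝ) :
    HasDerivAt regR (- (((1 - σ)⁻¹) ^ 2 * regR σ)) σ := by
  have h1 : HasDerivAt expNegInvGlue (((1 - σ)⁻¹) ^ 2 * expNegInvGlue (1 - σ)) (1 - σ) := by
    have := expNegInvGlue.hasDerivAt_polynomial_eval_inv_mul 1 (1 - σ)
    simpa using this
  have h2 : HasDerivAt (fun σ : ℝ => 1 - σ) (-1) σ := by
    simpa using (hasDerivAt_id σ).const_sub 1
  have h3 := h1.comp σ h2
  have h4 : (expNegInvGlue ∘ fun σ : ℝ => 1 - σ) = regR := rfl
  rw [h4] at h3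
  have h5 : - (((1 - σ)⁻¹) ^ 2 * regR σ) = ((1 - σ)⁻¹) ^ 2 * expNegInvGlue (1 - σ) * -1 := by
    unfold regR
    ring
  rw [h5]
  exact h3

theorem reg_R_deriv (σ : ℝ) : deriv regR σ = - (((1 - σ)⁻¹) ^ 2 * regR σ) :=
  (reg_R_hasDerivAt σ).deriv

theorem reg_R_deriv_zero {σ : ℝ} (h : 1 ≤ σ) : deriv regR σ = 0 := by
  rw [reg_R_deriv, reg_R_zero h]; simp

/-- `-R' = R/(1-σ)² ≥ R` on `[0,1)`. -/
theorem reg_R_le_neg_deriv {σ : ℝ} (h : 0 ≤ σ) : regR σ ≤ - deriv regR σ := by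
  rw [reg_R_deriv, neg_neg]
  rcases le_or_gt 1 σ with h1 | h1
  · rw [reg_R_zero h1]; simp
  · have h2 : 0 < 1 - σ := by linarith
    have h3 : 1 ≤ (1 - σ)⁻¹ := (one_le_inv₀ h2).2 (by linarith)
    have h4 : 1 ≤ ((1 - σ)⁻¹) ^ 2 := one_le_pow₀ h3
    nlinarith [reg_R_nonneg σ]

/-! ### the kernels -/

variable {E : Type} [NormedAddCommGroup E] [InnerProductSpace ℝ E] [FiniteDimensional ℝ E]
  [MeasurableSpace E] [BorelSpace E]

theorem reg_sq_contDiff : ContDiff ℝ ∞ (fun z : E => ‖z‖ ^ 2 / 2) :=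
  (contDiff_norm_sq ℝ).div_const 2

theorem reg_rho0_contDiff : ContDiff ℝ ∞ (regRho0 : E → ℝ) := by
  have h1 : ContDiff ℝ ∞ (deriv regR) := by
    have := (contDiff_infty_iff_deriv (𝕜 := ℝ) (f := regR)).1 reg_R_contDiff
    exact this.2
  exact (h1.comp reg_sq_contDiff).neg

theorem reg_rho0_zero {z : E} (h : 2 ≤ ‖z‖ ^ 2) : regRho0 z = 0 := by
  unfold regRho0
  rw [reg_R_deriv_zero (by linarith)]; simp

theorem reg_rho0_nonneg (z : E) : 0 ≤ regRho0 z := by
  unfold regRho0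
  have h0 : (0 : ℝ) ≤ ‖z‖ ^ 2 / 2 := by positivity
  exact (reg_R_nonneg _).trans (reg_R_le_neg_deriv h0)

theorem reg_hasCompactSupport_of_zero {f : E → ℝ} (h : ∀ z : E, 2 ≤ ‖z‖ ^ 2 → f z = 0) :
    HasCompactSupport f := by
  refine HasCompactSupport.intro (isCompact_closedBall (0 : E) 2) ?_
  intro z hz
  apply h
  have h1 : 2 < ‖z‖ := by
    simpa [Metric.mem_closedBall, dist_zero_right] using hz
  nlinarith

theorem reg_rho0_test : IsTest (regRho0 : E → ℝ) :=
  ⟨reg_rho0_contDiff, reg_hasCompactSupport_of_zero fun _ h => reg_rho0_zero h⟩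

theorem reg_Z_pos : 0 < regZ E := by
  unfold regZ
  have hc : Continuous (regRho0 : E → ℝ) := reg_rho0_contDiff.continuous
  have hint : Integrable (regRho0 : E → ℝ) volume :=
    hc.integrable_of_hasCompactSupport reg_rho0_test.2
  rw [integral_pos_iff_support_of_nonneg (fun z => reg_rho0_nonneg z) hint]
  have hopen : IsOpen (Function.support (regRho0 : E → ℝ)) := hc.isOpen_support
  refine hopen.measure_pos volume ⟨0, ?_⟩
  have h0 : 0 < regRho0 (0 : E) := by
    unfold regRho0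
    have h1 : regR (‖(0 : E)‖ ^ 2 / 2) ≤ - deriv regR (‖(0 : E)‖ ^ 2 / 2) :=
      reg_R_le_neg_deriv (by simp)
    have h2 : 0 < regR (‖(0 : E)‖ ^ 2 / 2) := reg_R_pos (by simp)
    linarith
  exact h0.ne'

theorem reg_rho_zero {z : E} (h : 2 ≤ ‖z‖ ^ 2) : regRho z = 0 := by
  unfold regRho
  rw [reg_rho0_zero h, mul_zero]

theorem reg_psi_zero {z : E} (h : 2 ≤ ‖z‖ ^ 2) : regPsi z = 0 := by
  unfold regPsi
  rw [reg_R_zero (by linarith), mul_zero]

theorem reg_rho_test : IsTest (regRho : E → ℝ) :=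
  ⟨contDiff_const.mul reg_rho0_contDiff, reg_hasCompactSupport_of_zero fun _ h => reg_rho_zero h⟩

theorem reg_psi_test : IsTest (regPsi : E → ℝ) :=
  ⟨contDiff_const.mul (reg_R_contDiff.comp reg_sq_contDiff),
    reg_hasCompactSupport_of_zero fun _ h => reg_psi_zero h⟩

theorem reg_psi_nonneg (z : E) : 0 ≤ regPsi z :=
  mul_nonneg (inv_nonneg.2 reg_Z_pos.le) (reg_R_nonneg _)

theorem reg_psi_le_rho (z : E) : regPsi z ≤ regRho z := by
  unfold regPsi regRho regRho0
  exact mul_le_mul_of_nonneg_left (reg_R_le_neg_deriv (by positivity)) (inv_nonneg.2 reg_Z_pos.le)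

theorem reg_psi_pos {z : E} (h : ‖z‖ ^ 2 < 2) : 0 < regPsi z :=
  mul_pos (inv_pos.2 reg_Z_pos) (reg_R_pos (by linarith))

theorem reg_rho_integral : ∫ z : E, regRho z = 1 := by
  unfold regRho
  rw [integral_const_mul]
  exact inv_mul_cancel₀ reg_Z_pos.ne'

end Claimed.Agent.R259
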