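/-
Row 259, kit REG: pointwise calculus of Mathlib's Laplacian (package L-reg-lapA).
Owner of the statements: helper204.  Proofs: helper146 (sorry-free).  Helper lemmas: prefix `regl_`.
-/
import Claimed.Agent.R259.RegDefs

set_option autoImplicit false

open MeasureTheory Filter Topology
open scoped ContDiff ENNReal

namespace Claimed.Agent.R259

variable {E : Type} [NormedAddCommGroup E] [InnerProductSpace ℝ E] [FiniteDimensional ℝ E]
  [MeasurableSpace E] [BorelSpace E]

omit [InnerProductSpace ℝ E] [FiniteDimensional ℝ E] [MeasurableSpace E] [BorelSpace E] in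
theorem regl_diff_fderiv [NormedSpace ℝ E] {f : E → ℝ} {x : E} (hf : ContDiffAt ℝ 2 f x) : DifferentiableAt ℝ (fderiv ℝ f) x :=
  (hf.fderiv_right (m := 1) (by norm_num)).differentiableAt (by norm_num)

omit [InnerProductSpace ℝ E] [FiniteDimensional ℝ E] [MeasurableSpace E] [BorelSpace E] in
theorem regl_fderiv_apply [NormedSpace ℝ E] {f : E → ℝ} {x : E} (hf : ContDiffAt ℝ 2 f x) (v w : E) :
    fderiv ℝ (fun y => fderiv ℝ f y v) x w = fderiv ℝ (fderiv ℝ f) x w v := by
  rw [fderiv_clm_apply (regl_diff_fderiv hf) (differentiableAt_const v)]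
  simp

/-- The Laplacian is the sum of the second directional derivatives along the standard basis. -/
theorem reg_laplacian_eq_sum {f : E → ℝ} {x : E} (hf : ContDiffAt ℝ 2 f x) :
    Laplacian.laplacian f x = ∑ i, fderiv ℝ (fun y => fderiv ℝ f y (stdOrthonormalBasis ℝ E i)) x
      (stdOrthonormalBasis ℝ E i) := by
  rw [InnerProductSpace.laplacian_eq_iteratedFDeriv_stdOrthonormalBasis]
  refine Finset.sum_congr rfl fun i _ => ?_
  rw [iteratedFDeriv_two_apply, regl_fderiv_apply hf]
  simp

theorem regl_inner_grad (a b : E → ℝ) (x : E) :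
    inner ℝ (gradient a x) (gradient b x) =
      ∑ i, fderiv ℝ a x (stdOrthonormalBasis ℝ E i) * fderiv ℝ b x (stdOrthonormalBasis ℝ E i) := by
  rw [← (stdOrthonormalBasis ℝ E).sum_inner_mul_inner]
  refine Finset.sum_congr rfl fun i _ => ?_
  rw [inner_gradient_left, real_inner_comm, inner_gradient_left]

/-- Leibniz rule. -/
theorem reg_laplacian_mul {a b : E → ℝ} {x : E} (ha : ContDiffAt ℝ 2 a x)
    (hb : ContDiffAt ℝ 2 b x) :
    Laplacian.laplacian (fun y => a y * b y) x =
      a x * Laplacian.laplacian b x + 2 * inner ℝ (gradient a x) (gradient b x)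
        + b x * Laplacian.laplacian a x := by
  rw [reg_laplacian_eq_sum (ha.mul hb), reg_laplacian_eq_sum ha, reg_laplacian_eq_sum hb, regl_inner_grad,
    Finset.mul_sum, Finset.mul_sum, Finset.mul_sum, ← Finset.sum_add_distrib, ← Finset.sum_add_distrib]
  refine Finset.sum_congr rfl fun i _ => ?_
  set v := stdOrthonormalBasis ℝ E i
  have hev : (fun y => fderiv ℝ (fun y => a y * b y) y v) =ᶠ[𝓝 x]
      fun y => a y * fderiv ℝ b y v + b y * fderiv ℝ a y v := by
    filter_upwards [ha.eventually (by simp), hb.eventually (by simp)] with y hay hby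
    rw [fderiv_fun_mul (hay.differentiableAt (by norm_num)) (hby.differentiableAt (by norm_num))]
    simp
  rw [hev.fderiv_eq]
  have da : DifferentiableAt ℝ a x := ha.differentiableAt (by norm_num)
  have db : DifferentiableAt ℝ b x := hb.differentiableAt (by norm_num)
  have dda : DifferentiableAt ℝ (fun y => fderiv ℝ a y v) x :=
    (regl_diff_fderiv ha).clm_apply (differentiableAt_const v)
  have ddb : DifferentiableAt ℝ (fun y => fderiv ℝ b y v) x :=
    (regl_diff_fderiv hb).clm_apply (differentiableAt_const v)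
  rw [fderiv_fun_add (da.fun_mul ddb) (db.fun_mul dda), fderiv_fun_mul da ddb, fderiv_fun_mul db dda]
  simp
  ring

theorem regl_laplacian_affine {f : E → ℝ} (hf : ContDiff ℝ 2 f) (p : E) (c : ℝ) (w : E) :
    Laplacian.laplacian (fun w' => f (p + c • w')) w = c ^ 2 * Laplacian.laplacian f (p + c • w) := by
  have hL : ∀ y : E, HasFDerivAt (fun y : E => p + c • y) (c • ContinuousLinearMap.id ℝ E) y := fun y =>
    ((hasFDerivAt_id y).const_smul c).const_add p
  have hLc : ContDiff ℝ 2 (fun y : E => p + c • y) := contDiff_const.add (contDiff_const.smul contDiff_id)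
  have hg : ContDiff ℝ 2 (fun w' => f (p + c • w')) := hf.comp hLc
  rw [reg_laplacian_eq_sum hg.contDiffAt, reg_laplacian_eq_sum hf.contDiffAt, Finset.mul_sum]
  refine Finset.sum_congr rfl fun i _ => ?_
  set v := stdOrthonormalBasis ℝ E i
  have h1 : (fun y => fderiv ℝ (fun w' => f (p + c • w')) y v) = fun y => c * fderiv ℝ f (p + c • y) v := by
    funext y
    have := ((hf.differentiable (by norm_num)) (p + c • y)).hasFDerivAt.comp y (hL y)
    have e : fderiv ℝ (fun w' => f (p + c • w')) y = (fderiv ℝ f (p + c • y)).comp (c • ContinuousLinearMap.id ℝ E) :=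
      this.fderiv
    rw [e]
    simp
  rw [h1]
  have dd : DifferentiableAt ℝ (fun z => fderiv ℝ f z v) (p + c • w) :=
    (regl_diff_fderiv hf.contDiffAt).clm_apply (differentiableAt_const v)
  have h2 := (dd.hasFDerivAt.comp w (hL w)).const_mul c
  have e2 : fderiv ℝ (fun y => c * fderiv ℝ f (p + c • y) v) w =
      c • (fderiv ℝ (fun z => fderiv ℝ f z v) (p + c • w)).comp (c • ContinuousLinearMap.id ℝ E) := h2.fderiv
  rw [e2]
  simp
  ring

/-- Invariance under `y ↦ x - y`. -/
theorem reg_laplacian_comp_sub {f : E → ℝ} (hf : ContDiff ℝ 2 f) (x y : E) :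
    Laplacian.laplacian (fun y' => f (x - y')) y = Laplacian.laplacian f (x - y) := by
  have := regl_laplacian_affine hf x (-1) y
  simpa [sub_eq_add_neg] using this

/-- Scaling. -/
theorem reg_laplacian_comp_smul {f : E → ℝ} (hf : ContDiff ℝ 2 f) (c : ℝ) (w : E) :
    Laplacian.laplacian (fun w' => f (c • w')) w = c ^ 2 * Laplacian.laplacian f (c • w) := by
  have := regl_laplacian_affine hf 0 c w
  simpa using this

theorem reg_laplacian_contDiff {f : E → ℝ} (hf : ContDiff ℝ ∞ f) :
    ContDiff ℝ ∞ (Laplacian.laplacian f) := by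
  rw [InnerProductSpace.laplacian_eq_iteratedFDeriv_stdOrthonormalBasis]
  refine ContDiff.sum fun i _ => ?_
  have h1 : ContDiff ℝ ∞ (iteratedFDeriv ℝ 2 f) := hf.iteratedFDeriv_right (by exact le_rfl)
  exact (ContinuousMultilinearMap.apply ℝ (fun _ : Fin 2 => E) ℝ
    ![stdOrthonormalBasis ℝ E i, stdOrthonormalBasis ℝ E i]).contDiff.comp h1

theorem reg_gradient_contDiff {f : E → ℝ} (hf : ContDiff ℝ ∞ f) :
    ContDiff ℝ ∞ (gradient f) := by
  have h1 : ContDiff ℝ ∞ (fderiv ℝ f) := hf.fderiv_right (by simp)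
  exact (InnerProductSpace.toDual ℝ E).symm.contDiff.comp h1

end Claimed.Agent.R259
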