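/-
Row 259, kit REG: differential identities of the kernels and the scaled kernels
(package L-reg-kerB).  Owner of the statements: helper204.
-/
import Claimed.Agent.R259.RegKer
import Claimed.Agent.R259.RegLap

set_option autoImplicit false
set_option linter.unusedSectionVars false

open MeasureTheory Filter Topology
open scoped ContDiff ENNReal

namespace Claimed.Agent.R259

variable {E : Type} [NormedAddCommGroup E] [InnerProductSpace ℝ E] [FiniteDimensional ℝ E]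
  [MeasurableSpace E] [BorelSpace E]

theorem reg_two_le_infty : (2 : WithTop ℕ∞) ≤ ((⊤ : ℕ∞) : WithTop ℕ∞) := by
  have : ((2 : ℕ∞) : WithTop ℕ∞) ≤ ((⊤ : ℕ∞) : WithTop ℕ∞) := by exact_mod_cast le_top
  exact this

theorem reg_sq_hasFDerivAt (z : E) :
    HasFDerivAt (fun z : E => ‖z‖ ^ 2 / 2) (innerSL ℝ z) z := by
  have h1 : HasFDerivAt (fun x : E => ‖x‖ ^ 2) (2 • (innerSL ℝ z)) z :=
    (hasStrictFDerivAt_norm_sq z).hasFDerivAt
  have h2 := h1.mul_const (2 : ℝ)⁻¹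
  have h3 : (fun z : E => ‖z‖ ^ 2 / 2) = fun z : E => ‖z‖ ^ 2 * (2 : ℝ)⁻¹ := by
    funext z; rw [div_eq_mul_inv]
  rw [h3]
  refine h2.congr_fderiv ?_
  ext v
  simp

theorem reg_psi_hasFDerivAt (z : E) :
    HasFDerivAt (regPsi : E → ℝ) (- (regRho z • innerSL ℝ z)) z := by
  have h1 : HasFDerivAt (fun z : E => regR (‖z‖ ^ 2 / 2))
      (deriv regR (‖z‖ ^ 2 / 2) • innerSL ℝ z) z :=
    (reg_R_contDiff.differentiable (by simp) _).hasDerivAt.comp_hasFDerivAt z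
      (reg_sq_hasFDerivAt z)
  have h2 := h1.const_mul (regZ E)⁻¹
  have h3 : (regPsi : E → ℝ) = fun z : E => (regZ E)⁻¹ * regR (‖z‖ ^ 2 / 2) := rfl
  rw [h3]
  refine h2.congr_fderiv ?_
  ext v
  simp [regRho, regRho0]
  ring

/-- `∇ψ(z) = - ρ(z) z`. -/
theorem reg_psi_fderiv (z v : E) : fderiv ℝ regPsi z v = - (regRho z * inner ℝ z v) := by
  rw [(reg_psi_hasFDerivAt z).fderiv]
  simp

/-- `Δψ = - div (ρ(z) z)`. -/
theorem reg_psi_laplacian (z : E) :
    Laplacian.laplacian (regPsi : E → ℝ) z =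
      - ((Module.finrank ℝ E : ℝ) * regRho z + fderiv ℝ regRho z z) := by
  have hψ : ContDiffAt ℝ 2 (regPsi : E → ℝ) z :=
    (reg_psi_test.1.of_le reg_two_le_infty).contDiffAt
  rw [reg_laplacian_eq_sum hψ]
  have hρ : DifferentiableAt ℝ (regRho : E → ℝ) z :=
    reg_rho_test.1.differentiable (by simp) z
  have hterm : ∀ i, fderiv ℝ (fun y => fderiv ℝ regPsi y (stdOrthonormalBasis ℝ E i)) z
      (stdOrthonormalBasis ℝ E i) =
      - (fderiv ℝ regRho z (stdOrthonormalBasis ℝ E i) * inner ℝ z (stdOrthonormalBasis ℝ E i)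
        + regRho z) := by
    intro i
    set e := stdOrthonormalBasis ℝ E i with he
    have h1 : (fun y => fderiv ℝ regPsi y e) = fun y : E => - (regRho y * inner ℝ y e) := by
      funext y; exact reg_psi_fderiv y e
    rw [h1]
    have h2 : HasFDerivAt (fun y : E => inner ℝ y e) ((innerSL ℝ e)) z := by
      have : (fun y : E => inner ℝ y e) = fun y : E => innerSL ℝ e y := by
        funext y; simp [real_inner_comm]
      rw [this]
      exact (innerSL ℝ e).hasFDerivAt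
    have h3 := (hρ.hasFDerivAt.mul h2).neg
    have h4 : fderiv ℝ (fun y : E => - (regRho y * inner ℝ y e)) z = _ := h3.fderiv
    rw [h4]
    have hee : ‖e‖ = (1 : ℝ) := by
      rw [he, (stdOrthonormalBasis ℝ E).orthonormal.1 i]
    simp [hee]
    ring
  rw [Finset.sum_congr rfl fun i _ => hterm i]
  rw [Finset.sum_neg_distrib, Finset.sum_add_distrib]
  have hz : fderiv ℝ regRho z z = ∑ i, fderiv ℝ regRho z (stdOrthonormalBasis ℝ E i)
      * inner ℝ z (stdOrthonormalBasis ℝ E i) := by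
    have hzz : fderiv ℝ regRho z z = fderiv ℝ regRho z
        (∑ i, inner ℝ (stdOrthonormalBasis ℝ E i) z • stdOrthonormalBasis ℝ E i) := by
      rw [(stdOrthonormalBasis ℝ E).sum_repr' z]
    rw [hzz, map_sum]
    refine Finset.sum_congr rfl fun i _ => ?_
    rw [map_smul, smul_eq_mul, real_inner_comm, mul_comm]
  rw [← hz]
  simp
  ring

theorem reg_scale_eq_mul (κ : E → ℝ) (s : ℝ) (w : E) :
    regScale κ s w = (s ^ Module.finrank ℝ E)⁻¹ * κ (s⁻¹ • w) := rfl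

/-- The "heat equation" `∂_s ρ_s = Δ (s ψ_s)`.  Both sides equal `s^{-n-1} (Δψ)(w/s)`
(`reg_psi_laplacian`, `reg_laplacian_comp_smul`). -/
theorem reg_scale_hasDerivAt {s : ℝ} (hs : 0 < s) (w : E) :
    HasDerivAt (fun t => regScale regRho t w)
      (Laplacian.laplacian (fun w' : E => s * regScale regPsi s w') w) s := by
  set n := Module.finrank ℝ E with hn
  have hψ2 : ContDiff ℝ 2 (regPsi : E → ℝ) := reg_psi_test.1.of_le reg_two_le_infty
  -- right-hand side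
  have hR : Laplacian.laplacian (fun w' : E => s * regScale regPsi s w') w
      = (s * (s ^ n)⁻¹) * ((s⁻¹) ^ 2 * Laplacian.laplacian (regPsi : E → ℝ) (s⁻¹ • w)) := by
    have h1 : (fun w' : E => s * regScale regPsi s w')
        = (s * (s ^ n)⁻¹) • (fun w' : E => regPsi (s⁻¹ • w')) := by
      funext w'
      simp only [reg_scale_eq_mul, Pi.smul_apply, smul_eq_mul]
      ring
    rw [h1]
    have h2 : ContDiffAt ℝ 2 (fun w' : E => regPsi (s⁻¹ • w')) w :=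
      (hψ2.comp (contDiff_const_smul s⁻¹)).contDiffAt
    rw [InnerProductSpace.laplacian_smul _ h2, reg_laplacian_comp_smul hψ2, smul_eq_mul]
  rw [hR, reg_psi_laplacian]
  -- left-hand side
  have hρ : DifferentiableAt ℝ (regRho : E → ℝ) (s⁻¹ • w) :=
    reg_rho_test.1.differentiable (by simp) _
  have h1 : HasDerivAt (fun t : ℝ => t⁻¹) (-(s ^ 2)⁻¹) s := hasDerivAt_inv hs.ne'
  have h2 : HasDerivAt (fun t : ℝ => t⁻¹ • w) ((-(s ^ 2)⁻¹) • w) s := h1.smul_const w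
  have h3 : HasDerivAt (fun t : ℝ => regRho (t⁻¹ • w))
      (fderiv ℝ regRho (s⁻¹ • w) ((-(s ^ 2)⁻¹) • w)) s :=
    HasFDerivAt.comp_hasDerivAt (f := fun t : ℝ => t⁻¹ • w) s hρ.hasFDerivAt h2
  have h4 : HasDerivAt (fun t : ℝ => t ^ n) ((n : ℝ) * s ^ (n - 1)) s := hasDerivAt_pow n s
  have h5 : HasDerivAt (fun t : ℝ => (t ^ n)⁻¹) (-((n : ℝ) * s ^ (n - 1)) / (s ^ n) ^ 2) s :=
    h4.inv (pow_ne_zero _ hs.ne')
  have h6 := h5.mul h3
  have h7 : (fun t => regScale regRho t w) = fun t : ℝ => (t ^ n)⁻¹ * regRho (t⁻¹ • w) := rfl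
  rw [h7]
  refine HasDerivAt.congr_deriv h6 ?_
  have h8 : fderiv ℝ regRho (s⁻¹ • w) ((-(s ^ 2)⁻¹) • w)
      = - s⁻¹ * fderiv ℝ regRho (s⁻¹ • w) (s⁻¹ • w) := by
    have : (-(s ^ 2)⁻¹) • w = (- s⁻¹) • (s⁻¹ • w) := by
      rw [smul_smul]; congr 1; field_simp
    rw [this, map_smul, smul_eq_mul]
  rw [h8]
  have h9 : (n : ℝ) * s ^ (n - 1) = (n : ℝ) * (s ^ n * s⁻¹) := by
    rcases Nat.eq_zero_or_pos n with h0 | h0
    · simp [h0]
    · congr 1
      obtain ⟨m, hm⟩ : ∃ m, n = m + 1 := ⟨n - 1, by omega⟩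
      rw [hm]; simp only [Nat.add_sub_cancel]
      rw [pow_succ]; field_simp
  rw [h9]
  have hsn : s ^ n ≠ 0 := pow_ne_zero _ hs.ne'
  field_simp
  ring

/-- Joint smoothness of the scaled kernels for `s > 0`. -/
theorem reg_scale_contDiffOn {V : Type} [NormedAddCommGroup V] [NormedSpace ℝ V] {κ : E → V}
    (hκ : ContDiff ℝ ∞ κ) :
    ContDiffOn ℝ ∞ (fun p : ℝ × E => regScale κ p.1 p.2) (Set.Ioi (0 : ℝ) ×ˢ Set.univ) := by
  have hfst : ContDiffOn ℝ ∞ (fun p : ℝ × E => p.1) (Set.Ioi (0 : ℝ) ×ˢ Set.univ) :=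
    contDiff_fst.contDiffOn
  have hsnd : ContDiffOn ℝ ∞ (fun p : ℝ × E => p.2) (Set.Ioi (0 : ℝ) ×ˢ Set.univ) :=
    contDiff_snd.contDiffOn
  have hne : ∀ p ∈ (Set.Ioi (0 : ℝ) ×ˢ (Set.univ : Set E)), p.1 ≠ 0 := by
    intro p hp; exact (ne_of_gt hp.1)
  have h1 : ContDiffOn ℝ ∞ (fun p : ℝ × E => (p.1 ^ Module.finrank ℝ E)⁻¹)
      (Set.Ioi (0 : ℝ) ×ˢ Set.univ) :=
    (hfst.pow _).inv fun p hp => pow_ne_zero _ (hne p hp)
  have h2 : ContDiffOn ℝ ∞ (fun p : ℝ × E => (p.1)⁻¹ • p.2) (Set.Ioi (0 : ℝ) ×ˢ Set.univ) :=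
    (hfst.inv hne).smul hsnd
  exact h1.smul (hκ.comp_contDiffOn h2)

/-- Supports of the scaled kernels. -/
theorem reg_scale_zero {V : Type} [NormedAddCommGroup V] [NormedSpace ℝ V] {κ : E → V}
    (hκ : ∀ z, 2 ≤ ‖z‖ ^ 2 → κ z = 0) {s : ℝ} (hs : 0 < s) {w : E} (hw : 2 * s ≤ ‖w‖) :
    regScale κ s w = 0 := by
  unfold regScale
  rw [hκ, smul_zero]
  have h1 : ‖s⁻¹ • w‖ = s⁻¹ * ‖w‖ := by
    rw [norm_smul, Real.norm_eq_abs, abs_of_pos (inv_pos.2 hs)]
  have h2 : 2 ≤ s⁻¹ * ‖w‖ := by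
    rw [inv_mul_eq_div, le_div_iff₀ hs]; exact hw
  rw [h1]
  nlinarith

theorem reg_scale_test {κ : E → ℝ} (hκ : IsTest κ) {s : ℝ} (hs : 0 < s) :
    IsTest (regScale κ s) := by
  refine ⟨?_, ?_⟩
  · have h0 : ContDiff ℝ ∞ fun w : E => κ (s⁻¹ • w) := hκ.1.comp (contDiff_const_smul s⁻¹)
    exact contDiff_const.mul h0
  · have h1 : HasCompactSupport fun w : E => κ (s⁻¹ • w) :=
      hκ.2.comp_smul (inv_ne_zero hs.ne')
    exact h1.mul_left

/-- `∫ κ_s = ∫ κ`. -/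
theorem reg_scale_integral {V : Type} [NormedAddCommGroup V] [NormedSpace ℝ V] (κ : E → V)
    {s : ℝ} (hs : 0 < s) : ∫ w, regScale κ s w = ∫ z, κ z := by
  unfold regScale
  rw [integral_smul, Measure.integral_comp_inv_smul_of_nonneg volume κ hs.le, smul_smul,
    inv_mul_cancel₀ (pow_ne_zero _ hs.ne'), one_smul]

end Claimed.Agent.R259
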