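/-
Row 259, kit REG: averages `regAvg` as convolutions, continuity in the scale, THE KEY IDENTITY
`d/ds (ρ_s * u)(x) = - s (ψ_s * G)(x)` (package L-reg-repA).  Owner of the statements: helper204.
Proofs: helper47 (helper lemmas: prefix `regra_`).
-/
import Claimed.Agent.R259.RegKerB

set_option autoImplicit false

open MeasureTheory Filter Topology
open scoped ContDiff ENNReal Convolution

namespace Claimed.Agent.R259

variable {E : Type} [NormedAddCommGroup E] [InnerProductSpace ℝ E] [FiniteDimensional ℝ E]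
  [MeasurableSpace E] [BorelSpace E]

/-- Change of variables `y = x - s z` (`Measure.integral_comp_smul`, `integral_sub_left_eq_self`);
no integrability is needed. -/
theorem regAvg_eq_conv {V : Type} [NormedAddCommGroup V] [NormedSpace ℝ V] (κ : E → V)
    (G : E → ℝ) {s : ℝ} (hs : 0 < s) (x : E) :
    regAvg κ G s x = (G ⋆[ContinuousLinearMap.lsmul ℝ ℝ, volume] regScale κ s) x := by
  have h1 : (G ⋆[ContinuousLinearMap.lsmul ℝ ℝ, volume] regScale κ s) x
      = ∫ w, G (x - w) • ((s ^ Module.finrank ℝ E)⁻¹ • κ (s⁻¹ • w)) := by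
    rw [convolution_def,
      ← integral_sub_left_eq_self (fun t => (ContinuousLinearMap.lsmul ℝ ℝ) (G t) (regScale κ s (x - t)))
        volume x]
    refine integral_congr_ae (Eventually.of_forall fun w => ?_)
    simp only [ContinuousLinearMap.lsmul_apply, regScale, sub_sub_cancel]
  have h2 := Measure.integral_comp_smul (volume : Measure E) (fun w => G (x - w) • κ (s⁻¹ • w)) s
  rw [h1, regAvg]
  have h3 : ∀ z : E, G (x - s • z) • κ (s⁻¹ • s • z) = G (x - s • z) • κ z := by
    intro z
    rw [inv_smul_smul₀ hs.ne']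
  simp only [h3] at h2
  rw [h2, abs_of_pos (by positivity), ← integral_smul]
  refine integral_congr_ae (Eventually.of_forall fun w => ?_)
  simp only
  rw [smul_comm]

/-- a.e. equal functions have the same averages. -/
theorem regAvg_congr_ae {V : Type} [NormedAddCommGroup V] [NormedSpace ℝ V] (κ : E → V)
    {G G' : E → ℝ} (h : G =ᵐ[volume] G') {s : ℝ} (hs : 0 < s) (x : E) :
    regAvg κ G s x = regAvg κ G' s x := by
  rw [regAvg_eq_conv κ G hs, regAvg_eq_conv κ G' hs, convolution_def, convolution_def]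
  refine integral_congr_ae ?_
  filter_upwards [h] with t ht
  rw [ht]

/-- the scaled kernels with scale in `(s/2, 2 s)` vanish outside the ball of radius `4 s`. -/
theorem regra_zero {V : Type} [NormedAddCommGroup V] [NormedSpace ℝ V] {κ : E → V}
    (hc : ∀ z, 2 ≤ ‖z‖ ^ 2 → κ z = 0) {s : ℝ} (p : ℝ) (w : E) (hp : p ∈ Set.Ioo (s / 2) (2 * s))
    (hs : 0 < s) (hw : w ∉ Metric.closedBall (0 : E) (4 * s)) : regScale κ p w = 0 := by
  have hp0 : 0 < p := by linarith [hp.1]
  refine reg_scale_zero hc hp0 ?_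
  rw [Metric.mem_closedBall, dist_zero_right, not_le] at hw
  linarith [hp.2]

/-- Continuity in the scale, `s > 0`, rough `G`
(`regAvg_eq_conv`, `contDiffOn_convolution_right_with_param` or dominated convergence). -/
theorem reg_avg_continuousOn {V : Type} [NormedAddCommGroup V] [NormedSpace ℝ V]
    [CompleteSpace V] {κ : E → V}
    (hκ : ContDiff ℝ ∞ κ) (hc : ∀ z, 2 ≤ ‖z‖ ^ 2 → κ z = 0) {G : E → ℝ}
    (hG : LocallyIntegrable G volume) (x : E) :
    ContinuousOn (fun s => regAvg κ G s x) (Set.Ioi 0) := by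
  intro s hs
  have hs0 : 0 < s := hs
  apply ContinuousAt.continuousWithinAt
  have hsub : Set.Ioo (s / 2) (2 * s) ×ˢ (Set.univ : Set E) ⊆ Set.Ioi (0 : ℝ) ×ˢ Set.univ := by
    rintro ⟨p, w⟩ ⟨hp, -⟩
    exact ⟨by have := hp.1; show 0 < p; linarith, trivial⟩
  have hcont := continuousOn_convolution_right_with_param_comp (ContinuousLinearMap.lsmul ℝ ℝ)
    (μ := (volume : Measure E)) (f := G) (s := Set.Ioo (s / 2) (2 * s)) (v := fun _ => x)
    continuousOn_const (g := fun p w => regScale κ p w) (isCompact_closedBall (0 : E) (4 * s))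
    (fun p w hp hw => regra_zero hc p w hp hs0 hw) hG
    (((reg_scale_contDiffOn hκ).continuousOn).mono hsub)
  have hmem : Set.Ioo (s / 2) (2 * s) ∈ 𝓝 s := Ioo_mem_nhds (by linarith) (by linarith)
  refine (hcont.continuousAt hmem).congr ?_
  filter_upwards [hmem] with p hp
  exact (regAvg_eq_conv κ G (by linarith [hp.1]) x).symm

/-- KEY IDENTITY.  `d/ds (ρ_s * u)(x) = - s (ψ_s * G)(x)`.
Proof: `regAvg_eq_conv`; differentiate under the integral with
`hasFDerivAt_convolution_right_with_param` (parameter `s ∈ (s/2, 2s)`, compact set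
`closedBall 0 (4 s)`, `reg_scale_contDiffOn`, `reg_scale_zero`); the derivative of the kernel is
`reg_scale_hasDerivAt`; `y ↦ s ψ_s(x - y)` is a test function whose Laplacian is
`reg_laplacian_comp_sub`; apply the very weak equation. -/
theorem reg_avg_hasDerivAt {u G : E → ℝ} (h : RegVW u G) {s : ℝ} (hs : 0 < s) (x : E) :
    HasDerivAt (fun t => regAvg regRho u t x) (-(s * regAvg regPsi G s x)) s := by
  obtain ⟨hu, hG, hvw⟩ := h
  set g : ℝ → E → ℝ := fun p w => regScale regRho p w with hg
  have hρ : ContDiff ℝ ∞ (regRho : E → ℝ) := reg_rho_test.1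
  have hρ0 : ∀ z : E, 2 ≤ ‖z‖ ^ 2 → regRho z = 0 := fun z hz => reg_rho_zero hz
  have hopenU : IsOpen (Set.Ioi (0 : ℝ) ×ˢ (Set.univ : Set E)) := isOpen_Ioi.prod isOpen_univ
  have hsmooth : ContDiffOn ℝ ∞ (↿g) (Set.Ioi (0 : ℝ) ×ˢ (Set.univ : Set E)) := reg_scale_contDiffOn hρ
  have hsub : Set.Ioo (s / 2) (2 * s) ×ˢ (Set.univ : Set E) ⊆ Set.Ioi (0 : ℝ) ×ˢ Set.univ := by
    rintro ⟨p, w⟩ ⟨hp, -⟩
    exact ⟨by have := hp.1; show 0 < p; linarith, trivial⟩
  have hmemI : s ∈ Set.Ioo (s / 2) (2 * s) := ⟨by linarith, by linarith⟩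
  have hmem : Set.Ioo (s / 2) (2 * s) ∈ 𝓝 s := Ioo_mem_nhds (by linarith) (by linarith)
  have hF := hasFDerivAt_convolution_right_with_param (𝕜 := ℝ) (ContinuousLinearMap.lsmul ℝ ℝ)
    (μ := (volume : Measure E)) (f := u) (g := g) isOpen_Ioo (isCompact_closedBall (0 : E) (4 * s))
    (fun p w hp hw => regra_zero hρ0 p w hp hs hw) hu
    ((hsmooth.mono hsub).of_le (by exact_mod_cast le_top)) (s, x) hmemI
  -- the derivative of the kernel
  have hker : ∀ w : E, fderiv ℝ (↿g) (s, w) (1, 0)
      = Laplacian.laplacian (fun w' : E => s * regScale regPsi s w') w := by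
    intro w
    have hd : HasFDerivAt (↿g) (fderiv ℝ (↿g) (s, w)) (s, w) :=
      ((hsmooth.contDiffAt (hopenU.mem_nhds
        (show ((s, w) : ℝ × E) ∈ Set.Ioi (0 : ℝ) ×ˢ (Set.univ : Set E) from ⟨hs, trivial⟩))).differentiableAt
        (by simp)).hasFDerivAt
    have hline : HasDerivAt (fun t : ℝ => ((t, w) : ℝ × E)) ((1 : ℝ), (0 : E)) s :=
      (hasDerivAt_id s).prodMk (hasDerivAt_const s w)
    have hcomp := hd.comp_hasDerivAt s hline
    exact hcomp.unique (reg_scale_hasDerivAt hs w)
  have hcontD : Continuous fun w : E => fderiv ℝ (↿g) (s, w) := by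
    refine (hsmooth.continuousOn_fderiv_of_isOpen hopenU (by simp)).comp_continuous
      (Continuous.prodMk_right s) fun w => ⟨hs, trivial⟩
  have hsuppD : HasCompactSupport fun w : E => fderiv ℝ (↿g) (s, w) := by
    refine HasCompactSupport.intro (isCompact_closedBall (0 : E) (4 * s)) fun w hw => ?_
    have hopen : IsOpen (Set.Ioo (s / 2) (2 * s) ×ˢ (Metric.closedBall (0 : E) (4 * s))ᶜ) :=
      isOpen_Ioo.prod Metric.isClosed_closedBall.isOpen_compl
    have hev : (↿g) =ᶠ[𝓝 (s, w)] fun _ => (0 : ℝ) := by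
      filter_upwards [hopen.mem_nhds ⟨hmemI, hw⟩] with q hq
      exact regra_zero hρ0 q.1 q.2 hq.1 hs hq.2
    rw [hev.fderiv_eq]
    simp
  -- the test function
  set ξ : E → ℝ := fun y => s * regScale regPsi s (x - y) with hξ
  have hψs : IsTest (regScale (regPsi : E → ℝ) s) := reg_scale_test reg_psi_test hs
  have hψs' : ContDiff ℝ ∞ (fun w' : E => s * regScale regPsi s w') := contDiff_const.mul hψs.1
  have hξtest : IsTest ξ := by
    refine ⟨contDiff_const.mul (hψs.1.comp (contDiff_const.sub contDiff_id)), ?_⟩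
    have h1 : HasCompactSupport (fun y : E => regScale (regPsi : E → ℝ) s (x - y)) :=
      hψs.2.comp_homeomorph (Homeomorph.subLeft x)
    exact h1.mul_left
  have hlap : ∀ y : E, Laplacian.laplacian ξ y
      = Laplacian.laplacian (fun w' : E => s * regScale regPsi s w') (x - y) := fun y =>
    reg_laplacian_comp_sub (hψs'.of_le (WithTop.coe_le_coe.2 le_top)) x y
  have hline : HasDerivAt (fun t : ℝ => ((t, x) : ℝ × E)) ((1 : ℝ), (0 : E)) s :=
    (hasDerivAt_id s).prodMk (hasDerivAt_const s x)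
  have hfin := hF.comp_hasDerivAt s hline
  refine (hfin.congr_deriv ?_).congr_of_eventuallyEq ?_
  · dsimp only
    rw [convolution_precompR_apply _ hu hsuppD hcontD, convolution_def]
    have e1 : ∀ t : E, (ContinuousLinearMap.lsmul ℝ ℝ) (u t) (fderiv ℝ (↿g) (s, x - t) (1, 0))
        = u t * Laplacian.laplacian ξ t := by
      intro t
      rw [hker, hlap]
      rfl
    simp only [e1]
    rw [hvw ξ hξtest, regAvg_eq_conv regPsi G hs x, convolution_def, ← integral_const_mul]
    congr 1
    refine integral_congr_ae (Eventually.of_forall fun t => ?_)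
    simp only [hξ, ContinuousLinearMap.lsmul_apply, smul_eq_mul]
    ring
  · filter_upwards [hmem] with p hp
    exact regAvg_eq_conv regRho u (by linarith [hp.1]) x

end Claimed.Agent.R259
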