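/-
Row 259, kit POS: strict positivity for very weak solutions of `-Δ v = λ v log v + c v`.
GLUE ONLY (no `sorry` here).  Owner: helper204.

If `v(x₀) = 0` put `M(r) = (ρ_r * v)(x₀)`.  By `reg_avg_hasDerivAt`,
`M'(r) = r (ψ_r * (-G))(x₀) ≤ r (ψ_r * g(v))(x₀) ≤ r (ρ_r * g(v))(x₀) ≤ r g(M(r))`,
`g(z) = λ negMulLog z + C z` (concave, `≥ 0` on `[0,1]`), `0 ≤ ψ ≤ ρ`, Jensen.  Osgood: `M ≡ 0`.
-/
import Claimed.Agent.R259.RegRepA
import Claimed.Agent.R259.PosOsgood
import Claimed.Agent.R259.PosAvg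

set_option autoImplicit false

open MeasureTheory Filter Topology
open scoped ContDiff

namespace Claimed.Agent.R259

variable {E : Type} [NormedAddCommGroup E] [InnerProductSpace ℝ E] [FiniteDimensional ℝ E]
  [MeasurableSpace E] [BorelSpace E]

/-! ### GLUE -/

theorem pos_avg_zero_scale (G : E → ℝ) (x : E) : regAvg regRho G 0 x = G x := by
  unfold regAvg
  simp only [zero_smul, sub_zero, smul_eq_mul]
  rw [integral_const_mul, reg_rho_integral, mul_one]

/-- the zero set is open. -/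
theorem pos_local {v c : E → ℝ} {lam : ℝ} (hlam : 0 < lam) (hc : Continuous c)
    (hv : Continuous v) (h0 : ∀ x, 0 ≤ v x)
    (h : RegVW v (fun x => lam * (v x * Real.log (v x)) + c x * v x)) {x₀ : E}
    (hx₀ : v x₀ = 0) : ∃ r > 0, ∀ y ∈ Metric.ball x₀ r, v y = 0 := by
  -- a ball on which `v ≤ 1`
  have hnear : ∀ᶠ y in 𝓝 x₀, v y < 1 := by
    have : Tendsto v (𝓝 x₀) (𝓝 0) := hx₀ ▸ hv.tendsto x₀
    exact this.eventually (gt_mem_nhds zero_lt_one)
  obtain ⟨δ, hδ, hδb⟩ := Metric.eventually_nhds_iff_ball.1 hnear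
  obtain ⟨C, hC⟩ :=
    (isCompact_closedBall x₀ δ).exists_bound_of_continuousOn hc.continuousOn
  set r₁ : ℝ := δ / 4 with hr₁
  have hr₁pos : 0 < r₁ := by positivity
  set M : ℝ → ℝ := fun r => regAvg regRho v r x₀ with hM
  have hzero : ∀ r ∈ Set.Icc 0 r₁, M r = 0 := by
    refine pos_osgood (lam := lam) (C := C) hr₁pos hlam (pos_avg_continuous hv x₀).continuousOn
      ?_ (fun r _ => pos_avg_nonneg h0 r x₀) ?_
    · rw [hM]
      simp only
      rw [pos_avg_zero_scale, hx₀]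
    · intro r hr
      refine ⟨_, reg_avg_hasDerivAt h hr.1 x₀, ?_⟩
      refine pos_deriv_le hlam hc hv h0 hr.1 (fun y hy => ?_)
      have hy' : dist y x₀ ≤ 2 * r := Metric.mem_closedBall.1 hy
      have hr2 : 2 * r < δ := by
        have := hr.2
        rw [hr₁] at this
        linarith
      refine ⟨(hδb y (Metric.mem_ball.2 (lt_of_le_of_lt hy' hr2))).le, ?_⟩
      have := hC y (Metric.mem_closedBall.2 (hy'.trans hr2.le))
      simpa using this
  exact ⟨r₁, hr₁pos, pos_zero_of_avg hv h0 hr₁pos (hzero r₁ ⟨hr₁pos.le, le_rfl⟩)⟩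

/-- POSITIVITY for very weak solutions: a zero forces `v ≡ 0`. -/
theorem pos_vw {v c : E → ℝ} {lam : ℝ} (hlam : 0 < lam) (hc : Continuous c)
    (hv : Continuous v) (h0 : ∀ x, 0 ≤ v x)
    (h : RegVW v (fun x => lam * (v x * Real.log (v x)) + c x * v x)) {x₀ : E}
    (hx₀ : v x₀ = 0) : ∀ x, v x = 0 := by
  have hclosed : IsClosed {x | v x = 0} := isClosed_eq hv continuous_const
  have hopen : IsOpen {x | v x = 0} := by
    rw [Metric.isOpen_iff]
    intro x hx
    obtain ⟨r, hr, hb⟩ := pos_local hlam hc hv h0 h hx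
    exact ⟨r, hr, fun y hy => hb y hy⟩
  have huniv : {x | v x = 0} = Set.univ :=
    IsClopen.eq_univ ⟨hclosed, hopen⟩ ⟨x₀, hx₀⟩
  intro x
  have : x ∈ {x | v x = 0} := by rw [huniv]; trivial
  exact this

end Claimed.Agent.R259
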