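/-
Row 259, kit REG: the kernel `regP` of `regT` (package L-reg-ladK).
Owner of the statements: helper204.
-/
import Claimed.Agent.R259.RegRepA

set_option autoImplicit false
set_option linter.unusedSectionVars false

open MeasureTheory Filter Topology
open scoped ENNReal Convolution

namespace Claimed.Agent.R259

variable {E : Type} [NormedAddCommGroup E] [InnerProductSpace ℝ E] [FiniteDimensional ℝ E]
  [MeasurableSpace E] [BorelSpace E]

/-! ### package REG-LADK: the kernel `regP` -/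

/-- joint measurability of the integrand of `regP` -/
theorem reglk_meas :
    Measurable (fun p : E × ℝ => ENNReal.ofReal (p.2 * regScale regPsi p.2 p.1)) := by
  have hψ : Measurable (regPsi : E → ℝ) := reg_psi_test.1.continuous.measurable
  have h1 : Measurable (fun p : E × ℝ => (p.2)⁻¹ • p.1) :=
    measurable_snd.inv.smul measurable_fst
  have h2 : Measurable (fun p : E × ℝ => regScale regPsi p.2 p.1) := by
    unfold regScale
    exact ((measurable_snd.pow_const _).inv).smul (hψ.comp h1)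
  exact (measurable_snd.mul h2).ennreal_ofReal

theorem reg_P_measurable : Measurable (regP : E → ℝ≥0∞) := by
  unfold regP
  exact reglk_meas.lintegral_prod_right'

theorem reg_P_zero {w : E} (h : 2 ≤ ‖w‖) : regP w = 0 := by
  unfold regP
  rw [setLIntegral_congr_fun (g := fun _ => 0) measurableSet_Ioc]
  · simp
  · intro s hs
    have : regScale regPsi s w = 0 :=
      reg_scale_zero (fun z hz => reg_psi_zero hz) hs.1 (by linarith [hs.2])
    simp [this]

/-- Jensen for a probability measure, `ℝ≥0∞`-valued. -/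
theorem reglk_jensen {α : Type} [MeasurableSpace α] (μ : Measure α) [IsProbabilityMeasure μ]
    {r : ℝ} (hr : 1 < r) {f : α → ℝ≥0∞} (hf : AEMeasurable f μ) :
    (∫⁻ a, f a ∂μ) ^ r ≤ ∫⁻ a, f a ^ r ∂μ := by
  have hr0 : 0 < r := by linarith
  have hc : r.HolderConjugate (r / (r - 1)) := Real.HolderConjugate.conjExponent hr
  have h1 := ENNReal.lintegral_mul_le_Lp_mul_Lq μ hc hf (aemeasurable_const (b := (1 : ℝ≥0∞)))
  simp only [Pi.mul_apply, mul_one, ENNReal.one_rpow, lintegral_const, measure_univ] at h1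
  calc (∫⁻ a, f a ∂μ) ^ r ≤ ((∫⁻ a, f a ^ r ∂μ) ^ (1 / r)) ^ r :=
        ENNReal.rpow_le_rpow h1 hr0.le
    _ = ∫⁻ a, f a ^ r ∂μ := by
        rw [← ENNReal.rpow_mul, one_div, inv_mul_cancel₀ hr0.ne', ENNReal.rpow_one]

theorem reglk_lintegral_comp_inv_smul {f : E → ℝ≥0∞} (hf : Measurable f) {s : ℝ} (hs : 0 < s) :
    ∫⁻ w : E, f (s⁻¹ • w) = ENNReal.ofReal (s ^ Module.finrank ℝ E) * ∫⁻ z : E, f z := by
  have hne : s⁻¹ ≠ 0 := inv_ne_zero hs.ne'
  have h1 : Measure.map (fun w : E => s⁻¹ • w) (volume : Measure E)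
      = ENNReal.ofReal |((s⁻¹) ^ Module.finrank ℝ E)⁻¹| • (volume : Measure E) :=
    Measure.map_addHaar_smul volume hne
  have h2 : ∫⁻ w : E, f (s⁻¹ • w) = ∫⁻ z, f z ∂(Measure.map (fun w : E => s⁻¹ • w) volume) :=
    (lintegral_map hf (measurable_const_smul s⁻¹)).symm
  rw [h2, h1, lintegral_smul_measure, smul_eq_mul]
  congr 2
  rw [inv_pow, inv_inv, abs_of_pos (pow_pos hs _)]

theorem reglk_psi_rpow_lt_top {r : ℝ} (hr : 0 < r) :
    ∫⁻ z : E, ENNReal.ofReal (regPsi z) ^ r < ∞ := by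
  have h1 : ∀ z : E, ENNReal.ofReal (regPsi z) ^ r = ENNReal.ofReal (regPsi z ^ r) := fun z =>
    ENNReal.ofReal_rpow_of_nonneg (reg_psi_nonneg z) hr.le
  simp_rw [h1]
  have hc : Continuous fun z : E => regPsi z ^ r :=
    reg_psi_test.1.continuous.rpow_const fun _ => Or.inr hr.le
  have hs : HasCompactSupport fun z : E => regPsi z ^ r :=
    reg_hasCompactSupport_of_zero fun z hz => by
      simp only [reg_psi_zero hz]; exact Real.zero_rpow hr.ne'
  exact (hc.integrable_of_hasCompactSupport hs).lintegral_lt_top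

theorem reglk_scal (n : ℕ) {s : ℝ} (hs : 0 < s) (hs1 : s ≤ 1) :
    (s * (s ^ n)⁻¹) ^ (((n : ℝ) + 2) / ((n : ℝ) + 1)) * s ^ n ≤ 1 := by
  have hn : (0 : ℝ) < (n : ℝ) + 1 := by positivity
  have h1 : s * (s ^ n)⁻¹ = s ^ (1 - (n : ℝ)) := by
    rw [Real.rpow_sub hs, Real.rpow_one, Real.rpow_natCast, div_eq_mul_inv]
  rw [h1, ← Real.rpow_mul hs.le, ← Real.rpow_natCast s n, ← Real.rpow_add hs]
  have h2 : (1 - (n : ℝ)) * (((n : ℝ) + 2) / ((n : ℝ) + 1)) + (n : ℝ) = 2 / ((n : ℝ) + 1) := by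
    field_simp
    ring
  rw [h2]
  exact Real.rpow_le_one hs.le hs1 (by positivity)

/-- Jensen on the probability space `(0,1]`: `P^r ≤ ∫_0^1 (s ψ_s)^r ds`; Tonelli; scaling
`∫ (s ψ_s)^r dw = s^{(1-n) r + n} ∫ ψ^r = s^{2/(n+1)} ∫ ψ^r ≤ ∫ ψ^r < ∞`. -/
theorem reg_P_rpow :
    ∫⁻ w : E, regP w ^ (((Module.finrank ℝ E : ℝ) + 2) / ((Module.finrank ℝ E : ℝ) + 1)) < ∞ := by
  set n := Module.finrank ℝ E with hn
  set r : ℝ := ((n : ℝ) + 2) / ((n : ℝ) + 1) with hr
  have hn1 : (0 : ℝ) < (n : ℝ) + 1 := by positivity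
  have hr1 : 1 < r := by
    rw [hr, lt_div_iff₀ hn1]; linarith
  have hr0 : 0 < r := by linarith
  have : IsProbabilityMeasure (volume.restrict (Set.Ioc (0 : ℝ) 1)) := by
    constructor
    simp
  set C : ℝ≥0∞ := ∫⁻ z : E, ENNReal.ofReal (regPsi z) ^ r with hC
  have hCtop : C < ∞ := reglk_psi_rpow_lt_top hr0
  have hψm : Measurable fun z : E => ENNReal.ofReal (regPsi z) ^ r :=
    (reg_psi_test.1.continuous.measurable.ennreal_ofReal).pow_const r
  calc ∫⁻ w : E, regP w ^ r
      ≤ ∫⁻ w : E, ∫⁻ s in Set.Ioc (0 : ℝ) 1, ENNReal.ofReal (s * regScale regPsi s w) ^ r := by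
        refine lintegral_mono fun w => ?_
        refine reglk_jensen _ hr1 ?_
        exact (reglk_meas.comp (measurable_const.prodMk measurable_id)).aemeasurable
    _ = ∫⁻ s in Set.Ioc (0 : ℝ) 1, ∫⁻ w : E, ENNReal.ofReal (s * regScale regPsi s w) ^ r := by
        refine lintegral_lintegral_swap ?_
        exact (reglk_meas.pow_const r).aemeasurable
    _ ≤ ∫⁻ s in Set.Ioc (0 : ℝ) 1, C := by
        refine setLIntegral_mono measurable_const fun s hs => ?_
        have hs0 : 0 < s := hs.1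
        have hc0 : 0 ≤ s * (s ^ n)⁻¹ := by positivity
        have h1 : ∀ w : E, ENNReal.ofReal (s * regScale regPsi s w) ^ r
            = ENNReal.ofReal (s * (s ^ n)⁻¹) ^ r * ENNReal.ofReal (regPsi (s⁻¹ • w)) ^ r := by
          intro w
          rw [reg_scale_eq_mul, ← mul_assoc, ENNReal.ofReal_mul hc0,
            ENNReal.mul_rpow_of_nonneg _ _ hr0.le]
        simp_rw [h1]
        have hm3 : Measurable fun w : E => ENNReal.ofReal (regPsi (s⁻¹ • w)) ^ r :=
          hψm.comp (measurable_const_smul s⁻¹)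
        rw [lintegral_const_mul _ hm3,
          reglk_lintegral_comp_inv_smul hψm hs0, ← mul_assoc]
        have h2 : ENNReal.ofReal (s * (s ^ n)⁻¹) ^ r * ENNReal.ofReal (s ^ n) ≤ 1 := by
          rw [ENNReal.ofReal_rpow_of_nonneg hc0 hr0.le, ← ENNReal.ofReal_mul (by positivity)]
          rw [← ENNReal.ofReal_one]
          exact ENNReal.ofReal_le_ofReal (reglk_scal n hs0 hs.2)
        calc _ ≤ 1 * C := by gcongr
          _ = C := one_mul _
    _ = C := by simp
    _ < ∞ := hCtop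

/-- `|T G| ≤ P * |G|` (norm inside both integrals, `regAvg_eq_conv`, Tonelli). -/
theorem reg_T_enorm_le {G : E → ℝ} (hG : AEStronglyMeasurable G volume) (x : E) :
    ‖regT G x‖ₑ ≤ ∫⁻ y, regP (x - y) * ‖G y‖ₑ := by
  unfold regT
  have hm2 : Measurable (fun p : ℝ × E => ENNReal.ofReal (p.1 * regScale regPsi p.1 (x - p.2))) :=
    reglk_meas.comp ((measurable_const.sub measurable_snd).prodMk measurable_fst)
  calc ‖∫ s in Set.Ioc (0 : ℝ) 1, s * regAvg regPsi G s x‖ₑ
      ≤ ∫⁻ s in Set.Ioc (0 : ℝ) 1, ‖s * regAvg regPsi G s x‖ₑ :=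
        enorm_integral_le_lintegral_enorm _
    _ ≤ ∫⁻ s in Set.Ioc (0 : ℝ) 1, ∫⁻ y : E,
          ENNReal.ofReal (s * regScale regPsi s (x - y)) * ‖G y‖ₑ := by
        refine setLIntegral_mono' measurableSet_Ioc fun s hs => ?_
        have hs0 : 0 < s := hs.1
        rw [regAvg_eq_conv regPsi G hs0 x, convolution_def, enorm_mul]
        have h1 : ‖∫ t, (ContinuousLinearMap.lsmul ℝ ℝ) (G t) (regScale regPsi s (x - t))‖ₑ
            ≤ ∫⁻ t, ‖(ContinuousLinearMap.lsmul ℝ ℝ) (G t) (regScale regPsi s (x - t))‖ₑ :=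
          enorm_integral_le_lintegral_enorm _
        calc ‖s‖ₑ * ‖∫ t, (ContinuousLinearMap.lsmul ℝ ℝ) (G t) (regScale regPsi s (x - t))‖ₑ
            ≤ ‖s‖ₑ * ∫⁻ t, ‖(ContinuousLinearMap.lsmul ℝ ℝ) (G t) (regScale regPsi s (x - t))‖ₑ := by
              gcongr
          _ = ∫⁻ t, ‖s‖ₑ * ‖(ContinuousLinearMap.lsmul ℝ ℝ) (G t) (regScale regPsi s (x - t))‖ₑ := by
              rw [lintegral_const_mul' _ _ enorm_ne_top]
          _ = ∫⁻ y : E, ENNReal.ofReal (s * regScale regPsi s (x - y)) * ‖G y‖ₑ := by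
              refine lintegral_congr fun t => ?_
              have hnn : 0 ≤ regScale regPsi s (x - t) := by
                rw [reg_scale_eq_mul]
                exact mul_nonneg (by positivity) (reg_psi_nonneg _)
              simp only [ContinuousLinearMap.lsmul_apply, smul_eq_mul, enorm_mul]
              rw [ENNReal.ofReal_mul hs0.le, Real.enorm_eq_ofReal hs0.le, Real.enorm_eq_ofReal hnn]
              ring
    _ = ∫⁻ y : E, ∫⁻ s in Set.Ioc (0 : ℝ) 1,
          ENNReal.ofReal (s * regScale regPsi s (x - y)) * ‖G y‖ₑ := by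
        refine lintegral_lintegral_swap ?_
        exact hm2.aemeasurable.mul hG.enorm.comp_snd
    _ = ∫⁻ y, regP (x - y) * ‖G y‖ₑ := by
        refine lintegral_congr fun y => ?_
        rw [lintegral_mul_const' _ _ enorm_ne_top]
        rfl

end Claimed.Agent.R259
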