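/-
Row 259, kit REG: Young's convolution inequality and Hoelder for convolutions, `lintegral` form
(package L-reg-young; Mathlib only).  Owner of the statements: helper204.
-/
import Claimed.Agent.R259.RegDefs

set_option autoImplicit false
set_option linter.unusedVariables false

open MeasureTheory Filter Topology
open scoped ENNReal Convolution

namespace Claimed.Agent.R259

variable {E : Type} [NormedAddCommGroup E] [InnerProductSpace ℝ E] [FiniteDimensional ℝ E]
  [MeasurableSpace E] [BorelSpace E]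

/-! ### package REG-YOUNG -/

/-- the pointwise factorisation behind Young's inequality -/
theorem reg_young_pt {p q r : ℝ} (hp : 1 ≤ p) (hq : 1 ≤ q) (hr : 1 ≤ r)
    (h : 1 / p + 1 / r = 1 + 1 / q) (a b : ℝ≥0∞) :
    (a ^ r * b ^ p) ^ (1 / q) * (a ^ r) ^ (1 / r - 1 / q) * (b ^ p) ^ (1 / p - 1 / q) = a * b := by
  have hp0 : 0 < p := by linarith
  have hq0 : 0 < q := by linarith
  have hr0 : 0 < r := by linarith
  have hp1 : 1 / p ≤ 1 := by rw [div_le_one hp0]; exact hp
  have hr1 : 1 / r ≤ 1 := by rw [div_le_one hr0]; exact hr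
  have hw2 : 0 ≤ 1 / r - 1 / q := by linarith
  have hw3 : 0 ≤ 1 / p - 1 / q := by linarith
  have hq' : 0 ≤ 1 / q := by positivity
  rw [ENNReal.mul_rpow_of_nonneg _ _ hq', ← ENNReal.rpow_mul, ← ENNReal.rpow_mul,
    ← ENNReal.rpow_mul, ← ENNReal.rpow_mul]
  have e1 : a ^ (r * (1 / q)) * a ^ (r * (1 / r - 1 / q)) = a := by
    rw [← ENNReal.rpow_add_of_nonneg _ _ (by positivity) (by positivity)]
    have : r * (1 / q) + r * (1 / r - 1 / q) = 1 := by field_simp; ring
    rw [this, ENNReal.rpow_one]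
  have e2 : b ^ (p * (1 / q)) * b ^ (p * (1 / p - 1 / q)) = b := by
    rw [← ENNReal.rpow_add_of_nonneg _ _ (by positivity) (by positivity)]
    have : p * (1 / q) + p * (1 / p - 1 / q) = 1 := by field_simp; ring
    rw [this, ENNReal.rpow_one]
  calc a ^ (r * (1 / q)) * b ^ (p * (1 / q)) * a ^ (r * (1 / r - 1 / q)) * b ^ (p * (1 / p - 1 / q))
      = (a ^ (r * (1 / q)) * a ^ (r * (1 / r - 1 / q))) *
        (b ^ (p * (1 / q)) * b ^ (p * (1 / p - 1 / q))) := by ring
    _ = a * b := by rw [e1, e2]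

/-- Young's inequality for measurable functions -/
theorem reg_young_meas {p q r : ℝ} (hp : 1 ≤ p) (hq : 1 ≤ q) (hr : 1 ≤ r)
    (h : 1 / p + 1 / r = 1 + 1 / q) {f g : E → ℝ≥0∞} (hf : Measurable f)
    (hg : Measurable g) :
    ∫⁻ x, (∫⁻ y, f (x - y) * g y) ^ q ≤
      (∫⁻ x, f x ^ r) ^ (q / r) * (∫⁻ y, g y ^ p) ^ (q / p) := by
  have hp0 : 0 < p := by linarith
  have hq0 : 0 < q := by linarith
  have hr0 : 0 < r := by linarith
  have hp1 : 1 / p ≤ 1 := by rw [div_le_one hp0]; exact hp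
  have hr1 : 1 / r ≤ 1 := by rw [div_le_one hr0]; exact hr
  have hw2 : 0 ≤ 1 / r - 1 / q := by linarith
  have hw3 : 0 ≤ 1 / p - 1 / q := by linarith
  have hq' : 0 ≤ 1 / q := by positivity
  set A : ℝ≥0∞ := ∫⁻ x, f x ^ r with hA
  set B : ℝ≥0∞ := ∫⁻ y, g y ^ p with hB
  set X : E → ℝ≥0∞ := fun x => ∫⁻ y, f (x - y) ^ r * g y ^ p with hX
  have hmeas2 : Measurable (fun z : E × E => f (z.1 - z.2) ^ r * g z.2 ^ p) :=
    ((hf.comp (measurable_fst.sub measurable_snd)).pow_const r).mul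
      ((hg.comp measurable_snd).pow_const p)
  have hXm : Measurable X := hmeas2.lintegral_prod_right'
  -- Hoelder for three functions
  have hH : ∀ x, ∫⁻ y, f (x - y) * g y ≤ X x ^ (1 / q) * A ^ (1 / r - 1 / q) * B ^ (1 / p - 1 / q) := by
    intro x
    have hfx : Measurable fun y => f (x - y) := hf.comp (measurable_const.sub measurable_id)
    have key := ENNReal.lintegral_prod_norm_pow_le (μ := (volume : Measure E))
      (Finset.univ : Finset (Fin 3))
      (f := ![fun y => f (x - y) ^ r * g y ^ p, fun y => f (x - y) ^ r, fun y => g y ^ p])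
      (p := ![1 / q, 1 / r - 1 / q, 1 / p - 1 / q]) (by
        intro i _
        fin_cases i
        · exact ((hfx.pow_const r).mul (hg.pow_const p)).aemeasurable
        · exact (hfx.pow_const r).aemeasurable
        · exact (hg.pow_const p).aemeasurable) (by
        simp only [Fin.sum_univ_three, Matrix.cons_val_zero, Matrix.cons_val_one,
          Matrix.cons_val_two, Matrix.head_cons, Matrix.tail_cons]
        linarith) (by
        intro i _
        fin_cases i
        · exact hq'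
        · exact hw2
        · exact hw3)
    simp only [Fin.prod_univ_three, Matrix.cons_val_zero, Matrix.cons_val_one,
      Matrix.cons_val_two, Matrix.head_cons, Matrix.tail_cons] at key
    have e1 : ∫⁻ y, f (x - y) ^ r = A := lintegral_sub_left_eq_self (fun w => f w ^ r) x
    rw [e1] at key
    calc ∫⁻ y, f (x - y) * g y
        = ∫⁻ y, (f (x - y) ^ r * g y ^ p) ^ (1 / q) * (f (x - y) ^ r) ^ (1 / r - 1 / q) *
            (g y ^ p) ^ (1 / p - 1 / q) :=
          lintegral_congr fun y => (reg_young_pt hp hq hr h _ _).symm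
      _ ≤ _ := key
  -- Tonelli
  have hT : ∫⁻ x, X x = A * B := by
    rw [hX, lintegral_lintegral_swap (f := fun x y => f (x - y) ^ r * g y ^ p) hmeas2.aemeasurable]
    have e2 : ∀ y, ∫⁻ x, f (x - y) ^ r * g y ^ p = A * g y ^ p := by
      intro y
      have hm : Measurable fun x => f (x - y) ^ r :=
        (hf.comp (measurable_id.sub measurable_const)).pow_const r
      rw [lintegral_mul_const _ hm]
      congr 1
      exact lintegral_sub_right_eq_self (fun w => f w ^ r) y
    simp_rw [e2]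
    rw [lintegral_const_mul _ (hg.pow_const p)]
  calc ∫⁻ x, (∫⁻ y, f (x - y) * g y) ^ q
      ≤ ∫⁻ x, (X x ^ (1 / q) * A ^ (1 / r - 1 / q) * B ^ (1 / p - 1 / q)) ^ q :=
        lintegral_mono fun x => ENNReal.rpow_le_rpow (hH x) hq0.le
    _ = ∫⁻ x, X x * (A ^ ((1 / r - 1 / q) * q) * B ^ ((1 / p - 1 / q) * q)) := by
        refine lintegral_congr fun x => ?_
        rw [ENNReal.mul_rpow_of_nonneg _ _ hq0.le, ENNReal.mul_rpow_of_nonneg _ _ hq0.le,
          ← ENNReal.rpow_mul, ← ENNReal.rpow_mul, ← ENNReal.rpow_mul,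
          one_div_mul_cancel hq0.ne', ENNReal.rpow_one, mul_assoc]
    _ = A * B * (A ^ ((1 / r - 1 / q) * q) * B ^ ((1 / p - 1 / q) * q)) := by
        rw [lintegral_mul_const _ hXm, hT]
    _ = (A ^ (1 : ℝ) * A ^ ((1 / r - 1 / q) * q)) * (B ^ (1 : ℝ) * B ^ ((1 / p - 1 / q) * q)) := by
        rw [ENNReal.rpow_one, ENNReal.rpow_one]; ring
    _ = A ^ (q / r) * B ^ (q / p) := by
        rw [← ENNReal.rpow_add_of_nonneg _ _ zero_le_one (by positivity),
          ← ENNReal.rpow_add_of_nonneg _ _ zero_le_one (by positivity)]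
        congr 2
        · field_simp; ring
        · field_simp; ring

/-- YOUNG'S CONVOLUTION INEQUALITY.  Proof: `ENNReal.lintegral_prod_norm_pow_le` (Hoelder for three
functions) with `F₁ = f(x-y)^r g(y)^p`, `F₂ = f(x-y)^r`, `F₃ = g(y)^p` and the weights
`1/q`, `1/r - 1/q = 1 - 1/p`, `1/p - 1/q = 1 - 1/r`; raise to the power `q`; Tonelli. -/
theorem reg_young {p q r : ℝ} (hp : 1 ≤ p) (hq : 1 ≤ q) (hr : 1 ≤ r)
    (h : 1 / p + 1 / r = 1 + 1 / q) {f g : E → ℝ≥0∞} (hf : Measurable f)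
    (hg : AEMeasurable g volume) :
    ∫⁻ x, (∫⁻ y, f (x - y) * g y) ^ q ≤
      (∫⁻ x, f x ^ r) ^ (q / r) * (∫⁻ y, g y ^ p) ^ (q / p) := by
  have h1 := reg_young_meas hp hq hr h hf hg.measurable_mk
  have e1 : ∀ x, ∫⁻ y, f (x - y) * g y = ∫⁻ y, f (x - y) * hg.mk g y := fun x =>
    lintegral_congr_ae (hg.ae_eq_mk.mono fun y hy => by simp only [hy])
  have e2 : ∫⁻ y, g y ^ p = ∫⁻ y, hg.mk g y ^ p :=
    lintegral_congr_ae (hg.ae_eq_mk.mono fun y hy => by simp only [hy])
  simp_rw [e1]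
  rw [e2]
  exact h1

/-- Hoelder for a convolution. -/
theorem reg_holder_conv {p r : ℝ} (hp : 1 < p) (hr : 1 < r) (h : 1 / p + 1 / r = 1)
    {f g : E → ℝ≥0∞} (hf : Measurable f) (hg : AEMeasurable g volume) (x : E) :
    ∫⁻ y, f (x - y) * g y ≤ (∫⁻ w, f w ^ r) ^ (1 / r) * (∫⁻ y, g y ^ p) ^ (1 / p) := by
  have hc : r.HolderConjugate p := by
    rw [Real.holderConjugate_iff]
    refine ⟨hr, ?_⟩
    rw [← one_div, ← one_div]
    linarith
  have h1 := ENNReal.lintegral_mul_le_Lp_mul_Lq (volume : Measure E) hc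
    (f := fun y => f (x - y)) (g := g)
    (hf.comp (measurable_const.sub measurable_id)).aemeasurable hg
  have e1 : ∫⁻ y, f (x - y) ^ r = ∫⁻ w, f w ^ r := lintegral_sub_left_eq_self (fun w => f w ^ r) x
  rw [e1] at h1
  exact h1

end Claimed.Agent.R259
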