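/-
Row 259, kit REG: the abstract `L^p_loc` ladder (package L-reg-ladder).
Owner of the statements: helper204.

`a = 1/(n+2)`, `r = 1/(1-a) = (n+2)/(n+1)`.  The kernel `regP` of `regT` lies in `L^r`
(Jensen in `s` and scaling: `(s^{1-n})^r s^n = s^{2/(n+1)} ≤ 1`).  If `U = |u| ∈ L^{1/t}_loc` then
`|N(x,u)| ≲ 1 + U^{1+a} ∈ L^{1/((1+a)t)}_loc`; Young gives `P * |N| ∈ L^{1/t'}_loc` with
`t' = (1+a) t - a ≤ t - a/2` (as `t ≤ 1/2`), and Hoelder gives `L^∞_loc` as soon as `(1+a) t ≤ a`.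
-/
import Claimed.Agent.R259.RegYoung

set_option autoImplicit false
set_option linter.unusedVariables false

open MeasureTheory Filter Topology
open scoped ENNReal Convolution

namespace Claimed.Agent.R259

variable {E : Type} [NormedAddCommGroup E] [InnerProductSpace ℝ E] [FiniteDimensional ℝ E]
  [MeasurableSpace E] [BorelSpace E]

/-! ### package REG-LADDER: the abstract ladder -/

theorem reg_lad_mono {U : E → ℝ≥0∞} {t s : ℝ} (ht : 0 < t) (hts : t ≤ s)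
    (h : ∀ ρ : ℝ, ∫⁻ x in Metric.closedBall (0 : E) ρ, U x ^ (1 / t) < ∞) :
    ∀ ρ : ℝ, ∫⁻ x in Metric.closedBall (0 : E) ρ, U x ^ (1 / s) < ∞ := by
  intro ρ
  have hs : 0 < s := lt_of_lt_of_le ht hts
  have hpt : ∀ x, U x ^ (1 / s) ≤ 1 + U x ^ (1 / t) := by
    intro x
    have hst : 1 / s ≤ 1 / t := one_div_le_one_div_of_le ht hts
    rcases le_total (U x) 1 with h1 | h1
    · exact (ENNReal.rpow_le_one h1 (by positivity)).trans le_self_add
    · exact (ENNReal.rpow_le_rpow_of_exponent_le h1 hst).trans le_add_self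
  calc ∫⁻ x in Metric.closedBall (0 : E) ρ, U x ^ (1 / s)
      ≤ ∫⁻ x in Metric.closedBall (0 : E) ρ, (1 + U x ^ (1 / t)) := lintegral_mono hpt
    _ = volume (Metric.closedBall (0 : E) ρ) + ∫⁻ x in Metric.closedBall (0 : E) ρ, U x ^ (1 / t) := by
        rw [lintegral_add_left measurable_const]; simp
    _ < ∞ := ENNReal.add_lt_top.2 ⟨measure_closedBall_lt_top, h ρ⟩

theorem reg_lad_G {a : ℝ} (ha : 0 < a) {U Gn : E → ℝ≥0∞}
    (hG : ∀ r : ℝ, ∃ C : ℝ≥0∞, C < ∞ ∧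
      ∀ᵐ x, x ∈ Metric.closedBall (0 : E) r → Gn x ≤ C * (1 + U x ^ (1 + a)))
    {t : ℝ} (ht : 0 < t) (ht1 : (1 + a) * t ≤ 1)
    (h : ∀ ρ : ℝ, ∫⁻ x in Metric.closedBall (0 : E) ρ, U x ^ (1 / t) < ∞) (ρ : ℝ) :
    ∫⁻ x in Metric.closedBall (0 : E) ρ, Gn x ^ (1 / ((1 + a) * t)) < ∞ := by
  obtain ⟨C, hC, hCG⟩ := hG ρ
  have hat : 0 < (1 + a) * t := by positivity
  set p := 1 / ((1 + a) * t) with hp
  have hp1 : 1 ≤ p := by rw [hp, le_div_iff₀ hat]; linarith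
  have hp0 : 0 < p := by linarith
  have hae : ∀ᵐ x ∂(volume.restrict (Metric.closedBall (0 : E) ρ)),
      Gn x ^ p ≤ C ^ p * 2 ^ (p - 1) * (1 + U x ^ (1 / t)) := by
    rw [ae_restrict_iff' Metric.isClosed_closedBall.measurableSet]
    filter_upwards [hCG] with x hx hxB
    calc Gn x ^ p ≤ (C * (1 + U x ^ (1 + a))) ^ p := ENNReal.rpow_le_rpow (hx hxB) hp0.le
      _ = C ^ p * (1 + U x ^ (1 + a)) ^ p := ENNReal.mul_rpow_of_nonneg _ _ hp0.le
      _ ≤ C ^ p * (2 ^ (p - 1) * (1 ^ p + (U x ^ (1 + a)) ^ p)) :=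
          mul_le_mul_right (ENNReal.rpow_add_le_mul_rpow_add_rpow _ _ hp1) _
      _ = C ^ p * 2 ^ (p - 1) * (1 + U x ^ (1 / t)) := by
          rw [ENNReal.one_rpow, ← ENNReal.rpow_mul, mul_assoc]
          congr 4
          rw [hp]; field_simp
  have hK : C ^ p * 2 ^ (p - 1) < ∞ :=
    ENNReal.mul_lt_top (ENNReal.rpow_lt_top_of_nonneg hp0.le hC.ne)
      (ENNReal.rpow_lt_top_of_nonneg (by linarith) (by norm_num))
  calc ∫⁻ x in Metric.closedBall (0 : E) ρ, Gn x ^ p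
      ≤ ∫⁻ x in Metric.closedBall (0 : E) ρ, C ^ p * 2 ^ (p - 1) * (1 + U x ^ (1 / t)) :=
        lintegral_mono_ae hae
    _ = C ^ p * 2 ^ (p - 1) * (volume (Metric.closedBall (0 : E) ρ)
          + ∫⁻ x in Metric.closedBall (0 : E) ρ, U x ^ (1 / t)) := by
        rw [lintegral_const_mul' _ _ hK.ne, lintegral_add_left measurable_const]; simp
    _ < ∞ := ENNReal.mul_lt_top hK (ENNReal.add_lt_top.2 ⟨measure_closedBall_lt_top, h ρ⟩)

theorem reg_lad_loc {P Gn : E → ℝ≥0∞} (hPs : ∀ w, 2 ≤ ‖w‖ → P w = 0) (ρ : ℝ) {x : E}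
    (hx : x ∈ Metric.closedBall (0 : E) ρ) :
    ∫⁻ y, P (x - y) * Gn y
      = ∫⁻ y, P (x - y) * (Metric.closedBall (0 : E) (ρ + 2)).indicator Gn y := by
  refine lintegral_congr fun y => ?_
  by_cases hy : y ∈ Metric.closedBall (0 : E) (ρ + 2)
  · rw [Set.indicator_of_mem hy]
  · rw [Set.indicator_of_notMem hy, mul_zero, hPs, zero_mul]
    rw [mem_closedBall_zero_iff] at hx hy
    have := norm_sub_norm_le y x
    rw [norm_sub_rev] at this
    push Not at hy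
    linarith

theorem reg_lad_ind {Gn : E → ℝ≥0∞} (R : ℝ) {p : ℝ} (hp : 0 < p) :
    ∫⁻ y, ((Metric.closedBall (0 : E) R).indicator Gn y) ^ p
      = ∫⁻ y in Metric.closedBall (0 : E) R, Gn y ^ p := by
  rw [← lintegral_indicator Metric.isClosed_closedBall.measurableSet]
  refine lintegral_congr fun y => ?_
  by_cases hy : y ∈ Metric.closedBall (0 : E) R
  · rw [Set.indicator_of_mem hy, Set.indicator_of_mem hy]
  · rw [Set.indicator_of_notMem hy, Set.indicator_of_notMem hy, ENNReal.zero_rpow_of_pos hp]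

/-- one step of the ladder -/
theorem reg_lad_step {a : ℝ} (ha : 0 < a) (ha2 : a ≤ 1 / 2) {U H Gn P : E → ℝ≥0∞}
    (hGn : AEMeasurable Gn volume) (hP : Measurable P)
    (hPr : ∫⁻ w, P w ^ (1 / (1 - a)) < ∞) (hPs : ∀ w, 2 ≤ ‖w‖ → P w = 0)
    (hH : ∀ r : ℝ, ∃ C : ℝ≥0∞, C < ∞ ∧ ∀ x ∈ Metric.closedBall (0 : E) r, H x ≤ C)
    (hUle : ∀ᵐ x, U x ≤ H x + ∫⁻ y, P (x - y) * Gn y)
    (hG : ∀ r : ℝ, ∃ C : ℝ≥0∞, C < ∞ ∧
      ∀ᵐ x, x ∈ Metric.closedBall (0 : E) r → Gn x ≤ C * (1 + U x ^ (1 + a)))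
    {t : ℝ} (ht1 : a < (1 + a) * t) (ht2 : t ≤ 1 / 2)
    (h : ∀ ρ : ℝ, ∫⁻ x in Metric.closedBall (0 : E) ρ, U x ^ (1 / t) < ∞) :
    ∀ ρ : ℝ, ∫⁻ x in Metric.closedBall (0 : E) ρ, U x ^ (1 / ((1 + a) * t - a)) < ∞ := by
  intro ρ
  have ht0 : 0 < t := by
    by_contra hcon
    push Not at hcon
    have : (1 + a) * t ≤ 0 := mul_nonpos_of_nonneg_of_nonpos (by linarith) hcon
    linarith
  have hat : 0 < (1 + a) * t := by positivity
  have hat1 : (1 + a) * t ≤ 1 := by nlinarith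
  have ht' : 0 < (1 + a) * t - a := by linarith
  have h1a : 0 < 1 - a := by linarith
  set q := 1 / ((1 + a) * t - a) with hq
  set p := 1 / ((1 + a) * t) with hp
  set r₀ := 1 / (1 - a) with hr₀
  have hq1 : 1 ≤ q := by rw [hq, le_div_iff₀ ht']; linarith
  have hp1 : 1 ≤ p := by rw [hp, le_div_iff₀ hat]; linarith
  have hr1 : 1 ≤ r₀ := by rw [hr₀, le_div_iff₀ h1a]; linarith
  have hq0 : 0 < q := by linarith
  have hp0 : 0 < p := by linarith
  have hr0 : 0 < r₀ := by linarith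
  have hpqr : 1 / p + 1 / r₀ = 1 + 1 / q := by
    rw [hp, hq, hr₀, one_div_one_div, one_div_one_div, one_div_one_div]; ring
  set G' : E → ℝ≥0∞ := (Metric.closedBall (0 : E) (ρ + 2)).indicator Gn with hG'
  have hG'm : AEMeasurable G' volume := hGn.indicator Metric.isClosed_closedBall.measurableSet
  set Y : E → ℝ≥0∞ := fun x => ∫⁻ y, P (x - y) * G' y with hY
  have hYq : ∫⁻ x, Y x ^ q < ∞ := by
    refine lt_of_le_of_lt (reg_young hp1 hq1 hr1 hpqr hP hG'm) ?_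
    refine ENNReal.mul_lt_top (ENNReal.rpow_lt_top_of_nonneg (by positivity) hPr.ne)
      (ENNReal.rpow_lt_top_of_nonneg (by positivity) ?_)
    rw [hG', reg_lad_ind _ hp0]
    exact (reg_lad_G ha hG ht0 hat1 h (ρ + 2)).ne
  obtain ⟨CH, hCH, hHle⟩ := hH ρ
  have hae : ∀ᵐ x ∂(volume.restrict (Metric.closedBall (0 : E) ρ)),
      U x ^ q ≤ 2 ^ (q - 1) * (CH ^ q + Y x ^ q) := by
    rw [ae_restrict_iff' Metric.isClosed_closedBall.measurableSet]
    filter_upwards [hUle] with x hx hxB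
    have h1 : U x ≤ CH + Y x := by
      refine hx.trans ?_
      rw [reg_lad_loc hPs ρ hxB]
      exact add_le_add_left (hHle x hxB) _
    exact (ENNReal.rpow_le_rpow h1 hq0.le).trans (ENNReal.rpow_add_le_mul_rpow_add_rpow _ _ hq1)
  have hK : (2 : ℝ≥0∞) ^ (q - 1) < ∞ := ENNReal.rpow_lt_top_of_nonneg (by linarith) (by norm_num)
  calc ∫⁻ x in Metric.closedBall (0 : E) ρ, U x ^ q
      ≤ ∫⁻ x in Metric.closedBall (0 : E) ρ, 2 ^ (q - 1) * (CH ^ q + Y x ^ q) :=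
        lintegral_mono_ae hae
    _ = 2 ^ (q - 1) * (CH ^ q * volume (Metric.closedBall (0 : E) ρ)
          + ∫⁻ x in Metric.closedBall (0 : E) ρ, Y x ^ q) := by
        rw [lintegral_const_mul' _ _ hK.ne, lintegral_add_left measurable_const]; simp
    _ < ∞ := by
        refine ENNReal.mul_lt_top hK (ENNReal.add_lt_top.2 ⟨?_, ?_⟩)
        · exact ENNReal.mul_lt_top (ENNReal.rpow_lt_top_of_nonneg hq0.le hCH.ne)
            measure_closedBall_lt_top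
        · exact lt_of_le_of_lt (setLIntegral_le_lintegral _ _) hYq

/-- the last step of the ladder -/
theorem reg_lad_final {a : ℝ} (ha : 0 < a) (ha2 : a ≤ 1 / 2) {U H Gn P : E → ℝ≥0∞}
    (hGn : AEMeasurable Gn volume) (hP : Measurable P)
    (hPr : ∫⁻ w, P w ^ (1 / (1 - a)) < ∞) (hPs : ∀ w, 2 ≤ ‖w‖ → P w = 0)
    (hH : ∀ r : ℝ, ∃ C : ℝ≥0∞, C < ∞ ∧ ∀ x ∈ Metric.closedBall (0 : E) r, H x ≤ C)
    (hUle : ∀ᵐ x, U x ≤ H x + ∫⁻ y, P (x - y) * Gn y)
    (hG : ∀ r : ℝ, ∃ C : ℝ≥0∞, C < ∞ ∧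
      ∀ᵐ x, x ∈ Metric.closedBall (0 : E) r → Gn x ≤ C * (1 + U x ^ (1 + a)))
    (h : ∀ ρ : ℝ, ∫⁻ x in Metric.closedBall (0 : E) ρ, U x ^ (1 / (a / (1 + a))) < ∞) :
    ∀ r : ℝ, ∃ C : ℝ≥0∞, C < ∞ ∧ ∀ᵐ x, x ∈ Metric.closedBall (0 : E) r → U x ≤ C := by
  intro ρ
  have h1a : 0 < 1 - a := by linarith
  have ht0 : 0 < a / (1 + a) := by positivity
  have hat : (1 + a) * (a / (1 + a)) = a := by field_simp
  have hGp := reg_lad_G ha hG ht0 (by rw [hat]; linarith) h (ρ + 2)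
  rw [hat] at hGp
  have hp1 : 1 < 1 / a := by rw [lt_div_iff₀ ha]; linarith
  have hr1 : 1 < 1 / (1 - a) := by rw [lt_div_iff₀ h1a]; linarith
  have hpr : 1 / (1 / a) + 1 / (1 / (1 - a)) = 1 := by
    rw [one_div_one_div, one_div_one_div]; ring
  obtain ⟨CH, hCH, hHle⟩ := hH ρ
  set G' : E → ℝ≥0∞ := (Metric.closedBall (0 : E) (ρ + 2)).indicator Gn with hG'
  have hG'm : AEMeasurable G' volume := hGn.indicator Metric.isClosed_closedBall.measurableSet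
  refine ⟨CH + (∫⁻ w, P w ^ (1 / (1 - a))) ^ (1 / (1 / (1 - a))) *
    (∫⁻ y, G' y ^ (1 / a)) ^ (1 / (1 / a)), ?_, ?_⟩
  · refine ENNReal.add_lt_top.2 ⟨hCH, ENNReal.mul_lt_top
      (ENNReal.rpow_lt_top_of_nonneg (by positivity) hPr.ne)
      (ENNReal.rpow_lt_top_of_nonneg (by positivity) ?_)⟩
    rw [hG', reg_lad_ind _ (by positivity)]
    exact hGp.ne
  · filter_upwards [hUle] with x hx hxB
    refine hx.trans ?_
    rw [reg_lad_loc hPs ρ hxB]
    exact add_le_add (hHle x hxB) (reg_holder_conv hp1 hr1 hpr hP hG'm x)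

/-- THE LADDER (see the header). -/
theorem reg_ladder_abs {a : ℝ} (ha : 0 < a) (ha2 : a ≤ 1 / 2) {U H Gn P : E → ℝ≥0∞}
    (hU : AEMeasurable U volume) (hGn : AEMeasurable Gn volume) (hP : Measurable P)
    (hPr : ∫⁻ w, P w ^ (1 / (1 - a)) < ∞) (hPs : ∀ w, 2 ≤ ‖w‖ → P w = 0)
    (hH : ∀ r : ℝ, ∃ C : ℝ≥0∞, C < ∞ ∧ ∀ x ∈ Metric.closedBall (0 : E) r, H x ≤ C)
    (hUle : ∀ᵐ x, U x ≤ H x + ∫⁻ y, P (x - y) * Gn y)
    (hG : ∀ r : ℝ, ∃ C : ℝ≥0∞, C < ∞ ∧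
      ∀ᵐ x, x ∈ Metric.closedBall (0 : E) r → Gn x ≤ C * (1 + U x ^ (1 + a)))
    (h2 : ∀ r : ℝ, ∫⁻ x in Metric.closedBall (0 : E) r, U x ^ (2 : ℝ) < ∞) :
    ∀ r : ℝ, ∃ C : ℝ≥0∞, C < ∞ ∧ ∀ᵐ x, x ∈ Metric.closedBall (0 : E) r → U x ≤ C := by
  set ts : ℝ := a / (1 + a) with hts
  have hts0 : 0 < ts := by positivity
  have hts2 : ts ≤ 1 / 2 := by
    rw [hts, div_le_iff₀ (by linarith)]; linarith
  have hind : ∀ n : ℕ, ∀ ρ : ℝ,
      ∫⁻ x in Metric.closedBall (0 : E) ρ, U x ^ (1 / (max ts (1 / 2 - n * (a / 2)))) < ∞ := by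
    intro n
    induction n with
    | zero =>
      have : max ts (1 / 2 - ((0 : ℕ) : ℝ) * (a / 2)) = 1 / 2 := by
        rw [Nat.cast_zero, zero_mul, sub_zero]; exact max_eq_right hts2
      rw [this, one_div_one_div]
      exact h2
    | succ n ih =>
      rcases le_or_gt (1 / 2 - (n : ℝ) * (a / 2)) ts with hc | hc
      · have e1 : max ts (1 / 2 - (n : ℝ) * (a / 2)) = ts := max_eq_left hc
        have e2 : max ts (1 / 2 - ((n + 1 : ℕ) : ℝ) * (a / 2)) = ts := by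
          apply max_eq_left
          push_cast
          nlinarith
        rw [e2]
        rw [e1] at ih
        exact ih
      · have e1 : max ts (1 / 2 - (n : ℝ) * (a / 2)) = 1 / 2 - (n : ℝ) * (a / 2) := max_eq_right hc.le
        rw [e1] at ih
        set t := 1 / 2 - (n : ℝ) * (a / 2) with ht
        have hn0 : (0 : ℝ) ≤ (n : ℝ) * (a / 2) := by positivity
        have ht2 : t ≤ 1 / 2 := by linarith
        have ht1 : a < (1 + a) * t := by
          have : ts * (1 + a) = a := by rw [hts]; field_simp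
          nlinarith
        have hstep := reg_lad_step ha ha2 hGn hP hPr hPs hH hUle hG ht1 ht2 ih
        refine reg_lad_mono (by linarith) ?_ hstep
        refine le_trans ?_ (le_max_right _ _)
        push_cast
        nlinarith
  obtain ⟨n, hn⟩ := exists_nat_gt (1 / a)
  have hfin : max ts (1 / 2 - (n : ℝ) * (a / 2)) = ts := by
    apply max_eq_left
    have : 1 < (n : ℝ) * a := by rwa [div_lt_iff₀ ha] at hn
    nlinarith
  have := hind n
  rw [hfin] at this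
  exact reg_lad_final ha ha2 hGn hP hPr hPs hH hUle hG this

end Claimed.Agent.R259
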