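/-
Row 259, kit REG: from `L²_loc` to `L^∞_loc`.  GLUE ONLY (no `sorry` here).  Owner: helper204.

`a = 1/(n+2)`, `r = 1/(1-a) = (n+2)/(n+1)`.  The kernel `regP` of `regT` lies in `L^r`
(Jensen in `s` and scaling: `(s^{1-n})^r s^n = s^{2/(n+1)} ≤ 1`).  If `U = |u| ∈ L^{1/t}_loc` then
`|N(x,u)| ≲ 1 + U^{1+a} ∈ L^{1/((1+a)t)}_loc`; Young gives `P * |N| ∈ L^{1/t'}_loc` with
`t' = (1+a) t - a ≤ t - a/2` (as `t ≤ 1/2`), and Hoelder gives `L^∞_loc` as soon as `(1+a) t ≤ a`.
-/
import Claimed.Agent.R259.RegPot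
import Claimed.Agent.R259.RegLadK
import Claimed.Agent.R259.RegLadder

set_option autoImplicit false

open MeasureTheory Filter Topology
open scoped ENNReal Convolution

namespace Claimed.Agent.R259

variable {E : Type} [NormedAddCommGroup E] [InnerProductSpace ℝ E] [FiniteDimensional ℝ E]
  [MeasurableSpace E] [BorelSpace E]

/-! ### GLUE: local boundedness of very weak solutions -/

theorem reg_locBdd {u : E → ℝ} {N : E → ℝ → ℝ} (hgr : RegGrowth N)
    (hu2 : ∀ r : ℝ, ∫⁻ x in Metric.closedBall (0 : E) r, ‖u x‖ₑ ^ (2 : ℝ) < ∞)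
    (h : RegVW u (fun x => N x (u x))) : RegLocBdd u := by
  set n : ℝ := (Module.finrank ℝ E : ℝ) with hn
  have hn0 : 0 ≤ n := Nat.cast_nonneg _
  set a : ℝ := 1 / (n + 2) with ha
  have ha0 : 0 < a := by positivity
  have ha2 : a ≤ 1 / 2 := by
    rw [ha]
    apply one_div_le_one_div_of_le <;> linarith
  have hexp : 1 / (1 - a) = (n + 2) / (n + 1) := by
    have h1 : n + 2 ≠ 0 := by positivity
    have h2 : n + 1 ≠ 0 := by positivity
    have h3 : 1 - 1 / (n + 2) = (n + 1) / (n + 2) := by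
      field_simp
      ring
    rw [ha, h3, one_div_div]
  have humeas : AEStronglyMeasurable u volume := h.1.aestronglyMeasurable
  have hGmeas : AEStronglyMeasurable (fun x => N x (u x)) volume := h.2.1.aestronglyMeasurable
  have hcont : Continuous (regAvg regRho u 1) := (reg_avg_rho_contDiff h.1).continuous
  have key := reg_ladder_abs (E := E) ha0 ha2 (U := fun x => ‖u x‖ₑ)
    (H := fun x => ‖regAvg regRho u 1 x‖ₑ) (Gn := fun x => ‖N x (u x)‖ₑ) (P := regP)
    humeas.enorm hGmeas.enorm reg_P_measurable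
    (by rw [hexp]; exact reg_P_rpow) (fun w hw => reg_P_zero hw)
    (by
      intro r
      obtain ⟨C, hC⟩ :=
        (isCompact_closedBall (0 : E) r).exists_bound_of_continuousOn hcont.continuousOn
      refine ⟨ENNReal.ofReal C, ENNReal.ofReal_lt_top, fun x hx => ?_⟩
      rw [← ofReal_norm]
      exact ENNReal.ofReal_le_ofReal (hC x hx))
    (by
      filter_upwards [reg_repr h] with x hx
      calc ‖u x‖ₑ = ‖regAvg regRho u 1 x + regT (fun x => N x (u x)) x‖ₑ := by rw [← hx]
        _ ≤ ‖regAvg regRho u 1 x‖ₑ + ‖regT (fun x => N x (u x)) x‖ₑ := enorm_add_le _ _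
        _ ≤ _ := by gcongr; exact reg_T_enorm_le hGmeas x)
    (by
      intro r
      obtain ⟨C, hC⟩ := hgr r
      refine ⟨ENNReal.ofReal C, ENNReal.ofReal_lt_top, Eventually.of_forall fun x hx => ?_⟩
      have h1 := hC x hx (u x)
      have h2 : (0 : ℝ) ≤ 1 + |u x| ^ (1 + a) := by positivity
      calc ‖N x (u x)‖ₑ = ENNReal.ofReal |N x (u x)| := by
            rw [← ofReal_norm, Real.norm_eq_abs]
        _ ≤ ENNReal.ofReal (C * (1 + |u x| ^ (1 + a))) := ENNReal.ofReal_le_ofReal h1
        _ ≤ ENNReal.ofReal C * ENNReal.ofReal (1 + |u x| ^ (1 + a)) := by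
            by_cases hC0 : 0 ≤ C
            · rw [ENNReal.ofReal_mul hC0]
            · have : C * (1 + |u x| ^ (1 + a)) ≤ 0 :=
                mul_nonpos_of_nonpos_of_nonneg (le_of_not_ge hC0) h2
              rw [ENNReal.ofReal_of_nonpos this]
              exact zero_le
        _ = ENNReal.ofReal C * (1 + ‖u x‖ₑ ^ (1 + a)) := by
            rw [ENNReal.ofReal_add zero_le_one (by positivity), ENNReal.ofReal_one,
              ← ENNReal.ofReal_rpow_of_nonneg (abs_nonneg _) (by positivity),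
              ← Real.norm_eq_abs, ofReal_norm])
    hu2
  intro r
  obtain ⟨C, hC, hCb⟩ := key r
  refine ⟨C.toReal, ?_⟩
  filter_upwards [hCb] with x hx hxr
  have := hx hxr
  rw [← Real.norm_eq_abs, ← toReal_enorm]
  exact ENNReal.toReal_mono hC.ne this

end Claimed.Agent.R259
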