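/-
Row 259, kit REG: the two abstract regularity theorems (GLUE only, no `sorry` in this file).
Owner: helper204.
* `reg_core`: a very weak `L²_loc` solution of `-Δ u = N(x,u)`, `N` of slightly superlinear growth,
  has a `C¹` representative.
* `reg_boot`: a continuous very weak solution is smooth if `N` is smooth near its graph.
-/
import Claimed.Agent.R259.RegLad

set_option autoImplicit false

open MeasureTheory Filter Topology
open scoped ContDiff

namespace Claimed.Agent.R259

variable {E : Type} [NormedAddCommGroup E] [InnerProductSpace ℝ E] [FiniteDimensional ℝ E]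
  [MeasurableSpace E] [BorelSpace E]

theorem reg_locallyIntegrable_congr {u u' : E → ℝ} (h : LocallyIntegrable u volume)
    (hu : u =ᵐ[volume] u') : LocallyIntegrable u' volume := by
  intro x
  obtain ⟨s, hs, hi⟩ := h x
  exact ⟨s, hs, hi.congr (ae_restrict_of_ae hu)⟩

theorem RegVW.congr_ae {u u' G G' : E → ℝ} (h : RegVW u G) (hu : u =ᵐ[volume] u')
    (hG : G =ᵐ[volume] G') : RegVW u' G' := by
  refine ⟨reg_locallyIntegrable_congr h.1 hu, reg_locallyIntegrable_congr h.2.1 hG,
    fun ξ hξ => ?_⟩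
  have e1 : ∫ x, u' x * Laplacian.laplacian ξ x = ∫ x, u x * Laplacian.laplacian ξ x := by
    refine integral_congr_ae ?_
    filter_upwards [hu] with x hx
    rw [hx]
  have e2 : ∫ x, G' x * ξ x = ∫ x, G x * ξ x := by
    refine integral_congr_ae ?_
    filter_upwards [hG] with x hx
    rw [hx]
  rw [e1, e2]
  exact h.2.2 ξ hξ

/-- the nonlinearity of a locally bounded function is locally bounded. -/
theorem reg_locBdd_comp {u : E → ℝ} {N : E → ℝ → ℝ} (hgr : RegGrowth N) (hb : RegLocBdd u) :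
    RegLocBdd (fun x => N x (u x)) := by
  intro r
  obtain ⟨C, hC⟩ := hgr r
  obtain ⟨B, hB⟩ := hb r
  refine ⟨|C| * (1 + |B| ^ (1 + 1 / ((Module.finrank ℝ E : ℝ) + 2))), ?_⟩
  filter_upwards [hB] with x hx hxr
  have h1 := hC x hxr (u x)
  have h2 : |u x| ≤ |B| := (hx hxr).trans (le_abs_self B)
  have h3 : |u x| ^ (1 + 1 / ((Module.finrank ℝ E : ℝ) + 2)) ≤
      |B| ^ (1 + 1 / ((Module.finrank ℝ E : ℝ) + 2)) :=
    Real.rpow_le_rpow (abs_nonneg _) h2 (by positivity)
  calc |N x (u x)| ≤ C * (1 + |u x| ^ (1 + 1 / ((Module.finrank ℝ E : ℝ) + 2))) := h1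
    _ ≤ |C| * (1 + |u x| ^ (1 + 1 / ((Module.finrank ℝ E : ℝ) + 2))) := by
        gcongr
        exact le_abs_self C
    _ ≤ _ := by gcongr

/-- ABSTRACT THEOREM 1: `L²_loc` very weak solutions are `C¹`. -/
theorem reg_core {u : E → ℝ} {N : E → ℝ → ℝ} (hgr : RegGrowth N)
    (hu2 : ∀ r : ℝ, ∫⁻ x in Metric.closedBall (0 : E) r, ‖u x‖ₑ ^ (2 : ℝ) < ⊤)
    (h : RegVW u (fun x => N x (u x))) :
    ∃ v : E → ℝ, ContDiff ℝ 1 v ∧ u =ᵐ[volume] v ∧ RegVW v (fun x => N x (v x)) := by
  have hb : RegLocBdd u := reg_locBdd hgr hu2 h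
  have hbG : RegLocBdd (fun x => N x (u x)) := reg_locBdd_comp hgr hb
  refine ⟨fun x => regAvg regRho u 1 x + regT (fun x => N x (u x)) x, ?_, reg_repr h, ?_⟩
  · exact ((reg_avg_rho_contDiff h.1).of_le (by exact_mod_cast le_top)).add
      (reg_T_C1 h.2.1 hbG).1
  · refine h.congr_ae (reg_repr h) ?_
    filter_upwards [reg_repr h] with x hx
    rw [← hx]

/-- ABSTRACT THEOREM 2: bootstrap, one classical derivative per step. -/
theorem reg_boot {v : E → ℝ} {N : E → ℝ → ℝ} {O : Set (E × ℝ)}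
    (hN : ContDiffOn ℝ ∞ (Function.uncurry N) O) (hv : Continuous v) (hgr : ∀ x, (x, v x) ∈ O)
    (h : RegVW v (fun x => N x (v x))) : ContDiff ℝ ∞ v := by
  have hcomp : ∀ k : ℕ, ContDiff ℝ k v → ContDiff ℝ k (fun x => N x (v x)) := by
    intro k hk
    have h1 : ContDiffOn ℝ k (Function.uncurry N) O := hN.of_le (by exact_mod_cast le_top)
    have h2 : ContDiff ℝ k (fun x : E => (x, v x)) := contDiff_id.prodMk hk
    exact contDiffOn_univ.1 (h1.comp h2.contDiffOn (fun x _ => hgr x))
  have hGc : Continuous (fun x => N x (v x)) :=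
    (hcomp 0 (by simpa using (contDiff_zero (𝕜 := ℝ)).2 hv)).continuous
  have hfix := reg_fix h hv (reg_locBdd_of_continuous hGc)
  have hfix' : v = fun x => regAvg regRho v 1 x + regT (fun x => N x (v x)) x := funext hfix
  have hind : ∀ k : ℕ, ContDiff ℝ k v := by
    intro k
    induction k with
    | zero => simpa using (contDiff_zero (𝕜 := ℝ)).2 hv
    | succ k ih =>
      rw [hfix']
      have h1 : ContDiff ℝ ((k : ℕ∞ω) + 1) (regT (fun x => N x (v x))) :=
        reg_T_contDiff_succ (hcomp k ih)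
      have h2 : ContDiff ℝ ((k : ℕ∞ω) + 1) (regAvg regRho v 1) :=
        (reg_avg_rho_contDiff h.1).of_le (by exact_mod_cast le_top)
      have := h2.add h1
      simpa using this
  exact contDiff_infty.2 hind

end Claimed.Agent.R259
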