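/-
Row 259, kit REG: calculus of `opA`, integrals against `dm ν`, local integration by parts
(package L-reg-lapB).  Owner of the statements: helper204.  Proofs: helper146 (citations of the kits OP / WS:
`opc_contDiff`, `opc_congr_nhds`, `opc_mul`, `ws_integral_dm`, `wsh_ibp_test`).
-/
import Claimed.Agent.R259.RegLap

set_option autoImplicit false

open MeasureTheory Filter Topology
open scoped ContDiff ENNReal

namespace Claimed.Agent.R259

variable {E : Type} [NormedAddCommGroup E] [InnerProductSpace ℝ E] [FiniteDimensional ℝ E]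
  [MeasurableSpace E] [BorelSpace E]

theorem reg_opA_contDiff {ν : E → ℝ} (hν : ContDiff ℝ ∞ ν) (hpos : ∀ x, 0 < ν x) {f : E → ℝ}
    (hf : ContDiff ℝ ∞ f) : ContDiff ℝ ∞ (opA ν f) :=
  opc_contDiff hν hpos hf

/-- `opA` is a local operator. -/
theorem reg_opA_congr_nhds (ν : E → ℝ) {f₁ f₂ : E → ℝ} {x : E} (h : f₁ =ᶠ[𝓝 x] f₂) :
    opA ν f₁ x = opA ν f₂ x :=
  opc_congr_nhds h

/-- Leibniz rule for `opA`. -/
theorem reg_opA_mul (ν : E → ℝ) {a b : E → ℝ} {x : E} (ha : ContDiffAt ℝ 2 a x)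
    (hb : ContDiffAt ℝ 2 b x) :
    opA ν (fun y => a y * b y) x =
      a x * opA ν b x + b x * opA ν a x - 2 * inner ℝ (gradient a x) (gradient b x) :=
  opc_mul ha hb

/-- Integrals against `dm ν`. -/
theorem reg_integral_dm {ν : E → ℝ} (hν : Continuous ν) (hpos : ∀ x, 0 < ν x) (F : E → ℝ) :
    ∫ x, F x ∂(dm ν) = ∫ x, ν x * F x := by
  rw [ws_integral_dm hν.measurable (fun x => (hpos x).le) F]
  rfl

/-- LOCAL integration by parts (only the weak gradient is used). -/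
theorem reg_ibp_loc {ν : E → ℝ} (hν : ContDiff ℝ ∞ ν) (hpos : ∀ x, 0 < ν x) {u : E → ℝ}
    {g : E → E} (h : WeakGrad u g) {ζ : E → ℝ} (hζ : IsTest ζ) :
    ∫ x, inner ℝ (g x) (gradient ζ x) ∂(dm ν) = ∫ x, u x * opA ν ζ x ∂(dm ν) :=
  wsh_ibp_test hν hpos h hζ

end Claimed.Agent.R259
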