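/-
Row 259, kit REG: conjugation `u = √ν f` (ground state transformation) (package L-reg-conjA).
Owner of the statements: helper204.  Proofs: helper83.

With `a = 1/√ν`: `∇a = -(a/2) ∇ log ν`, hence `opA ν (ξ a) = a (-Δξ) + ξ opA ν a`
(`reg_opA_mul`: the first order terms cancel).  Testing the weak equation
`∫ ⟨g, ∇ζ⟩ dν = ∫ h ζ dν` with `ζ = ξ a` and integrating by parts (`reg_ibp_loc`) gives
`∫ u Δξ = - ∫ (√ν h - W u) ξ`, `W = √ν opA ν a`.
-/
import Claimed.Agent.R259.RegLapB

set_option autoImplicit false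
set_option linter.unusedSectionVars false

open MeasureTheory Filter Topology
open scoped ContDiff

namespace Claimed.Agent.R259

variable {E : Type} [NormedAddCommGroup E] [InnerProductSpace ℝ E] [FiniteDimensional ℝ E]
  [MeasurableSpace E] [BorelSpace E]

theorem reg_sqrt_contDiff {ν : E → ℝ} (hν : ContDiff ℝ ∞ ν) (hpos : ∀ x, 0 < ν x) :
    ContDiff ℝ ∞ (fun x => Real.sqrt (ν x)) :=
  hν.sqrt fun x => (hpos x).ne'

theorem reg_A_contDiff {ν : E → ℝ} (hν : ContDiff ℝ ∞ ν) (hpos : ∀ x, 0 < ν x) :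
    ContDiff ℝ ∞ (regA ν) :=
  (reg_sqrt_contDiff hν hpos).inv fun x => (Real.sqrt_pos.2 (hpos x)).ne'

theorem reg_W_contDiff {ν : E → ℝ} (hν : ContDiff ℝ ∞ ν) (hpos : ∀ x, 0 < ν x) :
    ContDiff ℝ ∞ (regW ν) :=
  (reg_sqrt_contDiff hν hpos).mul (reg_opA_contDiff hν hpos (reg_A_contDiff hν hpos))

theorem reg_C_contDiff {ν : E → ℝ} (hν : ContDiff ℝ ∞ ν) (hpos : ∀ x, 0 < ν x) (lam : ℝ) :
    ContDiff ℝ ∞ (regC ν lam) := by
  unfold regC
  refine (contDiff_const.mul ((reg_A_contDiff hν hpos).log fun x => ?_)).sub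
    (reg_W_contDiff hν hpos)
  exact (inv_pos.2 (Real.sqrt_pos.2 (hpos x))).ne'

/-- `∇ a = -(a/2) ∇ log ν`. -/
theorem regca_gradient_A {ν : E → ℝ} (hν : ContDiff ℝ ∞ ν) (hpos : ∀ x, 0 < ν x) (x : E) :
    gradient (regA ν) x = -((regA ν x / 2) • gradient (fun y => Real.log (ν y)) x) := by
  have hfun : regA ν = fun y => (fun t : ℝ => Real.exp (-t / 2)) (Real.log (ν y)) := by
    funext y
    simp only [regA]
    rw [neg_div, Real.exp_neg, Real.exp_half, Real.exp_log (hpos y)]
  have hL : DifferentiableAt ℝ (fun y => Real.log (ν y)) x :=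
    ((hν.log fun y => (hpos y).ne').differentiable (by simp)) x
  have hΘ : ∀ t : ℝ, HasDerivAt (fun t : ℝ => Real.exp (-t / 2)) (Real.exp (-t / 2) * (-1 / 2)) t := by
    intro t
    have h1 : HasDerivAt (fun t : ℝ => -t / 2) (-1 / 2) t := ((hasDerivAt_id t).neg).div_const 2
    exact h1.exp
  have hx : regA ν x = Real.exp (-(Real.log (ν x)) / 2) := congrFun hfun x
  rw [hx, hfun, ws_gradient_comp (hΘ _).differentiableAt hL, (hΘ _).deriv, ← neg_smul]
  congr 1
  ring

/-- The first order terms cancel. -/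
theorem reg_opA_mul_A {ν : E → ℝ} (hν : ContDiff ℝ ∞ ν) (hpos : ∀ x, 0 < ν x) {ξ : E → ℝ}
    (hξ : ContDiff ℝ ∞ ξ) (x : E) :
    opA ν (fun y => ξ y * regA ν y) x =
      regA ν x * (-(Laplacian.laplacian ξ x)) + ξ x * opA ν (regA ν) x := by
  rw [reg_opA_mul ν (hξ.contDiffAt.of_le ENat.LEInfty.out)
    ((reg_A_contDiff hν hpos).contDiffAt.of_le ENat.LEInfty.out), opc_scalar ν ξ x,
    regca_gradient_A hν hpos, inner_neg_right, inner_smul_right,
    real_inner_comm (gradient ξ x)]
  ring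

/-- CONJUGATION of a weak equation with right-hand side `hh`. -/
theorem reg_conj {ν : E → ℝ} (hν : ContDiff ℝ ∞ ν) (hpos : ∀ x, 0 < ν x) {f hh : E → ℝ}
    {g : E → E} (hw : WeakGrad f g) (hl : LocallyIntegrable hh volume)
    (hE : ∀ ζ : E → ℝ, IsTest ζ → ∫ x, inner ℝ (g x) (gradient ζ x) ∂(dm ν) =
      ∫ x, hh x * ζ x ∂(dm ν)) :
    RegVW (fun x => Real.sqrt (ν x) * f x)
      (fun x => Real.sqrt (ν x) * hh x - regW ν x * (Real.sqrt (ν x) * f x)) := by
  have hsc : Continuous (fun x => Real.sqrt (ν x)) := (reg_sqrt_contDiff hν hpos).continuous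
  have hWc : Continuous (regW ν) := (reg_W_contDiff hν hpos).continuous
  have hAs := reg_A_contDiff hν hpos
  have lu : LocallyIntegrable (fun x => Real.sqrt (ν x) * f x) volume := hw.1.continuous_mul hsc
  have lG : LocallyIntegrable
      (fun x => Real.sqrt (ν x) * hh x - regW ν x * (Real.sqrt (ν x) * f x)) volume :=
    (hl.continuous_mul hsc).sub (lu.continuous_mul hWc)
  refine ⟨lu, lG, fun ξ hξ => ?_⟩
  have hζ : IsTest (fun y => ξ y * regA ν y) := ⟨hξ.1.mul hAs, hξ.2.mul_right⟩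
  have e1 := hE _ hζ
  rw [reg_ibp_loc hν hpos hw hζ, reg_integral_dm hν.continuous hpos,
    reg_integral_dm hν.continuous hpos] at e1
  have hsq : ∀ x, ν x * regA ν x = Real.sqrt (ν x) := by
    intro x
    have h1 : 0 < Real.sqrt (ν x) := Real.sqrt_pos.2 (hpos x)
    have h2 : ν x = Real.sqrt (ν x) * Real.sqrt (ν x) := (Real.mul_self_sqrt (hpos x).le).symm
    unfold regA
    field_simp
    nlinarith [h2]
  have hLc : Continuous (Laplacian.laplacian ξ) := (reg_laplacian_contDiff hξ.1).continuous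
  have hLs : HasCompactSupport (Laplacian.laplacian ξ) := by
    have h := opc_hasCompactSupport (fun _ : E => (1 : ℝ)) hξ.2
    have e : opA (fun _ : E => (1 : ℝ)) ξ = fun x => - Laplacian.laplacian ξ x :=
      funext fun x => opc_one ξ x
    rw [e] at h
    have e2 : Laplacian.laplacian ξ = -(fun x => - Laplacian.laplacian ξ x) := by
      funext x; simp
    rw [e2]
    exact h.neg
  have i1 : Integrable (fun x => (Real.sqrt (ν x) * f x) * Laplacian.laplacian ξ x) volume :=
    lu.integrable_smul_right_of_hasCompactSupport hLc hLs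
  have i2 : Integrable (fun x => (regW ν x * (Real.sqrt (ν x) * f x)) * ξ x) volume :=
    (lu.continuous_mul hWc).integrable_smul_right_of_hasCompactSupport hξ.1.continuous hξ.2
  have i3 : Integrable (fun x => (Real.sqrt (ν x) * hh x) * ξ x) volume :=
    (hl.continuous_mul hsc).integrable_smul_right_of_hasCompactSupport hξ.1.continuous hξ.2
  have l1 : ∫ x, ν x * (f x * opA ν (fun y => ξ y * regA ν y) x) =
      (- ∫ x, (Real.sqrt (ν x) * f x) * Laplacian.laplacian ξ x) +
        ∫ x, (regW ν x * (Real.sqrt (ν x) * f x)) * ξ x := by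
    have i1' : Integrable (fun x => -((Real.sqrt (ν x) * f x) * Laplacian.laplacian ξ x)) volume :=
      i1.neg
    rw [← integral_neg, ← integral_add i1' i2]
    refine integral_congr_ae (Eventually.of_forall fun x => ?_)
    simp only [reg_opA_mul_A hν hpos hξ.1, regW]
    have := hsq x
    have h2 : ν x = Real.sqrt (ν x) * Real.sqrt (ν x) := (Real.mul_self_sqrt (hpos x).le).symm
    calc ν x * (f x * (regA ν x * -Laplacian.laplacian ξ x + ξ x * opA ν (regA ν) x))
        = (ν x * regA ν x) * f x * (-Laplacian.laplacian ξ x) +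
            ν x * (f x * ξ x * opA ν (regA ν) x) := by ring
      _ = Real.sqrt (ν x) * f x * (-Laplacian.laplacian ξ x) +
            (Real.sqrt (ν x) * Real.sqrt (ν x)) * (f x * ξ x * opA ν (regA ν) x) := by
          rw [this, ← h2]
      _ = _ := by ring
  have l2 : ∫ x, ν x * (hh x * (ξ x * regA ν x)) = ∫ x, (Real.sqrt (ν x) * hh x) * ξ x := by
    refine integral_congr_ae (Eventually.of_forall fun x => ?_)
    simp only
    rw [← hsq x]
    ring
  rw [l1, l2] at e1
  have l3 : ∫ x, (Real.sqrt (ν x) * hh x - regW ν x * (Real.sqrt (ν x) * f x)) * ξ x =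
      (∫ x, (Real.sqrt (ν x) * hh x) * ξ x) -
        ∫ x, (regW ν x * (Real.sqrt (ν x) * f x)) * ξ x := by
    rw [← integral_sub i3 i2]
    refine integral_congr_ae (Eventually.of_forall fun x => ?_)
    simp only
    ring
  rw [l3]
  linarith

end Claimed.Agent.R259
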