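/-
Row 259, kit REG: from the weak to the classical equation (package L-reg-conjB).
Owner of the statement: helper204.  Proof: helper83.
-/
import Claimed.Agent.R259.RegLapB

set_option autoImplicit false
set_option linter.unusedSectionVars false

open MeasureTheory Filter Topology
open scoped ContDiff

namespace Claimed.Agent.R259

variable {E : Type} [NormedAddCommGroup E] [InnerProductSpace ℝ E] [FiniteDimensional ℝ E]
  [MeasurableSpace E] [BorelSpace E]

/-- WEAK TO CLASSICAL.  Proof: for a test `ζ` take a test `χ` with `χ = 1` near `tsupport ζ`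
(`exists_contDiff_tsupport_subset` or `exists_smooth_one_nhds_of_subset_interior`-type lemmas);
`reg_ibp_loc` with `u := ζ`, `g := ∇ζ` (`ws_weakGrad_of_contDiff`) and the test `χ F`; by locality
(`reg_opA_congr_nhds`) `∫ ⟨∇ζ, ∇F⟩ dν = ∫ ζ opA ν F dν`.  So `∫ (opA ν F - hh) ν ζ = 0` for all tests;
`ae_eq_zero_of_integral_contDiff_smul_eq_zero`, continuity (`reg_opA_contDiff`),
`Continuous.ae_eq_iff_eq`. -/
theorem reg_weak_to_classical {ν : E → ℝ} (hν : ContDiff ℝ ∞ ν) (hpos : ∀ x, 0 < ν x)
    {F hh : E → ℝ} (hF : ContDiff ℝ ∞ F) (hh' : Continuous hh)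
    (hE : ∀ ζ : E → ℝ, IsTest ζ → ∫ x, inner ℝ (gradient F x) (gradient ζ x) ∂(dm ν) =
      ∫ x, hh x * ζ x ∂(dm ν)) :
    ∀ x, opA ν F x = hh x := by
  have hm : Measurable ν := hν.continuous.measurable
  have h0 : ∀ x, 0 ≤ ν x := fun x => (hpos x).le
  have hAc : Continuous (opA ν F) := (reg_opA_contDiff hν hpos hF).continuous
  have hcont : Continuous (fun x => ν x * (opA ν F x - hh x)) :=
    hν.continuous.mul (hAc.sub hh')
  have hae : ∀ᵐ x : E, ν x * (opA ν F x - hh x) = 0 := by
    refine ae_eq_zero_of_integral_contDiff_smul_eq_zero hcont.locallyIntegrable ?_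
    intro ζ hζ hc
    have hζt : IsTest ζ := ⟨hζ, hc⟩
    have e1 := wsh_ibp_classical hν hpos hF hζt
    have e2 := hE ζ hζt
    have e3 : ∫ x, ζ x * opA ν F x ∂(dm ν) = ∫ x, hh x * ζ x ∂(dm ν) := by
      rw [← e1, ← e2]
      simp only [real_inner_comm]
    rw [ws_integral_dm hm h0, ws_integral_dm hm h0] at e3
    have i1 : Integrable (fun x => ν x • (ζ x * opA ν F x)) volume :=
      (hν.continuous.smul (hζ.continuous.mul hAc)).integrable_of_hasCompactSupport
        (hc.mul_right.smul_left)
    have i2 : Integrable (fun x => ν x • (hh x * ζ x)) volume :=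
      (hν.continuous.smul (hh'.mul hζ.continuous)).integrable_of_hasCompactSupport
        (hc.mul_left.smul_left)
    have : ∫ x, (ν x • (ζ x * opA ν F x) - ν x • (hh x * ζ x)) = 0 := by
      rw [integral_sub i1 i2, e3, sub_self]
    rw [← this]
    refine integral_congr_ae (Eventually.of_forall fun x => ?_)
    simp only [smul_eq_mul]
    ring
  have hall : (fun x => ν x * (opA ν F x - hh x)) = fun _ => (0 : ℝ) :=
    (hcont.ae_eq_iff_eq volume continuous_const).mp hae
  intro x
  have := congrFun hall x
  rcases mul_eq_zero.mp this with h | h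
  · exact absurd h (hpos x).ne'
  · linarith

end Claimed.Agent.R259
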