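/-
Row 259, kit REG: integrability, growth and smoothness of the nonlinearity (package L-reg-conjC).
Owner of the statements: helper204.  Proofs: helper83.  `reg_C_contDiff` (RegConjA.lean) may be cited.
-/
import Claimed.Agent.R259.RegConjA

set_option autoImplicit false
set_option linter.unusedSectionVars false

open MeasureTheory Filter Topology
open scoped ContDiff

namespace Claimed.Agent.R259

variable {E : Type} [NormedAddCommGroup E] [InnerProductSpace ℝ E] [FiniteDimensional ℝ E]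
  [MeasurableSpace E] [BorelSpace E]

/-- `L²(ν)` functions are `L²_loc`, also after multiplication by a continuous function. -/
theorem reg_L2loc_of_memLp {ν : E → ℝ} (hν : Continuous ν) (hpos : ∀ x, 0 < ν x) {f : E → ℝ}
    (hf : MemLp f 2 (dm ν)) {w : E → ℝ} (hw : Continuous w) (r : ℝ) :
    ∫⁻ x in Metric.closedBall (0 : E) r, ‖w x * f x‖ₑ ^ (2 : ℝ) < ⊤ := by
  have hK : IsCompact (Metric.closedBall (0 : E) r) := isCompact_closedBall 0 r
  have h1 := ws_memLp_restrict hν hpos hf hK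
  obtain ⟨C, hC⟩ := hK.exists_bound_of_continuousOn hw.continuousOn
  have h2 : MemLp (fun x => w x * f x) 2 ((volume : Measure E).restrict (Metric.closedBall 0 r)) := by
    refine h1.of_le_mul (c := C) (hw.aestronglyMeasurable.mul h1.1) ?_
    refine (ae_restrict_iff' measurableSet_closedBall).2 (Eventually.of_forall fun x hx => ?_)
    rw [norm_mul]
    exact mul_le_mul_of_nonneg_right (hC x hx) (norm_nonneg _)
  have := lintegral_rpow_enorm_lt_top_of_eLpNorm_lt_top (p := 2) (by norm_num) (by norm_num) h2.2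
  simpa using this

theorem regcc_abs_mul_log_le (z : ℝ) : |z * Real.log z| ≤ 1 + z ^ 2 := by
  rcases eq_or_ne z 0 with rfl | hz
  · simp
  have hz' : 0 < |z| := abs_pos.mpr hz
  rw [abs_mul, ← Real.log_abs z]
  rcases le_or_gt |z| 1 with h | h
  · have := Real.abs_log_mul_self_lt |z| hz' h
    rw [abs_mul, abs_abs] at this
    nlinarith [sq_nonneg z]
  · have h1 : 0 ≤ Real.log |z| := Real.log_nonneg h.le
    have h2 : Real.log |z| ≤ |z| := (Real.log_le_sub_one_of_pos hz').trans (by linarith)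
    rw [abs_of_nonneg h1]
    have : |z| * Real.log |z| ≤ |z| * |z| := mul_le_mul_of_nonneg_left h2 hz'.le
    have e : |z| * |z| = z ^ 2 := by rw [← sq, sq_abs]
    linarith

/-- `|z log z| ≤ 1 + z²`. -/
theorem reg_mulLog_locInt {f : E → ℝ} (hf : LocallyIntegrable f volume)
    (hf2 : ∀ r : ℝ, ∫⁻ x in Metric.closedBall (0 : E) r, ‖f x‖ₑ ^ (2 : ℝ) < ⊤) :
    LocallyIntegrable (fun x => f x * Real.log (f x)) volume := by
  rw [locallyIntegrable_iff]
  intro K hK
  obtain ⟨r, hr⟩ := hK.isBounded.subset_closedBall (0 : E)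
  refine IntegrableOn.mono_set ?_ hr
  have hm : AEStronglyMeasurable f ((volume : Measure E).restrict (Metric.closedBall 0 r)) :=
    hf.aestronglyMeasurable.restrict
  have hfin : IsFiniteMeasure ((volume : Measure E).restrict (Metric.closedBall 0 r)) :=
    ⟨by rw [Measure.restrict_apply MeasurableSet.univ, Set.univ_inter]
        exact (isCompact_closedBall (0 : E) r).measure_lt_top⟩
  have h2 : MemLp f 2 ((volume : Measure E).restrict (Metric.closedBall 0 r)) := by
    refine ⟨hm, ?_⟩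
    rw [eLpNorm_lt_top_iff_lintegral_rpow_enorm_lt_top (by norm_num) (by norm_num)]
    simpa using hf2 r
  have hsq : Integrable (fun x => f x ^ 2) ((volume : Measure E).restrict (Metric.closedBall 0 r)) := by
    simpa using h2.integrable_norm_pow (by norm_num : (2:ℕ) ≠ 0)
  refine ((integrable_const (1 : ℝ)).add hsq).mono' ?_ (Eventually.of_forall fun x => ?_)
  · exact hm.mul (Real.measurable_log.comp_aemeasurable hm.aemeasurable).aestronglyMeasurable
  · exact regcc_abs_mul_log_le (f x)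

theorem regcc_abs_le_rpow {δ : ℝ} (hδ : 0 < δ) (z : ℝ) : |z| ≤ 1 + |z| ^ (1 + δ) := by
  rcases le_or_gt |z| 1 with h | h
  · have : 0 ≤ |z| ^ (1 + δ) := Real.rpow_nonneg (abs_nonneg z) _
    linarith
  · have : |z| ^ (1 : ℝ) ≤ |z| ^ (1 + δ) := Real.rpow_le_rpow_of_exponent_le h.le (by linarith)
    rw [Real.rpow_one] at this
    linarith

theorem regcc_mul_log_rpow {δ : ℝ} (hδ : 0 < δ) (z : ℝ) :
    |z * Real.log z| ≤ (1 + 1 / δ) * (1 + |z| ^ (1 + δ)) := by
  have hp : 0 ≤ |z| ^ (1 + δ) := Real.rpow_nonneg (abs_nonneg z) _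
  have hd : 0 < 1 / δ := by positivity
  rcases eq_or_ne z 0 with rfl | hz
  · simp only [zero_mul, abs_zero]; positivity
  have hz' : 0 < |z| := abs_pos.mpr hz
  rw [abs_mul, ← Real.log_abs z]
  rcases le_or_gt |z| 1 with h | h
  · have := Real.abs_log_mul_self_lt |z| hz' h
    rw [abs_mul, abs_abs] at this
    nlinarith
  · have h1 : 0 ≤ Real.log |z| := Real.log_nonneg h.le
    have h2 : Real.log |z| ≤ |z| ^ δ / δ := Real.log_le_rpow_div hz'.le hδ
    rw [abs_of_nonneg h1]
    have h3 : |z| * Real.log |z| ≤ |z| * (|z| ^ δ / δ) := mul_le_mul_of_nonneg_left h2 hz'.le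
    have e : |z| * (|z| ^ δ / δ) = 1 / δ * |z| ^ (1 + δ) := by
      rw [Real.rpow_add hz', Real.rpow_one]; ring
    rw [e] at h3
    nlinarith

theorem regcc_delta_pos : (0 : ℝ) < 1 / ((Module.finrank ℝ E : ℝ) + 2) := by positivity

theorem reg_growth_lin {c : E → ℝ} (hc : Continuous c) : RegGrowth (fun x z => c x * z) := by
  intro r
  obtain ⟨C, hC⟩ := (isCompact_closedBall (0 : E) r).exists_bound_of_continuousOn hc.continuousOn
  refine ⟨|C|, fun x hx z => ?_⟩
  rw [abs_mul]
  have h1 : |c x| ≤ |C| := (hC x hx).trans (le_abs_self C)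
  have h2 := regcc_abs_le_rpow (regcc_delta_pos (E := E)) z
  exact mul_le_mul h1 h2 (abs_nonneg _) (abs_nonneg _)

/-- `|z log z| ≤ C_δ (1 + |z|^{1+δ})` (`Real.log_le_rpow_div`, `Real.abs_log_mul_self_lt`...). -/
theorem reg_growth_N {ν : E → ℝ} (hν : ContDiff ℝ ∞ ν) (hpos : ∀ x, 0 < ν x) (lam : ℝ) :
    RegGrowth (regN ν lam) := by
  intro r
  obtain ⟨C, hC⟩ := reg_growth_lin (reg_C_contDiff hν hpos lam).continuous r
  set δ : ℝ := 1 / ((Module.finrank ℝ E : ℝ) + 2) with hδ
  have hδ0 : 0 < δ := regcc_delta_pos (E := E)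
  refine ⟨|lam| * (1 + 1 / δ) + C, fun x hx z => ?_⟩
  unfold regN
  have h1 := hC x hx z
  have h2 := regcc_mul_log_rpow hδ0 z
  calc |lam * (z * Real.log z) + regC ν lam x * z|
      ≤ |lam * (z * Real.log z)| + |regC ν lam x * z| := abs_add_le _ _
    _ ≤ |lam| * ((1 + 1 / δ) * (1 + |z| ^ (1 + δ))) + C * (1 + |z| ^ (1 + δ)) := by
        rw [abs_mul]
        exact add_le_add (mul_le_mul_of_nonneg_left h2 (abs_nonneg _)) h1
    _ = _ := by ring

theorem reg_N_contDiffOn {ν : E → ℝ} (hν : ContDiff ℝ ∞ ν) (hpos : ∀ x, 0 < ν x) (lam : ℝ) :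
    ContDiffOn ℝ ∞ (Function.uncurry (regN ν lam)) {p : E × ℝ | 0 < p.2} := by
  have e : Function.uncurry (regN ν lam) =
      fun p : E × ℝ => lam * (p.2 * Real.log p.2) + regC ν lam p.1 * p.2 := by
    funext p
    rfl
  rw [e]
  have h2 : ContDiffOn ℝ ∞ (fun p : E × ℝ => p.2) {p : E × ℝ | 0 < p.2} := contDiff_snd.contDiffOn
  have h3 : ContDiffOn ℝ ∞ (fun p : E × ℝ => Real.log p.2) {p : E × ℝ | 0 < p.2} :=
    h2.log fun p hp => (show (0 : ℝ) < p.2 from hp).ne'
  have h4 : ContDiffOn ℝ ∞ (fun p : E × ℝ => regC ν lam p.1) {p : E × ℝ | 0 < p.2} :=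
    ((reg_C_contDiff hν hpos lam).comp contDiff_fst).contDiffOn
  exact (contDiffOn_const.mul (h2.mul h3)).add (h4.mul h2)

end Claimed.Agent.R259
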