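/-
Row 259, kit REG: conjugation of the nonlinear equation.  GLUE ONLY (no `sorry` here).
Owner: helper204.
-/
import Claimed.Agent.R259.RegBoot
import Claimed.Agent.R259.RegConjA
import Claimed.Agent.R259.RegConjB
import Claimed.Agent.R259.RegConjC

set_option autoImplicit false
set_option linter.unusedSectionVars false

open MeasureTheory Filter Topology
open scoped ContDiff

namespace Claimed.Agent.R259

variable {E : Type} [NormedAddCommGroup E] [InnerProductSpace ℝ E] [FiniteDimensional ℝ E]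
  [MeasurableSpace E] [BorelSpace E]

/-! ### GLUE -/

theorem reg_A_pos {ν : E → ℝ} (hpos : ∀ x, 0 < ν x) (x : E) : 0 < regA ν x :=
  inv_pos.2 (Real.sqrt_pos.2 (hpos x))

theorem reg_A_mul_sqrt {ν : E → ℝ} (hpos : ∀ x, 0 < ν x) (x : E) :
    regA ν x * Real.sqrt (ν x) = 1 :=
  inv_mul_cancel₀ (Real.sqrt_pos.2 (hpos x)).ne'

/-- the conjugated right-hand side of the nonlinear equation. -/
theorem reg_conj_pointwise {ν : E → ℝ} (hpos : ∀ x, 0 < ν x) (lam : ℝ) (f : E → ℝ) (x : E) :
    Real.sqrt (ν x) * (lam * (f x * Real.log (f x))) - regW ν x * (Real.sqrt (ν x) * f x) =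
      regN ν lam x (Real.sqrt (ν x) * f x) := by
  unfold regN regC
  have hs : 0 < Real.sqrt (ν x) := Real.sqrt_pos.2 (hpos x)
  by_cases hf : f x = 0
  · simp [hf]
  · have h1 : Real.log (Real.sqrt (ν x) * f x) = Real.log (Real.sqrt (ν x)) + Real.log (f x) :=
      Real.log_mul hs.ne' hf
    have h2 : Real.log (regA ν x) = - Real.log (Real.sqrt (ν x)) := by
      unfold regA
      rw [Real.log_inv]
    rw [h1, h2]
    ring

/-- CONJUGATION of the nonlinear equation. -/
theorem reg_conj_log {ν : E → ℝ} (hν : ContDiff ℝ ∞ ν) (hpos : ∀ x, 0 < ν x) {lam : ℝ}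
    {f : E → ℝ} {g : E → E} (hw : WeakGrad f g)
    (hl : LocallyIntegrable (fun x => f x * Real.log (f x)) volume)
    (hE : ∀ ζ : E → ℝ, IsTest ζ → ∫ x, inner ℝ (g x) (gradient ζ x) ∂(dm ν) =
      lam * ∫ x, f x * Real.log (f x) * ζ x ∂(dm ν)) :
    RegVW (fun x => Real.sqrt (ν x) * f x)
      (fun x => regN ν lam x (Real.sqrt (ν x) * f x)) := by
  have h1 := reg_conj hν hpos (hh := fun x => lam * (f x * Real.log (f x))) hw
    (hl.smul lam) (fun ζ hζ => by
      rw [hE ζ hζ, ← integral_const_mul]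
      congr 1
      funext x
      ring)
  have h2 : (fun x => Real.sqrt (ν x) * (lam * (f x * Real.log (f x))) -
      regW ν x * (Real.sqrt (ν x) * f x)) =
      fun x => regN ν lam x (Real.sqrt (ν x) * f x) :=
    funext fun x => reg_conj_pointwise hpos lam f x
  rw [h2] at h1
  exact h1

end Claimed.Agent.R259
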