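/-
Row 259, kit POS (strict positivity of the optimiser; Lemma 3.4, last part).  EXPORTS (statements fixed by sub-captain helper83).
Owner: helper204.  This file is GLUE ONLY (no `sorry` here): conjugation `u = √ν F` (RegConj.lean) and
`pos_vw` (PosCore.lean).
-/
import Claimed.Agent.R259.RegConj
import Claimed.Agent.R259.PosCore

set_option autoImplicit false

open MeasureTheory Filter Topology ProbabilityTheory
open scoped ContDiff ENNReal

namespace Claimed.Agent.R259

variable {E : Type} [NormedAddCommGroup E] [InnerProductSpace ℝ E] [FiniteDimensional ℝ E]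
  [MeasurableSpace E] [BorelSpace E]

/-- POSITIVITY (Osgood).  A nonnegative `C¹` weak solution of `A_ν F = λ F log F`, `λ > 0`, which is
not identically zero is strictly positive.  Plan: `v = √ν F`, `-Δ v = λ v log v + c v` (very weak);
for a zero `x₀` put `M(r) = (ρ_r * v)(x₀)`; `M' ≤ r g(M)`, `g(z) = -λ z log z + C z` (Jensen);
Osgood's lemma gives `M ≡ 0` near `0`, so the zero set is open (and closed). -/
theorem pos_main {ν : E → ℝ} (hν : ContDiff ℝ ∞ ν) (hpos : ∀ x, 0 < ν x) {lam : ℝ}
    (hlam : 0 < lam) {F : E → ℝ} (hF : ContDiff ℝ 1 F) (h0 : ∀ x, 0 ≤ F x) (hne : ∃ x, F x ≠ 0)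
    (hE : ∀ ζ : E → ℝ, IsTest ζ → ∫ x, inner ℝ (gradient F x) (gradient ζ x) ∂(dm ν) =
      lam * ∫ x, F x * Real.log (F x) * ζ x ∂(dm ν)) :
    ∀ x, 0 < F x := by
  have hFc : Continuous F := hF.continuous
  have hlc : Continuous (fun x => F x * Real.log (F x)) := Real.continuous_mul_log.comp hFc
  have hvw := reg_conj_log hν hpos (ws_weakGrad_of_contDiff hF) hlc.locallyIntegrable hE
  have hsq := (reg_sqrt_contDiff hν hpos).continuous
  intro x
  by_contra hx
  have hx0 : F x = 0 := le_antisymm (not_lt.1 hx) (h0 x)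
  have hz := pos_vw (v := fun x => Real.sqrt (ν x) * F x) (c := regC ν lam) hlam
    (reg_C_contDiff hν hpos lam).continuous (hsq.mul hFc)
    (fun y => mul_nonneg (Real.sqrt_nonneg _) (h0 y)) hvw (x₀ := x) (by simp [hx0])
  obtain ⟨y, hy⟩ := hne
  rcases mul_eq_zero.1 (hz y) with h1 | h1
  · exact (Real.sqrt_pos.2 (hpos y)).ne' h1
  · exact hy h1

end Claimed.Agent.R259
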