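/-
Row 259, kit REG (interior regularity for A_nu f = lam f log f and A_nu phi = lam phi; Lemma 3.4, second half).  EXPORTS (statements fixed by sub-captain helper83).
Owner: helper204.  This file is GLUE ONLY (no `sorry` here): everything is reduced to the two abstract
theorems `reg_core`, `reg_boot` (RegBoot.lean) by the conjugation `u = √ν f` (RegConj.lean).
Plan of the kit: see RegDefs.lean.  No cutoffs of the solution, no CZ / Schauder / Weyl / Sobolev.
-/
import Claimed.Agent.R259.RegConj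

set_option autoImplicit false

open MeasureTheory Filter Topology ProbabilityTheory
open scoped ContDiff ENNReal

namespace Claimed.Agent.R259

variable {E : Type} [NormedAddCommGroup E] [InnerProductSpace ℝ E] [FiniteDimensional ℝ E]
  [MeasurableSpace E] [BorelSpace E]

/-- back from `u = √ν f` to `f`: a.e. equality, and identification of the weak gradient. -/
theorem reg_back {ν : E → ℝ} (hν : ContDiff ℝ ∞ ν) (hpos : ∀ x, 0 < ν x)
    {f : E → ℝ} {g : E → E} (hw : WeakGrad f g) {v : E → ℝ} (hv : ContDiff ℝ 1 v)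
    (hfv : (fun x => Real.sqrt (ν x) * f x) =ᵐ[volume] v) :
    ContDiff ℝ 1 (fun x => regA ν x * v x) ∧ f =ᵐ[volume] (fun x => regA ν x * v x) ∧
      g =ᵐ[volume] gradient (fun x => regA ν x * v x) := by
  have hF : ContDiff ℝ 1 (fun x => regA ν x * v x) :=
    ((reg_A_contDiff hν hpos).of_le (by exact_mod_cast le_top)).mul hv
  have hfF : f =ᵐ[volume] (fun x => regA ν x * v x) := by
    filter_upwards [hfv] with x hx
    rw [← hx, ← mul_assoc, reg_A_mul_sqrt hpos, one_mul]
  refine ⟨hF, hfF, ?_⟩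
  exact ws_weakGrad_unique (ws_weakGrad_congr hw hfF (ae_eq_refl g)) (ws_weakGrad_of_contDiff hF)

/-! ### kit REG, step 1: from `H¹` to `C¹` -/

/-- A nonnegative weak solution of `A_ν f = λ f log f` has a `C¹` representative. -/
theorem reg_C1 {ν : E → ℝ} (hν : ContDiff ℝ ∞ ν) (hpos : ∀ x, 0 < ν x) {lam : ℝ}
    {f : E → ℝ} {g : E → E} (h : H1 (dm ν) f g) (h0 : ∀ x, 0 ≤ f x)
    (hE : ∀ ζ : E → ℝ, IsTest ζ → ∫ x, inner ℝ (g x) (gradient ζ x) ∂(dm ν) =
      lam * ∫ x, f x * Real.log (f x) * ζ x ∂(dm ν)) :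
    ∃ F : E → ℝ, ContDiff ℝ 1 F ∧ f =ᵐ[volume] F ∧ g =ᵐ[volume] gradient F := by
  have hf2 : ∀ r : ℝ, ∫⁻ x in Metric.closedBall (0 : E) r, ‖f x‖ₑ ^ (2 : ℝ) < ⊤ := by
    intro r
    simpa using reg_L2loc_of_memLp hν.continuous hpos h.2.1 (w := fun _ => (1 : ℝ))
      continuous_const r
  have hl := reg_mulLog_locInt h.1.1 hf2
  have hvw := reg_conj_log hν hpos h.1 hl hE
  obtain ⟨v, hv, huv, -⟩ := reg_core (reg_growth_N hν hpos lam)
    (fun r => reg_L2loc_of_memLp hν.continuous hpos h.2.1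
      (reg_sqrt_contDiff hν hpos).continuous r) hvw
  exact ⟨_, reg_back hν hpos h.1 hv huv⟩

/-! ### kit REG, step 2: smoothness of positive `C¹` solutions (gain of one derivative per step) -/

/-- A positive `C¹` weak solution is smooth and classical. -/
theorem reg_smooth {ν : E → ℝ} (hν : ContDiff ℝ ∞ ν) (hpos : ∀ x, 0 < ν x) {lam : ℝ}
    {F : E → ℝ} (hF : ContDiff ℝ 1 F) (hFpos : ∀ x, 0 < F x)
    (hE : ∀ ζ : E → ℝ, IsTest ζ → ∫ x, inner ℝ (gradient F x) (gradient ζ x) ∂(dm ν) =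
      lam * ∫ x, F x * Real.log (F x) * ζ x ∂(dm ν)) :
    ContDiff ℝ ∞ F ∧ ∀ x, opA ν F x = lam * (F x * Real.log (F x)) := by
  have hFc : Continuous F := hF.continuous
  have hlc : Continuous (fun x => F x * Real.log (F x)) :=
    hFc.mul (hFc.log fun x => (hFpos x).ne')
  have hvw := reg_conj_log hν hpos (ws_weakGrad_of_contDiff hF) hlc.locallyIntegrable hE
  have hsq := reg_sqrt_contDiff hν hpos
  have hu : ContDiff ℝ ∞ (fun x => Real.sqrt (ν x) * F x) :=
    reg_boot (reg_N_contDiffOn hν hpos lam) (hsq.continuous.mul hFc)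
      (fun x => mul_pos (Real.sqrt_pos.2 (hpos x)) (hFpos x)) hvw
  have hFs : ContDiff ℝ ∞ F := by
    have h1 : F = fun x => regA ν x * (Real.sqrt (ν x) * F x) := by
      funext x
      rw [← mul_assoc, reg_A_mul_sqrt hpos, one_mul]
    rw [h1]
    exact (reg_A_contDiff hν hpos).mul hu
  refine ⟨hFs, reg_weak_to_classical hν hpos hFs (continuous_const.mul hlc) fun ζ hζ => ?_⟩
  rw [hE ζ hζ, ← integral_const_mul]
  congr 1
  funext x
  ring

/-- A weak solution of the linear equation `A_ν φ = λ φ` is (a.e. equal to) a smooth one. -/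
theorem reg_linear {ν : E → ℝ} (hν : ContDiff ℝ ∞ ν) (hpos : ∀ x, 0 < ν x) {lam : ℝ}
    {φ : E → ℝ} {g : E → E} (h : H1 (dm ν) φ g)
    (hE : ∀ ζ : E → ℝ, IsTest ζ → ∫ x, inner ℝ (g x) (gradient ζ x) ∂(dm ν) =
      lam * ∫ x, φ x * ζ x ∂(dm ν)) :
    ∃ F : E → ℝ, ContDiff ℝ ∞ F ∧ φ =ᵐ[volume] F ∧ g =ᵐ[volume] gradient F ∧
      ∀ x, opA ν F x = lam * F x := by
  have hW := reg_W_contDiff hν hpos
  have hsq := reg_sqrt_contDiff hν hpos
  -- the conjugated equation
  have h1 := reg_conj hν hpos (hh := fun x => lam * φ x) h.1 (h.1.1.smul lam) (fun ζ hζ => by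
    rw [hE ζ hζ, ← integral_const_mul]
    congr 1
    funext x
    ring)
  have h2 : (fun x => Real.sqrt (ν x) * (lam * φ x) - regW ν x * (Real.sqrt (ν x) * φ x)) =
      fun x => (fun (y : E) (z : ℝ) => (lam - regW ν y) * z) x (Real.sqrt (ν x) * φ x) := by
    funext x
    ring
  rw [h2] at h1
  have hc : ContDiff ℝ ∞ (fun y => lam - regW ν y) := contDiff_const.sub hW
  obtain ⟨v, hv, huv, hvw⟩ := reg_core (reg_growth_lin hc.continuous)
    (fun r => reg_L2loc_of_memLp hν.continuous hpos h.2.1 hsq.continuous r) h1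
  have hvs : ContDiff ℝ ∞ v := by
    refine reg_boot (O := Set.univ) ?_ hv.continuous (fun x => Set.mem_univ _) hvw
    have : ContDiff ℝ ∞ (Function.uncurry fun (y : E) (z : ℝ) => (lam - regW ν y) * z) :=
      (hc.comp contDiff_fst).mul contDiff_snd
    exact this.contDiffOn
  obtain ⟨-, hφF, hgF⟩ := reg_back hν hpos h.1 hv huv
  have hFs : ContDiff ℝ ∞ (fun x => regA ν x * v x) := (reg_A_contDiff hν hpos).mul hvs
  refine ⟨_, hFs, hφF, hgF, ?_⟩
  have hac : dm ν ≪ (volume : Measure E) := withDensity_absolutelyContinuous _ _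
  refine reg_weak_to_classical hν hpos hFs (continuous_const.mul hFs.continuous) fun ζ hζ => ?_
  have e1 : ∫ x, inner ℝ (gradient (fun x => regA ν x * v x) x) (gradient ζ x) ∂(dm ν) =
      ∫ x, inner ℝ (g x) (gradient ζ x) ∂(dm ν) := by
    refine integral_congr_ae ?_
    filter_upwards [hac.ae_le hgF] with x hx
    rw [hx]
  have e2 : ∫ x, lam * (regA ν x * v x) * ζ x ∂(dm ν) = lam * ∫ x, φ x * ζ x ∂(dm ν) := by
    rw [← integral_const_mul]
    refine integral_congr_ae ?_
    filter_upwards [hac.ae_le hφF] with x hx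
    rw [hx]
    ring
  rw [e1, e2]
  exact hE ζ hζ

end Claimed.Agent.R259
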