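/- Packed by merge_tool.py (helper293): 11 modules of Claimed.Agent.R259 in one file, same declarations.
   Old modules, in this order: ExAbs, ExMax, Ex, Opt, DiniPt, DiniRCs, DiniRCg, DiniCut, DiniLim, Dini, S3Crit -/
import Claimed.Agent.R259.Reg
import Claimed.Agent.R259.Pos
import Claimed.Agent.R259.WS
import Claimed.Agent.R259.Pack010
import Claimed.Agent.R259.Pack039
import Claimed.Agent.R259.Pack027
import Claimed.Agent.R259.Pack007
import Claimed.Agent.R259.Pack004
import Claimed.Agent.R259.Pack005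

/- ===== packed: Claimed.Agent.R259.ExAbs ===== -/
section
/-
Row 259, kit EX, leaf ABS.  Architect and owner: helper54.
`Θ_ε(z) = √(z² + ε²) - ε`: `C¹`, `Θ_ε'(z) = z / √(z² + ε²)`, `|Θ_ε'| ≤ 1`, `|Θ_ε z - |z|| ≤ ε`, `Θ_ε' z → z / |z|`.
`ws_weakGrad_comp` + `ws_closed` + dominated convergence.
-/
set_option autoImplicit false
set_option linter.unusedSectionVars false

open MeasureTheory Filter Topology ProbabilityTheory
open scoped ContDiff ENNReal

namespace Claimed.Agent.R259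

/-! ### the smooth absolute value -/

/-- smooth absolute value. -/
noncomputable def exkTh (ε z : ℝ) : ℝ := Real.sqrt (z ^ 2 + ε ^ 2) - ε

/-- its derivative. -/
noncomputable def exkThD (ε z : ℝ) : ℝ := z / Real.sqrt (z ^ 2 + ε ^ 2)

theorem exk_th_q_pos {ε : ℝ} (hε : 0 < ε) (z : ℝ) : 0 < z ^ 2 + ε ^ 2 := by positivity

theorem exk_th_hasDerivAt {ε : ℝ} (hε : 0 < ε) (z : ℝ) :
    HasDerivAt (exkTh ε) (exkThD ε z) z := by
  have h1 : HasDerivAt (fun z : ℝ => z ^ 2 + ε ^ 2) (2 * z) z := by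
    simpa using (hasDerivAt_pow 2 z).add_const (ε ^ 2)
  have h2 := (h1.sqrt (exk_th_q_pos hε z).ne').sub_const ε
  refine h2.congr_deriv ?_
  unfold exkThD
  have := Real.sqrt_pos.mpr (exk_th_q_pos hε z)
  field_simp

theorem exk_th_deriv {ε : ℝ} (hε : 0 < ε) : deriv (exkTh ε) = exkThD ε :=
  funext fun z => (exk_th_hasDerivAt hε z).deriv

theorem exk_th_contDiff {ε : ℝ} (hε : 0 < ε) : ContDiff ℝ 1 (exkTh ε) := by
  unfold exkTh
  exact (ContDiff.sqrt (by fun_prop) fun z => (exk_th_q_pos hε z).ne').sub contDiff_const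

theorem exk_thD_cont {ε : ℝ} (hε : 0 < ε) : Continuous (exkThD ε) := by
  unfold exkThD
  exact continuous_id.div (by fun_prop) fun z => (Real.sqrt_pos.mpr (exk_th_q_pos hε z)).ne'

theorem exk_thD_abs_le {ε : ℝ} (hε : 0 < ε) (z : ℝ) : |exkThD ε z| ≤ 1 := by
  unfold exkThD
  have h1 := Real.sqrt_pos.mpr (exk_th_q_pos hε z)
  rw [abs_div, abs_of_pos h1, div_le_one h1]
  exact Real.abs_le_sqrt (by nlinarith [sq_nonneg ε])

theorem exk_th_sub_abs {ε : ℝ} (hε : 0 < ε) (z : ℝ) : |exkTh ε z - (|z|)| ≤ ε := by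
  unfold exkTh
  have h1 : |z| ≤ Real.sqrt (z ^ 2 + ε ^ 2) := Real.abs_le_sqrt (by nlinarith [sq_nonneg ε])
  have h2 : Real.sqrt (z ^ 2 + ε ^ 2) ≤ |z| + ε := by
    rw [Real.sqrt_le_left (by positivity)]
    nlinarith [abs_nonneg z, sq_abs z]
  rw [abs_le]
  constructor <;> linarith

theorem exk_thD_tendsto (z : ℝ) {ε : ℕ → ℝ} (hε : Tendsto ε atTop (𝓝 0)) :
    Tendsto (fun k => exkThD (ε k) z) atTop (𝓝 (z / |z|)) := by
  unfold exkThD
  rcases eq_or_ne z 0 with rfl | hz
  · simp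
  · have h1 : Tendsto (fun k => Real.sqrt (z ^ 2 + ε k ^ 2)) atTop (𝓝 (Real.sqrt (z ^ 2 + 0 ^ 2))) :=
      (Real.continuous_sqrt.tendsto _).comp ((hε.pow 2).const_add (z ^ 2))
    have e : Real.sqrt (z ^ 2 + 0 ^ 2) = |z| := by simp [Real.sqrt_sq_eq_abs]
    rw [e] at h1
    exact tendsto_const_nhds.div h1 (abs_ne_zero.mpr hz)

variable {E : Type} [NormedAddCommGroup E] [InnerProductSpace ℝ E] [FiniteDimensional ℝ E]
  [MeasurableSpace E] [BorelSpace E]

theorem exk_H1_th {m : Measure E} [IsFiniteMeasure m] {u : E → ℝ} {g : E → E} (h : H1 m u g)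
    {ε : ℝ} (hε : 0 < ε) :
    H1 m (fun x => exkTh ε (u x)) (fun x => exkThD ε (u x) • g x) := by
  have hW := ws_weakGrad_comp h.1 (exk_th_contDiff hε) (C := 1) (fun z => by
    rw [exk_th_deriv hε]
    exact exk_thD_abs_le hε z)
  rw [exk_th_deriv hε] at hW
  refine ⟨hW, (h.2.1.abs.add (memLp_const ε)).mono
    ((exk_th_contDiff hε).continuous.comp_aestronglyMeasurable h.2.1.1)
    (Eventually.of_forall fun x => ?_),
    h.2.2.mono (((exk_thD_cont hε).comp_aestronglyMeasurable h.2.1.1).smul h.2.2.1)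
    (Eventually.of_forall fun x => ?_)⟩
  · have h1 := exk_th_sub_abs hε (u x)
    rw [abs_le] at h1
    have h2 := abs_nonneg (u x)
    rw [Real.norm_eq_abs, Real.norm_eq_abs]
    show |exkTh ε (u x)| ≤ |(|u x|) + ε|
    rw [abs_of_nonneg (by positivity : 0 ≤ |u x| + ε), abs_le]
    constructor <;> linarith
  · rw [norm_smul, Real.norm_eq_abs]
    exact mul_le_of_le_one_left (norm_nonneg _) (exk_thD_abs_le hε _)

theorem exk_abs {η : E → ℝ} (hη : Continuous η) (hpos : ∀ x, 0 < η x) [IsFiniteMeasure (dm η)]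
    {u : E → ℝ} {g : E → E} (h : H1 (dm η) u g) :
    ∃ g' : E → E, H1 (dm η) (fun x => |u x|) g' ∧ ∀ x, ‖g' x‖ ≤ ‖g x‖ := by
  have hsgn : ∀ z : ℝ, |z / (|z|)| ≤ 1 := by
    intro z
    rcases eq_or_ne z 0 with rfl | hz
    · simp
    · rw [abs_div, abs_abs, div_self (abs_ne_zero.mpr hz)]
  have hle : ∀ x, ‖(u x / |u x|) • g x‖ ≤ ‖g x‖ := by
    intro x
    rw [norm_smul, Real.norm_eq_abs]
    exact mul_le_of_le_one_left (norm_nonneg _) (hsgn _)
  refine ⟨fun x => (u x / |u x|) • g x, ?_, hle⟩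
  have hm : AEStronglyMeasurable (fun x => (u x / |u x|) • g x) (dm η) :=
    (h.2.1.1.aemeasurable.div h.2.1.1.aemeasurable.abs).aestronglyMeasurable.smul h.2.2.1
  have hg2 : MemLp (fun x => (u x / |u x|) • g x) 2 (dm η) :=
    h.2.2.mono hm (Eventually.of_forall hle)
  have hε0 : ∀ k : ℕ, 0 < 1 / ((k : ℝ) + 1) := fun k => by positivity
  have hεt : Tendsto (fun k : ℕ => 1 / ((k : ℝ) + 1)) atTop (𝓝 0) :=
    tendsto_one_div_add_atTop_nhds_zero_nat
  refine ws_closed hη hpos (fun k => exk_H1_th h (hε0 k)) h.2.1.abs hg2 ?_ ?_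
  · -- `L²` convergence of the functions
    have h1 : Tendsto (fun k : ℕ => (1 / ((k : ℝ) + 1)) ^ 2 * (dm η).real Set.univ) atTop
        (𝓝 (0 ^ 2 * (dm η).real Set.univ)) := (hεt.pow 2).mul_const _
    rw [zero_pow (by norm_num), zero_mul] at h1
    refine squeeze_zero (fun k => integral_nonneg fun x => sq_nonneg _) (fun k => ?_) h1
    have h2 : ∫ x, (exkTh (1 / ((k : ℝ) + 1)) (u x) - |u x|) ^ 2 ∂(dm η) ≤
        ∫ _x, (1 / ((k : ℝ) + 1)) ^ 2 ∂(dm η) := by
      refine integral_mono ((exk_H1_th h (hε0 k)).2.1.sub h.2.1.abs).integrable_sq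
        (integrable_const _) fun x => ?_
      simp only
      rw [← sq_abs]
      exact pow_le_pow_left₀ (abs_nonneg _) (exk_th_sub_abs (hε0 k) (u x)) 2
    rw [integral_const, smul_eq_mul, mul_comm] at h2
    exact h2
  · -- `L²` convergence of the gradients
    have hz : (0 : ℝ) = ∫ _x, (0 : ℝ) ∂(dm η) := by simp
    rw [hz]
    refine tendsto_integral_of_dominated_convergence (fun x => 4 * ‖g x‖ ^ 2) (fun k => ?_)
      ((dfk_H1_int h).2.const_mul 4) (fun k => Eventually.of_forall fun x => ?_)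
      (Eventually.of_forall fun x => ?_)
    · exact (((exk_H1_th h (hε0 k)).2.2.1.sub hm).norm.pow 2)
    · rw [Real.norm_of_nonneg (sq_nonneg _), ← sub_smul, norm_smul, mul_pow, Real.norm_eq_abs,
        sq_abs]
      have h1 := abs_le.mp (exk_thD_abs_le (hε0 k) (u x))
      have h2 := abs_le.mp (hsgn (u x))
      have h3 : (exkThD (1 / ((k : ℝ) + 1)) (u x) - u x / |u x|) ^ 2 ≤ 4 := by nlinarith
      exact mul_le_mul_of_nonneg_right h3 (sq_nonneg _)
    · have h1 := (exk_thD_tendsto (u x) hεt).sub_const (u x / |u x|)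
      rw [sub_self] at h1
      have h2 := ((h1.smul_const (g x)).norm).pow 2
      simpa [sub_smul] using h2

end Claimed.Agent.R259
end

/- ===== packed: Claimed.Agent.R259.ExMax ===== -/
section
/-
Row 259, kit EX, leaf MAX (normalised almost-maximisers).  Architect and owner: helper54.
`¬ LSI (dm η) R₁` gives a test `F` with `2 R₁ nrg F < ent (F²)`; `N = ∫ F² > 0`; `u = F / √N`; homogeneity of the entropy.
-/
set_option autoImplicit false
set_option linter.unusedSectionVars false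

open MeasureTheory Filter Topology ProbabilityTheory
open scoped ContDiff ENNReal

namespace Claimed.Agent.R259

variable {E : Type} [NormedAddCommGroup E] [InnerProductSpace ℝ E] [FiniteDimensional ℝ E]
  [MeasurableSpace E] [BorelSpace E]

theorem exk_psi_smul {a : ℝ} (ha : a ≠ 0) (z : ℝ) :
    (a * z) ^ 2 * Real.log ((a * z) ^ 2) =
      a ^ 2 * (z ^ 2 * Real.log (z ^ 2)) + a ^ 2 * Real.log (a ^ 2) * z ^ 2 := by
  rcases eq_or_ne z 0 with rfl | hz
  · simp
  · rw [mul_pow, Real.log_mul (by positivity) (by positivity)]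
    ring

/-- homogeneity of the entropy. -/
theorem exk_int_psi_smul {m : Measure E} {F : E → ℝ} (hF2 : Integrable (fun x => F x ^ 2) m)
    (hFi : Integrable (fun x => F x ^ 2 * Real.log (F x ^ 2)) m) {a : ℝ} (ha : a ≠ 0) :
    ∫ x, (a * F x) ^ 2 * Real.log ((a * F x) ^ 2) ∂m =
      a ^ 2 * ∫ x, F x ^ 2 * Real.log (F x ^ 2) ∂m
        + a ^ 2 * Real.log (a ^ 2) * ∫ x, F x ^ 2 ∂m := by
  simp only [exk_psi_smul ha]
  rw [integral_add (hFi.const_mul _) (hF2.const_mul _), integral_const_mul, integral_const_mul]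

theorem exk_test_psi_integrable {m : Measure E} [IsFiniteMeasure m] {F : E → ℝ} (hF : IsTest F) :
    Integrable (fun x => F x ^ 2 * Real.log (F x ^ 2)) m := by
  obtain ⟨C, hC0, hC⟩ := hF.isTestC.exists_bound
  refine Integrable.mono' (integrable_const (6 * (1 + C ^ 2) * C))
    (exk_psi_cont.comp hF.1.continuous).aestronglyMeasurable (Eventually.of_forall fun x => ?_)
  have h1 := exk_psi_lip (hC x) (by simpa using hC0 : |(0 : ℝ)| ≤ C)
  simp only [ne_eq, OfNat.ofNat_ne_zero, not_false_eq_true, zero_pow, Real.log_zero, mul_zero,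
    sub_zero] at h1
  rw [Real.norm_eq_abs]
  exact h1.trans (mul_le_mul_of_nonneg_left (hC x) (by positivity))

theorem exk_maxseq {η : E → ℝ} (hη : Continuous η) (hpos : ∀ x, 0 < η x)
    [IsProbabilityMeasure (dm η)] {R₁ : ℝ} (h0 : 0 ≤ R₁) (hR : ¬ LSI (dm η) R₁) :
    ∃ (u : E → ℝ) (g : E → E), H1 (dm η) u g ∧ ∫ x, u x ^ 2 ∂(dm η) = 1 ∧
      2 * R₁ * ∫ x, ‖g x‖ ^ 2 ∂(dm η) < ∫ x, u x ^ 2 * Real.log (u x ^ 2) ∂(dm η) := by
  unfold LSI at hR
  push Not at hR
  obtain ⟨F, hF, hlt⟩ := hR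
  have hH := ws_H1_of_test hη hpos hF
  have hFi : Integrable (fun x => F x ^ 2 * Real.log (F x ^ 2)) (dm η) := exk_test_psi_integrable hF
  have hF2 := hH.2.1.integrable_sq
  have hnrg : 0 ≤ nrg (dm η) F := integral_nonneg fun x => sq_nonneg _
  have hN0 : 0 ≤ ∫ x, F x ^ 2 ∂(dm η) := integral_nonneg fun x => sq_nonneg _
  have hN : 0 < ∫ x, F x ^ 2 ∂(dm η) := by
    refine lt_of_le_of_ne hN0 fun hz => ?_
    have h1 := Claimed.Agent.R260.gk_l2_ae_eq_zero hH.2.1 hz.symm
    have h2 : ∫ x, F x ^ 2 * Real.log (F x ^ 2) ∂(dm η) = 0 := by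
      rw [← integral_zero E ℝ (μ := dm η)]
      refine integral_congr_ae ?_
      filter_upwards [h1] with x hx
      rw [hx]
      simp
    unfold ent at hlt
    rw [h2, ← hz] at hlt
    have : 0 ≤ 2 * R₁ * nrg (dm η) F := by positivity
    simp at hlt
    linarith
  set N := ∫ x, F x ^ 2 ∂(dm η) with hNdef
  have hsq : 0 < Real.sqrt N := Real.sqrt_pos.mpr hN
  have ha2 : ((Real.sqrt N)⁻¹) ^ 2 = N⁻¹ := by rw [inv_pow, Real.sq_sqrt hN0]
  refine ⟨fun x => (Real.sqrt N)⁻¹ * F x, fun x => (Real.sqrt N)⁻¹ • gradient F x,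
    exk_H1_smul _ hH, ?_, ?_⟩
  · rw [exk_int_sq_smul, ha2, ← hNdef, inv_mul_cancel₀ hN.ne']
  · rw [exk_int_normsq_smul, exk_int_psi_smul hF2 hFi (inv_ne_zero hsq.ne'), ha2, ← hNdef,
      Real.log_inv]
    unfold ent nrg at hlt
    rw [← hNdef] at hlt
    have h1 := mul_lt_mul_of_pos_left hlt (inv_pos.mpr hN)
    calc 2 * R₁ * (N⁻¹ * ∫ x, ‖gradient F x‖ ^ 2 ∂(dm η))
        = N⁻¹ * (2 * R₁ * ∫ x, ‖gradient F x‖ ^ 2 ∂(dm η)) := by ring
      _ < N⁻¹ * ((∫ x, F x ^ 2 * Real.log (F x ^ 2) ∂(dm η)) - N * Real.log N) := h1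
      _ = _ := by ring

end Claimed.Agent.R259
end

/- ===== packed: Claimed.Agent.R259.Ex ===== -/
section
/-
Row 259, kit EX (direct method: Lemma 3.4 first half, Lemma 3.7(ii) first half).  EXPORTS (statements fixed by sub-captain helper83).
Owner: helper54.  This file is the GLUE (no sorry of its own); the leaves are `ExExtract` (compactness + lsc), `ExDefect` (entropy
defect), `ExVan` (no vanishing of the energy), `ExAbs` (`|u| ∈ H¹`), `ExMax` (normalised almost-maximisers), `ExEuler` (first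
variation), `ExGapL` (Poincare analogues); toolkit `ExBase`.
-/
set_option autoImplicit false
set_option linter.unusedSectionVars false

open MeasureTheory Filter Topology ProbabilityTheory
open scoped ContDiff ENNReal

namespace Claimed.Agent.R259

variable {E : Type} [NormedAddCommGroup E] [InnerProductSpace ℝ E] [FiniteDimensional ℝ E]
  [MeasurableSpace E] [BorelSpace E]

/-! ### kit EX: direct method (Lemma 3.4, first half; Lemma 3.7(ii), first half) -/

/-- A nonnegative optimiser in `H¹` and its weak Euler equation. -/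
theorem ex_optimizer {μ : Measure E} [IsProbabilityMeasure μ] (hb : BddSupp μ) {s : ℝ} (hs : 0 < s)
    {R P : ℝ} (hR : LSIsharp (dm (gconv μ s)) R) (hP : PI (dm (gconv μ s)) P)
    (hPR : P < R) (hsR : s < R) :
    ∃ (f : E → ℝ) (g : E → E), H1 (dm (gconv μ s)) f g ∧ (∀ x, 0 ≤ f x) ∧
      ∫ x, f x ^ 2 ∂(dm (gconv μ s)) = 1 ∧
      0 < ∫ x, ‖g x‖ ^ 2 ∂(dm (gconv μ s)) ∧
      Integrable (fun x => f x ^ 2 * Real.log (f x ^ 2)) (dm (gconv μ s)) ∧
      ∫ x, f x ^ 2 * Real.log (f x ^ 2) ∂(dm (gconv μ s)) =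
        2 * R * ∫ x, ‖g x‖ ^ 2 ∂(dm (gconv μ s)) ∧
      ∀ ζ : E → ℝ, IsTest ζ →
        ∫ x, inner ℝ (g x) (gradient ζ x) ∂(dm (gconv μ s)) =
          R⁻¹ * ∫ x, f x * Real.log (f x) * ζ x ∂(dm (gconv μ s)) := by
  obtain ⟨hsm, hpos, -⟩ := gc_spd (μ := μ) hb hs
  have hcont : Continuous (gconv μ s) := hsm.continuous
  have : IsProbabilityMeasure (dm (gconv μ s)) := gc_isProb hs
  have hR0 : 0 < R := hs.trans hsR
  obtain ⟨e₀, he₀, R', hR'R, hvan⟩ := exk_van hb hs hR.1 hP hPR hsR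
  obtain ⟨R₀, hR₀R, hR₀s, hR₀'⟩ : ∃ R₀ : ℝ, R₀ < R ∧ (R + s) / 2 ≤ R₀ ∧ R' ≤ R₀ :=
    ⟨max R' ((R + s) / 2), max_lt hR'R (by linarith), le_max_right _ _, le_max_left _ _⟩
  -- the constants `R_k ↑ R`
  obtain ⟨Rk, hRk1, hRk2, hRk3⟩ : ∃ Rk : ℕ → ℝ, (∀ k, R₀ ≤ Rk k) ∧ (∀ k, Rk k < R) ∧
      Tendsto Rk atTop (𝓝 R) := by
    refine ⟨fun k => R - (R - R₀) * (1 / ((k : ℝ) + 1)), fun k => ?_, fun k => ?_, ?_⟩
    · have h1 : 1 / ((k : ℝ) + 1) ≤ 1 := by
        rw [div_le_one (by positivity)]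
        have : (0 : ℝ) ≤ k := Nat.cast_nonneg k
        linarith
      have := mul_le_mul_of_nonneg_left h1 (by linarith : 0 ≤ R - R₀)
      simp only
      linarith
    · have h1 : 0 < 1 / ((k : ℝ) + 1) := by positivity
      have := mul_pos (by linarith : 0 < R - R₀) h1
      simp only
      linarith
    · have := (tendsto_one_div_add_atTop_nhds_zero_nat (𝕜 := ℝ)).const_mul (R - R₀)
      simpa using this.const_sub R
  have hRk0 : ∀ k, 0 ≤ Rk k := fun k => by linarith [hRk1 k]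
  choose u g hH hN hgt using fun k => exk_maxseq hcont hpos (hRk0 k) (hR.2 _ (hRk2 k))
  have hE0 : ∀ k, 0 ≤ ∫ x, ‖g k x‖ ^ 2 ∂(dm (gconv μ s)) :=
    fun k => integral_nonneg fun x => sq_nonneg _
  -- the energies are bounded
  obtain ⟨C, hC⟩ := def_lsi hb hs (ε := (R - s) / 4) (by linarith)
  have hEb : ∀ k, ∫ x, ‖g k x‖ ^ 2 ∂(dm (gconv μ s)) ≤ 2 * C / (R - s) := by
    intro k
    have h1 := (hC _ _ (hH k)).2
    rw [exk_ent_unit (hN k), hN k] at h1
    have h2 := hgt k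
    have h3 := mul_nonneg (by linarith [hRk1 k] : 0 ≤ Rk k - (R + s) / 2) (hE0 k)
    rw [le_div_iff₀ (by linarith)]
    nlinarith
  obtain ⟨φ, v, gv, Es, hφ, hv, hu, hE, hle⟩ := exk_extract hb hs hH
    (B := 1 + 2 * C / (R - s)) (fun k => by rw [hN k]; linarith [hEb k])
  have hv1 : ∫ x, v x ^ 2 ∂(dm (gconv μ s)) = 1 := by
    have h1 := Claimed.Agent.R260.gk_l2_tendsto_integral_sq
      (Eventually.of_forall fun k => (hH (φ k)).2.1) hv.2.1 hu
    simp only [hN] at h1
    exact tendsto_nhds_unique h1 tendsto_const_nhds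
  -- no vanishing
  have hEs : e₀ ≤ Es := by
    refine ge_of_tendsto' hE fun k => ?_
    by_contra hcon
    have h1 := hvan _ _ (hH (φ k)) (hN _) (not_le.mp hcon).le
    have h2 := hgt (φ k)
    have h3 := mul_nonneg (by linarith [hRk1 (φ k)] : 0 ≤ Rk (φ k) - R') (hE0 (φ k))
    nlinarith
  -- entropy defect
  have hkey : 2 * R * Es ≤ ∫ x, v x ^ 2 * Real.log (v x ^ 2) ∂(dm (gconv μ s))
      + 2 * s * (Es - ∫ x, ‖gv x‖ ^ 2 ∂(dm (gconv μ s))) := by
    refine le_of_forall_pos_le_add fun δ hδ => ?_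
    have h1 := exk_defect hb hs (fun k => hH (φ k)) hv hu hE hδ
    have h2 : Tendsto (fun k => 2 * Rk (φ k) * ∫ x, ‖g (φ k) x‖ ^ 2 ∂(dm (gconv μ s))) atTop
        (𝓝 (2 * R * Es)) :=
      ((hRk3.comp hφ.tendsto_atTop).const_mul 2).mul hE
    refine le_of_tendsto h2 ?_
    filter_upwards [h1] with k hk
    exact (hgt (φ k)).le.trans hk
  obtain ⟨hvi, hvl⟩ := ws_LSI_H1 hcont hpos hR.1 hv
  rw [exk_ent_unit hv1] at hvl
  have hEE : ∫ x, ‖gv x‖ ^ 2 ∂(dm (gconv μ s)) = Es := by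
    refine le_antisymm hle ?_
    have : 0 < R - s := by linarith
    nlinarith
  have hopt : ∫ x, v x ^ 2 * Real.log (v x ^ 2) ∂(dm (gconv μ s)) = 2 * R * Es := by
    rw [hEE] at hvl hkey
    linarith
  -- absolute value
  obtain ⟨g', hf, hg'⟩ := exk_abs hcont hpos hv
  have e1 : ∀ x, |v x| ^ 2 = v x ^ 2 := fun x => sq_abs _
  have hf1 : ∫ x, |v x| ^ 2 ∂(dm (gconv μ s)) = 1 := by simp only [e1, hv1]
  obtain ⟨hfi, hfl⟩ := ws_LSI_H1 hcont hpos hR.1 hf
  rw [exk_ent_unit hf1] at hfl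
  have hg'le : ∫ x, ‖g' x‖ ^ 2 ∂(dm (gconv μ s)) ≤ Es := by
    rw [← hEE]
    refine integral_mono (dfk_H1_int hf).2 (dfk_H1_int hv).2 fun x => ?_
    exact pow_le_pow_left₀ (norm_nonneg _) (hg' x) 2
  have hfopt : ∫ x, |v x| ^ 2 * Real.log (|v x| ^ 2) ∂(dm (gconv μ s)) = 2 * R * Es := by
    simp only [e1, hopt]
  have hg'eq : ∫ x, ‖g' x‖ ^ 2 ∂(dm (gconv μ s)) = Es := by
    refine le_antisymm hg'le ?_
    rw [hfopt] at hfl
    nlinarith
  refine ⟨fun x => |v x|, g', hf, fun x => abs_nonneg _, hf1, ?_, hfi, ?_, ?_⟩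
  · rw [hg'eq]; linarith
  · rw [hg'eq, hfopt]
  · intro ζ hζ
    exact exk_euler hcont hpos hR0 hR.1 hf (fun x => abs_nonneg _) hf1
      (by rw [hg'eq, hfopt]) hζ

/-- A gap eigenfunction in `H¹`. -/
theorem ex_gap {μ : Measure E} [IsProbabilityMeasure μ] (hb : BddSupp μ) {s : ℝ} (hs : 0 < s)
    {P : ℝ} (hP : PIsharp (dm (gconv μ s)) P) :
    ∃ (φ : E → ℝ) (g : E → E), H1 (dm (gconv μ s)) φ g ∧
      ∫ x, φ x ∂(dm (gconv μ s)) = 0 ∧ ∫ x, φ x ^ 2 ∂(dm (gconv μ s)) = 1 ∧
      ∀ ζ : E → ℝ, IsTest ζ →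
        ∫ x, inner ℝ (g x) (gradient ζ x) ∂(dm (gconv μ s)) =
          P⁻¹ * ∫ x, φ x * ζ x ∂(dm (gconv μ s)) := by
  obtain ⟨hsm, hpos, -⟩ := gc_spd (μ := μ) hb hs
  have hcont : Continuous (gconv μ s) := hsm.continuous
  have : IsProbabilityMeasure (dm (gconv μ s)) := gc_isProb hs
  have hP0 : 0 < P := exk_PI_pos hcont hpos hP
  obtain ⟨Pk, hPk1, hPk2, hPk3⟩ : ∃ Pk : ℕ → ℝ, (∀ k, P / 2 ≤ Pk k) ∧ (∀ k, Pk k < P) ∧
      Tendsto Pk atTop (𝓝 P) := by
    refine ⟨fun k => P - (P / 2) * (1 / ((k : ℝ) + 1)), fun k => ?_, fun k => ?_, ?_⟩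
    · have h1 : 1 / ((k : ℝ) + 1) ≤ 1 := by
        rw [div_le_one (by positivity)]
        have : (0 : ℝ) ≤ k := Nat.cast_nonneg k
        linarith
      have := mul_le_mul_of_nonneg_left h1 (by linarith : 0 ≤ P / 2)
      simp only
      linarith
    · have h1 : 0 < 1 / ((k : ℝ) + 1) := by positivity
      have := mul_pos (by linarith : 0 < P / 2) h1
      simp only
      linarith
    · have := (tendsto_one_div_add_atTop_nhds_zero_nat (𝕜 := ℝ)).const_mul (P / 2)
      simpa using this.const_sub P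
  have hPk0 : ∀ k, 0 ≤ Pk k := fun k => by linarith [hPk1 k]
  choose u g hH hM hN hgt using fun k => exk_gap_maxseq hcont hpos (hPk0 k) (hP.2 _ (hPk2 k))
  have hE0 : ∀ k, 0 ≤ ∫ x, ‖g k x‖ ^ 2 ∂(dm (gconv μ s)) :=
    fun k => integral_nonneg fun x => sq_nonneg _
  have hEb : ∀ k, ∫ x, ‖g k x‖ ^ 2 ∂(dm (gconv μ s)) ≤ 2 / P := by
    intro k
    have h3 := mul_nonneg (by linarith [hPk1 k] : 0 ≤ Pk k - P / 2) (hE0 k)
    rw [le_div_iff₀ hP0]
    nlinarith [hgt k]
  obtain ⟨φ, v, gv, Es, hφ, hv, hu, hE, hle⟩ := exk_extract hb hs hH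
    (B := 1 + 2 / P) (fun k => by rw [hN k]; linarith [hEb k])
  have hv1 : ∫ x, v x ^ 2 ∂(dm (gconv μ s)) = 1 := by
    have h1 := Claimed.Agent.R260.gk_l2_tendsto_integral_sq
      (Eventually.of_forall fun k => (hH (φ k)).2.1) hv.2.1 hu
    simp only [hN] at h1
    exact tendsto_nhds_unique h1 tendsto_const_nhds
  have hv0 : ∫ x, v x ∂(dm (gconv μ s)) = 0 := by
    have h1 := Claimed.Agent.R260.gk_l2_tendsto_integral_mul_right
      (Eventually.of_forall fun k => (hH (φ k)).2.1) hv.2.1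
      (memLp_const (1 : ℝ) (μ := dm (gconv μ s)) (p := 2)) hu
    simp only [mul_one, hM] at h1
    exact tendsto_nhds_unique h1 tendsto_const_nhds
  have hEs : P * Es ≤ 1 := by
    have h2 : Tendsto (fun k => Pk (φ k) * ∫ x, ‖g (φ k) x‖ ^ 2 ∂(dm (gconv μ s))) atTop
        (𝓝 (P * Es)) := (hPk3.comp hφ.tendsto_atTop).mul hE
    exact le_of_tendsto' h2 fun k => (hgt (φ k)).le
  have hpi := ws_PI_H1 hcont hpos hP.1 hv
  unfold vari at hpi
  rw [hv1, hv0] at hpi
  have hopt : P * ∫ x, ‖gv x‖ ^ 2 ∂(dm (gconv μ s)) = 1 := by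
    have := mul_le_mul_of_nonneg_left hle hP0.le
    linarith
  exact ⟨v, gv, hv, hv0, hv1, fun ζ hζ => exk_gap_euler hcont hpos hP0 hP.1 hv hv0 hv1 hopt hζ⟩

end Claimed.Agent.R259
end

/- ===== packed: Claimed.Agent.R259.Opt ===== -/
section
/-
Row 259, Lemma 3.4 and the gap eigenfunction of Lemma 3.7(ii) in classical form: GLUE of the kits
CPT, DEF, EX, REG, POS.  Owner: helper83.
-/
set_option autoImplicit false

open MeasureTheory Filter Topology ProbabilityTheory
open scoped ContDiff ENNReal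

namespace Claimed.Agent.R259

variable {E : Type} [NormedAddCommGroup E] [InnerProductSpace ℝ E] [FiniteDimensional ℝ E]
  [MeasurableSpace E] [BorelSpace E]

/-! ### Glue: regularity + positivity -/

theorem dm_ac (ρ : E → ℝ) : dm ρ ≪ (volume : Measure E) :=
  withDensity_absolutelyContinuous _ _

/-- A nonnegative nonzero weak solution of `A_ν f = λ f log f` is (a.e. equal to) a smooth strictly
positive classical solution. -/
theorem reg_optimizer {ν : E → ℝ} (hν : ContDiff ℝ ∞ ν) (hpos : ∀ x, 0 < ν x) {lam : ℝ}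
    (hlam : 0 < lam) {f : E → ℝ} {g : E → E} (h : H1 (dm ν) f g) (h0 : ∀ x, 0 ≤ f x)
    (hne : 0 < ∫ x, f x ^ 2 ∂(dm ν))
    (hE : ∀ ζ : E → ℝ, IsTest ζ → ∫ x, inner ℝ (g x) (gradient ζ x) ∂(dm ν) =
      lam * ∫ x, f x * Real.log (f x) * ζ x ∂(dm ν)) :
    ∃ F : E → ℝ, ContDiff ℝ ∞ F ∧ (∀ x, 0 < F x) ∧ f =ᵐ[volume] F ∧ g =ᵐ[volume] gradient F ∧
      ∀ x, opA ν F x = lam * (F x * Real.log (F x)) := by
  obtain ⟨F, hF, hfF, hgF⟩ := reg_C1 hν hpos h h0 hE
  have hfF' : f =ᵐ[dm ν] F := (dm_ac _).ae_le hfF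
  have hgF' : g =ᵐ[dm ν] gradient F := (dm_ac _).ae_le hgF
  have hE' : ∀ ζ : E → ℝ, IsTest ζ → ∫ x, inner ℝ (gradient F x) (gradient ζ x) ∂(dm ν) =
      lam * ∫ x, F x * Real.log (F x) * ζ x ∂(dm ν) := by
    intro ζ hζ
    have e1 : ∫ x, inner ℝ (gradient F x) (gradient ζ x) ∂(dm ν) =
        ∫ x, inner ℝ (g x) (gradient ζ x) ∂(dm ν) := by
      refine integral_congr_ae ?_
      filter_upwards [hgF'] with x hx
      rw [hx]
    have e2 : ∫ x, F x * Real.log (F x) * ζ x ∂(dm ν) =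
        ∫ x, f x * Real.log (f x) * ζ x ∂(dm ν) := by
      refine integral_congr_ae ?_
      filter_upwards [hfF'] with x hx
      rw [hx]
    rw [e1, e2]
    exact hE ζ hζ
  have hF0 : ∀ x, 0 ≤ F x := by
    have hae : ∀ᵐ x ∂(volume : Measure E), 0 ≤ F x := by
      filter_upwards [hfF] with x hx
      rw [← hx]; exact h0 x
    have hcl : IsClosed {x | 0 ≤ F x} := isClosed_le continuous_const hF.continuous
    have hd : Dense {x | 0 ≤ F x} := Measure.dense_of_ae hae
    intro x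
    have : x ∈ closure {x | 0 ≤ F x} := hd x
    rwa [hcl.closure_eq] at this
  have hne' : ∃ x, F x ≠ 0 := by
    by_contra hcon
    simp only [ne_eq, not_exists, not_not] at hcon
    have : ∫ x, f x ^ 2 ∂(dm ν) = 0 := by
      have : (fun x => f x ^ 2) =ᵐ[dm ν] fun _ => (0 : ℝ) := by
        filter_upwards [hfF'] with x hx
        rw [hx, hcon x]; norm_num
      rw [integral_congr_ae this]; simp
    linarith
  have hFpos := pos_main hν hpos hlam hF hF0 hne' hE'
  obtain ⟨hs, hEq⟩ := reg_smooth hν hpos hF hFpos hE'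
  exact ⟨F, hs, hFpos, hfF, hgF, hEq⟩

/-! ### Glue: Lemma 3.4 and the eigenfunction of Lemma 3.7(ii) in classical form -/

/-- LEMMA 3.4 (classical form). -/
theorem opt_exists {μ : Measure E} [IsProbabilityMeasure μ] (hb : BddSupp μ) {s : ℝ} (hs : 0 < s)
    (hν : ContDiff ℝ ∞ (gconv μ s)) (hpos : ∀ x, 0 < gconv μ s x)
    {R P : ℝ} (hR : LSIsharp (dm (gconv μ s)) R) (hP : PI (dm (gconv μ s)) P)
    (hPR : P < R) (hsR : s < R) :
    ∃ f : E → ℝ, ContDiff ℝ ∞ f ∧ (∀ x, 0 < f x) ∧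
      MemLp f 2 (dm (gconv μ s)) ∧ MemLp (gradient f) 2 (dm (gconv μ s)) ∧
      ∫ x, f x ^ 2 ∂(dm (gconv μ s)) = 1 ∧
      0 < nrg (dm (gconv μ s)) f ∧
      Integrable (fun x => f x ^ 2 * Real.log (f x ^ 2)) (dm (gconv μ s)) ∧
      ∫ x, f x ^ 2 * Real.log (f x ^ 2) ∂(dm (gconv μ s)) = 2 * R * nrg (dm (gconv μ s)) f ∧
      ∀ x, opA (gconv μ s) f x = R⁻¹ * (f x * Real.log (f x)) := by
  obtain ⟨f, g, hH, h0, h1, hgpos, hint, hent, hE⟩ := ex_optimizer hb hs hR hP hPR hsR
  have hRpos : 0 < R := lt_trans hs hsR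
  obtain ⟨F, hF, hFpos, hfF, hgF, hEq⟩ :=
    reg_optimizer hν hpos (inv_pos.mpr hRpos) hH h0 (by rw [h1]; norm_num) hE
  have hfF' : f =ᵐ[dm (gconv μ s)] F := (dm_ac _).ae_le hfF
  have hgF' : g =ᵐ[dm (gconv μ s)] gradient F := (dm_ac _).ae_le hgF
  have e1 : ∫ x, ‖g x‖ ^ 2 ∂(dm (gconv μ s)) = nrg (dm (gconv μ s)) F := by
    unfold nrg
    refine integral_congr_ae ?_
    filter_upwards [hgF'] with x hx
    rw [hx]
  have e2 : (fun x => f x ^ 2 * Real.log (f x ^ 2)) =ᵐ[dm (gconv μ s)]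
      (fun x => F x ^ 2 * Real.log (F x ^ 2)) := by
    filter_upwards [hfF'] with x hx
    rw [hx]
  refine ⟨F, hF, hFpos, hH.2.1.ae_eq hfF', hH.2.2.ae_eq hgF', ?_, ?_, hint.congr e2, ?_, hEq⟩
  · rw [← h1]
    refine integral_congr_ae ?_
    filter_upwards [hfF'] with x hx
    rw [hx]
  · rw [← e1]; exact hgpos
  · rw [← e1, ← hent]
    exact (integral_congr_ae e2).symm

/-- The gap eigenfunction of LEMMA 3.7(ii) (classical form). -/
theorem gap_exists {μ : Measure E} [IsProbabilityMeasure μ] (hb : BddSupp μ) {s : ℝ} (hs : 0 < s)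
    (hν : ContDiff ℝ ∞ (gconv μ s)) (hpos : ∀ x, 0 < gconv μ s x)
    {P : ℝ} (hP : PIsharp (dm (gconv μ s)) P) :
    ∃ φ : E → ℝ, ContDiff ℝ ∞ φ ∧
      MemLp φ 2 (dm (gconv μ s)) ∧ MemLp (gradient φ) 2 (dm (gconv μ s)) ∧
      ∫ x, φ x ∂(dm (gconv μ s)) = 0 ∧ ∫ x, φ x ^ 2 ∂(dm (gconv μ s)) = 1 ∧
      ∀ x, opA (gconv μ s) φ x = P⁻¹ * φ x := by
  obtain ⟨φ, g, hH, h0, h1, hE⟩ := ex_gap hb hs hP
  obtain ⟨F, hF, hfF, hgF, hEq⟩ := reg_linear hν hpos hH hE
  have hfF' : φ =ᵐ[dm (gconv μ s)] F := (dm_ac _).ae_le hfF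
  have hgF' : g =ᵐ[dm (gconv μ s)] gradient F := (dm_ac _).ae_le hgF
  refine ⟨F, hF, hH.2.1.ae_eq hfF', hH.2.2.ae_eq hgF', ?_, ?_, hEq⟩
  · rw [← h0]
    refine integral_congr_ae ?_
    filter_upwards [hfF'] with x hx
    rw [hx]
  · rw [← h1]
    refine integral_congr_ae ?_
    filter_upwards [hfF'] with x hx
    rw [hx]


end Claimed.Agent.R259
end

/- ===== packed: Claimed.Agent.R259.DiniPt ===== -/
section
/-
Row 259, kit DINI, package PT (owner of the kit: helper108).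
The pointwise inequality (Cauchy-Schwarz with a mean zero corrector), regularity of `dinP h G` and of
`dinL h u v Z`.
-/
set_option autoImplicit false
set_option linter.unusedSectionVars false
set_option linter.unusedVariables false

open MeasureTheory Filter Topology ProbabilityTheory
open scoped ContDiff ENNReal Convolution

namespace Claimed.Agent.R259

variable {E : Type} [NormedAddCommGroup E] [InnerProductSpace ℝ E] [FiniteDimensional ℝ E]
  [MeasurableSpace E] [BorelSpace E]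

theorem dini_pointwise {k q : E → ℝ} {B Z : E → E} (hk : ∀ y, 0 ≤ k y)
    (i1 : Integrable (fun y => k y * ‖B y‖ ^ 2)) (i2 : Integrable (fun y => k y * q y ^ 2))
    (i3 : Integrable (fun y => k y • (q y • B y)))
    (i4 : Integrable (fun y => k y * inner ℝ (q y • B y) (Z y)))
    (i5 : Integrable (fun y => k y • (q y ^ 2 • Z y)))
    (i6 : Integrable (fun y => k y * (q y ^ 2 * ‖Z y‖ ^ 2)))
    (hM : 0 < ∫ y, k y * q y ^ 2) (hZ : ∫ y, k y • (q y ^ 2 • Z y) = 0) :
    ‖∫ y, k y • (q y • B y)‖ ^ 2 / (∫ y, k y * q y ^ 2) ≤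
      (∫ y, k y * ‖B y‖ ^ 2) -
        (2 * (∫ y, k y * inner ℝ (q y • B y) (Z y)) - ∫ y, k y * (q y ^ 2 * ‖Z y‖ ^ 2)) := by
  set M := ∫ y, k y * q y ^ 2 with hMdef
  set a := ∫ y, k y • (q y • B y) with ha
  obtain ⟨c, hc⟩ : ∃ c : E, c = M⁻¹ • a := ⟨_, rfl⟩
  have hpt : ∀ y, 0 ≤ k y * ‖B y‖ ^ 2 - 2 * inner ℝ c (k y • (q y • B y))
      - 2 * (k y * inner ℝ (q y • B y) (Z y)) + (k y * q y ^ 2) * ‖c‖ ^ 2
      + 2 * inner ℝ c (k y • (q y ^ 2 • Z y)) + k y * (q y ^ 2 * ‖Z y‖ ^ 2) := by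
    intro y
    have : k y * ‖B y‖ ^ 2 - 2 * inner ℝ c (k y • (q y • B y))
      - 2 * (k y * inner ℝ (q y • B y) (Z y)) + (k y * q y ^ 2) * ‖c‖ ^ 2
      + 2 * inner ℝ c (k y • (q y ^ 2 • Z y)) + k y * (q y ^ 2 * ‖Z y‖ ^ 2)
      = k y * ‖B y - q y • (c + Z y)‖ ^ 2 := by
      rw [norm_sub_sq_real, norm_smul, mul_pow, norm_add_sq_real, Real.norm_eq_abs, sq_abs]
      simp only [inner_smul_left, inner_smul_right, inner_add_right, RCLike.conj_to_real,
        real_inner_comm c (B y)]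
      ring
    rw [this]
    exact mul_nonneg (hk y) (by positivity)
  have j3 : Integrable (fun y => inner ℝ c (k y • (q y • B y))) := i3.const_inner c
  have j5 : Integrable (fun y => inner ℝ c (k y • (q y ^ 2 • Z y))) := i5.const_inner c
  have hint := integral_nonneg_of_ae (μ := (volume : Measure E)) (Eventually.of_forall hpt)
  have s1 : Integrable (fun y => k y * ‖B y‖ ^ 2 - 2 * inner ℝ c (k y • (q y • B y))) :=
    i1.sub (j3.const_mul 2)
  have s2 : Integrable (fun y => k y * ‖B y‖ ^ 2 - 2 * inner ℝ c (k y • (q y • B y))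
      - 2 * (k y * inner ℝ (q y • B y) (Z y))) := s1.sub (i4.const_mul 2)
  have s3 : Integrable (fun y => k y * ‖B y‖ ^ 2 - 2 * inner ℝ c (k y • (q y • B y))
      - 2 * (k y * inner ℝ (q y • B y) (Z y)) + (k y * q y ^ 2) * ‖c‖ ^ 2) :=
    s2.add (i2.mul_const _)
  have s4 : Integrable (fun y => k y * ‖B y‖ ^ 2 - 2 * inner ℝ c (k y • (q y • B y))
      - 2 * (k y * inner ℝ (q y • B y) (Z y)) + (k y * q y ^ 2) * ‖c‖ ^ 2
      + 2 * inner ℝ c (k y • (q y ^ 2 • Z y))) := s3.add (j5.const_mul 2)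
  rw [integral_add s4 i6, integral_add s3 (j5.const_mul 2), integral_add s2 (i2.mul_const _),
    integral_sub s1 (i4.const_mul 2), integral_sub i1 (j3.const_mul 2), integral_const_mul,
    integral_const_mul, integral_const_mul, integral_mul_const, integral_inner i3,
    integral_inner i5, hZ, inner_zero_right, ← ha, ← hMdef] at hint
  have e1 : inner ℝ c a = ‖a‖ ^ 2 / M := by
    rw [hc, inner_smul_left, real_inner_self_eq_norm_sq, RCLike.conj_to_real]; ring
  have e2 : M * ‖c‖ ^ 2 = ‖a‖ ^ 2 / M := by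
    rw [hc, norm_smul, mul_pow, Real.norm_eq_abs, sq_abs]; field_simp
  rw [e1, e2] at hint
  linarith


theorem dinpt_P_eq_conv {F : Type} [NormedAddCommGroup F] [NormedSpace ℝ F] (h : ℝ) (G : E → F) :
    dinP h G = G ⋆[(ContinuousLinearMap.lsmul ℝ ℝ).flip, volume] (gk h : E → ℝ) := by
  funext x
  simp [dinP, convolution]

theorem dinpt_gk_locInt (h : ℝ) : LocallyIntegrable (gk h : E → ℝ) volume :=
  (dini_gk_continuous h).locallyIntegrable

theorem dini_P_contDiff {h : ℝ} (hh : 0 < h) {G : E → ℝ} (hG : ContDiff ℝ ∞ G)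
    (hc : HasCompactSupport G) : ContDiff ℝ ∞ (dinP h G) := by
  rw [dinpt_P_eq_conv]
  exact hc.contDiff_convolution_left _ hG (dinpt_gk_locInt h)

theorem dini_P_continuous {F : Type} [NormedAddCommGroup F] [NormedSpace ℝ F] {h : ℝ} (hh : 0 < h)
    {G : E → F} (hG : Continuous G) (hc : HasCompactSupport G) : Continuous (dinP h G) := by
  rw [dinpt_P_eq_conv]
  exact hc.continuous_convolution_left _ hG (dinpt_gk_locInt h)

theorem dinpt_integrable {F : Type} [NormedAddCommGroup F] [NormedSpace ℝ F] (h : ℝ) (x : E)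
    {G : E → F} (hG : Continuous G) (hc : HasCompactSupport G) :
    Integrable (fun y => gk h (x - y) • G y) := by
  have := dini_gk_continuous (E := E) h
  exact Continuous.integrable_of_hasCompactSupport (by fun_prop) hc.smul_left

theorem dini_P_gradient {h : ℝ} (hh : 0 < h) {G : E → ℝ} (hG : ContDiff ℝ ∞ G)
    (hc : HasCompactSupport G) (x : E) : gradient (dinP h G) x = dinP h (gradient G) x := by
  have h1 := hc.hasFDerivAt_convolution_left (ContinuousLinearMap.lsmul ℝ ℝ).flip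
    (hG.of_le (by simp)) (dinpt_gk_locInt h) x (μ := volume)
  rw [← dinpt_P_eq_conv] at h1
  have hDc : Continuous (fderiv ℝ G) := hG.continuous_fderiv (by simp)
  have hgradc : Continuous (gradient G) := by
    unfold gradient
    exact (LinearIsometryEquiv.continuous _).comp hDc
  have hgradcs : HasCompactSupport (gradient G) := by
    have : gradient G = fun y => (InnerProductSpace.toDual ℝ E).symm (fderiv ℝ G y) := rfl
    rw [this]
    exact (hc.fderiv (𝕜 := ℝ)).comp_left (map_zero _)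
  apply ext_inner_right ℝ
  intro v
  have e1 : inner ℝ (gradient (dinP h G) x) v = fderiv ℝ (dinP h G) x v := by
    unfold gradient; simp
  rw [e1, h1.fderiv, convolution]
  have i1 : Integrable (fun t => ((ContinuousLinearMap.lsmul ℝ ℝ).flip.precompL E) (fderiv ℝ G t)
      (gk h (x - t))) := by
    have := dini_gk_continuous (E := E) h
    refine Continuous.integrable_of_hasCompactSupport (by fun_prop) ?_
    have h2 := (hc.fderiv (𝕜 := ℝ))
    refine h2.mono' ?_
    intro t ht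
    apply subset_closure
    intro h0
    apply ht
    simp only
    rw [h0]; simp
  rw [ContinuousLinearMap.integral_apply i1, dinP, real_inner_comm,
    ← integral_inner (dinpt_integrable h x hgradc hgradcs)]
  refine integral_congr_ae (Eventually.of_forall fun t => ?_)
  have e2 : inner ℝ v (gradient G t) = fderiv ℝ G t v := by
    rw [real_inner_comm]; unfold gradient; simp
  simp [inner_smul_right, e2]

theorem dini_P_pos {h : ℝ} (hh : 0 < h) {G : E → ℝ} (hG : Continuous G) (hc : HasCompactSupport G)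
    (h0 : ∀ y, 0 ≤ G y) (h1 : ∃ y, G y ≠ 0) (x : E) : 0 < dinP h G x := by
  obtain ⟨y, hy⟩ := h1
  have := dini_gk_continuous (E := E) h
  rw [dini_P_real]
  refine Continuous.integral_pos_of_hasCompactSupport_nonneg_nonzero (x := y) (by fun_prop)
    hc.mul_left (fun z => mul_nonneg (gc_gk_pos hh _).le (h0 z)) ?_
  exact mul_ne_zero (gc_gk_pos hh _).ne' hy


theorem dinpt_cont_param {f : E → E → ℝ} (hf : Continuous (Function.uncurry f)) {ρ : ℝ}
    (hs : ∀ x y, ρ < ‖y‖ → f x y = 0) : Continuous (fun x => ∫ y, f x y) := by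
  have h1 := continuous_parametric_integral_of_continuous (μ := (volume : Measure E)) hf
    (isCompact_closedBall (0 : E) ρ)
  have h2 : (fun x => ∫ y, f x y) = fun x => ∫ y in Metric.closedBall (0 : E) ρ, f x y := by
    funext x
    rw [setIntegral_eq_integral_of_forall_compl_eq_zero]
    intro y hy
    apply hs
    simpa using hy
  rw [h2]; exact h1

theorem dini_L_continuous {h : ℝ} (hh : 0 < h) {u : E → ℝ} {v : E → E} (hu : Continuous u)
    (hv : Continuous v) {Z : E → E → E} {ρ : ℝ} (hZc : Continuous (fun p : E × E => Z p.1 p.2))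
    (hZs : ∀ x y, (ρ < ‖x‖ ∨ ρ < ‖y‖) → Z x y = 0) : Continuous (dinL h u v Z) := by
  have hg := dini_gk_continuous (E := E) h
  unfold dinL
  refine (continuous_const.mul (dinpt_cont_param (ρ := ρ) ?_ ?_)).sub
    (dinpt_cont_param (ρ := ρ) ?_ ?_)
  · simp only [Function.uncurry_def]; fun_prop
  · intro x y hy; rw [hZs x y (Or.inr hy)]; simp
  · simp only [Function.uncurry_def]; fun_prop
  · intro x y hy; rw [hZs x y (Or.inr hy)]; simp

theorem dini_L_zero (h : ℝ) (u : E → ℝ) (v : E → E) {Z : E → E → E} {ρ : ℝ}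
    (hZs : ∀ x y, (ρ < ‖x‖ ∨ ρ < ‖y‖) → Z x y = 0) {x : E} (hx : ρ < ‖x‖) : dinL h u v Z x = 0 := by
  unfold dinL
  simp [hZs x _ (Or.inl hx)]

theorem dini_L_integrable {h : ℝ} (hh : 0 < h) {u : E → ℝ} {v : E → E} (hu : Continuous u)
    (hv : Continuous v) {Z : E → E → E} {ρ : ℝ} (hZc : Continuous (fun p : E × E => Z p.1 p.2))
    (hZs : ∀ x y, (ρ < ‖x‖ ∨ ρ < ‖y‖) → Z x y = 0) (m : Measure E) [IsFiniteMeasure m] :
    Integrable (dinL h u v Z) m := by
  refine (dini_L_continuous hh hu hv hZc hZs).integrable_of_hasCompactSupport ?_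
  refine HasCompactSupport.intro (isCompact_closedBall (0 : E) ρ) fun x hx => ?_
  exact dini_L_zero h u v hZs (by simpa using hx)

theorem dini_L_congr (h : ℝ) {u u' : E → ℝ} {v v' : E → E} {Z : E → E → E} {ρ : ℝ}
    (hZs : ∀ x y, (ρ < ‖x‖ ∨ ρ < ‖y‖) → Z x y = 0) (hu : ∀ y, ‖y‖ ≤ ρ → u y = u' y)
    (hv : ∀ y, ‖y‖ ≤ ρ → v y = v' y) : dinL h u v Z = dinL h u' v' Z := by
  funext x
  unfold dinL
  congr 2
  · congr 1
    funext y
    by_cases hy : ‖y‖ ≤ ρ
    · rw [hv y hy]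
    · rw [hZs x y (Or.inr (not_le.1 hy))]; simp
  · funext y
    by_cases hy : ‖y‖ ≤ ρ
    · rw [hu y hy]
    · rw [hZs x y (Or.inr (not_le.1 hy))]; simp

theorem DinAdm.congr {h : ℝ} {u u' : E → ℝ} {Z : E → E → E} {ρ : ℝ} (hZ : DinAdm h u Z ρ)
    (hu : ∀ y, ‖y‖ ≤ ρ → u y = u' y) : DinAdm h u' Z ρ := by
  refine ⟨hZ.cont, hZ.supp, fun x => ?_⟩
  rw [← hZ.mean x]
  congr 1
  funext y
  by_cases hy : ‖y‖ ≤ ρ
  · rw [hu y hy]
  · rw [hZ.supp x y (Or.inr (not_le.1 hy))]; simp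

theorem dinpt_gradient_continuous {g : E → ℝ} (hg : ContDiff ℝ ∞ g) : Continuous (gradient g) := by
  unfold gradient
  exact (LinearIsometryEquiv.continuous _).comp (hg.continuous_fderiv (by simp))

theorem dinpt_gradient_compact {g : E → ℝ} (hc : HasCompactSupport g) :
    HasCompactSupport (gradient g) := by
  have : gradient g = fun y => (InnerProductSpace.toDual ℝ E).symm (fderiv ℝ g y) := rfl
  rw [this]
  exact (hc.fderiv (𝕜 := ℝ)).comp_left (map_zero _)

theorem dinpt_integrable_bdd {m : Measure E} [IsFiniteMeasure m] {F : E → ℝ} (hc : Continuous F)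
    {B : ℝ} (hB : ∀ x, |F x| ≤ B) : Integrable F m :=
  (integrable_const B).mono' hc.aestronglyMeasurable (Eventually.of_forall hB)

/-- `dini_pointwise` for the Gaussian kernel and continuous compactly supported data. -/
theorem dinpt_pointwise_gk {h : ℝ} (hh : 0 < h) (x : E) {q : E → ℝ} {B Z : E → E}
    (hq : Continuous q) (hB : Continuous B) (hBc : HasCompactSupport B) (hZ : Continuous Z)
    (hZc : HasCompactSupport Z) (i2 : Integrable (fun y => gk h (x - y) * q y ^ 2))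
    (hM : 0 < ∫ y, gk h (x - y) * q y ^ 2) (hmean : ∫ y, gk h (x - y) • (q y ^ 2 • Z y) = 0) :
    ‖∫ y, gk h (x - y) • (q y • B y)‖ ^ 2 / (∫ y, gk h (x - y) * q y ^ 2) ≤
      (∫ y, gk h (x - y) * ‖B y‖ ^ 2) - (2 * (∫ y, gk h (x - y) * inner ℝ (q y • B y) (Z y)) -
        ∫ y, gk h (x - y) * (q y ^ 2 * ‖Z y‖ ^ 2)) := by
  have hg := dini_gk_continuous (E := E) h
  refine dini_pointwise (fun y => (gc_gk_pos hh _).le) ?_ i2 ?_ ?_ ?_ ?_ hM hmean
  · refine Continuous.integrable_of_hasCompactSupport (by fun_prop) ?_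
    refine HasCompactSupport.mul_left ?_
    exact hBc.norm.comp_left (g := fun t : ℝ => t ^ 2) (by simp)
  · exact Continuous.integrable_of_hasCompactSupport (by fun_prop) hBc.smul_left.smul_left
  · refine Continuous.integrable_of_hasCompactSupport (by fun_prop) ?_
    refine HasCompactSupport.mul_left ?_
    refine hZc.mono' ?_
    intro y hy
    apply subset_closure
    intro h0
    apply hy
    simp only
    rw [h0, inner_zero_right]
  · exact Continuous.integrable_of_hasCompactSupport (by fun_prop) hZc.smul_left.smul_left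
  · refine Continuous.integrable_of_hasCompactSupport (by fun_prop) ?_
    refine HasCompactSupport.mul_left (HasCompactSupport.mul_left ?_)
    exact hZc.norm.comp_left (g := fun t : ℝ => t ^ 2) (by simp)

theorem DinAdm.cont_right {h : ℝ} {u : E → ℝ} {Z : E → E → E} {ρ : ℝ} (hZ : DinAdm h u Z ρ) (x : E) :
    Continuous (Z x) := by
  have := hZ.cont
  exact this.comp (Continuous.prodMk_right x)

theorem DinAdm.compact_right {h : ℝ} {u : E → ℝ} {Z : E → E → E} {ρ : ℝ} (hZ : DinAdm h u Z ρ)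
    (x : E) : HasCompactSupport (Z x) :=
  HasCompactSupport.intro (isCompact_closedBall (0 : E) ρ) fun y hy =>
    hZ.supp x y (Or.inr (by simpa using hy))

end Claimed.Agent.R259
end

/- ===== packed: Claimed.Agent.R259.DiniRCs ===== -/
section
/-
Row 259, kit DINI, package RC-STRICT (owner of the kit: helper108).
One backward heat step for a TEST function `g`, entropy version:
`Ent_ν(g²) = ∫ Ent_{N(x,h)}(g²) dν⁻ + Ent_{ν⁻}(P_h g²)`, Gaussian LSI on the first term, `LSI ν⁻ R'` applied to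
`F = sqrt (P_h g²)` (smooth, bounded, `|∇F|² = |P_h(2 g ∇g)|²/(4 P_h g²) ≤ P_h|∇g|²` bounded) through
`ws_H1_of_contDiff`, `ws_LSI_H1`, then `dini_pointwise` with `k = gk h (x - ·)`, `q = g`, `B = 2 ∇g`.
-/
set_option autoImplicit false
set_option linter.unusedSectionVars false
set_option linter.unusedVariables false

open MeasureTheory Filter Topology ProbabilityTheory
open scoped ContDiff ENNReal

namespace Claimed.Agent.R259

variable {E : Type} [NormedAddCommGroup E] [InnerProductSpace ℝ E] [FiniteDimensional ℝ E]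
  [MeasurableSpace E] [BorelSpace E] {μ : Measure E} [IsProbabilityMeasure μ]

theorem dinrs_sq_cont {g : E → ℝ} (hg : IsTest g) : Continuous (fun y => g y ^ 2) := by
  have := hg.1.continuous; fun_prop

theorem dinrs_sq_compact {g : E → ℝ} (hg : IsTest g) : HasCompactSupport (fun y => g y ^ 2) :=
  hg.2.comp_left (g := fun t : ℝ => t ^ 2) (by simp)

theorem dinrs_m_pos {h : ℝ} (hh : 0 < h) {g : E → ℝ} (hg : IsTest g) (hg0 : ∃ x, g x ≠ 0) (x : E) :
    0 < dinP h (fun y => g y ^ 2) x := by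
  obtain ⟨y, hy⟩ := hg0
  exact dini_P_pos hh (dinrs_sq_cont hg) (dinrs_sq_compact hg) (fun y => sq_nonneg _)
    ⟨y, pow_ne_zero 2 hy⟩ x

/-- entropy decomposition + Gaussian LSI (`dini_P_integral`, `dini_gauss_LSI`). -/
theorem dini_ent_decomp (hb : BddSupp μ) {σ h : ℝ} (hh : 0 < h) (hhσ : h < σ) {g : E → ℝ}
    (hg : IsTest g) (hg0 : ∃ x, g x ≠ 0) :
    ent (dm (gconv μ σ)) (fun x => g x ^ 2) ≤ 2 * h * nrg (dm (gconv μ σ)) g +
      ent (dm (gconv μ (σ - h))) (dinP h (fun y => g y ^ 2)) := by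
  have hσ : 0 < σ := hh.trans hhσ
  have hσh : 0 < σ - h := sub_pos.2 hhσ
  have : IsProbabilityMeasure (dm (gconv μ σ)) := gc_isProb hσ
  have : IsProbabilityMeasure (dm (gconv μ (σ - h))) := gc_isProb hσh
  have hgc : Continuous g := hg.1.continuous
  have hDc := dinpt_gradient_continuous hg.1
  have hDcs := dinpt_gradient_compact hg.2
  have hφ : Continuous (fun t : ℝ => t * Real.log t) := Real.continuous_mul_log
  have j1 : Integrable (fun y => g y ^ 2 * Real.log (g y ^ 2)) (dm (gconv μ σ)) :=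
    Continuous.integrable_of_hasCompactSupport (hφ.comp (dinrs_sq_cont hg))
      (hg.2.comp_left (g := fun t : ℝ => t ^ 2 * Real.log (t ^ 2)) (by simp))
  have j2 : Integrable (fun y => g y ^ 2) (dm (gconv μ σ)) :=
    Continuous.integrable_of_hasCompactSupport (dinrs_sq_cont hg) (dinrs_sq_compact hg)
  have j3 : Integrable (fun y => ‖gradient g y‖ ^ 2) (dm (gconv μ σ)) :=
    Continuous.integrable_of_hasCompactSupport (by fun_prop)
      (hDcs.norm.comp_left (g := fun t : ℝ => t ^ 2) (by simp))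
  obtain ⟨k1, e1⟩ := dini_P_integral hb hh hhσ j1
  obtain ⟨k2, e2⟩ := dini_P_integral hb hh hhσ j2
  obtain ⟨k3, e3⟩ := dini_P_integral hb hh hhσ j3
  obtain ⟨B, hB⟩ := (dinrs_sq_cont hg).bounded_above_of_compact_support (dinrs_sq_compact hg)
  have hPc : Continuous (dinP h (fun y => g y ^ 2)) :=
    dini_P_continuous hh (dinrs_sq_cont hg) (dinrs_sq_compact hg)
  have hPB : ∀ x, dinP h (fun y => g y ^ 2) x ∈ Set.Icc 0 B := fun x =>
    ⟨(dinrs_m_pos hh hg hg0 x).le, (le_abs_self _).trans (dini_P_norm_le hh x hB)⟩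
  obtain ⟨C, hC⟩ := (isCompact_Icc (a := (0 : ℝ)) (b := B)).exists_bound_of_continuousOn
    hφ.continuousOn
  have k4 : Integrable (fun x => dinP h (fun y => g y ^ 2) x *
      Real.log (dinP h (fun y => g y ^ 2) x)) (dm (gconv μ (σ - h))) :=
    dinpt_integrable_bdd (B := C) (hφ.comp hPc) fun x => hC _ (hPB x)
  unfold ent nrg
  rw [← e1, ← e2, ← e3]
  have key : ∫ x, (dinP h (fun y => g y ^ 2 * Real.log (g y ^ 2)) x -
      dinP h (fun y => g y ^ 2) x * Real.log (dinP h (fun y => g y ^ 2) x))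
        ∂(dm (gconv μ (σ - h))) ≤
      ∫ x, 2 * h * dinP h (fun y => ‖gradient g y‖ ^ 2) x ∂(dm (gconv μ (σ - h))) :=
    integral_mono (k1.sub k4) (k3.const_mul _) fun x => dini_gauss_LSI hh x hg
  rw [integral_sub k1 k4, integral_const_mul] at key
  linarith

/-- the pointwise inequality in the form used below. -/
theorem dinrs_pt {h : ℝ} (hh : 0 < h) {g : E → ℝ} (hg : IsTest g) (hg0 : ∃ x, g x ≠ 0) (x : E)
    {Z : E → E} (hZ : Continuous Z) (hZc : HasCompactSupport Z)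
    (hmean : ∫ y, gk h (x - y) • (g y ^ 2 • Z y) = 0) :
    ‖dinP h (fun y => (2 * g y) • gradient g y) x‖ ^ 2 / (4 * dinP h (fun y => g y ^ 2) x) ≤
      dinP h (fun y => ‖gradient g y‖ ^ 2) x -
        (1 / 4) * (2 * (∫ y, gk h (x - y) * inner ℝ ((2 * g y) • gradient g y) (Z y)) -
          ∫ y, gk h (x - y) * (g y ^ 2 * ‖Z y‖ ^ 2)) := by
  have hgc : Continuous g := hg.1.continuous
  have hDc := dinpt_gradient_continuous hg.1
  have hDcs := dinpt_gradient_compact hg.2
  have hm := dinrs_m_pos hh hg hg0 x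
  have h1 := dinpt_pointwise_gk hh x (q := g) (B := fun y => (2 : ℝ) • gradient g y) hgc
    (by fun_prop) hDcs.smul_left hZ hZc
    (by simpa using dinpt_integrable h x (dinrs_sq_cont hg) (dinrs_sq_compact hg)) hm hmean
  have e1 : ∀ y, g y • (2 : ℝ) • gradient g y = (2 * g y) • gradient g y := fun y => by
    rw [smul_smul, mul_comm]
  have e2 : ∀ y, gk h (x - y) * ‖(2 : ℝ) • gradient g y‖ ^ 2 =
      4 * (gk h (x - y) * ‖gradient g y‖ ^ 2) := fun y => by
    rw [norm_smul, mul_pow]; norm_num; ring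
  simp only [e1, e2] at h1
  rw [integral_const_mul] at h1
  have e3 : ‖dinP h (fun y => (2 * g y) • gradient g y) x‖ ^ 2 / (4 * dinP h (fun y => g y ^ 2) x)
      = (1 / 4) * (‖dinP h (fun y => (2 * g y) • gradient g y) x‖ ^ 2 /
        dinP h (fun y => g y ^ 2) x) := by
    field_simp
  rw [e3]
  simp only [dini_P_real]
  unfold dinP
  linarith

theorem dinrs_grad_sq {g : E → ℝ} (hg : IsTest g) (y : E) :
    gradient (fun z => g z ^ 2) y = (2 * g y) • gradient g y := by
  have hgy : DifferentiableAt ℝ g y := (hg.1.differentiable (by simp)) y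
  have h3 := hgy.hasFDerivAt.pow 2
  have key : (InnerProductSpace.toDual ℝ E) ((2 * g y) • gradient g y) =
      (2 • g y ^ (2 - 1)) • fderiv ℝ g y := by
    ext v
    simp [gradient]
  have h4 : HasGradientAt (fun z => g z ^ 2) ((2 * g y) • gradient g y) y := by
    rw [hasGradientAt_iff_hasFDerivAt, key]; exact h3
  exact h4.gradient

/-- `LSI ν⁻ R'` applied to `sqrt (P_h g²)`. -/
theorem dini_lsi_sqrt (hb : BddSupp μ) {σ h : ℝ} (hh : 0 < h) (hhσ : h < σ) {g : E → ℝ}
    (hg : IsTest g) (hg0 : ∃ x, g x ≠ 0) {R' : ℝ} (hL : LSI (dm (gconv μ (σ - h))) R') :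
    ent (dm (gconv μ (σ - h))) (dinP h (fun y => g y ^ 2)) ≤
      2 * R' * ∫ x, ‖dinP h (fun y => (2 * g y) • gradient g y) x‖ ^ 2 /
        (4 * dinP h (fun y => g y ^ 2) x) ∂(dm (gconv μ (σ - h))) := by
  have hσh : 0 < σ - h := sub_pos.2 hhσ
  have : IsProbabilityMeasure (dm (gconv μ (σ - h))) := gc_isProb hσh
  have hspd := gc_spd hb hσh
  have hDc := dinpt_gradient_continuous hg.1
  have hDcs := dinpt_gradient_compact hg.2
  have hm := dinrs_m_pos hh hg hg0
  have hsq : ContDiff ℝ ∞ (fun y => g y ^ 2) := hg.1.pow 2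
  have hmC : ContDiff ℝ ∞ (dinP h (fun y => g y ^ 2)) := dini_P_contDiff hh hsq (dinrs_sq_compact hg)
  have hF : ContDiff ℝ ∞ (fun x => Real.sqrt (dinP h (fun y => g y ^ 2) x)) :=
    hmC.sqrt fun x => (hm x).ne'
  have hgradm : ∀ x, gradient (dinP h (fun y => g y ^ 2)) x =
      dinP h (fun y => (2 * g y) • gradient g y) x := fun x => by
    rw [dini_P_gradient hh hsq (dinrs_sq_compact hg)]
    congr 1
    funext y
    exact dinrs_grad_sq hg y
  have hgradF : ∀ x, gradient (fun x => Real.sqrt (dinP h (fun y => g y ^ 2) x)) x =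
      (1 / (2 * Real.sqrt (dinP h (fun y => g y ^ 2) x))) •
        dinP h (fun y => (2 * g y) • gradient g y) x := fun x => by
    have h1 : HasFDerivAt (dinP h (fun y => g y ^ 2)) (fderiv ℝ (dinP h (fun y => g y ^ 2)) x) x :=
      ((hmC.differentiable (by simp)) x).hasFDerivAt
    have h2 := h1.sqrt (hm x).ne'
    rw [← hgradm x]
    unfold gradient
    rw [h2.fderiv, map_smul]
  have hnorm : ∀ x, ‖gradient (fun x => Real.sqrt (dinP h (fun y => g y ^ 2) x)) x‖ ^ 2 =
      ‖dinP h (fun y => (2 * g y) • gradient g y) x‖ ^ 2 / (4 * dinP h (fun y => g y ^ 2) x) :=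
    fun x => by
    rw [hgradF, norm_smul, mul_pow, Real.norm_eq_abs, sq_abs, div_pow, mul_pow,
      Real.sq_sqrt (hm x).le]
    ring
  obtain ⟨B, hB⟩ := (dinrs_sq_cont hg).bounded_above_of_compact_support (dinrs_sq_compact hg)
  obtain ⟨B', hB'⟩ := hDc.bounded_above_of_compact_support hDcs
  have hB'0 : 0 ≤ B' := (norm_nonneg _).trans (hB' 0)
  have m1 : MemLp (fun x => Real.sqrt (dinP h (fun y => g y ^ 2) x)) 2 (dm (gconv μ (σ - h))) := by
    refine MemLp.of_bound hF.continuous.aestronglyMeasurable (Real.sqrt B)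
      (Eventually.of_forall fun x => ?_)
    rw [Real.norm_eq_abs, abs_of_nonneg (Real.sqrt_nonneg _)]
    exact Real.sqrt_le_sqrt ((le_abs_self _).trans (dini_P_norm_le hh x hB))
  have m2 : MemLp (gradient (fun x => Real.sqrt (dinP h (fun y => g y ^ 2) x))) 2
      (dm (gconv μ (σ - h))) := by
    refine MemLp.of_bound (dinpt_gradient_continuous hF).aestronglyMeasurable B'
      (Eventually.of_forall fun x => ?_)
    have h1 := dinrs_pt hh hg hg0 x (Z := fun _ => 0) continuous_const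
      (HasCompactSupport.zero) (by simp)
    simp only [inner_zero_right, mul_zero, integral_zero, norm_zero, ne_eq, OfNat.ofNat_ne_zero,
      not_false_eq_true, zero_pow, sub_zero] at h1
    rw [← hnorm x] at h1
    have h2 : dinP h (fun y => ‖gradient g y‖ ^ 2) x ≤ B' ^ 2 := by
      have h3 : ‖dinP h (fun y => ‖gradient g y‖ ^ 2) x‖ ≤ B' ^ 2 :=
        dini_P_norm_le hh x fun y => by
          rw [Real.norm_eq_abs, abs_of_nonneg (by positivity)]
          exact pow_le_pow_left₀ (norm_nonneg _) (hB' y) 2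
      exact (le_abs_self _).trans h3
    exact abs_le_of_sq_le_sq' (h1.trans h2) hB'0 |>.2 |> fun h => by simpa using h
  have hH1 := ws_H1_of_contDiff (hF.of_le (by simp)) m1 m2
  have h5 := (ws_LSI_H1 hspd.1.continuous hspd.2.1 hL hH1).2
  simp only [hnorm] at h5
  have e5 : (fun x => Real.sqrt (dinP h (fun y => g y ^ 2) x) ^ 2) = dinP h (fun y => g y ^ 2) :=
    funext fun x => Real.sq_sqrt (hm x).le
  rwa [e5] at h5

/-- integrated pointwise inequality. -/
theorem dini_grad_bound_strict (hb : BddSupp μ) {σ h : ℝ} (hh : 0 < h) (hhσ : h < σ) {g : E → ℝ}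
    (hg : IsTest g) (hg0 : ∃ x, g x ≠ 0) {Z : E → E → E} {ρ : ℝ}
    (hZ : DinAdm h (fun y => g y ^ 2) Z ρ) :
    ∫ x, ‖dinP h (fun y => (2 * g y) • gradient g y) x‖ ^ 2 /
        (4 * dinP h (fun y => g y ^ 2) x) ∂(dm (gconv μ (σ - h))) ≤
      nrg (dm (gconv μ σ)) g - (1 / 4) * ∫ x, dinL h (fun y => g y ^ 2)
        (fun y => (2 * g y) • gradient g y) Z x ∂(dm (gconv μ (σ - h))) := by
  have hσ : 0 < σ := hh.trans hhσ
  have hσh : 0 < σ - h := sub_pos.2 hhσ
  have : IsProbabilityMeasure (dm (gconv μ σ)) := gc_isProb hσ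
  have : IsProbabilityMeasure (dm (gconv μ (σ - h))) := gc_isProb hσh
  have hgc : Continuous g := hg.1.continuous
  have hDc := dinpt_gradient_continuous hg.1
  have hDcs := dinpt_gradient_compact hg.2
  have hm := dinrs_m_pos hh hg hg0
  have j3 : Integrable (fun y => ‖gradient g y‖ ^ 2) (dm (gconv μ σ)) :=
    Continuous.integrable_of_hasCompactSupport (by fun_prop)
      (hDcs.norm.comp_left (g := fun t : ℝ => t ^ 2) (by simp))
  obtain ⟨k3, e3⟩ := dini_P_integral hb hh hhσ j3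
  have kL : Integrable (dinL h (fun y => g y ^ 2) (fun y => (2 * g y) • gradient g y) Z)
      (dm (gconv μ (σ - h))) :=
    dini_L_integrable hh (dinrs_sq_cont hg) (by fun_prop) hZ.cont hZ.supp _
  unfold nrg
  rw [← e3, ← integral_const_mul, ← integral_sub k3 (kL.const_mul _)]
  refine integral_mono_of_nonneg (Eventually.of_forall fun x => ?_) (k3.sub (kL.const_mul _))
    (Eventually.of_forall fun x => ?_)
  · have := hm x
    simp only [Pi.zero_apply]
    positivity
  · exact dinrs_pt hh hg hg0 x (hZ.cont_right x) (hZ.compact_right x) (hZ.mean x)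

theorem dini_rc_strict (hb : BddSupp μ) {σ h : ℝ} (hh : 0 < h) (hhσ : h < σ) {g : E → ℝ}
    (hg : IsTest g) (hg0 : ∃ x, g x ≠ 0) {Z : E → E → E} {ρ : ℝ}
    (hZ : DinAdm h (fun y => g y ^ 2) Z ρ) {R' : ℝ} (hR : 0 ≤ R')
    (hL : LSI (dm (gconv μ (σ - h))) R') :
    ent (dm (gconv μ σ)) (fun x => g x ^ 2) ≤ 2 * h * nrg (dm (gconv μ σ)) g +
      2 * R' * (nrg (dm (gconv μ σ)) g - (1 / 4) * ∫ x, dinL h (fun y => g y ^ 2)
        (fun y => (2 * g y) • gradient g y) Z x ∂(dm (gconv μ (σ - h)))) := by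
  have h1 := dini_ent_decomp hb hh hhσ hg hg0
  have h2 := dini_lsi_sqrt hb hh hhσ hg hg0 hL
  have h3 := dini_grad_bound_strict hb hh hhσ hg hg0 hZ
  have h4 := mul_le_mul_of_nonneg_left h3 (by positivity : 0 ≤ 2 * R')
  linarith

end Claimed.Agent.R259
end

/- ===== packed: Claimed.Agent.R259.DiniRCg ===== -/
section
/-
Row 259, kit DINI, package RC-GAP (owner of the kit: helper108).
One backward heat step for a TEST function `g`, variance version:
`Var_ν(g) = ∫ Var_{N(x,h)}(g) dν⁻ + Var_{ν⁻}(P_h g)`, Gaussian Poincare on the first term, `PI ν⁻ R'` applied to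
`P_h g` (smooth, bounded, `∇ P_h g = P_h ∇ g` bounded) through `ws_H1_of_contDiff`, `ws_PI_H1`, then
`dini_pointwise` with `k = gk h (x - ·)`, `q = 1`, `B = ∇g`.
-/
set_option autoImplicit false
set_option linter.unusedSectionVars false
set_option linter.unusedVariables false

open MeasureTheory Filter Topology ProbabilityTheory
open scoped ContDiff ENNReal

namespace Claimed.Agent.R259

variable {E : Type} [NormedAddCommGroup E] [InnerProductSpace ℝ E] [FiniteDimensional ℝ E]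
  [MeasurableSpace E] [BorelSpace E] {μ : Measure E} [IsProbabilityMeasure μ]

/-- variance decomposition + Gaussian Poincare (`dini_P_integral`, `dini_gauss_PI`). -/
theorem dini_var_decomp (hb : BddSupp μ) {σ h : ℝ} (hh : 0 < h) (hhσ : h < σ) {g : E → ℝ}
    (hg : IsTest g) :
    vari (dm (gconv μ σ)) g ≤ h * nrg (dm (gconv μ σ)) g +
      vari (dm (gconv μ (σ - h))) (dinP h g) := by
  have hσ : 0 < σ := hh.trans hhσ
  have hσh : 0 < σ - h := sub_pos.2 hhσ
  have : IsProbabilityMeasure (dm (gconv μ σ)) := gc_isProb hσ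
  have : IsProbabilityMeasure (dm (gconv μ (σ - h))) := gc_isProb hσh
  have hgc : Continuous g := hg.1.continuous
  have hDc := dinpt_gradient_continuous hg.1
  have hDcs := dinpt_gradient_compact hg.2
  have j1 : Integrable g (dm (gconv μ σ)) := hgc.integrable_of_hasCompactSupport hg.2
  have j2 : Integrable (fun y => g y ^ 2) (dm (gconv μ σ)) :=
    Continuous.integrable_of_hasCompactSupport (by fun_prop)
      (hg.2.comp_left (g := fun t : ℝ => t ^ 2) (by simp))
  have j3 : Integrable (fun y => ‖gradient g y‖ ^ 2) (dm (gconv μ σ)) :=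
    Continuous.integrable_of_hasCompactSupport (by fun_prop)
      (hDcs.norm.comp_left (g := fun t : ℝ => t ^ 2) (by simp))
  obtain ⟨k1, e1⟩ := dini_P_integral hb hh hhσ j1
  obtain ⟨k2, e2⟩ := dini_P_integral hb hh hhσ j2
  obtain ⟨k3, e3⟩ := dini_P_integral hb hh hhσ j3
  obtain ⟨B, hB⟩ := hgc.bounded_above_of_compact_support hg.2
  have hPc : Continuous (dinP h g) := dini_P_continuous hh hgc hg.2
  have hPB : ∀ x, |dinP h g x| ≤ B := fun x => dini_P_norm_le hh x hB
  have k4 : Integrable (fun x => dinP h g x ^ 2) (dm (gconv μ (σ - h))) := by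
    refine dinpt_integrable_bdd (B := B ^ 2) (by fun_prop) fun x => ?_
    rw [abs_pow]
    exact pow_le_pow_left₀ (abs_nonneg _) (hPB x) 2
  unfold vari nrg
  rw [← e1, ← e2, ← e3]
  have key : ∫ x, (dinP h (fun y => g y ^ 2) x - dinP h g x ^ 2) ∂(dm (gconv μ (σ - h))) ≤
      ∫ x, h * dinP h (fun y => ‖gradient g y‖ ^ 2) x ∂(dm (gconv μ (σ - h))) :=
    integral_mono (k2.sub k4) (k3.const_mul h) fun x => dini_gauss_PI hh x hg
  rw [integral_sub k2 k4, integral_const_mul] at key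
  linarith

/-- `PI ν⁻ R'` applied to `P_h g`. -/
theorem dini_pi_P (hb : BddSupp μ) {σ h : ℝ} (hh : 0 < h) (hhσ : h < σ) {g : E → ℝ}
    (hg : IsTest g) {R' : ℝ} (hL : PI (dm (gconv μ (σ - h))) R') :
    vari (dm (gconv μ (σ - h))) (dinP h g) ≤
      R' * ∫ x, ‖dinP h (gradient g) x‖ ^ 2 ∂(dm (gconv μ (σ - h))) := by
  have hσh : 0 < σ - h := sub_pos.2 hhσ
  have : IsProbabilityMeasure (dm (gconv μ (σ - h))) := gc_isProb hσh
  have hspd := gc_spd hb hσh
  have hgc : Continuous g := hg.1.continuous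
  have hDc := dinpt_gradient_continuous hg.1
  have hDcs := dinpt_gradient_compact hg.2
  obtain ⟨B, hB⟩ := hgc.bounded_above_of_compact_support hg.2
  obtain ⟨B', hB'⟩ := hDc.bounded_above_of_compact_support hDcs
  have hgrad : gradient (dinP h g) = dinP h (gradient g) :=
    funext fun x => dini_P_gradient hh hg.1 hg.2 x
  have m1 : MemLp (dinP h g) 2 (dm (gconv μ (σ - h))) :=
    MemLp.of_bound (dini_P_continuous hh hgc hg.2).aestronglyMeasurable B
      (Eventually.of_forall fun x => dini_P_norm_le hh x hB)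
  have m2 : MemLp (gradient (dinP h g)) 2 (dm (gconv μ (σ - h))) := by
    rw [hgrad]
    exact MemLp.of_bound (dini_P_continuous hh hDc hDcs).aestronglyMeasurable B'
      (Eventually.of_forall fun x => dini_P_norm_le hh x hB')
  have hH1 := ws_H1_of_contDiff ((dini_P_contDiff hh hg.1 hg.2).of_le (by simp)) m1 m2
  have := ws_PI_H1 hspd.1.continuous hspd.2.1 hL hH1
  rwa [hgrad] at this

/-- integrated pointwise inequality. -/
theorem dini_grad_bound_gap (hb : BddSupp μ) {σ h : ℝ} (hh : 0 < h) (hhσ : h < σ) {g : E → ℝ}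
    (hg : IsTest g) {Z : E → E → E} {ρ : ℝ} (hZ : DinAdm h (fun _ => 1) Z ρ) :
    ∫ x, ‖dinP h (gradient g) x‖ ^ 2 ∂(dm (gconv μ (σ - h))) ≤
      nrg (dm (gconv μ σ)) g - ∫ x, dinL h (fun _ => 1) (gradient g) Z x
        ∂(dm (gconv μ (σ - h))) := by
  have hσ : 0 < σ := hh.trans hhσ
  have hσh : 0 < σ - h := sub_pos.2 hhσ
  have : IsProbabilityMeasure (dm (gconv μ σ)) := gc_isProb hσ
  have : IsProbabilityMeasure (dm (gconv μ (σ - h))) := gc_isProb hσh
  have hDc := dinpt_gradient_continuous hg.1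
  have hDcs := dinpt_gradient_compact hg.2
  have j3 : Integrable (fun y => ‖gradient g y‖ ^ 2) (dm (gconv μ σ)) :=
    Continuous.integrable_of_hasCompactSupport (by fun_prop)
      (hDcs.norm.comp_left (g := fun t : ℝ => t ^ 2) (by simp))
  obtain ⟨k3, e3⟩ := dini_P_integral hb hh hhσ j3
  have kL : Integrable (dinL h (fun _ => 1) (gradient g) Z) (dm (gconv μ (σ - h))) :=
    dini_L_integrable hh continuous_const hDc hZ.cont hZ.supp _
  have hpt : ∀ x, ‖dinP h (gradient g) x‖ ^ 2 ≤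
      dinP h (fun y => ‖gradient g y‖ ^ 2) x - dinL h (fun _ => 1) (gradient g) Z x := by
    intro x
    have h1 := dinpt_pointwise_gk hh x (q := fun _ => 1) continuous_const hDc hDcs
      (hZ.cont_right x) (hZ.compact_right x) (by simpa using dini_gk_integrable hh x)
      (by simp [dini_gk_integral hh]) (by simpa using hZ.mean x)
    simpa [dini_gk_integral hh, dinP, dinL] using h1
  unfold nrg
  rw [← e3, ← integral_sub k3 kL]
  exact integral_mono_of_nonneg (Eventually.of_forall fun x => by positivity) (k3.sub kL)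
    (Eventually.of_forall hpt)

theorem dini_rc_gap (hb : BddSupp μ) {σ h : ℝ} (hh : 0 < h) (hhσ : h < σ) {g : E → ℝ}
    (hg : IsTest g) {Z : E → E → E} {ρ : ℝ} (hZ : DinAdm h (fun _ => 1) Z ρ) {R' : ℝ}
    (hR : 0 ≤ R') (hL : PI (dm (gconv μ (σ - h))) R') :
    vari (dm (gconv μ σ)) g ≤ h * nrg (dm (gconv μ σ)) g +
      R' * (nrg (dm (gconv μ σ)) g - ∫ x, dinL h (fun _ => 1) (gradient g) Z x
        ∂(dm (gconv μ (σ - h)))) := by
  have h1 := dini_var_decomp hb hh hhσ hg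
  have h2 := dini_pi_P hb hh hhσ hg hL
  have h3 := dini_grad_bound_gap hb hh hhσ hg hZ
  have h4 := mul_le_mul_of_nonneg_left h3 hR
  linarith

end Claimed.Agent.R259
end

/- ===== packed: Claimed.Agent.R259.DiniCut ===== -/
section
/-
Row 259, kit DINI, package CUT (owner of the kit: helper108).
From test functions to the optimiser: apply `dini_rc_strict` / `dini_rc_gap` to `g_k = χ_k f` (`χ_k` of `dini_cutoff`);
for `k > ρ` the corrector terms do not see the cutoff (`dini_L_congr`, `DinAdm.congr`); the other terms converge by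
dominated convergence (integrands are eventually constant in `k` at each point).
Dominations: `(χ f)² ≤ f²`; `|∇(χ f)|² ≤ 2 |∇f|² + 2 C² f²`;
`|χ² u log (χ² u)| ≤ |u log u| + u` for `u = f² > 0`, `0 ≤ χ ≤ 1` (`Real.abs_log_mul_self_lt`).
-/
set_option autoImplicit false
set_option linter.unusedSectionVars false
set_option linter.unusedVariables false

open MeasureTheory Filter Topology ProbabilityTheory
open scoped ContDiff ENNReal

namespace Claimed.Agent.R259

variable {E : Type} [NormedAddCommGroup E] [InnerProductSpace ℝ E] [FiniteDimensional ℝ E]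
  [MeasurableSpace E] [BorelSpace E]

/-- dominated convergence for integrands which are eventually constant at each point. -/
theorem dini_cut_tendsto {m : Measure E} {Fk : ℕ → E → ℝ} {F bound : E → ℝ}
    (hmeas : ∀ k, AEStronglyMeasurable (Fk k) m) (hb : Integrable bound m)
    (hle : ∀ k x, |Fk k x| ≤ bound x) (hev : ∀ x, ∀ᶠ k in atTop, Fk k x = F x) :
    Tendsto (fun k => ∫ x, Fk k x ∂m) atTop (𝓝 (∫ x, F x ∂m)) :=
  tendsto_integral_of_dominated_convergence bound hmeas hb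
    (fun k => Eventually.of_forall fun x => hle k x)
    (Eventually.of_forall fun x => tendsto_nhds_of_eventually_eq (hev x))

section cut

variable {χ : ℕ → E → ℝ} {C : ℝ}

theorem dinc_ev_one (h1 : ∀ (k : ℕ) x, ‖x‖ ≤ k → χ k x = 1) (x : E) :
    ∀ᶠ k in atTop, χ k x = 1 := by
  obtain ⟨N, hN⟩ := exists_nat_ge ‖x‖
  filter_upwards [eventually_ge_atTop N] with k hk
  exact h1 k x (hN.trans (by exact_mod_cast hk))

theorem dinc_ev_lt (x : E) : ∀ᶠ k : ℕ in atTop, ‖x‖ < k := by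
  obtain ⟨N, hN⟩ := exists_nat_gt ‖x‖
  filter_upwards [eventually_ge_atTop N] with k hk
  exact hN.trans_le (by exact_mod_cast hk)

theorem dinc_sq_integrable {m : Measure E} {f : E → ℝ} (hf2 : MemLp f 2 m) :
    Integrable (fun x => f x ^ 2) m := by
  simpa using hf2.integrable_norm_pow (by simp)

theorem dinc_nsq_integrable {m : Measure E} {f : E → E} (hf2 : MemLp f 2 m) :
    Integrable (fun x => ‖f x‖ ^ 2) m := by
  simpa using hf2.integrable_norm_pow (by simp)

theorem dini_cut_tendsto_sq (hχ : ∀ k, IsTest (χ k)) (h01 : ∀ k x, 0 ≤ χ k x ∧ χ k x ≤ 1)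
    (h1 : ∀ (k : ℕ) x, ‖x‖ ≤ k → χ k x = 1) (m : Measure E) {f : E → ℝ} (hf : Continuous f)
    (hf2 : MemLp f 2 m) :
    Tendsto (fun k => ∫ x, (χ k x * f x) ^ 2 ∂m) atTop (𝓝 (∫ x, f x ^ 2 ∂m)) := by
  refine dini_cut_tendsto (bound := fun x => f x ^ 2) (fun k => ?_) (dinc_sq_integrable hf2)
    (fun k x => ?_) (fun x => ?_)
  · have := (hχ k).1.continuous
    apply Continuous.aestronglyMeasurable; fun_prop
  · rw [abs_of_nonneg (sq_nonneg _), mul_pow]
    have : χ k x ^ 2 ≤ 1 := pow_le_one₀ (h01 k x).1 (h01 k x).2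
    nlinarith [sq_nonneg (f x)]
  · filter_upwards [dinc_ev_one h1 x] with k hk
    rw [hk, one_mul]

theorem dini_cut_tendsto_mean (hχ : ∀ k, IsTest (χ k)) (h01 : ∀ k x, 0 ≤ χ k x ∧ χ k x ≤ 1)
    (h1 : ∀ (k : ℕ) x, ‖x‖ ≤ k → χ k x = 1) (m : Measure E) [IsFiniteMeasure m] {f : E → ℝ}
    (hf : Continuous f) (hf2 : MemLp f 2 m) :
    Tendsto (fun k => ∫ x, χ k x * f x ∂m) atTop (𝓝 (∫ x, f x ∂m)) := by
  refine dini_cut_tendsto (bound := fun x => |f x|) (fun k => ?_)
    (hf2.integrable (by norm_num)).abs (fun k x => ?_) (fun x => ?_)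
  · have := (hχ k).1.continuous
    apply Continuous.aestronglyMeasurable; fun_prop
  · rw [abs_mul, abs_of_nonneg (h01 k x).1]
    exact mul_le_of_le_one_left (abs_nonneg _) (h01 k x).2
  · filter_upwards [dinc_ev_one h1 x] with k hk
    rw [hk, one_mul]

/-- inside the ball of radius `k` the cutoff is invisible, also for the gradient. -/
theorem dini_cut_gradient_eq (h1 : ∀ (k : ℕ) x, ‖x‖ ≤ k → χ k x = 1) (f : E → ℝ) {k : ℕ} {y : E}
    (hy : ‖y‖ < k) : gradient (fun x => χ k x * f x) y = gradient f y := by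
  have hev : (fun x => χ k x * f x) =ᶠ[𝓝 y] f := by
    have : Metric.ball (0 : E) k ∈ 𝓝 y := Metric.isOpen_ball.mem_nhds (by simpa using hy)
    filter_upwards [this] with x hx
    rw [h1 k x (by simpa using (le_of_lt (by simpa using hx : ‖x‖ < k))), one_mul]
  unfold gradient
  rw [hev.fderiv_eq]

theorem dinc_gradient_mul {χ₀ f : E → ℝ} (hχ : ContDiff ℝ ∞ χ₀) (hf : ContDiff ℝ ∞ f) (y : E) :
    gradient (fun x => χ₀ x * f x) y = χ₀ y • gradient f y + f y • gradient χ₀ y := by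
  have a1 := ((hχ.differentiable (by simp)) y).hasFDerivAt
  have a2 := ((hf.differentiable (by simp)) y).hasFDerivAt
  have a3 : HasFDerivAt (fun x => χ₀ x * f x) (χ₀ y • fderiv ℝ f y + f y • fderiv ℝ χ₀ y) y :=
    a1.mul a2
  unfold gradient
  rw [a3.fderiv, map_add, map_smul, map_smul]

theorem dini_cut_tendsto_nrg (hχ : ∀ k, IsTest (χ k)) (h01 : ∀ k x, 0 ≤ χ k x ∧ χ k x ≤ 1)
    (h1 : ∀ (k : ℕ) x, ‖x‖ ≤ k → χ k x = 1) (hC : ∀ k x, ‖gradient (χ k) x‖ ≤ C) (m : Measure E)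
    {f : E → ℝ} (hf : ContDiff ℝ ∞ f) (hf2 : MemLp f 2 m) (hDf : MemLp (gradient f) 2 m) :
    Tendsto (fun k => nrg m (fun x => χ k x * f x)) atTop (𝓝 (nrg m f)) := by
  unfold nrg
  refine dini_cut_tendsto (bound := fun x => 2 * ‖gradient f x‖ ^ 2 + 2 * C ^ 2 * f x ^ 2)
    (fun k => ?_) (((dinc_nsq_integrable hDf).const_mul 2).add
      ((dinc_sq_integrable hf2).const_mul _)) (fun k x => ?_) (fun x => ?_)
  · have := dinpt_gradient_continuous ((hχ k).1.mul hf)
    apply Continuous.aestronglyMeasurable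
    exact (continuous_norm.comp this).pow 2
  · rw [abs_of_nonneg (sq_nonneg _), dinc_gradient_mul (hχ k).1 hf]
    have a1 : ‖χ k x • gradient f x + f x • gradient (χ k) x‖ ≤
        ‖gradient f x‖ + C * |f x| := by
      refine (norm_add_le _ _).trans (add_le_add ?_ ?_)
      · rw [norm_smul, Real.norm_eq_abs, abs_of_nonneg (h01 k x).1]
        exact mul_le_of_le_one_left (norm_nonneg _) (h01 k x).2
      · rw [norm_smul, Real.norm_eq_abs, mul_comm]
        exact mul_le_mul_of_nonneg_right (hC k x) (abs_nonneg _)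
    have a2 := pow_le_pow_left₀ (norm_nonneg _) a1 2
    have a3 : (C * |f x|) ^ 2 = C ^ 2 * f x ^ 2 := by rw [mul_pow, sq_abs]
    nlinarith [sq_nonneg (‖gradient f x‖ - C * |f x|)]
  · filter_upwards [dinc_ev_lt x] with k hk
    rw [dini_cut_gradient_eq h1 f hk]

theorem dinc_entbound {c u : ℝ} (hc0 : 0 ≤ c) (hc1 : c ≤ 1) (hu : 0 < u) :
    |(c * u) * Real.log (c * u)| ≤ |u * Real.log u| + u := by
  rcases hc0.eq_or_lt with rfl | hc
  · simp; positivity
  · rw [Real.log_mul hc.ne' hu.ne']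
    have e : c * u * (Real.log c + Real.log u) = u * (Real.log c * c) + c * (u * Real.log u) := by
      ring
    rw [e]
    have a1 : |Real.log c * c| < 1 := Real.abs_log_mul_self_lt c hc hc1
    calc _ ≤ |u * (Real.log c * c)| + |c * (u * Real.log u)| := abs_add_le _ _
      _ = u * |Real.log c * c| + c * |u * Real.log u| := by
          rw [abs_mul, abs_mul c, abs_of_pos hu, abs_of_pos hc]
      _ ≤ u * 1 + 1 * |u * Real.log u| :=
          add_le_add (mul_le_mul_of_nonneg_left a1.le hu.le)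
            (mul_le_mul_of_nonneg_right hc1 (abs_nonneg _))
      _ = _ := by ring

theorem dini_cut_tendsto_entint (hχ : ∀ k, IsTest (χ k)) (h01 : ∀ k x, 0 ≤ χ k x ∧ χ k x ≤ 1)
    (h1 : ∀ (k : ℕ) x, ‖x‖ ≤ k → χ k x = 1) (m : Measure E) {f : E → ℝ} (hf : Continuous f)
    (hpos : ∀ x, 0 < f x) (hf2 : MemLp f 2 m)
    (hent : Integrable (fun x => f x ^ 2 * Real.log (f x ^ 2)) m) :
    Tendsto (fun k => ∫ x, (χ k x * f x) ^ 2 * Real.log ((χ k x * f x) ^ 2) ∂m) atTop
      (𝓝 (∫ x, f x ^ 2 * Real.log (f x ^ 2) ∂m)) := by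
  refine dini_cut_tendsto (bound := fun x => |f x ^ 2 * Real.log (f x ^ 2)| + f x ^ 2)
    (fun k => ?_) (hent.abs.add (dinc_sq_integrable hf2)) (fun k x => ?_) (fun x => ?_)
  · have := (hχ k).1.continuous
    apply Continuous.aestronglyMeasurable
    exact Real.continuous_mul_log.comp (by fun_prop : Continuous fun x => (χ k x * f x) ^ 2)
  · rw [mul_pow]
    exact dinc_entbound (sq_nonneg _) (pow_le_one₀ (h01 k x).1 (h01 k x).2) (pow_pos (hpos x) 2)
  · filter_upwards [dinc_ev_one h1 x] with k hk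
    rw [hk, one_mul]

end cut

theorem dini_cut_strict {μ : Measure E} [IsProbabilityMeasure μ] (hb : BddSupp μ)
    {σ h : ℝ} (hh : 0 < h) (hhσ : h < σ) {f : E → ℝ} (hf : ContDiff ℝ ∞ f) (hpos : ∀ x, 0 < f x)
    (hf2 : MemLp f 2 (dm (gconv μ σ))) (hDf : MemLp (gradient f) 2 (dm (gconv μ σ)))
    (hent : Integrable (fun x => f x ^ 2 * Real.log (f x ^ 2)) (dm (gconv μ σ)))
    {Z : E → E → E} {ρ : ℝ} (hZ : DinAdm h (fun y => f y ^ 2) Z ρ)
    {R' : ℝ} (hR : 0 ≤ R') (hL : LSI (dm (gconv μ (σ - h))) R') :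
    ent (dm (gconv μ σ)) (fun x => f x ^ 2) ≤ 2 * h * nrg (dm (gconv μ σ)) f +
      2 * R' * (nrg (dm (gconv μ σ)) f - (1 / 4) * ∫ x, dinL h (fun y => f y ^ 2)
        (fun y => (2 * f y) • gradient f y) Z x ∂(dm (gconv μ (σ - h)))) := by
  obtain ⟨χ, C, hχ, h01, h1, hC⟩ := dini_cutoff (E := E)
  set D := ∫ x, dinL h (fun y => f y ^ 2) (fun y => (2 * f y) • gradient f y) Z x
    ∂(dm (gconv μ (σ - h))) with hD
  have t1 := dini_cut_tendsto_sq hχ h01 h1 (dm (gconv μ σ)) hf.continuous hf2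
  have t2 := dini_cut_tendsto_entint hχ h01 h1 (dm (gconv μ σ)) hf.continuous hpos hf2 hent
  have t3 := dini_cut_tendsto_nrg hχ h01 h1 hC (dm (gconv μ σ)) hf hf2 hDf
  have tL : Tendsto (fun k => ent (dm (gconv μ σ)) (fun x => (χ k x * f x) ^ 2)) atTop
      (𝓝 (ent (dm (gconv μ σ)) (fun x => f x ^ 2))) := by
    unfold ent
    exact t2.sub ((Real.continuous_mul_log.tendsto _).comp t1)
  have tR : Tendsto (fun k => 2 * h * nrg (dm (gconv μ σ)) (fun x => χ k x * f x) +
      2 * R' * (nrg (dm (gconv μ σ)) (fun x => χ k x * f x) - (1 / 4) * D)) atTop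
      (𝓝 (2 * h * nrg (dm (gconv μ σ)) f + 2 * R' * (nrg (dm (gconv μ σ)) f - (1 / 4) * D))) :=
    (t3.const_mul _).add ((t3.sub_const _).const_mul _)
  refine le_of_tendsto_of_tendsto tL tR ?_
  obtain ⟨N, hN⟩ := exists_nat_gt ρ
  filter_upwards [eventually_ge_atTop N] with k hk
  have hρk : ρ < k := hN.trans_le (by exact_mod_cast hk)
  have hone : ∀ y, ‖y‖ ≤ ρ → χ k y = 1 := fun y hy => h1 k y (hy.trans hρk.le)
  have hg : IsTest (fun x => χ k x * f x) := ⟨(hχ k).1.mul hf, (hχ k).2.mul_right⟩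
  have hg0 : ∃ x, χ k x * f x ≠ 0 := ⟨0, by
    rw [h1 k 0 (by simp), one_mul]; exact (hpos 0).ne'⟩
  have hZ' : DinAdm h (fun y => (χ k y * f y) ^ 2) Z ρ :=
    hZ.congr fun y hy => by rw [hone y hy, one_mul]
  have hrc := dini_rc_strict hb hh hhσ hg hg0 hZ' hR hL
  have hLe : dinL h (fun y => (χ k y * f y) ^ 2)
      (fun y => (2 * (χ k y * f y)) • gradient (fun x => χ k x * f x) y) Z =
      dinL h (fun y => f y ^ 2) (fun y => (2 * f y) • gradient f y) Z :=
    dini_L_congr h hZ.supp (fun y hy => by rw [hone y hy, one_mul]) fun y hy => by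
      rw [hone y hy, one_mul, dini_cut_gradient_eq h1 f (hy.trans_lt hρk)]
  rw [hLe] at hrc
  exact hrc

theorem dini_cut_gap {μ : Measure E} [IsProbabilityMeasure μ] (hb : BddSupp μ)
    {σ h : ℝ} (hh : 0 < h) (hhσ : h < σ) {φ : E → ℝ} (hf : ContDiff ℝ ∞ φ)
    (hf2 : MemLp φ 2 (dm (gconv μ σ))) (hDf : MemLp (gradient φ) 2 (dm (gconv μ σ)))
    {Z : E → E → E} {ρ : ℝ} (hZ : DinAdm h (fun _ => 1) Z ρ)
    {R' : ℝ} (hR : 0 ≤ R') (hL : PI (dm (gconv μ (σ - h))) R') :
    vari (dm (gconv μ σ)) φ ≤ h * nrg (dm (gconv μ σ)) φ +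
      R' * (nrg (dm (gconv μ σ)) φ - ∫ x, dinL h (fun _ => 1) (gradient φ) Z x
        ∂(dm (gconv μ (σ - h)))) := by
  have : IsProbabilityMeasure (dm (gconv μ σ)) := gc_isProb (hh.trans hhσ)
  obtain ⟨χ, C, hχ, h01, h1, hC⟩ := dini_cutoff (E := E)
  set D := ∫ x, dinL h (fun _ => 1) (gradient φ) Z x ∂(dm (gconv μ (σ - h))) with hD
  have t1 := dini_cut_tendsto_sq hχ h01 h1 (dm (gconv μ σ)) hf.continuous hf2
  have t2 := dini_cut_tendsto_mean hχ h01 h1 (dm (gconv μ σ)) hf.continuous hf2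
  have t3 := dini_cut_tendsto_nrg hχ h01 h1 hC (dm (gconv μ σ)) hf hf2 hDf
  have tL : Tendsto (fun k => vari (dm (gconv μ σ)) (fun x => χ k x * φ x)) atTop
      (𝓝 (vari (dm (gconv μ σ)) φ)) := by
    unfold vari
    exact t1.sub (t2.pow 2)
  have tR : Tendsto (fun k => h * nrg (dm (gconv μ σ)) (fun x => χ k x * φ x) +
      R' * (nrg (dm (gconv μ σ)) (fun x => χ k x * φ x) - D)) atTop
      (𝓝 (h * nrg (dm (gconv μ σ)) φ + R' * (nrg (dm (gconv μ σ)) φ - D))) :=
    (t3.const_mul _).add ((t3.sub_const _).const_mul _)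
  refine le_of_tendsto_of_tendsto tL tR ?_
  obtain ⟨N, hN⟩ := exists_nat_gt ρ
  filter_upwards [eventually_ge_atTop N] with k hk
  have hρk : ρ < k := hN.trans_le (by exact_mod_cast hk)
  have hg : IsTest (fun x => χ k x * φ x) := ⟨(hχ k).1.mul hf, (hχ k).2.mul_right⟩
  have hrc := dini_rc_gap hb hh hhσ hg hZ hR hL
  have hLe : dinL h (fun _ => 1) (gradient (fun x => χ k x * φ x)) Z =
      dinL h (fun _ => 1) (gradient φ) Z :=
    dini_L_congr h hZ.supp (fun y hy => rfl) fun y hy =>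
      dini_cut_gradient_eq h1 φ (hy.trans_lt hρk)
  rw [hLe] at hrc
  exact hrc

end Claimed.Agent.R259
end

/- ===== packed: Claimed.Agent.R259.DiniLim ===== -/
section
/-
Row 259, kit DINI, package LIM (owner of the kit: helper108).
`M x = χ x • Dw x`, `ζ = 1` on the support of `χ`, `Z x y = M x (dinS h u ζ x y)`.
`∫ dinL dν⁻ = h ∫ (∫ gk h (x - y) (F0 + h F1)(x,y) dy) dν⁻(x)` (`dini_corr_L`); `F0`, `F1` are continuous with compact support on
`E × E`; `dini_approx_id` twice (for `F0` and for `(x,y) ↦ G y`, `G x = F0 (x,x)`), `dini_P_integral` (`∫ P_h G dν⁻ = ∫ G dν`):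
`∫ dinL dν⁻ ≥ h (∫ G dν - 2δ - h B₁)`, and `G = u (2χ - χ²) hsSq (Dw)`, `∫ G dν = ∫ (2χ - χ²) hsSq(Dw) dη ≥ J - δ`.
-/
set_option autoImplicit false
set_option linter.unusedSectionVars false
set_option linter.unusedVariables false

open MeasureTheory Filter Topology ProbabilityTheory
open scoped ContDiff ENNReal

namespace Claimed.Agent.R259

variable {E : Type} [NormedAddCommGroup E] [InnerProductSpace ℝ E] [FiniteDimensional ℝ E]
  [MeasurableSpace E] [BorelSpace E]

/-- choice of the cutoffs (`dini_cutoff` + dominated convergence, `0 ≤ 2χ - χ² ≤ 1`, `→ 1`). -/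
theorem dini_choose_cut {m : Measure E} {Q : E → ℝ} (hQ : Integrable Q m) (hQ0 : ∀ x, 0 ≤ Q x)
    {δ : ℝ} (hδ : 0 < δ) :
    ∃ χ ζ : E → ℝ, IsTest χ ∧ IsTest ζ ∧ (∀ x, 0 ≤ χ x ∧ χ x ≤ 1) ∧ (∀ x, χ x ≠ 0 → ζ x = 1) ∧
      ∫ x, Q x ∂m - δ ≤ ∫ x, (2 * χ x - χ x ^ 2) * Q x ∂m := by
  obtain ⟨χ, C, hχ, h01, h1, hC⟩ := dini_cutoff (E := E)
  have ht : Tendsto (fun k => ∫ x, (2 * χ k x - χ k x ^ 2) * Q x ∂m) atTop (𝓝 (∫ x, Q x ∂m)) := by
    refine tendsto_integral_of_dominated_convergence (fun x => |Q x|) (fun k => ?_) hQ.abs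
      (fun k => Eventually.of_forall fun x => ?_) (Eventually.of_forall fun x => ?_)
    · have := (hχ k).1.continuous
      exact (Continuous.aestronglyMeasurable (by fun_prop)).mul hQ.aestronglyMeasurable
    · rw [Real.norm_eq_abs, abs_mul]
      have a0 := (h01 k x).1
      have a1 := (h01 k x).2
      have : |2 * χ k x - χ k x ^ 2| ≤ 1 := by
        rw [abs_le]; constructor <;> nlinarith
      exact mul_le_of_le_one_left (abs_nonneg _) this
    · apply tendsto_nhds_of_eventually_eq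
      obtain ⟨N, hN⟩ := exists_nat_ge ‖x‖
      filter_upwards [eventually_ge_atTop N] with k hk
      rw [h1 k x (hN.trans (by exact_mod_cast hk))]
      ring
  obtain ⟨k, hk⟩ := (ht.eventually (lt_mem_nhds (sub_lt_self _ hδ))).exists
  obtain ⟨r, hr⟩ := (hχ k).2.isCompact.isBounded.subset_closedBall (0 : E)
  obtain ⟨k', hk'⟩ := exists_nat_ge r
  refine ⟨χ k, χ k', hχ k, hχ k', h01 k, fun x hx => ?_, hk.le⟩
  have hx' : x ∈ tsupport (χ k) := subset_closure hx
  have := hr hx'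
  rw [mem_closedBall_zero_iff] at this
  exact h1 k' x (this.trans hk')

section fields

variable {u ζ χ : E → ℝ} {w : E → E}

theorem dini_F0_continuous (hu : ContDiff ℝ ∞ u) (hζ : IsTest ζ) (hw : ContDiff ℝ ∞ w)
    {M : E → E →L[ℝ] E} (hM : Continuous M) : Continuous (dinF0 u ζ w M) := by
  have hζc := hζ.1.continuous
  have huc := hu.continuous
  have hDw : Continuous (fderiv ℝ w) := hw.continuous_fderiv (by simp)
  have hDζ : Continuous (fderiv ℝ ζ) := hζ.1.continuous_fderiv (by simp)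
  unfold dinF0 dinTr hsSq
  fun_prop

theorem dini_F1_continuous (hu : ContDiff ℝ ∞ u) (hupos : ∀ x, 0 < u x) (hζ : IsTest ζ)
    {M : E → E →L[ℝ] E} (hM : Continuous M) : Continuous (dinF1 u ζ M) := by
  have hζc := hζ.1.continuous
  have huc := hu.continuous
  have hDR : Continuous (fderiv ℝ (dinR u ζ)) :=
    (dini_R_contDiff hu hupos hζ.1).continuous_fderiv (by simp)
  unfold dinF1 dinTr
  simp only [ContinuousLinearMap.comp_apply]
  fun_prop

theorem dini_F0_compact (hζ : IsTest ζ) {M : E → E →L[ℝ] E} (hM : HasCompactSupport M) :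
    HasCompactSupport (dinF0 u ζ w M) := by
  refine HasCompactSupport.intro (hM.isCompact.prod hζ.2.isCompact) fun p hp => ?_
  rw [Set.mem_prod, not_and_or] at hp
  rcases hp with hp | hp
  · have : M p.1 = 0 := image_eq_zero_of_notMem_tsupport hp
    unfold dinF0 dinTr hsSq
    simp [this]
  · have : ζ p.2 = 0 := image_eq_zero_of_notMem_tsupport hp
    unfold dinF0
    simp [this]

theorem dini_F1_compact (hζ : IsTest ζ) {M : E → E →L[ℝ] E} (hM : HasCompactSupport M) :
    HasCompactSupport (dinF1 u ζ M) := by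
  refine HasCompactSupport.intro (hM.isCompact.prod hζ.2.isCompact) fun p hp => ?_
  rw [Set.mem_prod, not_and_or] at hp
  rcases hp with hp | hp
  · have : M p.1 = 0 := image_eq_zero_of_notMem_tsupport hp
    unfold dinF1 dinTr
    simp [this]
  · have : ζ p.2 = 0 := image_eq_zero_of_notMem_tsupport hp
    unfold dinF1
    simp [this]

/-- the diagonal value. -/
theorem dini_F0_diag (hχζ : ∀ x, χ x ≠ 0 → ζ x = 1) (x : E) :
    dinF0 u ζ w (fun x => χ x • fderiv ℝ w x) (x, x) =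
      u x * ((2 * χ x - χ x ^ 2) * hsSq (fderiv ℝ w x)) := by
  have e1 : dinTr (fderiv ℝ w x) (χ x • fderiv ℝ w x) = χ x * hsSq (fderiv ℝ w x) := by
    unfold dinTr hsSq
    rw [Finset.mul_sum]
    refine Finset.sum_congr rfl fun i _ => ?_
    rw [_root_.smul_apply, inner_smul_right, real_inner_self_eq_norm_sq]
  have e2 : hsSq (χ x • fderiv ℝ w x) = χ x ^ 2 * hsSq (fderiv ℝ w x) := by
    unfold hsSq
    rw [Finset.mul_sum]
    refine Finset.sum_congr rfl fun i _ => ?_
    rw [_root_.smul_apply, norm_smul, mul_pow, Real.norm_eq_abs, sq_abs]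
  unfold dinF0
  simp only [e1, e2, sub_self, map_zero, inner_zero_left, mul_zero, Finset.sum_const_zero, sub_zero]
  by_cases hx : χ x = 0
  · simp [hx]
  · rw [hχζ x hx]; ring

/-- admissibility of the explicit corrector. -/
theorem dini_corr_adm {h : ℝ} (hh : 0 < h) (hu : ContDiff ℝ ∞ u) (hupos : ∀ x, 0 < u x)
    (hζ : IsTest ζ) {M : E → E →L[ℝ] E} (hM : Continuous M) (hMc : HasCompactSupport M) :
    ∃ ρ : ℝ, DinAdm h u (fun x y => M x (dinS h u ζ x y)) ρ := by
  obtain ⟨r1, hr1⟩ := hMc.isCompact.isBounded.subset_closedBall (0 : E)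
  obtain ⟨r2, hr2⟩ := hζ.2.isCompact.isBounded.subset_closedBall (0 : E)
  refine ⟨max r1 r2, ?_, fun x y hxy => ?_, fun x => dini_corr_mean hh hu hupos hζ (M x) x⟩
  · have hζc := hζ.1.continuous
    have hR : Continuous (dinR u ζ) := (dini_R_contDiff hu hupos hζ.1).continuous
    unfold dinS
    fun_prop
  · rcases hxy with hx | hy
    · have : x ∉ tsupport M := fun hmem => by
        have := hr1 hmem
        rw [mem_closedBall_zero_iff] at this
        exact absurd (lt_of_le_of_lt (le_max_left r1 r2) hx) (not_lt.2 this)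
      simp only [image_eq_zero_of_notMem_tsupport this]
      simp
    · have hy' : y ∉ tsupport ζ := fun hmem => by
        have := hr2 hmem
        rw [mem_closedBall_zero_iff] at this
        exact absurd (lt_of_le_of_lt (le_max_right r1 r2) hy) (not_lt.2 this)
      have a1 : ζ y = 0 := image_eq_zero_of_notMem_tsupport hy'
      have a2 : y ∉ tsupport (fun z => ζ z * u z) := fun hmem =>
        hy' (tsupport_mul_subset_left hmem)
      have a3 : fderiv ℝ (fun z => ζ z * u z) y = 0 := by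
        by_contra hne
        exact a2 (support_fderiv_subset ℝ hne)
      have a4 : dinS h u ζ x y = 0 := by
        unfold dinS dinR gradient
        rw [a1, a3]; simp
      simp only [a4, map_zero]

end fields

/-- lower bound for a fixed pair of cutoffs. -/
theorem dini_lim_fixed {μ : Measure E} [IsProbabilityMeasure μ] (hb : BddSupp μ)
    {σ : ℝ} (hσ : 0 < σ) {u ζ : E → ℝ} {w : E → E} (hu : ContDiff ℝ ∞ u) (hupos : ∀ x, 0 < u x)
    (hw : ContDiff ℝ ∞ w) (hζ : IsTest ζ) {M : E → E →L[ℝ] E} (hM : Continuous M)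
    (hMc : HasCompactSupport M) {δ : ℝ} (hδ : 0 < δ) :
    ∃ h₀ > 0, ∀ h, 0 < h → h < h₀ → h < σ →
      h * (∫ x, dinF0 u ζ w M (x, x) ∂(dm (gconv μ σ)) - δ) ≤
        ∫ x, dinL h u (fun y => u y • w y) (fun x y => M x (dinS h u ζ x y)) x
          ∂(dm (gconv μ (σ - h))) := by
  have c0 := dini_F0_continuous hu hζ hw hM
  have c1 := dini_F1_continuous hu hupos hζ hM
  have s0 := dini_F0_compact (u := u) (w := w) hζ hMc
  have s1 := dini_F1_compact (u := u) hζ hMc
  obtain ⟨B0, hB0⟩ := c0.bounded_above_of_compact_support s0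
  obtain ⟨B1, hB1⟩ := c1.bounded_above_of_compact_support s1
  have hB1n : 0 ≤ B1 := (norm_nonneg _).trans (hB1 (0, 0))
  have hGc : Continuous (fun x => dinF0 u ζ w M (x, x)) := c0.comp (by fun_prop)
  have hGs : HasCompactSupport (fun x => dinF0 u ζ w M (x, x)) := by
    refine HasCompactSupport.intro hMc.isCompact fun x hx => ?_
    have : M x = 0 := image_eq_zero_of_notMem_tsupport hx
    unfold dinF0 dinTr hsSq
    simp [this]
  have u0 : UniformContinuous (dinF0 u ζ w M) := s0.uniformContinuous_of_continuous c0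
  have uG : UniformContinuous (fun p : E × E => dinF0 u ζ w M (p.2, p.2)) :=
    (hGs.uniformContinuous_of_continuous hGc).comp uniformContinuous_snd
  obtain ⟨h1, hh1, H1⟩ := dini_approx_id u0 hB0 (by positivity : 0 < δ / 4)
  obtain ⟨h2, hh2, H2⟩ := dini_approx_id uG (fun p => hB0 _) (by positivity : 0 < δ / 4)
  refine ⟨min h1 (min h2 (δ / (4 * (B1 + 1)))), by positivity, fun h hh hh0 hhσ => ?_⟩
  have hlt1 : h < h1 := hh0.trans_le (min_le_left _ _)
  have hlt2 : h < h2 := hh0.trans_le ((min_le_right _ _).trans (min_le_left _ _))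
  have hlt3 : h < δ / (4 * (B1 + 1)) := hh0.trans_le ((min_le_right _ _).trans (min_le_right _ _))
  have hlt3' : h * B1 ≤ δ / 4 := by
    rw [lt_div_iff₀ (by positivity)] at hlt3
    nlinarith
  have hσh : 0 < σ - h := sub_pos.2 hhσ
  have : IsProbabilityMeasure (dm (gconv μ σ)) := gc_isProb hσ
  have : IsProbabilityMeasure (dm (gconv μ (σ - h))) := gc_isProb hσh
  obtain ⟨ρ, hadm⟩ := dini_corr_adm hh hu hupos hζ hM hMc
  have kL : Integrable (dinL h u (fun y => u y • w y) (fun x y => M x (dinS h u ζ x y)))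
      (dm (gconv μ (σ - h))) :=
    dini_L_integrable hh hu.continuous (hu.continuous.smul hw.continuous) hadm.cont hadm.supp _
  obtain ⟨kG, eG⟩ := dini_P_integral hb hh hhσ
    (hGc.integrable_of_hasCompactSupport hGs (μ := dm (gconv μ σ)))
  have hpt : ∀ x, h * (dinP h (fun x => dinF0 u ζ w M (x, x)) x - δ) ≤
      dinL h u (fun y => u y • w y) (fun x y => M x (dinS h u ζ x y)) x := by
    intro x
    rw [dini_corr_L hh hu hupos hζ hw M x]
    apply mul_le_mul_of_nonneg_left _ hh.le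
    have i0 : Integrable (fun y => gk h (x - y) * dinF0 u ζ w M (x, y)) := by
      simpa using dini_gk_integrable_bdd hh x (G := fun y => dinF0 u ζ w M (x, y))
        (c0.comp (by fun_prop)) (fun y => hB0 _)
    have i1 : Integrable (fun y => gk h (x - y) * dinF1 u ζ M (x, y)) := by
      simpa using dini_gk_integrable_bdd hh x (G := fun y => dinF1 u ζ M (x, y))
        (c1.comp (by fun_prop)) (fun y => hB1 _)
    have e1 : ∫ y, gk h (x - y) * (dinF0 u ζ w M (x, y) + h * dinF1 u ζ M (x, y)) =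
        (∫ y, gk h (x - y) * dinF0 u ζ w M (x, y)) +
          h * ∫ y, gk h (x - y) * dinF1 u ζ M (x, y) := by
      rw [← integral_const_mul, ← integral_add i0 (i1.const_mul h)]
      congr 1
      funext y
      ring
    rw [e1]
    have a1 := abs_le.1 (H1 h hh hlt1 x)
    have a2 := abs_le.1 (H2 h hh hlt2 x)
    have a3 : |∫ y, gk h (x - y) * dinF1 u ζ M (x, y)| ≤ B1 :=
      dini_P_norm_le hh x (G := fun y => dinF1 u ζ M (x, y)) (fun y => hB1 _)
    have a4 := abs_le.1 a3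
    have a5 : -(h * B1) ≤ h * ∫ y, gk h (x - y) * dinF1 u ζ M (x, y) := by nlinarith
    rw [dini_P_real]
    simp only at a2
    linarith [a1.1, a2.2]
  have kS : Integrable (fun x => dinP h (fun x => dinF0 u ζ w M (x, x)) x - δ)
      (dm (gconv μ (σ - h))) := kG.sub (integrable_const δ)
  have hmono := integral_mono (kS.const_mul h) kL hpt
  rw [integral_const_mul, integral_sub kG (integrable_const δ), eG] at hmono
  simpa using hmono

theorem dini_lim {μ : Measure E} [IsProbabilityMeasure μ] (hb : BddSupp μ)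
    {σ : ℝ} (hσ : 0 < σ) {u η : E → ℝ} {w : E → E} (hu : ContDiff ℝ ∞ u) (hupos : ∀ x, 0 < u x)
    (hw : ContDiff ℝ ∞ w) (hη : ∀ x, η x = u x * gconv μ σ x)
    (hJ : Integrable (fun x => hsSq (fderiv ℝ w x)) (dm η)) {ε : ℝ} (hε : 0 < ε) :
    ∃ h₀ > 0, ∀ h, 0 < h → h < h₀ → h < σ → ∃ (Z : E → E → E) (ρ : ℝ), DinAdm h u Z ρ ∧
      h * (∫ x, hsSq (fderiv ℝ w x) ∂(dm η) - ε) ≤
        ∫ x, dinL h u (fun y => u y • w y) Z x ∂(dm (gconv μ (σ - h))) := by
  have hQ0 : ∀ x, 0 ≤ hsSq (fderiv ℝ w x) := fun x => by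
    unfold hsSq; positivity
  obtain ⟨χ, ζ, hχ, hζ, h01, hχζ, hcut⟩ := dini_choose_cut hJ hQ0 (half_pos hε)
  have hDw : Continuous (fderiv ℝ w) := hw.continuous_fderiv (by simp)
  have hM : Continuous (fun x => χ x • fderiv ℝ w x) := hχ.1.continuous.smul hDw
  have hMc : HasCompactSupport (fun x => χ x • fderiv ℝ w x) := hχ.2.smul_right
  obtain ⟨h₀, hh₀, H⟩ := dini_lim_fixed hb hσ hu hupos hw hζ hM hMc (half_pos hε)
  refine ⟨h₀, hh₀, fun h hh hh0 hhσ => ?_⟩
  obtain ⟨ρ, hadm⟩ := dini_corr_adm hh hu hupos hζ hM hMc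
  refine ⟨_, ρ, hadm, le_trans ?_ (H h hh hh0 hhσ)⟩
  have hspd := gc_spd hb hσ
  have hνm : Measurable (gconv μ σ) := hspd.1.continuous.measurable
  have hν0 : ∀ x, 0 ≤ gconv μ σ x := fun x => (hspd.2.1 x).le
  have hηm : Measurable η := by
    have : η = fun x => u x * gconv μ σ x := funext hη
    rw [this]; exact hu.continuous.measurable.mul hνm
  have hη0 : ∀ x, 0 ≤ η x := fun x => by rw [hη]; exact mul_nonneg (hupos x).le (hν0 x)
  have hG : ∫ x, dinF0 u ζ w (fun x => χ x • fderiv ℝ w x) (x, x) ∂(dm (gconv μ σ)) =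
      ∫ x, (2 * χ x - χ x ^ 2) * hsSq (fderiv ℝ w x) ∂(dm η) := by
    rw [dini_integral_dm hνm hν0, dini_integral_dm hηm hη0]
    refine integral_congr_ae (Eventually.of_forall fun x => ?_)
    simp only [dini_F0_diag hχζ x, hη x, smul_eq_mul]
    ring
  rw [hG]
  have : ∫ x, hsSq (fderiv ℝ w x) ∂(dm η) - ε ≤
      ∫ x, (2 * χ x - χ x ^ 2) * hsSq (fderiv ℝ w x) ∂(dm η) - ε / 2 := by linarith
  exact mul_le_mul_of_nonneg_left this hh.le

end Claimed.Agent.R259
end

/- ===== packed: Claimed.Agent.R259.Dini ===== -/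
section
/-
Row 259, kit DINI (one backward heat step; helper220's F3, msg 5396).  EXPORTS (statements fixed by sub-captain helper83).
Kit owner: helper108.  Blueprint (no Bregman identity, no symmetrisation, no tail estimate):
* `DiniDefs`  : `dinP`, `dinL`, `DinAdm`, explicit corrector `dinS`;
* `DiniBase`  : integrals against `dm`, kernel facts, Fubini for one heat step, Gaussian LSI/PI, approximate identity, cutoffs;
* `DiniPt`    : pointwise inequality with a mean zero corrector, regularity of `dinP`, `dinL`;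
* `DiniRCs/g` : the one step inequality for TEST functions with an arbitrary admissible corrector `Z`;
* `DiniCut`   : the same for the optimiser (cutoffs, dominated convergence);
* `DiniIbp`, `DiniLim` : an explicit corrector with `∫ dinL dν⁻ ≥ h (∫ hsSq(Dw) dη - ε)`;
* this file   : glue.
-/
set_option autoImplicit false
set_option linter.unusedSectionVars false

open MeasureTheory Filter Topology ProbabilityTheory
open scoped ContDiff ENNReal

namespace Claimed.Agent.R259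

variable {E : Type} [NormedAddCommGroup E] [InnerProductSpace ℝ E] [FiniteDimensional ℝ E]
  [MeasurableSpace E] [BorelSpace E]

/-! ### kit DINI: one backward heat step (helper220's F3) -/

/-- strict branch. -/
theorem dini_strict {μ : Measure E} [IsProbabilityMeasure μ] (hb : BddSupp μ)
    {σ lam : ℝ} (hσ : 0 < σ) (hlam : 0 < lam) {η : E → ℝ} {w : E → E} {f : E → ℝ}
    (hS : StrictBranch μ σ lam η w f) (hC : CritField μ σ lam η w) {ε : ℝ} (hε : 0 < ε) :
    ∃ h₀ > 0, ∀ h, 0 < h → h < h₀ → h < σ → ∀ R', 0 ≤ R' → LSI (dm (gconv μ (σ - h))) R' →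
      (lam⁻¹ - R') * ∫ x, ‖w x‖ ^ 2 ∂(dm η) ≤
        h * ∫ x, ‖w x‖ ^ 2 ∂(dm η) - R' * h * (∫ x, hsSq (fderiv ℝ w x) ∂(dm η) - ε) := by
  have hu : ContDiff ℝ ∞ (fun y => f y ^ 2) := hS.f_smooth.pow 2
  have hupos : ∀ x, 0 < f x ^ 2 := fun x => pow_pos (hS.f_pos x) 2
  obtain ⟨h₀, hh₀, H⟩ := dini_lim hb hσ hu hupos hC.w_smooth hS.η_eq hC.Dw_int hε
  refine ⟨h₀, hh₀, fun h hh hh0 hhσ R' hR hL => ?_⟩
  obtain ⟨Z, ρ, hZ, hlow⟩ := H h hh hh0 hhσ
  have hcut := dini_cut_strict hb hh hhσ hS.f_smooth hS.f_pos hS.f_L2 hS.Df_L2 hS.ent_int hZ hR hL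
  -- the field `u • w`
  have hv : (fun y => f y ^ 2 • w y) = fun y => (2 * f y) • gradient f y := by
    funext y
    have hfy : DifferentiableAt ℝ f y := (hS.f_smooth.differentiable (by simp)) y
    have h1 : HasGradientAt (fun z => Real.log (f z ^ 2)) ((f y ^ 2)⁻¹ • ((2 * f y) • gradient f y)) y := by
      have h2 : HasFDerivAt f (fderiv ℝ f y) y := hfy.hasFDerivAt
      have h3 := (h2.pow 2).log (hupos y).ne'
      have key : (InnerProductSpace.toDual ℝ E) ((f y ^ 2)⁻¹ • ((2 * f y) • gradient f y)) =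
          (f y ^ 2)⁻¹ • (2 • f y ^ (2 - 1)) • fderiv ℝ f y := by
        ext v
        simp [gradient]
      rw [hasGradientAt_iff_hasFDerivAt, key]
      exact h3
    rw [hS.w_eq y, h1.gradient, smul_smul, mul_inv_cancel₀ (hupos y).ne', one_smul]
  rw [hv] at hlow
  set I := ∫ x, ‖w x‖ ^ 2 ∂(dm η) with hI
  set J := ∫ x, hsSq (fderiv ℝ w x) ∂(dm η) with hJ
  set D := ∫ x, dinL h (fun y => f y ^ 2) (fun y => (2 * f y) • gradient f y) Z x
    ∂(dm (gconv μ (σ - h))) with hD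
  have hnrg : nrg (dm (gconv μ σ)) f = I / 4 := by rw [hI, hS.I_nrg]; ring
  have hent : ent (dm (gconv μ σ)) (fun x => f x ^ 2) = I / (2 * lam) := by
    unfold ent
    rw [hI, hS.f_norm, hS.I_eq]
    field_simp
    simp
  rw [hnrg, hent] at hcut
  have h5 : I / (2 * lam) = lam⁻¹ * I / 2 := by field_simp
  rw [h5] at hcut
  have h6 : R' * (h * (J - ε)) ≤ R' * D := mul_le_mul_of_nonneg_left hlow hR
  nlinarith

/-- gap branch. -/
theorem dini_gap {μ : Measure E} [IsProbabilityMeasure μ] (hb : BddSupp μ)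
    {σ lam : ℝ} (hσ : 0 < σ) (hlam : 0 < lam) {η : E → ℝ} {w : E → E} {φ : E → ℝ}
    (hG : GapBranch μ σ lam η w φ) (hC : CritField μ σ lam η w) {ε : ℝ} (hε : 0 < ε) :
    ∃ h₀ > 0, ∀ h, 0 < h → h < h₀ → h < σ → ∀ R', 0 ≤ R' → PI (dm (gconv μ (σ - h))) R' →
      (lam⁻¹ - R') * ∫ x, ‖w x‖ ^ 2 ∂(dm η) ≤
        h * ∫ x, ‖w x‖ ^ 2 ∂(dm η) - R' * h * (∫ x, hsSq (fderiv ℝ w x) ∂(dm η) - ε) := by
  have hηe : η = gconv μ σ := funext hG.η_eq
  have hwe : w = gradient φ := funext hG.w_eq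
  obtain ⟨h₀, hh₀, H⟩ := dini_lim hb hσ (u := fun _ => 1) contDiff_const (fun _ => one_pos)
    hC.w_smooth (fun x => by rw [hG.η_eq, one_mul]) hC.Dw_int hε
  refine ⟨h₀, hh₀, fun h hh hh0 hhσ R' hR hL => ?_⟩
  obtain ⟨Z, ρ, hZ, hlow⟩ := H h hh hh0 hhσ
  have hDf : MemLp (gradient φ) 2 (dm (gconv μ σ)) := by
    rw [← hwe, ← hηe]; exact hC.w_L2
  have hcut := dini_cut_gap hb hh hhσ hG.φ_smooth hG.φ_L2 hDf hZ hR hL
  have hv : (fun y => (1 : ℝ) • w y) = gradient φ := by
    funext y; rw [one_smul, hG.w_eq]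
  rw [hv] at hlow
  set I := ∫ x, ‖w x‖ ^ 2 ∂(dm η) with hI
  set J := ∫ x, hsSq (fderiv ℝ w x) ∂(dm η) with hJ
  set D := ∫ x, dinL h (fun _ => 1) (gradient φ) Z x ∂(dm (gconv μ (σ - h))) with hD
  have hnrg : nrg (dm (gconv μ σ)) φ = I := by
    rw [hI, hwe, hηe]; rfl
  have hvar : vari (dm (gconv μ σ)) φ = lam⁻¹ * I := by
    unfold vari
    rw [hI, hG.φ_mean, hG.I_eq]
    field_simp
    simp
  rw [hnrg, hvar] at hcut
  have h6 : R' * (h * (J - ε)) ≤ R' * D := mul_le_mul_of_nonneg_left hlow hR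
  nlinarith

end Claimed.Agent.R259
end

/- ===== packed: Claimed.Agent.R259.S3Crit ===== -/
section
/-
Row 259, section 3, Lemmas 3.5-3.7: aggregator of the kits SUBG, TG, REF, GAPF, DINI.
Owner: helper83.
-/

end
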