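/- Packed by merge_tool.py (helper293): 7 modules of Claimed.Agent.R259 in one file, same declarations.
   Old modules, in this order: WsMolB, OpBase, OpFlat, MkMeas, MkBorel, MetB2, MkSyl -/
import Claimed.Agent.R259.OpCalc
import Claimed.Agent.R259.WsIbp
import Mathlib
import Claimed.Agent.R259.Pack030
import Claimed.Agent.R259.Pack020

/- ===== packed: Claimed.Agent.R259.WsMolB ===== -/
section
/-
Row 259, kit WS: mollifier kit, part B: symmetry of the mollification in `L²` pairings and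
commutation with derivatives of classical functions.   Owner: helper217.
-/
set_option autoImplicit false
set_option linter.unusedSectionVars false

open MeasureTheory Filter Topology
open scoped ContDiff ENNReal InnerProductSpace

namespace Claimed.Agent.R259

variable {E : Type} [NormedAddCommGroup E] [InnerProductSpace ℝ E] [FiniteDimensional ℝ E]
  [MeasurableSpace E] [BorelSpace E]
variable {F : Type} [NormedAddCommGroup F] [InnerProductSpace ℝ F] [CompleteSpace F]

/-- symmetry for an integrable `f` and a bounded continuous `g`. -/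
theorem wsMol_symm_aux (k : ℕ) {f g : E → F} (hf : Integrable f volume) (hg : Continuous g)
    {M : ℝ} (hM : ∀ x, ‖g x‖ ≤ M) :
    ∫ x, ⟪f x, wsMol k g x⟫_ℝ = ∫ x, ⟪wsMol k f x, g x⟫_ℝ := by
  have hgl : LocallyIntegrable g volume := hg.locallyIntegrable
  have hfl : LocallyIntegrable f volume := hf.locallyIntegrable
  -- integrability on the product
  have I0 : Integrable (fun p : E × E => ‖f p.2‖ * wsRho k (p.1 - p.2)) (volume.prod volume) :=
    Integrable.convolution_integrand (ContinuousLinearMap.mul ℝ ℝ) hf.norm (wsRho_integrable k)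
  have I1 : Integrable (Function.uncurry fun (y x : E) => wsRho k (y - x) * ⟪f x, g y⟫_ℝ)
      (volume.prod volume) := by
    refine (I0.const_mul M).mono' ?_ (Eventually.of_forall fun p => ?_)
    · refine AEStronglyMeasurable.mul ?_ ?_
      · exact ((wsRho_contDiff k).continuous.comp
          (continuous_fst.sub continuous_snd)).aestronglyMeasurable
      · exact (hf.aestronglyMeasurable.comp_snd).inner
          (hg.comp continuous_fst).aestronglyMeasurable
    · simp only [Function.uncurry]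
      rw [norm_mul, Real.norm_of_nonneg (wsRho_nonneg k _)]
      have h1 : ‖⟪f p.2, g p.1⟫_ℝ‖ ≤ ‖f p.2‖ * M :=
        (norm_inner_le_norm _ _).trans (mul_le_mul_of_nonneg_left (hM _) (norm_nonneg _))
      calc wsRho k (p.1 - p.2) * ‖⟪f p.2, g p.1⟫_ℝ‖ ≤ wsRho k (p.1 - p.2) * (‖f p.2‖ * M) :=
            mul_le_mul_of_nonneg_left h1 (wsRho_nonneg k _)
        _ = M * (‖f p.2‖ * wsRho k (p.1 - p.2)) := by ring
  have sw := integral_integral_swap I1
  have e1 : ∀ y, ∫ x, wsRho k (y - x) * ⟪f x, g y⟫_ℝ = ⟪wsMol k f y, g y⟫_ℝ := by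
    intro y
    rw [wsMol_eq, real_inner_comm, ← integral_inner (wsMol_integrable_swap k hfl y)]
    refine integral_congr_ae (Eventually.of_forall fun x => ?_)
    simp only [inner_smul_right, real_inner_comm]
  have e2 : ∀ x, ∫ y, wsRho k (y - x) * ⟪f x, g y⟫_ℝ = ⟪f x, wsMol k g x⟫_ℝ := by
    intro x
    rw [wsMol_eq, ← integral_inner (wsMol_integrable_swap k hgl x)]
    refine integral_congr_ae (Eventually.of_forall fun y => ?_)
    have : wsRho k (y - x) = wsRho k (x - y) := by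
      rw [← wsRho_neg, neg_sub]
    simp only [inner_smul_right, this]
  simp only [e1, e2] at sw
  exact sw.symm

/-- SYMMETRY of the mollification. -/
theorem wsMol_integral_symm_gen (k : ℕ) {f g : E → F} (hf : LocallyIntegrable f volume)
    (hg : Continuous g) (hc : HasCompactSupport g) :
    ∫ x, ⟪f x, wsMol k g x⟫_ℝ = ∫ x, ⟪wsMol k f x, g x⟫_ℝ := by
  obtain ⟨M, hM⟩ := hc.exists_bound_of_continuous hg
  set K' := Metric.cthickening 1 (tsupport g) with hK'
  have hK'c : IsCompact K' := hc.isCompact.cthickening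
  set f' : E → F := K'.indicator f with hf'
  have hf'i : Integrable f' volume :=
    (hf.integrableOn_isCompact hK'c).integrable_indicator hK'c.measurableSet
  have a1 : ∀ x, ⟪f x, wsMol k g x⟫_ℝ = ⟪f' x, wsMol k g x⟫_ℝ := by
    intro x
    by_cases hx : x ∈ K'
    · rw [hf', Set.indicator_of_mem hx]
    · have : wsMol k g x = 0 := by
        by_contra h0
        exact hx (wsMol_support_subset k g h0)
      rw [this, inner_zero_right, inner_zero_right]
  have a2 : ∀ x, ⟪wsMol k f x, g x⟫_ℝ = ⟪wsMol k f' x, g x⟫_ℝ := by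
    intro x
    by_cases hx : x ∈ tsupport g
    · have : wsMol k f x = wsMol k f' x := by
        refine wsMol_eq_of_eqOn k fun y hy => ?_
        refine (Set.indicator_of_mem ?_ f).symm
        refine Metric.mem_cthickening_of_dist_le y x 1 _ hx ?_
        exact (Metric.mem_ball.1 hy).le.trans (wsB_rOut_le_one (E := E) k)
      rw [this]
    · rw [image_eq_zero_of_notMem_tsupport hx, inner_zero_right, inner_zero_right]
  simp only [a1, a2]
  exact wsMol_symm_aux k hf'i hg hM

theorem wsMol_integral_symm_inner (k : ℕ) {f g : E → E} (hf : LocallyIntegrable f volume)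
    (hg : Continuous g) (hc : HasCompactSupport g) :
    ∫ x, inner ℝ (f x) (wsMol k g x) = ∫ x, inner ℝ (wsMol k f x) (g x) :=
  wsMol_integral_symm_gen k hf hg hc

theorem wsMol_integral_symm (k : ℕ) {f g : E → ℝ} (hf : LocallyIntegrable f volume)
    (hg : Continuous g) (hc : HasCompactSupport g) :
    ∫ x, f x * wsMol k g x = ∫ x, wsMol k f x * g x := by
  have := wsMol_integral_symm_gen k hf hg hc
  simpa [mul_comm] using this

theorem wsMol_fderiv_comm (k : ℕ) {ψ : E → ℝ} (hψ : ContDiff ℝ 1 ψ) (x e : E) :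
    fderiv ℝ (wsMol k ψ) x e = wsMol k (fun y => fderiv ℝ ψ y e) x := by
  rw [← inner_gradient_left, wsMol_gradient (wsg_of_contDiff hψ) k, real_inner_comm]
  have := congrFun (wsMol_clm k (innerSL ℝ e) (ws_gradient_continuous hψ).locallyIntegrable) x
  simp only [innerSL_apply_apply] at this
  rw [← this]
  congr 1
  funext y
  rw [real_inner_comm, inner_gradient_left]

theorem wsMol_sum {F' : Type} [NormedAddCommGroup F'] [NormedSpace ℝ F'] [CompleteSpace F']
    (k : ℕ) {ι : Type} (s : Finset ι) {f : ι → E → F'}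
    (hf : ∀ i ∈ s, LocallyIntegrable (f i) volume) (x : E) :
    wsMol k (fun y => ∑ i ∈ s, f i y) x = ∑ i ∈ s, wsMol k (f i) x := by
  simp only [wsMol_eq, Finset.smul_sum]
  exact integral_finsetSum s fun i hi => wsMol_integrable_swap k (hf i hi) x

theorem wsMol_laplacian (k : ℕ) {ψ : E → ℝ} (hψ : ContDiff ℝ 2 ψ) (x : E) :
    Laplacian.laplacian (wsMol k ψ) x = wsMol k (Laplacian.laplacian ψ) x := by
  have hψ1 : ContDiff ℝ 1 ψ := hψ.of_le (by norm_num)
  have hsm : ContDiff ℝ ∞ (wsMol k ψ) := wsMol_contDiff k hψ.continuous.locallyIntegrable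
  have hd : ∀ e : E, ContDiff ℝ 1 (fun y => fderiv ℝ ψ y e) := fun e =>
    (hψ.fderiv_right (m := 1) (by norm_num)).clm_apply contDiff_const
  have e1 : Laplacian.laplacian ψ = fun y => ∑ i, fderiv ℝ
      (fun z => fderiv ℝ ψ z (stdOrthonormalBasis ℝ E i)) y (stdOrthonormalBasis ℝ E i) := by
    funext y
    exact opc_laplacian_eq ψ hψ.contDiffAt
  rw [opc_laplacian_eq _ (hsm.contDiffAt.of_le (WithTop.coe_le_coe.2 le_top)), e1, wsMol_sum]
  · refine Finset.sum_congr rfl fun i _ => ?_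
    have e2 : (fun y => fderiv ℝ (wsMol k ψ) y (stdOrthonormalBasis ℝ E i))
        = wsMol k (fun y => fderiv ℝ ψ y (stdOrthonormalBasis ℝ E i)) := by
      funext y
      exact wsMol_fderiv_comm k hψ1 y _
    rw [e2, wsMol_fderiv_comm k (hd _)]
  · intro i _
    exact (((hd _).continuous_fderiv (by simp)).clm_apply continuous_const).locallyIntegrable

end Claimed.Agent.R259
end

/- ===== packed: Claimed.Agent.R259.OpBase ===== -/
section
/-
Row 259, kit OP: small facts used by the files `OpFlat`, `OpLocal`, `OpCacc`, `OpDense`, `OpVec`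
(classical functions are in the operator domain; `dm 1 = volume`; energy of a test function).
Owner: helper217.
-/
set_option autoImplicit false
set_option linter.unusedSectionVars false

open MeasureTheory Filter Topology
open scoped ContDiff ENNReal NNReal InnerProductSpace

namespace Claimed.Agent.R259

variable {E : Type} [NormedAddCommGroup E] [InnerProductSpace ℝ E] [FiniteDimensional ℝ E]
  [MeasurableSpace E] [BorelSpace E]
variable {η : E → ℝ} {κ : ℝ}

theorem ws_dm_one : dm (fun _ : E => (1 : ℝ)) = volume := by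
  unfold dm
  simp only [ENNReal.ofReal_one]
  exact withDensity_one

theorem wsMol_integral_sq_le {F : Type} [NormedAddCommGroup F] [NormedSpace ℝ F] [CompleteSpace F]
    (k : ℕ) {f : E → F} (hf : MemLp f 2 volume) :
    ∫ x, ‖wsMol k f x‖ ^ 2 ≤ ∫ x, ‖f x‖ ^ 2 := by
  rw [ws_integral_sq_eq (wsMol_memLp k (by norm_num) (by norm_num) hf), ws_integral_sq_eq hf]
  refine pow_le_pow_left₀ ENNReal.toReal_nonneg ?_ 2
  exact ENNReal.toReal_mono hf.2.ne (wsMol_eLpNorm_le k (by norm_num) (by norm_num) hf.1)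

/-- `∫ ψ Δψ = - ∫ |∇ψ|²` for test functions. -/
theorem opk_test_energy {ψ : E → ℝ} (hψ : IsTest ψ) :
    ∫ x, ψ x * Laplacian.laplacian ψ x = - ∫ x, ‖gradient ψ x‖ ^ 2 := by
  have h := wsg_ibp_test (η := fun _ : E => (1 : ℝ)) contDiff_const (fun _ => one_pos)
    (wsg_of_contDiff (hψ.1.of_le (by simp))) hψ
  simp only [one_mul, opc_one, real_inner_self_eq_norm_sq, mul_neg, integral_neg] at h
  rw [h, neg_neg]

/-- smooth `f` with `f, A_η f ∈ L²(η)` is in the operator domain. -/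
theorem opm_dom_classical (hη : ContDiff ℝ ∞ η) (hpos : ∀ x, 0 < η x) {f : E → ℝ}
    (hf : ContDiff ℝ ∞ f) (h2 : MemLp f 2 (dm η)) (hA : MemLp (opA η f) 2 (dm η)) :
    IsDomA η f (gradient f) (opA η f) := by
  obtain ⟨hg, hib⟩ := wsh_classical_dom hη hpos hf h2 hA
  refine ⟨⟨wsg_of_contDiff (hf.of_le (by simp)), h2, hg⟩, hA, fun z gz hz => ?_⟩
  rw [← integral_congr_ae (Eventually.of_forall fun x => real_inner_comm (gradient f x) (gz x)),
    hib z gz hz]
  exact integral_congr_ae (Eventually.of_forall fun x => mul_comm _ _)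

theorem opm_memLp_opA (hη : ContDiff ℝ ∞ η) (hpos : ∀ x, 0 < η x) {f : E → ℝ} (hf : IsTest f) :
    MemLp (opA η f) 2 (dm η) :=
  ws_memLp_of_continuous_compact hη.continuous (opc_isTest hη hpos hf).1.continuous
    (opc_isTest hη hpos hf).2

theorem opm_dom_test (hη : ContDiff ℝ ∞ η) (hpos : ∀ x, 0 < η x) {f : E → ℝ} (hf : IsTest f) :
    IsDomA η f (gradient f) (opA η f) :=
  opm_dom_classical hη hpos hf.1 (wsh_of_test hη.continuous hf).2.1 (opm_memLp_opA hη hpos hf)

theorem opm_res_test (hη : ContDiff ℝ ∞ η) (hpos : ∀ x, 0 < η x) (κ : ℝ) {f : E → ℝ}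
    (hf : IsTest f) : IsRes η κ (fun x => f x + κ * opA η f x) f (gradient f) :=
  opr_of_dom κ (opm_dom_test hη hpos hf)

end Claimed.Agent.R259
end

/- ===== packed: Claimed.Agent.R259.OpFlat ===== -/
section
/-
Row 259, kit OP, LEAF L-op-flat: flat `H¹` regularity by DOUBLE MOLLIFICATION.

PROOF of `opk_flat_reg`.  Put `ψ k := wsMol k W` and `φ k := wsMol k (ψ k)`; both are test functions
(`wsMol_isTest`, or `wsMol_contDiff` + `wsMol_hasCompactSupport`; `W` is locally integrable because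
it is in `L²(dx)`: `MemLp.locallyIntegrable`).  Use the hypothesis with `φ k`:
* `Δ (φ k) = wsMol k (Δ (ψ k))` (`wsMol_laplacian`), `∇ (φ k) = wsMol k (∇ (ψ k))`
  (`wsMol_gradient`), linearity `wsMol_sub`, `wsMol_smul`;
* the mollifier is symmetric: `∫ W * wsMol k g = ∫ wsMol k W * g` (`wsMol_integral_symm`,
  `wsMol_integral_symm_inner`);
* `∫ ψ Δψ = - ∫ |∇ψ|²` (`opk_test_energy`).
This gives   `∫ ψ² + κ ∫ |∇ψ|² = ∫ ⟪wsMol k F, ∇ψ⟫ + ∫ wsMol k h * ψ`   (`ψ = ψ k`).
By Cauchy-Schwarz/Young (pointwise `⟪a,b⟫ ≤ |a|²/(2κ) + κ|b|²/2`, `c d ≤ c²/2 + d²/2`) and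
`wsMol_integral_sq_le`:   `κ ∫ |∇ψ k|² ≤ (∫ |F|²)/κ + ∫ h²`.
Finally `ψ k → W` in `L²(dx)` (`wsMol_tendsto_eLpNorm` + `ws_tendsto_sq_iff_real`) and
`wsh_lsc` with `η = 1` (`ws_dm_one : dm (fun _ => 1) = volume`) gives the weak gradient in `L²`.
-/
set_option autoImplicit false
set_option linter.unusedSectionVars false

open MeasureTheory Filter Topology
open scoped ContDiff ENNReal NNReal InnerProductSpace

namespace Claimed.Agent.R259

variable {E : Type} [NormedAddCommGroup E] [InnerProductSpace ℝ E] [FiniteDimensional ℝ E]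
  [MeasurableSpace E] [BorelSpace E]

/-- If `W ∈ L²(dx)` has compact support and `W - κ ΔW = - div F + h` in the sense of distributions,
with `F, h ∈ L²(dx)`, then `W ∈ H¹(dx)`. -/
theorem opk_flat_reg {κ : ℝ} (hκ : 0 < κ) {W h : E → ℝ} {F : E → E}
    (hW : MemLp W 2 volume) (hWc : HasCompactSupport W) (hF : MemLp F 2 volume)
    (hh : MemLp h 2 volume)
    (hid : ∀ φ : E → ℝ, IsTest φ →
      ∫ x, W x * (φ x - κ * Laplacian.laplacian φ x)
        = (∫ x, inner ℝ (F x) (gradient φ x)) + ∫ x, h x * φ x) :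
    ∃ G : E → E, WeakGrad W G ∧ MemLp G 2 volume := by
  have hWl : LocallyIntegrable W volume := hW.locallyIntegrable (by norm_num)
  have hFl : LocallyIntegrable F volume := hF.locallyIntegrable (by norm_num)
  have hhl : LocallyIntegrable h volume := hh.locallyIntegrable (by norm_num)
  have tψ : ∀ k, IsTest (wsMol k W) := fun k => wsMol_isTest k hWl hWc
  have hH : ∀ k, H1 volume (wsMol k W) (gradient (wsMol k W)) := by
    intro k
    have := wsh_of_test (η := fun _ : E => (1 : ℝ)) continuous_const (tψ k)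
    rwa [ws_dm_one] at this
  -- the energy bound
  have key : ∀ k : ℕ, ∫ x, ‖gradient (wsMol k W) x‖ ^ 2
      ≤ ((∫ x, ‖F x‖ ^ 2) / κ + ∫ x, ‖h x‖ ^ 2) / κ := by
    intro k
    have hHk := hH k
    have t1 := tψ k
    obtain ⟨ψ, hψ⟩ : ∃ ψ, ψ = wsMol k W := ⟨_, rfl⟩
    rw [← hψ] at hHk t1 ⊢
    have t2 : IsTest (wsMol k ψ) := wsMol_isTest k t1.1.continuous.locallyIntegrable t1.2
    have t3 : IsTest (opA (fun _ : E => (1 : ℝ)) ψ) := opc_isTest contDiff_const (fun _ => one_pos) t1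
    have hψ1 : ContDiff ℝ 1 ψ := t1.1.of_le (by simp)
    have hψ2 : ContDiff ℝ 2 ψ := t1.1.of_le (WithTop.coe_le_coe.2 le_top)
    have hL : Laplacian.laplacian ψ = fun x => - opA (fun _ : E => (1 : ℝ)) ψ x := by
      funext x; rw [opc_one, neg_neg]
    have hLc : Continuous (Laplacian.laplacian ψ) := by rw [hL]; exact t3.1.continuous.neg
    have hLs : HasCompactSupport (Laplacian.laplacian ψ) := by
      rw [hL]; exact t3.2.neg
    have h1 := hid _ t2
    -- left side
    have e1 : (fun x => wsMol k ψ x - κ * Laplacian.laplacian (wsMol k ψ) x)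
        = wsMol k (fun x => ψ x - κ * Laplacian.laplacian ψ x) := by
      have a := wsMol_sub k t1.1.continuous.locallyIntegrable
        (g := fun x => κ * Laplacian.laplacian ψ x) (hLc.const_smul κ).locallyIntegrable
      rw [a]
      funext x
      rw [wsMol_laplacian k hψ2]
      have b := congrFun (wsMol_smul k κ (Laplacian.laplacian ψ)) x
      simp only [smul_eq_mul] at b
      rw [b]
    have gc : Continuous (fun x => ψ x - κ * Laplacian.laplacian ψ x) :=
      t1.1.continuous.sub (hLc.const_smul κ)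
    have gs : HasCompactSupport (fun x => ψ x - κ * Laplacian.laplacian ψ x) :=
      t1.2.sub (hLs.mul_left (f := fun _ => κ))
    have e2 : ∫ x, W x * (wsMol k ψ x - κ * Laplacian.laplacian (wsMol k ψ) x)
        = ∫ x, ψ x * (ψ x - κ * Laplacian.laplacian ψ x) := by
      have := wsMol_integral_symm k hWl gc gs
      rw [← e1, ← hψ] at this
      exact this
    have i1 : Integrable (fun x => ψ x ^ 2) volume := by
      simpa only [Real.norm_eq_abs, sq_abs] using ws_integrable_sq hHk.2.1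
    have i2 : Integrable (fun x => ψ x * Laplacian.laplacian ψ x) volume :=
      (t1.1.continuous.mul hLc).integrable_of_hasCompactSupport t1.2.mul_right
    have e3 : ∫ x, ψ x * (ψ x - κ * Laplacian.laplacian ψ x)
        = (∫ x, ψ x ^ 2) + κ * ∫ x, ‖gradient ψ x‖ ^ 2 := by
      have : ∀ x, ψ x * (ψ x - κ * Laplacian.laplacian ψ x)
          = ψ x ^ 2 - κ * (ψ x * Laplacian.laplacian ψ x) := fun x => by ring
      simp only [this]
      rw [integral_sub i1 (i2.const_mul κ), integral_const_mul, opk_test_energy t1]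
      ring
    -- right side
    have hgc : Continuous (gradient ψ) := ws_gradient_continuous hψ1
    have hgs : HasCompactSupport (gradient ψ) := ws_gradient_hasCompactSupport t1.2
    have e4 : ∫ x, inner ℝ (F x) (gradient (wsMol k ψ) x)
        = ∫ x, inner ℝ (wsMol k F x) (gradient ψ x) := by
      rw [wsMol_gradient (wsg_of_contDiff hψ1) k]
      exact wsMol_integral_symm_inner k hFl hgc hgs
    have e5 : ∫ x, h x * wsMol k ψ x = ∫ x, wsMol k h x * ψ x :=
      wsMol_integral_symm k hhl t1.1.continuous t1.2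
    rw [e2, e3, e4, e5] at h1
    have mF : MemLp (wsMol k F) 2 volume := wsMol_memLp k (by norm_num) (by norm_num) hF
    have mh : MemLp (wsMol k h) 2 volume := wsMol_memLp k (by norm_num) (by norm_num) hh
    have mg : MemLp (gradient ψ) 2 volume := hHk.2.2
    have mψ : MemLp ψ 2 volume := hHk.2.1
    have b1 : ∫ x, inner ℝ (wsMol k F x) (gradient ψ x)
        ≤ (∫ x, ‖wsMol k F x‖ ^ 2) / (2 * κ) + κ / 2 * ∫ x, ‖gradient ψ x‖ ^ 2 := by
      rw [div_eq_inv_mul, ← integral_const_mul, ← integral_const_mul,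
        ← integral_add ((ws_integrable_sq mF).const_mul _) ((ws_integrable_sq mg).const_mul _)]
      refine integral_mono (ws_integrable_inner mF mg)
        (((ws_integrable_sq mF).const_mul _).add ((ws_integrable_sq mg).const_mul _)) fun x => ?_
      have c1 := real_inner_le_norm (wsMol k F x) (gradient ψ x)
      refine c1.trans ?_
      set a := ‖wsMol k F x‖
      set b := ‖gradient ψ x‖
      have : (2 * κ)⁻¹ * a ^ 2 + κ / 2 * b ^ 2 - a * b = (a - κ * b) ^ 2 / (2 * κ) := by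
        field_simp
        ring
      have h0 : 0 ≤ (a - κ * b) ^ 2 / (2 * κ) := by positivity
      linarith
    have b2 : ∫ x, wsMol k h x * ψ x
        ≤ (∫ x, ‖wsMol k h x‖ ^ 2) / 2 + (∫ x, ψ x ^ 2) / 2 := by
      rw [div_eq_inv_mul, div_eq_inv_mul, ← integral_const_mul, ← integral_const_mul,
        ← integral_add ((ws_integrable_sq mh).const_mul _) (i1.const_mul _)]
      refine integral_mono (ws_integrable_mul mh mψ)
        (((ws_integrable_sq mh).const_mul _).add (i1.const_mul _)) fun x => ?_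
      simp only [Real.norm_eq_abs, sq_abs]
      nlinarith [sq_nonneg (wsMol k h x - ψ x)]
    have b3 := wsMol_integral_sq_le k hF
    have b4 := wsMol_integral_sq_le k hh
    have b5 : 0 ≤ ∫ x, ψ x ^ 2 := integral_nonneg fun x => by positivity
    have b6 : (∫ x, ‖wsMol k F x‖ ^ 2) / (2 * κ) ≤ (∫ x, ‖F x‖ ^ 2) / (2 * κ) :=
      div_le_div_of_nonneg_right b3 (by positivity)
    rw [le_div_iff₀ hκ]
    have b7 : (∫ x, ‖F x‖ ^ 2) / (2 * κ) = (∫ x, ‖F x‖ ^ 2) / κ / 2 := by
      field_simp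
    linarith
  have hlim : Tendsto (fun k => ∫ x, (wsMol k W x - W x) ^ 2) atTop (𝓝 0) :=
    (ws_tendsto_sq_iff_real (g := fun k x => wsMol k W x - W x)
      (fun k => (hH k).2.1.sub hW)).2 (wsMol_tendsto_eLpNorm (by norm_num) (by norm_num) hW)
  have := wsh_lsc (η := fun _ : E => (1 : ℝ)) continuous_const (fun _ => one_pos)
    (u := W) (uk := fun k => wsMol k W) (gk' := fun k => gradient (wsMol k W))
    (B := ((∫ x, ‖F x‖ ^ 2) / κ + ∫ x, ‖h x‖ ^ 2) / κ)
  rw [ws_dm_one] at this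
  obtain ⟨G, hG, -⟩ := this hH hW hlim (Frequently.of_forall key)
  exact ⟨G, hG.1, hG.2.2⟩

end Claimed.Agent.R259
end

/- ===== packed: Claimed.Agent.R259.MkMeas ===== -/
section
/-
Row 259 (S0499), matrix kit for sections 6-7, part 2: measurable and square integrable fields of
rectangular matrices; Borel functional calculus and Borel Schur multipliers are measurable;
Cauchy-Schwarz and Minkowski for integrated Hilbert-Schmidt norms of finite arrays of fields.
Architect: helper57.  Prefix `mk` / names `RM`, `RB`, `RL2`.  No paper needed.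

`RM F`     : all entries of the field `F` are measurable;
`RB F`     : measurable and uniformly bounded entries  (`= R260.MxBd` for square matrices, by `Iff.rfl`);
`RL2 μ F`  : all entries are in `L²(μ)`               (`= R260.MxL2` for square matrices, by `Iff.rfl`).
-/
set_option autoImplicit false
set_option linter.unusedSectionVars false

open MeasureTheory
open scoped BigOperators Matrix
open Claimed.Agent.R260 (Mx mxFun mxSchur mxSq mxIP mxEig mxU mxRot MxBd MxL2)

namespace Claimed.Agent.R259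

noncomputable section

variable {Ω : Type} [MeasurableSpace Ω] {μ : Measure Ω}
  {α β γ : Type} [Fintype α] [Fintype β] [Fintype γ] {n : ℕ}

/-- measurable field of rectangular matrices -/
def RM (F : Ω → Matrix α β ℝ) : Prop := ∀ i j, Measurable fun ω => F ω i j

/-- bounded measurable field of rectangular matrices -/
def RB (F : Ω → Matrix α β ℝ) : Prop := RM F ∧ ∃ C : ℝ, ∀ ω i j, |F ω i j| ≤ C

/-- square integrable field of rectangular matrices -/
def RL2 (μ : Measure Ω) (F : Ω → Matrix α β ℝ) : Prop := ∀ i j, MemLp (fun ω => F ω i j) 2 μ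

theorem mk_meas_eqns_cite : True := by
  have := @RM.eq_1
  have := @RB.eq_1
  have := @RL2.eq_1
  trivial

/-! ### Package L-Mk-E: closure properties -/

section closure

theorem RB_iff_MxBd (F : Ω → Mx n) : RB F ↔ MxBd F := Iff.rfl

theorem RL2_iff_MxL2 (F : Ω → Mx n) : RL2 μ F ↔ MxL2 μ F := Iff.rfl

theorem RM.const (M : Matrix α β ℝ) : RM (fun _ : Ω => M) := by
  exact fun i j => measurable_const

theorem RM.add {F G : Ω → Matrix α β ℝ} (hF : RM F) (hG : RM G) : RM fun ω => F ω + G ω := by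
  exact fun i j => (hF i j).add (hG i j)

theorem RM.sub {F G : Ω → Matrix α β ℝ} (hF : RM F) (hG : RM G) : RM fun ω => F ω - G ω := by
  exact fun i j => (hF i j).sub (hG i j)

theorem RM.neg {F : Ω → Matrix α β ℝ} (hF : RM F) : RM fun ω => -F ω := by
  exact fun i j => (hF i j).neg

theorem RM.smul {c : Ω → ℝ} (hc : Measurable c) {F : Ω → Matrix α β ℝ} (hF : RM F) :
    RM fun ω => c ω • F ω := by
  exact fun i j => hc.mul (hF i j)

theorem RM.mul {F : Ω → Matrix α β ℝ} {G : Ω → Matrix β γ ℝ} (hF : RM F) (hG : RM G) :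
    RM fun ω => F ω * G ω := by
  intro i j
  simp only [Matrix.mul_apply]
  exact Finset.measurable_sum _ fun k _ => (hF i k).mul (hG k j)

theorem RM.transpose {F : Ω → Matrix α β ℝ} (hF : RM F) : RM fun ω => (F ω)ᵀ := by
  exact fun i j => hF j i

theorem RM.sum {ι : Type} (s : Finset ι) {F : ι → Ω → Matrix α β ℝ} (hF : ∀ i ∈ s, RM (F i)) :
    RM fun ω => ∑ i ∈ s, F i ω := by
  intro i j
  simp only [Matrix.sum_apply]
  exact Finset.measurable_sum _ fun k hk => hF k hk i j

theorem RM.meas_trace {F : Ω → Matrix α α ℝ} (hF : RM F) : Measurable fun ω => Matrix.trace (F ω) := by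
  unfold Matrix.trace
  exact Finset.measurable_sum _ fun i _ => hF i i

theorem RM.meas_hs2 {F : Ω → Matrix α β ℝ} (hF : RM F) : Measurable fun ω => hs2 (F ω) := by
  unfold hs2
  exact Finset.measurable_sum _ fun i _ => Finset.measurable_sum _ fun j _ => (hF i j).pow_const 2

theorem RM.meas_hsI {F G : Ω → Matrix α β ℝ} (hF : RM F) (hG : RM G) :
    Measurable fun ω => hsI (F ω) (G ω) := by
  unfold hsI
  exact Finset.measurable_sum _ fun i _ => Finset.measurable_sum _ fun j _ => (hF i j).mul (hG i j)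

/-- a pointwise limit of measurable fields is measurable -/
theorem RM.of_tendsto {F : ℕ → Ω → Matrix α β ℝ} {G : Ω → Matrix α β ℝ} (hF : ∀ k, RM (F k))
    (h : ∀ ω i j, Filter.Tendsto (fun k => F k ω i j) Filter.atTop (nhds (G ω i j))) : RM G := by
  intro i j
  exact measurable_of_tendsto_metrizable (fun k => hF k i j) (tendsto_pi_nhds.2 fun ω => h ω i j)

theorem RM.comp {Ω' : Type} [MeasurableSpace Ω'] {F : Ω → Matrix α β ℝ} (hF : RM F) {φ : Ω' → Ω}
    (hφ : Measurable φ) : RM fun ω => F (φ ω) := by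
  exact fun i j => (hF i j).comp hφ

theorem RB.rm {F : Ω → Matrix α β ℝ} (hF : RB F) : RM F := hF.1

theorem RB.const (M : Matrix α β ℝ) : RB (fun _ : Ω => M) := by
  exact ⟨RM.const M, Real.sqrt (hs2 M), fun _ i j => Real.abs_le_sqrt (sq_apply_le_hs2 M i j)⟩

theorem RB.add {F G : Ω → Matrix α β ℝ} (hF : RB F) (hG : RB G) : RB fun ω => F ω + G ω := by
  obtain ⟨hFm, C, hC⟩ := hF
  obtain ⟨hGm, D, hD⟩ := hG
  refine ⟨hFm.add hGm, C + D, fun ω i j => ?_⟩
  exact (abs_add_le _ _).trans (add_le_add (hC ω i j) (hD ω i j))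

theorem RB.sub {F G : Ω → Matrix α β ℝ} (hF : RB F) (hG : RB G) : RB fun ω => F ω - G ω := by
  obtain ⟨hFm, C, hC⟩ := hF
  obtain ⟨hGm, D, hD⟩ := hG
  refine ⟨hFm.sub hGm, C + D, fun ω i j => ?_⟩
  exact (abs_sub _ _).trans (add_le_add (hC ω i j) (hD ω i j))

theorem RB.smul (c : ℝ) {F : Ω → Matrix α β ℝ} (hF : RB F) : RB fun ω => c • F ω := by
  obtain ⟨hFm, C, hC⟩ := hF
  refine ⟨fun i j => (hFm i j).const_mul c, |c| * C, fun ω i j => ?_⟩
  show |(c • F ω) i j| ≤ |c| * C
  rw [Matrix.smul_apply, smul_eq_mul, abs_mul]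
  exact mul_le_mul_of_nonneg_left (hC ω i j) (abs_nonneg _)

theorem RB.mul {F : Ω → Matrix α β ℝ} {G : Ω → Matrix β γ ℝ} (hF : RB F) (hG : RB G) :
    RB fun ω => F ω * G ω := by
  obtain ⟨hFm, C, hC⟩ := hF
  obtain ⟨hGm, D, hD⟩ := hG
  refine ⟨hFm.mul hGm, ∑ _k : β, C * D, fun ω i j => ?_⟩
  show |(F ω * G ω) i j| ≤ _
  rw [Matrix.mul_apply]
  refine (Finset.abs_sum_le_sum_abs _ _).trans (Finset.sum_le_sum fun k _ => ?_)
  rw [abs_mul]
  exact mul_le_mul (hC ω i k) (hD ω k j) (abs_nonneg _) ((abs_nonneg _).trans (hC ω i k))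

theorem RB.transpose {F : Ω → Matrix α β ℝ} (hF : RB F) : RB fun ω => (F ω)ᵀ := by
  obtain ⟨hFm, C, hC⟩ := hF
  exact ⟨fun i j => hFm j i, C, fun ω i j => hC ω j i⟩

theorem RB.sum {ι : Type} (s : Finset ι) {F : ι → Ω → Matrix α β ℝ} (hF : ∀ i ∈ s, RB (F i)) :
    RB fun ω => ∑ i ∈ s, F i ω := by
  classical
  induction s using Finset.induction_on with
  | empty => simpa using RB.const (Ω := Ω) (0 : Matrix α β ℝ)
  | insert a s ha ih =>
    simp only [Finset.sum_insert ha]
    exact (hF a (Finset.mem_insert_self a s)).add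
      (ih fun r hr => hF r (Finset.mem_insert_of_mem hr))

/-- a measurable field with bounded Hilbert-Schmidt norm is bounded -/
theorem RB.of_hs2_le {F : Ω → Matrix α β ℝ} (hF : RM F) {C : ℝ} (h : ∀ ω, hs2 (F ω) ≤ C) :
    RB F := by
  exact ⟨hF, Real.sqrt C, fun ω i j => Real.abs_le_sqrt ((sq_apply_le_hs2 _ i j).trans (h ω))⟩

theorem RB.hs2_le {F : Ω → Matrix α β ℝ} (hF : RB F) : ∃ C : ℝ, ∀ ω, hs2 (F ω) ≤ C := by
  obtain ⟨-, C, hC⟩ := hF
  refine ⟨∑ _i : α, ∑ _j : β, C ^ 2, fun ω => ?_⟩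
  refine Finset.sum_le_sum fun i _ => Finset.sum_le_sum fun j _ => ?_
  rw [← sq_abs]
  exact pow_le_pow_left₀ (abs_nonneg _) (hC ω i j) 2

theorem RB.toL2 [IsFiniteMeasure μ] {F : Ω → Matrix α β ℝ} (hF : RB F) : RL2 μ F := by
  obtain ⟨hFm, C, hC⟩ := hF
  exact fun i j => MemLp.of_bound (hFm i j).aestronglyMeasurable C
    (Filter.Eventually.of_forall fun ω => by rw [Real.norm_eq_abs]; exact hC ω i j)

theorem RL2.add {F G : Ω → Matrix α β ℝ} (hF : RL2 μ F) (hG : RL2 μ G) :
    RL2 μ fun ω => F ω + G ω := by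
  exact fun i j => (hF i j).add (hG i j)

theorem RL2.sub {F G : Ω → Matrix α β ℝ} (hF : RL2 μ F) (hG : RL2 μ G) :
    RL2 μ fun ω => F ω - G ω := by
  exact fun i j => (hF i j).sub (hG i j)

theorem RL2.neg {F : Ω → Matrix α β ℝ} (hF : RL2 μ F) : RL2 μ fun ω => -F ω := by
  exact fun i j => (hF i j).neg

theorem RL2.smul (c : ℝ) {F : Ω → Matrix α β ℝ} (hF : RL2 μ F) : RL2 μ fun ω => c • F ω := by
  exact fun i j => (hF i j).const_mul c

theorem RL2.transpose {F : Ω → Matrix α β ℝ} (hF : RL2 μ F) : RL2 μ fun ω => (F ω)ᵀ := by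
  exact fun i j => hF j i

theorem RL2.sum {ι : Type} (s : Finset ι) {F : ι → Ω → Matrix α β ℝ} (hF : ∀ i ∈ s, RL2 μ (F i)) :
    RL2 μ fun ω => ∑ i ∈ s, F i ω := by
  intro i j
  have := memLp_finsetSum s (fun r hr => hF r hr i j)
  simpa only [Matrix.sum_apply] using this

theorem RB.mul_L2 {F : Ω → Matrix α β ℝ} {G : Ω → Matrix β γ ℝ} (hF : RB F) (hG : RL2 μ G) :
    RL2 μ fun ω => F ω * G ω := by
  obtain ⟨hFm, C, hC⟩ := hF
  intro i j
  simp only [Matrix.mul_apply]
  exact memLp_finsetSum _ fun k _ =>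
    Claimed.Agent.R260.mxi_memLp_bdd_mul (hFm i k) (fun ω => hC ω i k) (hG k j)

theorem RL2.mul_B {F : Ω → Matrix α β ℝ} {G : Ω → Matrix β γ ℝ} (hF : RL2 μ F) (hG : RB G) :
    RL2 μ fun ω => F ω * G ω := by
  obtain ⟨hGm, C, hC⟩ := hG
  intro i j
  simp only [Matrix.mul_apply]
  refine memLp_finsetSum _ fun k _ => ?_
  simpa only [mul_comm] using
    Claimed.Agent.R260.mxi_memLp_bdd_mul (hGm k j) (fun ω => hC ω k j) (hF i k)

/-- domination: a measurable field whose squared norm is dominated by an integrable function -/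
theorem RL2.of_hs2_le {F : Ω → Matrix α β ℝ} (hF : RM F) {g : Ω → ℝ} (hg : Integrable g μ)
    (h : ∀ ω, hs2 (F ω) ≤ g ω) : RL2 μ F := by
  intro i j
  rw [memLp_two_iff_integrable_sq (hF i j).aestronglyMeasurable]
  refine hg.mono' ((hF i j).pow_const 2).aestronglyMeasurable (Filter.Eventually.of_forall fun ω => ?_)
  rw [Real.norm_eq_abs, abs_of_nonneg (sq_nonneg _)]
  exact (sq_apply_le_hs2 _ i j).trans (h ω)

theorem RL2.integrable_hs2 {F : Ω → Matrix α β ℝ} (hF : RL2 μ F) :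
    Integrable (fun ω => hs2 (F ω)) μ := by
  unfold hs2
  exact integrable_finsetSum _ fun i _ => integrable_finsetSum _ fun j _ => (hF i j).integrable_sq

theorem RL2.integrable_hsI {F G : Ω → Matrix α β ℝ} (hF : RL2 μ F) (hG : RL2 μ G) :
    Integrable (fun ω => hsI (F ω) (G ω)) μ := by
  unfold hsI
  exact integrable_finsetSum _ fun i _ => integrable_finsetSum _ fun j _ =>
    (hF i j).integrable_mul (hG i j)

theorem RL2.integrable_mul_apply {F : Ω → Matrix α β ℝ} {G : Ω → Matrix β γ ℝ} (hF : RL2 μ F)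
    (hG : RL2 μ G) (i : α) (j : γ) : Integrable (fun ω => (F ω * G ω) i j) μ := by
  simp only [Matrix.mul_apply]
  exact integrable_finsetSum _ fun k _ => (hF i k).integrable_mul (hG k j)

theorem RL2.integrable_trace_mul {F : Ω → Matrix α β ℝ} {G : Ω → Matrix β α ℝ} (hF : RL2 μ F)
    (hG : RL2 μ G) : Integrable (fun ω => Matrix.trace (F ω * G ω)) μ := by
  unfold Matrix.trace
  exact integrable_finsetSum _ fun i _ => hF.integrable_mul_apply hG i i

theorem RL2.integrable_apply [IsFiniteMeasure μ] {F : Ω → Matrix α β ℝ} (hF : RL2 μ F) (i : α)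
    (j : β) : Integrable (fun ω => F ω i j) μ := by
  exact (hF i j).integrable (by norm_num)

/-- `√(hs2 F) √(hs2 G)` is integrable -/
theorem RL2.integrable_sqrt_mul_sqrt {α' β' : Type} [Fintype α'] [Fintype β']
    {F : Ω → Matrix α β ℝ} {G : Ω → Matrix α' β' ℝ} (hF : RL2 μ F) (hG : RL2 μ G) :
    Integrable (fun ω => Real.sqrt (hs2 (F ω)) * Real.sqrt (hs2 (G ω))) μ := by
  have key : ∀ {α'' β'' : Type} [Fintype α''] [Fintype β''] {H : Ω → Matrix α'' β'' ℝ}, RL2 μ H →
      MemLp (fun ω => Real.sqrt (hs2 (H ω))) 2 μ := by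
    intro α'' β'' _ _ H hH
    have hi := hH.integrable_hs2
    rw [memLp_two_iff_integrable_sq (Real.continuous_sqrt.comp_aestronglyMeasurable hi.1)]
    refine hi.congr (Filter.Eventually.of_forall fun ω => ?_)
    exact (Real.sq_sqrt (hs2_nonneg _)).symm
  exact (key hF).integrable_mul (key hG)

end closure

/-! ### Package L-Mk-F: integrated Cauchy-Schwarz and Minkowski for finite arrays of fields -/

section arrays

variable {ι : Type} [Fintype ι]

/-- linearity of the integral, three terms -/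
theorem mk_integral_add3 {f g h : Ω → ℝ} (hf : Integrable f μ) (hg : Integrable g μ)
    (hh : Integrable h μ) (a b : ℝ) :
    ∫ ω, f ω + a * g ω + b * h ω ∂μ = ∫ ω, f ω ∂μ + a * ∫ ω, g ω ∂μ + b * ∫ ω, h ω ∂μ := by
  have h1 : Integrable (fun ω => a * g ω) μ := hg.const_mul a
  have h2 : Integrable (fun ω => f ω + a * g ω) μ := hf.add h1
  have h3 : Integrable (fun ω => b * h ω) μ := hh.const_mul b
  rw [integral_add h2 h3, integral_add hf h1, integral_const_mul, integral_const_mul]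

/-- integral of a finite double sum -/
theorem mk_integral_sum2 {κ κ' : Type} [Fintype κ] [Fintype κ'] {f : κ → κ' → Ω → ℝ}
    (hf : ∀ i j, Integrable (f i j) μ) :
    ∫ ω, ∑ i, ∑ j, f i j ω ∂μ = ∑ i, ∑ j, ∫ ω, f i j ω ∂μ := by
  rw [integral_finsetSum _ fun i _ => integrable_finsetSum _ fun j _ => hf i j]
  exact Finset.sum_congr rfl fun i _ => integral_finsetSum _ fun j _ => hf i j

/-- discriminant form of Cauchy-Schwarz -/
theorem mk_cs_aux {a b c : ℝ} (ha : 0 ≤ a) (_hc : 0 ≤ c)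
    (h : ∀ t : ℝ, 0 ≤ a + 2 * t * b + t ^ 2 * c) : |b| ≤ Real.sqrt a * Real.sqrt c := by
  have h1 : discrim c (2 * b) a ≤ 0 := discrim_le_zero fun x => by
    have := h x
    nlinarith
  unfold discrim at h1
  rw [← Real.sqrt_mul ha]
  apply Real.abs_le_sqrt
  nlinarith

/-- Cauchy-Schwarz for `∑_i E ⟨F_i, G_i⟩` -/
theorem mk_abs_sum_integral_hsI_le {F G : ι → Ω → Matrix α β ℝ} (hF : ∀ i, RL2 μ (F i))
    (hG : ∀ i, RL2 μ (G i)) :
    |∑ i, ∫ ω, hsI (F i ω) (G i ω) ∂μ|
      ≤ Real.sqrt (∑ i, ∫ ω, hs2 (F i ω) ∂μ) * Real.sqrt (∑ i, ∫ ω, hs2 (G i ω) ∂μ) := by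
  have ha : 0 ≤ ∑ i, ∫ ω, hs2 (F i ω) ∂μ :=
    Finset.sum_nonneg fun i _ => integral_nonneg fun ω => hs2_nonneg _
  have hc : 0 ≤ ∑ i, ∫ ω, hs2 (G i ω) ∂μ :=
    Finset.sum_nonneg fun i _ => integral_nonneg fun ω => hs2_nonneg _
  refine mk_cs_aux ha hc fun t => ?_
  have h0 : 0 ≤ ∑ i, ∫ ω, hs2 (F i ω + t • G i ω) ∂μ :=
    Finset.sum_nonneg fun i _ => integral_nonneg fun ω => hs2_nonneg _
  have e : ∀ i, ∫ ω, hs2 (F i ω + t • G i ω) ∂μ
      = ∫ ω, hs2 (F i ω) ∂μ + 2 * t * ∫ ω, hsI (F i ω) (G i ω) ∂μ + t ^ 2 * ∫ ω, hs2 (G i ω) ∂μ := by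
    intro i
    have e1 : ∀ ω, hs2 (F i ω + t • G i ω)
        = hs2 (F i ω) + 2 * t * hsI (F i ω) (G i ω) + t ^ 2 * hs2 (G i ω) := by
      intro ω
      rw [hs2_add, hsI_comm, hsI_smul_left, hs2_smul, hsI_comm]
      ring
    simp only [e1]
    exact mk_integral_add3 (hF i).integrable_hs2 ((hF i).integrable_hsI (hG i)) (hG i).integrable_hs2 _ _
  simp only [e, Finset.sum_add_distrib, ← Finset.mul_sum] at h0
  exact h0

/-- Minkowski for `(∑_i E ‖F_i + G_i‖²)^{1/2}` -/
theorem mk_sqrt_sum_integral_hs2_add_le {F G : ι → Ω → Matrix α β ℝ} (hF : ∀ i, RL2 μ (F i))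
    (hG : ∀ i, RL2 μ (G i)) :
    Real.sqrt (∑ i, ∫ ω, hs2 (F i ω + G i ω) ∂μ)
      ≤ Real.sqrt (∑ i, ∫ ω, hs2 (F i ω) ∂μ) + Real.sqrt (∑ i, ∫ ω, hs2 (G i ω) ∂μ) := by
  have ha : 0 ≤ ∑ i, ∫ ω, hs2 (F i ω) ∂μ :=
    Finset.sum_nonneg fun i _ => integral_nonneg fun ω => hs2_nonneg _
  have hc : 0 ≤ ∑ i, ∫ ω, hs2 (G i ω) ∂μ :=
    Finset.sum_nonneg fun i _ => integral_nonneg fun ω => hs2_nonneg _
  have e : ∀ i, ∫ ω, hs2 (F i ω + G i ω) ∂μ
      = ∫ ω, hs2 (F i ω) ∂μ + 2 * ∫ ω, hsI (F i ω) (G i ω) ∂μ + ∫ ω, hs2 (G i ω) ∂μ := by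
    intro i
    have h := mk_integral_add3 (hF i).integrable_hs2 ((hF i).integrable_hsI (hG i))
      (hG i).integrable_hs2 2 1
    simpa only [hs2_add, one_mul] using h
  simp only [e, Finset.sum_add_distrib, ← Finset.mul_sum]
  apply Real.sqrt_le_iff.2
  refine ⟨by positivity, ?_⟩
  have h1 := mk_abs_sum_integral_hsI_le hF hG
  have h2 := le_abs_self (∑ i, ∫ ω, hsI (F i ω) (G i ω) ∂μ)
  have h3 := Real.sq_sqrt ha
  have h4 := Real.sq_sqrt hc
  nlinarith

theorem mk_sqrt_sum_integral_hs2_sub_le {F G : ι → Ω → Matrix α β ℝ} (hF : ∀ i, RL2 μ (F i))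
    (hG : ∀ i, RL2 μ (G i)) :
    Real.sqrt (∑ i, ∫ ω, hs2 (F i ω - G i ω) ∂μ)
      ≤ Real.sqrt (∑ i, ∫ ω, hs2 (F i ω) ∂μ) + Real.sqrt (∑ i, ∫ ω, hs2 (G i ω) ∂μ) := by
  have h := mk_sqrt_sum_integral_hs2_add_le hF (fun i => (hG i).neg)
  simpa only [hs2_neg, ← sub_eq_add_neg] using h

/-- `| ∑ E‖F_i‖² - ∑ E‖G_i‖² | ≤ ‖F - G‖ (‖F‖ + ‖G‖)` -/
theorem mk_abs_sum_integral_hs2_sub_le {F G : ι → Ω → Matrix α β ℝ} (hF : ∀ i, RL2 μ (F i))
    (hG : ∀ i, RL2 μ (G i)) :
    |∑ i, ∫ ω, hs2 (F i ω) ∂μ - ∑ i, ∫ ω, hs2 (G i ω) ∂μ|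
      ≤ Real.sqrt (∑ i, ∫ ω, hs2 (F i ω - G i ω) ∂μ) *
        (Real.sqrt (∑ i, ∫ ω, hs2 (F i ω) ∂μ) + Real.sqrt (∑ i, ∫ ω, hs2 (G i ω) ∂μ)) := by
  have e : ∑ i, ∫ ω, hs2 (F i ω) ∂μ - ∑ i, ∫ ω, hs2 (G i ω) ∂μ
      = ∑ i, ∫ ω, hsI (F i ω - G i ω) (F i ω + G i ω) ∂μ := by
    rw [← Finset.sum_sub_distrib]
    refine Finset.sum_congr rfl fun i _ => ?_
    rw [← integral_sub (hF i).integrable_hs2 (hG i).integrable_hs2]
    refine integral_congr_ae (Filter.Eventually.of_forall fun ω => ?_)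
    show hs2 (F i ω) - hs2 (G i ω) = hsI (F i ω - G i ω) (F i ω + G i ω)
    rw [hsI_sub_left, hsI_comm (F i ω), hsI_comm (G i ω), hsI_add_left, hsI_add_left, hsI_self, hsI_self,
      hsI_comm (G i ω) (F i ω)]
    ring
  rw [e]
  refine (mk_abs_sum_integral_hsI_le (fun i => (hF i).sub (hG i)) (fun i => (hF i).add (hG i))).trans ?_
  exact mul_le_mul_of_nonneg_left (mk_sqrt_sum_integral_hs2_add_le hF hG) (Real.sqrt_nonneg _)

/-- scalar Cauchy-Schwarz in the form `E √f √g ≤ √(E f) √(E g)` -/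
theorem mk_integral_sqrt_mul_sqrt_le {f g : Ω → ℝ} (hf : Integrable f μ) (hg : Integrable g μ)
    (hf0 : ∀ ω, 0 ≤ f ω) (hg0 : ∀ ω, 0 ≤ g ω) :
    ∫ ω, Real.sqrt (f ω) * Real.sqrt (g ω) ∂μ
      ≤ Real.sqrt (∫ ω, f ω ∂μ) * Real.sqrt (∫ ω, g ω ∂μ) := by
  have hfs : MemLp (fun ω => Real.sqrt (f ω)) 2 μ := by
    rw [memLp_two_iff_integrable_sq (Real.continuous_sqrt.comp_aestronglyMeasurable hf.1)]
    exact hf.congr (Filter.Eventually.of_forall fun ω => (Real.sq_sqrt (hf0 ω)).symm)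
  have hgs : MemLp (fun ω => Real.sqrt (g ω)) 2 μ := by
    rw [memLp_two_iff_integrable_sq (Real.continuous_sqrt.comp_aestronglyMeasurable hg.1)]
    exact hg.congr (Filter.Eventually.of_forall fun ω => (Real.sq_sqrt (hg0 ω)).symm)
  have hfg : Integrable (fun ω => Real.sqrt (f ω) * Real.sqrt (g ω)) μ := hfs.integrable_mul hgs
  refine (le_abs_self _).trans ?_
  refine mk_cs_aux (integral_nonneg hf0) (integral_nonneg hg0) fun t => ?_
  have h0 : 0 ≤ ∫ ω, (Real.sqrt (f ω) + t * Real.sqrt (g ω)) ^ 2 ∂μ :=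
    integral_nonneg fun ω => sq_nonneg _
  have e1 : ∀ ω, (Real.sqrt (f ω) + t * Real.sqrt (g ω)) ^ 2
      = f ω + 2 * t * (Real.sqrt (f ω) * Real.sqrt (g ω)) + t ^ 2 * g ω := by
    intro ω
    have h1 := Real.sq_sqrt (hf0 ω)
    have h2 := Real.sq_sqrt (hg0 ω)
    calc (Real.sqrt (f ω) + t * Real.sqrt (g ω)) ^ 2
        = Real.sqrt (f ω) ^ 2 + 2 * t * (Real.sqrt (f ω) * Real.sqrt (g ω))
            + t ^ 2 * Real.sqrt (g ω) ^ 2 := by ring
      _ = _ := by rw [h1, h2]
  simp only [e1] at h0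
  rwa [mk_integral_add3 hf hfg hg] at h0

/-- entrywise mean of a field -/
def rMean (μ : Measure Ω) (F : Ω → Matrix α β ℝ) : Matrix α β ℝ :=
  Matrix.of fun i j => ∫ ω, F ω i j ∂μ

theorem mk_rMean_eqns_cite : True := by
  have := @rMean.eq_1
  trivial

/-- variance decomposition: `E ‖F - E F‖² = E ‖F‖² - ‖E F‖²` -/
theorem mk_integral_hs2_sub_rMean [IsProbabilityMeasure μ] {F : Ω → Matrix α β ℝ}
    (hF : RL2 μ F) :
    ∫ ω, hs2 (F ω - rMean μ F) ∂μ = ∫ ω, hs2 (F ω) ∂μ - hs2 (rMean μ F) := by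
  have hi : ∀ i j, Integrable (fun ω => F ω i j) μ := fun i j => hF.integrable_apply i j
  have hI : Integrable (fun ω => hsI (F ω) (rMean μ F)) μ := by
    unfold hsI
    exact integrable_finsetSum _ fun i _ => integrable_finsetSum _ fun j _ => (hi i j).mul_const _
  have e2 : ∫ ω, hsI (F ω) (rMean μ F) ∂μ = hs2 (rMean μ F) := by
    have h := mk_integral_sum2 (μ := μ) (f := fun i j ω => F ω i j * rMean μ F i j)
      (fun i j => (hi i j).mul_const _)
    refine h.trans ?_
    refine Finset.sum_congr rfl fun i _ => Finset.sum_congr rfl fun j _ => ?_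
    rw [integral_mul_const, sq]
    rfl
  have h := mk_integral_add3 hF.integrable_hs2 hI (integrable_const (μ := μ) (hs2 (rMean μ F))) (-2) 1
  rw [e2, integral_const] at h
  have e3 : ∀ ω, hs2 (F ω - rMean μ F)
      = hs2 (F ω) + -2 * hsI (F ω) (rMean μ F) + 1 * hs2 (rMean μ F) := by
    intro ω
    rw [hs2_sub]
    ring
  simp only [e3]
  rw [h]
  simp
  ring

theorem mk_hs2_rMean_le [IsProbabilityMeasure μ] {F : Ω → Matrix α β ℝ} (hF : RL2 μ F) :
    hs2 (rMean μ F) ≤ ∫ ω, hs2 (F ω) ∂μ := by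
  have h0 : 0 ≤ ∫ ω, hs2 (F ω - rMean μ F) ∂μ := integral_nonneg fun ω => hs2_nonneg _
  rw [mk_integral_hs2_sub_rMean hF] at h0
  linarith

/-- `E tr (F M) = tr ((E F) M)` for a constant matrix `M` -/
theorem mk_integral_trace_mul_const [IsFiniteMeasure μ] {F : Ω → Matrix α β ℝ} (hF : RL2 μ F)
    (M : Matrix β α ℝ) :
    ∫ ω, Matrix.trace (F ω * M) ∂μ = Matrix.trace (rMean μ F * M) := by
  have hi : ∀ i j, Integrable (fun ω => F ω i j) μ := fun i j => hF.integrable_apply i j
  have h := mk_integral_sum2 (μ := μ) (f := fun i k ω => F ω i k * M k i)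
    (fun i k => (hi i k).mul_const _)
  simp only [Matrix.trace, Matrix.diag_apply, Matrix.mul_apply]
  refine h.trans ?_
  refine Finset.sum_congr rfl fun i _ => Finset.sum_congr rfl fun k _ => ?_
  rw [integral_mul_const]
  rfl

/-- the mean of a field of positive matrices is positive -/
theorem mk_rMean_psd {R : Ω → Mx n} (hR : ∀ i j, Integrable (fun ω => R ω i j) μ)
    (hs : ∀ ω, (R ω).PosSemidef) : (rMean μ R).PosSemidef := by
  refine Matrix.PosSemidef.of_dotProduct_mulVec_nonneg ?_ fun x => ?_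
  · ext i j
    show star (∫ ω, R ω j i ∂μ) = ∫ ω, R ω i j ∂μ
    rw [star_trivial]
    refine integral_congr_ae (Filter.Eventually.of_forall fun ω => ?_)
    have := congrFun (congrFun (hs ω).1 i) j
    simpa using this
  · have e : star x ⬝ᵥ (rMean μ R *ᵥ x) = ∫ ω, star x ⬝ᵥ (R ω *ᵥ x) ∂μ := by
      have h := mk_integral_sum2 (μ := μ) (f := fun i j ω => x i * (R ω i j * x j))
        (fun i j => ((hR i j).mul_const _).const_mul _)
      simp only [dotProduct, Matrix.mulVec, star_trivial, Finset.mul_sum]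
      refine Eq.trans ?_ h.symm
      refine Finset.sum_congr rfl fun i _ => Finset.sum_congr rfl fun j _ => ?_
      rw [integral_const_mul, integral_mul_const]
      rfl
    rw [e]
    exact integral_nonneg fun ω => (hs ω).dotProduct_mulVec_nonneg x

/-- operator Jensen (Kadison): `(E R)² ≤ E R²` for a symmetric field -/
theorem mk_rMean_sq_le [IsProbabilityMeasure μ] {R : Ω → Mx n} (hR : RL2 μ R)
    (hs : ∀ ω, (R ω).IsSymm) :
    (rMean μ (fun ω => R ω * R ω) - rMean μ R * rMean μ R).PosSemidef := by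
  have hi : ∀ i j, Integrable (fun ω => R ω i j) μ := fun i j => hR.integrable_apply i j
  set M := rMean μ R with hM
  have hD : RL2 μ fun ω => R ω - M := hR.sub (RB.const M).toL2
  have e : rMean μ (fun ω => R ω * R ω) - M * M = rMean μ fun ω => (R ω - M)ᵀ * (R ω - M) := by
    have hMs : Mᵀ = M := by
      ext i j
      show ∫ ω, R ω j i ∂μ = ∫ ω, R ω i j ∂μ
      refine integral_congr_ae (Filter.Eventually.of_forall fun ω => ?_)
      exact (hs ω).apply i j
    ext i j
    show ∫ ω, (R ω * R ω) i j ∂μ - (M * M) i j = ∫ ω, ((R ω - M)ᵀ * (R ω - M)) i j ∂μ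
    have e1 : ∀ ω, ((R ω - M)ᵀ * (R ω - M)) i j
        = (R ω * R ω) i j + -1 * ((R ω * M) i j + (M * R ω) i j) + 1 * (M * M) i j := by
      intro ω
      rw [Matrix.transpose_sub, (hs ω).eq, hMs, Matrix.sub_mul, Matrix.mul_sub, Matrix.mul_sub]
      simp only [Matrix.sub_apply]
      ring
    have i1 : Integrable (fun ω => (R ω * R ω) i j) μ := hR.integrable_mul_apply hR i j
    have i2 : Integrable (fun ω => (R ω * M) i j) μ := by
      simp only [Matrix.mul_apply]
      exact integrable_finsetSum _ fun k _ => (hi i k).mul_const _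
    have i3 : Integrable (fun ω => (M * R ω) i j) μ := by
      simp only [Matrix.mul_apply]
      exact integrable_finsetSum _ fun k _ => (hi k j).const_mul _
    have e2 : ∫ ω, (R ω * M) i j ∂μ = (M * M) i j := by
      simp only [Matrix.mul_apply]
      refine (integral_finsetSum _ fun k _ => (hi i k).mul_const _).trans ?_
      refine Finset.sum_congr rfl fun k _ => ?_
      rw [integral_mul_const]
      rfl
    have e3 : ∫ ω, (M * R ω) i j ∂μ = (M * M) i j := by
      simp only [Matrix.mul_apply]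
      refine (integral_finsetSum _ fun k _ => (hi k j).const_mul _).trans ?_
      refine Finset.sum_congr rfl fun k _ => ?_
      rw [integral_const_mul]
      rfl
    have i4 : Integrable (fun ω => (R ω * M) i j + (M * R ω) i j) μ := i2.add i3
    have h := mk_integral_add3 i1 i4 (integrable_const (μ := μ) ((M * M) i j)) (-1) 1
    rw [integral_add i2 i3, e2, e3, integral_const] at h
    simp only [e1]
    rw [h]
    simp
    ring
  rw [e]
  refine mk_rMean_psd (fun i j => hD.transpose.integrable_mul_apply hD i j) fun ω => ?_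
  have := Matrix.posSemidef_conjTranspose_mul_self (R ω - M)
  rwa [Matrix.conjTranspose_eq_transpose_of_trivial] at this

end arrays

end

end Claimed.Agent.R259
end

/- ===== packed: Claimed.Agent.R259.MkBorel ===== -/
section
/-
Row 259 (S0499), matrix kit for sections 6-7, part 2b: Borel functional calculus and Borel Schur multipliers of measurable
fields of symmetric matrices are measurable.  Architect: helper57.  Prefix `mk`, `RM`, `RB`.
-/
set_option autoImplicit false

open MeasureTheory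
open scoped BigOperators Matrix
open Claimed.Agent.R260 (Mx mxFun mxSchur mxSq mxIP mxEig mxU mxRot mxDK MxBd MxL2)

namespace Claimed.Agent.R259

noncomputable section

variable {Ω : Type} [MeasurableSpace Ω] {μ : Measure Ω} {n : ℕ}

/-! ### Package L-Mk-G: Borel functional calculus is measurable

Plan.  (1) `f` continuous: `R260.mxFun_measurable_sym`.  (2) indicators of Borel sets: the sets `B` for which
`ω ↦ mxFun (indicator B 1) (J ω)` is measurable form a λ-system (complement: `1 - ·`, countable disjoint unions: pointwise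
limits of finite sums, `RM.of_tendsto`) containing the π-system of the `Set.Ioi a` / `Set.Iic a`
(pointwise limits of continuous functions): `MeasurableSpace.induction_on_inter`, `borel_eq_generateFrom_Ioi`.
(3) simple functions, (4) pointwise limits of simple functions (`SimpleFunc.approxOn` or `StronglyMeasurable`).
For Schur multipliers: rectangles `B ×ˢ B'` give `mxFun 1_B A * Z * mxFun 1_B' A`; same induction on `ℝ × ℝ`. -/

section Borel

/-- entries of the functional calculus -/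
theorem mk_mxFun_apply (f : ℝ → ℝ) (A : Mx n) (i j : Fin n) :
    mxFun f A i j = ∑ l, mxU A i l * f (mxEig A l) * mxU A j l := by
  rw [mxFun, Matrix.mul_apply]
  simp only [Matrix.mul_diagonal, Matrix.transpose_apply]

/-- entries of a Schur multiplier -/
theorem mk_mxSchur_apply (w : ℝ → ℝ → ℝ) (A Z : Mx n) (i j : Fin n) :
    mxSchur w A Z i j
      = ∑ l, (∑ k, mxU A i k * (w (mxEig A k) (mxEig A l) * mxRot A Z k l)) * mxU A j l := by
  rw [mxSchur, Matrix.mul_apply]
  simp only [Matrix.mul_apply, Matrix.transpose_apply, Matrix.of_apply]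

theorem mk_mxSchur_add_w (w w' : ℝ → ℝ → ℝ) (A Z : Mx n) :
    mxSchur (fun u v => w u v + w' u v) A Z = mxSchur w A Z + mxSchur w' A Z := by
  apply Claimed.Agent.R260.mxRot_injective A
  ext i j
  rw [Claimed.Agent.R260.mxRot_add, Matrix.add_apply, Claimed.Agent.R260.mxRot_mxSchur_apply,
    Claimed.Agent.R260.mxRot_mxSchur_apply, Claimed.Agent.R260.mxRot_mxSchur_apply]
  ring

theorem mk_mxSchur_smul_w (c : ℝ) (w : ℝ → ℝ → ℝ) (A Z : Mx n) :
    mxSchur (fun u v => c * w u v) A Z = c • mxSchur w A Z := by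
  apply Claimed.Agent.R260.mxRot_injective A
  ext i j
  rw [Claimed.Agent.R260.mxRot_smul, Matrix.smul_apply, Claimed.Agent.R260.mxRot_mxSchur_apply,
    Claimed.Agent.R260.mxRot_mxSchur_apply, smul_eq_mul]
  ring

/-- a class of real functions which contains the indicators of a generating π-system and the constant `1` and is
stable under sums, scalar multiples and pointwise limits of sequences contains all measurable functions -/
theorem mk_borel_induction {X : Type} [m : MeasurableSpace X] {S : Set (Set X)}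
    (hS : m = MeasurableSpace.generateFrom S) (hpi : IsPiSystem S) (P : (X → ℝ) → Prop)
    (hbasic : ∀ t ∈ S, P (t.indicator fun _ => 1))
    (hone : P fun _ => 1)
    (hadd : ∀ f g, P f → P g → P fun x => f x + g x)
    (hsmul : ∀ (c : ℝ) f, P f → P fun x => c * f x)
    (hlim : ∀ (f : ℕ → X → ℝ) (g : X → ℝ), (∀ k, P (f k)) →
      (∀ x, Filter.Tendsto (fun k => f k x) Filter.atTop (nhds (g x))) → P g)
    {f : X → ℝ} (hf : Measurable f) : P f := by
  have hzero : P fun _ => 0 := by simpa using hsmul 0 _ hone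
  have hind : ∀ t, MeasurableSet t → P (t.indicator fun _ => 1) := by
    intro t ht
    induction t, ht using MeasurableSpace.induction_on_inter hS hpi with
    | empty => simpa using hzero
    | basic t ht => exact hbasic t ht
    | compl t htm ih =>
      have h := hadd _ _ hone (hsmul (-1) _ ih)
      convert h using 1
      funext x
      by_cases hx : x ∈ t <;> simp [hx]
    | iUnion s hd hm ih =>
      have hsum : ∀ N : ℕ, P fun x => ∑ k ∈ Finset.range N, (s k).indicator (fun _ => (1 : ℝ)) x := by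
        intro N
        induction N with
        | zero => simpa using hzero
        | succ N ihN =>
          simp only [Finset.sum_range_succ]
          exact hadd _ _ ihN (ih N)
      refine hlim _ _ hsum fun x => ?_
      by_cases hx : x ∈ ⋃ i, s i
      · obtain ⟨i, hi⟩ := Set.mem_iUnion.1 hx
        rw [Set.indicator_of_mem hx]
        refine tendsto_const_nhds.congr' ?_
        filter_upwards [Filter.eventually_gt_atTop i] with N hN
        rw [Finset.sum_eq_single i]
        · rw [Set.indicator_of_mem hi]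
        · intro j _ hji
          rw [Set.indicator_of_notMem]
          intro hj
          exact (hd hji).le_bot ⟨hj, hi⟩
        · intro h
          exact absurd (Finset.mem_range.2 hN) h
      · rw [Set.indicator_of_notMem hx]
        refine tendsto_const_nhds.congr fun N => ?_
        symm
        apply Finset.sum_eq_zero
        intro j _
        rw [Set.indicator_of_notMem]
        intro hj
        exact hx (Set.mem_iUnion.2 ⟨j, hj⟩)
  have hsimple : ∀ φ : SimpleFunc X ℝ, P φ := by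
    intro φ
    induction φ using SimpleFunc.induction with
    | @const c s hs =>
      have h := hsmul c _ (hind _ hs)
      convert h using 1
      funext x
      by_cases hx : x ∈ s <;> simp [hx]
    | add hd hf hg => exact hadd _ _ hf hg
  exact hlim (fun k => hf.stronglyMeasurable.approx k) f (fun k => hsimple _)
    fun x => hf.stronglyMeasurable.tendsto_approx x

theorem mk_mxFun_tendsto {f : ℕ → ℝ → ℝ} {g : ℝ → ℝ}
    (h : ∀ x, Filter.Tendsto (fun k => f k x) Filter.atTop (nhds (g x))) (A : Mx n) (i j : Fin n) :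
    Filter.Tendsto (fun k => mxFun (f k) A i j) Filter.atTop (nhds (mxFun g A i j)) := by
  simp only [mk_mxFun_apply]
  exact tendsto_finsetSum _ fun l _ => (tendsto_const_nhds.mul (h _)).mul tendsto_const_nhds

theorem mk_mxSchur_tendsto {w : ℕ → ℝ → ℝ → ℝ} {w' : ℝ → ℝ → ℝ}
    (h : ∀ x y, Filter.Tendsto (fun k => w k x y) Filter.atTop (nhds (w' x y))) (A Z : Mx n)
    (i j : Fin n) :
    Filter.Tendsto (fun k => mxSchur (w k) A Z i j) Filter.atTop (nhds (mxSchur w' A Z i j)) := by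
  simp only [mk_mxSchur_apply]
  exact tendsto_finsetSum _ fun l _ => Filter.Tendsto.mul
    (tendsto_finsetSum _ fun k _ => tendsto_const_nhds.mul ((h _ _).mul tendsto_const_nhds))
    tendsto_const_nhds

/-- product weights -/
theorem mk_mxSchur_prod (f g : ℝ → ℝ) (A Z : Mx n) :
    mxSchur (fun u v => f u * g v) A Z = mxFun f A * Z * mxFun g A := by
  apply Claimed.Agent.R260.mxRot_injective A
  ext i j
  rw [Claimed.Agent.R260.mxRot_mxSchur_apply, Claimed.Agent.R260.mxRot_mul_mxFun_apply,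
    Claimed.Agent.R260.mxRot_mxFun_mul_apply]
  ring

/-- **Borel functional calculus is measurable** -/
theorem RM.of_mxFun {f : ℝ → ℝ} (hf : Measurable f) {J : Ω → Mx n} (hJ : RM J)
    (hs : ∀ ω, (J ω).IsSymm) : RM fun ω => mxFun f (J ω) := by
  have hcont : ∀ g : ℝ → ℝ, Continuous g → RM fun ω => mxFun g (J ω) := by
    intro g hg
    have h := Claimed.Agent.R260.mxFun_measurable_sym hJ hg
    have e : ∀ ω, (1 / 2 : ℝ) • (J ω + (J ω)ᵀ) = J ω := by
      intro ω
      rw [(hs ω).eq, ← two_smul ℝ (J ω), smul_smul]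
      norm_num
    intro i j
    simpa only [e] using h i j
  let P : (ℝ → ℝ) → Prop := fun g => RM fun ω => mxFun g (J ω)
  have hlim : ∀ (f : ℕ → ℝ → ℝ) (g : ℝ → ℝ), (∀ k, P (f k)) →
      (∀ x, Filter.Tendsto (fun k => f k x) Filter.atTop (nhds (g x))) → P g := by
    intro f g hf h
    exact RM.of_tendsto hf fun ω i j => mk_mxFun_tendsto h _ i j
  have key : P f := by
    refine mk_borel_induction (borel_eq_generateFrom_Iic ℝ) isPiSystem_Iic P ?_ ?_ ?_ ?_ hlim hf
    rotate_left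
    · show RM fun ω => mxFun (fun _ => 1) (J ω)
      simp only [Claimed.Agent.R260.mxFun_const]
      exact RM.const _
    · intro f g hf hg
      show RM fun ω => mxFun (fun x => f x + g x) (J ω)
      simp only [Claimed.Agent.R260.mxFun_add]
      exact RM.add hf hg
    · intro c f hf
      show RM fun ω => mxFun (fun x => c * f x) (J ω)
      simp only [Claimed.Agent.R260.mxFun_smul]
      exact RM.smul measurable_const hf
    rintro _ ⟨a, rfl⟩
    refine hlim (fun k x => max 0 (min 1 (1 - (k : ℝ) * (x - a)))) _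
      (fun k => hcont _ (by fun_prop)) fun x => ?_
    by_cases hx : x ≤ a
    · rw [Set.indicator_of_mem (Set.mem_Iic.2 hx)]
      refine tendsto_const_nhds.congr fun k => ?_
      have hk : (0 : ℝ) ≤ k := Nat.cast_nonneg k
      have h1 : (1 : ℝ) ≤ 1 - (k : ℝ) * (x - a) := by nlinarith
      rw [min_eq_left h1, max_eq_right zero_le_one]
    · rw [Set.indicator_of_notMem (by simpa using hx)]
      have hx' : 0 < x - a := by linarith [not_le.1 hx]
      obtain ⟨K, hK⟩ := exists_nat_ge (1 / (x - a))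
      refine tendsto_const_nhds.congr' ?_
      filter_upwards [Filter.eventually_ge_atTop K] with k hk
      have hk' : (K : ℝ) ≤ k := by exact_mod_cast hk
      have h1 : 1 ≤ (k : ℝ) * (x - a) := by
        rw [div_le_iff₀ hx'] at hK
        nlinarith
      have h2 : 1 - (k : ℝ) * (x - a) ≤ 0 := by linarith
      rw [max_eq_left ((min_le_right _ _).trans h2)]
  exact key

/-- **Borel Schur multipliers are measurable** -/
theorem RM.of_mxSchur {w : ℝ → ℝ → ℝ} (hw : Measurable (Function.uncurry w)) {J Z : Ω → Mx n}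
    (hJ : RM J) (hs : ∀ ω, (J ω).IsSymm) (hZ : RM Z) : RM fun ω => mxSchur w (J ω) (Z ω) := by
  let P : (ℝ × ℝ → ℝ) → Prop := fun g => RM fun ω => mxSchur (fun u v => g (u, v)) (J ω) (Z ω)
  have hlim : ∀ (f : ℕ → ℝ × ℝ → ℝ) (g : ℝ × ℝ → ℝ), (∀ k, P (f k)) →
      (∀ x, Filter.Tendsto (fun k => f k x) Filter.atTop (nhds (g x))) → P g := by
    intro f g hf h
    exact RM.of_tendsto hf fun ω i j => mk_mxSchur_tendsto (fun x y => h (x, y)) _ _ i j
  have key : P (Function.uncurry w) := by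
    refine mk_borel_induction generateFrom_prod.symm isPiSystem_prod P ?_ ?_ ?_ ?_ hlim hw
    · rintro _ ⟨B, hB, B', hB', rfl⟩
      have e : ∀ u v : ℝ, (B ×ˢ B').indicator (fun _ => (1 : ℝ)) (u, v)
          = B.indicator (fun _ => 1) u * B'.indicator (fun _ => 1) v := by
        intro u v
        by_cases hu : u ∈ B <;> by_cases hv : v ∈ B' <;> simp [hu, hv]
      show RM fun ω => mxSchur (fun u v => (B ×ˢ B').indicator (fun _ => (1 : ℝ)) (u, v)) (J ω) (Z ω)
      simp only [e, mk_mxSchur_prod]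
      exact ((RM.of_mxFun (measurable_const.indicator hB) hJ hs).mul hZ).mul
        (RM.of_mxFun (measurable_const.indicator hB') hJ hs)
    · show RM fun ω => mxSchur (fun _ _ => 1) (J ω) (Z ω)
      simp only [Claimed.Agent.R260.mxSchur_one]
      exact hZ
    · intro f g hf hg
      show RM fun ω => mxSchur (fun u v => f (u, v) + g (u, v)) (J ω) (Z ω)
      simp only [mk_mxSchur_add_w]
      exact RM.add hf hg
    · intro c f hf
      show RM fun ω => mxSchur (fun u v => c * f (u, v)) (J ω) (Z ω)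
      simp only [mk_mxSchur_smul_w]
      exact RM.smul measurable_const hf
  exact key

theorem RM.meas_tr1 {Z : Ω → Mx n} (hZ : RM Z) (hs : ∀ ω, (Z ω).IsSymm) :
    Measurable fun ω => tr1 (Z ω) := by
  exact (RM.of_mxFun continuous_abs.measurable hZ hs).meas_trace

/-- bounded functions of a measurable symmetric field -/
theorem RB.of_mxFun {f : ℝ → ℝ} (hf : Measurable f) {J : Ω → Mx n} (hJ : RM J)
    (hs : ∀ ω, (J ω).IsSymm) {C : ℝ} (hC : ∀ ω i, |f (mxEig (J ω) i)| ≤ C) :
    RB fun ω => mxFun f (J ω) := by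
  exact ⟨RM.of_mxFun hf hJ hs, C, fun ω i j => Claimed.Agent.R260.mxFun_apply_abs_le (hC ω) i j⟩

/-- bounded Schur multipliers do not increase the Hilbert-Schmidt norm too much -/
theorem hs2_mxSchur_le {w : ℝ → ℝ → ℝ} {A : Mx n} {C : ℝ}
    (hC : ∀ i j, |w (mxEig A i) (mxEig A j)| ≤ C) (Z : Mx n) :
    hs2 (mxSchur w A Z) ≤ C ^ 2 * hs2 Z := by
  rw [← hs2_mxRot A (mxSchur w A Z), ← hs2_mxRot A Z]
  unfold hs2
  rw [Finset.mul_sum]
  refine Finset.sum_le_sum fun i _ => ?_
  rw [Finset.mul_sum]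
  refine Finset.sum_le_sum fun j _ => ?_
  rw [Claimed.Agent.R260.mxRot_mxSchur_apply, mul_pow]
  refine mul_le_mul_of_nonneg_right ?_ (sq_nonneg _)
  rw [← sq_abs]
  exact pow_le_pow_left₀ (abs_nonneg _) (hC i j) 2

end Borel

end

end Claimed.Agent.R259
end

/- ===== packed: Claimed.Agent.R259.MetB2 ===== -/
section
/-
Row 259 (S0499), kit MET, block B, part 2: facts on the standard Gaussian measure
(moments, covariance, the half-space identity).  Owner: helper236.
-/
set_option autoImplicit false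

open MeasureTheory ProbabilityTheory
open scoped BigOperators RealInnerProductSpace

namespace Claimed.Agent.R259

section gauss

variable {E : Type*} [NormedAddCommGroup E] [InnerProductSpace ℝ E] [FiniteDimensional ℝ E]
  [MeasurableSpace E] [BorelSpace E]
variable {V : Type*} [NormedAddCommGroup V] [NormedSpace ℝ V]

theorem metb_gauss_int_pow (k : ℕ) : Integrable (fun g : E => ‖g‖ ^ k) (stdGaussian E) := by
  have h := (IsGaussian.memLp_id (stdGaussian E) (k : ENNReal) (by simp)).integrable_norm_pow'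
  simpa using h

omit [NormedSpace ℝ V] in
theorem metb_gauss_int_of_bound {F : E → V} (hF : AEStronglyMeasurable F (stdGaussian E))
    (C : ℝ) (k : ℕ) (hb : ∀ g, ‖F g‖ ≤ C * ‖g‖ ^ k) : Integrable F (stdGaussian E) :=
  ((metb_gauss_int_pow (E := E) k).const_mul C).mono' hF (Filter.Eventually.of_forall hb)

theorem metb_gauss_lin [CompleteSpace V] (L : E →L[ℝ] V) : ∫ g, L g ∂(stdGaussian E) = 0 := by
  rw [L.integral_comp_id_comm IsGaussian.integrable_id, integral_id_stdGaussian, map_zero]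

theorem metb_gauss_cov (a b : E) : ∫ g, ⟪a, g⟫ * ⟪b, g⟫ ∂(stdGaussian E) = ⟪a, b⟫ := by
  have h := covarianceBilin_apply (μ := stdGaussian E) IsGaussian.memLp_two_id a b
  rw [covarianceBilin_stdGaussian] at h
  have h0 : (stdGaussian E)[id] = 0 := integral_id_stdGaussian
  simp only [h0, sub_zero] at h
  rw [← h]
  exact (innerSL_apply_apply ℝ a b).symm

theorem metb_gauss_int_inner_mul (a b : E) :
    Integrable (fun g : E => ⟪a, g⟫ * ⟪b, g⟫) (stdGaussian E) := by
  refine metb_gauss_int_of_bound (by fun_prop) (‖a‖ * ‖b‖) 2 (fun g => ?_)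
  rw [norm_mul]
  calc ‖⟪a, g⟫‖ * ‖⟪b, g⟫‖ ≤ (‖a‖ * ‖g‖) * (‖b‖ * ‖g‖) :=
        mul_le_mul (norm_inner_le_norm _ _) (norm_inner_le_norm _ _) (norm_nonneg _) (by positivity)
    _ = ‖a‖ * ‖b‖ * ‖g‖ ^ 2 := by ring

theorem metb_gauss_int_quad (Q : E →L[ℝ] E →L[ℝ] V) :
    Integrable (fun g : E => Q g g) (stdGaussian E) := by
  refine metb_gauss_int_of_bound (by fun_prop) ‖Q‖ 2 (fun g => ?_)
  calc ‖Q g g‖ ≤ ‖Q‖ * ‖g‖ * ‖g‖ := ContinuousLinearMap.le_opNorm₂ _ _ _
    _ = ‖Q‖ * ‖g‖ ^ 2 := by ring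

theorem metb_gauss_quad [CompleteSpace V] {ι' : Type*} [Fintype ι'] (e : OrthonormalBasis ι' ℝ E)
    (Q : E →L[ℝ] E →L[ℝ] V) :
    ∫ g, Q g g ∂(stdGaussian E) = ∑ i, Q (e i) (e i) := by
  classical
  have hexp : ∀ g : E, Q g g = ∑ i, ∑ j, (⟪e i, g⟫ * ⟪e j, g⟫) • Q (e i) (e j) := by
    intro g
    conv_lhs => rw [← e.sum_repr' g]
    simp only [map_sum, map_smul, sum_apply, smul_apply,
      Finset.smul_sum, smul_smul]
    rw [Finset.sum_comm]
    refine Finset.sum_congr rfl fun i _ => Finset.sum_congr rfl fun j _ => ?_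
    rw [mul_comm]
  rw [show (fun g : E => Q g g)
    = fun g => ∑ i, ∑ j, (⟪e i, g⟫ * ⟪e j, g⟫) • Q (e i) (e j) from funext hexp]
  rw [integral_finsetSum _ (fun i _ => integrable_finsetSum _
    (fun j _ => (metb_gauss_int_inner_mul (e i) (e j)).smul_const _))]
  refine Finset.sum_congr rfl fun i _ => ?_
  rw [integral_finsetSum _ (fun j _ => (metb_gauss_int_inner_mul (e i) (e j)).smul_const _)]
  simp_rw [integral_smul_const, metb_gauss_cov]
  rw [Finset.sum_eq_single i]
  · simp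
  · intro j _ hj
    rw [e.orthonormal.2 (Ne.symm hj), zero_smul]
  · simp

theorem metb_gauss_inner_lin [CompleteSpace V] (b : E) (L : E →L[ℝ] V) :
    ∫ g, ⟪b, g⟫ • L g ∂(stdGaussian E) = L b := by
  have h := metb_gauss_quad (stdOrthonormalBasis ℝ E) ((innerSL ℝ b).smulRight L)
  simp only [ContinuousLinearMap.smulRight_apply, innerSL_apply_apply,
    smul_apply] at h
  rw [h]
  conv_rhs => rw [← (stdOrthonormalBasis ℝ E).sum_repr' b]
  simp only [map_sum, map_smul]
  refine Finset.sum_congr rfl fun i _ => ?_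
  rw [real_inner_comm]

theorem metb_gauss_neg {F : E → V} :
    ∫ g, F (-g) ∂(stdGaussian E) = ∫ g, F g ∂(stdGaussian E) := by
  have h := stdGaussian_map (E := E) (LinearIsometryEquiv.neg ℝ (E := E))
  have hm : MeasurableEmbedding (fun g : E => -g) := (MeasurableEquiv.neg E).measurableEmbedding
  conv_rhs => rw [← h]
  have : (⇑(LinearIsometryEquiv.neg ℝ (E := E))) = fun g : E => -g := by
    ext g; simp
  rw [this, hm.integral_map]

theorem metb_gauss_int_half (b : E) (L : E →L[ℝ] V) :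
    Integrable (fun g : E => (min 0 ⟪b, g⟫) • L g) (stdGaussian E) := by
  refine metb_gauss_int_of_bound (by fun_prop) (‖b‖ * ‖L‖) 2 (fun g => ?_)
  rw [norm_smul]
  have h1 : ‖min 0 ⟪b, g⟫‖ ≤ ‖b‖ * ‖g‖ := by
    refine le_trans ?_ (norm_inner_le_norm (𝕜 := ℝ) b g)
    rw [Real.norm_eq_abs, Real.norm_eq_abs]
    rcases le_total 0 ⟪b, g⟫ with h | h
    · rw [min_eq_left h]; simp
    · rw [min_eq_right h]
  calc ‖min 0 ⟪b, g⟫‖ * ‖L g‖ ≤ (‖b‖ * ‖g‖) * (‖L‖ * ‖g‖) :=
        mul_le_mul h1 (L.le_opNorm g) (norm_nonneg _) (by positivity)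
    _ = ‖b‖ * ‖L‖ * ‖g‖ ^ 2 := by ring

theorem metb_gauss_half [CompleteSpace V] (b : E) (L : E →L[ℝ] V) :
    ∫ g, (min 0 ⟪b, g⟫) • L g ∂(stdGaussian E) = (1 / 2 : ℝ) • L b := by
  have hint := metb_gauss_int_half b L
  have hneg : ∫ g, (min 0 ⟪b, g⟫) • L g ∂(stdGaussian E)
      = ∫ g, (-(min 0 (-⟪b, g⟫))) • L g ∂(stdGaussian E) := by
    rw [← metb_gauss_neg]
    refine integral_congr_ae (Filter.Eventually.of_forall fun g => ?_)
    simp only [inner_neg_right, map_neg, smul_neg, neg_smul]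
  have hint2 : Integrable (fun g : E => (-(min 0 (-⟪b, g⟫))) • L g) (stdGaussian E) := by
    have := metb_gauss_int_half (-b) (-L)
    refine this.congr (Filter.Eventually.of_forall fun g => ?_)
    simp only [inner_neg_left, neg_apply, smul_neg, neg_smul]
  have hsum : ∫ g, (min 0 ⟪b, g⟫) • L g ∂(stdGaussian E)
      + ∫ g, (-(min 0 (-⟪b, g⟫))) • L g ∂(stdGaussian E) = L b := by
    rw [← integral_add hint hint2, ← metb_gauss_inner_lin b L]
    refine integral_congr_ae (Filter.Eventually.of_forall fun g => ?_)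
    simp only
    rw [← add_smul]
    congr 1
    rcases le_total 0 ⟪b, g⟫ with h | h
    · rw [min_eq_left h, min_eq_right (by linarith)]; ring
    · rw [min_eq_right h, min_eq_left (by linarith)]; ring
  rw [← hneg] at hsum
  rw [← hsum, smul_add, ← add_smul]
  norm_num

end gauss

end Claimed.Agent.R259
end

/- ===== packed: Claimed.Agent.R259.MkSyl ===== -/
section
/-
Row 259 (S0499), matrix kit for section 6, part 3: the algebraic Sylvester column of a reduction
`ρ = P Pᵀ` (paper: Lemma 6.3, eqs. (6.matrix-sylvester), (6.matrix-energy-identities)) and the correlation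
inequality behind Lemma 6.2.
Architect: helper57.  Prefix `syl`, `mk`.  PURE LINEAR ALGEBRA.

DESIGN.  `P = Ψ(y)` and `Q = D_iΨ(y)` are rectangular matrices.  We never differentiate `R = √ρ`:
`Z = dgram P Q = Q Pᵀ + P Qᵀ` is the derivative of `ρ`, and in an eigenbasis of `ρ` (eigenvalues `r_a²`)
  `X_ab = Z_ab / (r_a + r_b)`      (`sylX`, plays the role of `D_i R`),
  `H_ab = 2 Z_ab / (r_a + r_b)²`   (`sylH`, the Sylvester column),
with the convention `0⁻¹ = 0` on the kernel-kernel block (where `Z` vanishes anyway: `syl_kernel`).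
All proofs: rotate by `mxRot (P * Pᵀ)` and compare entries (`mxRot_mxSchur_apply`, `mxRot_mul_mxFun_apply`, ...).
With `p_a`, `q_a` the rows of `UᵀP`, `UᵀQ`: `p_a ⬝ p_b = r_a² δ_ab`, `Z_ab = q_a ⬝ p_b + p_a ⬝ q_b`.
-/
set_option autoImplicit false

open MeasureTheory
open scoped BigOperators Matrix
open Claimed.Agent.R260 (Mx mxFun mxSchur mxSq mxIP mxEig mxU mxRot mxDK)

namespace Claimed.Agent.R259

noncomputable section

variable {n : ℕ} {β : Type} [Fintype β]

/-- the derivative of the reduction `P Pᵀ` in the direction `Q` -/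
def dgram (P Q : Matrix (Fin n) β ℝ) : Mx n := Q * Pᵀ + P * Qᵀ

/-- the positive square root of the reduction -/
def rootG (P : Matrix (Fin n) β ℝ) : Mx n := mxFun Real.sqrt (P * Pᵀ)

/-- the Sylvester weight `1/(√u + √v)` (`0` at `u = v = 0`) -/
def sylW (u v : ℝ) : ℝ := (Real.sqrt u + Real.sqrt v)⁻¹

/-- the solution of `X R + R X = dgram P Q` with zero kernel-kernel block -/
def sylX (P Q : Matrix (Fin n) β ℝ) : Mx n := mxSchur sylW (P * Pᵀ) (dgram P Q)

/-- the Sylvester column: `X = (H R + R H)/2` -/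
def sylH (P Q : Matrix (Fin n) β ℝ) : Mx n :=
  mxSchur (fun u v => 2 * sylW u v ^ 2) (P * Pᵀ) (dgram P Q)

/-- the regularised weight `1/(√(u+ε²) + √(v+ε²))` -/
def sylWe (ε u v : ℝ) : ℝ := (Real.sqrt (u + ε ^ 2) + Real.sqrt (v + ε ^ 2))⁻¹

/-- the derivative of `√(ρ + ε²)` -/
def sylXe (ε : ℝ) (P Q : Matrix (Fin n) β ℝ) : Mx n := mxSchur (sylWe ε) (P * Pᵀ) (dgram P Q)

theorem mk_syl_eqns_cite : True := by
  have := @dgram.eq_1
  have := @rootG.eq_1
  have := @sylW.eq_1
  have := @sylX.eq_1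
  have := @sylH.eq_1
  have := @sylWe.eq_1
  have := @sylXe.eq_1
  trivial

/-! ### Package L-Mk-Syl: pointwise identities -/

section identities

variable (P Q : Matrix (Fin n) β ℝ)

theorem dgram_isSymm : (dgram P Q).IsSymm := by
  unfold Matrix.IsSymm dgram
  rw [Matrix.transpose_add, Matrix.transpose_mul, Matrix.transpose_mul, Matrix.transpose_transpose,
    Matrix.transpose_transpose, add_comm]

theorem rootG_psd : (rootG P).PosSemidef := by
  exact mk_sqrt_psd _

theorem rootG_isSymm : (rootG P).IsSymm := by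
  exact R260.mxFun_isSymm _ _

theorem rootG_mul_self : rootG P * rootG P = P * Pᵀ := by
  exact mk_sqrt_mul_self (mk_psd_gram P)

theorem hs2_rootG : hs2 (rootG P) = hs2 P := by
  rw [hs2_eq_trace, (rootG_isSymm P).eq, rootG_mul_self, ← hs2_eq_trace]

/-- the cost of a matrix on `P` equals its cost on `R` -/
theorem hs2_mul_rootG {α : Type} [Fintype α] (X : Matrix α (Fin n) ℝ) :
    hs2 (X * rootG P) = hs2 (X * P) := by
  apply hs2_mul_congr
  rw [(rootG_isSymm P).eq, rootG_mul_self]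

theorem syl_eig_nonneg (a : Fin n) : 0 ≤ mxEig (P * Pᵀ) a := mk_eig_nonneg (mk_psd_gram P) a

theorem syl_gram_isSymm : (P * Pᵀ).IsSymm := mk_isSymm_of_psd (mk_psd_gram P)

/-- a Schur multiplier with a symmetric weight preserves symmetry -/
theorem syl_mxSchur_isSymm {w : ℝ → ℝ → ℝ} (hw : ∀ u v, w u v = w v u) (A : Mx n) {Z : Mx n}
    (hZ : Z.IsSymm) : (mxSchur w A Z).IsSymm := by
  unfold Matrix.IsSymm
  apply R260.mxRot_injective A
  ext a b
  rw [R260.mxRot_transpose, Matrix.transpose_apply, R260.mxRot_mxSchur_apply,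
    R260.mxRot_mxSchur_apply, hw, R260.mxRot_symm_apply A hZ]

theorem sylW_comm (u v : ℝ) : sylW u v = sylW v u := by
  unfold sylW
  rw [add_comm]

theorem sylX_isSymm : (sylX P Q).IsSymm := by
  exact syl_mxSchur_isSymm sylW_comm _ (dgram_isSymm P Q)

theorem sylH_isSymm : (sylH P Q).IsSymm := by
  exact syl_mxSchur_isSymm (fun u v => by rw [sylW_comm]) _ (dgram_isSymm P Q)

theorem syl_rot_gram : mxRot (P * Pᵀ) (P * Pᵀ) = Matrix.diagonal (mxEig (P * Pᵀ)) := by
  have h := R260.mxRot_mxFun (fun a => a) (P * Pᵀ)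
  rwa [R260.mxFun_id (syl_gram_isSymm P)] at h

/-- the rows of `Uᵀ P` belonging to the kernel of `P Pᵀ` vanish -/
theorem syl_row_zero (a : Fin n) (ha : mxEig (P * Pᵀ) a = 0) (k : β) :
    ((mxU (P * Pᵀ))ᵀ * P) a k = 0 := by
  have h1 : ((mxU (P * Pᵀ))ᵀ * P) * ((mxU (P * Pᵀ))ᵀ * P)ᵀ = Matrix.diagonal (mxEig (P * Pᵀ)) := by
    rw [← syl_rot_gram, Matrix.transpose_mul, Matrix.transpose_transpose, mxRot]
    simp only [Matrix.mul_assoc]
  have h2 : ∑ k, ((mxU (P * Pᵀ))ᵀ * P) a k ^ 2 = 0 := by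
    have h3 := congrFun (congrFun h1 a) a
    rw [Matrix.mul_apply, Matrix.diagonal_apply_eq, ha] at h3
    simpa only [sq, Matrix.transpose_apply] using h3
  have h4 : ∀ k ∈ (Finset.univ : Finset β), 0 ≤ ((mxU (P * Pᵀ))ᵀ * P) a k ^ 2 :=
    fun k _ => sq_nonneg _
  have h5 := (Finset.sum_eq_zero_iff_of_nonneg h4).1 h2 k (Finset.mem_univ k)
  simpa using h5

/-- the kernel-kernel block of the derivative of a reduction vanishes -/
theorem syl_kernel (a b : Fin n) (ha : mxEig (P * Pᵀ) a = 0) (hb : mxEig (P * Pᵀ) b = 0) :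
    mxRot (P * Pᵀ) (dgram P Q) a b = 0 := by
  have e : mxRot (P * Pᵀ) (dgram P Q)
      = ((mxU (P * Pᵀ))ᵀ * Q) * ((mxU (P * Pᵀ))ᵀ * P)ᵀ
        + ((mxU (P * Pᵀ))ᵀ * P) * ((mxU (P * Pᵀ))ᵀ * Q)ᵀ := by
    rw [mxRot, dgram, Matrix.transpose_mul, Matrix.transpose_mul, Matrix.transpose_transpose,
      Matrix.mul_add, Matrix.add_mul]
    simp only [Matrix.mul_assoc]
  rw [e, Matrix.add_apply, Matrix.mul_apply, Matrix.mul_apply]
  simp only [Matrix.transpose_apply, syl_row_zero P a ha, syl_row_zero P b hb, mul_zero, zero_mul,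
    Finset.sum_const_zero, add_zero]

theorem syl_rotX (a b : Fin n) : mxRot (P * Pᵀ) (sylX P Q) a b
    = sylW (mxEig (P * Pᵀ) a) (mxEig (P * Pᵀ) b) * mxRot (P * Pᵀ) (dgram P Q) a b :=
  R260.mxRot_mxSchur_apply _ _ _ a b

theorem syl_rotH (a b : Fin n) : mxRot (P * Pᵀ) (sylH P Q) a b
    = 2 * sylW (mxEig (P * Pᵀ) a) (mxEig (P * Pᵀ) b) ^ 2 * mxRot (P * Pᵀ) (dgram P Q) a b :=
  R260.mxRot_mxSchur_apply _ _ _ a b

theorem syl_rotXe (ε : ℝ) (a b : Fin n) : mxRot (P * Pᵀ) (sylXe ε P Q) a b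
    = sylWe ε (mxEig (P * Pᵀ) a) (mxEig (P * Pᵀ) b) * mxRot (P * Pᵀ) (dgram P Q) a b :=
  R260.mxRot_mxSchur_apply _ _ _ a b

theorem syl_rot_mulR (M : Mx n) (a b : Fin n) : mxRot (P * Pᵀ) (M * rootG P) a b
    = mxRot (P * Pᵀ) M a b * Real.sqrt (mxEig (P * Pᵀ) b) :=
  R260.mxRot_mul_mxFun_apply _ _ _ a b

theorem syl_rot_Rmul (M : Mx n) (a b : Fin n) : mxRot (P * Pᵀ) (rootG P * M) a b
    = Real.sqrt (mxEig (P * Pᵀ) a) * mxRot (P * Pᵀ) M a b :=
  R260.mxRot_mxFun_mul_apply _ _ _ a b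

/-- where `r_a + r_b = 0` the derivative of the reduction vanishes -/
theorem syl_kernel' (a b : Fin n)
    (h : Real.sqrt (mxEig (P * Pᵀ) a) + Real.sqrt (mxEig (P * Pᵀ) b) = 0) :
    mxRot (P * Pᵀ) (dgram P Q) a b = 0 := by
  have h1 := Real.sqrt_nonneg (mxEig (P * Pᵀ) a)
  have h2 := Real.sqrt_nonneg (mxEig (P * Pᵀ) b)
  have ha : Real.sqrt (mxEig (P * Pᵀ) a) = 0 := by linarith
  have hb : Real.sqrt (mxEig (P * Pᵀ) b) = 0 := by linarith
  exact syl_kernel P Q a b ((Real.sqrt_eq_zero (syl_eig_nonneg P a)).1 ha)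
    ((Real.sqrt_eq_zero (syl_eig_nonneg P b)).1 hb)

/-- the Sylvester equation for `X` -/
theorem sylX_eq : sylX P Q * rootG P + rootG P * sylX P Q = dgram P Q := by
  apply R260.mxRot_injective (P * Pᵀ)
  ext a b
  rw [R260.mxRot_add, Matrix.add_apply, syl_rot_mulR, syl_rot_Rmul, syl_rotX]
  by_cases h : Real.sqrt (mxEig (P * Pᵀ) a) + Real.sqrt (mxEig (P * Pᵀ) b) = 0
  · rw [syl_kernel' P Q a b h]
    ring
  · unfold sylW
    field_simp
    ring

/-- eq. (6.matrix-sylvester) -/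
theorem sylX_eq_half : sylX P Q = (1 / 2 : ℝ) • (sylH P Q * rootG P + rootG P * sylH P Q) := by
  apply R260.mxRot_injective (P * Pᵀ)
  ext a b
  rw [R260.mxRot_smul, Matrix.smul_apply, R260.mxRot_add, Matrix.add_apply, syl_rot_mulR,
    syl_rot_Rmul, syl_rotX, syl_rotH, smul_eq_mul]
  by_cases h : Real.sqrt (mxEig (P * Pᵀ) a) + Real.sqrt (mxEig (P * Pᵀ) b) = 0
  · rw [syl_kernel' P Q a b h]
    ring
  · unfold sylW
    field_simp
    ring

/-- `‖X‖² = ⟨Q, H P⟩`: pairing of `D(R²) = D(ΨΨ*)` with `H/2` -/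
theorem hs2_sylX_eq : hs2 (sylX P Q) = hsI Q (sylH P Q * P) := by
  have hH := (sylH_isSymm P Q).eq
  have hX := (sylX_isSymm P Q).eq
  have e1 : hsI Q (sylH P Q * P) = Matrix.trace (Q * Pᵀ * sylH P Q) := by
    rw [hsI_eq_trace, Matrix.transpose_mul, hH, Matrix.mul_assoc]
  have e2 : hsI Q (sylH P Q * P) = Matrix.trace (P * Qᵀ * sylH P Q) := by
    rw [e1, ← Matrix.trace_transpose, Matrix.transpose_mul, Matrix.transpose_mul,
      Matrix.transpose_transpose, hH, Matrix.trace_mul_comm]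
  have e3 : 2 * hsI Q (sylH P Q * P) = Matrix.trace (dgram P Q * sylH P Q) := by
    rw [dgram, Matrix.add_mul, Matrix.trace_add, ← e1, ← e2]
    ring
  have e4 : Matrix.trace (dgram P Q * sylH P Q) = 2 * hs2 (sylX P Q) := by
    rw [← sylX_eq P Q, Matrix.add_mul, Matrix.trace_add, Matrix.mul_assoc (sylX P Q),
      Matrix.mul_assoc (rootG P), Matrix.trace_mul_comm (rootG P), Matrix.mul_assoc (sylX P Q),
      ← Matrix.trace_add, ← Matrix.mul_add, hs2_eq_trace, hX]
    have e5 : rootG P * sylH P Q + sylH P Q * rootG P = (2 : ℝ) • sylX P Q := by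
      rw [sylX_eq_half P Q, smul_smul, add_comm]
      norm_num
    rw [e5, Matrix.mul_smul, Matrix.trace_smul, smul_eq_mul]
  linarith

/-- `‖R H‖² = ‖H R‖²` -/
theorem syl_hs2_RH : hs2 (rootG P * sylH P Q) = hs2 (sylH P Q * rootG P) := by
  rw [← hs2_transpose (sylH P Q * rootG P), Matrix.transpose_mul, (rootG_isSymm P).eq,
    (sylH_isSymm P Q).eq]

/-- `⟨H R, R H⟩ = tr(R H R H)` -/
theorem syl_hsI_HR_RH :
    hsI (sylH P Q * rootG P) (rootG P * sylH P Q)
      = Matrix.trace (rootG P * sylH P Q * rootG P * sylH P Q) := by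
  rw [hsI_eq_trace, Matrix.transpose_mul, (rootG_isSymm P).eq, (sylH_isSymm P Q).eq,
    Matrix.trace_mul_comm]
  simp only [Matrix.mul_assoc]
  rw [Matrix.trace_mul_comm]
  simp only [Matrix.mul_assoc]

/-- `‖X‖² = (‖H R‖² + tr(R H R H)) / 2` -/
theorem syl_hs2_X_eq :
    hs2 (sylX P Q) = (hs2 (sylH P Q * rootG P)
      + Matrix.trace (rootG P * sylH P Q * rootG P * sylH P Q)) / 2 := by
  rw [sylX_eq_half P Q, hs2_smul, hs2_add, syl_hs2_RH, syl_hsI_HR_RH]
  ring

/-- `‖H R - R H‖² = 2 ‖H R‖² - 2 tr(R H R H)` -/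
theorem syl_hs2_comm_eq :
    hs2 (sylH P Q * rootG P - rootG P * sylH P Q) = 2 * hs2 (sylH P Q * rootG P)
      - 2 * Matrix.trace (rootG P * sylH P Q * rootG P * sylH P Q) := by
  rw [hs2_sub, syl_hs2_RH, syl_hsI_HR_RH]
  ring

/-- `tr(R H R H) ≥ 0` -/
theorem syl_trace_rhrh_nonneg :
    0 ≤ Matrix.trace (rootG P * sylH P Q * rootG P * sylH P Q) := by
  have h := mk_trace_mul_nonneg (rootG_psd P) (mk_psd_conj (rootG_psd P) (sylH P Q))
  rw [(sylH_isSymm P Q).eq] at h
  simpa only [Matrix.mul_assoc] using h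

/-- `‖H R‖² ≤ 2 ‖X‖²` -/
theorem syl_hs2_HR_le : hs2 (sylH P Q * rootG P) ≤ 2 * hs2 (sylX P Q) := by
  have h := syl_trace_rhrh_nonneg P Q
  rw [syl_hs2_X_eq]
  linarith

/-- first identity of (6.matrix-energy-identities): `e = a - c/4` -/
theorem hs2_sylX_eq_sub :
    hs2 (sylX P Q) = hs2 (sylH P Q * rootG P)
      - hs2 (sylH P Q * rootG P - rootG P * sylH P Q) / 4 := by
  rw [syl_hs2_X_eq, syl_hs2_comm_eq]
  ring

/-- second identity of (6.matrix-energy-identities): `tr(RHRH) = e - c/4` -/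
theorem trace_rhrh_eq :
    Matrix.trace (rootG P * sylH P Q * rootG P * sylH P Q)
      = hs2 (sylX P Q) - hs2 (sylH P Q * rootG P - rootG P * sylH P Q) / 4 := by
  rw [syl_hs2_X_eq, syl_hs2_comm_eq]
  ring

/-- `‖H R‖² ≤ 4 ‖X‖²` -/
theorem hs2_sylH_mul_le : hs2 (sylH P Q * rootG P) ≤ 4 * hs2 (sylX P Q) := by
  have h := syl_hs2_HR_le P Q
  have h0 := hs2_nonneg (sylX P Q)
  linarith

/-- `‖X‖² ≤ 2 ‖Q‖²` (pointwise form of `‖DR‖² ≤ 2 ‖DΨ‖²`; Bessel for the orthonormal family `p_b / r_b`) -/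
theorem hs2_sylX_le : hs2 (sylX P Q) ≤ 2 * hs2 Q := by
  have h1 := hsI_sq_le Q (sylH P Q * P)
  rw [← hs2_sylX_eq, ← hs2_mul_rootG] at h1
  have h2 := syl_hs2_HR_le P Q
  have h0 := hs2_nonneg (sylX P Q)
  have hQ := hs2_nonneg Q
  by_contra hcon
  have hcon' : 2 * hs2 Q < hs2 (sylX P Q) := not_le.1 hcon
  have hpos : 0 < hs2 (sylX P Q) := by linarith
  have h3 : hs2 (sylX P Q) ^ 2 ≤ hs2 Q * (2 * hs2 (sylX P Q)) :=
    h1.trans (mul_le_mul_of_nonneg_left h2 hQ)
  nlinarith

/-- `‖X - H R‖² = c/4` -/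
theorem hs2_sylX_sub :
    hs2 (sylX P Q - sylH P Q * rootG P)
      = hs2 (sylH P Q * rootG P - rootG P * sylH P Q) / 4 := by
  have e : sylX P Q - sylH P Q * rootG P
      = (1 / 2 : ℝ) • (rootG P * sylH P Q - sylH P Q * rootG P) := by
    rw [sylX_eq_half P Q, smul_add, smul_sub]
    have e2 : sylH P Q * rootG P
        = (1 / 2 : ℝ) • (sylH P Q * rootG P) + (1 / 2 : ℝ) • (sylH P Q * rootG P) := by
      rw [← add_smul]
      norm_num
    nth_rewrite 2 [e2]
    abel
  rw [e, hs2_smul, hs2_sub_comm]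
  ring

/-- `‖Q - H P‖² = ‖Q‖² + ‖H R‖² - 2 ‖X‖²` -/
theorem hs2_sub_sylH_mul :
    hs2 (Q - sylH P Q * P) = hs2 Q + hs2 (sylH P Q * rootG P) - 2 * hs2 (sylX P Q) := by
  rw [hs2_sub, ← hs2_sylX_eq, hs2_mul_rootG]
  ring

/-- entries of `X` on non-comparable pairs of eigenvalues are controlled by the commutator
(used by the upper bound of section 7): `|X_ab|² = (r_a+r_b)²/(4 (r_a-r_b)²) |[H,R]_ab|² ≤ (9/4) |[H,R]_ab|²` -/
theorem sylX_noncomparable :
    ∑ a, ∑ b, (if Real.sqrt (mxEig (P * Pᵀ) a) ≤ 2 * Real.sqrt (mxEig (P * Pᵀ) b) ∧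
        Real.sqrt (mxEig (P * Pᵀ) b) ≤ 2 * Real.sqrt (mxEig (P * Pᵀ) a) then 0
        else (mxRot (P * Pᵀ) (sylX P Q) a b) ^ 2)
      ≤ 9 / 4 * hs2 (sylH P Q * rootG P - rootG P * sylH P Q) := by
  rw [← hs2_mxRot (P * Pᵀ) (sylH P Q * rootG P - rootG P * sylH P Q)]
  unfold hs2
  rw [Finset.mul_sum]
  refine Finset.sum_le_sum fun a _ => ?_
  rw [Finset.mul_sum]
  refine Finset.sum_le_sum fun b _ => ?_
  have hx : mxRot (P * Pᵀ) (sylX P Q) a b = mxRot (P * Pᵀ) (sylH P Q) a b
      * (Real.sqrt (mxEig (P * Pᵀ) a) + Real.sqrt (mxEig (P * Pᵀ) b)) / 2 := by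
    rw [sylX_eq_half P Q, R260.mxRot_smul, Matrix.smul_apply, R260.mxRot_add, Matrix.add_apply,
      syl_rot_mulR, syl_rot_Rmul, smul_eq_mul]
    ring
  rw [R260.mxRot_sub, Matrix.sub_apply, syl_rot_mulR, syl_rot_Rmul, hx]
  have ha := Real.sqrt_nonneg (mxEig (P * Pᵀ) a)
  have hb := Real.sqrt_nonneg (mxEig (P * Pᵀ) b)
  generalize Real.sqrt (mxEig (P * Pᵀ) a) = ra at *
  generalize Real.sqrt (mxEig (P * Pᵀ) b) = rb at *
  generalize mxRot (P * Pᵀ) (sylH P Q) a b = h at *
  split_ifs with hc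
  · positivity
  · have key : (ra + rb) ^ 2 ≤ 9 * (rb - ra) ^ 2 := by
      rw [not_and_or, not_le, not_le] at hc
      rcases hc with hc | hc <;> nlinarith
    have e1 : (h * (ra + rb) / 2) ^ 2 = h ^ 2 * (ra + rb) ^ 2 / 4 := by ring
    have e2 : 9 / 4 * (h * rb - ra * h) ^ 2 = h ^ 2 * (9 * (rb - ra) ^ 2) / 4 := by ring
    rw [e1, e2]
    have := mul_le_mul_of_nonneg_left key (sq_nonneg h)
    linarith

/-- the regularised derivative is uniformly bounded ... -/
theorem hs2_sylXe_le (ε : ℝ) : hs2 (sylXe ε P Q) ≤ 2 * hs2 Q := by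
  refine le_trans ?_ (hs2_sylX_le P Q)
  rw [← hs2_mxRot (P * Pᵀ) (sylXe ε P Q), ← hs2_mxRot (P * Pᵀ) (sylX P Q)]
  unfold hs2
  refine Finset.sum_le_sum fun a _ => Finset.sum_le_sum fun b _ => ?_
  rw [syl_rotXe, syl_rotX]
  by_cases h : Real.sqrt (mxEig (P * Pᵀ) a) + Real.sqrt (mxEig (P * Pᵀ) b) = 0
  · rw [syl_kernel' P Q a b h]
    simp
  · have ha := Real.sqrt_nonneg (mxEig (P * Pᵀ) a)
    have hb := Real.sqrt_nonneg (mxEig (P * Pᵀ) b)
    have hpos : 0 < Real.sqrt (mxEig (P * Pᵀ) a) + Real.sqrt (mxEig (P * Pᵀ) b) :=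
      lt_of_le_of_ne (add_nonneg ha hb) (Ne.symm h)
    have h1 : Real.sqrt (mxEig (P * Pᵀ) a) ≤ Real.sqrt (mxEig (P * Pᵀ) a + ε ^ 2) :=
      Real.sqrt_le_sqrt (by nlinarith [sq_nonneg ε])
    have h2 : Real.sqrt (mxEig (P * Pᵀ) b) ≤ Real.sqrt (mxEig (P * Pᵀ) b + ε ^ 2) :=
      Real.sqrt_le_sqrt (by nlinarith [sq_nonneg ε])
    have h3 : sylWe ε (mxEig (P * Pᵀ) a) (mxEig (P * Pᵀ) b)
        ≤ sylW (mxEig (P * Pᵀ) a) (mxEig (P * Pᵀ) b) := by
      unfold sylWe sylW
      exact inv_anti₀ hpos (add_le_add h1 h2)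
    have h4 : 0 ≤ sylWe ε (mxEig (P * Pᵀ) a) (mxEig (P * Pᵀ) b) := by
      unfold sylWe
      positivity
    rw [mul_pow, mul_pow]
    exact mul_le_mul_of_nonneg_right (pow_le_pow_left₀ h4 h3 2) (sq_nonneg _)

/-- ... and converges to `X` -/
theorem sylXe_tendsto (a b : Fin n) :
    Filter.Tendsto (fun ε : ℝ => sylXe ε P Q a b) (nhdsWithin 0 (Set.Ioi 0))
      (nhds (sylX P Q a b)) := by
  unfold sylXe sylX
  simp only [mk_mxSchur_apply]
  refine tendsto_finsetSum _ fun l _ => Filter.Tendsto.mul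
    (tendsto_finsetSum _ fun k _ => tendsto_const_nhds.mul ?_) tendsto_const_nhds
  by_cases h : Real.sqrt (mxEig (P * Pᵀ) k) + Real.sqrt (mxEig (P * Pᵀ) l) = 0
  · rw [syl_kernel' P Q k l h]
    simp
  · refine Filter.Tendsto.mul ?_ tendsto_const_nhds
    have hc : ContinuousAt (fun ε : ℝ => sylWe ε (mxEig (P * Pᵀ) k) (mxEig (P * Pᵀ) l)) 0 := by
      unfold sylWe
      refine ContinuousAt.inv₀ (by fun_prop) ?_
      simpa using h
    have h0 : sylWe 0 (mxEig (P * Pᵀ) k) (mxEig (P * Pᵀ) l)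
        = sylW (mxEig (P * Pᵀ) k) (mxEig (P * Pᵀ) l) := by
      simp [sylWe, sylW]
    have ht := hc.tendsto
    rw [h0] at ht
    exact ht.mono_left nhdsWithin_le_nhds

/-- `√(ρ + ε²) - ε → √ρ` uniformly: `‖(√(ρ+ε²) - ε) - √ρ‖² ≤ n ε²` -/
theorem hs2_sqrt_reg_sub_le {ε : ℝ} (hε : 0 ≤ ε) :
    hs2 (mxFun (fun x => Real.sqrt (x + ε ^ 2) - ε) (P * Pᵀ) - rootG P) ≤ n * ε ^ 2 := by
  have e : mxFun (fun x => Real.sqrt (x + ε ^ 2) - ε) (P * Pᵀ) - rootG P
      = mxFun (fun x => Real.sqrt (x + ε ^ 2) - ε - Real.sqrt x) (P * Pᵀ) := by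
    rw [rootG, ← R260.mxFun_sub]
  rw [e, hs2_eq_trace, (R260.mxFun_isSymm _ _).eq, ← R260.mxFun_mul, R260.mxFun_trace]
  calc ∑ a, (Real.sqrt (mxEig (P * Pᵀ) a + ε ^ 2) - ε - Real.sqrt (mxEig (P * Pᵀ) a))
        * (Real.sqrt (mxEig (P * Pᵀ) a + ε ^ 2) - ε - Real.sqrt (mxEig (P * Pᵀ) a))
      ≤ ∑ _a : Fin n, ε ^ 2 := by
        refine Finset.sum_le_sum fun a _ => ?_
        have he := syl_eig_nonneg P a
        have hr := Real.sqrt_nonneg (mxEig (P * Pᵀ) a)
        have hs := Real.sqrt_nonneg (mxEig (P * Pᵀ) a + ε ^ 2)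
        have hr2 := Real.sq_sqrt he
        have hs2' := Real.sq_sqrt (show 0 ≤ mxEig (P * Pᵀ) a + ε ^ 2 by positivity)
        have h1 : Real.sqrt (mxEig (P * Pᵀ) a) ≤ Real.sqrt (mxEig (P * Pᵀ) a + ε ^ 2) :=
          Real.sqrt_le_sqrt (by nlinarith [sq_nonneg ε])
        have h2 : Real.sqrt (mxEig (P * Pᵀ) a + ε ^ 2) ≤ Real.sqrt (mxEig (P * Pᵀ) a) + ε := by
          apply Real.sqrt_le_iff.2
          refine ⟨by positivity, ?_⟩
          nlinarith
        nlinarith
    _ = n * ε ^ 2 := by simp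

end identities

/-! ### measurability -/

section meas

variable {Ω : Type} [MeasurableSpace Ω]

theorem RM.of_rootG {P : Ω → Matrix (Fin n) β ℝ} (hP : RM P) : RM fun ω => rootG (P ω) := by
  exact RM.of_mxFun Real.continuous_sqrt.measurable (hP.mul hP.transpose)
    fun ω => syl_gram_isSymm (P ω)

theorem syl_measurable_sylW : Measurable (Function.uncurry sylW) := by
  unfold Function.uncurry sylW
  exact ((Real.continuous_sqrt.measurable.comp measurable_fst).add
    (Real.continuous_sqrt.measurable.comp measurable_snd)).inv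

theorem RM.of_dgram {P Q : Ω → Matrix (Fin n) β ℝ} (hP : RM P) (hQ : RM Q) :
    RM fun ω => dgram (P ω) (Q ω) :=
  (hQ.mul hP.transpose).add (hP.mul hQ.transpose)

theorem RM.of_sylX {P Q : Ω → Matrix (Fin n) β ℝ} (hP : RM P) (hQ : RM Q) :
    RM fun ω => sylX (P ω) (Q ω) := by
  exact RM.of_mxSchur syl_measurable_sylW (hP.mul hP.transpose) (fun ω => syl_gram_isSymm (P ω))
    (RM.of_dgram hP hQ)

theorem RM.of_sylH {P Q : Ω → Matrix (Fin n) β ℝ} (hP : RM P) (hQ : RM Q) :
    RM fun ω => sylH (P ω) (Q ω) := by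
  refine RM.of_mxSchur ?_ (hP.mul hP.transpose) (fun ω => syl_gram_isSymm (P ω)) (RM.of_dgram hP hQ)
  exact (syl_measurable_sylW.pow_const 2).const_mul 2

end meas

end

end Claimed.Agent.R259
end
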