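/- Packed by merge_tool.py (helper293): 5 modules of Claimed.Agent.R259 in one file, same declarations.
   Old modules, in this order: S6ColKit, S6ColTen, S6ColTenB, S6ColPt, S6ColRes -/
import Claimed.Agent.R260.MxCont
import Claimed.Agent.R259.Pack020

/- ===== packed: Claimed.Agent.R259.S6ColKit ===== -/
section
/-
Row 259 (S0499), section 6 of the paper, package BP-S6-col (Lemmas 6.4, 6.5).  Owner: helper144.

KIT 1: pointwise matrix inequalities (no measure theory, no tensors).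
* `rSq X`   : squared Hilbert-Schmidt norm of a rectangular matrix,
* `opB B b` : operator norm of `B` is at most `b`,
* tested trace inequality (replaces the trace norm inequality (6.reduction-perturbation)):
  `|tr(B (X Xᵀ - Y Yᵀ))| ≤ b (θ (|X|² + |Y|²) + |X - Y|²/(2θ))`,
* column bounds, functional calculus bounds.
All products of norms are written in Young form with a free parameter `θ > 0`, so that no square
roots and no Cauchy-Schwarz inequality for integrals are needed later.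
-/
set_option autoImplicit false
set_option linter.unusedSectionVars false

open scoped BigOperators Matrix
open Claimed.Agent.R260 (Mx mxFun mxSchur mxSq mxIP mxEig mxU mxRot)

namespace Claimed.Agent.R259

noncomputable section

variable {n : ℕ} {Γ : Type} [Fintype Γ]

/-- squared Hilbert-Schmidt norm of a rectangular matrix -/
def rSq (X : Matrix (Fin n) Γ ℝ) : ℝ := ∑ a, ∑ γ, X a γ ^ 2

/-- the operator norm of `B` is at most `b` -/
def opB (B : Mx n) (b : ℝ) : Prop := ∀ v : Fin n → ℝ, (B *ᵥ v) ⬝ᵥ (B *ᵥ v) ≤ b ^ 2 * (v ⬝ᵥ v)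

/-- a symmetric column with `S ≤ c` -/
structure ColB (H : Fin n → Mx n) (c : ℝ) : Prop where
  symm : ∀ i, (H i).IsSymm
  le : ∀ v : Fin n → ℝ, v ⬝ᵥ (colS H *ᵥ v) ≤ c * (v ⬝ᵥ v)

end

/-- generates the equation lemmas of the definitions above in this file (rule 6: unique names) -/
theorem s6colkit_eqns_cite : True := by
  have := @rSq.eq_1
  have := @opB.eq_1
  trivial

variable {n : ℕ} {Γ : Type} [Fintype Γ]

/-! ### Hilbert-Schmidt norms -/

theorem s6k_rSq_nonneg (X : Matrix (Fin n) Γ ℝ) : 0 ≤ rSq X := by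
  exact hs2_nonneg X

theorem s6k_rSq_eq_mxSq (F : Mx n) : rSq F = mxSq F := by
  exact (mxSq_eq_hs2 F).symm

theorem s6k_rSq_eq_trace (X : Matrix (Fin n) Γ ℝ) : rSq X = Matrix.trace (X * Xᵀ) := by
  exact hs2_eq_trace X

theorem s6k_rSq_add_le (X Y : Matrix (Fin n) Γ ℝ) : rSq (X + Y) ≤ 2 * rSq X + 2 * rSq Y := by
  exact hs2_add_le X Y

theorem s6k_rSq_sub_le (X Y : Matrix (Fin n) Γ ℝ) : rSq (X - Y) ≤ 2 * rSq X + 2 * rSq Y := by
  exact hs2_sub_le X Y

theorem s6k_mxSq_transpose (F : Mx n) : mxSq Fᵀ = mxSq F := by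
  rw [mxSq_eq_hs2, mxSq_eq_hs2, hs2_transpose]

theorem s6k_mxSq_neg (F : Mx n) : mxSq (-F) = mxSq F := by
  rw [mxSq_eq_hs2, mxSq_eq_hs2, hs2_neg]

theorem s6k_mxSq_add_le (F G : Mx n) : mxSq (F + G) ≤ 2 * mxSq F + 2 * mxSq G := by
  simp only [mxSq_eq_hs2]
  exact hs2_add_le F G

theorem s6k_mxSq_sub_le (F G : Mx n) : mxSq (F - G) ≤ 2 * mxSq F + 2 * mxSq G := by
  simp only [mxSq_eq_hs2]
  exact hs2_sub_le F G

theorem s6k_mxSq_add3_le (F G K : Mx n) :
    mxSq (F + G + K) ≤ 3 * mxSq F + 3 * mxSq G + 3 * mxSq K := by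
  simp only [mxSq_eq_hs2, hs2, Matrix.add_apply, Finset.mul_sum, ← Finset.sum_add_distrib]
  refine Finset.sum_le_sum fun i _ => Finset.sum_le_sum fun j _ => ?_
  nlinarith [sq_nonneg (F i j - G i j), sq_nonneg (F i j - K i j), sq_nonneg (G i j - K i j)]

/-- Young form of Cauchy-Schwarz for rectangular matrices -/
theorem s6k_hsI_young {α β : Type} [Fintype α] [Fintype β] (A C : Matrix α β ℝ) {θ : ℝ}
    (hθ : 0 < θ) : |hsI A C| ≤ θ * hs2 A + hs2 C / (4 * θ) := by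
  have h1 := hs2_nonneg ((2 * θ) • A - C)
  have h2 := hs2_nonneg ((2 * θ) • A + C)
  rw [hs2_sub, hs2_smul, hsI_smul_left] at h1
  rw [hs2_add, hs2_smul, hsI_smul_left] at h2
  have e1 : θ * hs2 A + hs2 C / (4 * θ) - hsI A C
      = ((2 * θ) ^ 2 * hs2 A - 2 * (2 * θ * hsI A C) + hs2 C) / (4 * θ) := by
    field_simp
    ring
  have e2 : θ * hs2 A + hs2 C / (4 * θ) + hsI A C
      = ((2 * θ) ^ 2 * hs2 A + 2 * (2 * θ * hsI A C) + hs2 C) / (4 * θ) := by
    field_simp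
    ring
  have h3 : 0 ≤ θ * hs2 A + hs2 C / (4 * θ) - hsI A C := by
    rw [e1]
    positivity
  have h4 : 0 ≤ θ * hs2 A + hs2 C / (4 * θ) + hsI A C := by
    rw [e2]
    positivity
  rw [abs_le]
  constructor <;> linarith

/-- Young form of Cauchy-Schwarz for the trace pairing -/
theorem s6k_trace_young (F G : Mx n) {θ : ℝ} (hθ : 0 < θ) :
    |Matrix.trace (Fᵀ * G)| ≤ θ * mxSq F + mxSq G / (4 * θ) := by
  rw [← hsI_eq_trace', mxSq_eq_hs2, mxSq_eq_hs2]
  exact s6k_hsI_young F G hθ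

/-- `|A B|² = tr(Bᵀ Aᵀ A B)`; for a column: `∑ |H_i M|² = tr(Mᵀ S M)` -/
theorem s6k_col_sum (H : Fin n → Mx n) (hs : ∀ i, (H i).IsSymm) (M : Mx n) :
    ∑ i, mxSq (H i * M) = Matrix.trace (Mᵀ * colS H * M) := by
  rw [colS, Matrix.mul_sum, Matrix.sum_mul, Matrix.trace_sum]
  refine Finset.sum_congr rfl fun i _ => ?_
  rw [mxSq, Matrix.transpose_mul, (hs i).eq]
  simp only [Matrix.mul_assoc]

theorem s6k_colS_isSymm (H : Fin n → Mx n) (hs : ∀ i, (H i).IsSymm) : (colS H).IsSymm := by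
  unfold Matrix.IsSymm
  rw [colS, Matrix.transpose_sum]
  refine Finset.sum_congr rfl fun i _ => ?_
  rw [Matrix.transpose_mul, (hs i).eq]

theorem s6k_colS_quad (H : Fin n → Mx n) (hs : ∀ i, (H i).IsSymm) (v : Fin n → ℝ) :
    v ⬝ᵥ (colS H *ᵥ v) = ∑ i, (H i *ᵥ v) ⬝ᵥ (H i *ᵥ v) := by
  rw [colS, Matrix.sum_mulVec, dotProduct_sum]
  refine Finset.sum_congr rfl fun i _ => ?_
  rw [← Matrix.mulVec_mulVec, Matrix.dotProduct_mulVec, ← Matrix.mulVec_transpose, (hs i).eq]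

/-! ### operator bounds -/

/-- the squared norm is the sum of the squared norms of the columns -/
theorem s6k_rSq_cols (X : Matrix (Fin n) Γ ℝ) :
    rSq X = ∑ γ, (fun a => X a γ) ⬝ᵥ (fun a => X a γ) := by
  rw [rSq, Finset.sum_comm]
  simp only [dotProduct, sq]

theorem s6k_mul_col (B : Mx n) (X : Matrix (Fin n) Γ ℝ) (γ : Γ) :
    (fun a => (B * X) a γ) = B *ᵥ (fun a => X a γ) := by
  funext a
  simp only [Matrix.mul_apply, Matrix.mulVec, dotProduct]

theorem s6k_opB_rSq {B : Mx n} {b : ℝ} (hB : opB B b) (X : Matrix (Fin n) Γ ℝ) :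
    rSq (B * X) ≤ b ^ 2 * rSq X := by
  rw [s6k_rSq_cols, s6k_rSq_cols, Finset.mul_sum]
  refine Finset.sum_le_sum fun γ _ => ?_
  rw [s6k_mul_col]
  exact hB _

theorem s6k_opB_mxSq {B : Mx n} {b : ℝ} (hB : opB B b) (F : Mx n) :
    mxSq (B * F) ≤ b ^ 2 * mxSq F := by
  rw [← s6k_rSq_eq_mxSq, ← s6k_rSq_eq_mxSq]
  exact s6k_opB_rSq hB F

/-- right multiplication by a SYMMETRIC matrix of operator norm `≤ b` -/
theorem s6k_opB_mxSq_right {B : Mx n} {b : ℝ} (hB : opB B b) (hs : B.IsSymm) (F : Mx n) :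
    mxSq (F * B) ≤ b ^ 2 * mxSq F := by
  rw [← s6k_mxSq_transpose (F * B), Matrix.transpose_mul, hs.eq, ← s6k_mxSq_transpose F]
  exact s6k_opB_mxSq hB Fᵀ

theorem s6k_opB_mxFun {g : ℝ → ℝ} {A : Mx n} {b : ℝ} (h : ∀ i, |g (mxEig A i)| ≤ b) :
    opB (mxFun g A) b := by
  intro v
  have e1 : (mxFun g A *ᵥ v) ⬝ᵥ (mxFun g A *ᵥ v) = v ⬝ᵥ (mxFun (fun x => g x * g x) A *ᵥ v) := by
    rw [R260.mxFun_mul, ← Matrix.mulVec_mulVec, Matrix.dotProduct_mulVec v,
      ← Matrix.mulVec_transpose, (R260.mxFun_isSymm g A).eq]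
  have e2 : b ^ 2 * (v ⬝ᵥ v) = v ⬝ᵥ (mxFun (fun _ => b ^ 2) A *ᵥ v) := by
    rw [R260.mxFun_const, Matrix.smul_mulVec, Matrix.one_mulVec, dotProduct_smul, smul_eq_mul]
  rw [e1, e2]
  refine R260.mxFun_quad_mono (fun i => ?_) v
  rw [← sq, ← sq_abs]
  exact pow_le_pow_left₀ (abs_nonneg _) (h i) 2

/-- eigenvalue bounds from quadratic form bounds -/
theorem s6k_eig_le {A : Mx n} (hA : A.IsSymm) {c : ℝ}
    (h : ∀ v : Fin n → ℝ, v ⬝ᵥ (A *ᵥ v) ≤ c * (v ⬝ᵥ v)) (i : Fin n) : mxEig A i ≤ c := by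
  refine mk_eig_le hA (mk_psd_iff.2 ⟨?_, fun v => ?_⟩) i
  · unfold Matrix.IsSymm
    rw [Matrix.transpose_sub, Matrix.transpose_smul, Matrix.transpose_one, hA.eq]
  · rw [Matrix.sub_mulVec, dotProduct_sub, Matrix.smul_mulVec, Matrix.one_mulVec, dotProduct_smul,
      smul_eq_mul]
    linarith [h v]

theorem s6k_eig_ge {A : Mx n} (hA : A.IsSymm) {c : ℝ}
    (h : ∀ v : Fin n → ℝ, c * (v ⬝ᵥ v) ≤ v ⬝ᵥ (A *ᵥ v)) (i : Fin n) : c ≤ mxEig A i := by
  refine mk_le_eig hA (mk_psd_iff.2 ⟨?_, fun v => ?_⟩) i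
  · unfold Matrix.IsSymm
    rw [Matrix.transpose_sub, Matrix.transpose_smul, Matrix.transpose_one, hA.eq]
  · rw [Matrix.sub_mulVec, dotProduct_sub, Matrix.smul_mulVec, Matrix.one_mulVec, dotProduct_smul,
      smul_eq_mul]
    linarith [h v]

theorem s6k_colS_eig_nonneg (H : Fin n → Mx n) (hs : ∀ i, (H i).IsSymm) (i : Fin n) :
    0 ≤ mxEig (colS H) i := by
  refine s6k_eig_ge (s6k_colS_isSymm H hs) (fun v => ?_) i
  rw [zero_mul, s6k_colS_quad H hs]
  exact Finset.sum_nonneg fun j _ => Finset.sum_nonneg fun k _ => mul_self_nonneg _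

theorem s6k_ColB_eig_le {H : Fin n → Mx n} {c : ℝ} (hH : ColB H c) (i : Fin n) :
    mxEig (colS H) i ≤ c := by
  exact s6k_eig_le (s6k_colS_isSymm H hH.symm) hH.le i

/-- from the `PosSemidef` form used in `ColOK` and `BlockModel` -/
theorem s6k_ColB_of_psd {H : Fin n → Mx n} (hs : ∀ i, (H i).IsSymm)
    (hc : ((4 : ℝ) • (1 : Mx n) - colS H).PosSemidef) : ColB H 4 := by
  refine ⟨hs, fun v => ?_⟩
  have h := (mk_psd_iff.1 hc).2 v
  rw [Matrix.sub_mulVec, dotProduct_sub, Matrix.smul_mulVec, Matrix.one_mulVec, dotProduct_smul,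
    smul_eq_mul] at h
  linarith

theorem s6k_psd_of_ColB {H : Fin n → Mx n} (hH : ColB H 4) :
    ((4 : ℝ) • (1 : Mx n) - colS H).PosSemidef := by
  refine mk_psd_iff.2 ⟨?_, fun v => ?_⟩
  · unfold Matrix.IsSymm
    rw [Matrix.transpose_sub, Matrix.transpose_smul, Matrix.transpose_one,
      (s6k_colS_isSymm H hH.symm).eq]
  · rw [Matrix.sub_mulVec, dotProduct_sub, Matrix.smul_mulVec, Matrix.one_mulVec, dotProduct_smul,
      smul_eq_mul]
    linarith [hH.le v]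

/-- `-1 ≤ S - 1 ≤ 3` -/
theorem s6k_opB_S_sub_one {H : Fin n → Mx n} (hH : ColB H 4) : opB (colS H - 1) 3 := by
  have e : colS H - 1 = mxFun (fun x => x - 1) (colS H) := by
    rw [R260.mxFun_sub, R260.mxFun_id (s6k_colS_isSymm H hH.symm), R260.mxFun_const, one_smul]
  rw [e]
  refine s6k_opB_mxFun fun i => ?_
  have h1 := s6k_colS_eig_nonneg H hH.symm i
  have h2 := s6k_ColB_eig_le hH i
  rw [abs_le]
  constructor <;> linarith

/-! ### column bounds -/

theorem s6k_col_rSq {H : Fin n → Mx n} {c : ℝ} (hH : ColB H c) (X : Matrix (Fin n) Γ ℝ) :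
    ∑ i, rSq (H i * X) ≤ c * rSq X := by
  simp only [s6k_rSq_cols]
  rw [Finset.sum_comm, Finset.mul_sum]
  refine Finset.sum_le_sum fun γ _ => ?_
  simp only [s6k_mul_col]
  rw [← s6k_colS_quad H hH.symm]
  exact hH.le _

theorem s6k_col_mxSq {H : Fin n → Mx n} {c : ℝ} (hH : ColB H c) (F : Mx n) :
    ∑ i, mxSq (H i * F) ≤ c * mxSq F := by
  simp only [← s6k_rSq_eq_mxSq]
  exact s6k_col_rSq hH F

/-- adjoint column bound `|∑ H_j K_j|² ≤ c ∑ |K_j|²` -/
theorem s6k_col_adj {H : Fin n → Mx n} {c : ℝ} (hc : 0 < c) (hH : ColB H c) (K : Fin n → Mx n) :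
    mxSq (∑ j, H j * K j) ≤ c * ∑ j, mxSq (K j) := by
  set T := ∑ j, H j * K j with hT
  have h1 : mxSq T = ∑ j, hsI (K j) (H j * T) := by
    rw [mxSq_eq_hs2, ← hsI_self]
    conv_lhs => rw [hT, hsI_sum_left]
    refine Finset.sum_congr rfl fun j _ => ?_
    rw [hsI_mul_left, (hH.symm j).eq]
  have hθ : 0 < c / 2 := by positivity
  have h2 : ∀ j, hsI (K j) (H j * T) ≤ c / 2 * mxSq (K j) + mxSq (H j * T) / (4 * (c / 2)) := by
    intro j
    rw [mxSq_eq_hs2, mxSq_eq_hs2]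
    exact (le_abs_self _).trans (s6k_hsI_young _ _ hθ)
  have h3 : mxSq T ≤ c / 2 * ∑ j, mxSq (K j) + (∑ j, mxSq (H j * T)) / (4 * (c / 2)) := by
    rw [h1, Finset.mul_sum, Finset.sum_div, ← Finset.sum_add_distrib]
    exact Finset.sum_le_sum fun j _ => h2 j
  have h4 := s6k_col_mxSq hH T
  have h5 : (∑ j, mxSq (H j * T)) / (4 * (c / 2)) ≤ mxSq T / 2 := by
    rw [div_le_iff₀ (by positivity)]
    calc ∑ j, mxSq (H j * T) ≤ c * mxSq T := h4
      _ = mxSq T / 2 * (4 * (c / 2)) := by ring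
  linarith

/-! ### the tested trace inequality -/

theorem s6k_tested {B : Mx n} {b θ : ℝ} (hb : 0 < b) (hθ : 0 < θ) (hB : opB B b)
    (X Y : Matrix (Fin n) Γ ℝ) :
    |Matrix.trace (B * (X * Xᵀ - Y * Yᵀ))| ≤ b * (θ * (rSq X + rSq Y) + rSq (X - Y) / (2 * θ)) := by
  have e : Matrix.trace (B * (X * Xᵀ - Y * Yᵀ)) = hsI X (B * (X - Y)) + hsI (B * Y) (X - Y) := by
    have e1 : X * Xᵀ - Y * Yᵀ = (X - Y) * Xᵀ + Y * (X - Y)ᵀ := by
      rw [Matrix.transpose_sub, Matrix.sub_mul, Matrix.mul_sub]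
      abel
    rw [e1, Matrix.mul_add, Matrix.trace_add, hsI_comm X, hsI_eq_trace, hsI_eq_trace]
    simp only [Matrix.mul_assoc]
  have hx : rSq X = hs2 X := rfl
  have hy : rSq Y = hs2 Y := rfl
  have hd : rSq (X - Y) = hs2 (X - Y) := rfl
  have h1 := s6k_hsI_young X (B * (X - Y)) (mul_pos hb hθ)
  have h2 := s6k_hsI_young (B * Y) (X - Y) (div_pos hθ hb)
  have h3 : hs2 (B * (X - Y)) ≤ b ^ 2 * hs2 (X - Y) := s6k_opB_rSq hB (X - Y)
  have h4 : hs2 (B * Y) ≤ b ^ 2 * hs2 Y := s6k_opB_rSq hB Y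
  have h5 : hs2 (B * (X - Y)) / (4 * (b * θ)) ≤ b * (hs2 (X - Y) / (4 * θ)) := by
    rw [div_le_iff₀ (by positivity)]
    calc hs2 (B * (X - Y)) ≤ b ^ 2 * hs2 (X - Y) := h3
      _ = b * (hs2 (X - Y) / (4 * θ)) * (4 * (b * θ)) := by
        field_simp
  have h6 : θ / b * hs2 (B * Y) ≤ b * (θ * hs2 Y) := by
    calc θ / b * hs2 (B * Y) ≤ θ / b * (b ^ 2 * hs2 Y) :=
          mul_le_mul_of_nonneg_left h4 (by positivity)
      _ = b * (θ * hs2 Y) := by
        field_simp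
  have h7 : hs2 (X - Y) / (4 * (θ / b)) = b * (hs2 (X - Y) / (4 * θ)) := by
    field_simp
  have h8 : hs2 (X - Y) / (2 * θ) = hs2 (X - Y) / (4 * θ) + hs2 (X - Y) / (4 * θ) := by
    field_simp
    ring
  rw [e, hx, hy, hd, h8]
  refine (abs_add_le _ _).trans ?_
  rw [h7] at h2
  nlinarith

theorem s6k_tested_one {B : Mx n} {b : ℝ} (hb : 0 < b) (hB : opB B b) (X : Matrix (Fin n) Γ ℝ) :
    |Matrix.trace (B * (X * Xᵀ))| ≤ b * rSq X := by
  have e : Matrix.trace (B * (X * Xᵀ)) = hsI X (B * X) := by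
    rw [hsI_comm, hsI_eq_trace, Matrix.mul_assoc]
  have hθ : 0 < b / 2 := by positivity
  have h1 := s6k_hsI_young X (B * X) hθ
  have h2 : hs2 (B * X) ≤ b ^ 2 * hs2 X := s6k_opB_rSq hB X
  have h3 : hs2 (B * X) / (4 * (b / 2)) ≤ b / 2 * hs2 X := by
    rw [div_le_iff₀ (by positivity)]
    calc hs2 (B * X) ≤ b ^ 2 * hs2 X := h2
      _ = b / 2 * hs2 X * (4 * (b / 2)) := by ring
  rw [e]
  have h4 : rSq X = hs2 X := rfl
  rw [h4]
  linarith

/-! ### monotonicity of `g ↦ tr(W g(A))` for positive `W = M Mᵀ` -/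

theorem s6k_trace_mxFun_mono {g g' : ℝ → ℝ} {A : Mx n} (h : ∀ i, g (mxEig A i) ≤ g' (mxEig A i))
    (M : Mx n) :
    Matrix.trace (Mᵀ * mxFun g A * M) ≤ Matrix.trace (Mᵀ * mxFun g' A * M) := by
  have h1 := ((mk_mxFun_le h).conjTranspose_mul_mul_same M).trace_nonneg
  rw [Matrix.conjTranspose_eq_transpose_of_trivial, Matrix.mul_sub, Matrix.sub_mul,
    Matrix.trace_sub] at h1
  linarith

end Claimed.Agent.R259
end

/- ===== packed: Claimed.Agent.R259.S6ColTen ===== -/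
section
/-
Row 259 (S0499), section 6 of the paper, package BP-S6-col (Lemmas 6.4, 6.5).  Owner: helper144.

KIT 2: pointwise tensor algebra: `slot`, `flat`, `red`, permutations of slots, last-slot slices.
-/
set_option autoImplicit false

open scoped BigOperators Matrix
open Claimed.Agent.R260 (Mx mxFun mxSchur mxSq mxIP mxEig mxU mxRot)

namespace Claimed.Agent.R259

noncomputable section

variable {n d : ℕ}

/-- permutation of the slots of a tensor -/
def pmT (σ : Equiv.Perm (Fin d)) (t : TT n d) : TT n d := WithLp.toLp 2 (fun α => t (α ∘ σ))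

/-- slice of a tensor of order `d + 1` at the value `i` of the LAST slot -/
def lastSl (s : TT n (d + 1)) (i : Fin n) : TT n d := WithLp.toLp 2 (fun α => s (Fin.snoc α i))

end

/-- generates the equation lemmas of the definitions above in this file (rule 6: unique names) -/
theorem s6colten_eqns_cite : True := by
  have := @pmT.eq_1
  have := @lastSl.eq_1
  trivial

variable {n d : ℕ}

/-! ### sums over index tuples -/

theorem s6n_sum_cons (f : Idx n (d + 1) → ℝ) :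
    ∑ α, f α = ∑ i, ∑ β : Idx n d, f (Fin.cons i β) :=
  s6tn_sum_cons f

theorem s6n_sum_snoc (f : Idx n (d + 1) → ℝ) :
    ∑ α, f α = ∑ i, ∑ β : Idx n d, f (Fin.snoc β i) :=
  s6tn_sum_snoc f

theorem s6n_norm_sq (t : TT n d) : ‖t‖ ^ 2 = ∑ α, t α ^ 2 :=
  s6t_norm_sq t

/-! ### `slot`: linearity, multiplicativity, commutation -/

theorem s6n_slot_apply (r : Fin d) (M : Mx n) (t : TT n d) (α : Idx n d) :
    slot r M t α = ∑ j, M (α r) j * t (Function.update α r j) :=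
  rfl

theorem s6n_slot_sub_right (r : Fin d) (M : Mx n) (t u : TT n d) :
    slot r M (t - u) = slot r M t - slot r M u :=
  slot_sub r M t u

theorem s6n_slot_sub_left (r : Fin d) (M N : Mx n) (t : TT n d) :
    slot r (M - N) t = slot r M t - slot r N t :=
  slot_sub_left r M N t

theorem s6n_slot_mul (r : Fin d) (M N : Mx n) (t : TT n d) :
    slot r (M * N) t = slot r M (slot r N t) :=
  slot_mul r M N t

theorem s6n_slot_comm {r s : Fin d} (hrs : r ≠ s) (M N : Mx n) (t : TT n d) :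
    slot r M (slot s N t) = slot s N (slot r M t) :=
  slot_comm hrs M N t

/-! ### permutations of slots -/

theorem s6n_pmT_norm (σ : Equiv.Perm (Fin d)) (t : TT n d) : ‖pmT σ t‖ = ‖t‖ :=
  tperm_norm σ t

theorem s6n_pmT_sub (σ : Equiv.Perm (Fin d)) (t u : TT n d) :
    pmT σ (t - u) = pmT σ t - pmT σ u :=
  rfl

theorem s6n_pmT_of_sym (σ : Equiv.Perm (Fin d)) {t : TT n d} (ht : TSym t) : pmT σ t = t :=
  ht.tperm_eq σ

theorem s6n_pmT_slot (σ : Equiv.Perm (Fin d)) (r : Fin d) (M : Mx n) (t : TT n d) :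
    pmT σ (slot r M t) = slot (σ r) M (pmT σ t) :=
  tperm_slot σ r M t

/-- the action error does not depend on the slot -/
theorem s6n_err_slot {t u : TT n d} (ht : TSym t) (hu : TSym u) (r s : Fin d) (M : Mx n) :
    ‖u - slot r M t‖ = ‖u - slot s M t‖ :=
  ht.norm_sub_slot hu M r s

end Claimed.Agent.R259
end

/- ===== packed: Claimed.Agent.R259.S6ColTenB ===== -/
section
/-
Row 259 (S0499), section 6 of the paper, package BP-S6-col (Lemmas 6.4, 6.5).  Owner: helper144.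

KIT 2b: `flat`, `red`, column bound on a slot, last-slot slices, derivatives of tensor fields.
-/
set_option autoImplicit false

open scoped BigOperators Matrix
open Claimed.Agent.R260 (Mx mxFun mxSchur mxSq mxIP mxEig mxU mxRot)

namespace Claimed.Agent.R259

variable {n d : ℕ}

/-! ### `flat` and `red` -/

theorem s6n_flat_slot (M : Mx n) (t : TT n (d + 1)) : flat (slot 0 M t) = M * flat t :=
  flat_slot_zero M t

theorem s6n_flat_sub (t u : TT n (d + 1)) : flat (t - u) = flat t - flat u :=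
  rfl

theorem s6n_rSq_flat (t : TT n (d + 1)) : rSq (flat t) = ‖t‖ ^ 2 :=
  hs2_flat t

/-- `|M_(1) t|² = tr(M red(t) Mᵀ)` -/
theorem s6n_slot_norm (M : Mx n) (t : TT n (d + 1)) :
    ‖slot 0 M t‖ ^ 2 = Matrix.trace (M * red t * Mᵀ) :=
  norm_slot_zero_sq M t

theorem s6n_red_isSymm (t : TT n (d + 1)) : (red t).IsSymm :=
  mk_isSymm_of_psd (red_psd t)

theorem s6n_red_quad (t : TT n (d + 1)) (w : Fin n → ℝ) :
    w ⬝ᵥ (red t *ᵥ w) = ∑ β : Idx n d, (∑ c, w c * t (Fin.cons c β)) ^ 2 := by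
  unfold red
  rw [← Matrix.mulVec_mulVec, Matrix.dotProduct_mulVec, ← Matrix.mulVec_transpose]
  simp only [dotProduct, Matrix.mulVec, Matrix.transpose_apply]
  refine Finset.sum_congr rfl fun β _ => ?_
  rw [sq]
  have : ∀ c, flat t c β * w c = w c * t (Fin.cons c β) := fun c => mul_comm _ _
  simp only [this]

theorem s6n_trace_red (t : TT n (d + 1)) : Matrix.trace (red t) = ‖t‖ ^ 2 :=
  trace_red t

/-- column bound on an arbitrary slot -/
theorem s6n_col_slot {H : Fin n → Mx n} {c : ℝ} (hH : ColB H c) (r : Fin (d + 1))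
    (v : TT n (d + 1)) : ∑ i, ‖slot r (H i) v‖ ^ 2 ≤ c * ‖v‖ ^ 2 := by
  refine s6t_column_bound ?_ r v
  have e : ∑ i, (H i)ᵀ * H i = colS H := by
    unfold colS
    exact Finset.sum_congr rfl fun i _ => by rw [hH.symm i]
  have hs : (colS H).IsSymm := by
    unfold colS Matrix.IsSymm
    rw [Matrix.transpose_sum]
    exact Finset.sum_congr rfl fun i _ => by rw [Matrix.transpose_mul, hH.symm i]
  rw [e, mk_psd_iff]
  refine ⟨?_, fun w => ?_⟩
  · unfold Matrix.IsSymm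
    rw [Matrix.transpose_sub, Matrix.transpose_smul, Matrix.transpose_one, hs]
  · rw [Matrix.sub_mulVec, Matrix.smul_mulVec, Matrix.one_mulVec, dotProduct_sub,
      dotProduct_smul, smul_eq_mul]
    linarith [hH.le w]

/-! ### last-slot slices -/

theorem s6n_lastSl_norm (s : TT n (d + 1)) : ∑ i, ‖lastSl s i‖ ^ 2 = ‖s‖ ^ 2 :=
  sum_norm_lastAt_sq s

/-- `∑_i red(s(·,i)) = red(s)` -/
theorem s6n_lastSl_red (s : TT n (d + 2)) : ∑ i, red (lastSl s i) = red s :=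
  (red_eq_sum_lastAt s).symm

/-- exchange of the first and the last slot of a symmetric tensor -/
theorem s6n_lastSl_exchange {s : TT n (d + 2)} (hs : TSym s) (i a : Fin n) (β : Idx n d) :
    lastSl s i (Fin.cons a β) = lastSl s a (Fin.cons i β) :=
  tsym_lastAt_cons hs i a β

/-! ### derivatives -/

theorem s6n_tD_sub_norm (T : EE n → TT n d) (y : EE n) (s : TT n (d + 1)) :
    ‖tD T y - s‖ ^ 2 = ∑ i, ‖dI i T y - lastSl s i‖ ^ 2 := by
  rw [← sum_norm_lastAt_sq]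
  refine Finset.sum_congr rfl fun i _ => ?_
  rw [lastAt_sub, lastAt_tD]
  rfl

theorem s6n_dI_sym {T : EE n → TT n d} (hT : IsTestV T) (hs : ∀ y, TSym (T y)) (i : Fin n)
    (y : EE n) : TSym (dI i T y) :=
  tsym_dI hs i y

end Claimed.Agent.R259
end

/- ===== packed: Claimed.Agent.R259.S6ColPt ===== -/
section
/-
Row 259 (S0499), section 6 of the paper, package BP-S6-col (Lemmas 6.4, 6.5).  Owner: helper144.

ABSTRACT POINTWISE INEQUALITIES (one point of the space, no measure theory, no `HierData`):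
* four moves (commutation, Lemma 6.5), index exchange (Lemma 6.5),
* last step of Lemma 6.4 (`|(S-1)R|²`),
* resolvent trick, tail estimate and truncation cost (first half of Lemma 6.4) with the CONTINUOUS
  cut-off `χ(S)`, `χ(x) = 2 / max(2, √x)`, instead of the spectral projection `1_{[0,4]}(S)`
  (so that measurability follows from continuity of the functional calculus).
The two balance equations enter as hypotheses `hbal`, `hbal1` in TESTED form
(`|tr(B(..))| ≤ b E0` for every `B` of operator norm `≤ b`): no trace norm is needed.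
-/
set_option autoImplicit false

open scoped BigOperators Matrix
open Claimed.Agent.R260 (Mx mxFun mxSchur mxSq mxIP mxEig mxU mxRot)

namespace Claimed.Agent.R259

noncomputable section

variable {n : ℕ}

/-- resolvent function `1/(1+x)` -/
def jF (x : ℝ) : ℝ := (1 + x)⁻¹

/-- tail function `(x-1)²/(1+x)` -/
def tailF (x : ℝ) : ℝ := (x - 1) ^ 2 / (1 + x)

/-- continuous cut-off: `1` on `[0,4]`, `2/√x` on `[4,∞)` -/
def chiF (x : ℝ) : ℝ := 2 / max 2 (Real.sqrt x)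

/-- the compressed column `χ(S) H_i χ(S)` -/
def truncCol (H : Fin n → Mx n) (i : Fin n) : Mx n :=
  mxFun chiF (colS H) * H i * mxFun chiF (colS H)

end

/-- generates the equation lemmas of the definitions above in this file (rule 6: unique names) -/
theorem s6colpt_eqns_cite : True := by
  have := @jF.eq_1
  have := @tailF.eq_1
  have := @chiF.eq_1
  have := @truncCol.eq_1
  trivial

variable {n d : ℕ}

/-! ### Lemma 6.5 -/

theorem s6p_norm_add4_sq_le {E : Type} [SeminormedAddCommGroup E] (a b c e : E) :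
    ‖a + b + c + e‖ ^ 2 ≤ 4 * (‖a‖ ^ 2 + ‖b‖ ^ 2 + ‖c‖ ^ 2 + ‖e‖ ^ 2) := by
  have h1 : ‖a + b + c + e‖ ≤ ‖a‖ + ‖b‖ + ‖c‖ + ‖e‖ := norm_add₄_le
  have h2 : ‖a + b + c + e‖ ^ 2 ≤ (‖a‖ + ‖b‖ + ‖c‖ + ‖e‖) ^ 2 :=
    pow_le_pow_left₀ (norm_nonneg _) h1 2
  nlinarith [sq_nonneg (‖a‖ - ‖b‖), sq_nonneg (‖a‖ - ‖c‖), sq_nonneg (‖a‖ - ‖e‖),
    sq_nonneg (‖b‖ - ‖c‖), sq_nonneg (‖b‖ - ‖e‖), sq_nonneg (‖c‖ - ‖e‖)]

theorem s6p_norm_sub_sq_le {E : Type} [SeminormedAddCommGroup E] (c a b : E) :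
    ‖a - b‖ ^ 2 ≤ 2 * ‖c - a‖ ^ 2 + 2 * ‖c - b‖ ^ 2 := by
  have e : a - b = (c - b) - (c - a) := by abel
  have h1 : ‖a - b‖ ≤ ‖c - b‖ + ‖c - a‖ := by
    rw [e]
    exact norm_sub_le _ _
  have h2 : ‖a - b‖ ^ 2 ≤ (‖c - b‖ + ‖c - a‖) ^ 2 := pow_le_pow_left₀ (norm_nonneg _) h1 2
  nlinarith [sq_nonneg (‖c - b‖ - ‖c - a‖)]

/-- FOUR MOVES.  `t` symmetric with at least three slots, `u i` symmetric (`= D_i t`), `S ≤ 4`:
`∑_{ij} |[H_i,H_j]_(1) t|² ≤ 256 ∑_i |u_i - (H_i)_(1) t|²`.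
Proof: `m_i^r := slot r (H i) t`; by `s6n_err_slot` `∑_i |m_i^r - m_i^s|² ≤ 4 e`; write
`[H_i,H_j]_(0) t = E1 + E2 + E3 + E4` with `E1 = slot 0 H_i (m_j^0 - m_j^1)`,
`E2 = slot 1 H_j (m_i^0 - m_i^2)`, `E3 = slot 2 H_i (m_j^1 - m_j^0)`,
`E4 = slot 0 H_j (m_i^2 - m_i^0)` (`s6n_slot_comm`, `s6n_slot_mul`), each `∑_{ij}|E|² ≤ 16 e`
(`s6n_col_slot`). -/
theorem s6p_four_moves {H : Fin n → Mx n} (hH : ColB H 4) (hd : 2 ≤ d) {t : TT n (d + 1)}
    (ht : TSym t) {u : Fin n → TT n (d + 1)} (hu : ∀ i, TSym (u i)) :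
    ∑ i, ∑ j, ‖slot 0 (cmm (H i) (H j)) t‖ ^ 2 ≤ 256 * ∑ i, ‖u i - slot 0 (H i) t‖ ^ 2 := by
  set r1 : Fin (d + 1) := ⟨1, by omega⟩ with hr1
  set r2 : Fin (d + 1) := ⟨2, by omega⟩ with hr2
  have h01 : (0 : Fin (d + 1)) ≠ r1 := by
    intro h
    have := congrArg Fin.val h
    simp [hr1] at this
  have h02 : (0 : Fin (d + 1)) ≠ r2 := by
    intro h
    have := congrArg Fin.val h
    simp [hr2] at this
  have h12 : r1 ≠ r2 := by
    intro h
    have := congrArg Fin.val h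
    simp [hr1, hr2] at this
  set e := ∑ i, ‖u i - slot 0 (H i) t‖ ^ 2 with he
  -- differences of the actions on two slots
  have hdiff : ∀ r s : Fin (d + 1), ∑ i, ‖slot r (H i) t - slot s (H i) t‖ ^ 2 ≤ 4 * e := by
    intro r s
    rw [he, Finset.mul_sum]
    refine Finset.sum_le_sum fun i _ => ?_
    have h1 := s6p_norm_sub_sq_le (u i) (slot r (H i) t) (slot s (H i) t)
    rw [s6n_err_slot ht (hu i) r 0, s6n_err_slot ht (hu i) s 0] at h1
    linarith
  -- one move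
  have hmove : ∀ q r s : Fin (d + 1),
      ∑ i, ∑ j, ‖slot q (H i) (slot r (H j) t - slot s (H j) t)‖ ^ 2 ≤ 16 * e := by
    intro q r s
    rw [Finset.sum_comm]
    calc ∑ j, ∑ i, ‖slot q (H i) (slot r (H j) t - slot s (H j) t)‖ ^ 2
        ≤ ∑ j, 4 * ‖slot r (H j) t - slot s (H j) t‖ ^ 2 :=
          Finset.sum_le_sum fun j _ => s6n_col_slot hH q _
      _ = 4 * ∑ j, ‖slot r (H j) t - slot s (H j) t‖ ^ 2 := by rw [Finset.mul_sum]
      _ ≤ 16 * e := by linarith [hdiff r s]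
  have hdec : ∀ i j, slot 0 (cmm (H i) (H j)) t
      = slot 0 (H i) (slot 0 (H j) t - slot r1 (H j) t)
        + slot r1 (H j) (slot 0 (H i) t - slot r2 (H i) t)
        + slot r2 (H i) (slot r1 (H j) t - slot 0 (H j) t)
        + slot 0 (H j) (slot r2 (H i) t - slot 0 (H i) t) := by
    intro i j
    rw [cmm, s6n_slot_sub_left, s6n_slot_mul, s6n_slot_mul]
    simp only [s6n_slot_sub_right]
    rw [s6n_slot_comm h01 (H i) (H j) t, s6n_slot_comm h12 (H j) (H i) t,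
      s6n_slot_comm h02 (H j) (H i) t]
    abel
  calc ∑ i, ∑ j, ‖slot 0 (cmm (H i) (H j)) t‖ ^ 2
      ≤ ∑ i, ∑ j, 4 * (‖slot 0 (H i) (slot 0 (H j) t - slot r1 (H j) t)‖ ^ 2
        + ‖slot r1 (H j) (slot 0 (H i) t - slot r2 (H i) t)‖ ^ 2
        + ‖slot r2 (H i) (slot r1 (H j) t - slot 0 (H j) t)‖ ^ 2
        + ‖slot 0 (H j) (slot r2 (H i) t - slot 0 (H i) t)‖ ^ 2) := by
        refine Finset.sum_le_sum fun i _ => Finset.sum_le_sum fun j _ => ?_
        rw [hdec i j]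
        exact s6p_norm_add4_sq_le _ _ _ _
    _ = 4 * ((∑ i, ∑ j, ‖slot 0 (H i) (slot 0 (H j) t - slot r1 (H j) t)‖ ^ 2)
        + (∑ j, ∑ i, ‖slot r1 (H j) (slot 0 (H i) t - slot r2 (H i) t)‖ ^ 2)
        + (∑ i, ∑ j, ‖slot r2 (H i) (slot r1 (H j) t - slot 0 (H j) t)‖ ^ 2)
        + (∑ j, ∑ i, ‖slot 0 (H j) (slot r2 (H i) t - slot 0 (H i) t)‖ ^ 2)) := by
        rw [Finset.sum_comm (f := fun j i => ‖slot r1 (H j) (slot 0 (H i) t - slot r2 (H i) t)‖ ^ 2),
          Finset.sum_comm (f := fun j i => ‖slot 0 (H j) (slot r2 (H i) t - slot 0 (H i) t)‖ ^ 2)]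
        simp only [Finset.mul_sum, Finset.sum_add_distrib, mul_add]
    _ ≤ 256 * e := by
        linarith [hmove 0 0 r1, hmove r1 0 r2, hmove r2 r1 0, hmove 0 r2 0]

/-- INDEX EXCHANGE. -/
theorem s6p_exchange (H : Fin n → Mx n) (t : TT n (d + 1)) (u : Fin n → TT n (d + 1))
    {s : TT n (d + 2)} (hs : TSym s) :
    ∑ i, ∑ a, ∑ β : Idx n d,
        (slot 0 (H i) t (Fin.cons a β) - slot 0 (H a) t (Fin.cons i β)) ^ 2
      ≤ 8 * ∑ i, ‖u i - slot 0 (H i) t‖ ^ 2 + 8 * ∑ i, ‖u i - lastSl s i‖ ^ 2 := by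
  have hnorm : ∀ v : TT n (d + 1), ‖v‖ ^ 2 = ∑ a, ∑ β : Idx n d, v (Fin.cons a β) ^ 2 := by
    intro v
    rw [s6n_norm_sq, s6n_sum_cons]
  set w : Fin n → TT n (d + 1) := fun i => slot 0 (H i) t - lastSl s i with hw
  have h1 : ∀ i a (β : Idx n d),
      (slot 0 (H i) t (Fin.cons a β) - slot 0 (H a) t (Fin.cons i β)) ^ 2
        ≤ 2 * w i (Fin.cons a β) ^ 2 + 2 * w a (Fin.cons i β) ^ 2 := by
    intro i a β
    have e : slot 0 (H i) t (Fin.cons a β) - slot 0 (H a) t (Fin.cons i β)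
        = w i (Fin.cons a β) - w a (Fin.cons i β) := by
      simp only [hw, PiLp.sub_apply]
      rw [s6n_lastSl_exchange hs i a β]
      ring
    rw [e]
    nlinarith [sq_nonneg (w i (Fin.cons a β) + w a (Fin.cons i β))]
  have h2 : ∑ i, ∑ a, ∑ β : Idx n d,
      (slot 0 (H i) t (Fin.cons a β) - slot 0 (H a) t (Fin.cons i β)) ^ 2 ≤ 4 * ∑ i, ‖w i‖ ^ 2 := by
    calc ∑ i, ∑ a, ∑ β : Idx n d,
        (slot 0 (H i) t (Fin.cons a β) - slot 0 (H a) t (Fin.cons i β)) ^ 2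
        ≤ ∑ i, ∑ a, ∑ β : Idx n d, (2 * w i (Fin.cons a β) ^ 2 + 2 * w a (Fin.cons i β) ^ 2) :=
          Finset.sum_le_sum fun i _ => Finset.sum_le_sum fun a _ => Finset.sum_le_sum fun β _ =>
            h1 i a β
      _ = 2 * (∑ i, ∑ a, ∑ β : Idx n d, w i (Fin.cons a β) ^ 2)
          + 2 * (∑ i, ∑ a, ∑ β : Idx n d, w a (Fin.cons i β) ^ 2) := by
          simp only [Finset.mul_sum, Finset.sum_add_distrib]
      _ = 4 * ∑ i, ‖w i‖ ^ 2 := by
          have eB : ∑ i, ∑ a, ∑ β : Idx n d, w a (Fin.cons i β) ^ 2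
              = ∑ a, ∑ i, ∑ β : Idx n d, w a (Fin.cons i β) ^ 2 := Finset.sum_comm
          rw [eB]
          simp only [hnorm]
          ring
  have h3 : ∀ i, ‖w i‖ ^ 2 ≤ 2 * ‖u i - slot 0 (H i) t‖ ^ 2 + 2 * ‖u i - lastSl s i‖ ^ 2 :=
    fun i => s6p_norm_sub_sq_le (u i) _ _
  have h4 : ∑ i, ‖w i‖ ^ 2
      ≤ 2 * ∑ i, ‖u i - slot 0 (H i) t‖ ^ 2 + 2 * ∑ i, ‖u i - lastSl s i‖ ^ 2 := by
    rw [Finset.mul_sum, Finset.mul_sum, ← Finset.sum_add_distrib]
    exact Finset.sum_le_sum fun i _ => h3 i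
  linarith

/-! ### commutators -/

/-- `[S,R] = ∑ (H_i K_i + K_i H_i)`, `K_i = [H_i,R]` -/
theorem s6p_comm_S (H : Fin n → Mx n) (R : Mx n) :
    cmm (colS H) R = ∑ i, (H i * cmm (H i) R + cmm (H i) R * H i) := by
  rw [cmm, colS, Matrix.sum_mul, Matrix.mul_sum, ← Finset.sum_sub_distrib]
  refine Finset.sum_congr rfl fun i _ => ?_
  rw [cmm, Matrix.mul_sub, Matrix.sub_mul]
  simp only [Matrix.mul_assoc]
  abel

/-- `|[S,R]|² ≤ 16 ∑ |[H_i,R]|²` for `S ≤ 4` -/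
theorem s6p_comm_S_le {H : Fin n → Mx n} (hH : ColB H 4) {R : Mx n} (hR : R.IsSymm) :
    mxSq (cmm (colS H) R) ≤ 16 * ∑ i, mxSq (cmm (H i) R) := by
  have _ := hR
  rw [s6p_comm_S, Finset.sum_add_distrib]
  have h1 := s6k_col_adj (by norm_num : (0 : ℝ) < 4) hH fun i => cmm (H i) R
  have h2 := s6k_col_adj (by norm_num : (0 : ℝ) < 4) hH fun i => (cmm (H i) R)ᵀ
  have e : ∑ i, H i * (cmm (H i) R)ᵀ = (∑ i, cmm (H i) R * H i)ᵀ := by
    rw [Matrix.transpose_sum]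
    refine Finset.sum_congr rfl fun i _ => ?_
    rw [Matrix.transpose_mul, (hH.symm i).eq]
  rw [e, s6k_mxSq_transpose] at h2
  simp only [s6k_mxSq_transpose] at h2
  have h3 := s6k_mxSq_add_le (∑ i, H i * cmm (H i) R) (∑ i, cmm (H i) R * H i)
  linarith

/-- `|[H,R]|² ≤ 4 |H R|²` for symmetric `H`, `R` -/
theorem s6p_cmm_le {A R : Mx n} (hA : A.IsSymm) (hR : R.IsSymm) :
    mxSq (cmm A R) ≤ 4 * mxSq (A * R) := by
  have e : cmm A R = A * R - (A * R)ᵀ := by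
    rw [cmm, Matrix.transpose_mul, hA.eq, hR.eq]
  rw [e]
  have h := s6k_mxSq_sub_le (A * R) (A * R)ᵀ
  rw [s6k_mxSq_transpose] at h
  linarith

/-- perturbation of the commutator defect -/
theorem s6p_cmm_pert {A A' R : Mx n} (hA : A.IsSymm) (hA' : A'.IsSymm) (hR : R.IsSymm) :
    mxSq (cmm A R) ≤ 2 * mxSq (cmm A' R) + 8 * mxSq ((A - A') * R) := by
  have e : cmm A R = cmm A' R + cmm (A - A') R := by
    simp only [cmm, Matrix.sub_mul, Matrix.mul_sub]
    abel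
  have hs : (A - A').IsSymm := by
    unfold Matrix.IsSymm
    rw [Matrix.transpose_sub, hA.eq, hA'.eq]
  have h1 := s6k_mxSq_add_le (cmm A' R) (cmm (A - A') R)
  have h2 := s6p_cmm_le hs hR
  rw [e]
  linarith

/-! ### last step of Lemma 6.4 -/

/-- `Y = |(S-1)R|² = tr(T(RSR-R²)) + tr(T[S,R]R)`, `T = S-1`; the first term is `≤ 3 E0` by the
tested balance, the second is `≤ |[S,R]|²/2 + Y/2` (`s6k_trace_young`, `θ = 1/2`). -/
theorem s6p_sdef {H : Fin n → Mx n} (hH : ColB H 4) {R : Mx n} (hR : R.IsSymm) {E0 : ℝ}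
    (hbal : ∀ (B : Mx n) (b : ℝ), 0 < b → opB B b →
      |Matrix.trace (B * (R * colS H * R - R * R))| ≤ b * E0) :
    mxSq ((colS H - 1) * R) ≤ 6 * E0 + 16 * ∑ i, mxSq (cmm (H i) R) := by
  have hopT := s6k_opB_S_sub_one hH
  obtain ⟨T, hT⟩ : ∃ T : Mx n, T = colS H - 1 := ⟨_, rfl⟩
  rw [← hT] at hopT ⊢
  have hS := s6k_colS_isSymm H hH.symm
  have hTs : Tᵀ = T := by
    rw [hT, Matrix.transpose_sub, hS.eq, Matrix.transpose_one]
  have e1 : R * colS H * R - R * R = R * T * R := by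
    rw [hT, Matrix.mul_sub, Matrix.sub_mul, Matrix.mul_one]
  have e2 : cmm (colS H) R = T * R - R * T := by
    rw [cmm, hT, Matrix.sub_mul, Matrix.mul_sub, Matrix.one_mul, Matrix.mul_one]
    abel
  have hY : mxSq (T * R) = Matrix.trace (T * (R * colS H * R - R * R))
      + Matrix.trace ((T * R)ᵀ * cmm (colS H) R) := by
    rw [e1, e2, mxSq, Matrix.mul_sub, Matrix.trace_sub, Matrix.transpose_mul, hTs, hR.eq]
    have e3 : Matrix.trace (R * T * (R * T)) = Matrix.trace (T * (R * T * R)) := by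
      rw [Matrix.trace_mul_comm (R * T) (R * T), Matrix.mul_assoc R T, Matrix.trace_mul_comm R]
      simp only [Matrix.mul_assoc]
    rw [e3]
    ring
  have h1 := hbal T 3 (by norm_num) hopT
  have h2 := s6k_trace_young (T * R) (cmm (colS H) R) (by norm_num : (0 : ℝ) < 1 / 2)
  have h3 := s6p_comm_S_le hH hR
  have h4 := le_abs_self (Matrix.trace (T * (R * colS H * R - R * R)))
  have h5 := le_abs_self (Matrix.trace ((T * R)ᵀ * cmm (colS H) R))
  have h6 : mxSq (cmm (colS H) R) / (4 * (1 / 2)) = mxSq (cmm (colS H) R) / 2 := by norm_num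
  rw [h6] at h2
  linarith

end Claimed.Agent.R259
end

/- ===== packed: Claimed.Agent.R259.S6ColRes ===== -/
section
/-
Row 259 (S0499), section 6 of the paper, package BP-S6-col (Lemmas 6.4, 6.5).  Owner: helper144.

ABSTRACT POINTWISE INEQUALITIES, part 2: resolvent trick, tail estimate, compressed column and
truncation cost (first half of Lemma 6.4).  Definitions `jF`, `tailF`, `chiF`, `truncCol` are in
`S6ColPt.lean`.
-/
set_option autoImplicit false

open scoped BigOperators Matrix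
open Claimed.Agent.R260 (Mx mxFun mxSchur mxSq mxIP mxEig mxU mxRot)

namespace Claimed.Agent.R259

variable {n : ℕ}

/-! ### scalar inequalities -/

theorem s6p_chiF_continuous : Continuous chiF := by
  unfold chiF
  refine Continuous.div continuous_const (continuous_const.max Real.continuous_sqrt) fun x => ?_
  have : (2 : ℝ) ≤ max 2 (Real.sqrt x) := le_max_left _ _
  linarith

theorem s6r_tailF_nonneg {x : ℝ} (hx : 0 ≤ x) : 0 ≤ tailF x := by
  unfold tailF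
  positivity

theorem s6p_chiF_bounds {x : ℝ} (hx : 0 ≤ x) :
    0 ≤ chiF x ∧ chiF x ≤ 1 ∧ x * chiF x ^ 2 ≤ 4 ∧
      x * (1 - chiF x) ^ 2 ≤ 20 / 9 * tailF x ∧ (1 - chiF x) ^ 2 ≤ 5 / 9 * tailF x := by
  have ht := s6r_tailF_nonneg hx
  by_cases h : Real.sqrt x ≤ 2
  · have e : chiF x = 1 := by
      unfold chiF
      rw [max_eq_left h]
      norm_num
    have hx4 : x ≤ 4 := by
      have := Real.sq_sqrt hx
      nlinarith [Real.sqrt_nonneg x]
    rw [e]
    refine ⟨by norm_num, le_rfl, by linarith, ?_, ?_⟩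
    · simp only [sub_self]
      nlinarith
    · simp only [sub_self]
      nlinarith
  · have hs : 2 < Real.sqrt x := not_le.1 h
    obtain ⟨v, hv, hsv⟩ : ∃ v : ℝ, 0 < v ∧ Real.sqrt x = 2 + v := ⟨Real.sqrt x - 2, by linarith, by ring⟩
    have hxv : x = (2 + v) ^ 2 := by rw [← hsv, Real.sq_sqrt hx]
    have e : chiF x = 2 / (2 + v) := by
      unfold chiF
      rw [max_eq_right hs.le, hsv]
    have e1 : 1 - chiF x = v / (2 + v) := by
      rw [e]
      field_simp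
      ring
    have et : tailF x = ((2 + v) ^ 2 - 1) ^ 2 / (1 + (2 + v) ^ 2) := by
      unfold tailF
      rw [hxv]
    refine ⟨?_, ?_, ?_, ?_, ?_⟩
    · rw [e]; positivity
    · rw [e, div_le_one (by positivity)]; linarith
    · rw [e, hxv]
      have : (2 + v) ^ 2 * (2 / (2 + v)) ^ 2 = 4 := by
        field_simp
        ring
      rw [this]
    · rw [e1, et, hxv]
      have e2 : (2 + v) ^ 2 * (v / (2 + v)) ^ 2 = v ^ 2 := by
        field_simp
      rw [e2, ← mul_div_assoc, le_div_iff₀ (by positivity)]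
      have : 0 ≤ 20 / 9 * ((2 + v) ^ 2 - 1) ^ 2 - v ^ 2 * (1 + (2 + v) ^ 2) := by
        ring_nf
        positivity
      linarith
    · rw [e1, et, div_pow, ← mul_div_assoc, div_le_div_iff₀ (by positivity) (by positivity)]
      have : 0 ≤ 5 / 9 * ((2 + v) ^ 2 - 1) ^ 2 * (2 + v) ^ 2 - v ^ 2 * (1 + (2 + v) ^ 2) := by
        ring_nf
        positivity
      linarith

theorem s6p_jF_bounds {x : ℝ} (hx : 0 ≤ x) :
    0 < jF x ∧ jF x ≤ 1 ∧ x * jF x ^ 2 ≤ jF x ∧ x * jF x ^ 2 ≤ 1 / 4 ∧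
      tailF x = (x - 1) - 2 * ((x - 1) * jF x) := by
  have h1 : 0 < 1 + x := by linarith
  unfold jF tailF
  refine ⟨by positivity, inv_le_one_of_one_le₀ (by linarith), ?_, ?_, ?_⟩
  · rw [inv_pow, ← div_eq_mul_inv, div_le_iff₀ (by positivity)]
    have : (1 + x)⁻¹ * (1 + x) ^ 2 = 1 + x := by field_simp
    rw [this]
    linarith
  · rw [inv_pow, ← div_eq_mul_inv, div_le_iff₀ (by positivity)]
    nlinarith [sq_nonneg (1 - x)]
  · field_simp
    ring

/-! ### the resolvent trick -/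

theorem s6r_conj (f g : ℝ → ℝ) (A M : Mx n) :
    (mxFun f A * M)ᵀ * mxFun g A * (mxFun f A * M)
      = Mᵀ * mxFun (fun x => f x * g x * f x) A * M := by
  rw [Matrix.transpose_mul, (R260.mxFun_isSymm f A).eq, R260.mxFun_mul, R260.mxFun_mul]
  simp only [Matrix.mul_assoc]

theorem s6r_mxSq_fun (f : ℝ → ℝ) (A M : Mx n) :
    mxSq (mxFun f A * M) = Matrix.trace (Mᵀ * mxFun (fun x => f x * f x) A * M) := by
  rw [mxSq, Matrix.transpose_mul, (R260.mxFun_isSymm f A).eq, R260.mxFun_mul]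
  simp only [Matrix.mul_assoc]

theorem s6r_col_fun (H : Fin n → Mx n) (hs : ∀ i, (H i).IsSymm) (f : ℝ → ℝ) (M : Mx n) :
    ∑ i, mxSq (H i * (mxFun f (colS H) * M))
      = Matrix.trace (Mᵀ * mxFun (fun x => f x * x * f x) (colS H) * M) := by
  rw [s6k_col_sum H hs, ← s6r_conj, R260.mxFun_id (s6k_colS_isSymm H hs)]

theorem s6r_one_add (H : Fin n → Mx n) (hs : ∀ i, (H i).IsSymm) :
    1 + colS H = mxFun (fun x => 1 + x) (colS H) := by
  rw [R260.mxFun_add, R260.mxFun_const, one_smul, R260.mxFun_id (s6k_colS_isSymm H hs)]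

theorem s6r_inv_left (H : Fin n → Mx n) (hs : ∀ i, (H i).IsSymm) :
    (1 + colS H) * mxFun jF (colS H) = 1 := by
  rw [s6r_one_add H hs, ← R260.mxFun_mul]
  have e : mxFun (fun x => (1 + x) * jF x) (colS H) = mxFun (fun _ => 1) (colS H) := by
    refine R260.mxFun_congr fun i => ?_
    have h := s6k_colS_eig_nonneg H hs i
    unfold jF
    rw [mul_inv_cancel₀ (by linarith)]
  rw [e, R260.mxFun_const, one_smul]

theorem s6r_inv_right (H : Fin n → Mx n) (hs : ∀ i, (H i).IsSymm) :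
    mxFun jF (colS H) * (1 + colS H) = 1 := by
  rw [s6r_one_add H hs, R260.mxFun_commute, ← s6r_one_add H hs, s6r_inv_left H hs]

theorem s6r_trace_sq {F R : Mx n} (hF : Fᵀ = F) (hR : R.IsSymm) :
    mxSq (F * R) = Matrix.trace (F * F * (R * R)) := by
  rw [mxSq, Matrix.transpose_mul, hF, hR.eq, Matrix.trace_mul_comm (F * F) (R * R),
    ← Matrix.mul_assoc (R * F) F R, Matrix.trace_mul_comm (R * F * F) R]
  simp only [Matrix.mul_assoc]

/-- `tr(Aᵀ J A) ≤ ∑ |K_j|²` for `A = ∑ H_j K_j`, `J = (1+S)⁻¹`.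
Proof: `Z = J A`; `2 tr(Zᵀ A) = 2 ∑ ⟨H_j Z, K_j⟩ ≤ tr(Zᵀ S Z) + ∑|K_j|² ≤ tr(Zᵀ (1+S) Z) + ∑|K_j|²`
and `(1+S) Z = A`. -/
theorem s6p_res_key (H : Fin n → Mx n) (hs : ∀ i, (H i).IsSymm) (K : Fin n → Mx n) :
    Matrix.trace ((∑ j, H j * K j)ᵀ * mxFun jF (colS H) * (∑ j, H j * K j)) ≤ ∑ j, mxSq (K j) := by
  have hinv := s6r_inv_left H hs
  obtain ⟨J, hJ⟩ : ∃ J : Mx n, J = mxFun jF (colS H) := ⟨_, rfl⟩
  rw [← hJ] at hinv ⊢
  obtain ⟨A, hA⟩ : ∃ A : Mx n, A = ∑ j, H j * K j := ⟨_, rfl⟩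
  rw [← hA]
  obtain ⟨Z, hZ⟩ : ∃ Z : Mx n, Z = J * A := ⟨_, rfl⟩
  have hAZ : A = Z + colS H * Z := by
    rw [hZ, ← Matrix.mul_assoc (colS H), ← Matrix.add_mul]
    have : J + colS H * J = (1 + colS H) * J := by rw [Matrix.add_mul, Matrix.one_mul]
    rw [this, hinv, Matrix.one_mul]
  have e1 : Matrix.trace (Aᵀ * J * A) = hsI A Z := by
    rw [hsI_eq_trace', hZ, Matrix.mul_assoc]
  have e2 : hsI A Z = ∑ j, hsI (K j) (H j * Z) := by
    rw [hA, hsI_sum_left]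
    refine Finset.sum_congr rfl fun j _ => ?_
    rw [hsI_mul_left, (hs j).eq]
  have e3 : ∀ j, hsI (K j) (H j * Z) ≤ (mxSq (K j) + mxSq (H j * Z)) / 2 := by
    intro j
    have h := hs2_nonneg (K j - H j * Z)
    rw [hs2_sub] at h
    rw [mxSq_eq_hs2, mxSq_eq_hs2]
    linarith
  have e4 : ∑ j, mxSq (H j * Z) = hsI (colS H * Z) Z := by
    rw [s6k_col_sum H hs, hsI_eq_trace', Matrix.transpose_mul, (s6k_colS_isSymm H hs).eq]
  have e5 : hsI A Z = hs2 Z + hsI (colS H * Z) Z := by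
    conv_lhs => rw [hAZ]
    rw [hsI_add_left, hsI_self]
  have e6 : hsI A Z ≤ (∑ j, mxSq (K j) + ∑ j, mxSq (H j * Z)) / 2 := by
    rw [e2, ← Finset.sum_add_distrib, Finset.sum_div]
    exact Finset.sum_le_sum fun j _ => e3 j
  have h0 := hs2_nonneg Z
  rw [e1]
  rw [e4] at e6
  linarith

/-- `[R,J] = J [S,R] J` -/
theorem s6p_res_comm (H : Fin n → Mx n) (hs : ∀ i, (H i).IsSymm) (R : Mx n) :
    cmm R (mxFun jF (colS H)) = mxFun jF (colS H) * cmm (colS H) R * mxFun jF (colS H) := by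
  have h1 := s6r_inv_left H hs
  have h2 := s6r_inv_right H hs
  obtain ⟨J, hJ⟩ : ∃ J : Mx n, J = mxFun jF (colS H) := ⟨_, rfl⟩
  rw [← hJ] at h1 h2 ⊢
  have e : cmm (colS H) R = (1 + colS H) * R - R * (1 + colS H) := by
    rw [cmm, Matrix.add_mul, Matrix.mul_add, Matrix.one_mul, Matrix.mul_one]
    abel
  have e2 : J * (R * (1 + colS H)) * J = J * R := by
    rw [Matrix.mul_assoc J, Matrix.mul_assoc R, h1, Matrix.mul_one]
  rw [e, Matrix.mul_sub, Matrix.sub_mul, ← Matrix.mul_assoc J, h2, Matrix.one_mul, e2, cmm]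

theorem s6r_opB_jF (H : Fin n → Mx n) (hs : ∀ i, (H i).IsSymm) : opB (mxFun jF (colS H)) 1 := by
  refine s6k_opB_mxFun fun i => ?_
  obtain ⟨h1, h2, -⟩ := s6p_jF_bounds (s6k_colS_eig_nonneg H hs i)
  rw [abs_of_pos h1]
  exact h2

/-- `∑_i |H_i [R,J]|² ≤ 4 ∑_i |[H_i,R]|²` (the paper's `‖𝐇[R,J]‖ ≤ 2‖𝐊‖`); no bound on `S`. -/
theorem s6p_res_main (H : Fin n → Mx n) (hs : ∀ i, (H i).IsSymm) {R : Mx n} (hR : R.IsSymm) :
    ∑ i, mxSq (H i * cmm R (mxFun jF (colS H))) ≤ 4 * ∑ i, mxSq (cmm (H i) R) := by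
  have hJs : (mxFun jF (colS H))ᵀ = mxFun jF (colS H) := (R260.mxFun_isSymm _ _).eq
  have hkey := s6p_res_key H hs fun i => cmm (H i) R
  obtain ⟨A, hA⟩ : ∃ A : Mx n, A = ∑ j, H j * cmm (H j) R := ⟨_, rfl⟩
  rw [← hA] at hkey
  -- `[S,R] = A - Aᵀ`
  have hC : cmm (colS H) R = A - Aᵀ := by
    rw [s6p_comm_S, Finset.sum_add_distrib, ← hA, hA, Matrix.transpose_sum, sub_eq_add_neg,
      ← Finset.sum_neg_distrib]
    congr 1
    refine Finset.sum_congr rfl fun i _ => ?_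
    rw [Matrix.transpose_mul, (hs i).eq, cmm, Matrix.transpose_sub, Matrix.transpose_mul,
      Matrix.transpose_mul, (hs i).eq, hR.eq, ← Matrix.neg_mul, neg_sub]
  have hdec : cmm R (mxFun jF (colS H))
      = mxFun jF (colS H) * (A * mxFun jF (colS H)) - mxFun jF (colS H) * (Aᵀ * mxFun jF (colS H)) := by
    rw [s6p_res_comm H hs, hC, Matrix.mul_sub, Matrix.sub_mul]
    simp only [Matrix.mul_assoc]
  -- first term
  have h1 : ∑ i, mxSq (H i * (mxFun jF (colS H) * (A * mxFun jF (colS H))))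
      ≤ ∑ i, mxSq (cmm (H i) R) := by
    rw [s6r_col_fun H hs]
    refine le_trans (s6k_trace_mxFun_mono (g' := fun x => Real.sqrt (jF x) * Real.sqrt (jF x))
      (fun i => ?_) _) ?_
    · obtain ⟨p1, -, p3, -⟩ := s6p_jF_bounds (s6k_colS_eig_nonneg H hs i)
      rw [Real.mul_self_sqrt p1.le]
      calc jF (mxEig (colS H) i) * mxEig (colS H) i * jF (mxEig (colS H) i)
          = mxEig (colS H) i * jF (mxEig (colS H) i) ^ 2 := by ring
        _ ≤ _ := p3
    · rw [← s6r_mxSq_fun, ← Matrix.mul_assoc]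
      refine (s6k_opB_mxSq_right (s6r_opB_jF H hs) (R260.mxFun_isSymm _ _) _).trans ?_
      rw [one_pow, one_mul, s6r_mxSq_fun]
      refine le_trans (le_of_eq ?_) hkey
      congr 3
      refine R260.mxFun_congr fun i => ?_
      exact Real.mul_self_sqrt (s6p_jF_bounds (s6k_colS_eig_nonneg H hs i)).1.le
  -- second term
  have h2 : ∑ i, mxSq (H i * (mxFun jF (colS H) * (Aᵀ * mxFun jF (colS H))))
      ≤ 1 / 4 * ∑ i, mxSq (cmm (H i) R) := by
    rw [s6r_col_fun H hs]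
    refine le_trans (s6k_trace_mxFun_mono (g' := fun _ => 1 / 4) (fun i => ?_) _) ?_
    · obtain ⟨-, -, -, p4, -⟩ := s6p_jF_bounds (s6k_colS_eig_nonneg H hs i)
      calc jF (mxEig (colS H) i) * mxEig (colS H) i * jF (mxEig (colS H) i)
          = mxEig (colS H) i * jF (mxEig (colS H) i) ^ 2 := by ring
        _ ≤ _ := p4
    · rw [R260.mxFun_const, Matrix.mul_smul, Matrix.mul_one, Matrix.smul_mul, Matrix.trace_smul,
        smul_eq_mul]
      refine mul_le_mul_of_nonneg_left ?_ (by norm_num)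
      have e : Matrix.trace ((Aᵀ * mxFun jF (colS H))ᵀ * (Aᵀ * mxFun jF (colS H)))
          = mxSq (mxFun jF (colS H) * A) := by
        rw [← mxSq, ← s6k_mxSq_transpose, Matrix.transpose_mul, Matrix.transpose_transpose, hJs]
      rw [e, s6r_mxSq_fun]
      refine le_trans (s6k_trace_mxFun_mono (g' := jF) (fun i => ?_) _) hkey
      obtain ⟨p1, p2, -⟩ := s6p_jF_bounds (s6k_colS_eig_nonneg H hs i)
      nlinarith
  have h3 : ∀ i, mxSq (H i * cmm R (mxFun jF (colS H)))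
      ≤ 2 * mxSq (H i * (mxFun jF (colS H) * (A * mxFun jF (colS H))))
        + 2 * mxSq (H i * (mxFun jF (colS H) * (Aᵀ * mxFun jF (colS H)))) := by
    intro i
    rw [hdec, Matrix.mul_sub]
    exact s6k_mxSq_sub_le _ _
  have h4 : ∑ i, mxSq (H i * cmm R (mxFun jF (colS H)))
      ≤ 2 * ∑ i, mxSq (H i * (mxFun jF (colS H) * (A * mxFun jF (colS H))))
        + 2 * ∑ i, mxSq (H i * (mxFun jF (colS H) * (Aᵀ * mxFun jF (colS H)))) := by
    rw [Finset.mul_sum, Finset.mul_sum, ← Finset.sum_add_distrib]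
    exact Finset.sum_le_sum fun i _ => h3 i
  have h0 : 0 ≤ ∑ i, mxSq (cmm (H i) R) := Finset.sum_nonneg fun i _ => R260.mxSq_nonneg _
  linarith

theorem s6r_f_abs_le (H : Fin n → Mx n) (hs : ∀ i, (H i).IsSymm) {b : ℝ} (hb : |b| ≤ 1) (i : Fin n) :
    |1 + b * jF (mxEig (colS H) i)| ≤ 2 := by
  obtain ⟨p1, p2, -⟩ := s6p_jF_bounds (s6k_colS_eig_nonneg H hs i)
  obtain ⟨b1, b2⟩ := abs_le.1 hb
  rw [abs_le]
  constructor <;> nlinarith

/-- for `f = 1 + b J`, `b ∈ {0,1,-1}`: `|tr(R² S f²) - tr(f² R S R)| ≤ 4 cm + 8 θ hr + 2 cm/θ` -/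
theorem s6p_res_swap (H : Fin n → Mx n) (hs : ∀ i, (H i).IsSymm) {R : Mx n} (hR : R.IsSymm)
    {b θ : ℝ} (hb : |b| ≤ 1) (hθ : 0 < θ) :
    |∑ i, mxSq (H i * (mxFun (fun x => 1 + b * jF x) (colS H) * R))
        - ∑ i, mxSq (H i * (R * mxFun (fun x => 1 + b * jF x) (colS H)))|
      ≤ 4 * ∑ i, mxSq (cmm (H i) R) + 8 * θ * ∑ i, mxSq (H i * R)
        + 2 * (∑ i, mxSq (cmm (H i) R)) / θ := by
  have hF : mxFun (fun x => 1 + b * jF x) (colS H) = 1 + b • mxFun jF (colS H) := by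
    rw [R260.mxFun_add, R260.mxFun_const, one_smul, R260.mxFun_smul]
  have hopF : opB (mxFun (fun x => 1 + b * jF x) (colS H)) 2 :=
    s6k_opB_mxFun fun i => s6r_f_abs_le H hs hb i
  have hFs : (mxFun (fun x => 1 + b * jF x) (colS H)).IsSymm := R260.mxFun_isSymm _ _
  have hmain := s6p_res_main H hs hR
  obtain ⟨F, hFd⟩ : ∃ F : Mx n, F = mxFun (fun x => 1 + b * jF x) (colS H) := ⟨_, rfl⟩
  obtain ⟨J, hJd⟩ : ∃ J : Mx n, J = mxFun jF (colS H) := ⟨_, rfl⟩
  rw [← hFd] at hF hopF hFs ⊢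
  rw [← hJd] at hF hmain
  have hD : F * R = R * F + (-b) • cmm R J := by
    rw [hF, cmm, Matrix.add_mul, Matrix.mul_add, Matrix.one_mul, Matrix.mul_one, Matrix.smul_mul,
      Matrix.mul_smul, smul_sub, neg_smul, neg_smul]
    abel
  set cm := ∑ i, mxSq (cmm (H i) R) with hcm
  set hr := ∑ i, mxSq (H i * R) with hhr
  have hb2 : b ^ 2 ≤ 1 := by
    rw [← sq_abs]
    exact pow_le_one₀ (abs_nonneg _) hb
  -- the three sums
  have hΔ : ∑ i, hs2 ((-b) • (H i * cmm R J)) ≤ 4 * cm := by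
    simp only [hs2_smul, ← mxSq_eq_hs2]
    rw [← Finset.mul_sum]
    have h0 : 0 ≤ ∑ i, mxSq (H i * cmm R J) := Finset.sum_nonneg fun i _ => R260.mxSq_nonneg _
    nlinarith
  have hY : ∑ i, hs2 (H i * (R * F)) ≤ 4 * hr := by
    rw [hhr, Finset.mul_sum]
    refine Finset.sum_le_sum fun i _ => ?_
    rw [← mxSq_eq_hs2, ← Matrix.mul_assoc]
    have := s6k_opB_mxSq_right hopF hFs (H i * R)
    linarith
  have hterm : ∀ i, |mxSq (H i * (F * R)) - mxSq (H i * (R * F))|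
      ≤ hs2 ((-b) • (H i * cmm R J)) + 2 * θ * hs2 (H i * (R * F))
        + hs2 ((-b) • (H i * cmm R J)) / (2 * θ) := by
    intro i
    have e : H i * (F * R) = H i * (R * F) + (-b) • (H i * cmm R J) := by
      rw [hD, Matrix.mul_add, Matrix.mul_smul]
    rw [e, mxSq_eq_hs2, mxSq_eq_hs2, hs2_add]
    have h1 := s6k_hsI_young (H i * (R * F)) ((-b) • (H i * cmm R J)) hθ
    have h2 := hs2_nonneg ((-b) • (H i * cmm R J))
    have e2 : hs2 ((-b) • (H i * cmm R J)) / (2 * θ)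
        = 2 * (hs2 ((-b) • (H i * cmm R J)) / (4 * θ)) := by
      field_simp
      ring
    rw [e2]
    obtain ⟨h3, h4⟩ := abs_le.1 h1
    rw [abs_le]
    constructor <;> linarith
  rw [← Finset.sum_sub_distrib]
  refine (Finset.abs_sum_le_sum_abs _ _).trans ?_
  refine (Finset.sum_le_sum fun i _ => hterm i).trans ?_
  rw [Finset.sum_add_distrib, Finset.sum_add_distrib, ← Finset.mul_sum, ← Finset.sum_div]
  have h5 : (∑ i, hs2 ((-b) • (H i * cmm R J))) / (2 * θ) ≤ 2 * cm / θ := by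
    rw [div_le_div_iff₀ (by positivity) hθ]
    nlinarith
  have h6 : 2 * θ * ∑ i, hs2 (H i * (R * F)) ≤ 8 * θ * hr := by nlinarith
  linarith

/-- `W(f) = tr(R (S-1) f(S)² R)` is small for `f = 1 + b J` -/
theorem s6p_res_W (H : Fin n → Mx n) (hs : ∀ i, (H i).IsSymm) {R : Mx n} (hR : R.IsSymm)
    {b θ E0 : ℝ} (hb : |b| ≤ 1) (hθ : 0 < θ)
    (hbal : ∀ (B : Mx n) (b : ℝ), 0 < b → opB B b →
      |Matrix.trace (B * (R * colS H * R - R * R))| ≤ b * E0) :
    |Matrix.trace (Rᵀ * mxFun (fun x => (x - 1) * (1 + b * jF x) ^ 2) (colS H) * R)|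
      ≤ 4 * ∑ i, mxSq (cmm (H i) R) + 8 * θ * ∑ i, mxSq (H i * R)
        + 2 * (∑ i, mxSq (cmm (H i) R)) / θ + 4 * E0 := by
  have hswap := s6p_res_swap H hs hR hb hθ
  have hFs : (mxFun (fun x => 1 + b * jF x) (colS H))ᵀ = mxFun (fun x => 1 + b * jF x) (colS H) :=
    (R260.mxFun_isSymm _ _).eq
  have hop : opB (mxFun (fun x => 1 + b * jF x) (colS H) * mxFun (fun x => 1 + b * jF x) (colS H)) 4 := by
    rw [← R260.mxFun_mul]
    refine s6k_opB_mxFun fun i => ?_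
    have h := s6r_f_abs_le H hs hb i
    rw [abs_mul]
    nlinarith [abs_nonneg (1 + b * jF (mxEig (colS H) i))]
  have e0 : mxFun (fun x => (x - 1) * (1 + b * jF x) ^ 2) (colS H)
      = mxFun (fun x => (1 + b * jF x) * x * (1 + b * jF x)) (colS H)
        - mxFun (fun x => (1 + b * jF x) * (1 + b * jF x)) (colS H) := by
    rw [← R260.mxFun_sub]
    congr 1
    funext x
    ring
  have e1 : Matrix.trace (Rᵀ * mxFun (fun x => (x - 1) * (1 + b * jF x) ^ 2) (colS H) * R)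
      = ∑ i, mxSq (H i * (mxFun (fun x => 1 + b * jF x) (colS H) * R))
        - mxSq (mxFun (fun x => 1 + b * jF x) (colS H) * R) := by
    rw [e0, Matrix.mul_sub, Matrix.sub_mul, Matrix.trace_sub, s6r_col_fun H hs, s6r_mxSq_fun]
  have hb4 := hbal _ 4 (by norm_num) hop
  obtain ⟨F, hFd⟩ : ∃ F : Mx n, F = mxFun (fun x => 1 + b * jF x) (colS H) := ⟨_, rfl⟩
  rw [← hFd] at hswap hFs hb4 e1
  have e2 : ∑ i, mxSq (H i * (R * F)) = Matrix.trace (F * F * (R * colS H * R)) := by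
    rw [s6k_col_sum H hs, Matrix.transpose_mul, hFs, hR.eq, Matrix.mul_assoc (F * R),
      Matrix.mul_assoc F R, Matrix.trace_mul_comm F, Matrix.trace_mul_comm (F * F)]
    simp only [Matrix.mul_assoc]
  have e3 : mxSq (F * R) = Matrix.trace (F * F * (R * R)) := s6r_trace_sq hFs hR
  have e4 : Matrix.trace (F * F * (R * colS H * R - R * R))
      = ∑ i, mxSq (H i * (R * F)) - mxSq (F * R) := by
    rw [Matrix.mul_sub, Matrix.trace_sub, e2, e3]
  rw [e4] at hb4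
  rw [e1]
  obtain ⟨a1, a2⟩ := abs_le.1 hswap
  obtain ⟨a3, a4⟩ := abs_le.1 hb4
  rw [abs_le]
  constructor <;> linarith

/-- TAIL ESTIMATE (6.column-tail), pointwise. -/
theorem s6p_tail (H : Fin n → Mx n) (hs : ∀ i, (H i).IsSymm) {R : Mx n} (hR : R.IsSymm)
    {θ E0 : ℝ} (hθ : 0 < θ)
    (hbal : ∀ (B : Mx n) (b : ℝ), 0 < b → opB B b →
      |Matrix.trace (B * (R * colS H * R - R * R))| ≤ b * E0) :
    Matrix.trace (Rᵀ * mxFun tailF (colS H) * R)
      ≤ 2 * (4 * ∑ i, mxSq (cmm (H i) R) + 8 * θ * ∑ i, mxSq (H i * R)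
        + 2 * (∑ i, mxSq (cmm (H i) R)) / θ + 4 * E0) := by
  have h0 := s6p_res_W H hs hR (b := 0) (by simp) hθ hbal
  have h1 := s6p_res_W H hs hR (b := 1) (by simp) hθ hbal
  have h2 := s6p_res_W H hs hR (b := -1) (by simp) hθ hbal
  have e : mxFun tailF (colS H) = mxFun (fun x => (x - 1) * (1 + 0 * jF x) ^ 2) (colS H)
      - (1 / 2 : ℝ) • (mxFun (fun x => (x - 1) * (1 + 1 * jF x) ^ 2) (colS H)
        - mxFun (fun x => (x - 1) * (1 + (-1) * jF x) ^ 2) (colS H)) := by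
    rw [← R260.mxFun_sub, ← R260.mxFun_smul, ← R260.mxFun_sub]
    refine R260.mxFun_congr fun i => ?_
    rw [(s6p_jF_bounds (s6k_colS_eig_nonneg H hs i)).2.2.2.2]
    ring
  rw [e, Matrix.mul_sub, Matrix.sub_mul, Matrix.trace_sub, Matrix.mul_smul, Matrix.smul_mul,
    Matrix.trace_smul, Matrix.mul_sub, Matrix.sub_mul, Matrix.trace_sub, smul_eq_mul]
  obtain ⟨a1, a2⟩ := abs_le.1 h0
  obtain ⟨a3, a4⟩ := abs_le.1 h1
  obtain ⟨a5, a6⟩ := abs_le.1 h2
  linarith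

/-! ### the compressed column -/

theorem s6p_truncCol_symm (H : Fin n → Mx n) (hs : ∀ i, (H i).IsSymm) (i : Fin n) :
    (truncCol H i).IsSymm := by
  unfold Matrix.IsSymm
  rw [truncCol, Matrix.transpose_mul, Matrix.transpose_mul, (R260.mxFun_isSymm _ _).eq, (hs i).eq,
    Matrix.mul_assoc]

theorem s6p_truncCol_ColB (H : Fin n → Mx n) (hs : ∀ i, (H i).IsSymm) : ColB (truncCol H) 4 := by
  refine ⟨s6p_truncCol_symm H hs, fun v => ?_⟩
  rw [s6k_colS_quad _ (s6p_truncCol_symm H hs)]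
  have hop : opB (mxFun chiF (colS H)) 1 := s6k_opB_mxFun fun i => by
    obtain ⟨h1, h2, -⟩ := s6p_chiF_bounds (s6k_colS_eig_nonneg H hs i)
    rw [abs_of_nonneg h1]
    exact h2
  have h1 : ∀ i, (truncCol H i *ᵥ v) ⬝ᵥ (truncCol H i *ᵥ v)
      ≤ (H i *ᵥ (mxFun chiF (colS H) *ᵥ v)) ⬝ᵥ (H i *ᵥ (mxFun chiF (colS H) *ᵥ v)) := by
    intro i
    have h := hop (H i *ᵥ (mxFun chiF (colS H) *ᵥ v))
    rw [one_pow, one_mul] at h
    rw [truncCol, ← Matrix.mulVec_mulVec, ← Matrix.mulVec_mulVec]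
    exact h
  refine (Finset.sum_le_sum fun i _ => h1 i).trans ?_
  rw [← s6k_colS_quad H hs]
  have e : (mxFun chiF (colS H) *ᵥ v) ⬝ᵥ (colS H *ᵥ (mxFun chiF (colS H) *ᵥ v))
      = v ⬝ᵥ (mxFun (fun x => chiF x * x * chiF x) (colS H) *ᵥ v) := by
    rw [R260.mxFun_mul, R260.mxFun_mul, R260.mxFun_id (s6k_colS_isSymm H hs),
      ← Matrix.mulVec_mulVec, ← Matrix.mulVec_mulVec, Matrix.dotProduct_mulVec v,
      ← Matrix.mulVec_transpose, (R260.mxFun_isSymm _ _).eq]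
  have e2 : 4 * (v ⬝ᵥ v) = v ⬝ᵥ (mxFun (fun _ => 4) (colS H) *ᵥ v) := by
    rw [R260.mxFun_const, Matrix.smul_mulVec, Matrix.one_mulVec, dotProduct_smul, smul_eq_mul]
  rw [e, e2]
  refine R260.mxFun_quad_mono (fun i => ?_) v
  obtain ⟨-, -, h3, -⟩ := s6p_chiF_bounds (s6k_colS_eig_nonneg H hs i)
  calc chiF (mxEig (colS H) i) * mxEig (colS H) i * chiF (mxEig (colS H) i)
      = mxEig (colS H) i * chiF (mxEig (colS H) i) ^ 2 := by ring
    _ ≤ 4 := h3

/-- TRUNCATION COST, pointwise: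
`H_i - χ H_i χ = H_i(1-χ) + (1-χ)H_i - (1-χ)H_i(1-χ)`. -/
theorem s6p_trunc_cost (H : Fin n → Mx n) (hs : ∀ i, (H i).IsSymm) {R : Mx n} (hR : R.IsSymm)
    {E0 : ℝ}
    (hbal1 : ∀ (B : Mx n) (b : ℝ), 0 < b → opB B b →
      |Matrix.trace (B * ((∑ i, H i * (R * R) * H i) - R * R))| ≤ b * E0) :
    ∑ i, mxSq ((truncCol H i - H i) * R)
      ≤ 15 * Matrix.trace (Rᵀ * mxFun tailF (colS H) * R) + 3 * E0 := by
  have hχ := fun i => s6p_chiF_bounds (s6k_colS_eig_nonneg H hs i)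
  have hPdef : mxFun chiF (colS H) = 1 - mxFun (fun x => 1 - chiF x) (colS H) := by
    rw [R260.mxFun_sub, R260.mxFun_const, one_smul, sub_sub_cancel]
  have hPs : (mxFun (fun x => 1 - chiF x) (colS H))ᵀ = mxFun (fun x => 1 - chiF x) (colS H) :=
    (R260.mxFun_isSymm _ _).eq
  have hopP : opB (mxFun (fun x => 1 - chiF x) (colS H)) 1 := s6k_opB_mxFun fun i => by
    obtain ⟨h1, h2, -⟩ := hχ i
    rw [abs_le]
    constructor <;> linarith
  have hopPP : opB (mxFun (fun x => 1 - chiF x) (colS H) * mxFun (fun x => 1 - chiF x) (colS H))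
      1 := by
    rw [← R260.mxFun_mul]
    refine s6k_opB_mxFun fun i => ?_
    obtain ⟨h1, h2, -⟩ := hχ i
    rw [abs_le]
    constructor <;> nlinarith
  obtain ⟨τ, hτ⟩ : ∃ τ : ℝ, τ = Matrix.trace (Rᵀ * mxFun tailF (colS H) * R) := ⟨_, rfl⟩
  rw [← hτ]
  have hsc : ∀ c : ℝ, Matrix.trace (Rᵀ * mxFun (fun x => c * tailF x) (colS H) * R) = c * τ := by
    intro c
    rw [R260.mxFun_smul, Matrix.mul_smul, Matrix.smul_mul, Matrix.trace_smul, smul_eq_mul, hτ]
  have S1 : ∑ i, mxSq (H i * (mxFun (fun x => 1 - chiF x) (colS H) * R)) ≤ 20 / 9 * τ := by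
    rw [s6r_col_fun H hs, ← hsc]
    refine s6k_trace_mxFun_mono (fun i => ?_) R
    obtain ⟨-, -, -, h4, -⟩ := hχ i
    calc (1 - chiF (mxEig (colS H) i)) * mxEig (colS H) i * (1 - chiF (mxEig (colS H) i))
        = mxEig (colS H) i * (1 - chiF (mxEig (colS H) i)) ^ 2 := by ring
      _ ≤ _ := h4
  have S0 : mxSq (mxFun (fun x => 1 - chiF x) (colS H) * R) ≤ 5 / 9 * τ := by
    rw [s6r_mxSq_fun, ← hsc]
    refine s6k_trace_mxFun_mono (fun i => ?_) R
    obtain ⟨-, -, -, -, h5⟩ := hχ i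
    calc (1 - chiF (mxEig (colS H) i)) * (1 - chiF (mxEig (colS H) i))
        = (1 - chiF (mxEig (colS H) i)) ^ 2 := by ring
      _ ≤ _ := h5
  have hb := hbal1 _ 1 one_pos hopPP
  obtain ⟨P, hP⟩ : ∃ P : Mx n, P = mxFun (fun x => 1 - chiF x) (colS H) := ⟨_, rfl⟩
  rw [← hP] at hPdef hPs hopP S1 S0 hb
  have S3 : ∑ i, mxSq (P * (H i * (P * R))) ≤ 20 / 9 * τ := by
    refine le_trans (Finset.sum_le_sum fun i _ => ?_) S1
    have h := s6k_opB_mxSq hopP (H i * (P * R))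
    rw [one_pow, one_mul] at h
    exact h
  have S2 : ∑ i, mxSq (P * (H i * R)) ≤ E0 + 5 / 9 * τ := by
    have e1 : ∀ i, mxSq (P * (H i * R)) = Matrix.trace (P * P * (H i * (R * R) * H i)) := by
      intro i
      rw [mxSq, Matrix.transpose_mul, Matrix.transpose_mul, hPs, (hs i).eq, hR.eq,
        Matrix.mul_assoc (R * H i) P, Matrix.trace_mul_comm (R * H i)]
      simp only [Matrix.mul_assoc]
    rw [Finset.sum_congr rfl fun i _ => e1 i, ← Matrix.trace_sum, ← Matrix.mul_sum]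
    rw [Matrix.mul_sub, Matrix.trace_sub, ← s6r_trace_sq hPs hR, one_mul] at hb
    have := (abs_le.1 hb).2
    linarith
  have hdec : ∀ i, (truncCol H i - H i) * R
      = -(H i * (P * R)) + -(P * (H i * R)) + P * (H i * (P * R)) := by
    intro i
    rw [truncCol, hPdef]
    simp only [Matrix.sub_mul, Matrix.mul_sub, Matrix.one_mul, Matrix.mul_one, Matrix.mul_assoc]
    abel
  have hterm : ∀ i, mxSq ((truncCol H i - H i) * R)
      ≤ 3 * mxSq (H i * (P * R)) + 3 * mxSq (P * (H i * R)) + 3 * mxSq (P * (H i * (P * R))) := by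
    intro i
    rw [hdec]
    have h := s6k_mxSq_add3_le (-(H i * (P * R))) (-(P * (H i * R))) (P * (H i * (P * R)))
    rw [s6k_mxSq_neg, s6k_mxSq_neg] at h
    exact h
  refine (Finset.sum_le_sum fun i _ => hterm i).trans ?_
  rw [Finset.sum_add_distrib, Finset.sum_add_distrib, ← Finset.mul_sum, ← Finset.mul_sum,
    ← Finset.mul_sum]
  linarith

end Claimed.Agent.R259
end
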