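/- Packed by merge_tool.py (helper293): 10 modules of Claimed.Agent.R259 in one file, same declarations.
   Old modules, in this order: OpDissip, HmDefs, MetDefs, MetB3, S7InfoDefs, S7FishA, S7FishC, S6ExpDefs, S6ExpKit, S6ExpErrA -/
import Claimed.Agent.R259.WS
import Claimed.Agent.R260.MxFunB
import Claimed.Agent.R260.MxCont
import Claimed.Agent.R260.GKIbp
import Claimed.Agent.R259.Pack030
import Claimed.Agent.R259.Pack020
import Claimed.Agent.R259.Pack021
import Claimed.Agent.R259.Pack035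
import Claimed.Agent.R259.Pack045

/- ===== packed: Claimed.Agent.R259.OpDissip ===== -/
section
/-
Row 259, kit OP: entropy dissipation of one resolvent step (`op_dissip` = `s4pl_dissip`).
Owner: helper54.
`0 ≤ v ≤ B` a.e.; `M = 2/e`, `U = M (v + e) ∈ [2, M (B + e)]`, `z = log U ∈ H¹` with gradient `(v+e)⁻¹ gv`; test the resolvent
equation with `z`; convexity of `klFun`; the constant `log M` drops out by conservation of mass.
-/
set_option autoImplicit false
set_option linter.unusedSectionVars false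

open MeasureTheory Filter Topology InformationTheory
open scoped ContDiff ENNReal

namespace Claimed.Agent.R259

/-- convexity of `klFun` (tangent line inequality). -/
theorem opd_klFun_tangent {a b : ℝ} (ha : 0 < a) (hb : 0 < b) :
    (a - b) * Real.log b ≤ klFun a - klFun b := by
  rw [klFun_apply, klFun_apply]
  have h1 := Real.log_le_sub_one_of_pos (div_pos hb ha)
  rw [Real.log_div hb.ne' ha.ne'] at h1
  have h2 := mul_le_mul_of_nonneg_left h1 ha.le
  have e : a * (b / a - 1) = b - a := by field_simp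
  rw [e] at h2
  nlinarith

theorem opd_klFun_le {x : ℝ} (hx : 0 ≤ x) : klFun x ≤ x ^ 2 + 1 := by
  rw [klFun_apply]
  have h1 := Real.log_le_self hx
  nlinarith [mul_le_mul_of_nonneg_left h1 hx]

variable {E : Type} [NormedAddCommGroup E] [InnerProductSpace ℝ E] [FiniteDimensional ℝ E]
  [MeasurableSpace E] [BorelSpace E]

theorem opd_klFun_integrable {m : Measure E} [IsFiniteMeasure m] {k : E → ℝ}
    (hk : AEStronglyMeasurable k m) {B : ℝ} (hb : ∀ᵐ x ∂m, 0 ≤ k x ∧ k x ≤ B) :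
    Integrable (fun x => klFun (k x)) m := by
  refine Integrable.mono' (integrable_const (B ^ 2 + 1))
    (continuous_klFun.comp_aestronglyMeasurable hk) ?_
  filter_upwards [hb] with x hx
  rw [Real.norm_of_nonneg (klFun_nonneg hx.1)]
  refine (opd_klFun_le hx.1).trans ?_
  have := pow_le_pow_left₀ hx.1 hx.2 2
  linarith

variable {η : E → ℝ} {κ : ℝ}

theorem opd_dissip (hη : Continuous η) (hpos : ∀ x, 0 < η x) [IsFiniteMeasure (dm η)] (hκ : 0 < κ)
    {u v : E → ℝ} {gv : E → E} {B e : ℝ} (he : 0 < e) (hu : MemLp u 2 (dm η))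
    (hu0 : ∀ᵐ x, 0 ≤ u x) (huB : ∀ᵐ x, u x ≤ B) (h : IsRes η κ u v gv) :
    κ * ∫ x, ‖gv x‖ ^ 2 / (v x + e) ∂(dm η) ≤
      ∫ x, InformationTheory.klFun (u x + e) ∂(dm η)
        - ∫ x, InformationTheory.klFun (v x + e) ∂(dm η) := by
  have hv0 := opr_nonneg hη.measurable hpos hκ h hu0
  have hvB := opr_le hη.measurable hpos hκ hu h huB
  have hac : ∀ {p : E → Prop}, (∀ᵐ x, p x) → ∀ᵐ x ∂(dm η), p x := fun hp => (ws_dm_ac η).ae_le hp
  set M : ℝ := 2 / e with hM
  have hM0 : 0 < M := by positivity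
  have hMe : M * e = 2 := by rw [hM]; field_simp
  -- `U = M (v + e)`
  have hW1 : WeakGrad (fun x => v x + e) gv := by
    have := ws_weakGrad_add h.1.1 (wsh_const (η := η) e).1
    simpa using this
  have hW2 : WeakGrad (fun x => M * (v x + e)) (fun x => M • gv x) := ws_weakGrad_smul M hW1
  have hUI : ∀ᵐ x, M * (v x + e) ∈ Set.Icc 2 (M * (B + e)) := by
    filter_upwards [hv0, hvB] with x h0 h1
    constructor
    · have := mul_nonneg hM0.le h0
      nlinarith
    · exact mul_le_mul_of_nonneg_left (by linarith) hM0.le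
  have hW3 := ws_weakGrad_comp_Icc hW2 (Θ := Real.log) hUI
    (Real.contDiffOn_log.mono fun x hx => by
      have : (1 : ℝ) < x := by
        have := hx.1
        linarith
      simp only [Set.mem_compl_iff, Set.mem_singleton_iff]
      linarith)
  have hgz : (fun x => deriv Real.log (M * (v x + e)) • M • gv x) = fun x => (v x + e)⁻¹ • gv x := by
    funext x
    rw [Real.deriv_log, smul_smul, mul_inv, mul_comm M⁻¹, mul_assoc, inv_mul_cancel₀ hM0.ne',
      mul_one]
  rw [hgz] at hW3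
  have hvm : AEStronglyMeasurable v (dm η) := h.1.2.1.1
  have hzm : AEStronglyMeasurable (fun x => Real.log (M * (v x + e))) (dm η) :=
    (Real.measurable_log.comp_aemeasurable
      ((hvm.aemeasurable.add_const e).const_mul M)).aestronglyMeasurable
  have hz2 : MemLp (fun x => Real.log (M * (v x + e))) 2 (dm η) := by
    refine MemLp.of_bound hzm (Real.log (M * (B + e))) ?_
    filter_upwards [hac hUI] with x hx
    have h1 : 0 ≤ Real.log (M * (v x + e)) := Real.log_nonneg (by linarith [hx.1])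
    rw [Real.norm_of_nonneg h1]
    exact Real.log_le_log (by linarith [hx.1]) hx.2
  have hgzm : AEStronglyMeasurable (fun x => (v x + e)⁻¹ • gv x) (dm η) :=
    ((hvm.aemeasurable.add_const e).inv.aestronglyMeasurable).smul h.1.2.2.1
  have hgz2 : MemLp (fun x => (v x + e)⁻¹ • gv x) 2 (dm η) := by
    refine h.1.2.2.of_le_mul (c := e⁻¹) hgzm ?_
    filter_upwards [hac hv0] with x hx
    rw [norm_smul, Real.norm_of_nonneg (by positivity)]
    exact mul_le_mul_of_nonneg_right (inv_anti₀ he (by linarith)) (norm_nonneg _)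
  have hz : H1 (dm η) (fun x => Real.log (M * (v x + e))) (fun x => (v x + e)⁻¹ • gv x) :=
    ⟨hW3, hz2, hgz2⟩
  have htest := h.2 _ _ hz
  have hin : (fun x => inner ℝ (gv x) ((v x + e)⁻¹ • gv x)) = fun x => ‖gv x‖ ^ 2 / (v x + e) := by
    funext x
    rw [inner_smul_right, real_inner_self_eq_norm_sq]
    field_simp
  rw [hin] at htest
  -- integrate the tangent line inequality
  have i1 : Integrable (fun x => u x * Real.log (M * (v x + e))) (dm η) := hu.integrable_mul hz2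
  have i2 : Integrable (fun x => v x * Real.log (M * (v x + e))) (dm η) :=
    h.1.2.1.integrable_mul hz2
  have i3 : Integrable (fun x => klFun (u x + e)) (dm η) := by
    refine opd_klFun_integrable (B := B + e) (hu.1.add aestronglyMeasurable_const) ?_
    filter_upwards [hac hu0, hac huB] with x h0 h1
    exact ⟨by linarith, by linarith⟩
  have i4 : Integrable (fun x => klFun (v x + e)) (dm η) := by
    refine opd_klFun_integrable (B := B + e) (hvm.add aestronglyMeasurable_const) ?_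
    filter_upwards [hac hv0, hac hvB] with x h0 h1
    exact ⟨by linarith, by linarith⟩
  have i5 : Integrable u (dm η) := hu.integrable (by norm_num)
  have i6 : Integrable v (dm η) := h.1.2.1.integrable (by norm_num)
  have i7 : Integrable (fun x => klFun (u x + e) - klFun (v x + e)) (dm η) := i3.sub i4
  have i8 : Integrable (fun x => u x - v x) (dm η) := i5.sub i6
  have hmono : ∫ x, (u x * Real.log (M * (v x + e)) - v x * Real.log (M * (v x + e))) ∂(dm η) ≤
      ∫ x, ((klFun (u x + e) - klFun (v x + e)) + Real.log M * (u x - v x)) ∂(dm η) := by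
    refine integral_mono_ae (i1.sub i2) (i7.add (i8.const_mul _)) ?_
    filter_upwards [hac hu0, hac hv0] with x h0 h1
    have h2 := opd_klFun_tangent (by linarith : 0 < u x + e) (by linarith : 0 < v x + e)
    rw [Real.log_mul hM0.ne' (by linarith : v x + e ≠ 0)]
    nlinarith
  rw [integral_sub i1 i2, integral_add i7 (i8.const_mul _), integral_sub i3 i4,
    integral_const_mul, integral_sub i5 i6, opr_integral h] at hmono
  linarith

end Claimed.Agent.R259
end

/- ===== packed: Claimed.Agent.R259.HmDefs ===== -/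
section
/-
Row 259 (S0499): Hermite tensors (sections 5-7 of the paper).  Owner: helper88.

`he j` is the probabilists' Hermite polynomial as a real function, `hm j x` the symmetric Hermite
tensor `𝔥_j(x)` of the paper in ORDERED index normalisation:
`exp(ξ·x - |ξ|²/2) = ∑_j (1/j!) ∑_β hm j x β ∏_r ξ_{β r}` and
`E[(a : 𝔥_j)(b : 𝔥_k)] = δ_{jk} j! ⟨a,b⟩` for symmetric `a, b`.
-/
set_option autoImplicit false

open scoped BigOperators

namespace Claimed.Agent.R259

noncomputable section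

variable {n : ℕ}

/-- probabilists' Hermite polynomial `He_j` as a real function -/
def he (j : ℕ) (x : ℝ) : ℝ := Polynomial.aeval x (Polynomial.hermite j)

/-- multiplicity of the value `i` in the index tuple `β` -/
def cnt {j : ℕ} (β : Idx n j) (i : Fin n) : ℕ := (Finset.univ.filter fun r => β r = i).card

/-- the Hermite tensor `𝔥_j(x)`: `hm j x β = ∏_i He_{cnt β i}(x_i)` -/
def hm (j : ℕ) (x : EE n) : TT n j := WithLp.toLp 2 (fun β => ∏ i, he (cnt β i) (x i))

end

/-- generates the equation lemmas of the definitions above in this file (rule 6: unique names) -/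
theorem hmdefs_eqns_cite : True := by
  have := @he.eq_1
  have := @cnt.eq_1
  have := @hm.eq_1
  trivial

end Claimed.Agent.R259
end

/- ===== packed: Claimed.Agent.R259.MetDefs ===== -/
section
/-
Row 259 (S0499), kit MET: the random-walk Metropolis chain which replaces the stationary diffusion
of the paper (Lemma 5.5, Proposition 6.8, Section 7).  DEFINITIONS.  Owner: helper115.

The chain: `Y_{k+1} = Y_k + √(2h) G_k` if `U_k η(Y_k) ≤ η(Y_k + √(2h) G_k)`, else `Y_{k+1} = Y_k`,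
with `G_k` i.i.d. standard Gaussian, `U_k` i.i.d. uniform on `[0,1]`, `Y_0 ∼ η`.  It is exactly
`η`-stationary.  Only the joint law of `(Y_0, S_k, Y_k)`, `S_k = G_0 + ⋯ + G_{k-1}`, matters; it is
defined by recursion as a measure on the FIXED space `EE n × EE n × EE n` (`metLaw`), so that one
time step is `integral_map` + `integral_prod`.  The coupling handed to the users is
`metPi η t K` = law of `((Y_0, S_K / √K), Y_K)` for `h = t / K`.
-/
set_option autoImplicit false

open MeasureTheory ProbabilityTheory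
open scoped ContDiff BigOperators

namespace Claimed.Agent.R259

noncomputable section

variable {n : ℕ}

/-! ### The chain -/

/-- uniform law on `[0,1]` -/
def metU : Measure ℝ := volume.restrict (Set.Icc 0 1)

/-- law of the noise of one step: a standard Gaussian vector and an independent uniform variable -/
def metNu (n : ℕ) : Measure (EE n × ℝ) := (stdGaussian (EE n)).prod metU

/-- one Metropolis step with proposal `y + √(2h) g`, `z = (g, u)` -/
def metStep (η : EE n → ℝ) (h : ℝ) (y : EE n) (z : EE n × ℝ) : EE n :=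
  if z.2 * η y ≤ η (y + Real.sqrt (2 * h) • z.1) then y + Real.sqrt (2 * h) • z.1 else y

/-- joint law of `(Y_0, S_k, Y_k)`, where `S_k = G_0 + ⋯ + G_{k-1}` -/
def metLaw (η : EE n → ℝ) (h : ℝ) : ℕ → Measure (EE n × EE n × EE n)
  | 0 => (dm η).map (fun y => (y, 0, y))
  | k + 1 => ((metLaw η h k).prod (metNu n)).map
      (fun p => (p.1.1, p.1.2.1 + p.2.1, metStep η h p.1.2.2 p.2))

/-- the coupling `((Y_0, N), Y_t)`: `K` steps of size `t / K`, `N = S_K / √K` -/
def metPi (η : EE n → ℝ) (t : ℝ) (K : ℕ) : Measure ((EE n × EE n) × EE n) :=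
  (metLaw η (t / K) K).map (fun p => ((p.1, (Real.sqrt K)⁻¹ • p.2.1), p.2.2))

/-- centred Gaussian law of covariance `κ • Id` -/
def gaussK (n : ℕ) (κ : ℝ) : Measure (EE n) :=
  (stdGaussian (EE n)).map (fun x => Real.sqrt κ • x)

/-- error of the one-step stochastic Taylor formula
`F(Y_{k+1}) = F(Y_k) + √(2h) DF(Y_k) G_k - h (A F)(Y_k) + metErr` -/
def metErr {V : Type} [NormedAddCommGroup V] [NormedSpace ℝ V] (η : EE n → ℝ) (h : ℝ)
    (F : EE n → V) (y : EE n) (z : EE n × ℝ) : V :=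
  F (metStep η h y z) - F y - Real.sqrt (2 * h) • fderiv ℝ F y z.1 + h • opA η F y

/-! ### Space-time Hermite tensors -/

/-- Hermite polynomials of variance `κ`: `he_{c+2} = x he_{c+1} - κ (c+1) he_c` -/
def heK (κ : ℝ) : ℕ → ℝ → ℝ
  | 0, _ => 1
  | 1, x => x
  | c + 2, x => x * heK κ (c + 1) x - κ * (c + 1) * heK κ c x

/-- Hermite tensor of order `j` and variance `κ` at the point `s`:
`(Hs j κ s) β = ∏_i he^{[κ]}_{#{r : β r = i}}(s_i)`; `Hs j 1 x` is the tensor `𝔥_j(x)` of the paper -/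
def Hs (j : ℕ) (κ : ℝ) (s : EE n) : TT n j :=
  WithLp.toLp 2 fun β => ∏ i, heK κ (cnt β i) (s i)

/-! ### Coefficient families -/

variable {ι : Type} [Fintype ι]

/-- A family of coefficient fields: `F j` has an output index in `ι` and `j` tensor slots.
In the application `F j` is (a direct sum over a band of levels `l` of) `T_{l+j}`, the output index
being the first `l + 1` slots. -/
abbrev CoefFam (n : ℕ) (ι : Type) := (j : ℕ) → EE n → EuclideanSpace ℝ (ι × Idx n j)

/-- symmetry in the tensor slots -/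
def CoefSym {j : ℕ} (c : EuclideanSpace ℝ (ι × Idx n j)) : Prop :=
  ∀ (σ : Equiv.Perm (Fin j)) (a : ι) (β : Idx n j), c (a, β ∘ σ) = c (a, β)

/-- contraction of all tensor slots of a coefficient with a tensor -/
def hcon {j : ℕ} (c : EuclideanSpace ℝ (ι × Idx n j)) (τ : TT n j) : EuclideanSpace ℝ ι :=
  WithLp.toLp 2 fun a => ∑ β, c (a, β) * τ β

/-- the coefficient of order `0` as a vector -/
def hc0 (c : EuclideanSpace ℝ (ι × Idx n 0)) : EuclideanSpace ℝ ι :=
  WithLp.toLp 2 fun a => c (a, fun r => r.elim0)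

/-- contraction of the extra index with a vector -/
def apv (c : EuclideanSpace ℝ (ι × Fin n)) (g : EE n) : EuclideanSpace ℝ ι :=
  WithLp.toLp 2 fun a => ∑ i, c (a, i) * g i

/-- moving the FIRST tensor slot of a coefficient into the output index -/
def shiftC {j : ℕ} (c : EuclideanSpace ℝ (ι × Idx n (j + 1))) :
    EuclideanSpace ℝ ((ι × Fin n) × Idx n j) :=
  WithLp.toLp 2 fun p => c (p.1.1, Fin.cons p.1.2 p.2)

/-- the shifted family `F'_j = F_{j+1}` (first tensor slot moved into the output index) -/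
def shiftF (F : CoefFam n ι) : CoefFam n (ι × Fin n) := fun j y => shiftC (F (j + 1) y)

/-- squared `L²(η)` defect `‖D F_j - F_{j+1}‖²`, the derivative index being the LAST slot -/
def dfD (η : EE n → ℝ) (F : CoefFam n ι) (j : ℕ) : ℝ :=
  ∫ y, ∑ i : Fin n, ∑ p : ι × Idx n j, (dI i (F j) y p - F (j + 1) y (p.1, Fin.snoc p.2 i)) ^ 2
    ∂(dm η)

/-- squared `L²(η)` defect `‖(A - 1) F_j‖²` -/
def dfA (η : EE n → ℝ) (F : CoefFam n ι) (j : ℕ) : ℝ :=
  nSq η (fun y => opA η (F j) y - F j y)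

/-- the approximation of `F_0(Y_k)` with `M` terms, as a function of `(Y_0, S_k)`:
`∑_{j<M} (2h)^{j/2} (1-h)^{k-j} / j! · F_j(y₀) : Hs j k s` -/
def metM (h : ℝ) (M k : ℕ) (F : CoefFam n ι) (y0 s : EE n) : EuclideanSpace ℝ ι :=
  ∑ j ∈ Finset.range M,
    (Real.sqrt (2 * h) ^ j * (1 - h) ^ k / (1 - h) ^ j / (j.factorial : ℝ)) •
      hcon (F j y0) (Hs j k s)

/-- the Hermite expansion of Lemma 5.5 with `M` terms, as a function of `(Y_0, N)`:
`e^{-t} ∑_{j<M} (2t)^{j/2} / j! · F_j(y₀) : 𝔥_j(x)` -/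
def metH (t : ℝ) (M : ℕ) (F : CoefFam n ι) (y0 x : EE n) : EuclideanSpace ℝ ι :=
  ∑ j ∈ Finset.range M,
    (Real.exp (-t) * Real.sqrt (2 * t) ^ j / (j.factorial : ℝ)) • hcon (F j y0) (Hs j 1 x)

/-- the part of `metM` at time `k+1` which is neither of order `0` nor of order `1` in the new
Gaussian increment `g` -/
def metX (h : ℝ) (M k : ℕ) (F : CoefFam n ι) (y0 s g : EE n) : EuclideanSpace ℝ ι :=
  metM h (M + 1) (k + 1) F y0 (s + g) - (1 - h) • metM h (M + 1) k F y0 s
    - Real.sqrt (2 * h) • apv (metM h M k (shiftF F) y0 s) g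

/-- `L²` distance between `F_0(Y_k)` and its `M`-term approximation -/
def metDist (η : EE n → ℝ) (h : ℝ) (M k : ℕ) (F : CoefFam n ι) : ℝ :=
  Real.sqrt (∫ p, ‖hc0 (F 0 p.2.2) - metM h M k F p.1 p.2.1‖ ^ 2 ∂(metLaw η h k))

/-- the error constant of the expansion -/
def metC (t : ℝ) : ℝ := Real.sqrt (2 * (Real.exp t - 1))

/-- accumulated defect `∑_{j<M} c_t^{j+1} (‖(A-1)F_j‖ + ‖DF_j - F_{j+1}‖ + ε)` -/
def metDef (η : EE n → ℝ) (t ε : ℝ) (M : ℕ) (F : CoefFam n ι) : ℝ :=
  ∑ j ∈ Finset.range M, metC t ^ (j + 1) * (Real.sqrt (dfA η F j) + Real.sqrt (dfD η F j) + ε)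

end

/-- generates the equation lemmas of the definitions above in this file (rule 6: unique names) -/
theorem metdefs_eqns_cite : True := by
  have := @metU.eq_1
  have := @metNu.eq_1
  have := @metStep.eq_1
  have := @metLaw.eq_1
  have := @metLaw.eq_2
  have := @metPi.eq_1
  have := @gaussK.eq_1
  have := @metErr.eq_1
  have := @heK.eq_1
  have := @heK.eq_2
  have := @heK.eq_3
  have := @Hs.eq_1
  have := @CoefSym.eq_1
  have := @hcon.eq_1
  have := @hc0.eq_1
  have := @apv.eq_1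
  have := @shiftC.eq_1
  have := @shiftF.eq_1
  have := @dfD.eq_1
  have := @dfA.eq_1
  have := @metM.eq_1
  have := @metH.eq_1
  have := @metX.eq_1
  have := @metDist.eq_1
  have := @metC.eq_1
  have := @metDef.eq_1
  trivial

end Claimed.Agent.R259
end

/- ===== packed: Claimed.Agent.R259.MetB3 ===== -/
section
/-
Row 259 (S0499), kit MET, block B, part 3: deterministic (pointwise) estimates for one Metropolis
step: bounds on the test field, on the acceptance ratio, and the two remainder estimates.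
Owner: helper236.
-/
set_option autoImplicit false
set_option linter.unusedSectionVars false

open scoped ContDiff BigOperators RealInnerProductSpace

namespace Claimed.Agent.R259

section pointwise

variable {E : Type} [NormedAddCommGroup E] [InnerProductSpace ℝ E] [FiniteDimensional ℝ E]
variable {V : Type} [NormedAddCommGroup V] [NormedSpace ℝ V]

/-- all the bounds on a smooth compactly supported field which are needed -/
theorem metb_phi_bounds {φ : E → V} (hφ : ContDiff ℝ ∞ φ) (hc : HasCompactSupport φ) :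
    ∃ M : ℝ, 0 ≤ M ∧ (∀ y, ‖fderiv ℝ φ y‖ ≤ M) ∧ (∀ y, ‖fderiv ℝ (fderiv ℝ φ) y‖ ≤ M) ∧
      (∀ y ξ, ‖φ (y + ξ) - φ y‖ ≤ M * ‖ξ‖) ∧
      (∀ y ξ, ‖φ (y + ξ) - φ y - fderiv ℝ φ y ξ‖ ≤ M * ‖ξ‖ ^ 2) ∧
      (∀ y ξ, ‖φ (y + ξ) - φ y - fderiv ℝ φ y ξ - (1 / 2 : ℝ) • fderiv ℝ (fderiv ℝ φ) y ξ ξ‖
        ≤ M * ‖ξ‖ ^ 3) := by
  have h1 : ContDiff ℝ ∞ (fderiv ℝ φ) := hφ.fderiv_right (by simp)
  have h2 : ContDiff ℝ ∞ (fderiv ℝ (fderiv ℝ φ)) := h1.fderiv_right (by simp)
  have c1 : HasCompactSupport (fderiv ℝ φ) := hc.fderiv (𝕜 := ℝ)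
  have c2 : HasCompactSupport (fderiv ℝ (fderiv ℝ φ)) := c1.fderiv (𝕜 := ℝ)
  obtain ⟨M1, hM1n, hM1⟩ := metb_bdd_cs h1.continuous c1
  obtain ⟨M2, hM2n, hM2⟩ := metb_bdd_cs h2.continuous c2
  obtain ⟨L0, hL0, hL0'⟩ := metb_lip_cs (hφ.of_le (by simp)) hc
  obtain ⟨L1, hL1, hL1'⟩ := metb_lip_cs (h1.of_le (by simp)) c1
  obtain ⟨L2, hL2, hL2'⟩ := metb_lip_cs (h2.of_le (by simp)) c2
  have d0 : Differentiable ℝ φ := hφ.differentiable (by simp)
  have d1 : Differentiable ℝ (fderiv ℝ φ) := h1.differentiable (by simp)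
  refine ⟨M1 + M2 + L0 + L1 + L2, by positivity, fun y => (hM1 y).trans (by linarith),
    fun y => (hM2 y).trans (by linarith), fun y ξ => ?_, fun y ξ => ?_, fun y ξ => ?_⟩
  · have := hL0' (y + ξ) y
    rw [add_sub_cancel_left] at this
    exact this.trans (mul_le_mul_of_nonneg_right (by linarith) (norm_nonneg _))
  · have := metb_tay2 d0 convex_univ hL1 (y := y) (ξ := ξ) (fun x _ => hL1' x y)
      (Set.mem_univ _) (Set.mem_univ _)
    exact this.trans (mul_le_mul_of_nonneg_right (by linarith) (by positivity))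
  · have hq : ∀ x ∈ (Set.univ : Set E), ‖fderiv ℝ φ x - fderiv ℝ φ y
        - fderiv ℝ (fderiv ℝ φ) y (x - y)‖ ≤ L2 * ‖x - y‖ ^ 2 := by
      intro x _
      have := metb_tay2 d1 convex_univ hL2 (y := y) (ξ := x - y) (fun x _ => hL2' x y)
        (Set.mem_univ _) (Set.mem_univ _)
      simpa using this
    have := metb_tay3 d0 (fderiv ℝ (fderiv ℝ φ) y) convex_univ hL2 (y := y) (ξ := ξ) hq
      (Set.mem_univ _) (Set.mem_univ _)
    exact this.trans (mul_le_mul_of_nonneg_right (by linarith) (by positivity))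

/-- the logarithmic gradient paired with a vector -/
theorem metb_grad_log {η : E → ℝ} (hη : Differentiable ℝ η) (hpos : ∀ x, 0 < η x) (y ξ : E) :
    ⟪gradient (fun y => Real.log (η y)) y, ξ⟫ = fderiv ℝ η y ξ / η y := by
  rw [gradient, InnerProductSpace.toDual_symm_apply]
  have h := ((hη y).hasFDerivAt.log (hpos y).ne').fderiv
  rw [h]
  simp [div_eq_inv_mul]

theorem metb_grad_log_cont {η : E → ℝ} (hη : ContDiff ℝ ∞ η) (hpos : ∀ x, 0 < η x) :
    Continuous (fun y => gradient (fun y => Real.log (η y)) y) := by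
  have h : ContDiff ℝ ∞ (fun y => Real.log (η y)) := hη.log (fun x => (hpos x).ne')
  have h2 : Continuous (fderiv ℝ (fun y => Real.log (η y))) := h.continuous_fderiv (by simp)
  unfold gradient
  exact (InnerProductSpace.toDual ℝ E).symm.continuous.comp h2

/-- bounds on the density on a compact convex set -/
theorem metb_eta_bounds {η : E → ℝ} (hη : ContDiff ℝ ∞ η) (hpos : ∀ x, 0 < η x) {K : Set E}
    (hK : IsCompact K) (hKc : Convex ℝ K) :
    ∃ C : ℝ, 0 ≤ C ∧ (∀ y ∈ K, ‖gradient (fun y => Real.log (η y)) y‖ ≤ C) ∧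
      (∀ y ∈ K, ∀ ξ, y + ξ ∈ K →
        |min 1 (η (y + ξ) / η y) - 1 - min 0 ⟪gradient (fun y => Real.log (η y)) y, ξ⟫|
          ≤ C * ‖ξ‖ ^ 2) ∧
      (∀ y ∈ K, ∀ ξ, y + ξ ∈ K → 1 - min 1 (η (y + ξ) / η y) ≤ C * ‖ξ‖) := by
  have d0 : Differentiable ℝ η := hη.differentiable (by simp)
  have h1 : ContDiff ℝ ∞ (fderiv ℝ η) := hη.fderiv_right (by simp)
  obtain ⟨B, hB⟩ := hK.exists_bound_of_continuousOn (metb_grad_log_cont hη hpos).continuousOn
  obtain ⟨I, hI⟩ := hK.exists_bound_of_continuousOn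
    (f := fun y => (η y)⁻¹) (hη.continuous.inv₀ (fun x => (hpos x).ne')).continuousOn
  obtain ⟨N1, hN1, hN1'⟩ := metb_lip_on (hη.of_le (by simp)) hK hKc
  obtain ⟨N2, hN2, hN2'⟩ := metb_lip_on (h1.of_le (by simp)) hK hKc
  have hI' : ∀ y ∈ K, (η y)⁻¹ ≤ max I 0 := fun y hy =>
    (le_abs_self _).trans ((hI y hy).trans (le_max_left _ _))
  have hI0 : 0 ≤ max I 0 := le_max_right _ _
  refine ⟨max B 0 + max I 0 * N2 + max I 0 * N1, by positivity, fun y hy => ?_,
    fun y hy ξ hyξ => ?_, fun y hy ξ hyξ => ?_⟩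
  · have := (hB y hy).trans (le_max_left B 0)
    have h2 : 0 ≤ max I 0 * N2 := by positivity
    have h3 : 0 ≤ max I 0 * N1 := by positivity
    linarith
  · have ht := metb_tay2 d0 hKc hN2 (y := y) (ξ := ξ) (fun x hx => hN2' x hx y hy) hy hyξ
    have e1 : min 1 (η (y + ξ) / η y) - 1 = min 0 (η (y + ξ) / η y - 1) := by
      rw [← min_sub_sub_right, sub_self]
    rw [e1, metb_grad_log d0 hpos]
    have h4 := abs_min_sub_min_le_max 0 (η (y + ξ) / η y - 1) 0 (fderiv ℝ η y ξ / η y)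
    rw [sub_self, abs_zero, max_eq_right (abs_nonneg _)] at h4
    refine h4.trans ?_
    have e2 : η (y + ξ) / η y - 1 - fderiv ℝ η y ξ / η y
        = (η y)⁻¹ * (η (y + ξ) - η y - fderiv ℝ η y ξ) := by
      have := (hpos y).ne'
      field_simp
    rw [e2, abs_mul, abs_of_pos (inv_pos.2 (hpos y))]
    rw [Real.norm_eq_abs] at ht
    calc (η y)⁻¹ * |η (y + ξ) - η y - fderiv ℝ η y ξ| ≤ max I 0 * (N2 * ‖ξ‖ ^ 2) :=
          mul_le_mul (hI' y hy) ht (abs_nonneg _) hI0
      _ = (max I 0 * N2) * ‖ξ‖ ^ 2 := by ring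
      _ ≤ _ := by
          refine mul_le_mul_of_nonneg_right ?_ (by positivity)
          have h2 : 0 ≤ max B 0 := le_max_right _ _
          have h3 : 0 ≤ max I 0 * N1 := by positivity
          linarith
  · have ht := hN1' (y + ξ) hyξ y hy
    rw [add_sub_cancel_left, Real.norm_eq_abs] at ht
    have e1 : 1 - min 1 (η (y + ξ) / η y) ≤ |η (y + ξ) / η y - 1| := by
      rcases le_total 1 (η (y + ξ) / η y) with h | h
      · rw [min_eq_left h]; simp
      · rw [min_eq_right h, abs_sub_comm]; exact le_abs_self _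
    refine e1.trans ?_
    have e2 : η (y + ξ) / η y - 1 = (η y)⁻¹ * (η (y + ξ) - η y) := by
      have := (hpos y).ne'
      field_simp
    rw [e2, abs_mul, abs_of_pos (inv_pos.2 (hpos y))]
    calc (η y)⁻¹ * |η (y + ξ) - η y| ≤ max I 0 * (N1 * ‖ξ‖) :=
          mul_le_mul (hI' y hy) ht (abs_nonneg _) hI0
      _ = (max I 0 * N1) * ‖ξ‖ := by ring
      _ ≤ _ := by
          refine mul_le_mul_of_nonneg_right ?_ (by positivity)
          have h2 : 0 ≤ max B 0 := le_max_right _ _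
          have h3 : 0 ≤ max I 0 * N2 := by positivity
          linarith

end pointwise

end Claimed.Agent.R259
end

/- ===== packed: Claimed.Agent.R259.S7InfoDefs ===== -/
section
/-
Row 259 (S0499), section 7: definitions for the information inequality `s7_info`.  Owner: helper79.

* `gdC C` = density of the centred Gaussian law with covariance matrix `C`;
* `obsF y z` = density at `z` of the observation `Z_T = h_T(R(y)) G ∼ N(0, C_T(ρ(y)))`;
* `tV` = the test vector `(Re tr(H_i Q))_i` of a bounded test;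
* `valZ`, `lowZ` = the value of the test after disintegration in `z`.
-/
set_option autoImplicit false

open MeasureTheory ProbabilityTheory
open scoped BigOperators Matrix
open Claimed.Agent.R260 (Mx mxFun mxSchur mxSq mxIP mxEig mxU mxRot)

namespace Claimed.Agent.R259

noncomputable section

variable {n : ℕ}

/-- density of the centred Gaussian law with covariance matrix `C` -/
def gdC (C : Mx n) (z : EE n) : ℝ :=
  (Real.sqrt ((2 * Real.pi) ^ n * C.det))⁻¹ * Real.exp (-(inner ℝ z (mv C⁻¹ z)) / 2)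

/-- density at `z` of the observation `Z_T`, given `Y = y` -/
def HierData.obsF (X : HierData n) (k : ℕ) (L T : ℝ) (y z : EE n) : ℝ :=
  gdC (obsC L T (X.rho k y)) z

/-- the vector `(Re tr(H_i Q))_i` -/
def trV (H : Fin n → Mx n) (Qm : CMx n) : EE n :=
  WithLp.toLp 2 fun i => (Matrix.trace (toC (H i) * Qm)).re

/-- the Ornstein-Uhlenbeck value of a vector field `V` against a density `l` at time `u`:
`∫∫ l(x) (2⟨x - α x_u, V(x_u)⟩ - |V(x_u)|²) γ(dx) γ(dg)` -/
def ouVal (l : EE n → ℝ) (V : EE n → EE n) (u : ℝ) : ℝ :=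
  ∫ p : EE n × EE n, l p.1 * (2 * inner ℝ (p.1 - Real.exp (-u) • ouV u p.1 p.2) (V (ouV u p.1 p.2))
      - ‖V (ouV u p.1 p.2)‖ ^ 2) ∂((gam n).prod (gam n))

namespace Frozen

variable {X : HierData n} {k : ℕ} {h t ε : ℝ} (F : Frozen X k h t ε)

/-- value of the test at `(u,T)` on the slice `Z_T = z`; `ω = (o, G')` -/
def valZ (L : ℝ) (P : Tst) (u T : ℝ) (z : EE n) : ℝ :=
  letI := F.mΩ
  ∫ ω : F.Ω × EE n,
    X.obsF k L T (F.Yt ω.1) z *
      F.B.pay (F.Dt ω.1) (F.N ω.1 - Real.exp (-u) • ouV u (F.N ω.1) ω.2)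
        (F.B.tQ P u T (F.Dt ω.1) (ouV u (F.N ω.1) ω.2) z)
    ∂(F.P.prod (gam n))

/-- `∫_{u0}^{u1} κ(u) valZ du` -/
def lowZ (L u0 u1 : ℝ) (P : Tst) (T : ℝ) (z : EE n) : ℝ :=
  ∫ u in Set.Icc u0 u1, kap u * F.valZ L P u T z

end Frozen

end

/-- generates the equation lemmas of the definitions above in this file (rule 6: unique names) -/
theorem s7infodefs_eqns_cite : True := by
  have := @gdC.eq_1
  have := @HierData.obsF.eq_1
  have := @trV.eq_1
  have := @ouVal.eq_1
  have := @Frozen.valZ.eq_1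
  have := @Frozen.lowZ.eq_1
  trivial

end Claimed.Agent.R259
end

/- ===== packed: Claimed.Agent.R259.S7FishA ===== -/
section
/-
Row 259 (S0499), section 7, package L-S7-FISH-A (block A of S7Fish.lean): matrix facts on `C_T(ρ)`.
Prover: helper65.  No sorry.  Never imports S7Fish.lean.
-/
set_option autoImplicit false

open MeasureTheory ProbabilityTheory
open scoped BigOperators Matrix
open Claimed.Agent.R260 (Mx mxFun mxSchur mxSq mxIP mxEig mxU mxRot)

namespace Claimed.Agent.R259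

variable {n : ℕ}

/-! ### symmetric / positive semidefinite matrices -/

theorem s7fa_isSymm {ρ : Mx n} (hρ : ρ.PosSemidef) : ρ.IsSymm := by
  have h := hρ.isHermitian
  unfold Matrix.IsHermitian at h
  rwa [Matrix.conjTranspose_eq_transpose_of_trivial] at h

theorem s7fa_eig_nonneg {ρ : Mx n} (hρ : ρ.PosSemidef) (i : Fin n) : 0 ≤ mxEig ρ i := by
  unfold Claimed.Agent.R260.mxEig
  rw [dif_pos (s7fa_isSymm hρ)]
  exact hρ.eigenvalues_nonneg i

theorem s7fa_eig_pos {ρ : Mx n} (hρ : ρ.PosDef) (i : Fin n) : 0 < mxEig ρ i := by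
  unfold Claimed.Agent.R260.mxEig
  rw [dif_pos (s7fa_isSymm hρ.posSemidef)]
  exact hρ.eigenvalues_pos i

/-- the scalar function `a ↦ 1 + T a / (1 + T a / L)` -/
noncomputable def s7faC (L T a : ℝ) : ℝ := 1 + T * (a * (1 + T / L * a)⁻¹)

theorem s7fa_den_pos {L T a : ℝ} (hL : 1 ≤ L) (hT : 0 < T) (ha : 0 ≤ a) : 0 < 1 + T / L * a := by
  have : 0 ≤ T / L * a := by positivity
  linarith

theorem s7faC_ge {L T a : ℝ} (hL : 1 ≤ L) (hT : 0 < T) (ha : 0 ≤ a) : 1 ≤ s7faC L T a := by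
  unfold s7faC
  have := s7fa_den_pos hL hT ha
  have : 0 ≤ T * (a * (1 + T / L * a)⁻¹) := by positivity
  linarith

theorem s7faC_le {L T a : ℝ} (hL : 1 ≤ L) (hT : 0 < T) (ha : 0 ≤ a) : s7faC L T a ≤ 1 + L := by
  unfold s7faC
  have hd := s7fa_den_pos hL hT ha
  have hL0 : 0 < L := by linarith
  have : T * (a * (1 + T / L * a)⁻¹) ≤ L := by
    rw [← mul_assoc, ← div_eq_mul_inv, div_le_iff₀ hd]
    have : L * (1 + T / L * a) = L + T * a := by field_simp
    rw [this]
    linarith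
  linarith

theorem s7fa_obsE {L T : ℝ} (hL : 1 ≤ L) (hT : 0 < T) {ρ : Mx n} (hρ : ρ.PosSemidef) :
    obsE L T ρ = mxFun (fun a => (1 + T / L * a)⁻¹) ρ := by
  have h1 : (1 : Mx n) + (T / L) • ρ = mxFun (fun a => 1 + T / L * a) ρ := by
    rw [Claimed.Agent.R260.mxFun_add (fun _ => 1) (fun a => T / L * a),
      Claimed.Agent.R260.mxFun_const, Claimed.Agent.R260.mxFun_smul (T / L) (fun a => a),
      Claimed.Agent.R260.mxFun_id (s7fa_isSymm hρ), one_smul]
  unfold obsE
  rw [h1]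
  exact Matrix.inv_eq_right_inv (Claimed.Agent.R260.mxFun_mul_inv
    (f := fun a => 1 + T / L * a) fun i => (s7fa_den_pos hL hT (s7fa_eig_nonneg hρ i)).ne')

theorem s7fa_obsC {L T : ℝ} (hL : 1 ≤ L) (hT : 0 < T) {ρ : Mx n} (hρ : ρ.PosSemidef) :
    obsC L T ρ = mxFun (s7faC L T) ρ := by
  unfold obsC
  rw [s7fa_obsE hL hT hρ]
  have h2 : s7faC L T = fun a => (fun _ => (1 : ℝ)) a + (fun a => T * (a * (1 + T / L * a)⁻¹)) a := by
    funext a
    rfl
  rw [h2, Claimed.Agent.R260.mxFun_add, Claimed.Agent.R260.mxFun_const, one_smul,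
    Claimed.Agent.R260.mxFun_smul T (fun a => a * (1 + T / L * a)⁻¹),
    Claimed.Agent.R260.mxFun_mul (fun a => a) (fun a => (1 + T / L * a)⁻¹),
    Claimed.Agent.R260.mxFun_id (s7fa_isSymm hρ)]

theorem s7fa_obsC_inv {L T : ℝ} (hL : 1 ≤ L) (hT : 0 < T) {ρ : Mx n} (hρ : ρ.PosSemidef) :
    (obsC L T ρ)⁻¹ = mxFun (fun a => (s7faC L T a)⁻¹) ρ := by
  rw [s7fa_obsC hL hT hρ]
  refine Matrix.inv_eq_right_inv (Claimed.Agent.R260.mxFun_mul_inv fun i => ?_)
  have := s7faC_ge hL hT (s7fa_eig_nonneg hρ i)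
  linarith

theorem s7fa_obsC_posDef {L T : ℝ} (hL : 1 ≤ L) (hTp : 0 < T) {ρ : Mx n} (hρ : ρ.PosSemidef) :
    (obsC L T ρ).PosDef ∧ (obsC L T ρ - 1).PosSemidef
      ∧ ((1 + L) • (1 : Mx n) - obsC L T ρ).PosSemidef := by
  rw [s7fa_obsC hL hTp hρ]
  refine ⟨Claimed.Agent.R260.mxFun_posDef fun i => ?_, ?_, ?_⟩
  · have := s7faC_ge hL hTp (s7fa_eig_nonneg hρ i)
    linarith
  · have h1 : mxFun (s7faC L T) ρ - 1 = mxFun (fun a => s7faC L T a - 1) ρ := by
      rw [Claimed.Agent.R260.mxFun_sub (s7faC L T) (fun _ => 1), Claimed.Agent.R260.mxFun_const,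
        one_smul]
    rw [h1]
    refine Claimed.Agent.R260.mxFun_posSemidef fun i => ?_
    have := s7faC_ge hL hTp (s7fa_eig_nonneg hρ i)
    linarith
  · have h1 : (1 + L) • (1 : Mx n) - mxFun (s7faC L T) ρ = mxFun (fun a => (1 + L) - s7faC L T a) ρ := by
      rw [Claimed.Agent.R260.mxFun_sub (fun _ => 1 + L) (s7faC L T), Claimed.Agent.R260.mxFun_const]
    rw [h1]
    refine Claimed.Agent.R260.mxFun_posSemidef fun i => ?_
    have := s7faC_le hL hTp (s7fa_eig_nonneg hρ i)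
    linarith

theorem s7fa_hT_sqrt {L T a : ℝ} (ha : 0 ≤ a) :
    hT L T (Real.sqrt a) = Real.sqrt (s7faC L T a) := by
  unfold hT fL s7faC
  rw [Real.sq_sqrt ha]
  congr 2
  rw [div_eq_mul_inv, mul_assoc]
  congr 3
  ring

/-- `h_T(ρ^{1/2})² = C_T(ρ)` -/
theorem s7fa_hT_sq {L T : ℝ} (hL : 1 ≤ L) (hTp : 0 < T) {ρ : Mx n} (hρ : ρ.PosSemidef) :
    (mxFun (hT L T) (mxFun Real.sqrt ρ)).PosDef ∧
      mxFun (hT L T) (mxFun Real.sqrt ρ) * mxFun (hT L T) (mxFun Real.sqrt ρ) = obsC L T ρ := by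
  have h1 : mxFun (hT L T) (mxFun Real.sqrt ρ) = mxFun (fun a => Real.sqrt (s7faC L T a)) ρ := by
    rw [Claimed.Agent.R260.mxFun_comp]
    exact Claimed.Agent.R260.mxFun_congr fun i => s7fa_hT_sqrt (s7fa_eig_nonneg hρ i)
  rw [h1]
  refine ⟨Claimed.Agent.R260.mxFun_posDef fun i => ?_, ?_⟩
  · have := s7faC_ge hL hTp (s7fa_eig_nonneg hρ i)
    exact Real.sqrt_pos.2 (by linarith)
  · rw [← Claimed.Agent.R260.mxFun_mul, s7fa_obsC hL hTp hρ]
    refine Claimed.Agent.R260.mxFun_congr fun i => ?_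
    have := s7faC_ge hL hTp (s7fa_eig_nonneg hρ i)
    exact Real.mul_self_sqrt (by linarith)

/-! ### `ρ` is positive semidefinite -/

theorem s7fa_red_psd {d : ℕ} (t : TT n (d + 1)) : (red t).PosSemidef := by
  unfold red
  have := Matrix.posSemidef_self_mul_conjTranspose (flat t)
  rwa [Matrix.conjTranspose_eq_transpose_of_trivial] at this

theorem s7fa_rho_psd (X : HierData n) (k : ℕ) (y : EE n) : (X.rho k y).PosSemidef := by
  unfold HierData.rho
  refine Matrix.PosSemidef.smul ?_ ?_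
  · exact Matrix.posSemidef_sum _ fun l _ => s7fa_red_psd _
  · unfold HierData.nrm
    have := X.I_pos
    positivity

/-! ### `mv` -/

/-- `mv` as a linear map -/
noncomputable def s7faL (S : Mx n) : EE n →ₗ[ℝ] EE n := Matrix.toEuclideanLin S

theorem s7faL_apply (S : Mx n) (v : EE n) : s7faL S v = mv S v := rfl

theorem s7faL_det (S : Mx n) : LinearMap.det (s7faL S) = S.det := by
  unfold s7faL
  rw [Matrix.toEuclideanLin_eq_toLin_orthonormal, LinearMap.det_toLin]

theorem s7fa_mv_continuous (S : Mx n) : Continuous (mv S) :=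
  (s7faL S).continuous_of_finiteDimensional

theorem s7fa_mv_mul (A B : Mx n) (v : EE n) : mv (A * B) v = mv A (mv B v) := by
  unfold mv
  simp [Matrix.mulVec_mulVec]

theorem s7fa_mv_one (v : EE n) : mv (1 : Mx n) v = v := by
  unfold mv
  simp

theorem s7fa_inner_mv (A : Mx n) (u v : EE n) :
    inner ℝ u (mv A v) = (fun i => u i) ⬝ᵥ (A *ᵥ fun i => v i) := by
  unfold mv
  simp [PiLp.inner_apply, dotProduct, mul_comm]

theorem s7fa_mv_inner {M : Mx n} (hM : M.IsSymm) (u v : EE n) :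
    inner ℝ (mv M u) v = inner ℝ u (mv M v) := by
  rw [real_inner_comm, s7fa_inner_mv, s7fa_inner_mv, Matrix.dotProduct_mulVec, ← Matrix.mulVec_transpose,
    hM, dotProduct_comm]

theorem s7fa_inv_isSymm {S : Mx n} (hS : S.IsSymm) : (S⁻¹).IsSymm := by
  unfold Matrix.IsSymm
  rw [Matrix.transpose_nonsing_inv, hS]

/-! ### linear change of variables -/

theorem s7fa_volume_map {S : Mx n} (hdet : S.det ≠ 0) :
    (volume : Measure (EE n)).map (mv S) = ENNReal.ofReal |S.det|⁻¹ • volume := by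
  have h := Measure.map_linearMap_addHaar_eq_smul_addHaar (volume : Measure (EE n))
    (f := s7faL S) (by rw [s7faL_det]; exact hdet)
  rw [s7faL_det, abs_inv] at h
  exact h

theorem s7fa_dm_map {ρ : EE n → ℝ} (hm : Measurable ρ) {S : Mx n} (hdet : S.det ≠ 0) :
    (dm ρ).map (mv S) = dm fun z => |S.det|⁻¹ * ρ (mv S⁻¹ z) := by
  have hT : Measurable (mv S) := (s7fa_mv_continuous S).measurable
  have hS' : Measurable (mv S⁻¹) := (s7fa_mv_continuous S⁻¹).measurable
  have hunit : IsUnit S.det := isUnit_iff_ne_zero.2 hdet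
  ext s hs
  rw [Measure.map_apply hT hs]
  unfold dm
  rw [withDensity_apply _ (hT hs), withDensity_apply _ hs]
  set G : EE n → ENNReal := s.indicator fun y => ENNReal.ofReal (ρ (mv S⁻¹ y)) with hG
  have hGm : Measurable G := (hm.comp hS').ennreal_ofReal.indicator hs
  have h1 : ∫⁻ x in mv S ⁻¹' s, ENNReal.ofReal (ρ x) = ∫⁻ x, G (mv S x) := by
    rw [← lintegral_indicator (hT hs)]
    refine lintegral_congr fun x => ?_
    have e : mv S⁻¹ (mv S x) = x := by
      rw [← s7fa_mv_mul, Matrix.nonsing_inv_mul _ hunit, s7fa_mv_one]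
    by_cases hx : mv S x ∈ s
    · rw [Set.indicator_of_mem (show x ∈ mv S ⁻¹' s from hx), hG, Set.indicator_of_mem hx, e]
    · rw [Set.indicator_of_notMem (show x ∉ mv S ⁻¹' s from hx), hG, Set.indicator_of_notMem hx]
  have hmS : Measurable fun y => ENNReal.ofReal (ρ (mv S⁻¹ y)) := (hm.comp hS').ennreal_ofReal
  rw [h1, ← lintegral_map hGm hT, s7fa_volume_map hdet, lintegral_smul_measure, hG,
    lintegral_indicator hs, smul_eq_mul, ← lintegral_const_mul _ hmS]
  refine lintegral_congr fun y => ?_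
  rw [ENNReal.ofReal_mul (by positivity)]

theorem s7fa_gk_eq {S : Mx n} (hS : S.PosDef) (z : EE n) :
    |S.det|⁻¹ * gk (1 : ℝ) (mv S⁻¹ z) = gdC (S * S) z := by
  have hsym : S.IsSymm := s7fa_isSymm hS.posSemidef
  have hdet : 0 < S.det := hS.det_pos
  have h1 : ‖mv S⁻¹ z‖ ^ 2 = inner ℝ z (mv (S * S)⁻¹ z) := by
    rw [← real_inner_self_eq_norm_sq, s7fa_mv_inner (s7fa_inv_isSymm hsym), ← s7fa_mv_mul,
      Matrix.mul_inv_rev]
  have hpi : (0 : ℝ) < 2 * Real.pi := by positivity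
  have h2 : (2 * Real.pi * 1) ^ (-(Module.finrank ℝ (EE n) : ℝ) / 2) =
      (Real.sqrt ((2 * Real.pi) ^ n))⁻¹ := by
    rw [finrank_euclideanSpace, Fintype.card_fin, mul_one, Real.sqrt_eq_rpow, ← Real.rpow_natCast,
      ← Real.rpow_mul hpi.le, ← Real.rpow_neg hpi.le]
    congr 1
    ring
  unfold gk gdC
  rw [h1, h2, Matrix.det_mul, Real.sqrt_mul (by positivity), Real.sqrt_mul_self hdet.le,
    abs_of_pos hdet, mul_inv]
  ring_nf

/-- the law of `S G` has the density `gdC (S²)` (linear change of variables) -/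
theorem s7fa_gdC_map {S : Mx n} (hS : S.PosDef) :
    (gam n).map (fun G => mv S G) = dm (gdC (S * S)) := by
  have hm : Measurable (gk (1 : ℝ) : EE n → ℝ) := by
    unfold gk
    fun_prop
  unfold gam
  rw [show (fun G => mv S G) = mv S from rfl, s7fa_dm_map hm hS.det_pos.ne']
  congr 1
  funext z
  exact s7fa_gk_eq hS z

/-! ### the observation density -/

theorem s7fa_obsF_map (X : HierData n) (k : ℕ) {L T : ℝ} (hL : 1 ≤ L) (hTp : 0 < T) (y : EE n) :
    (gam n).map (fun G => mv (mxFun (hT L T) (X.R k y)) G) = dm (X.obsF k L T y) := by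
  obtain ⟨h1, h2⟩ := s7fa_hT_sq hL hTp (s7fa_rho_psd X k y)
  have h3 := s7fa_gdC_map h1
  rw [h2] at h3
  exact h3

theorem s7fa_gdC_pos {C : Mx n} (hC : C.PosDef) (z : EE n) : 0 < gdC C z := by
  unfold gdC
  have := hC.det_pos
  positivity

theorem s7fa_obsF_pos (X : HierData n) (k : ℕ) {L T : ℝ} (hL : 1 ≤ L) (hTp : 0 < T) (y z : EE n) :
    0 < X.obsF k L T y z :=
  s7fa_gdC_pos (s7fa_obsC_posDef hL hTp (s7fa_rho_psd X k y)).1 z

theorem s7fa_obsC_det_ge {L T : ℝ} (hL : 1 ≤ L) (hTp : 0 < T) {ρ : Mx n} (hρ : ρ.PosSemidef) :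
    1 ≤ (obsC L T ρ).det := by
  rw [s7fa_obsC hL hTp hρ, Claimed.Agent.R260.mxFun_det]
  calc (1 : ℝ) = ∏ _i : Fin n, (1 : ℝ) := by simp
    _ ≤ ∏ i, s7faC L T (mxEig ρ i) :=
        Finset.prod_le_prod (fun _ _ => zero_le_one) fun i _ => s7faC_ge hL hTp (s7fa_eig_nonneg hρ i)

theorem s7fa_norm_sq (z : EE n) : ‖z‖ ^ 2 = (fun i => z i) ⬝ᵥ (fun i => z i) := by
  rw [EuclideanSpace.norm_sq_eq]
  simp [dotProduct, sq]

theorem s7fa_obsC_inv_quad {L T : ℝ} (hL : 1 ≤ L) (hTp : 0 < T) {ρ : Mx n} (hρ : ρ.PosSemidef)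
    (z : EE n) : ‖z‖ ^ 2 / (1 + L) ≤ inner ℝ z (mv (obsC L T ρ)⁻¹ z) := by
  rw [s7fa_inner_mv, s7fa_obsC_inv hL hTp hρ]
  have h1 := Claimed.Agent.R260.mxFun_quad_mono (A := ρ) (f := fun _ => (1 + L)⁻¹)
    (g := fun a => (s7faC L T a)⁻¹) (fun i => by
      have h2 := s7faC_ge hL hTp (s7fa_eig_nonneg hρ i)
      have h3 := s7faC_le hL hTp (s7fa_eig_nonneg hρ i)
      exact inv_anti₀ (by linarith) h3) (fun i => z i)
  refine le_trans (le_of_eq ?_) h1
  rw [Claimed.Agent.R260.mxFun_const, Matrix.smul_mulVec, Matrix.one_mulVec, dotProduct_smul,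
    ← s7fa_norm_sq, smul_eq_mul, div_eq_inv_mul]

theorem s7fa_obsF_le (X : HierData n) (k : ℕ) {L T : ℝ} (hL : 1 ≤ L) (hTp : 0 < T) (y z : EE n) :
    X.obsF k L T y z ≤ Real.exp (-‖z‖ ^ 2 / (2 * (1 + L))) := by
  have hρ := s7fa_rho_psd X k y
  have hdet := s7fa_obsC_det_ge hL hTp hρ
  have hq := s7fa_obsC_inv_quad hL hTp hρ z
  unfold HierData.obsF gdC
  have hpi : (1 : ℝ) ≤ (2 * Real.pi) ^ n := by
    refine one_le_pow₀ ?_
    have := Real.pi_gt_three
    linarith
  have h1 : 1 ≤ Real.sqrt ((2 * Real.pi) ^ n * (obsC L T (X.rho k y)).det) := by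
    rw [Real.one_le_sqrt]
    nlinarith
  have h2 : (Real.sqrt ((2 * Real.pi) ^ n * (obsC L T (X.rho k y)).det))⁻¹ ≤ 1 := inv_le_one_of_one_le₀ h1
  have h3 : Real.exp (-(inner ℝ z (mv (obsC L T (X.rho k y))⁻¹ z)) / 2) ≤
      Real.exp (-‖z‖ ^ 2 / (2 * (1 + L))) := by
    refine Real.exp_le_exp.2 ?_
    have e : -‖z‖ ^ 2 / (2 * (1 + L)) = -(‖z‖ ^ 2 / (1 + L)) / 2 := by
      have : (1 + L) ≠ 0 := by linarith
      field_simp
    rw [e]
    linarith
  calc _ ≤ 1 * Real.exp (-(inner ℝ z (mv (obsC L T (X.rho k y))⁻¹ z)) / 2) :=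
        mul_le_mul_of_nonneg_right h2 (Real.exp_pos _).le
    _ ≤ _ := by rw [one_mul]; exact h3

/-! ### continuity -/

theorem s7fa_flat_cont {d : ℕ} {F : EE n → TT n (d + 1)} (hF : Continuous F) :
    Continuous fun y => flat (F y) := by
  refine continuous_matrix fun i β => ?_
  exact (EuclideanSpace.proj (Fin.cons i β : Idx n (d + 1)) : TT n (d + 1) →L[ℝ] ℝ).continuous.comp hF

theorem s7fa_rho_cont (X : HierData n) (k : ℕ) : Continuous fun y => X.rho k y := by
  unfold HierData.rho red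
  have h1 : Continuous fun y => ∑ l ∈ Finset.Ico k (2 * k), flat (X.T l y) * (flat (X.T l y))ᵀ := by
    refine continuous_finsetSum _ fun l _ => ?_
    have h := s7fa_flat_cont (X.T_test l).1.continuous
    exact h.matrix_mul h.matrix_transpose
  exact h1.const_smul (X.nrm k)

theorem s7faC_max_cont {L T : ℝ} (hL : 1 ≤ L) (hTp : 0 < T) :
    Continuous fun a : ℝ => s7faC L T (max a 0) := by
  unfold s7faC
  have hd : ∀ a : ℝ, 1 + T / L * max a 0 ≠ 0 := fun a =>
    (s7fa_den_pos hL hTp (le_max_right a 0)).ne'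
  have h1 : Continuous fun a : ℝ => (1 + T / L * max a 0)⁻¹ :=
    Continuous.inv₀ (by fun_prop) hd
  fun_prop

theorem s7fa_symm_half {ρ : Mx n} (hρ : ρ.IsSymm) : (1 / 2 : ℝ) • (ρ + ρᵀ) = ρ := by
  rw [hρ, ← two_smul ℝ ρ, smul_smul]
  norm_num

theorem s7fa_mxFun_cont {α : Type} [TopologicalSpace α] {f : ℝ → ℝ} (hf : Continuous f)
    {A : α → Mx n} (hA : Continuous A) (hs : ∀ a, (A a).IsSymm) :
    Continuous fun a => mxFun f (A a) := by
  have h1 : Continuous fun a => mxFun f ((1 / 2 : ℝ) • (A a + (A a)ᵀ)) :=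
    (Claimed.Agent.R260.mxFun_continuous (m := n) hf).comp hA
  have h2 : (fun a => mxFun f ((1 / 2 : ℝ) • (A a + (A a)ᵀ))) = fun a => mxFun f (A a) := by
    funext a
    rw [s7fa_symm_half (hs a)]
  rwa [h2] at h1

theorem s7fa_obsC_cont (X : HierData n) (k : ℕ) {L T : ℝ} (hL : 1 ≤ L) (hTp : 0 < T) :
    Continuous fun y => obsC L T (X.rho k y) := by
  have h2 : (fun y => obsC L T (X.rho k y)) =
      fun y => mxFun (fun a => s7faC L T (max a 0)) (X.rho k y) := by
    funext y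
    have hρ := s7fa_rho_psd X k y
    rw [s7fa_obsC hL hTp hρ]
    refine Claimed.Agent.R260.mxFun_congr fun i => ?_
    rw [max_eq_left (s7fa_eig_nonneg hρ i)]
  rw [h2]
  exact s7fa_mxFun_cont (s7faC_max_cont hL hTp) (s7fa_rho_cont X k)
    fun y => s7fa_isSymm (s7fa_rho_psd X k y)

theorem s7fa_obsC_inv_cont (X : HierData n) (k : ℕ) {L T : ℝ} (hL : 1 ≤ L) (hTp : 0 < T) :
    Continuous fun y => (obsC L T (X.rho k y))⁻¹ := by
  have h0 : Continuous fun a : ℝ => (s7faC L T (max a 0))⁻¹ :=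
    Continuous.inv₀ (s7faC_max_cont hL hTp) fun a => by
      have := s7faC_ge hL hTp (le_max_right a 0)
      linarith
  have h2 : (fun y => (obsC L T (X.rho k y))⁻¹) =
      fun y => mxFun (fun a => (s7faC L T (max a 0))⁻¹) (X.rho k y) := by
    funext y
    have hρ := s7fa_rho_psd X k y
    rw [s7fa_obsC_inv hL hTp hρ]
    refine Claimed.Agent.R260.mxFun_congr fun i => ?_
    rw [max_eq_left (s7fa_eig_nonneg hρ i)]
  rw [h2]
  exact s7fa_mxFun_cont h0 (s7fa_rho_cont X k) fun y => s7fa_isSymm (s7fa_rho_psd X k y)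

theorem s7fa_mv_cont2 {α : Type} [TopologicalSpace α] {M : α → Mx n} {v : α → EE n}
    (hM : Continuous M) (hv : Continuous v) : Continuous fun a => mv (M a) (v a) := by
  unfold mv
  refine (PiLp.continuous_toLp 2 _).comp ?_
  refine Continuous.matrix_mulVec hM ?_
  exact continuous_pi fun i => (EuclideanSpace.proj i : EE n →L[ℝ] ℝ).continuous.comp hv

theorem s7fa_obsF_cont (X : HierData n) (k : ℕ) {L T : ℝ} (hL : 1 ≤ L) (hTp : 0 < T) :
    Continuous fun p : EE n × EE n => X.obsF k L T p.1 p.2 := by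
  unfold HierData.obsF gdC
  have hC : Continuous fun p : EE n × EE n => obsC L T (X.rho k p.1) :=
    (s7fa_obsC_cont X k hL hTp).comp continuous_fst
  have hCi : Continuous fun p : EE n × EE n => (obsC L T (X.rho k p.1))⁻¹ :=
    (s7fa_obsC_inv_cont X k hL hTp).comp continuous_fst
  have h1 : Continuous fun p : EE n × EE n =>
      Real.sqrt ((2 * Real.pi) ^ n * (obsC L T (X.rho k p.1)).det) :=
    Real.continuous_sqrt.comp (continuous_const.mul hC.matrix_det)
  have h2 : Continuous fun p : EE n × EE n =>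
      (Real.sqrt ((2 * Real.pi) ^ n * (obsC L T (X.rho k p.1)).det))⁻¹ := by
    refine Continuous.inv₀ h1 fun p => ?_
    have hdet := s7fa_obsC_det_ge hL hTp (s7fa_rho_psd X k p.1)
    have : 0 < (2 * Real.pi) ^ n * (obsC L T (X.rho k p.1)).det := by positivity
    exact (Real.sqrt_pos.2 this).ne'
  have h3 : Continuous fun p : EE n × EE n => inner ℝ p.2 (mv (obsC L T (X.rho k p.1))⁻¹ p.2) :=
    continuous_snd.inner (s7fa_mv_cont2 hCi continuous_snd)
  exact h2.mul (Real.continuous_exp.comp (h3.neg.div_const 2))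

end Claimed.Agent.R259
end

/- ===== packed: Claimed.Agent.R259.S7FishC ===== -/
section
/-
Row 259 (S0499), section 7, package L-S7-FISH-C (block C of S7Fish.lean): the Gaussian variance identity
`∫ gdC C z ((⟨z, C⁻¹DC⁻¹z⟩ - tr(C⁻¹D))/2)² dz = ½ tr(C⁻¹DC⁻¹D)`.
Prover: helper65.  No sorry.  Never imports S7Fish.lean.
-/
set_option autoImplicit false

open MeasureTheory ProbabilityTheory
open scoped BigOperators Matrix
open Claimed.Agent.R260 (Mx mxFun mxSchur mxSq mxIP mxEig mxU mxRot PG C1P pd gk_ibp)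

namespace Claimed.Agent.R259

variable {n : ℕ}

/-! ### moments of the standard Gaussian -/

theorem s7fc_C1P_coord (r : Fin n) : C1P (fun x : EE n => x r) := by
  have e : (fun x : EE n => x r) = (EuclideanSpace.proj r : EE n →L[ℝ] ℝ) := by
    ext x; rfl
  refine Claimed.Agent.R260.C1L.toC1P ⟨?_, ‖(EuclideanSpace.proj r : EE n →L[ℝ] ℝ)‖, fun x => ?_⟩
  · rw [e]; exact ContinuousLinearMap.contDiff _
  · rw [e, ContinuousLinearMap.fderiv]

theorem s7fc_PG_const (c : ℝ) : PG (fun _ : EE n => c) :=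
  ⟨measurable_const, |c|, 0, fun x => by simp⟩

theorem s7fc_PG_coord (r : Fin n) : PG (fun x : EE n => x r) := Claimed.Agent.R260.gk_PG_coord r

/-- Kronecker symbol -/
def s7fcD (i j : Fin n) : ℝ := if i = j then 1 else 0

theorem s7fc_m2 (i j : Fin n) : ∫ x : EE n, x i * x j ∂(stdGaussian (EE n)) = s7fcD i j := by
  have h := gk_ibp (s7fc_C1P_coord j) i
  rw [h]
  simp_rw [Claimed.Agent.R260.gk_pd_coord]
  simp [s7fcD]

theorem s7fc_m4 (i j k l : Fin n) :
    ∫ x : EE n, x i * (x j * (x k * x l)) ∂(stdGaussian (EE n)) =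
      s7fcD i j * s7fcD k l + s7fcD i k * s7fcD j l + s7fcD i l * s7fcD j k := by
  have hkl := (s7fc_C1P_coord k).mul (s7fc_C1P_coord l)
  have h := gk_ibp ((s7fc_C1P_coord j).mul hkl) i
  rw [h]
  have e : ∀ x : EE n, pd i (fun x : EE n => x j * (x k * x l)) x =
      s7fcD i j * (x k * x l) + (s7fcD i k * (x j * x l) + s7fcD i l * (x j * x k)) := by
    intro x
    rw [Claimed.Agent.R260.gk_pd_mul (s7fc_C1P_coord j).1 hkl.1,
      Claimed.Agent.R260.gk_pd_mul (s7fc_C1P_coord k).1 (s7fc_C1P_coord l).1]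
    simp only [Claimed.Agent.R260.gk_pd_coord, s7fcD]
    ring
  simp_rw [e]
  have i1 : ∀ (c : ℝ) (a b : Fin n), Integrable (fun x : EE n => c * (x a * x b)) (stdGaussian (EE n)) :=
    fun c a b => ((s7fc_PG_const c).mul ((s7fc_PG_coord a).mul (s7fc_PG_coord b))).integrable
  rw [integral_add (i1 _ _ _) ((i1 _ _ _).fun_add (i1 _ _ _)), integral_add (i1 _ _ _) (i1 _ _ _),
    integral_const_mul, integral_const_mul, integral_const_mul, s7fc_m2, s7fc_m2, s7fc_m2]
  ring

/-- the centred products -/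
def s7fcW (i j : Fin n) (x : EE n) : ℝ := x i * x j - s7fcD i j

theorem s7fc_PG_W (i j : Fin n) : PG (s7fcW i j) := by
  have h := ((s7fc_PG_coord i).mul (s7fc_PG_coord j)).add (s7fc_PG_const (n := n) (-(s7fcD i j)))
  exact h

theorem s7fc_WW (i j k l : Fin n) :
    ∫ x : EE n, s7fcW i j x * s7fcW k l x ∂(stdGaussian (EE n)) =
      s7fcD i k * s7fcD j l + s7fcD i l * s7fcD j k := by
  have e : ∀ x : EE n, s7fcW i j x * s7fcW k l x =
      x i * (x j * (x k * x l)) + ((-(s7fcD k l)) * (x i * x j) + ((-(s7fcD i j)) * (x k * x l)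
        + s7fcD i j * s7fcD k l)) := by
    intro x
    unfold s7fcW
    ring
  simp_rw [e]
  have i1 : ∀ (c : ℝ) (a b : Fin n), Integrable (fun x : EE n => c * (x a * x b)) (stdGaussian (EE n)) :=
    fun c a b => ((s7fc_PG_const c).mul ((s7fc_PG_coord a).mul (s7fc_PG_coord b))).integrable
  have i4 : Integrable (fun x : EE n => x i * (x j * (x k * x l))) (stdGaussian (EE n)) :=
    ((s7fc_PG_coord i).mul ((s7fc_PG_coord j).mul ((s7fc_PG_coord k).mul (s7fc_PG_coord l)))).integrable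
  have i0 : Integrable (fun _ : EE n => s7fcD i j * s7fcD k l) (stdGaussian (EE n)) := integrable_const _
  rw [integral_add i4 ((i1 _ _ _).fun_add ((i1 _ _ _).fun_add i0)), integral_add (i1 _ _ _) ((i1 _ _ _).fun_add i0),
    integral_add (i1 _ _ _) i0, integral_const_mul, integral_const_mul, s7fc_m4, s7fc_m2, s7fc_m2,
    integral_const]
  simp
  ring

/-! ### the variance of a centred Gaussian quadratic form -/

theorem s7fc_quad_eq (A : Mx n) (x : EE n) :
    inner ℝ x (mv A x) - Matrix.trace A = ∑ p : Fin n × Fin n, A p.1 p.2 * s7fcW p.1 p.2 x := by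
  rw [s7fa_inner_mv, Fintype.sum_prod_type]
  simp only [dotProduct, Matrix.mulVec, Matrix.trace, Matrix.diag, s7fcW, s7fcD]
  rw [← Finset.sum_sub_distrib]
  refine Finset.sum_congr rfl fun i _ => ?_
  simp only [mul_sub, Finset.sum_sub_distrib, mul_ite, mul_one, mul_zero, Finset.sum_ite_eq,
    Finset.mem_univ, if_true, Finset.mul_sum]
  congr 1
  refine Finset.sum_congr rfl fun j _ => ?_
  ring

theorem s7fc_PG_sum {ι : Type} (s : Finset ι) {f : ι → EE n → ℝ} (hf : ∀ i ∈ s, PG (f i)) :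
    PG (fun x => ∑ i ∈ s, f i x) := by
  classical
  induction s using Finset.induction_on with
  | empty => simpa using s7fc_PG_const (n := n) 0
  | insert a s ha ih =>
    simp only [Finset.sum_insert ha]
    exact (hf a (Finset.mem_insert_self a s)).add (ih fun i hi => hf i (Finset.mem_insert_of_mem hi))

theorem s7fc_PG_quad (A : Mx n) : PG (fun x : EE n => inner ℝ x (mv A x) - Matrix.trace A) := by
  simp_rw [s7fc_quad_eq]
  exact s7fc_PG_sum _ fun p _ => (s7fc_PG_const _).mul (s7fc_PG_W p.1 p.2)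

theorem s7fc_var (A : Mx n) :
    ∫ x : EE n, (inner ℝ x (mv A x) - Matrix.trace A) ^ 2 ∂(stdGaussian (EE n)) =
      Matrix.trace (A * Aᵀ) + Matrix.trace (A * A) := by
  have e : ∀ x : EE n, (inner ℝ x (mv A x) - Matrix.trace A) ^ 2 =
      ∑ p : Fin n × Fin n, ∑ q : Fin n × Fin n,
        (A p.1 p.2 * A q.1 q.2) * (s7fcW p.1 p.2 x * s7fcW q.1 q.2 x) := by
    intro x
    rw [s7fc_quad_eq, sq, Finset.sum_mul_sum]
    refine Finset.sum_congr rfl fun p _ => Finset.sum_congr rfl fun q _ => ?_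
    ring
  simp_rw [e]
  have i1 : ∀ p q : Fin n × Fin n, Integrable (fun x : EE n =>
      (A p.1 p.2 * A q.1 q.2) * (s7fcW p.1 p.2 x * s7fcW q.1 q.2 x)) (stdGaussian (EE n)) :=
    fun p q => ((s7fc_PG_const _).mul ((s7fc_PG_W p.1 p.2).mul (s7fc_PG_W q.1 q.2))).integrable
  rw [integral_finsetSum _ fun p _ => integrable_finsetSum _ fun q _ => i1 p q]
  simp_rw [integral_finsetSum _ fun q _ => i1 _ q, integral_const_mul, s7fc_WW]
  simp only [Fintype.sum_prod_type, s7fcD, Matrix.trace, Matrix.diag, Matrix.mul_apply,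
    Matrix.transpose_apply]
  simp only [mul_add, Finset.sum_add_distrib, mul_ite, mul_one, mul_zero,
    Finset.sum_ite_eq, Finset.mem_univ, if_true]
  congr 1
  refine Finset.sum_congr rfl fun i _ => Finset.sum_congr rfl fun j _ => ?_
  have h : ∀ x2 : Fin n, (∑ x3 : Fin n, if j = x2 then if i = x3 then A i j * A x2 x3 else 0 else 0) =
      if j = x2 then A i j * A x2 i else 0 := by
    intro x2
    split_ifs with h <;> simp
  simp_rw [h]
  simp

/-! ### transfer to the covariance `C` -/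

theorem s7fc_sqrt {C : Mx n} (hC : C.PosDef) :
    (mxFun Real.sqrt C).PosDef ∧ mxFun Real.sqrt C * mxFun Real.sqrt C = C := by
  refine ⟨Claimed.Agent.R260.mxFun_posDef fun i => Real.sqrt_pos.2 (s7fa_eig_pos hC i), ?_⟩
  rw [← Claimed.Agent.R260.mxFun_mul]
  have h : mxFun (fun a => Real.sqrt a * Real.sqrt a) C = mxFun (fun a => a) C :=
    Claimed.Agent.R260.mxFun_congr fun i => Real.mul_self_sqrt (s7fa_eig_pos hC i).le
  rw [h, Claimed.Agent.R260.mxFun_id (s7fa_isSymm hC.posSemidef)]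

theorem s7fc_quad_cont (M : Mx n) : Continuous fun z : EE n => inner ℝ z (mv M z) :=
  continuous_id.inner (s7fa_mv_continuous M)

theorem s7fc_gdC_cont (C : Mx n) : Continuous (gdC C) := by
  unfold gdC
  exact continuous_const.mul (Real.continuous_exp.comp ((s7fc_quad_cont C⁻¹).neg.div_const 2))

theorem s7fc_integrable_dm {ρ : EE n → ℝ} (hρ : Measurable ρ) (h0 : ∀ x, 0 ≤ ρ x) (F : EE n → ℝ) :
    Integrable F (dm ρ) ↔ Integrable (fun x => ρ x * F x) volume := by
  unfold dm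
  rw [integrable_withDensity_iff_integrable_smul' hρ.ennreal_ofReal
    (Filter.Eventually.of_forall fun x => ENNReal.ofReal_lt_top)]
  simp [ENNReal.toReal_ofReal (h0 _)]

/-- matrix algebra for the transfer -/
theorem s7fc_alg {C Dc S : Mx n} (hC : IsUnit C.det) (hSS : S * S = C) (hS : S.IsSymm)
    (hCs : C.IsSymm) (hD : Dc.IsSymm) :
    (S * (C⁻¹ * Dc * C⁻¹) * S).IsSymm ∧
      Matrix.trace (S * (C⁻¹ * Dc * C⁻¹) * S) = Matrix.trace (C⁻¹ * Dc) ∧
      Matrix.trace (S * (C⁻¹ * Dc * C⁻¹) * S * (S * (C⁻¹ * Dc * C⁻¹) * S)) =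
        Matrix.trace (C⁻¹ * Dc * C⁻¹ * Dc) := by
  have hCi : (C⁻¹).IsSymm := s7fa_inv_isSymm hCs
  have h1 : C * C⁻¹ = 1 := Matrix.mul_nonsing_inv _ hC
  have hCM : C * (C⁻¹ * Dc * C⁻¹) = Dc * C⁻¹ := by
    rw [← Matrix.mul_assoc, ← Matrix.mul_assoc, h1, Matrix.one_mul]
  refine ⟨?_, ?_, ?_⟩
  · unfold Matrix.IsSymm
    simp only [Matrix.transpose_mul, hS.eq, hCi.eq, hD.eq, Matrix.mul_assoc]
  · rw [Matrix.trace_mul_comm, ← Matrix.mul_assoc, hSS, hCM, Matrix.trace_mul_comm]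
  · have e : S * (C⁻¹ * Dc * C⁻¹) * S * (S * (C⁻¹ * Dc * C⁻¹) * S) =
        S * ((C⁻¹ * Dc * C⁻¹) * (S * S) * (C⁻¹ * Dc * C⁻¹)) * S := by
      simp only [Matrix.mul_assoc]
    rw [e, Matrix.trace_mul_comm, ← Matrix.mul_assoc, hSS]
    have e2 : C * (C⁻¹ * Dc * C⁻¹ * C * (C⁻¹ * Dc * C⁻¹)) =
        C * (C⁻¹ * Dc * C⁻¹) * (C * (C⁻¹ * Dc * C⁻¹)) := by
      simp only [Matrix.mul_assoc]
    rw [e2, hCM, ← Matrix.mul_assoc, Matrix.trace_mul_comm, ← Matrix.mul_assoc, ← Matrix.mul_assoc]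

theorem s7fc_gauss_var {C Dc : Mx n} (hC : C.PosDef) (hD : Dc.IsSymm) :
    Integrable (fun z => gdC C z *
        ((inner ℝ z (mv (C⁻¹ * Dc * C⁻¹) z) - Matrix.trace (C⁻¹ * Dc)) / 2) ^ 2) volume ∧
      ∫ z, gdC C z * ((inner ℝ z (mv (C⁻¹ * Dc * C⁻¹) z) - Matrix.trace (C⁻¹ * Dc)) / 2) ^ 2
        = 1 / 2 * Matrix.trace (C⁻¹ * Dc * C⁻¹ * Dc) := by
  obtain ⟨hS, hSS⟩ := s7fc_sqrt hC
  set S : Mx n := mxFun Real.sqrt C with hSdef
  have hSs : S.IsSymm := s7fa_isSymm hS.posSemidef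
  obtain ⟨hA1, hA2, hA3⟩ := s7fc_alg (Dc := Dc) (isUnit_iff_ne_zero.2 hC.det_pos.ne') hSS hSs
    (s7fa_isSymm hC.posSemidef) hD
  set M : Mx n := C⁻¹ * Dc * C⁻¹ with hM
  set A : Mx n := S * M * S with hA
  set F : EE n → ℝ := fun z => ((inner ℝ z (mv M z) - Matrix.trace (C⁻¹ * Dc)) / 2) ^ 2 with hF
  have hFc : Continuous F := by
    rw [hF]
    exact (((s7fc_quad_cont M).sub continuous_const).div_const 2).pow 2
  have hmap : (stdGaussian (EE n)).map (mv S) = dm (gdC C) := by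
    have h := s7fa_gdC_map hS
    rwa [hSS, s7_gam_eq] at h
  have hFS : ∀ G : EE n, F (mv S G) = 1 / 4 * (inner ℝ G (mv A G) - Matrix.trace A) ^ 2 := by
    intro G
    have e : inner ℝ (mv S G) (mv M (mv S G)) = inner ℝ G (mv A G) := by
      rw [s7fa_mv_inner hSs, ← s7fa_mv_mul, ← s7fa_mv_mul, hA, Matrix.mul_assoc S M S]
    rw [hF]
    simp only
    rw [e, hA2]
    ring
  have hmS : Measurable (mv S) := (s7fa_mv_continuous S).measurable
  have hgm : Measurable (gdC C) := (s7fc_gdC_cont C).measurable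
  have hg0 : ∀ z, 0 ≤ gdC C z := fun z => (s7fa_gdC_pos hC z).le
  have hq : PG (fun x : EE n => inner ℝ x (mv A x) - Matrix.trace A) := s7fc_PG_quad A
  have hi : Integrable (fun G : EE n => F (mv S G)) (stdGaussian (EE n)) := by
    simp_rw [hFS, sq]
    exact ((s7fc_PG_const _).mul (hq.mul hq)).integrable
  constructor
  · rw [← s7fc_integrable_dm hgm hg0 F, ← hmap,
      integrable_map_measure hFc.aestronglyMeasurable hmS.aemeasurable]
    exact hi
  · have h1 := gck_integral_dm hgm hg0 F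
    simp only [smul_eq_mul] at h1
    rw [← h1, ← hmap, integral_map hmS.aemeasurable hFc.aestronglyMeasurable]
    simp_rw [hFS]
    rw [integral_const_mul, s7fc_var, hA1.eq, hA3]
    ring

end Claimed.Agent.R259
end

/- ===== packed: Claimed.Agent.R259.S6ExpDefs ===== -/
section
/-
Row 259 (S0499), package EXP (replaces Lemma 6.7 of the paper in the proof of Proposition 6.8):
the truncated Wick exponential of a frozen column is close to the matrix exponential.  DEFINITIONS.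
Owner: helper88.

Setting: ONE datum.  `H : Fin n → Mx n` symmetric matrices commuting with a positive matrix `W`
(`= R_*`), `S = ∑ H_i² ≤ 4`; `D = H[N] = colAt H N`, `N` standard Gaussian (`stdGaussian (EE n)`, so
that the Gaussian kit `Claimed.Agent.R260.GK*` and the matrix chain rule `R260.MxChain` apply).
All norms are `‖X‖² = mxSq (X * W)`.  Defects: `fzS = ‖S - 1‖²`, `fzC = ∑ ‖[H_i,H_j]‖²`.
-/
set_option autoImplicit false

open MeasureTheory ProbabilityTheory
open scoped ContDiff BigOperators Matrix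
open Claimed.Agent.R260 (Mx mxFun mxSchur mxSq mxIP mxEig mxU mxRot mxDK)

namespace Claimed.Agent.R259

noncomputable section

variable {n : ℕ}

/-- a frozen column at one datum -/
structure FzCol (H : Fin n → Mx n) (W : Mx n) : Prop where
  symm : ∀ i, (H i).IsSymm
  psd : W.PosSemidef
  comm : ∀ i, H i * W = W * H i
  col : ((4 : ℝ) • (1 : Mx n) - colS H).PosSemidef

/-- `‖(S - 1) W‖²` -/
def fzS (H : Fin n → Mx n) (W : Mx n) : ℝ := mxSq ((colS H - 1) * W)

/-- `∑_{i,j} ‖[H_i,H_j] W‖²` -/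
def fzC (H : Fin n → Mx n) (W : Mx n) : ℝ := ∑ i, ∑ j, mxSq (cmm (H i) (H j) * W)

/-- `Φ_a(N) = e^{a D}`, `D = H[N]` -/
def fzE (H : Fin n → Mx n) (a : ℝ) (N : EE n) : Mx n :=
  mxFun (fun x => Real.exp (a * x)) (colAt H N)

/-- `∂_i e^{a D}` (Daleckii-Krein formula) -/
def fzK (H : Fin n → Mx n) (a : ℝ) (i : Fin n) (N : EE n) : Mx n :=
  mxDK (fun x => Real.exp (a * x)) (fun x => a * Real.exp (a * x)) (colAt H N) (H i)

/-- first order defect `∂_i e^{aD} - a H_i e^{aD}` -/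
def fzErr (H : Fin n → Mx n) (a : ℝ) (i : Fin n) (N : EE n) : Mx n :=
  fzK H a i N - a • (H i * fzE H a N)

/-- `φ(a) = E tr(W² e^{aD})` -/
def fzPhi (H : Fin n → Mx n) (W : Mx n) (a : ℝ) : ℝ :=
  ∫ N, Matrix.trace (W * W * fzE H a N) ∂(stdGaussian (EE n))

/-- total first order defect `ε₁(a)² = ∑_i E‖(∂_i e^{aD} - a H_i e^{aD}) W‖²` -/
def fzEps (H : Fin n → Mx n) (W : Mx n) (a : ℝ) : ℝ :=
  ∑ i, ∫ N, mxSq (fzErr H a i N * W) ∂(stdGaussian (EE n))

/-- ordered products, the LAST index leftmost: `hpr H j β = H_{β (j-1)} ⋯ H_{β 0}` -/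
def hpr (H : Fin n → Mx n) : (j : ℕ) → Idx n j → Mx n
  | 0, _ => 1
  | j + 1, β => H (β (Fin.last j)) * hpr H j (Fin.init β)

/-- `G_j(N) = ∑_β 𝔥_j(N)_β H_{β (j-1)} ⋯ H_{β 0}` -/
def fzG (H : Fin n → Mx n) (j : ℕ) (N : EE n) : Mx n := ∑ β : Idx n j, hm j N β • hpr H j β

/-- the truncated Wick exponential `e^{-t} ∑_{j ≤ m} (2t)^{j/2}/j! G_j(N)` -/
def fzW (H : Fin n → Mx n) (t : ℝ) (m : ℕ) (N : EE n) : Mx n :=
  Real.exp (-t) • ∑ j ∈ Finset.range (m + 1),
    (Real.sqrt (2 * t) ^ j / (j.factorial : ℝ)) • fzG H j N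

/-- the multiplier `M = exp(√(2t) D - 2t)` -/
def fzM (H : Fin n → Mx n) (t : ℝ) (N : EE n) : Mx n :=
  mxFun (fun x => Real.exp (Real.sqrt (2 * t) * x - 2 * t)) (colAt H N)

/-- `S_j = ∑_β (H_β)ᵀ H_β` (nested powers of `S`) -/
def fzSj (H : Fin n → Mx n) (j : ℕ) : Mx n := ∑ β : Idx n j, (hpr H j β)ᵀ * hpr H j β

/-- Poisson mass `p_m = e^{-2t} ∑_{j ≤ m} (2t)^j/j!` -/
def fzP (t : ℝ) (m : ℕ) : ℝ :=
  Real.exp (-(2 * t)) * ∑ j ∈ Finset.range (m + 1), (2 * t) ^ j / (j.factorial : ℝ)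

/-- chaos coefficients `c_j(F)_β = E[𝔥_j(N)_β F(N)]` of a matrix field -/
def fzCh (F : EE n → Mx n) (j : ℕ) (β : Idx n j) : Mx n :=
  Matrix.of fun a b => ∫ N, hm j N β * F N a b ∂(stdGaussian (EE n))

end

/-- generates the equation lemmas of the definitions above in this file (rule 6: unique names) -/
theorem s6expdefs_eqns_cite : True := by
  have := @fzS.eq_1
  have := @fzC.eq_1
  have := @fzE.eq_1
  have := @fzK.eq_1
  have := @fzErr.eq_1
  have := @fzPhi.eq_1
  have := @fzEps.eq_1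
  have := @hpr.eq_1
  have := @hpr.eq_2
  have := @fzG.eq_1
  have := @fzW.eq_1
  have := @fzM.eq_1
  have := @fzSj.eq_1
  have := @fzP.eq_1
  have := @fzCh.eq_1
  trivial

end Claimed.Agent.R259
end

/- ===== packed: Claimed.Agent.R259.S6ExpKit ===== -/
section
/-
Row 259 (S0499), package EXP: matrix inequalities for a frozen column (pure linear algebra).
EXPORT FILE of leaf L-exp-kit (statements: helper88).  The leaf owner owns this file.
Use the matrix kit `Mk*.lean` (helper57) and `R260/Mx*.lean`; `mxSq_eq_hs2`, `mxIP_eq_hsI` translate.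
-/
set_option autoImplicit false

open scoped BigOperators Matrix
open Claimed.Agent.R260 (Mx mxFun mxSchur mxSq mxIP mxEig mxU mxRot mxDK)

namespace Claimed.Agent.R259

variable {n : ℕ} {H : Fin n → Mx n} {W : Mx n}

theorem colAt_isSymm (hs : ∀ i, (H i).IsSymm) (N : EE n) : (colAt H N).IsSymm := by
  unfold Matrix.IsSymm
  rw [colAt, Matrix.transpose_sum]
  refine Finset.sum_congr rfl fun i _ => ?_
  rw [Matrix.transpose_smul, (hs i).eq]

theorem colS_isSymm (hs : ∀ i, (H i).IsSymm) : (colS H).IsSymm := by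
  exact s6k_colS_isSymm H hs

theorem colS_psd (hs : ∀ i, (H i).IsSymm) : (colS H).PosSemidef := by
  exact mk_psd_of_eig (s6k_colS_isSymm H hs) (s6k_colS_eig_nonneg H hs)

theorem FzCol.comm_colAt (h : FzCol H W) (N : EE n) : colAt H N * W = W * colAt H N := by
  rw [colAt, Matrix.sum_mul, Matrix.mul_sum]
  refine Finset.sum_congr rfl fun i _ => ?_
  rw [Matrix.smul_mul, Matrix.mul_smul, h.comm i]

theorem FzCol.comm_colS (h : FzCol H W) : colS H * W = W * colS H := by
  rw [colS, Matrix.sum_mul, Matrix.mul_sum]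
  refine Finset.sum_congr rfl fun i _ => ?_
  rw [Matrix.mul_assoc, h.comm i, ← Matrix.mul_assoc, h.comm i, Matrix.mul_assoc]

theorem FzCol.comm_fun (h : FzCol H W) (f : ℝ → ℝ) (N : EE n) :
    mxFun f (colAt H N) * W = W * mxFun f (colAt H N) := by
  exact (mk_commute_mxFun (colAt_isSymm h.symm N) (h.comm_colAt N).symm f).symm

theorem FzCol.comm_hpr (h : FzCol H W) (j : ℕ) (β : Idx n j) : hpr H j β * W = W * hpr H j β := by
  induction j with
  | zero => simp [hpr]
  | succ j ih =>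
    rw [hpr, Matrix.mul_assoc, ih, ← Matrix.mul_assoc, h.comm, Matrix.mul_assoc]

theorem FzCol.neg (h : FzCol H W) : FzCol (fun i => -H i) W := by
  refine ⟨fun i => ?_, h.psd, fun i => ?_, ?_⟩
  · unfold Matrix.IsSymm
    rw [Matrix.transpose_neg, (h.symm i).eq]
  · rw [Matrix.neg_mul, Matrix.mul_neg, h.comm i]
  · have e : colS (fun i => -H i) = colS H := by
      simp only [colS, neg_mul_neg]
    rw [e]
    exact h.col

/-- Schur multipliers in the eigenbasis of `D` commute with right multiplication by a matrix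
commuting with `D` -/
theorem mxSchur_mul_of_commute (w : ℝ → ℝ → ℝ) {D Z V : Mx n} (hD : D.IsSymm) (hV : D * V = V * D) :
    mxSchur w D (Z * V) = mxSchur w D Z * V := by
  have hrot : mxRot D D = Matrix.diagonal (mxEig D) := by
    have h := R260.mxRot_mxFun (fun a => a) D
    rwa [R260.mxFun_id hD] at h
  have hcomm : ∀ k j, mxEig D k * mxRot D V k j = mxRot D V k j * mxEig D j := by
    intro k j
    have h1 := congrArg (mxRot D) hV
    rw [R260.mxRot_mul, R260.mxRot_mul, hrot] at h1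
    have h2 := congrFun (congrFun h1 k) j
    rwa [Matrix.diagonal_mul, Matrix.mul_diagonal] at h2
  apply R260.mxRot_injective D
  ext i j
  rw [R260.mxRot_mxSchur_apply, R260.mxRot_mul, R260.mxRot_mul, Matrix.mul_apply, Matrix.mul_apply,
    Finset.mul_sum]
  refine Finset.sum_congr rfl fun k _ => ?_
  rw [R260.mxRot_mxSchur_apply]
  by_cases hk : mxEig D k = mxEig D j
  · rw [hk]
    ring
  · have h0 : mxRot D V k j = 0 := by
      have h3 := hcomm k j
      have h4 : (mxEig D k - mxEig D j) * mxRot D V k j = 0 := by linarith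
      rcases mul_eq_zero.1 h4 with h5 | h5
      · exact absurd (sub_eq_zero.1 h5) hk
      · exact h5
    rw [h0]
    ring

theorem FzCol.colB (h : FzCol H W) : ColB H 4 := s6k_ColB_of_psd h.symm h.col

/-- column bound `∑ ‖H_i X‖² = tr(Xᵀ S X) ≤ 4 ‖X‖²` -/
theorem FzCol.col_sq (h : FzCol H W) (X : Mx n) : ∑ i, mxSq (H i * X) ≤ 4 * mxSq X := by
  exact s6k_col_mxSq h.colB X

theorem FzCol.col_sq' (h : FzCol H W) (X : Mx n) : ∑ i, mxSq (X * H i) ≤ 4 * mxSq X := by
  have e : ∀ i, mxSq (X * H i) = mxSq (H i * Xᵀ) := by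
    intro i
    rw [← s6k_mxSq_transpose (X * H i), Matrix.transpose_mul, (h.symm i).eq]
  simp only [e]
  rw [← s6k_mxSq_transpose X]
  exact h.col_sq Xᵀ

/-- row bound `‖∑ H_i A_i‖² ≤ 4 ∑ ‖A_i‖²` -/
theorem FzCol.row_sq (h : FzCol H W) (A : Fin n → Mx n) :
    mxSq (∑ i, H i * A i) ≤ 4 * ∑ i, mxSq (A i) := by
  exact s6k_col_adj (by norm_num) h.colB A

/-- the completely positive map `X ↦ ∑ H_i X H_i` has Hilbert-Schmidt norm at most `4`:
`tr(Yᵀ H_i X H_i) = ⟨H_i Y, X H_i⟩` and Cauchy-Schwarz -/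
theorem FzCol.cp_sq (h : FzCol H W) (X : Mx n) : mxSq (∑ i, H i * X * H i) ≤ 16 * mxSq X := by
  have h1 := h.row_sq fun i => X * H i
  have h2 := h.col_sq' X
  simp only [Matrix.mul_assoc]
  linarith

/-- `‖(S-1) X‖² ≤ 9 ‖X‖²` (`-1 ≤ S - 1 ≤ 3`) -/
theorem FzCol.S_sub_one_sq (h : FzCol H W) (X : Mx n) :
    mxSq ((colS H - 1) * X) ≤ 9 * mxSq X := by
  have h1 := s6k_opB_mxSq (s6k_opB_S_sub_one h.colB) X
  norm_num at h1
  exact h1

/-- sums over `Idx n (j+1)`: split off the last index -/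
theorem fz_sum_snoc {M : Type} [AddCommMonoid M] (j : ℕ) (f : Idx n (j + 1) → M) :
    ∑ β, f β = ∑ β' : Idx n j, ∑ i : Fin n, f (Fin.snoc β' i) := by
  rw [← (Fin.snocEquiv fun _ : Fin (j + 1) => Fin n).sum_comp, Fintype.sum_prod_type,
    Finset.sum_comm]
  rfl

theorem hpr_snoc (H : Fin n → Mx n) (j : ℕ) (β' : Idx n j) (i : Fin n) :
    hpr H (j + 1) (Fin.snoc β' i) = H i * hpr H j β' := by
  rw [hpr, Fin.snoc_last, Fin.init_snoc]

/-- `∑_β ‖H_β X‖² ≤ 4^j ‖X‖²` -/
theorem FzCol.hpr_sq (h : FzCol H W) (j : ℕ) (X : Mx n) :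
    ∑ β : Idx n j, mxSq (hpr H j β * X) ≤ 4 ^ j * mxSq X := by
  induction j with
  | zero => simp [hpr]
  | succ j ih =>
    rw [fz_sum_snoc]
    simp only [hpr_snoc, Matrix.mul_assoc]
    calc ∑ β' : Idx n j, ∑ i, mxSq (H i * (hpr H j β' * X))
        ≤ ∑ β' : Idx n j, 4 * mxSq (hpr H j β' * X) :=
          Finset.sum_le_sum fun β' _ => h.col_sq _
      _ = 4 * ∑ β' : Idx n j, mxSq (hpr H j β' * X) := by rw [Finset.mul_sum]
      _ ≤ 4 * (4 ^ j * mxSq X) := by linarith
      _ = 4 ^ (j + 1) * mxSq X := by ring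

theorem fzSj_zero (H : Fin n → Mx n) : fzSj H 0 = 1 := by
  simp [fzSj, hpr]

/-- `S_{j+1} = ∑_β (H_β)ᵀ S H_β` -/
theorem fzSj_succ (hs : ∀ i, (H i).IsSymm) (j : ℕ) :
    fzSj H (j + 1) = ∑ β : Idx n j, (hpr H j β)ᵀ * colS H * hpr H j β := by
  rw [fzSj, fz_sum_snoc]
  refine Finset.sum_congr rfl fun β' _ => ?_
  rw [colS, Matrix.mul_sum, Matrix.sum_mul]
  refine Finset.sum_congr rfl fun i _ => ?_
  rw [hpr_snoc, Matrix.transpose_mul, (hs i).eq]
  simp only [Matrix.mul_assoc]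

/-- `∑_β ‖H_β W‖² = tr(W² S_j)` -/
theorem fzSj_trace (H : Fin n → Mx n) (W : Mx n) (j : ℕ) :
    ∑ β : Idx n j, mxSq (hpr H j β * W) = Matrix.trace (Wᵀ * fzSj H j * W) := by
  rw [fzSj, Matrix.mul_sum, Matrix.sum_mul, Matrix.trace_sum]
  refine Finset.sum_congr rfl fun β _ => ?_
  rw [mxSq, Matrix.transpose_mul]
  simp only [Matrix.mul_assoc]

/-- the maps `X ↦ ∑_β (H_β)ᵀ X H_β` have Hilbert-Schmidt norm at most `4^j` -/
theorem FzCol.cpj_sq (h : FzCol H W) (j : ℕ) (X : Mx n) :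
    mxSq (∑ β : Idx n j, (hpr H j β)ᵀ * X * hpr H j β) ≤ 16 ^ j * mxSq X := by
  induction j generalizing X with
  | zero => simp [hpr]
  | succ j ih =>
    have e : ∑ β : Idx n (j + 1), (hpr H (j + 1) β)ᵀ * X * hpr H (j + 1) β
        = ∑ β' : Idx n j, (hpr H j β')ᵀ * (∑ i, H i * X * H i) * hpr H j β' := by
      rw [fz_sum_snoc]
      refine Finset.sum_congr rfl fun β' _ => ?_
      rw [Matrix.mul_sum, Matrix.sum_mul]
      refine Finset.sum_congr rfl fun i _ => ?_
      rw [hpr_snoc, Matrix.transpose_mul, (h.symm i).eq]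
      simp only [Matrix.mul_assoc]
    rw [e]
    calc mxSq (∑ β' : Idx n j, (hpr H j β')ᵀ * (∑ i, H i * X * H i) * hpr H j β')
        ≤ 16 ^ j * mxSq (∑ i, H i * X * H i) := ih _
      _ ≤ 16 ^ j * (16 * mxSq X) := mul_le_mul_of_nonneg_left (h.cp_sq X) (by positivity)
      _ = 16 ^ (j + 1) * mxSq X := by ring

/-- `‖(S_j - 1) W‖ ≤ (∑_{i<j} 4^i) ‖(S-1) W‖`: induction with `fzSj_succ`, the maps
`X ↦ ∑_β (H_β)ᵀ X H_β` have Hilbert-Schmidt norm at most `4^j` (iterate `cp_sq`) and commute with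
right multiplication by `W` -/
theorem FzCol.Sj_sub_one (h : FzCol H W) (j : ℕ) :
    Real.sqrt (mxSq ((fzSj H j - 1) * W)) ≤ (∑ i ∈ Finset.range j, (4 : ℝ) ^ i) * Real.sqrt (fzS H W) := by
  induction j with
  | zero => simp [fzSj_zero, mxSq]
  | succ j ih =>
    have e : (fzSj H (j + 1) - 1) * W
        = (∑ β : Idx n j, (hpr H j β)ᵀ * ((colS H - 1) * W) * hpr H j β) + (fzSj H j - 1) * W := by
      have e1 : ∑ β : Idx n j, (hpr H j β)ᵀ * ((colS H - 1) * W) * hpr H j β
          = (fzSj H (j + 1) - fzSj H j) * W := by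
        rw [fzSj_succ h.symm, fzSj, ← Finset.sum_sub_distrib, Matrix.sum_mul]
        refine Finset.sum_congr rfl fun β _ => ?_
        rw [Matrix.mul_assoc (hpr H j β)ᵀ, Matrix.mul_assoc (colS H - 1) W, ← h.comm_hpr j β,
          Matrix.sub_mul, Matrix.sub_mul, Matrix.mul_sub, Matrix.one_mul]
        simp only [Matrix.mul_assoc]
      rw [e1, ← Matrix.add_mul]
      congr 1
      abel
    rw [e, Finset.sum_range_succ, add_mul]
    simp only [mxSq_eq_hs2] at ih ⊢
    refine (sqrt_hs2_add_le _ _).trans ?_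
    rw [add_comm]
    refine add_le_add ih ?_
    have h1 := h.cpj_sq j ((colS H - 1) * W)
    rw [mxSq_eq_hs2] at h1
    have e2 : (4 : ℝ) ^ j * Real.sqrt (fzS H W) = Real.sqrt (16 ^ j * fzS H W) := by
      rw [Real.sqrt_mul (by positivity)]
      congr 1
      rw [show (16 : ℝ) ^ j = (4 ^ j) ^ 2 by rw [← pow_mul, mul_comm, pow_mul]; norm_num]
      rw [Real.sqrt_sq (by positivity)]
    rw [e2]
    exact Real.sqrt_le_sqrt h1

/-- `|∑_β ‖H_β W‖² - ‖W‖²| ≤ (∑_{i<j} 4^i) (fzS · ‖W‖²)^{1/2}` -/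
theorem FzCol.hpr_sq_near (h : FzCol H W) (j : ℕ) :
    |∑ β : Idx n j, mxSq (hpr H j β * W) - mxSq W|
      ≤ (∑ i ∈ Finset.range j, (4 : ℝ) ^ i) * Real.sqrt (fzS H W * mxSq W) := by
  have e : ∑ β : Idx n j, mxSq (hpr H j β * W) - mxSq W = hsI W ((fzSj H j - 1) * W) := by
    rw [fzSj_trace, hsI_eq_trace', Matrix.sub_mul, Matrix.mul_sub, Matrix.trace_sub, Matrix.one_mul,
      mxSq, Matrix.mul_assoc]
  rw [e]
  refine (abs_hsI_le _ _).trans ?_
  have h1 := h.Sj_sub_one j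
  rw [mxSq_eq_hs2] at h1
  have h0 : 0 ≤ fzS H W := R260.mxSq_nonneg _
  rw [Real.sqrt_mul h0, mxSq_eq_hs2]
  calc Real.sqrt (hs2 W) * Real.sqrt (hs2 ((fzSj H j - 1) * W))
      ≤ Real.sqrt (hs2 W) * ((∑ i ∈ Finset.range j, (4 : ℝ) ^ i) * Real.sqrt (fzS H W)) :=
        mul_le_mul_of_nonneg_left h1 (Real.sqrt_nonneg _)
    _ = _ := by ring

end Claimed.Agent.R259
end

/- ===== packed: Claimed.Agent.R259.S6ExpErrA ===== -/
section
/-
Row 259 (S0499), package EXP, leaf L-exp-errA (helper74): proofs of `FzCol.err_pt` and `FzCol.err_trunc`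
(exported by `S6ExpErr.lean`).  Pure matrix algebra in the eigenbasis of `D = H[N]`:
`y_pq = (Uᵀ H_i W U)_pq` is symmetric,
`(err_i W)~_pq = g(d_p,d_q) y_pq`, `([D,H_i] W φ(D))~_pq = (d_p - d_q) y_pq φ(d_q)`.
Scalar input: `(e^u - 1 - u)² ≤ (u⁴/4)(e^{2u} + 1)` for all real `u`.
-/
set_option autoImplicit false

open scoped BigOperators Matrix
open Claimed.Agent.R260 (Mx mxFun mxSchur mxSq mxIP mxEig mxU mxRot mxDK mxDD)

namespace Claimed.Agent.R259

/-! ### scalar inequalities -/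

/-- `e^{-v} ≤ 1 - v + v²/2` for `v ≥ 0` -/
theorem fzea_exp_neg_le {v : ℝ} (hv : 0 ≤ v) : Real.exp (-v) ≤ 1 - v + v ^ 2 / 2 := by
  have h1 := Real.quadratic_le_exp_of_nonneg hv
  have hpos : 0 < 1 + v + v ^ 2 / 2 := by positivity
  rw [Real.exp_neg]
  calc (Real.exp v)⁻¹ ≤ (1 + v + v ^ 2 / 2)⁻¹ := inv_anti₀ hpos h1
    _ ≤ 1 - v + v ^ 2 / 2 := by
      rw [inv_le_iff_one_le_mul₀ hpos]
      nlinarith [sq_nonneg (v ^ 2)]

/-- `e^v - 1 - v ≤ (v²/2) e^v` for `v ≥ 0` -/
theorem fzea_exp_sub_le {v : ℝ} (hv : 0 ≤ v) : Real.exp v - 1 - v ≤ v ^ 2 / 2 * Real.exp v := by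
  have hmono : MonotoneOn (fun v : ℝ => v ^ 2 / 2 - 1 + (1 + v) * Real.exp (-v)) (Set.Ici 0) := by
    apply monotoneOn_of_deriv_nonneg (convex_Ici 0)
    · fun_prop
    · fun_prop
    · intro x hx
      rw [interior_Ici] at hx
      have hx0 : (0 : ℝ) < x := hx
      have hd : HasDerivAt (fun v : ℝ => v ^ 2 / 2 - 1 + (1 + v) * Real.exp (-v))
          (x * (1 - Real.exp (-x))) x := by
        have h1 : HasDerivAt (fun v : ℝ => v ^ 2 / 2 - 1) x x := by
          have h5 := ((hasDerivAt_pow 2 x).div_const 2).sub_const 1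
          have e5 : ((2 : ℕ) : ℝ) * x ^ (2 - 1) / 2 = x := by norm_num
          rw [e5] at h5
          exact h5
        have h2 : HasDerivAt (fun v : ℝ => Real.exp (-v)) (-Real.exp (-x)) x := by
          have h6 := (hasDerivAt_neg x).exp
          have e6 : Real.exp (-x) * -1 = -Real.exp (-x) := by ring
          rw [e6] at h6
          exact h6
        have h3 : HasDerivAt (fun v : ℝ => 1 + v) 1 x := (hasDerivAt_id x).const_add 1
        have h4 := h1.add (h3.mul h2)
        have e : x + (1 * Real.exp (-x) + (1 + x) * -Real.exp (-x)) = x * (1 - Real.exp (-x)) := by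
          ring
        rw [e] at h4
        exact h4
      rw [hd.deriv]
      have : Real.exp (-x) ≤ 1 := Real.exp_le_one_iff.2 (by linarith)
      exact mul_nonneg hx0.le (by linarith)
  have h0 := hmono (Set.mem_Ici.2 le_rfl) (Set.mem_Ici.2 hv) hv
  simp only [neg_zero, Real.exp_zero] at h0
  have h1 : 0 ≤ v ^ 2 / 2 - 1 + (1 + v) * Real.exp (-v) := by
    refine le_trans (le_of_eq ?_) h0
    norm_num
  have h2 := mul_nonneg h1 (Real.exp_pos v).le
  have h3 : Real.exp (-v) * Real.exp v = 1 := by rw [← Real.exp_add]; simp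
  nlinarith

/-- `(e^u - 1 - u)² ≤ (u⁴/4) (e^{2u} + 1)` -/
theorem fzea_sq_le (u : ℝ) :
    (Real.exp u - 1 - u) ^ 2 ≤ u ^ 4 / 4 * (Real.exp u ^ 2 + 1) := by
  have hlow : 0 ≤ Real.exp u - 1 - u := by linarith [Real.add_one_le_exp u]
  rcases le_total 0 u with hu | hu
  · have h := fzea_exp_sub_le hu
    have h2 : (Real.exp u - 1 - u) ^ 2 ≤ (u ^ 2 / 2 * Real.exp u) ^ 2 := pow_le_pow_left₀ hlow h 2
    have h3 : 0 ≤ u ^ 4 / 4 := by positivity
    nlinarith
  · have h := fzea_exp_neg_le (v := -u) (by linarith)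
    rw [neg_neg] at h
    have h' : Real.exp u - 1 - u ≤ u ^ 2 / 2 := by nlinarith
    have h2 : (Real.exp u - 1 - u) ^ 2 ≤ (u ^ 2 / 2) ^ 2 := pow_le_pow_left₀ hlow h' 2
    have h3 : 0 ≤ u ^ 4 / 4 * Real.exp u ^ 2 := by positivity
    nlinarith

/-- the Taylor bound for the divided difference of `e^{a·}` -/
theorem fzea_g_sq_le (a x y : ℝ) :
    (mxDD (fun x => Real.exp (a * x)) (fun x => a * Real.exp (a * x)) x y - a * Real.exp (a * y)) ^ 2
      ≤ a ^ 4 / 4 * ((x - y) ^ 2 * (Real.exp (a * x) ^ 2 + Real.exp (a * y) ^ 2)) := by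
  unfold mxDD
  by_cases hxy : x = y
  · rw [if_pos hxy, hxy]
    simp
  · rw [if_neg hxy]
    beta_reduce
    have ht : x - y ≠ 0 := sub_ne_zero.2 hxy
    have e1 : Real.exp (a * x) = Real.exp (a * y) * Real.exp (a * (x - y)) := by
      rw [← Real.exp_add]
      congr 1
      ring
    have h := fzea_sq_le (a * (x - y))
    obtain ⟨E, hE⟩ : ∃ E, E = Real.exp (a * y) := ⟨_, rfl⟩
    obtain ⟨F, hF⟩ : ∃ F, F = Real.exp (a * (x - y)) := ⟨_, rfl⟩
    obtain ⟨t, htt⟩ : ∃ t, t = x - y := ⟨_, rfl⟩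
    rw [e1, ← hE, ← hF, ← htt]
    rw [← hF, ← htt] at h
    rw [← htt] at ht
    have e : (E * F - E) / t - a * E = E * (F - 1 - a * t) / t := by
      field_simp
    have ht2 : 0 < t ^ 2 := by positivity
    rw [e, div_pow, mul_pow, div_le_iff₀ ht2]
    calc E ^ 2 * (F - 1 - a * t) ^ 2 ≤ E ^ 2 * ((a * t) ^ 4 / 4 * (F ^ 2 + 1)) :=
          mul_le_mul_of_nonneg_left h (sq_nonneg E)
      _ = a ^ 4 / 4 * (t ^ 2 * ((E * F) ^ 2 + E ^ 2)) * t ^ 2 := by ring

/-! ### rotation formulas -/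

variable {n : ℕ} {H : Fin n → Mx n} {W : Mx n}

theorem fzea_rot_left {D : Mx n} (hD : D.IsSymm) (Y : Mx n) (p q : Fin n) :
    mxRot D (D * Y) p q = mxEig D p * mxRot D Y p q := by
  have h := R260.mxRot_mxFun_mul_apply (fun a => a) D Y p q
  rwa [R260.mxFun_id hD] at h

theorem fzea_rot_right {D : Mx n} (hD : D.IsSymm) (Y : Mx n) (p q : Fin n) :
    mxRot D (Y * D) p q = mxRot D Y p q * mxEig D q := by
  have h := R260.mxRot_mul_mxFun_apply (fun a => a) D Y p q
  rwa [R260.mxFun_id hD] at h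

theorem FzCol.fzea_Y_isSymm (h : FzCol H W) (i : Fin n) : (H i * W).IsSymm := by
  unfold Matrix.IsSymm
  rw [Matrix.transpose_mul, (h.symm i).eq, (mk_isSymm_of_psd h.psd).eq, h.comm i]

/-- `([D,H_i] W)~_pq = (d_p - d_q) y_pq` -/
theorem FzCol.fzea_rot_cmm (h : FzCol H W) (i : Fin n) (N : EE n) (p q : Fin n) :
    mxRot (colAt H N) (cmm (colAt H N) (H i) * W) p q
      = (mxEig (colAt H N) p - mxEig (colAt H N) q) * mxRot (colAt H N) (H i * W) p q := by
  have hD := colAt_isSymm h.symm N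
  have e : cmm (colAt H N) (H i) * W = colAt H N * (H i * W) - (H i * W) * colAt H N := by
    rw [cmm, Matrix.sub_mul, Matrix.mul_assoc, Matrix.mul_assoc (H i) (colAt H N) W,
      h.comm_colAt N, ← Matrix.mul_assoc (H i) W]
  rw [e, R260.mxRot_sub, Matrix.sub_apply, fzea_rot_left hD, fzea_rot_right hD]
  ring

/-- `([D,H_i] W φ(D))~_pq = (d_p - d_q) y_pq φ(d_q)` -/
theorem FzCol.fzea_rot_cmm_fun (h : FzCol H W) (φ : ℝ → ℝ) (i : Fin n) (N : EE n) (p q : Fin n) :
    mxRot (colAt H N) (cmm (colAt H N) (H i) * W * mxFun φ (colAt H N)) p q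
      = (mxEig (colAt H N) p - mxEig (colAt H N) q) * mxRot (colAt H N) (H i * W) p q
        * φ (mxEig (colAt H N) q) := by
  rw [R260.mxRot_mul_mxFun_apply, h.fzea_rot_cmm]

/-- `(err_i W)~_pq = g(d_p,d_q) y_pq` -/
theorem FzCol.fzea_rot_err (h : FzCol H W) (a : ℝ) (i : Fin n) (N : EE n) (p q : Fin n) :
    mxRot (colAt H N) (fzErr H a i N * W) p q
      = (mxDD (fun x => Real.exp (a * x)) (fun x => a * Real.exp (a * x))
            (mxEig (colAt H N) p) (mxEig (colAt H N) q) - a * Real.exp (a * mxEig (colAt H N) q))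
          * mxRot (colAt H N) (H i * W) p q := by
  have hD := colAt_isSymm h.symm N
  have e : fzErr H a i N * W
      = mxSchur (mxDD (fun x => Real.exp (a * x)) (fun x => a * Real.exp (a * x))) (colAt H N) (H i * W)
        - a • ((H i * W) * mxFun (fun x => Real.exp (a * x)) (colAt H N)) := by
    rw [fzErr, fzK, fzE, mxDK, Matrix.sub_mul, Matrix.smul_mul,
      mxSchur_mul_of_commute _ hD (h.comm_colAt N), Matrix.mul_assoc (H i) _ W, h.comm_fun,
      ← Matrix.mul_assoc (H i) W]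
  rw [e, R260.mxRot_sub, R260.mxRot_smul, Matrix.sub_apply, Matrix.smul_apply,
    R260.mxRot_mxSchur_apply, R260.mxRot_mul_mxFun_apply, smul_eq_mul]
  ring

/-- L-exp-errA, first half -/
theorem FzCol.fzea_err_pt (h : FzCol H W) (a : ℝ) (i : Fin n) (N : EE n) :
    mxSq (fzErr H a i N * W)
      ≤ a ^ 4 / 2 * mxSq (cmm (colAt H N) (H i) * W * fzE H a N) := by
  obtain ⟨D, hDdef⟩ : ∃ D, D = colAt H N := ⟨_, rfl⟩
  have hsym : ∀ p q, mxRot D (H i * W) p q = mxRot D (H i * W) q p :=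
    fun p q => R260.mxRot_symm_apply D (h.fzea_Y_isSymm i) p q
  rw [R260.mxSq_rot (colAt H N) (fzErr H a i N * W),
    R260.mxSq_rot (colAt H N) (cmm (colAt H N) (H i) * W * fzE H a N), fzE]
  simp only [h.fzea_rot_err, h.fzea_rot_cmm_fun]
  rw [← hDdef]
  have hswap : ∑ p, ∑ q, ((mxEig D p - mxEig D q) * mxRot D (H i * W) p q
        * Real.exp (a * mxEig D p)) ^ 2
      = ∑ p, ∑ q, ((mxEig D p - mxEig D q) * mxRot D (H i * W) p q
        * Real.exp (a * mxEig D q)) ^ 2 := by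
    rw [Finset.sum_comm]
    refine Finset.sum_congr rfl fun p _ => Finset.sum_congr rfl fun q _ => ?_
    rw [hsym q p]
    ring
  have hmain : ∑ p, ∑ q, ((mxDD (fun x => Real.exp (a * x)) (fun x => a * Real.exp (a * x))
          (mxEig D p) (mxEig D q) - a * Real.exp (a * mxEig D q)) * mxRot D (H i * W) p q) ^ 2
      ≤ ∑ p, ∑ q, a ^ 4 / 4 * (((mxEig D p - mxEig D q) * mxRot D (H i * W) p q
          * Real.exp (a * mxEig D p)) ^ 2 + ((mxEig D p - mxEig D q) * mxRot D (H i * W) p q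
          * Real.exp (a * mxEig D q)) ^ 2) := by
    refine Finset.sum_le_sum fun p _ => Finset.sum_le_sum fun q _ => ?_
    have hg := fzea_g_sq_le a (mxEig D p) (mxEig D q)
    have := mul_le_mul_of_nonneg_right hg (sq_nonneg (mxRot D (H i * W) p q))
    rw [mul_pow]
    refine this.trans (le_of_eq ?_)
    ring
  refine hmain.trans (le_of_eq ?_)
  simp only [← Finset.mul_sum, Finset.sum_add_distrib]
  rw [hswap]
  ring

/-! ### traces -/

theorem fzea_mxSq_mul_fun {W : Mx n} (hW : W.IsSymm) (φ : ℝ → ℝ) (D : Mx n) :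
    mxSq (W * mxFun φ D) = Matrix.trace (W * W * mxFun (fun x => φ x ^ 2) D) := by
  have e : mxFun (fun x => φ x ^ 2) D = mxFun φ D * mxFun φ D := by
    rw [← R260.mxFun_mul]
    simp only [sq]
  rw [mxSq, Matrix.transpose_mul, hW.eq, (R260.mxFun_isSymm φ D).eq, e, Matrix.mul_assoc,
    Matrix.trace_mul_comm]
  simp only [Matrix.mul_assoc]

theorem fzea_mxSq_fun_mul {W : Mx n} (hW : W.IsSymm) (φ : ℝ → ℝ) (D : Mx n) :
    mxSq (mxFun φ D * W) = Matrix.trace (W * W * mxFun (fun x => φ x ^ 2) D) := by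
  have e : mxFun (fun x => φ x ^ 2) D = mxFun φ D * mxFun φ D := by
    rw [← R260.mxFun_mul]
    simp only [sq]
  rw [mxSq, Matrix.transpose_mul, hW.eq, (R260.mxFun_isSymm φ D).eq, e, ← Matrix.mul_assoc,
    Matrix.trace_mul_comm]
  simp only [Matrix.mul_assoc]

/-- `∑_i ∑ y_pq² u(d_q) = tr(W S W u(D)) ≤ 4 tr(W² u(D))` -/
theorem FzCol.fzea_T2 (h : FzCol H W) (u : ℝ → ℝ) (hu : ∀ x, 0 ≤ u x) (N : EE n) :
    ∑ i, ∑ p, ∑ q, (mxRot (colAt H N) (H i * W) p q) ^ 2 * u (mxEig (colAt H N) q)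
      ≤ 4 * Matrix.trace (W * W * mxFun u (colAt H N)) := by
  have h1 := h.col_sq (W * mxFun (fun x => Real.sqrt (u x)) (colAt H N))
  rw [fzea_mxSq_mul_fun (mk_isSymm_of_psd h.psd)] at h1
  have e : (fun x => Real.sqrt (u x) ^ 2) = u := by
    funext x
    exact Real.sq_sqrt (hu x)
  rw [e] at h1
  refine (le_of_eq ?_).trans h1
  refine Finset.sum_congr rfl fun i _ => ?_
  rw [R260.mxSq_rot (colAt H N), ← Matrix.mul_assoc]
  refine Finset.sum_congr rfl fun p _ => Finset.sum_congr rfl fun q _ => ?_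
  rw [R260.mxRot_mul_mxFun_apply, mul_pow, Real.sq_sqrt (hu _)]

/-- `∑ d_p² y_pq² v(d_q) = tr(D² W · H_i (v(D) W) H_i)` -/
theorem FzCol.fzea_T3_one (h : FzCol H W) (v : ℝ → ℝ) (N : EE n) (i : Fin n) :
    ∑ p, ∑ q, (mxEig (colAt H N) p) ^ 2 * (mxRot (colAt H N) (H i * W) p q) ^ 2
        * v (mxEig (colAt H N) q)
      = mxIP (mxFun (fun x => x ^ 2) (colAt H N) * W) (H i * (mxFun v (colAt H N) * W) * H i) := by
  obtain ⟨D, hDdef⟩ : ∃ D, D = colAt H N := ⟨_, rfl⟩
  have hcv : mxFun v D * W = W * mxFun v D := by rw [hDdef]; exact h.comm_fun v N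
  have hsym : ∀ p q, mxRot D (H i * W) p q = mxRot D (H i * W) q p :=
    fun p q => R260.mxRot_symm_apply D (h.fzea_Y_isSymm i) p q
  rw [← hDdef]
  have e : mxIP (mxFun (fun x => x ^ 2) D * W) (H i * (mxFun v D * W) * H i)
      = Matrix.trace (mxFun (fun x => x ^ 2) D * (H i * W) * mxFun v D * (H i * W)) := by
    rw [mxIP, Matrix.transpose_mul, (mk_isSymm_of_psd h.psd).eq, (R260.mxFun_isSymm _ D).eq,
      Matrix.mul_assoc, Matrix.trace_mul_comm, hcv]
    simp only [Matrix.mul_assoc]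
  rw [e, ← R260.mxRot_trace D,
    R260.mxRot_mul D (mxFun (fun x => x ^ 2) D * (H i * W) * mxFun v D) (H i * W), Matrix.trace]
  refine Finset.sum_congr rfl fun p _ => ?_
  rw [Matrix.diag_apply, Matrix.mul_apply]
  refine Finset.sum_congr rfl fun q _ => ?_
  rw [R260.mxRot_mul_mxFun_apply, R260.mxRot_mxFun_mul_apply, hsym q p]
  ring

/-- `∑_i ∑ d_p² y_pq² v(d_q) ≤ ‖D² W‖ · 4 ‖v(D) W‖` -/
theorem FzCol.fzea_T3 (h : FzCol H W) (v : ℝ → ℝ) (N : EE n) :
    ∑ i, ∑ p, ∑ q, (mxEig (colAt H N) p) ^ 2 * (mxRot (colAt H N) (H i * W) p q) ^ 2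
        * v (mxEig (colAt H N) q)
      ≤ 4 * Real.sqrt (Matrix.trace (W * W * mxFun (fun x => x ^ 4) (colAt H N)))
          * Real.sqrt (Matrix.trace (W * W * mxFun (fun x => v x ^ 2) (colAt H N))) := by
  have hW := mk_isSymm_of_psd h.psd
  simp only [h.fzea_T3_one v N]
  have e1 : ∑ i, mxIP (mxFun (fun x => x ^ 2) (colAt H N) * W)
        (H i * (mxFun v (colAt H N) * W) * H i)
      = mxIP (mxFun (fun x => x ^ 2) (colAt H N) * W)
        (∑ i, H i * (mxFun v (colAt H N) * W) * H i) := by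
    simp only [mxIP]
    rw [Matrix.mul_sum, Matrix.trace_sum]
  rw [e1, mxIP_eq_hsI]
  refine (le_abs_self _).trans ((abs_hsI_le _ _).trans ?_)
  rw [← mxSq_eq_hs2, ← mxSq_eq_hs2, fzea_mxSq_fun_mul hW]
  have e2 : (fun x : ℝ => (x ^ 2) ^ 2) = fun x => x ^ 4 := by
    funext x
    ring
  rw [e2]
  have h1 := h.cp_sq (mxFun v (colAt H N) * W)
  rw [fzea_mxSq_fun_mul hW] at h1
  have h2 : Real.sqrt (mxSq (∑ i, H i * (mxFun v (colAt H N) * W) * H i))
      ≤ 4 * Real.sqrt (Matrix.trace (W * W * mxFun (fun x => v x ^ 2) (colAt H N))) := by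
    have e3 : (4 : ℝ) = Real.sqrt 16 := by
      rw [show (16 : ℝ) = 4 ^ 2 by norm_num, Real.sqrt_sq (by norm_num)]
    rw [e3, ← Real.sqrt_mul (by norm_num)]
    exact Real.sqrt_le_sqrt h1
  calc Real.sqrt (Matrix.trace (W * W * mxFun (fun x => x ^ 4) (colAt H N)))
        * Real.sqrt (mxSq (∑ i, H i * (mxFun v (colAt H N) * W) * H i))
      ≤ Real.sqrt (Matrix.trace (W * W * mxFun (fun x => x ^ 4) (colAt H N)))
        * (4 * Real.sqrt (Matrix.trace (W * W * mxFun (fun x => v x ^ 2) (colAt H N)))) :=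
        mul_le_mul_of_nonneg_left h2 (Real.sqrt_nonneg _)
    _ = _ := by ring

/-- the pointwise splitting -/
theorem fzea_split {a Λ : ℝ} (ha : 0 ≤ a) (dp dq y : ℝ) :
    ((dp - dq) * y * Real.exp (a * dq)) ^ 2
      ≤ Real.exp (2 * a * Λ) * ((dp - dq) * y) ^ 2
        + 2 * (y ^ 2 * (if Λ < dq then dq ^ 2 * Real.exp (2 * a * dq) else 0))
        + 2 * (dp ^ 2 * y ^ 2 * (if Λ < dq then Real.exp (2 * a * dq) else 0)) := by
  have e : Real.exp (a * dq) ^ 2 = Real.exp (2 * a * dq) := by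
    rw [← Real.exp_nat_mul]
    congr 1
    push_cast
    ring
  rw [mul_pow, e]
  by_cases hq : Λ < dq
  · rw [if_pos hq, if_pos hq]
    have h1 : 0 ≤ Real.exp (2 * a * Λ) * ((dp - dq) * y) ^ 2 := by positivity
    have h2 : 0 ≤ (dp + dq) ^ 2 * (y ^ 2 * Real.exp (2 * a * dq)) := by positivity
    nlinarith
  · rw [if_neg hq, if_neg hq]
    have h1 : Real.exp (2 * a * dq) ≤ Real.exp (2 * a * Λ) := by
      apply Real.exp_le_exp.2
      have : dq ≤ Λ := not_lt.1 hq
      nlinarith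
    have := mul_le_mul_of_nonneg_left h1 (sq_nonneg ((dp - dq) * y))
    linarith

/-- L-exp-errA, second half -/
theorem FzCol.fzea_err_trunc (h : FzCol H W) {a Λ : ℝ} (ha : 0 ≤ a) (N : EE n) :
    ∑ i, mxSq (cmm (colAt H N) (H i) * W * fzE H a N)
      ≤ Real.exp (2 * a * Λ) * ∑ i, mxSq (cmm (colAt H N) (H i) * W)
        + 8 * Matrix.trace (W * W *
            mxFun (fun x => if Λ < x then x ^ 2 * Real.exp (2 * a * x) else 0) (colAt H N))
        + 8 * Real.sqrt (Matrix.trace (W * W * mxFun (fun x => x ^ 4) (colAt H N)))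
            * Real.sqrt (Matrix.trace (W * W *
                mxFun (fun x => if Λ < x then Real.exp (4 * a * x) else 0) (colAt H N))) := by
  have hT2 := h.fzea_T2 (fun x => if Λ < x then x ^ 2 * Real.exp (2 * a * x) else 0)
    (fun x => by
      split_ifs
      · positivity
      · exact le_rfl) N
  have hT3 := h.fzea_T3 (fun x => if Λ < x then Real.exp (2 * a * x) else 0) N
  have e4 : (fun x : ℝ => (if Λ < x then Real.exp (2 * a * x) else 0) ^ 2)
      = fun x => if Λ < x then Real.exp (4 * a * x) else 0 := by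
    funext x
    split_ifs
    · rw [← Real.exp_nat_mul]
      congr 1
      push_cast
      ring
    · norm_num
  rw [e4] at hT3
  have hsum : ∑ i, mxSq (cmm (colAt H N) (H i) * W * fzE H a N)
      ≤ ∑ i, ∑ p, ∑ q, (Real.exp (2 * a * Λ)
          * (mxRot (colAt H N) (cmm (colAt H N) (H i) * W) p q) ^ 2
        + 2 * ((mxRot (colAt H N) (H i * W) p q) ^ 2 *
            (if Λ < mxEig (colAt H N) q then
              (mxEig (colAt H N) q) ^ 2 * Real.exp (2 * a * mxEig (colAt H N) q) else 0))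
        + 2 * ((mxEig (colAt H N) p) ^ 2 * (mxRot (colAt H N) (H i * W) p q) ^ 2 *
            (if Λ < mxEig (colAt H N) q then Real.exp (2 * a * mxEig (colAt H N) q) else 0))) := by
    refine Finset.sum_le_sum fun i _ => ?_
    rw [R260.mxSq_rot (colAt H N), fzE]
    refine Finset.sum_le_sum fun p _ => Finset.sum_le_sum fun q _ => ?_
    rw [h.fzea_rot_cmm_fun, h.fzea_rot_cmm]
    exact fzea_split ha _ _ _
  refine hsum.trans ?_
  simp only [Finset.sum_add_distrib, ← Finset.mul_sum]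
  have e5 : ∀ i, ∑ p, ∑ q, (mxRot (colAt H N) (cmm (colAt H N) (H i) * W) p q) ^ 2
      = mxSq (cmm (colAt H N) (H i) * W) := fun i => (R260.mxSq_rot (colAt H N) _).symm
  simp only [e5]
  beta_reduce at hT2 hT3
  linarith

end Claimed.Agent.R259
end
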