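/- Packed by merge_tool.py (helper293): 9 modules of Claimed.Agent.R259 in one file, same declarations.
   Old modules, in this order: OpLocal, OpCacc, OpDense, OpVec, OP, S5Kit, S5KitL2, S5KitAlg, S5KitClm -/
import Claimed.Agent.R259.WS
import Claimed.Agent.R259.Pack029
import Claimed.Agent.R259.Pack030
import Claimed.Agent.R259.Pack048
import Claimed.Agent.R259.Pack035
import Claimed.Agent.R259.Pack007

/- ===== packed: Claimed.Agent.R259.OpLocal ===== -/
section
/-
Row 259, kit OP, LEAF L-op-local: local `H¹` regularity of `L²(η)` solutions of the dual equation.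

PROOF of `opk_local_reg`.  Let `b := gradient (fun y => Real.log (η y))` (smooth:
`opc_grad_log`, or `(Real.contDiffAt_log ..).comp`), `φ` a test function.  `χ φ` is a test function and
(`opc_mul`, `opc_scalar`)
  `opA η (χ φ) = χ (-Δφ - ⟪b, ∇φ⟫) + φ opA η χ - 2 ⟪∇χ, ∇φ⟫`.
Insert in the hypothesis and pass to Lebesgue measure (`ws_integral_dm`):
  `∫ W (φ - κ Δφ) = ∫ ⟪F, ∇φ⟫ + ∫ h φ`  with
  `W := fun x => η x * χ x * v x`,
  `F := fun x => (κ * η x * v x) • (χ x • b x + 2 • gradient χ x)`,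
  `h := fun x => - κ * η x * v x * opA η χ x`.
All three are (continuous with compact support) x `v`, hence in `L²(dx)`:
`v • Z ∈ L²(η)` by `MemLp.mono`/`bdd_mul` (Z bounded), then `ws_memLp_vol_of_support`.
(splitting of the integrals: every integrand is (continuous compactly supported) x `v`, and `v` is
locally integrable: `ws_locallyIntegrable_of_memLp`.)
`opk_flat_reg` gives `G₀` with `WeakGrad W G₀`, `G₀ ∈ L²(dx)`.
`χ v = (1/η) W`: `wsg_mul` with the smooth factor `1/η` gives a weak gradient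
`G₁ = (1/η) • G₀ + W • ∇(1/η)` of `χ v`.  To get compact support multiply once more by a cutoff
`wsCut j` which is `1` on `tsupport χ` (`wsCut_eq_one`; a compact set is contained in a ball):
`wsCut j * (χ v) = χ v` and `G := wsCut j • G₁ + (χ v) • ∇ (wsCut j)` is in `L²(dx)` (bounded
continuous factors on the support...) with support in the compact set `tsupport (wsCut j)`,
so `G ∈ L²(η)` by `ws_memLp_dm_of_support`.   (Alternative: `wsg_level`: `G₀ = 0` a.e. on `{W = 0}`.)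
-/
set_option autoImplicit false
set_option linter.unusedSectionVars false

open MeasureTheory Filter Topology
open scoped ContDiff ENNReal NNReal InnerProductSpace

namespace Claimed.Agent.R259

variable {E : Type} [NormedAddCommGroup E] [InnerProductSpace ℝ E] [FiniteDimensional ℝ E]
  [MeasurableSpace E] [BorelSpace E]
variable {η : E → ℝ} {κ : ℝ}

/-! ### helpers: multiplication by continuous compactly supported factors -/

theorem opk_bdd {F : Type} [NormedAddCommGroup F] {Z : E → F} (hZ : Continuous Z)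
    (hc : HasCompactSupport Z) : ∃ C : ℝ, 0 ≤ C ∧ ∀ x, ‖Z x‖ ≤ C := by
  obtain ⟨C, hC⟩ := hc.exists_bound_of_continuous hZ
  exact ⟨max C 0, le_max_right _ _, fun x => (hC x).trans (le_max_left _ _)⟩

theorem opk_memLp_smul {F : Type} [NormedAddCommGroup F] [NormedSpace ℝ F] {m : Measure E}
    {p : ℝ≥0∞} {u : E → ℝ} (hu : MemLp u p m) {Z : E → F} (hZ : Continuous Z)
    (hc : HasCompactSupport Z) : MemLp (fun x => u x • Z x) p m := by
  obtain ⟨C, hC0, hC⟩ := opk_bdd hZ hc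
  refine (hu.const_mul C).mono (hu.1.smul hZ.aestronglyMeasurable)
    (Eventually.of_forall fun x => ?_)
  rw [norm_smul, norm_mul, Real.norm_of_nonneg hC0, mul_comm]
  exact mul_le_mul_of_nonneg_right (hC x) (norm_nonneg _)

theorem opk_memLp_smul' {F : Type} [NormedAddCommGroup F] [NormedSpace ℝ F] {m : Measure E}
    {p : ℝ≥0∞} {g : E → F} (hg : MemLp g p m) {χ : E → ℝ} (hχ : Continuous χ)
    (hc : HasCompactSupport χ) : MemLp (fun x => χ x • g x) p m := by
  obtain ⟨C, hC0, hC⟩ := opk_bdd hχ hc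
  refine (hg.const_smul C).mono (hχ.aestronglyMeasurable.smul hg.1)
    (Eventually.of_forall fun x => ?_)
  rw [norm_smul, Pi.smul_apply, norm_smul, Real.norm_of_nonneg hC0]
  exact mul_le_mul_of_nonneg_right (hC x) (norm_nonneg _)

theorem opk_memLp_mul {m : Measure E} {p : ℝ≥0∞} {u : E → ℝ} (hu : MemLp u p m) {χ : E → ℝ}
    (hχ : Continuous χ) (hc : HasCompactSupport χ) : MemLp (fun x => χ x * u x) p m :=
  opk_memLp_smul' hu hχ hc

/-- multiplication of an `H¹(m)` function by a test function. -/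
theorem opk_h1_mul {m : Measure E} {u : E → ℝ} {g : E → E} (h : H1 m u g) {χ : E → ℝ}
    (hχ : IsTest χ) :
    H1 m (fun x => χ x * u x) (fun x => χ x • g x + u x • gradient χ x) := by
  have hc1 : ContDiff ℝ 1 χ := hχ.1.of_le (by simp)
  exact ⟨wsg_mul h.1 hc1, opk_memLp_mul h.2.1 hχ.1.continuous hχ.2,
    (opk_memLp_smul' h.2.2 hχ.1.continuous hχ.2).add
      (opk_memLp_smul h.2.1 (ws_gradient_continuous hc1) (ws_gradient_hasCompactSupport hχ.2))⟩

/-- a compact set is contained in the region where a cutoff is `1`. -/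
theorem opk_cut_one {K : Set E} (hK : IsCompact K) : ∃ j : ℕ, ∀ x ∈ K, wsCut j x = 1 := by
  obtain ⟨R, hR⟩ := hK.isBounded.exists_norm_le
  obtain ⟨j, hj⟩ := exists_nat_ge R
  exact ⟨j, fun x hx => wsCut_eq_one ((hR x hx).trans (hj.trans (by linarith)))⟩

theorem opk_test_mul {χ φ : E → ℝ} (hχ : IsTest χ) (hφ : ContDiff ℝ ∞ φ) :
    IsTest (fun x => χ x * φ x) :=
  ⟨hχ.1.mul hφ, hχ.2.mul_right⟩


theorem opk_local_reg (hη : ContDiff ℝ ∞ η) (hpos : ∀ x, 0 < η x) (hκ : 0 < κ) {v : E → ℝ}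
    (hv : MemLp v 2 (dm η))
    (h : ∀ φ : E → ℝ, IsTest φ → ∫ x, v x * (φ x + κ * opA η φ x) ∂(dm η) = 0)
    {χ : E → ℝ} (hχ : IsTest χ) :
    ∃ G : E → E, H1 (dm η) (fun x => χ x * v x) G := by
  have hηc : Continuous η := hη.continuous
  have hχ1 : ContDiff ℝ 1 χ := hχ.1.of_le (by simp)
  have hlog : ContDiff ℝ ∞ (fun y => Real.log (η y)) :=
    hη.log fun x => (hpos x).ne'
  set b : E → E := gradient (fun y => Real.log (η y)) with hb
  have hbc : Continuous b := (opc_gradient_contDiff hlog).continuous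
  have hgχc : Continuous (gradient χ) := ws_gradient_continuous hχ1
  have hgχs : HasCompactSupport (gradient χ) := ws_gradient_hasCompactSupport hχ.2
  have hAχ : IsTest (opA η χ) := opc_isTest hη hpos hχ
  -- the three continuous compactly supported factors
  set ZW : E → ℝ := fun x => η x * χ x with hZW
  set ZF : E → E := fun x => (κ * η x) • (χ x • b x + (2 : ℝ) • gradient χ x) with hZF
  set Zh : E → ℝ := fun x => - κ * η x * opA η χ x with hZh
  have hZWc : Continuous ZW := hηc.mul hχ.1.continuous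
  have hZWs : HasCompactSupport ZW := hχ.2.mul_left
  have hZFc : Continuous ZF :=
    (continuous_const.mul hηc).smul ((hχ.1.continuous.smul hbc).add (hgχc.const_smul 2))
  have hZFs : HasCompactSupport ZF := by
    refine HasCompactSupport.smul_left ?_
    exact (hχ.2.smul_right).add (hgχs.smul_left (f := fun _ => (2 : ℝ)))
  have hZhc : Continuous Zh := (continuous_const.mul hηc).mul hAχ.1.continuous
  have hZhs : HasCompactSupport Zh := hAχ.2.mul_left
  -- `W`, `F`, `h`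
  set W : E → ℝ := fun x => η x * χ x * v x with hW
  set F : E → E := fun x => (κ * η x * v x) • (χ x • b x + (2 : ℝ) • gradient χ x) with hF
  set hh : E → ℝ := fun x => - κ * η x * v x * opA η χ x with hhh
  have hvol : ∀ {G : Type} [NormedAddCommGroup G] [NormedSpace ℝ G] {Z : E → G},
      Continuous Z → HasCompactSupport Z → MemLp (fun x => v x • Z x) 2 volume := by
    intro G _ _ Z hZ hc
    refine ws_memLp_vol_of_support hηc hpos (opk_memLp_smul hv hZ hc) hc ?_
    intro x hx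
    refine subset_tsupport _ ?_
    intro h0
    exact hx (by simp [h0])
  have hW2 : MemLp W 2 volume := by
    have e : W = fun x => v x • ZW x := by
      funext x
      simp only [hW, hZW, smul_eq_mul]
      ring
    rw [e]
    exact hvol hZWc hZWs
  have hF2 : MemLp F 2 volume := by
    have e : F = fun x => v x • ZF x := by
      funext x
      simp only [hF, hZF, smul_smul]
      congr 1
      ring
    rw [e]
    exact hvol hZFc hZFs
  have hh2 : MemLp hh 2 volume := by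
    have e : hh = fun x => v x • Zh x := by
      funext x
      simp only [hhh, hZh, smul_eq_mul]
      ring
    rw [e]
    exact hvol hZhc hZhs
  have hWs : HasCompactSupport W := (hχ.2.mul_left (f := η)).mul_right
  -- the flat equation
  have hid : ∀ φ : E → ℝ, IsTest φ →
      ∫ x, W x * (φ x - κ * Laplacian.laplacian φ x)
        = (∫ x, inner ℝ (F x) (gradient φ x)) + ∫ x, hh x * φ x := by
    intro φ hφ
    have hφ1 : ContDiff ℝ 1 φ := hφ.1.of_le (by simp)
    have hζ : IsTest (fun x => χ x * φ x) := opk_test_mul hχ hφ.1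
    have h0 := h _ hζ
    rw [ws_integral_dm hηc.measurable (fun x => (hpos x).le)] at h0
    have hLc : Continuous (Laplacian.laplacian φ) := (opc_laplacian_contDiff hφ.1).continuous
    have hLs : HasCompactSupport (Laplacian.laplacian φ) := by
      have h := opc_hasCompactSupport (fun _ : E => (1 : ℝ)) hφ.2
      have e : opA (fun _ : E => (1 : ℝ)) φ = fun x => - Laplacian.laplacian φ x :=
        funext fun x => opc_one φ x
      rw [e] at h
      have e2 : Laplacian.laplacian φ = -(fun x => - Laplacian.laplacian φ x) := by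
        funext x; simp
      rw [e2]
      exact h.neg
    have i1 : Integrable (fun x => W x * (φ x - κ * Laplacian.laplacian φ x)) volume := by
      refine ws_integrable_mul hW2 ?_
      refine (hφ.1.continuous.sub (continuous_const.mul hLc)).memLp_of_hasCompactSupport ?_
      exact hφ.2.sub (hLs.mul_left (f := fun _ => κ))
    have i2 : Integrable (fun x => inner ℝ (F x) (gradient φ x)) volume :=
      ws_integrable_inner hF2 ((ws_gradient_continuous hφ1).memLp_of_hasCompactSupport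
        (ws_gradient_hasCompactSupport hφ.2))
    have i3 : Integrable (fun x => hh x * φ x) volume :=
      ws_integrable_mul hh2 (hφ.1.continuous.memLp_of_hasCompactSupport hφ.2)
    have e : ∀ x, η x • (v x * (χ x * φ x + κ * opA η (fun x => χ x * φ x) x))
        = W x * (φ x - κ * Laplacian.laplacian φ x) - inner ℝ (F x) (gradient φ x)
          - hh x * φ x := by
      intro x
      rw [opc_mul (hχ.1.contDiffAt.of_le ENat.LEInfty.out) (hφ.1.contDiffAt.of_le ENat.LEInfty.out), opc_scalar η φ x]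
      simp only [hW, hF, hhh, inner_smul_left, inner_add_left, smul_eq_mul, ← hb]
      simp
      ring
    simp only [e] at h0
    have i12 : Integrable (fun x => W x * (φ x - κ * Laplacian.laplacian φ x)
        - inner ℝ (F x) (gradient φ x)) volume := i1.sub i2
    rw [integral_sub i12 i3, integral_sub i1 i2] at h0
    linarith
  obtain ⟨G₀, hG₀, hG₀2⟩ := opk_flat_reg hκ hW2 hWs hF2 hh2 hid
  -- divide by `η`, with a cutoff
  obtain ⟨j, hj⟩ := opk_cut_one (E := E) hχ.2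
  have hinv : ContDiff ℝ ∞ (fun x => (η x)⁻¹) := hη.inv fun x => (hpos x).ne'
  have hθ : IsTest (fun x => wsCut j x * (η x)⁻¹) := opk_test_mul (wsCut_isTest j) hinv
  set θ : E → ℝ := fun x => wsCut j x * (η x)⁻¹ with hθd
  have hθ1 : ContDiff ℝ 1 θ := hθ.1.of_le (by simp)
  have hwg := wsg_mul hG₀ hθ1
  have e : (fun x => θ x * W x) = fun x => χ x * v x := by
    funext x
    simp only [hθd, hW]
    by_cases hx : x ∈ tsupport χ
    · rw [hj x hx]
      field_simp [(hpos x).ne']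
    · rw [image_eq_zero_of_notMem_tsupport hx]
      simp
  rw [e] at hwg
  refine ⟨_, hwg, opk_memLp_mul hv hχ.1.continuous hχ.2, ?_⟩
  have hgθc : Continuous (gradient θ) := ws_gradient_continuous hθ1
  have hgθs : HasCompactSupport (gradient θ) := ws_gradient_hasCompactSupport hθ.2
  refine MemLp.add ?_ ?_
  · refine ws_memLp_dm_of_support hηc (opk_memLp_smul' hG₀2 hθ.1.continuous hθ.2) hθ.2 ?_
    intro x hx
    refine subset_tsupport _ ?_
    intro h0
    exact hx (by simp [h0])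
  · refine ws_memLp_dm_of_support hηc (opk_memLp_smul hW2 hgθc hgθs) hgθs ?_
    intro x hx
    refine subset_tsupport _ ?_
    intro h0
    exact hx (by simp [h0])

end Claimed.Agent.R259
end

/- ===== packed: Claimed.Agent.R259.OpCacc ===== -/
section
/-
Row 259, kit OP, LEAF L-op-cacc: Caccioppoli estimate and ESSENTIAL SELF-ADJOINTNESS (dual form).

PROOF of `opk_cacc`.  Write `V := χ' v`.
(1) For a test function `φ`, `ζ := χ φ` is a test function; `ζ` and `opA η ζ` vanish outside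
    `tsupport χ` (`opc_tsupport_subset`, `tsupport_mul_subset_left`, `image_eq_zero_of_notMem_tsupport`)
    and `V = v` on `tsupport χ`, so `0 = ∫ v (ζ + κ A ζ) dη = ∫ V (ζ + κ A ζ) dη
      = ∫ V χ φ dη + κ ∫ ⟪GV, ∇ζ⟫ dη` (`wsh_ibp_test`), `∇ζ = χ ∇φ + φ ∇χ` (`ws_gradient_mul`).
(2) Both sides are continuous in `φ` for the `H¹(η)` norm (`χ`, `∇χ` bounded): by `wsh_dense`,
    `ws_tendsto_mul`, `ws_tendsto_inner`:  for EVERY `H1 (dm η) z gz`:
      `0 = ∫ V χ z dη + κ ∫ ⟪GV, χ • gz + z • ∇χ⟫ dη`.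
(3) Take `z := χ V`, `gz := χ • GV + V • ∇χ` (`wsg_mul`; `L²` because `χ, ∇χ` are bounded):
      `⟪GV, χ • gz + z • ∇χ⟫ = |χ GV + V ∇χ|² - V² |∇χ|²`,
    so `∫ χ² V² dη ≤ κ ∫ |∇χ|² V² dη`;  `χ² V² = χ² v²`, `|∇χ|² V² = |∇χ|² v²` pointwise
    (`∇χ = 0` off `tsupport χ`: `ws_tsupport_gradient_subset`).

PROOF of `opk_core_dual`.  `χ := wsCut j`, `χ' := wsCut j'` with `j'` so large that `wsCut j' = 1`
on `tsupport (wsCut j)` (compact, hence bounded; `wsCut_eq_one`), `GV` from `opk_local_reg`.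
`|∇ wsCut j| ≤ M/(j+1)` (`wsCut_grad_bound`), so `∫ (wsCut j)² v² dη ≤ κ (M/(j+1))² ∫ v² dη → 0`,
while `∫ (wsCut j)² v² dη → ∫ v² dη` (dominated convergence, `wsCut_eventually`, `wsCut_le_one`).
Hence `∫ v² dη = 0`, `v = 0` `dm η`-a.e. (`ws_ae_zero_of_sq`), and a.e. (`ws_ae_dm_iff`).
-/
set_option autoImplicit false
set_option linter.unusedSectionVars false

open MeasureTheory Filter Topology
open scoped ContDiff ENNReal NNReal InnerProductSpace

namespace Claimed.Agent.R259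

variable {E : Type} [NormedAddCommGroup E] [InnerProductSpace ℝ E] [FiniteDimensional ℝ E]
  [MeasurableSpace E] [BorelSpace E]
variable {η : E → ℝ} {κ : ℝ}

/-- `L²` convergence is preserved by multiplication with a bounded factor (scalar case). -/
theorem opk_tendsto_mul_bdd {m : Measure E} {f : ℕ → E → ℝ} {f' : E → ℝ}
    (hf : ∀ k, MemLp (f k) 2 m) (hf' : MemLp f' 2 m)
    (h : Tendsto (fun k => ∫ x, (f k x - f' x) ^ 2 ∂m) atTop (𝓝 0)) {χ : E → ℝ} {C : ℝ}
    (hC : ∀ x, ‖χ x‖ ≤ C) :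
    Tendsto (fun k => ∫ x, (χ x * f k x - χ x * f' x) ^ 2 ∂m) atTop (𝓝 0) := by
  have h2 : Tendsto (fun k => C ^ 2 * ∫ x, (f k x - f' x) ^ 2 ∂m) atTop (𝓝 0) := by
    simpa using h.const_mul (C ^ 2)
  refine squeeze_zero (fun k => integral_nonneg fun x => by positivity) (fun k => ?_) h2
  rw [← integral_const_mul]
  refine integral_mono_of_nonneg (Eventually.of_forall fun x => by positivity)
    (((hf k).sub hf').integrable_sq.const_mul _) (Eventually.of_forall fun x => ?_)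
  have e : (χ x * f k x - χ x * f' x) ^ 2 = χ x ^ 2 * (f k x - f' x) ^ 2 := by ring
  simp only [e]
  have h3 : χ x ^ 2 ≤ C ^ 2 := by
    have := pow_le_pow_left₀ (norm_nonneg _) (hC x) 2
    simpa using this
  exact mul_le_mul_of_nonneg_right h3 (by positivity)


/-- `L²` convergence of `χ • g k + f k • Z` for bounded `χ`, `Z`. -/
theorem opk_tendsto_grad_bdd {m : Measure E} {f : ℕ → E → ℝ} {f' : E → ℝ} {g : ℕ → E → E}
    {g' : E → E} (hf : ∀ k, MemLp (f k) 2 m) (hf' : MemLp f' 2 m) (hg : ∀ k, MemLp (g k) 2 m)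
    (hg' : MemLp g' 2 m)
    (h1 : Tendsto (fun k => ∫ x, (f k x - f' x) ^ 2 ∂m) atTop (𝓝 0))
    (h2 : Tendsto (fun k => ∫ x, ‖g k x - g' x‖ ^ 2 ∂m) atTop (𝓝 0)) {χ : E → ℝ} {Z : E → E}
    {C : ℝ} (hC : ∀ x, ‖χ x‖ ≤ C) (hZ : ∀ x, ‖Z x‖ ≤ C) :
    Tendsto (fun k => ∫ x, ‖(χ x • g k x + f k x • Z x) - (χ x • g' x + f' x • Z x)‖ ^ 2 ∂m)
      atTop (𝓝 0) := by
  have h3 : Tendsto (fun k => 2 * C ^ 2 * ((∫ x, ‖g k x - g' x‖ ^ 2 ∂m)
      + ∫ x, (f k x - f' x) ^ 2 ∂m)) atTop (𝓝 0) := by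
    simpa using (h2.add h1).const_mul (2 * C ^ 2)
  refine squeeze_zero (fun k => integral_nonneg fun x => by positivity) (fun k => ?_) h3
  have i1 : Integrable (fun x => ‖g k x - g' x‖ ^ 2) m := ws_integrable_sq ((hg k).sub hg')
  have i2 : Integrable (fun x => (f k x - f' x) ^ 2) m := ((hf k).sub hf').integrable_sq
  rw [← integral_add i1 i2, ← integral_const_mul]
  refine integral_mono_of_nonneg (Eventually.of_forall fun x => by positivity)
    ((i1.add i2).const_mul _) (Eventually.of_forall fun x => ?_)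
  have e : (χ x • g k x + f k x • Z x) - (χ x • g' x + f' x • Z x)
      = χ x • (g k x - g' x) + (f k x - f' x) • Z x := by
    rw [smul_sub, sub_smul]; abel
  have hC0 : 0 ≤ C := (norm_nonneg _).trans (hC x)
  have n1 : ‖χ x • (g k x - g' x) + (f k x - f' x) • Z x‖
      ≤ C * ‖g k x - g' x‖ + C * |f k x - f' x| := by
    refine (norm_add_le _ _).trans ?_
    rw [norm_smul, norm_smul, Real.norm_eq_abs (f k x - f' x), mul_comm |f k x - f' x|]
    exact add_le_add (mul_le_mul_of_nonneg_right (hC x) (norm_nonneg _))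
      (mul_le_mul_of_nonneg_right (hZ x) (abs_nonneg _))
  simp only [e]
  have n2 := pow_le_pow_left₀ (norm_nonneg _) n1 2
  refine n2.trans ?_
  have e2 : (f k x - f' x) ^ 2 = |f k x - f' x| ^ 2 := (sq_abs _).symm
  rw [e2]
  nlinarith [sq_nonneg (C * ‖g k x - g' x‖ - C * |f k x - f' x|)]

theorem opk_cacc (hη : ContDiff ℝ ∞ η) (hpos : ∀ x, 0 < η x) (hκ : 0 < κ) {v : E → ℝ}
    (hv : MemLp v 2 (dm η))
    (h : ∀ φ : E → ℝ, IsTest φ → ∫ x, v x * (φ x + κ * opA η φ x) ∂(dm η) = 0)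
    {χ χ' : E → ℝ} (hχ : IsTest χ) (hχ' : IsTest χ') (h1 : ∀ x ∈ tsupport χ, χ' x = 1)
    {GV : E → E} (hV : H1 (dm η) (fun x => χ' x * v x) GV) :
    ∫ x, χ x ^ 2 * v x ^ 2 ∂(dm η) ≤ κ * ∫ x, ‖gradient χ x‖ ^ 2 * v x ^ 2 ∂(dm η) := by
  have hηc : Continuous η := hη.continuous
  have hχ1 : ContDiff ℝ 1 χ := hχ.1.of_le (by simp)
  have hgχc : Continuous (gradient χ) := ws_gradient_continuous hχ1
  have hgχs : HasCompactSupport (gradient χ) := ws_gradient_hasCompactSupport hχ.2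
  set V : E → ℝ := fun x => χ' x * v x with hVd
  -- step 1: test functions
  have s1 : ∀ φ : E → ℝ, IsTest φ →
      (∫ x, V x * (χ x * φ x) ∂(dm η))
        + κ * ∫ x, inner ℝ (GV x) (χ x • gradient φ x + φ x • gradient χ x) ∂(dm η) = 0 := by
    intro φ hφ
    have hζ : IsTest (fun x => χ x * φ x) := opk_test_mul hχ hφ.1
    have h0 := h _ hζ
    have e : ∀ x, v x * (χ x * φ x + κ * opA η (fun x => χ x * φ x) x)
        = V x * (χ x * φ x) + κ * (V x * opA η (fun x => χ x * φ x) x) := by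
      intro x
      by_cases hx : x ∈ tsupport χ
      · simp only [hVd, h1 x hx]
        ring
      · have hx2 : x ∉ tsupport (fun x => χ x * φ x) :=
          fun hx' => hx (tsupport_mul_subset_left hx')
        have hx3 : x ∉ tsupport (opA η (fun x => χ x * φ x)) :=
          fun hx' => hx2 (opc_tsupport_subset η _ hx')
        rw [image_eq_zero_of_notMem_tsupport hx3, image_eq_zero_of_notMem_tsupport hx]
        simp
    simp only [e] at h0
    have i1 : Integrable (fun x => V x * (χ x * φ x)) (dm η) :=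
      ws_integrable_mul hV.2.1 (wsh_of_test hηc hζ).2.1
    have i2 : Integrable (fun x => V x * opA η (fun x => χ x * φ x) x) (dm η) :=
      ws_integrable_mul hV.2.1 (opm_memLp_opA hη hpos hζ)
    rw [integral_add i1 (i2.const_mul κ), integral_const_mul,
      ← wsh_ibp_test hη hpos hV.1 hζ] at h0
    rw [← h0]
    congr 2
    refine integral_congr_ae (Eventually.of_forall fun x => ?_)
    simp only
    rw [ws_gradient_mul (hχ.1.differentiable (by simp) x) (hφ.1.differentiable (by simp) x)]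
  -- step 2: all of `H¹`
  obtain ⟨C₁, -, hC₁⟩ := opk_bdd hχ.1.continuous hχ.2
  obtain ⟨C₂, -, hC₂⟩ := opk_bdd hgχc hgχs
  have hCa : ∀ x, ‖χ x‖ ≤ max C₁ C₂ := fun x => (hC₁ x).trans (le_max_left _ _)
  have hCb : ∀ x, ‖gradient χ x‖ ≤ max C₁ C₂ := fun x => (hC₂ x).trans (le_max_right _ _)
  have s2 : ∀ (z : E → ℝ) (gz : E → E), H1 (dm η) z gz →
      (∫ x, V x * (χ x * z x) ∂(dm η))
        + κ * ∫ x, inner ℝ (GV x) (χ x • gz x + z x • gradient χ x) ∂(dm η) = 0 := by
    intro z gz hz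
    obtain ⟨φ, hφ, -, -, t1, t2⟩ := wsh_dense hηc hpos hz
    have hH : ∀ k, H1 (dm η) (φ k) (gradient (φ k)) := fun k => wsh_of_test hηc (hφ k)
    have l1 : Tendsto (fun k => ∫ x, V x * (χ x * φ k x) ∂(dm η)) atTop
        (𝓝 (∫ x, V x * (χ x * z x) ∂(dm η))) := by
      refine ws_tendsto_mul (f := fun _ => V) (fun _ => hV.2.1) hV.2.1
        (fun k => (opk_h1_mul (hH k) hχ).2.1) (opk_h1_mul hz hχ).2.1 (by simp) ?_
      exact opk_tendsto_mul_bdd (fun k => (hH k).2.1) hz.2.1 t1 hCa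
    have l2 : Tendsto (fun k => ∫ x, inner ℝ (GV x)
          (χ x • gradient (φ k) x + φ k x • gradient χ x) ∂(dm η)) atTop
        (𝓝 (∫ x, inner ℝ (GV x) (χ x • gz x + z x • gradient χ x) ∂(dm η))) := by
      refine ws_tendsto_inner (f := fun _ => GV) (fun _ => hV.2.2) hV.2.2
        (fun k => (opk_h1_mul (hH k) hχ).2.2) (opk_h1_mul hz hχ).2.2 (by simp) ?_
      exact opk_tendsto_grad_bdd (fun k => (hH k).2.1) hz.2.1 (fun k => (hH k).2.2) hz.2.2 t1 t2
        hCa hCb
    have l3 := l1.add (l2.const_mul κ)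
    simp only [s1 _ (hφ _)] at l3
    exact (tendsto_nhds_unique l3 tendsto_const_nhds)
  -- step 3: `z = χ V`
  have hz := opk_h1_mul hV hχ
  have s3 := s2 _ _ hz
  have e1 : ∀ x, inner ℝ (GV x)
      (χ x • (χ x • GV x + V x • gradient χ x) + (χ x * V x) • gradient χ x)
      = ‖χ x • GV x + V x • gradient χ x‖ ^ 2 - ‖gradient χ x‖ ^ 2 * V x ^ 2 := by
    intro x
    rw [← real_inner_self_eq_norm_sq, ← real_inner_self_eq_norm_sq]
    simp only [inner_add_left, inner_add_right, inner_smul_left, inner_smul_right]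
    simp only [real_inner_comm (GV x) (gradient χ x)]
    simp
    ring
  simp only [e1] at s3
  have eV1 : ∀ x, V x * (χ x * (χ x * V x)) = χ x ^ 2 * v x ^ 2 := by
    intro x
    by_cases hx : x ∈ tsupport χ
    · simp only [hVd, h1 x hx]
      ring
    · rw [image_eq_zero_of_notMem_tsupport hx]
      simp
  have eV2 : ∀ x, ‖gradient χ x‖ ^ 2 * V x ^ 2 = ‖gradient χ x‖ ^ 2 * v x ^ 2 := by
    intro x
    by_cases hx : x ∈ tsupport χ
    · simp only [hVd, h1 x hx]
      ring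
    · have hx2 : x ∉ tsupport (gradient χ) := fun hx' => hx (ws_tsupport_gradient_subset χ hx')
      rw [image_eq_zero_of_notMem_tsupport hx2]
      simp
  simp only [eV1, eV2] at s3
  have i1 : Integrable (fun x => ‖χ x • GV x + V x • gradient χ x‖ ^ 2) (dm η) :=
    ws_integrable_sq hz.2.2
  have i2 : Integrable (fun x => ‖gradient χ x‖ ^ 2 * v x ^ 2) (dm η) := by
    have := ws_integrable_sq (opk_memLp_smul hv hgχc hgχs)
    refine this.congr (Eventually.of_forall fun x => ?_)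
    simp only [norm_smul, mul_pow, Real.norm_eq_abs, sq_abs]
    ring
  rw [integral_sub i1 i2] at s3
  have p1 : 0 ≤ ∫ x, ‖χ x • GV x + V x • gradient χ x‖ ^ 2 ∂(dm η) :=
    integral_nonneg fun x => by positivity
  nlinarith [mul_nonneg hκ.le p1]

/-- ESSENTIAL SELF-ADJOINTNESS, dual form. -/
theorem opk_core_dual (hη : ContDiff ℝ ∞ η) (hpos : ∀ x, 0 < η x) (hκ : 0 < κ) {v : E → ℝ}
    (hv : MemLp v 2 (dm η))
    (h : ∀ φ : E → ℝ, IsTest φ → ∫ x, v x * (φ x + κ * opA η φ x) ∂(dm η) = 0) :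
    v =ᵐ[volume] 0 := by
  have hηc : Continuous η := hη.continuous
  obtain ⟨M, hM0, hM⟩ := wsCut_grad_bound (E := E)
  have iv : Integrable (fun x => v x ^ 2) (dm η) := hv.integrable_sq
  set I : ℝ := ∫ x, v x ^ 2 ∂(dm η) with hI
  -- Caccioppoli with the cutoffs
  have c1 : ∀ j : ℕ, ∫ x, wsCut j x ^ 2 * v x ^ 2 ∂(dm η) ≤ κ * ((M / ((j : ℝ) + 1)) ^ 2 * I) := by
    intro j
    obtain ⟨j', hj'⟩ := opk_cut_one (E := E) (wsCut_hasCompactSupport j)
    obtain ⟨GV, hGV⟩ := opk_local_reg hη hpos hκ hv h (wsCut_isTest j')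
    refine (opk_cacc hη hpos hκ hv h (wsCut_isTest j) (wsCut_isTest j') hj' hGV).trans ?_
    refine mul_le_mul_of_nonneg_left ?_ hκ.le
    rw [hI, ← integral_const_mul]
    refine integral_mono_of_nonneg (Eventually.of_forall fun x => by positivity)
      (iv.const_mul _) (Eventually.of_forall fun x => ?_)
    exact mul_le_mul_of_nonneg_right (pow_le_pow_left₀ (norm_nonneg _) (hM j x) 2) (by positivity)
  have l1 : Tendsto (fun j : ℕ => ∫ x, wsCut j x ^ 2 * v x ^ 2 ∂(dm η)) atTop (𝓝 I) := by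
    refine tendsto_integral_of_dominated_convergence (fun x => v x ^ 2)
      (fun j => (((wsCut_contDiff j).continuous.pow 2).aestronglyMeasurable.mul iv.1)) iv
      (fun j => Eventually.of_forall fun x => ?_) (Eventually.of_forall fun x => ?_)
    · rw [Real.norm_of_nonneg (by positivity)]
      exact mul_le_of_le_one_left (by positivity)
        (pow_le_one₀ (wsCut_nonneg j x) (wsCut_le_one j x))
    · refine tendsto_const_nhds.congr' ?_
      filter_upwards [wsCut_eventually x] with j hj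
      rw [wsCut_eq_one hj.le]
      simp
  have l2 : Tendsto (fun j : ℕ => κ * ((M / ((j : ℝ) + 1)) ^ 2 * I)) atTop (𝓝 0) := by
    have a1 : Tendsto (fun j : ℕ => M / ((j : ℝ) + 1)) atTop (𝓝 0) :=
      tendsto_const_nhds.div_atTop
        (tendsto_atTop_add_const_right _ _ tendsto_natCast_atTop_atTop)
    have a2 := ((a1.pow 2).mul_const I).const_mul κ
    simpa using a2
  have hI0 : I ≤ 0 := le_of_tendsto_of_tendsto' l1 l2 c1
  have hI1 : ∫ x, ‖v x‖ ^ 2 ∂(dm η) = 0 := by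
    have : 0 ≤ I := integral_nonneg fun x => by positivity
    simp only [Real.norm_eq_abs, sq_abs]
    exact le_antisymm hI0 this
  exact (ws_ae_dm_iff hηc.measurable hpos).1 (ws_ae_zero_of_sq hv hI1)

end Claimed.Agent.R259
end

/- ===== packed: Claimed.Agent.R259.OpDense ===== -/
section
/-
Row 259, kit OP, LEAF L-op-dense: density of `(1 + κ A_η) C_c^∞`, operator core, maximal domain
(all from `opk_core_dual`, soft functional analysis).

PROOF of `opn_core_dense`.  In `H := Lp ℝ 2 (dm η)` let `K` be the submodule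
`{ toLp (φ + κ A φ) | φ test }` (closed under `+`, `•` by `opc_add`, `opc_const_smul`; membership in
`L²`: `opm_memLp_opA`, `wsh_of_test`).  `Kᗮ = ⊥`: for `w ∈ Kᗮ`, `v := w` (coercion) satisfies the
hypothesis of `opk_core_dual` (`L2.inner_def`, `MemLp.coeFn_toLp`), so `w = 0`.
`Submodule.topologicalClosure_eq_top_iff` gives density; `Metric.mem_closure_iff` with `√ε` and
`ws_integral_sq_eq` / `Lp.norm_def` translate back.

PROOF of `opn_core`.  `u := f + h`; `opr_of_dom 1 hd : IsRes η 1 u f gf`.  Choose tests `φ k` with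
`∫ (φ k + A φ k - u)² ≤ 1/(k+1)`; `opm_res_test : IsRes η 1 (φ k + A φ k) (φ k) (∇φ k)`;
`opr_sub` + `opr_contract`: `∫ (φ k - f)² + 2 ∫ |∇φ k - gf|² ≤ 1/(k+1)`; and
`A φ k - h = (φ k + A φ k - u) - (φ k - f)`, `(a - b)² ≤ 2a² + 2b²`.

PROOF of `opn_maxdom`.  `u := f + h ∈ L²`, `(w, gw)` with `IsRes η 1 u w gw` (`opr_exists`).
For a test `φ`: `∫ w (φ + Aφ) = ∫ w φ + ∫ ⟪gw, ∇φ⟫ = ∫ u φ` (`wsh_ibp_test`, `IsRes` with
`z = φ`) and `∫ f (φ + A φ) = ∫ f φ + ∫ h φ = ∫ u φ`.  So `v := f - w` is killed: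
`opk_core_dual` gives `f = w` a.e.; `opr_iff_dom`: `IsDomA η w gw (u - w)`; transport along
`w = f`, `u - w = h` a.e. with `opn_dom_congr`.
-/
set_option autoImplicit false
set_option linter.unusedSectionVars false

open MeasureTheory Filter Topology
open scoped ContDiff ENNReal NNReal InnerProductSpace

namespace Claimed.Agent.R259

variable {E : Type} [NormedAddCommGroup E] [InnerProductSpace ℝ E] [FiniteDimensional ℝ E]
  [MeasurableSpace E] [BorelSpace E]
variable {η : E → ℝ} {κ : ℝ}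

theorem opn_dom_congr {f f' h h' : E → ℝ} {gf gf' : E → E} (hd : IsDomA η f gf h)
    (hf : f =ᵐ[volume] f') (hg : gf =ᵐ[volume] gf') (hh : h =ᵐ[volume] h') :
    IsDomA η f' gf' h' := by
  have hf' := (ws_dm_ac η).ae_le hf
  have hg' := (ws_dm_ac η).ae_le hg
  have hh' := (ws_dm_ac η).ae_le hh
  refine ⟨⟨wsg_congr hd.1.1 hf hg, hd.1.2.1.ae_eq hf', hd.1.2.2.ae_eq hg'⟩, hd.2.1.ae_eq hh',
    fun z gz hz => ?_⟩
  have e2 : ∫ x, ⟪gf' x, gz x⟫_ℝ ∂(dm η) = ∫ x, ⟪gf x, gz x⟫_ℝ ∂(dm η) := by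
    refine integral_congr_ae ?_
    filter_upwards [hg'] with x hx
    rw [hx]
  have e3 : ∫ x, h' x * z x ∂(dm η) = ∫ x, h x * z x ∂(dm η) := by
    refine integral_congr_ae ?_
    filter_upwards [hh'] with x hx
    rw [hx]
  rw [e2, e3]
  exact hd.2.2 z gz hz

/-- the function `φ + κ A_η φ` of a test function is in `L²(η)`. -/
theorem opn_memLp_img (hη : ContDiff ℝ ∞ η) (hpos : ∀ x, 0 < η x) (κ : ℝ) {φ : E → ℝ}
    (hφ : IsTest φ) : MemLp (fun x => φ x + κ * opA η φ x) 2 (dm η) :=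
  (wsh_of_test hη.continuous hφ).2.1.add ((opm_memLp_opA hη hpos hφ).const_mul κ)

theorem opn_test_cd2 {g : E → ℝ} (hg : IsTest g) (x : E) : ContDiffAt ℝ 2 g x :=
  hg.1.contDiffAt.of_le ENat.LEInfty.out

theorem opn_test_add {φ ψ : E → ℝ} (hφ : IsTest φ) (hψ : IsTest ψ) :
    IsTest (fun x => φ x + ψ x) := ⟨hφ.1.add hψ.1, hφ.2.add hψ.2⟩

theorem opn_test_smul (c : ℝ) {φ : E → ℝ} (hφ : IsTest φ) :
    IsTest (fun x => c • φ x) :=
  ⟨hφ.1.const_smul c, HasCompactSupport.smul_left (f := fun _ : E => c) hφ.2⟩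

theorem opn_test_zero : IsTest (fun _ : E => (0 : ℝ)) := ⟨contDiff_const, HasCompactSupport.zero⟩

/-- the carrier of `(1 + κ A_η) C_c^∞` in `L²(η)`. -/
def opnS (η : E → ℝ) (κ : ℝ) : Set (Lp ℝ 2 (dm η)) :=
  {w | ∃ φ : E → ℝ, IsTest φ ∧ (w : E → ℝ) =ᵐ[dm η] fun x => φ x + κ * opA η φ x}

theorem opnS_add {a b : Lp ℝ 2 (dm η)} (ha : a ∈ opnS η κ) (hb : b ∈ opnS η κ) :
    a + b ∈ opnS η κ := by
  obtain ⟨φ, hφ, h1⟩ := ha
  obtain ⟨ψ, hψ, h2⟩ := hb
  refine ⟨fun x => φ x + ψ x, opn_test_add hφ hψ, ?_⟩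
  filter_upwards [h1, h2, Lp.coeFn_add a b] with x e1 e2 e3
  rw [e3, Pi.add_apply, e1, e2, opc_add (opn_test_cd2 hφ x) (opn_test_cd2 hψ x)]
  ring

theorem opnS_zero : (0 : Lp ℝ 2 (dm η)) ∈ opnS η κ := by
  refine ⟨fun _ => 0, opn_test_zero, ?_⟩
  filter_upwards [Lp.coeFn_zero ℝ 2 (dm η)] with x e
  rw [e, opc_const]
  simp

theorem opnS_smul (c : ℝ) {a : Lp ℝ 2 (dm η)} (ha : a ∈ opnS η κ) : c • a ∈ opnS η κ := by
  obtain ⟨φ, hφ, h1⟩ := ha
  refine ⟨fun x => c • φ x, opn_test_smul c hφ, ?_⟩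
  filter_upwards [h1, Lp.coeFn_smul c a] with x e1 e3
  rw [e3, Pi.smul_apply, e1, opc_const_smul c (opn_test_cd2 hφ x)]
  simp only [smul_eq_mul]
  ring

/-- the submodule `(1 + κ A_η) C_c^∞` of `L²(η)`. -/
def opnK (η : E → ℝ) (κ : ℝ) : Submodule ℝ (Lp ℝ 2 (dm η)) where
  carrier := opnS η κ
  add_mem' := opnS_add
  zero_mem' := opnS_zero
  smul_mem' := opnS_smul

/-- generates the equation lemmas of the definitions above in this file (rule 6: unique names) -/
theorem opn_eqns_cite : True := by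
  have := @opnS.eq_1
  have := @opnK.eq_1
  trivial

theorem opnK_orth (hη : ContDiff ℝ ∞ η) (hpos : ∀ x, 0 < η x) (hκ : 0 < κ) :
    (opnK η κ)ᗮ = ⊥ := by
  rw [Submodule.eq_bot_iff]
  intro w hw
  rw [Submodule.mem_orthogonal] at hw
  have hv : MemLp (w : E → ℝ) 2 (dm η) := Lp.memLp w
  have key : (w : E → ℝ) =ᵐ[volume] 0 := by
    refine opk_core_dual hη hpos hκ hv fun φ hφ => ?_
    have hm := opn_memLp_img hη hpos κ hφ
    have hmem : hm.toLp _ ∈ opnK η κ := ⟨φ, hφ, hm.coeFn_toLp⟩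
    have h0 := hw _ hmem
    rw [L2.inner_def] at h0
    rw [← h0]
    refine integral_congr_ae ?_
    filter_upwards [hm.coeFn_toLp] with x e
    rw [e]
    simp
  rw [Lp.eq_zero_iff_ae_eq_zero]
  exact (ws_dm_ac η).ae_le key

/-- ESSENTIAL SELF-ADJOINTNESS: `(1 + κ A_η) C_c^∞` is dense in `L²(η)`. -/
theorem opn_core_dense (hη : ContDiff ℝ ∞ η) (hpos : ∀ x, 0 < η x) (hκ : 0 < κ) {u : E → ℝ}
    (hu : MemLp u 2 (dm η)) {ε : ℝ} (hε : 0 < ε) :
    ∃ φ : E → ℝ, IsTest φ ∧ ∫ x, (φ x + κ * opA η φ x - u x) ^ 2 ∂(dm η) ≤ ε := by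
  have hd := (Submodule.topologicalClosure_eq_top_iff (K := opnK η κ)).2 (opnK_orth hη hpos hκ)
  have hmem : hu.toLp u ∈ closure ((opnK η κ : Submodule ℝ (Lp ℝ 2 (dm η))) : Set (Lp ℝ 2 (dm η))) := by
    have : hu.toLp u ∈ (opnK η κ).topologicalClosure := by
      rw [hd]; exact Submodule.mem_top
    exact this
  obtain ⟨b, ⟨φ, hφ, hb⟩, hdist⟩ := Metric.mem_closure_iff.1 hmem (Real.sqrt ε) (Real.sqrt_pos.2 hε)
  refine ⟨φ, hφ, ?_⟩
  have hm := opn_memLp_img hη hpos κ hφ
  have hbe : b = hm.toLp _ := by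
    refine Lp.ext ?_
    exact hb.trans hm.coeFn_toLp.symm
  rw [hbe, dist_comm, dist_eq_norm, ← MemLp.toLp_sub, Lp.norm_toLp] at hdist
  have h1 := ws_integral_sq_eq (hm.sub hu)
  have h2 : ∫ x, (φ x + κ * opA η φ x - u x) ^ 2 ∂(dm η)
      = ∫ x, ‖((fun x => φ x + κ * opA η φ x) - u) x‖ ^ 2 ∂(dm η) := by
    refine integral_congr_ae (Eventually.of_forall fun x => ?_)
    simp only [Pi.sub_apply, Real.norm_eq_abs, sq_abs]
  rw [h2, h1]
  calc _ ≤ (Real.sqrt ε) ^ 2 := pow_le_pow_left₀ ENNReal.toReal_nonneg hdist.le 2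
    _ = ε := Real.sq_sqrt hε.le

theorem opn_integrable_sq' {g : E → ℝ} (hg : MemLp g 2 (dm η)) :
    Integrable (fun x => g x ^ 2) (dm η) := by
  simpa only [Real.norm_eq_abs, sq_abs] using ws_integrable_sq hg

/-- one step of the core approximation. -/
theorem opn_core_step (hη : ContDiff ℝ ∞ η) (hpos : ∀ x, 0 < η x) {f h : E → ℝ} {gf : E → E}
    (hd : IsDomA η f gf h) {φ : E → ℝ} (hφ : IsTest φ) {ε : ℝ}
    (he : ∫ x, (φ x + 1 * opA η φ x - (f x + 1 * h x)) ^ 2 ∂(dm η) ≤ ε) :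
    ∫ x, (φ x - f x) ^ 2 ∂(dm η) ≤ ε ∧ ∫ x, ‖gradient φ x - gf x‖ ^ 2 ∂(dm η) ≤ ε ∧
      ∫ x, (opA η φ x - h x) ^ 2 ∂(dm η) ≤ 4 * ε := by
  have hu : MemLp (fun x => f x + 1 * h x) 2 (dm η) := hd.1.2.1.add (hd.2.1.const_mul 1)
  have hm := opn_memLp_img hη hpos 1 hφ
  have hr := opr_sub hm hu (opm_res_test hη hpos 1 hφ) (opr_of_dom 1 hd)
  have hc : ∫ x, (φ x - f x) ^ 2 ∂(dm η) + 2 * 1 * ∫ x, ‖gradient φ x - gf x‖ ^ 2 ∂(dm η)
      ≤ ∫ x, (φ x + 1 * opA η φ x - (f x + 1 * h x)) ^ 2 ∂(dm η) :=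
    opr_contract one_pos (hm.sub hu) hr
  have a1 : 0 ≤ ∫ x, (φ x - f x) ^ 2 ∂(dm η) := integral_nonneg fun x => by positivity
  have a2 : 0 ≤ ∫ x, ‖gradient φ x - gf x‖ ^ 2 ∂(dm η) := integral_nonneg fun x => by positivity
  have i1 : Integrable (fun x => (φ x + 1 * opA η φ x - (f x + 1 * h x)) ^ 2) (dm η) :=
    opn_integrable_sq' (hm.sub hu)
  have i2 : Integrable (fun x => (φ x - f x) ^ 2) (dm η) := opn_integrable_sq' hr.1.2.1
  have h3 : ∫ x, (opA η φ x - h x) ^ 2 ∂(dm η)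
      ≤ ∫ x, (2 * (φ x + 1 * opA η φ x - (f x + 1 * h x)) ^ 2 + 2 * (φ x - f x) ^ 2) ∂(dm η) := by
    refine integral_mono
      (opn_integrable_sq' ((opm_memLp_opA hη hpos hφ).sub hd.2.1))
      ((i1.const_mul 2).add (i2.const_mul 2)) fun x => ?_
    show (opA η φ x - h x) ^ 2
      ≤ 2 * (φ x + 1 * opA η φ x - (f x + 1 * h x)) ^ 2 + 2 * (φ x - f x) ^ 2
    nlinarith [sq_nonneg ((φ x + 1 * opA η φ x - (f x + 1 * h x)) + (φ x - f x))]
  rw [integral_add (i1.const_mul 2) (i2.const_mul 2), integral_const_mul, integral_const_mul] at h3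
  refine ⟨by linarith, by linarith, by linarith⟩

/-- OPERATOR CORE. -/
theorem opn_core (hη : ContDiff ℝ ∞ η) (hpos : ∀ x, 0 < η x) {f h : E → ℝ} {gf : E → E}
    (hd : IsDomA η f gf h) :
    ∃ φ : ℕ → E → ℝ, (∀ k, IsTest (φ k)) ∧
      Tendsto (fun k => ∫ x, (φ k x - f x) ^ 2 ∂(dm η)) atTop (𝓝 0) ∧
      Tendsto (fun k => ∫ x, ‖gradient (φ k) x - gf x‖ ^ 2 ∂(dm η)) atTop (𝓝 0) ∧
      Tendsto (fun k => ∫ x, (opA η (φ k) x - h x) ^ 2 ∂(dm η)) atTop (𝓝 0) := by
  have hu : MemLp (fun x => f x + 1 * h x) 2 (dm η) := hd.1.2.1.add (hd.2.1.const_mul 1)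
  have hex : ∀ k : ℕ, ∃ φ : E → ℝ, IsTest φ ∧
      ∫ x, (φ x + 1 * opA η φ x - (f x + 1 * h x)) ^ 2 ∂(dm η) ≤ 1 / ((k : ℝ) + 1) := fun k =>
    opn_core_dense hη hpos one_pos hu (by positivity)
  choose φ hφ he using hex
  have hs := fun k => opn_core_step hη hpos hd (hφ k) (he k)
  have l1 : Tendsto (fun k : ℕ => 1 / ((k : ℝ) + 1)) atTop (𝓝 0) :=
    tendsto_one_div_add_atTop_nhds_zero_nat
  have l4 : Tendsto (fun k : ℕ => 4 * (1 / ((k : ℝ) + 1))) atTop (𝓝 0) := by
    simpa using l1.const_mul 4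
  refine ⟨φ, hφ, ?_, ?_, ?_⟩
  · exact squeeze_zero (fun k => integral_nonneg fun x => by positivity) (fun k => (hs k).1) l1
  · exact squeeze_zero (fun k => integral_nonneg fun x => by positivity) (fun k => (hs k).2.1) l1
  · exact squeeze_zero (fun k => integral_nonneg fun x => by positivity) (fun k => (hs k).2.2) l4

/-- MAXIMAL DISTRIBUTIONAL DOMAIN. -/
theorem opn_maxdom (hη : ContDiff ℝ ∞ η) (hpos : ∀ x, 0 < η x) {f h : E → ℝ}
    (hf : MemLp f 2 (dm η)) (hh : MemLp h 2 (dm η))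
    (hw : ∀ φ : E → ℝ, IsTest φ → ∫ x, f x * opA η φ x ∂(dm η) = ∫ x, h x * φ x ∂(dm η)) :
    ∃ gf : E → E, IsDomA η f gf h := by
  have hu : MemLp (fun x => f x + h x) 2 (dm η) := hf.add hh
  obtain ⟨w, gw, -, -, hr⟩ := opr_exists hη.continuous hpos one_pos hu
  have hv : MemLp (fun x => f x - w x) 2 (dm η) := hf.sub hr.1.2.1
  have key : (fun x => f x - w x) =ᵐ[volume] 0 := by
    refine opk_core_dual hη hpos one_pos hv fun φ hφ => ?_
    have hφ1 := wsh_of_test hη.continuous hφ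
    have hA := opm_memLp_opA hη hpos hφ
    have e1 := hr.2 φ (gradient φ) hφ1
    rw [wsh_ibp_test hη hpos hr.1.1 hφ] at e1
    have e2 := hw φ hφ
    have e3 : ∫ x, (f x + h x) * φ x ∂(dm η)
        = ∫ x, f x * φ x ∂(dm η) + ∫ x, h x * φ x ∂(dm η) := by
      rw [← integral_add (ws_integrable_mul hf hφ1.2.1) (ws_integrable_mul hh hφ1.2.1)]
      refine integral_congr_ae (Eventually.of_forall fun x => ?_)
      show (f x + h x) * φ x = f x * φ x + h x * φ x
      ring
    have e4 : ∫ x, (f x - w x) * (φ x + 1 * opA η φ x) ∂(dm η)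
        = (∫ x, f x * φ x ∂(dm η) + ∫ x, f x * opA η φ x ∂(dm η))
          - (∫ x, w x * φ x ∂(dm η) + ∫ x, w x * opA η φ x ∂(dm η)) := by
      have j1 : Integrable (fun x => f x * φ x + f x * opA η φ x) (dm η) :=
        (ws_integrable_mul hf hφ1.2.1).add (ws_integrable_mul hf hA)
      have j2 : Integrable (fun x => w x * φ x + w x * opA η φ x) (dm η) :=
        (ws_integrable_mul hr.1.2.1 hφ1.2.1).add (ws_integrable_mul hr.1.2.1 hA)
      rw [← integral_add (ws_integrable_mul hf hφ1.2.1) (ws_integrable_mul hf hA),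
        ← integral_add (ws_integrable_mul hr.1.2.1 hφ1.2.1) (ws_integrable_mul hr.1.2.1 hA),
        ← integral_sub j1 j2]
      refine integral_congr_ae (Eventually.of_forall fun x => ?_)
      show (f x - w x) * (φ x + 1 * opA η φ x)
        = f x * φ x + f x * opA η φ x - (w x * φ x + w x * opA η φ x)
      ring
    rw [e4, e2]
    linarith
  have hfw : w =ᵐ[volume] f := by
    filter_upwards [key] with x hx
    have : f x - w x = 0 := hx
    linarith
  have hdom := (opr_iff_dom one_pos hu).1 hr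
  refine ⟨gw, opn_dom_congr hdom hfw (Eventually.of_forall fun x => rfl) ?_⟩
  filter_upwards [hfw] with x hx
  rw [hx]
  simp

end Claimed.Agent.R259
end

/- ===== packed: Claimed.Agent.R259.OpVec ===== -/
section
/-
Row 259, kit OP, L-op-vec (PROVED, helper217): the core statements for fields with values in a finite dimensional
inner product space `F`, COMPONENTWISE from `opn_core_dense`, `opn_core`, `opm_dom_classical`.

Let `b := stdOrthonormalBasis ℝ F`, `u i := fun x => ⟪b i, u x⟫`.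
* `‖w‖² = ∑ i ⟪b i, w⟫²` (`OrthonormalBasis.sum_sq_norm_inner_right`/`..._left`),
  `w = ∑ i ⟪b i, w⟫ • b i` (`OrthonormalBasis.sum_repr'`);
* `opA η (fun y => ⟪e, g y⟫) x = ⟪e, opA η g x⟫` (`opc_inner_left`),
  `opA η (fun y => ∑ i, φ i y • b i) = ∑ i, opA η (φ i) • b i` (`opc_sum`, `opc_smul_const`);
* `hsSq (fderiv ℝ f x) = ∑ i, ‖gradient (fun y => ⟪b i, f y⟫) x‖²`
  (unfold `hsSq`; both sides are `∑ i j ⟪b i, Df(x) e j⟫²`; `fderiv_inner_apply` /
  `(innerSL ℝ (b i)).fderiv..comp`, `inner_gradient_left`).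
`opv_core_dense_vec`: tests `φ i` with error `≤ ε / (dim F + 1)` for `u i`; `φ := ∑ i, φ i • b i`.
`opv_core_classical_vec`: `IsDomA η (f i) (∇ f i) (A f i)` by `opm_dom_classical`; the energy identity
is the defining identity of `IsDomA` with `z = f i`; approximations from `opn_core`, summed.
-/
set_option autoImplicit false
set_option linter.unusedSectionVars false

open MeasureTheory Filter Topology
open scoped ContDiff ENNReal NNReal InnerProductSpace

namespace Claimed.Agent.R259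

variable {E : Type} [NormedAddCommGroup E] [InnerProductSpace ℝ E] [FiniteDimensional ℝ E]
  [MeasurableSpace E] [BorelSpace E]
variable {η : E → ℝ} {κ : ℝ}
variable {F : Type} [NormedAddCommGroup F] [InnerProductSpace ℝ F] [FiniteDimensional ℝ F]

theorem opv_norm_sq (w : F) : ‖w‖ ^ 2 = ∑ i, (inner ℝ (stdOrthonormalBasis ℝ F i) w) ^ 2 :=
  ((stdOrthonormalBasis ℝ F).sum_sq_inner_right w).symm

theorem opv_inner_sum (c : Fin (Module.finrank ℝ F) → ℝ) (i : Fin (Module.finrank ℝ F)) :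
    inner ℝ (stdOrthonormalBasis ℝ F i) (∑ j, c j • stdOrthonormalBasis ℝ F j) = c i :=
  (stdOrthonormalBasis ℝ F).orthonormal.inner_right_fintype c i

theorem opv_integral_norm_sq {m : Measure E} {w : E → F}
    (hw : ∀ i, MemLp (fun x => inner ℝ (stdOrthonormalBasis ℝ F i) (w x)) 2 m) :
    ∫ x, ‖w x‖ ^ 2 ∂m = ∑ i, ∫ x, (inner ℝ (stdOrthonormalBasis ℝ F i) (w x)) ^ 2 ∂m := by
  simp only [opv_norm_sq]
  refine integral_finsetSum _ fun i _ => ?_
  simpa only [Real.norm_eq_abs, sq_abs] using ws_integrable_sq (hw i)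

/-- the rows of a linear map. -/
theorem opv_hsSq (T : E →L[ℝ] F) :
    hsSq T = ∑ i, ‖(InnerProductSpace.toDual ℝ E).symm
      ((innerSL ℝ (stdOrthonormalBasis ℝ F i)).comp T)‖ ^ 2 := by
  unfold hsSq
  simp only [opv_norm_sq (F := F)]
  rw [Finset.sum_comm]
  refine Finset.sum_congr rfl fun i _ => ?_
  rw [← (stdOrthonormalBasis ℝ E).sum_sq_inner_left]
  refine Finset.sum_congr rfl fun j _ => ?_
  rw [InnerProductSpace.toDual_symm_apply]
  simp

theorem opv_gradient_inner {g : E → F} {x : E} (hg : DifferentiableAt ℝ g x) (e : F) :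
    gradient (fun y => inner ℝ e (g y)) x
      = (InnerProductSpace.toDual ℝ E).symm ((innerSL ℝ e).comp (fderiv ℝ g x)) := by
  unfold gradient
  congr 1
  exact ((innerSL ℝ e).hasFDerivAt.comp x hg.hasFDerivAt).fderiv

theorem opv_hsSq_fderiv {g : E → F} {x : E} (hg : DifferentiableAt ℝ g x) :
    hsSq (fderiv ℝ g x)
      = ∑ i, ‖gradient (fun y => inner ℝ (stdOrthonormalBasis ℝ F i) (g y)) x‖ ^ 2 := by
  rw [opv_hsSq]
  exact Finset.sum_congr rfl fun i _ => by rw [opv_gradient_inner hg]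

theorem opv_hsSq_fderiv_sub {g f : E → F} {x : E} (hg : DifferentiableAt ℝ g x)
    (hf : DifferentiableAt ℝ f x) :
    hsSq (fderiv ℝ g x - fderiv ℝ f x)
      = ∑ i, ‖gradient (fun y => inner ℝ (stdOrthonormalBasis ℝ F i) (g y)) x
          - gradient (fun y => inner ℝ (stdOrthonormalBasis ℝ F i) (f y)) x‖ ^ 2 := by
  rw [opv_hsSq]
  refine Finset.sum_congr rfl fun i _ => ?_
  rw [opv_gradient_inner hg, opv_gradient_inner hf, ContinuousLinearMap.comp_sub, map_sub]

theorem opv_hasCompactSupport_sum {ι : Type} (s : Finset ι) {f : ι → E → F}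
    (hf : ∀ i ∈ s, HasCompactSupport (f i)) : HasCompactSupport (fun x => ∑ i ∈ s, f i x) := by
  classical
  induction s using Finset.induction_on with
  | empty =>
    simp only [Finset.sum_empty]
    exact HasCompactSupport.zero (α := E) (β := F)
  | insert a s ha ih =>
    simp only [Finset.sum_insert ha]
    exact (hf a (Finset.mem_insert_self a s)).add
      (ih fun i hi => hf i (Finset.mem_insert_of_mem hi))

/-- the field with given test components. -/
theorem opv_assemble (φ : Fin (Module.finrank ℝ F) → E → ℝ) (hφ : ∀ i, IsTest (φ i)) :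
    ContDiff ℝ ∞ (fun x => ∑ i, φ i x • stdOrthonormalBasis ℝ F i) ∧
    HasCompactSupport (fun x => ∑ i, φ i x • stdOrthonormalBasis ℝ F i) ∧
    (∀ i x, inner ℝ (stdOrthonormalBasis ℝ F i) (∑ j, φ j x • stdOrthonormalBasis ℝ F j) = φ i x) ∧
    (∀ i x, inner ℝ (stdOrthonormalBasis ℝ F i)
      (opA η (fun x => ∑ j, φ j x • stdOrthonormalBasis ℝ F j) x) = opA η (φ i) x) := by
  have h2 : ∀ i x, ContDiffAt ℝ 2 (φ i) x := fun i x =>
    (hφ i).1.contDiffAt.of_le (WithTop.coe_le_coe.2 le_top)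
  refine ⟨ContDiff.sum fun i _ => (hφ i).1.smul contDiff_const,
    opv_hasCompactSupport_sum _ fun i _ => (hφ i).2.smul_right, fun i x => opv_inner_sum _ i,
    fun i x => ?_⟩
  rw [opc_sum Finset.univ (f := fun j y => φ j y • stdOrthonormalBasis ℝ F j)
    (fun j _ => (h2 j x).smul contDiffAt_const)]
  simp only [fun j => opc_smul_const (η := η) (h2 j x) (stdOrthonormalBasis ℝ F j)]
  exact opv_inner_sum _ i

theorem opv_core_dense_vec (hη : ContDiff ℝ ∞ η) (hpos : ∀ x, 0 < η x) (hκ : 0 < κ) {u : E → F}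
    (hu : MemLp u 2 (dm η)) {ε : ℝ} (hε : 0 < ε) :
    ∃ φ : E → F, ContDiff ℝ ∞ φ ∧ HasCompactSupport φ ∧
      ∫ x, ‖φ x + κ • opA η φ x - u x‖ ^ 2 ∂(dm η) ≤ ε := by
  have hδ : 0 < ε / ((Module.finrank ℝ F : ℝ) + 1) := by positivity
  have hui : ∀ i, MemLp (fun x => inner ℝ (stdOrthonormalBasis ℝ F i) (u x)) 2 (dm η) :=
    fun i => hu.const_inner _
  choose φ hφ hφe using fun i => opn_core_dense hη hpos hκ (hui i) hδ
  obtain ⟨c1, c2, c3, c4⟩ := opv_assemble (η := η) φ hφ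
  refine ⟨_, c1, c2, ?_⟩
  have hcomp : ∀ i x, inner ℝ (stdOrthonormalBasis ℝ F i)
      ((∑ j, φ j x • stdOrthonormalBasis ℝ F j)
        + κ • opA η (fun x => ∑ j, φ j x • stdOrthonormalBasis ℝ F j) x - u x)
      = φ i x + κ * opA η (φ i) x - inner ℝ (stdOrthonormalBasis ℝ F i) (u x) := by
    intro i x
    rw [inner_sub_right, inner_add_right, inner_smul_right, c3, c4]
  rw [opv_integral_norm_sq (fun i => ?_)]
  · simp only [hcomp]
    calc ∑ i, ∫ x, (φ i x + κ * opA η (φ i) x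
            - inner ℝ (stdOrthonormalBasis ℝ F i) (u x)) ^ 2 ∂(dm η)
        ≤ ∑ _i : Fin (Module.finrank ℝ F), ε / ((Module.finrank ℝ F : ℝ) + 1) :=
          Finset.sum_le_sum fun i _ => hφe i
      _ = (Module.finrank ℝ F : ℝ) * (ε / ((Module.finrank ℝ F : ℝ) + 1)) := by simp
      _ ≤ ε := by
          rw [mul_div_assoc', div_le_iff₀ (by positivity)]
          nlinarith
  · simp only [hcomp]
    exact ((wsh_of_test hη.continuous (hφ i)).2.1.add
      ((opm_memLp_opA hη hpos (hφ i)).const_mul κ)).sub (hui i)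

/-- smooth fields with `f, A_η f ∈ L²(η)`: finite energy and approximation in graph norm. -/
theorem opv_core_classical_vec (hη : ContDiff ℝ ∞ η) (hpos : ∀ x, 0 < η x) {f : E → F}
    (hf : ContDiff ℝ ∞ f) (h2 : MemLp f 2 (dm η)) (hA : MemLp (opA η f) 2 (dm η)) :
    Integrable (fun x => hsSq (fderiv ℝ f x)) (dm η) ∧
    ∫ x, hsSq (fderiv ℝ f x) ∂(dm η) = ∫ x, inner ℝ (f x) (opA η f x) ∂(dm η) ∧
    ∃ φ : ℕ → E → F, (∀ k, ContDiff ℝ ∞ (φ k) ∧ HasCompactSupport (φ k)) ∧
      Tendsto (fun k => ∫ x, ‖φ k x - f x‖ ^ 2 ∂(dm η)) atTop (𝓝 0) ∧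
      Tendsto (fun k => ∫ x, hsSq (fderiv ℝ (φ k) x - fderiv ℝ f x) ∂(dm η)) atTop (𝓝 0) ∧
      Tendsto (fun k => ∫ x, ‖opA η (φ k) x - opA η f x‖ ^ 2 ∂(dm η)) atTop (𝓝 0) := by
  have hfd : ∀ x, DifferentiableAt ℝ f x := fun x => hf.differentiable (by simp) x
  have hf2 : ∀ x, ContDiffAt ℝ 2 f x := fun x =>
    hf.contDiffAt.of_le (WithTop.coe_le_coe.2 le_top)
  have hAi : ∀ i, opA η (fun y => inner ℝ (stdOrthonormalBasis ℝ F i) (f y))
      = fun x => inner ℝ (stdOrthonormalBasis ℝ F i) (opA η f x) := fun i => by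
    funext x
    exact opc_inner_left _ (hf2 x)
  have hD : ∀ i, IsDomA η (fun y => inner ℝ (stdOrthonormalBasis ℝ F i) (f y))
      (gradient (fun y => inner ℝ (stdOrthonormalBasis ℝ F i) (f y)))
      (fun x => inner ℝ (stdOrthonormalBasis ℝ F i) (opA η f x)) := by
    intro i
    have := opm_dom_classical hη hpos (f := fun y => inner ℝ (stdOrthonormalBasis ℝ F i) (f y))
      (contDiff_const.inner ℝ hf) (h2.const_inner _) (by rw [hAi]; exact hA.const_inner _)
    rwa [hAi] at this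
  have hI : ∀ i, Integrable (fun x =>
      ‖gradient (fun y => inner ℝ (stdOrthonormalBasis ℝ F i) (f y)) x‖ ^ 2) (dm η) :=
    fun i => ws_integrable_sq (hD i).1.2.2
  refine ⟨?_, ?_, ?_⟩
  · simp only [fun x => opv_hsSq_fderiv (hfd x)]
    exact integrable_finsetSum _ fun i _ => hI i
  · simp only [fun x => opv_hsSq_fderiv (hfd x)]
    rw [integral_finsetSum _ fun i _ => hI i]
    have e1 : ∀ x, inner ℝ (f x) (opA η f x)
        = ∑ i, inner ℝ (stdOrthonormalBasis ℝ F i) (opA η f x)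
            * inner ℝ (stdOrthonormalBasis ℝ F i) (f x) := by
      intro x
      rw [← (stdOrthonormalBasis ℝ F).sum_inner_mul_inner (f x) (opA η f x)]
      refine Finset.sum_congr rfl fun i _ => ?_
      rw [real_inner_comm (f x), mul_comm]
    simp only [e1]
    rw [integral_finsetSum _ fun i _ => ws_integrable_mul (hD i).2.1 (hD i).1.2.1]
    refine Finset.sum_congr rfl fun i _ => ?_
    rw [← (hD i).2.2 _ _ (hD i).1]
    simp only [real_inner_self_eq_norm_sq]
  · choose φ hφ l1 l2 l3 using fun i => opn_core hη hpos (hD i)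
    have has := fun k => opv_assemble (η := η) (fun i => φ i k) (fun i => hφ i k)
    refine ⟨fun k x => ∑ i, φ i k x • stdOrthonormalBasis ℝ F i,
      fun k => ⟨(has k).1, (has k).2.1⟩, ?_, ?_, ?_⟩
    · have hc : ∀ k i x, inner ℝ (stdOrthonormalBasis ℝ F i)
          ((∑ j, φ j k x • stdOrthonormalBasis ℝ F j) - f x)
          = φ i k x - inner ℝ (stdOrthonormalBasis ℝ F i) (f x) := by
        intro k i x
        rw [inner_sub_right, (has k).2.2.1]
      have : ∀ k, ∫ x, ‖(∑ j, φ j k x • stdOrthonormalBasis ℝ F j) - f x‖ ^ 2 ∂(dm η)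
          = ∑ i, ∫ x, (φ i k x - inner ℝ (stdOrthonormalBasis ℝ F i) (f x)) ^ 2 ∂(dm η) := by
        intro k
        rw [opv_integral_norm_sq (fun i => ?_)]
        · simp only [hc]
        · simp only [hc]
          exact (wsh_of_test hη.continuous (hφ i k)).2.1.sub (hD i).1.2.1
      simp only [this]
      simpa using tendsto_finsetSum Finset.univ fun i _ => l1 i
    · have hg : ∀ k i, (fun y => inner ℝ (stdOrthonormalBasis ℝ F i)
          (∑ j, φ j k y • stdOrthonormalBasis ℝ F j)) = φ i k := by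
        intro k i
        funext y
        exact (has k).2.2.1 i y
      have : ∀ k, ∫ x, hsSq (fderiv ℝ (fun x => ∑ j, φ j k x • stdOrthonormalBasis ℝ F j) x
            - fderiv ℝ f x) ∂(dm η)
          = ∑ i, ∫ x, ‖gradient (φ i k) x
              - gradient (fun y => inner ℝ (stdOrthonormalBasis ℝ F i) (f y)) x‖ ^ 2 ∂(dm η) := by
        intro k
        simp only [fun x => opv_hsSq_fderiv_sub ((has k).1.differentiable (by simp) x) (hfd x), hg]
        exact integral_finsetSum _ fun i _ =>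
          ws_integrable_sq ((wsh_of_test hη.continuous (hφ i k)).2.2.sub (hD i).1.2.2)
      simp only [this]
      simpa using tendsto_finsetSum Finset.univ fun i _ => l2 i
    · have hc : ∀ k i x, inner ℝ (stdOrthonormalBasis ℝ F i)
          (opA η (fun x => ∑ j, φ j k x • stdOrthonormalBasis ℝ F j) x - opA η f x)
          = opA η (φ i k) x - inner ℝ (stdOrthonormalBasis ℝ F i) (opA η f x) := by
        intro k i x
        rw [inner_sub_right, (has k).2.2.2]
      have : ∀ k, ∫ x, ‖opA η (fun x => ∑ j, φ j k x • stdOrthonormalBasis ℝ F j) x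
            - opA η f x‖ ^ 2 ∂(dm η)
          = ∑ i, ∫ x, (opA η (φ i k) x
              - inner ℝ (stdOrthonormalBasis ℝ F i) (opA η f x)) ^ 2 ∂(dm η) := by
        intro k
        rw [opv_integral_norm_sq (fun i => ?_)]
        · simp only [hc]
        · simp only [hc]
          exact (opm_memLp_opA hη hpos (hφ i k)).sub (hD i).2.1
      simp only [this]
      simpa using tendsto_finsetSum Finset.univ fun i _ => l3 i

end Claimed.Agent.R259
end

/- ===== packed: Claimed.Agent.R259.OP ===== -/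
section
/-
Row 259, kit OP (the Dirichlet operator `A_η` on `L²(η dx)` through its resolvent): EXPORTS.
Owner: helper217 (sub-captain helper83).  Everything is stated at FUNCTION level; `Lp` classes are
used only inside the proofs (files `Op*.lean`, prefix `op`).  Every export below is a citation of
a theorem of `OpRes`, `OpBase`, `OpCacc`, `OpDense`, `OpVec`, `OpDissip`, `OpParam`.

* `IsRes η κ u v gv` : `v = (1 + κ A_η)⁻¹ u`, with weak gradient `gv`  (variational form on `H¹`);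
* `IsDomA η f gf h`  : `f ∈ Dom(A_η)`, `A_η f = h`, weak gradient `gf` (variational form on `H¹`);
* `opJ η κ u`, `opJg η κ u` : a measurable choice of the resolvent and of its gradient.
-/
set_option autoImplicit false

open MeasureTheory Filter Topology
open scoped ContDiff ENNReal

namespace Claimed.Agent.R259

variable {E : Type} [NormedAddCommGroup E] [InnerProductSpace ℝ E] [FiniteDimensional ℝ E]
  [MeasurableSpace E] [BorelSpace E]

/-! ### null sets -/

theorem op_ae_dm_iff {η : E → ℝ} (hη : Measurable η) (hpos : ∀ x, 0 < η x) {p : E → Prop} :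
    (∀ᵐ x ∂(dm η), p x) ↔ ∀ᵐ x, p x :=
  ws_ae_dm_iff hη hpos

/-! ### The resolvent: `η` continuous and positive -/

section resolvent

variable {η : E → ℝ} {κ : ℝ}

theorem op_res_exists (hη : Continuous η) (hpos : ∀ x, 0 < η x) (hκ : 0 < κ) {u : E → ℝ}
    (hu : MemLp u 2 (dm η)) :
    ∃ (v : E → ℝ) (gv : E → E), StronglyMeasurable v ∧ StronglyMeasurable gv ∧
      IsRes η κ u v gv :=
  opr_exists hη hpos hκ hu

theorem op_J_meas (η : E → ℝ) (κ : ℝ) (u : E → ℝ) : StronglyMeasurable (opJ η κ u) :=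
  opr_J_meas η κ u

theorem op_Jg_meas (η : E → ℝ) (κ : ℝ) (u : E → ℝ) : StronglyMeasurable (opJg η κ u) :=
  opr_Jg_meas η κ u

theorem op_J_spec (hη : Continuous η) (hpos : ∀ x, 0 < η x) (hκ : 0 < κ) {u : E → ℝ}
    (hu : MemLp u 2 (dm η)) : IsRes η κ u (opJ η κ u) (opJg η κ u) :=
  opr_J_spec hη hpos hκ hu

theorem op_res_unique (hκ : 0 < κ) {u v v' : E → ℝ} {gv gv' : E → E}
    (h : IsRes η κ u v gv) (h' : IsRes η κ u v' gv') :
    v =ᵐ[dm η] v' ∧ gv =ᵐ[dm η] gv' :=
  opr_unique hκ h h'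

theorem op_res_congr {u u' v v' : E → ℝ} {gv gv' : E → E} (h : IsRes η κ u v gv)
    (hu : u =ᵐ[volume] u') (hv : v =ᵐ[volume] v') (hg : gv =ᵐ[volume] gv') :
    IsRes η κ u' v' gv' :=
  opr_congr h hu hv hg

theorem op_res_add {u u' v v' : E → ℝ} {gv gv' : E → E} (hu : MemLp u 2 (dm η))
    (hu' : MemLp u' 2 (dm η)) (h : IsRes η κ u v gv) (h' : IsRes η κ u' v' gv') :
    IsRes η κ (fun x => u x + u' x) (fun x => v x + v' x) (fun x => gv x + gv' x) :=
  opr_add hu hu' h h'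

theorem op_res_smul (c : ℝ) {u v : E → ℝ} {gv : E → E} (h : IsRes η κ u v gv) :
    IsRes η κ (fun x => c * u x) (fun x => c * v x) (fun x => c • gv x) :=
  opr_smul c h

/-- energy identity. -/
theorem op_res_energy {u v : E → ℝ} {gv : E → E} (h : IsRes η κ u v gv) :
    ∫ x, v x ^ 2 ∂(dm η) + κ * ∫ x, ‖gv x‖ ^ 2 ∂(dm η) = ∫ x, u x * v x ∂(dm η) :=
  opr_energy h

/-- contraction in `L²`, with the energy gain. -/
theorem op_res_contract (hκ : 0 < κ) {u v : E → ℝ} {gv : E → E} (hu : MemLp u 2 (dm η))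
    (h : IsRes η κ u v gv) :
    ∫ x, v x ^ 2 ∂(dm η) + 2 * κ * ∫ x, ‖gv x‖ ^ 2 ∂(dm η) ≤ ∫ x, u x ^ 2 ∂(dm η) :=
  opr_contract hκ hu h

/-- symmetry. -/
theorem op_res_symm {u u' v v' : E → ℝ} {gv gv' : E → E}
    (h : IsRes η κ u v gv) (h' : IsRes η κ u' v' gv') :
    ∫ x, v x * u' x ∂(dm η) = ∫ x, u x * v' x ∂(dm η) :=
  opr_symm h h'

/-- positivity preserving (truncation test). -/
theorem op_res_nonneg (hη : Continuous η) (hpos : ∀ x, 0 < η x) (hκ : 0 < κ) {u v : E → ℝ}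
    {gv : E → E} (hu : MemLp u 2 (dm η)) (h : IsRes η κ u v gv) (h0 : ∀ᵐ x, 0 ≤ u x) :
    ∀ᵐ x, 0 ≤ v x :=
  opr_nonneg hη.measurable hpos hκ h h0

/-- unital. -/
theorem op_res_const [IsFiniteMeasure (dm η)] (κ c : ℝ) :
    IsRes η κ (fun _ => c) (fun _ => c) (fun _ => 0) :=
  opr_const κ c

theorem op_res_le (hη : Continuous η) (hpos : ∀ x, 0 < η x) [IsFiniteMeasure (dm η)] (hκ : 0 < κ)
    {u v : E → ℝ} {gv : E → E} (hu : MemLp u 2 (dm η)) (h : IsRes η κ u v gv) {C : ℝ}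
    (hC : ∀ᵐ x, u x ≤ C) : ∀ᵐ x, v x ≤ C :=
  opr_le hη.measurable hpos hκ hu h hC

theorem op_res_ge (hη : Continuous η) (hpos : ∀ x, 0 < η x) [IsFiniteMeasure (dm η)] (hκ : 0 < κ)
    {u v : E → ℝ} {gv : E → E} (hu : MemLp u 2 (dm η)) (h : IsRes η κ u v gv) {C : ℝ}
    (hC : ∀ᵐ x, C ≤ u x) : ∀ᵐ x, C ≤ v x :=
  opr_ge hη.measurable hpos hκ hu h hC

/-- conservation of mass. -/
theorem op_res_integral [IsFiniteMeasure (dm η)] {u v : E → ℝ} {gv : E → E}
    (h : IsRes η κ u v gv) : ∫ x, v x ∂(dm η) = ∫ x, u x ∂(dm η) :=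
  opr_integral h

/-- resolvent equation = operator domain. -/
theorem op_res_iff_dom (hκ : 0 < κ) {u v : E → ℝ} {gv : E → E} (hu : MemLp u 2 (dm η)) :
    IsRes η κ u v gv ↔ IsDomA η v gv (fun x => κ⁻¹ * (u x - v x)) :=
  opr_iff_dom hκ hu

/-- operator domain = resolvent equation. -/
theorem op_res_of_dom {f h : E → ℝ} {gf : E → E} (κ : ℝ) (hd : IsDomA η f gf h) :
    IsRes η κ (fun x => f x + κ * h x) f gf :=
  opr_of_dom κ hd

/-- `J` commutes with `A`:  `f - J f = κ J A f`. -/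
theorem op_res_comm (hκ : 0 < κ) {f h v v' : E → ℝ} {gf gv gv' : E → E} (hd : IsDomA η f gf h)
    (h1 : IsRes η κ f v gv) (h2 : IsRes η κ h v' gv') :
    (fun x => f x - v x) =ᵐ[dm η] fun x => κ * v' x :=
  opr_comm hκ hd h1 h2

/-- generalised resolvent: right hand side `h + div*`-type `F`. -/
theorem op_res_exists_gen (hη : Continuous η) (hpos : ∀ x, 0 < η x) (hκ : 0 < κ) {h : E → ℝ}
    {F : E → E} (hh : MemLp h 2 (dm η)) (hF : MemLp F 2 (dm η)) :
    ∃ (v : E → ℝ) (gv : E → E), StronglyMeasurable v ∧ StronglyMeasurable gv ∧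
      H1 (dm η) v gv ∧ ∀ (z : E → ℝ) (gz : E → E), H1 (dm η) z gz →
        ∫ x, v x * z x ∂(dm η) + κ * ∫ x, inner ℝ (gv x) (gz x) ∂(dm η)
          = ∫ x, h x * z x ∂(dm η) + ∫ x, inner ℝ (F x) (gz x) ∂(dm η) :=
  opr_exists_gen hη hpos hκ hh hF

/-- JOINTLY MEASURABLE RESOLVENT of a jointly measurable family (labels `l ∈ L`, any finite
measure on the labels). -/
theorem op_res_param (hη : Continuous η) (hpos : ∀ x, 0 < η x) (hκ : 0 < κ)
    {L : Type} [MeasurableSpace L] (Lam : Measure L) [IsFiniteMeasure Lam] {k : L × E → ℝ}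
    (hk : Measurable k) (hk2 : Integrable (fun p => k p ^ 2) (Lam.prod (dm η))) :
    ∃ (K' : L × E → ℝ) (G' : L × E → E), Measurable K' ∧ Measurable G' ∧
      ∀ᵐ l ∂Lam, IsRes η κ (fun y => k (l, y)) (fun y => K' (l, y)) (fun y => G' (l, y)) :=
  opp_res_param hη hpos hκ Lam hk hk2

/-- ENTROPY DISSIPATION OF ONE RESOLVENT STEP (convexity of `klFun`, test `log (v + e)`). -/
theorem op_dissip (hη : Continuous η) (hpos : ∀ x, 0 < η x) [IsFiniteMeasure (dm η)] (hκ : 0 < κ)
    {u v : E → ℝ} {gv : E → E} {B e : ℝ} (he : 0 < e) (hu : MemLp u 2 (dm η))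
    (hu0 : ∀ᵐ x, 0 ≤ u x) (huB : ∀ᵐ x, u x ≤ B) (h : IsRes η κ u v gv) :
    κ * ∫ x, ‖gv x‖ ^ 2 / (v x + e) ∂(dm η) ≤
      ∫ x, InformationTheory.klFun (u x + e) ∂(dm η)
        - ∫ x, InformationTheory.klFun (v x + e) ∂(dm η) :=
  opd_dissip hη hpos hκ he hu hu0 huB h

end resolvent

/-! ### Classical functions, essential self-adjointness, operator core: `η` smooth and positive -/

section core

variable {η : E → ℝ} {κ : ℝ}

/-- smooth `f` with `f, A_η f ∈ L²(η)` is in the operator domain (cutoffs only). -/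
theorem op_dom_classical (hη : ContDiff ℝ ∞ η) (hpos : ∀ x, 0 < η x) {f : E → ℝ}
    (hf : ContDiff ℝ ∞ f) (h2 : MemLp f 2 (dm η)) (hA : MemLp (opA η f) 2 (dm η)) :
    IsDomA η f (gradient f) (opA η f) :=
  opm_dom_classical hη hpos hf h2 hA

theorem op_dom_test (hη : ContDiff ℝ ∞ η) (hpos : ∀ x, 0 < η x) {f : E → ℝ} (hf : IsTest f) :
    IsDomA η f (gradient f) (opA η f) :=
  opm_dom_test hη hpos hf

theorem op_res_test (hη : ContDiff ℝ ∞ η) (hpos : ∀ x, 0 < η x) (κ : ℝ) {f : E → ℝ}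
    (hf : IsTest f) : IsRes η κ (fun x => f x + κ * opA η f x) f (gradient f) :=
  opm_res_test hη hpos κ hf

/-- ESSENTIAL SELF-ADJOINTNESS, dual form (mollifier + Caccioppoli). -/
theorem op_core_dual (hη : ContDiff ℝ ∞ η) (hpos : ∀ x, 0 < η x) (hκ : 0 < κ) {v : E → ℝ}
    (hv : MemLp v 2 (dm η))
    (h : ∀ φ : E → ℝ, IsTest φ → ∫ x, v x * (φ x + κ * opA η φ x) ∂(dm η) = 0) :
    v =ᵐ[volume] 0 :=
  opk_core_dual hη hpos hκ hv h

/-- ESSENTIAL SELF-ADJOINTNESS: `(1 + κ A_η) C_c^∞` is dense in `L²(η)`. -/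
theorem op_core_dense (hη : ContDiff ℝ ∞ η) (hpos : ∀ x, 0 < η x) (hκ : 0 < κ) {u : E → ℝ}
    (hu : MemLp u 2 (dm η)) {ε : ℝ} (hε : 0 < ε) :
    ∃ φ : E → ℝ, IsTest φ ∧ ∫ x, (φ x + κ * opA η φ x - u x) ^ 2 ∂(dm η) ≤ ε :=
  opn_core_dense hη hpos hκ hu hε

/-- OPERATOR CORE. -/
theorem op_core (hη : ContDiff ℝ ∞ η) (hpos : ∀ x, 0 < η x) {f h : E → ℝ} {gf : E → E}
    (hd : IsDomA η f gf h) :
    ∃ φ : ℕ → E → ℝ, (∀ k, IsTest (φ k)) ∧
      Tendsto (fun k => ∫ x, (φ k x - f x) ^ 2 ∂(dm η)) atTop (𝓝 0) ∧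
      Tendsto (fun k => ∫ x, ‖gradient (φ k) x - gf x‖ ^ 2 ∂(dm η)) atTop (𝓝 0) ∧
      Tendsto (fun k => ∫ x, (opA η (φ k) x - h x) ^ 2 ∂(dm η)) atTop (𝓝 0) :=
  opn_core hη hpos hd

/-- MAXIMAL DISTRIBUTIONAL DOMAIN: `f, h ∈ L²(η)` with `A_η f = h` in the sense of distributions
implies `f ∈ Dom(A_η)`. -/
theorem op_maxdom (hη : ContDiff ℝ ∞ η) (hpos : ∀ x, 0 < η x) {f h : E → ℝ}
    (hf : MemLp f 2 (dm η)) (hh : MemLp h 2 (dm η))
    (hw : ∀ φ : E → ℝ, IsTest φ → ∫ x, f x * opA η φ x ∂(dm η) = ∫ x, h x * φ x ∂(dm η)) :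
    ∃ gf : E → E, IsDomA η f gf h :=
  opn_maxdom hη hpos hf hh hw

/-! #### fields with values in a finite dimensional space (componentwise) -/

variable {F : Type} [NormedAddCommGroup F] [InnerProductSpace ℝ F] [FiniteDimensional ℝ F]

theorem op_core_dense_vec (hη : ContDiff ℝ ∞ η) (hpos : ∀ x, 0 < η x) (hκ : 0 < κ) {u : E → F}
    (hu : MemLp u 2 (dm η)) {ε : ℝ} (hε : 0 < ε) :
    ∃ φ : E → F, ContDiff ℝ ∞ φ ∧ HasCompactSupport φ ∧
      ∫ x, ‖φ x + κ • opA η φ x - u x‖ ^ 2 ∂(dm η) ≤ ε :=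
  opv_core_dense_vec hη hpos hκ hu hε

/-- smooth fields with `f, A_η f ∈ L²(η)`: finite energy and approximation in graph norm. -/
theorem op_core_classical_vec (hη : ContDiff ℝ ∞ η) (hpos : ∀ x, 0 < η x) {f : E → F}
    (hf : ContDiff ℝ ∞ f) (h2 : MemLp f 2 (dm η)) (hA : MemLp (opA η f) 2 (dm η)) :
    Integrable (fun x => hsSq (fderiv ℝ f x)) (dm η) ∧
    ∫ x, hsSq (fderiv ℝ f x) ∂(dm η) = ∫ x, inner ℝ (f x) (opA η f x) ∂(dm η) ∧
    ∃ φ : ℕ → E → F, (∀ k, ContDiff ℝ ∞ (φ k) ∧ HasCompactSupport (φ k)) ∧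
      Tendsto (fun k => ∫ x, ‖φ k x - f x‖ ^ 2 ∂(dm η)) atTop (𝓝 0) ∧
      Tendsto (fun k => ∫ x, hsSq (fderiv ℝ (φ k) x - fderiv ℝ f x) ∂(dm η)) atTop (𝓝 0) ∧
      Tendsto (fun k => ∫ x, ‖opA η (φ k) x - opA η f x‖ ^ 2 ∂(dm η)) atTop (𝓝 0) :=
  opv_core_classical_vec hη hpos hf h2 hA

end core

end Claimed.Agent.R259
end

/- ===== packed: Claimed.Agent.R259.S5Kit ===== -/
section
/-
Row 259 (S0499), section 5 of the paper: KIT for Lemmas 5.2-5.4.  Owner: helper202.

* function level `L²(η)` calculus for fields (`nSq`, `ipF`, `meanF` of `HiDefs`),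
* slot permutations `tPerm`, symmetrisation `tSymz`, slot action `slotL` as continuous linear maps,
* commutation of `dI`, `tD`, `opA` with constant coefficient linear maps,
* integration by parts against test fields.
-/
set_option autoImplicit false

open MeasureTheory
open scoped ContDiff BigOperators Matrix
open Claimed.Agent.R260 (Mx)

namespace Claimed.Agent.R259

noncomputable section

variable {n d : ℕ}

/-! ### Definitions -/

/-- permutation of the slots of a tensor, as a linear isometry: `tPerm σ t α = t (α ∘ σ)` -/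
def tPerm (σ : Equiv.Perm (Fin d)) : TT n d ≃ₗᵢ[ℝ] TT n d :=
  LinearIsometryEquiv.piLpCongrLeft 2 ℝ ℝ (Equiv.arrowCongr σ (Equiv.refl (Fin n)))

/-- `tPerm` as a continuous linear map -/
def tPermL (σ : Equiv.Perm (Fin d)) : TT n d →L[ℝ] TT n d :=
  (tPerm (n := n) σ).toContinuousLinearEquiv.toContinuousLinearMap

/-- full symmetrisation of a tensor -/
def tSymz : TT n d →L[ℝ] TT n d :=
  ((d.factorial : ℝ)⁻¹) • ∑ σ : Equiv.Perm (Fin d), tPermL σ

/-- the slot action of a matrix as a continuous linear map -/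
def slotL (r : Fin d) (M : Mx n) : TT n d →L[ℝ] TT n d :=
  LinearMap.toContinuousLinearMap
    { toFun := slot r M
      map_add' := by
        intro s t
        ext α
        simp [slot, mul_add, Finset.sum_add_distrib]
      map_smul' := by
        intro c t
        ext α
        simp [slot, Finset.mul_sum, mul_left_comm] }

/-- `t ⊗ z` with the vector in the LAST slot -/
def tOut (t : TT n d) (z : EE n) : TT n (d + 1) :=
  WithLp.toLp 2 (fun α => t (Fin.init α) * z (α (Fin.last d)))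

/-- vectors as tensors of order one, as a linear isometry -/
def vecL : EE n ≃ₗᵢ[ℝ] TT n 1 :=
  LinearIsometryEquiv.piLpCongrLeft 2 ℝ ℝ (Equiv.funUnique (Fin 1) (Fin n)).symm

/-- pointwise squared Hilbert-Schmidt norm of the derivative in the standard basis -/
def dSq {V : Type} [NormedAddCommGroup V] [NormedSpace ℝ V] (F : EE n → V) (y : EE n) : ℝ :=
  ∑ i, ‖dI i F y‖ ^ 2

end

/-- generates the equation lemmas of the definitions above in this file (rule 6: unique names) -/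
theorem s5kit_eqns_cite : True := by
  have := @tPerm.eq_1
  have := @tPermL.eq_1
  have := @tSymz.eq_1
  have := @slotL.eq_1
  have := @tOut.eq_1
  have := @vecL.eq_1
  have := @dSq.eq_1
  trivial

variable {n d : ℕ}

theorem tPerm_apply (σ : Equiv.Perm (Fin d)) (t : TT n d) (α : Idx n d) :
    tPerm σ t α = t (α ∘ σ) := by
  simp [tPerm, LinearIsometryEquiv.piLpCongrLeft_apply, Equiv.piCongrLeft'_apply]
  rfl

theorem tPermL_apply (σ : Equiv.Perm (Fin d)) (t : TT n d) : tPermL σ t = tPerm σ t := rfl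

theorem slotL_apply (r : Fin d) (M : Mx n) (t : TT n d) : slotL r M t = slot r M t := rfl

theorem vecL_apply (v : EE n) (α : Idx n 1) : vecL v α = v (α 0) := by
  simp [vecL, LinearIsometryEquiv.piLpCongrLeft_apply, Equiv.piCongrLeft'_apply]

theorem vecT_eq (w : EE n → EE n) (y : EE n) : vecT w y = vecL (w y) := by
  ext α
  simp [vecT, vecL_apply]

end Claimed.Agent.R259
end

/- ===== packed: Claimed.Agent.R259.S5KitL2 ===== -/
section
/-
Row 259 (S0499), section 5: function level `L²(η)` calculus for fields.  Owner: helper202.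
-/
set_option autoImplicit false

open MeasureTheory
open scoped ContDiff BigOperators

namespace Claimed.Agent.R259

variable {n : ℕ} {η : EE n → ℝ}

theorem s5k_prob (h : SPD η) : IsProbabilityMeasure (dm η) := by
  refine dfk_dm_prob (fun x => (h.2.1 x).le) ?_ h.2.2
  by_contra hi
  have := h.2.2
  rw [integral_undef hi] at this
  norm_num at this

section normed

variable {V : Type} [NormedAddCommGroup V]

theorem s5k_nSq_nonneg (η : EE n → ℝ) (F : EE n → V) : 0 ≤ nSq η F :=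
  integral_nonneg fun _ => by positivity

theorem s5k_int_sq {F : EE n → V} (hF : MemLp F 2 (dm η)) :
    Integrable (fun y => ‖F y‖ ^ 2) (dm η) :=
  (memLp_two_iff_integrable_sq_norm hF.1).mp hF

theorem s5k_test_memLp [NormedSpace ℝ V] (hη : SPD η) {F : EE n → V} (hF : IsTestV F) :
    MemLp F 2 (dm η) := by
  have := s5k_prob hη
  obtain ⟨C, hC⟩ := hF.2.exists_bound_of_continuous hF.1.continuous
  exact MemLp.of_bound hF.1.continuous.aestronglyMeasurable C (Filter.Eventually.of_forall hC)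

theorem s5k_nSq_add_le {F G : EE n → V} (hF : MemLp F 2 (dm η)) (hG : MemLp G 2 (dm η)) :
    nSq η (fun y => F y + G y) ≤ 2 * nSq η F + 2 * nSq η G := by
  unfold nSq
  rw [← integral_const_mul, ← integral_const_mul, ← integral_add
    ((s5k_int_sq hF).const_mul 2) ((s5k_int_sq hG).const_mul 2)]
  refine integral_mono (s5k_int_sq (hF.add hG))
    (((s5k_int_sq hF).const_mul 2).add ((s5k_int_sq hG).const_mul 2)) fun y => ?_
  have h1 := norm_add_le (F y) (G y)
  have h2 : ‖F y + G y‖ ^ 2 ≤ (‖F y‖ + ‖G y‖) ^ 2 := by gcongr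
  show ‖F y + G y‖ ^ 2 ≤ 2 * ‖F y‖ ^ 2 + 2 * ‖G y‖ ^ 2
  nlinarith [sq_nonneg (‖F y‖ - ‖G y‖)]

/-- closeness is transitive (with a factor two) -/
theorem s5k_cl_trans {F G H : EE n → V} (hF : MemLp F 2 (dm η)) (hG : MemLp G 2 (dm η))
    (hH : MemLp H 2 (dm η)) {a b : ℝ} (h1 : nSq η (fun y => F y - G y) ≤ a)
    (h2 : nSq η (fun y => G y - H y) ≤ b) : nSq η (fun y => F y - H y) ≤ 2 * a + 2 * b := by
  have := s5k_nSq_add_le (hF.sub hG) (hG.sub hH)
  have e : (fun y => (F - G) y + (G - H) y) = fun y => F y - H y := by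
    funext y; simp
  rw [e] at this
  have e1 : nSq η (F - G) = nSq η (fun y => F y - G y) := rfl
  have e2 : nSq η (G - H) = nSq η (fun y => G y - H y) := rfl
  rw [e1, e2] at this
  linarith

theorem s5k_nSq_sub_comm (F G : EE n → V) :
    nSq η (fun y => F y - G y) = nSq η (fun y => G y - F y) := by
  unfold nSq
  simp_rw [norm_sub_rev]

theorem s5k_nSq_smul [NormedSpace ℝ V] (c : ℝ) (F : EE n → V) :
    nSq η (fun y => c • F y) = c ^ 2 * nSq η F := by
  unfold nSq
  rw [← integral_const_mul]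
  congr 1
  funext y
  rw [norm_smul, mul_pow, Real.norm_eq_abs, sq_abs]

theorem s5k_mean_sq_le [NormedSpace ℝ V] [IsProbabilityMeasure (dm η)] {F : EE n → V}
    (hF : MemLp F 2 (dm η)) : ‖meanF η F‖ ^ 2 ≤ nSq η F := by
  unfold meanF nSq
  have h1 : ‖∫ y, F y ∂(dm η)‖ ≤ ∫ y, ‖F y‖ ∂(dm η) := norm_integral_le_integral_norm _
  have hi : Integrable (fun y => ‖F y‖) (dm η) := (hF.integrable (by norm_num)).norm
  have h2 : (∫ y, ‖F y‖ ∂(dm η)) ^ 2 ≤ ∫ y, ‖F y‖ ^ 2 ∂(dm η) := by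
    have h3 : 0 ≤ ∫ y, (‖F y‖ - ∫ z, ‖F z‖ ∂(dm η)) ^ 2 ∂(dm η) :=
      integral_nonneg fun _ => by positivity
    have e : ∀ y, (‖F y‖ - ∫ z, ‖F z‖ ∂(dm η)) ^ 2 =
        ‖F y‖ ^ 2 - (2 * ∫ z, ‖F z‖ ∂(dm η)) * ‖F y‖ + (∫ z, ‖F z‖ ∂(dm η)) ^ 2 := by
      intro y; ring
    simp_rw [e] at h3
    have e2 : ∫ y, (‖F y‖ ^ 2 - (2 * ∫ z, ‖F z‖ ∂(dm η)) * ‖F y‖ + (∫ z, ‖F z‖ ∂(dm η)) ^ 2) ∂(dm η)
        = (∫ y, ‖F y‖ ^ 2 ∂(dm η)) - (2 * ∫ z, ‖F z‖ ∂(dm η)) * (∫ y, ‖F y‖ ∂(dm η))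
          + (∫ z, ‖F z‖ ∂(dm η)) ^ 2 := by
      have g1 := (s5k_int_sq hF)
      have g2 := hi.const_mul (2 * ∫ z, ‖F z‖ ∂(dm η))
      have g3 := integrable_const (μ := dm η) ((∫ z, ‖F z‖ ∂(dm η)) ^ 2)
      have f1 := integral_add (g1.sub g2) g3
      have f2 := integral_sub g1 g2
      simp only [Pi.sub_apply] at f1
      rw [f1, f2, integral_const_mul, integral_const]
      simp
    rw [e2] at h3
    nlinarith
  calc ‖∫ y, F y ∂(dm η)‖ ^ 2 ≤ (∫ y, ‖F y‖ ∂(dm η)) ^ 2 := by gcongr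
    _ ≤ _ := h2

theorem s5k_cl_mean [NormedSpace ℝ V] [IsProbabilityMeasure (dm η)] {F G : EE n → V}
    (hF : MemLp F 2 (dm η)) (hG : MemLp G 2 (dm η)) {a b : ℝ} (h1 : ‖meanF η G‖ ^ 2 ≤ a)
    (h2 : nSq η (fun y => F y - G y) ≤ b) : ‖meanF η F‖ ^ 2 ≤ 2 * a + 2 * b := by
  have h3 := s5k_mean_sq_le (hF.sub hG)
  have e : meanF η F = meanF η G + meanF η (F - G) := by
    unfold meanF
    rw [← integral_add (hG.integrable (by norm_num)) ((hF.sub hG).integrable (by norm_num))]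
    congr 1; funext y; simp
  have e1 : nSq η (F - G) = nSq η (fun y => F y - G y) := rfl
  rw [e1] at h3
  rw [e]
  have h4 := norm_add_le (meanF η G) (meanF η (F - G))
  have h5 : ‖meanF η G + meanF η (F - G)‖ ^ 2 ≤ (‖meanF η G‖ + ‖meanF η (F - G)‖) ^ 2 := by gcongr
  nlinarith [sq_nonneg (‖meanF η G‖ - ‖meanF η (F - G)‖)]

end normed

section clm

variable {V W : Type} [NormedAddCommGroup V] [NormedSpace ℝ V] [NormedAddCommGroup W]
  [NormedSpace ℝ W]

theorem s5k_clm_memLp (P : V →L[ℝ] W) {F : EE n → V} (hF : MemLp F 2 (dm η)) :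
    MemLp (fun y => P (F y)) 2 (dm η) := P.comp_memLp' hF

theorem s5k_clm_le (P : V →L[ℝ] W) (hP : ‖P‖ ≤ 1) {F : EE n → V} (hF : MemLp F 2 (dm η)) :
    nSq η (fun y => P (F y)) ≤ nSq η F := by
  unfold nSq
  refine integral_mono (s5k_int_sq (s5k_clm_memLp P hF)) (s5k_int_sq hF) fun y => ?_
  have : ‖P (F y)‖ ≤ ‖F y‖ := by
    calc ‖P (F y)‖ ≤ ‖P‖ * ‖F y‖ := P.le_opNorm _
      _ ≤ 1 * ‖F y‖ := by gcongr
      _ = ‖F y‖ := one_mul _
  show ‖P (F y)‖ ^ 2 ≤ ‖F y‖ ^ 2
  gcongr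

theorem s5k_cl_clm (P : V →L[ℝ] W) (hP : ‖P‖ ≤ 1) {F G : EE n → V} (hF : MemLp F 2 (dm η))
    (hG : MemLp G 2 (dm η)) {a b : ℝ} (h1 : nSq η (fun y => P (G y)) ≤ a)
    (h2 : nSq η (fun y => F y - G y) ≤ b) : nSq η (fun y => P (F y)) ≤ 2 * a + 2 * b := by
  have h3 := s5k_nSq_add_le (s5k_clm_memLp P hG) (s5k_clm_memLp P (hF.sub hG))
  have e : (fun y => P (G y) + P ((F - G) y)) = fun y => P (F y) := by
    funext y; simp
  rw [e] at h3
  have h4 := s5k_clm_le P hP (hF.sub hG)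
  have e1 : nSq η (F - G) = nSq η (fun y => F y - G y) := rfl
  rw [e1] at h4
  linarith

theorem s5k_clm_mean (P : V →L[ℝ] W) [CompleteSpace V] [CompleteSpace W] {F : EE n → V}
    (hF : Integrable F (dm η)) : meanF η (fun y => P (F y)) = P (meanF η F) := by
  unfold meanF
  exact P.integral_comp_comm hF

end clm

section inner

variable {V : Type} [NormedAddCommGroup V] [InnerProductSpace ℝ V]

theorem s5k_int_inner {F G : EE n → V} (hF : MemLp F 2 (dm η)) (hG : MemLp G 2 (dm η)) :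
    Integrable (fun y => inner ℝ (F y) (G y)) (dm η) := by
  have h := L2.integrable_inner (𝕜 := ℝ) (hF.toLp F) (hG.toLp G)
  refine h.congr ?_
  filter_upwards [hF.coeFn_toLp, hG.coeFn_toLp] with y h1 h2
  rw [h1, h2]

theorem s5k_nSq_sub {F G : EE n → V} (hF : MemLp F 2 (dm η)) (hG : MemLp G 2 (dm η)) :
    nSq η (fun y => F y - G y) = nSq η F - 2 * ipF η F G + nSq η G := by
  unfold nSq ipF
  have e : ∀ y, ‖F y - G y‖ ^ 2 = ‖F y‖ ^ 2 - 2 * inner ℝ (F y) (G y) + ‖G y‖ ^ 2 :=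
    fun y => norm_sub_sq_real _ _
  simp_rw [e]
  have h1 := (s5k_int_sq hF)
  have h2 := ((s5k_int_inner hF hG).const_mul 2)
  have h3 := (s5k_int_sq hG)
  have e1 := integral_add (h1.sub h2) h3
  have e2 := integral_sub h1 h2
  have e3 : ∫ y, 2 * inner ℝ (F y) (G y) ∂(dm η) = 2 * ∫ y, inner ℝ (F y) (G y) ∂(dm η) :=
    integral_const_mul _ _
  simp only [Pi.sub_apply] at e1
  rw [e1, e2, e3]

theorem s5k_ip_sq_le {F G : EE n → V} (hF : MemLp F 2 (dm η)) (hG : MemLp G 2 (dm η)) :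
    ipF η F G ^ 2 ≤ nSq η F * nSq η G := by
  have key : ∀ t : ℝ, 0 ≤ nSq η G * (t * t) + (-2 * ipF η F G) * t + nSq η F := by
    intro t
    have h1 := s5k_nSq_nonneg η (fun y => F y - t • G y)
    have h2 := s5k_nSq_sub hF (hG.const_smul t)
    have e1 : nSq η (t • G) = t ^ 2 * nSq η G := s5k_nSq_smul t G
    have e2 : ipF η F (t • G) = t * ipF η F G := by
      unfold ipF
      rw [← integral_const_mul]
      congr 1; funext y
      simp [inner_smul_right]
    have e3 : nSq η (fun y => F y - (t • G) y) = nSq η (fun y => F y - t • G y) := rfl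
    rw [e1, e2, e3] at h2
    nlinarith
  have := discrim_le_zero key
  unfold discrim at this
  nlinarith

theorem s5k_ip_abs_le {F G : EE n → V} (hF : MemLp F 2 (dm η)) (hG : MemLp G 2 (dm η)) :
    |ipF η F G| ≤ Real.sqrt (nSq η F) * Real.sqrt (nSq η G) := by
  rw [← Real.sqrt_mul (s5k_nSq_nonneg η F), ← Real.sqrt_sq_eq_abs]
  exact Real.sqrt_le_sqrt (s5k_ip_sq_le hF hG)

theorem s5k_ip_comm (F G : EE n → V) : ipF η F G = ipF η G F := by
  unfold ipF
  simp_rw [real_inner_comm]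

theorem s5k_ip_self (F : EE n → V) : ipF η F F = nSq η F := by
  unfold ipF nSq
  simp_rw [real_inner_self_eq_norm_sq]

theorem s5k_ip_add_right {F G H : EE n → V} (hF : MemLp F 2 (dm η)) (hG : MemLp G 2 (dm η))
    (hH : MemLp H 2 (dm η)) :
    ipF η F (fun y => G y + H y) = ipF η F G + ipF η F H := by
  unfold ipF
  rw [← integral_add (s5k_int_inner hF hG) (s5k_int_inner hF hH)]
  simp_rw [inner_add_right]

theorem s5k_ip_sub_right {F G H : EE n → V} (hF : MemLp F 2 (dm η)) (hG : MemLp G 2 (dm η))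
    (hH : MemLp H 2 (dm η)) :
    ipF η F (fun y => G y - H y) = ipF η F G - ipF η F H := by
  unfold ipF
  rw [← integral_sub (s5k_int_inner hF hG) (s5k_int_inner hF hH)]
  simp_rw [inner_sub_right]

theorem s5k_ip_smul_right (c : ℝ) (F G : EE n → V) :
    ipF η F (fun y => c • G y) = c * ipF η F G := by
  unfold ipF
  rw [← integral_const_mul]
  simp_rw [inner_smul_right]

/-- transfer of the normalisation `‖·‖² ≈ I` along closeness, explicit form -/
theorem s5k_norm_transfer {F G : EE n → V} (hF : MemLp F 2 (dm η)) (hG : MemLp G 2 (dm η)) :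
    |nSq η F - nSq η G| ≤ nSq η (fun y => F y - G y) +
      2 * (Real.sqrt (nSq η (fun y => F y - G y)) * Real.sqrt (nSq η G)) := by
  have h1 := s5k_nSq_sub hF hG
  have h2 := s5k_ip_abs_le (hF.sub hG) hG
  have e1 : nSq η (F - G) = nSq η (fun y => F y - G y) := rfl
  have e2 : ipF η (F - G) G = ipF η F G - nSq η G := by
    rw [s5k_ip_comm, ← s5k_ip_self G, s5k_ip_comm F G]
    exact s5k_ip_sub_right hG hF hG
  rw [e1, e2] at h2
  have h3 : nSq η F - nSq η G = nSq η (fun y => F y - G y) + 2 * (ipF η F G - nSq η G) := by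
    rw [h1]; ring
  rw [h3]
  have h4 := s5k_nSq_nonneg η (fun y => F y - G y)
  calc |nSq η (fun y => F y - G y) + 2 * (ipF η F G - nSq η G)|
      ≤ |nSq η (fun y => F y - G y)| + |2 * (ipF η F G - nSq η G)| := abs_add_le _ _
    _ = nSq η (fun y => F y - G y) + 2 * |ipF η F G - nSq η G| := by
        rw [abs_of_nonneg h4, abs_mul, abs_of_pos (by norm_num : (0 : ℝ) < 2)]
    _ ≤ _ := by linarith

/-- transfer of the normalisation `‖·‖² ≈ I` along closeness, eps-delta form -/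
theorem s5k_cl_norm {ε : ℝ} (hε : 0 < ε) : ∃ δ : ℝ, 0 < δ ∧ δ ≤ ε ∧ δ ≤ 1 ∧
    ∀ (n : ℕ) (η : EE n → ℝ) (V : Type) [NormedAddCommGroup V] [InnerProductSpace ℝ V]
      (F G : EE n → V) (I : ℝ), 0 < I → MemLp F 2 (dm η) → MemLp G 2 (dm η) →
      nSq η (fun y => F y - G y) ≤ δ * I → |nSq η G - I| ≤ δ * I → |nSq η F - I| ≤ ε * I := by
  refine ⟨min (min 1 (ε / 4)) (ε ^ 2 / 32), by positivity, ?_, ?_, ?_⟩
  · exact (min_le_left _ _).trans ((min_le_right _ _).trans (by linarith))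
  · exact (min_le_left _ _).trans (min_le_left _ _)
  intro n η V _ _ F G I hI hF hG h1 h2
  set δ := min (min 1 (ε / 4)) (ε ^ 2 / 32) with hδ
  have hδ0 : 0 < δ := by positivity
  have hδ1 : δ ≤ 1 := (min_le_left _ _).trans (min_le_left _ _)
  have hδ2 : δ ≤ ε / 4 := (min_le_left _ _).trans (min_le_right _ _)
  have hδ3 : δ ≤ ε ^ 2 / 32 := min_le_right _ _
  have h3 := s5k_norm_transfer hF hG
  have hG2 : nSq η G ≤ 2 * I := by
    have := (abs_le.mp h2).2
    nlinarith
  have h4 : Real.sqrt (nSq η (fun y => F y - G y)) * Real.sqrt (nSq η G) ≤ (ε / 4) * I := by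
    rw [← Real.sqrt_mul (s5k_nSq_nonneg η _)]
    have h5 : nSq η (fun y => F y - G y) * nSq η G ≤ ((ε / 4) * I) ^ 2 := by
      calc nSq η (fun y => F y - G y) * nSq η G ≤ (δ * I) * (2 * I) := by
            apply mul_le_mul h1 hG2 (s5k_nSq_nonneg η _) (by positivity)
        _ ≤ (ε ^ 2 / 32 * I) * (2 * I) := by gcongr
        _ = ((ε / 4) * I) ^ 2 := by ring
    calc Real.sqrt (nSq η (fun y => F y - G y) * nSq η G) ≤ Real.sqrt (((ε / 4) * I) ^ 2) :=
          Real.sqrt_le_sqrt h5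
      _ = (ε / 4) * I := Real.sqrt_sq (by positivity)
  have h6 : |nSq η F - I| ≤ |nSq η F - nSq η G| + |nSq η G - I| := by
    have : nSq η F - I = (nSq η F - nSq η G) + (nSq η G - I) := by ring
    rw [this]; exact abs_add_le _ _
  have h7 : δ * I ≤ ε / 4 * I := by gcongr
  linarith

end inner

end Claimed.Agent.R259
end

/- ===== packed: Claimed.Agent.R259.S5KitAlg ===== -/
section
/-
Row 259 (S0499), section 5, kit for Lemmas 5.2-5.4: algebra of slot permutations, symmetrisation, slot actions (leaf L-s5k-alg).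
Blueprint owner: helper202.  Proved by helper202.
-/
set_option autoImplicit false

open MeasureTheory
open scoped ContDiff BigOperators Matrix
open Claimed.Agent.R260 (Mx)

namespace Claimed.Agent.R259

variable {n d : ℕ}

/-! ### Algebra of slot permutations, symmetrisation, slot actions (leaf L-s5k-alg) -/

theorem tPerm_mul (σ τ : Equiv.Perm (Fin d)) (t : TT n d) :
    tPerm (σ * τ) t = tPerm σ (tPerm τ t) := by
  ext α
  simp only [tPerm_apply]
  rfl

theorem tPerm_one (t : TT n d) : tPerm (1 : Equiv.Perm (Fin d)) t = t := by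
  ext α
  simp only [tPerm_apply]
  rfl

theorem tSym_iff (t : TT n d) : TSym t ↔ ∀ σ : Equiv.Perm (Fin d), tPerm σ t = t := by
  constructor
  · intro h σ
    ext α
    rw [tPerm_apply]
    exact h σ α
  · intro h σ α
    rw [← tPerm_apply, h σ]

theorem tSymz_apply (t : TT n d) :
    tSymz t = ((d.factorial : ℝ)⁻¹) • ∑ σ : Equiv.Perm (Fin d), tPerm σ t := by
  simp [tSymz, tPermL_apply]

theorem s5ka_card : ((Finset.univ : Finset (Equiv.Perm (Fin d))).card : ℝ) = (d.factorial : ℝ) := by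
  rw [Finset.card_univ, Fintype.card_perm, Fintype.card_fin]

theorem s5ka_fact_ne : ((d.factorial : ℝ)) ≠ 0 := by
  exact_mod_cast d.factorial_ne_zero

theorem tSymz_sym (t : TT n d) : TSym (tSymz t) := by
  rw [tSym_iff]
  intro σ
  rw [tSymz_apply, map_smul, map_sum]
  congr 1
  simp only [← tPerm_mul]
  exact Equiv.sum_comp (Equiv.mulLeft σ) (fun τ => tPerm τ t)

theorem tSymz_of_sym {t : TT n d} (h : TSym t) : tSymz t = t := by
  rw [tSymz_apply]
  simp only [(tSym_iff t).1 h, Finset.sum_const, ← Nat.cast_smul_eq_nsmul ℝ, s5ka_card, smul_smul]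
  rw [inv_mul_cancel₀ s5ka_fact_ne, one_smul]

theorem tPermL_norm_le (σ : Equiv.Perm (Fin d)) : ‖(tPermL σ : TT n d →L[ℝ] TT n d)‖ ≤ 1 := by
  refine ContinuousLinearMap.opNorm_le_bound _ zero_le_one fun t => ?_
  rw [tPermL_apply, LinearIsometryEquiv.norm_map, one_mul]

theorem tSymz_norm_le : ‖(tSymz : TT n d →L[ℝ] TT n d)‖ ≤ 1 := by
  unfold tSymz
  rw [norm_smul, norm_inv, Real.norm_natCast]
  have h1 : ‖∑ σ : Equiv.Perm (Fin d), (tPermL σ : TT n d →L[ℝ] TT n d)‖ ≤ (d.factorial : ℝ) := by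
    calc ‖∑ σ : Equiv.Perm (Fin d), (tPermL σ : TT n d →L[ℝ] TT n d)‖
        ≤ ∑ σ : Equiv.Perm (Fin d), ‖(tPermL σ : TT n d →L[ℝ] TT n d)‖ := norm_sum_le _ _
      _ ≤ ∑ _σ : Equiv.Perm (Fin d), (1 : ℝ) := Finset.sum_le_sum fun σ _ => tPermL_norm_le σ
      _ = (d.factorial : ℝ) := by rw [Finset.sum_const, nsmul_eq_mul, mul_one, s5ka_card]
  have h2 : (0 : ℝ) < (d.factorial : ℝ) := by exact_mod_cast d.factorial_pos
  rw [inv_mul_le_iff₀ h2, mul_one]
  exact h1

/-- Jensen for the average over the symmetric group -/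
theorem tSymz_sub_sq_le (t : TT n d) :
    ‖tSymz t - t‖ ^ 2 ≤ ((d.factorial : ℝ)⁻¹) * ∑ σ : Equiv.Perm (Fin d), ‖tPerm σ t - t‖ ^ 2 := by
  have h2 : (0 : ℝ) < (d.factorial : ℝ) := by exact_mod_cast d.factorial_pos
  have e : tSymz t - t = ((d.factorial : ℝ)⁻¹) • ∑ σ : Equiv.Perm (Fin d), (tPerm σ t - t) := by
    rw [tSymz_apply, Finset.sum_sub_distrib, smul_sub]
    congr 1
    rw [Finset.sum_const, ← Nat.cast_smul_eq_nsmul ℝ, s5ka_card, smul_smul,
      inv_mul_cancel₀ s5ka_fact_ne, one_smul]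
  rw [e, norm_smul, norm_inv, Real.norm_natCast, mul_pow]
  have h3 : ‖∑ σ : Equiv.Perm (Fin d), (tPerm σ t - t)‖ ^ 2
      ≤ (d.factorial : ℝ) * ∑ σ : Equiv.Perm (Fin d), ‖tPerm σ t - t‖ ^ 2 := by
    calc ‖∑ σ : Equiv.Perm (Fin d), (tPerm σ t - t)‖ ^ 2
        ≤ (∑ σ : Equiv.Perm (Fin d), ‖tPerm σ t - t‖) ^ 2 :=
          pow_le_pow_left₀ (norm_nonneg _) (norm_sum_le _ _) 2
      _ ≤ ((Finset.univ : Finset (Equiv.Perm (Fin d))).card : ℝ)
            * ∑ σ : Equiv.Perm (Fin d), ‖tPerm σ t - t‖ ^ 2 := sq_sum_le_card_mul_sum_sq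
      _ = _ := by rw [s5ka_card]
  calc ((d.factorial : ℝ)⁻¹) ^ 2 * ‖∑ σ : Equiv.Perm (Fin d), (tPerm σ t - t)‖ ^ 2
      ≤ ((d.factorial : ℝ)⁻¹) ^ 2
          * ((d.factorial : ℝ) * ∑ σ : Equiv.Perm (Fin d), ‖tPerm σ t - t‖ ^ 2) :=
        mul_le_mul_of_nonneg_left h3 (by positivity)
    _ = _ := by
        field_simp

theorem s5ka_slot_slot (r : Fin d) (A B : Mx n) (t : TT n d) :
    slot r A (slot r B t) = slot r (A * B) t := by
  ext α
  simp only [slot, Function.update_self, Function.update_idem, Matrix.mul_apply, Finset.mul_sum,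
    Finset.sum_mul]
  rw [Finset.sum_comm]
  exact Finset.sum_congr rfl fun k _ => Finset.sum_congr rfl fun j _ => by ring

theorem s5ka_inv (r : Fin d) : Function.Involutive
    (fun p : Idx n d × Fin n => ((Function.update p.1 r p.2 : Idx n d), p.1 r)) := by
  intro p
  simp

theorem s5ka_slot_adj (r : Fin d) (M : Mx n) (s t : TT n d) :
    inner ℝ (slot r M s) t = inner ℝ s (slot r Mᵀ t) := by
  simp only [PiLp.inner_apply, slot, RCLike.inner_apply, conj_trivial, Finset.mul_sum,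
    Finset.sum_mul, Matrix.transpose_apply]
  rw [← Finset.sum_product', ← Finset.sum_product', Finset.univ_product_univ]
  rw [← Equiv.sum_comp (s5ka_inv (n := n) r).toPerm]
  refine Finset.sum_congr rfl fun p _ => ?_
  simp [Function.Involutive.coe_toPerm]
  ring

/-- an orthogonal projection acts as a contraction on every slot -/
theorem slotL_norm_le (r : Fin d) {M : Mx n} (h1 : M * M = M) (h2 : M.IsSymm) :
    ‖(slotL r M : TT n d →L[ℝ] TT n d)‖ ≤ 1 := by
  refine ContinuousLinearMap.opNorm_le_bound _ zero_le_one fun t => ?_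
  rw [slotL_apply, one_mul]
  have e : ‖slot r M t‖ ^ 2 = inner ℝ t (slot r M t) := by
    rw [← real_inner_self_eq_norm_sq, s5ka_slot_adj, h2.eq, s5ka_slot_slot, h1]
  have h3 : ‖slot r M t‖ ^ 2 ≤ ‖t‖ * ‖slot r M t‖ := e ▸ real_inner_le_norm _ _
  by_contra hc
  rw [not_le] at hc
  have hp : 0 < ‖slot r M t‖ := lt_of_le_of_lt (norm_nonneg _) hc
  nlinarith

theorem slot_perm (σ : Equiv.Perm (Fin d)) (r : Fin d) (M : Mx n) (t : TT n d) :
    tPerm σ (slot r M t) = slot (σ r) M (tPerm σ t) := by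
  ext α
  simp only [tPerm_apply, slot, Function.comp_apply]
  refine Finset.sum_congr rfl fun j _ => ?_
  have e : (Function.update (α ∘ σ) r j : Idx n d) = Function.update α (σ r) j ∘ σ := by
    funext k
    by_cases hk : k = r
    · subst hk
      simp
    · have : σ k ≠ σ r := fun h => hk (σ.injective h)
      simp [Function.update_of_ne hk, Function.update_of_ne this]
  rw [e]

theorem slot_add_compl (r : Fin d) (M : Mx n) (t : TT n d) :
    slot r M t + slot r (1 - M) t = t := by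
  ext α
  simp only [slot, PiLp.add_apply, ← Finset.sum_add_distrib, Matrix.sub_apply]
  have : ∀ j, M (α r) j * t (Function.update α r j)
      + ((1 : Mx n) (α r) j - M (α r) j) * t (Function.update α r j)
      = (1 : Mx n) (α r) j * t (Function.update α r j) := fun j => by ring
  rw [Finset.sum_congr rfl fun j _ => this j]
  simp only [Matrix.one_apply, ite_mul, one_mul, zero_mul, Finset.sum_ite_eq, Finset.mem_univ,
    if_true, Function.update_eq_self]

theorem slot_vecL (M : Mx n) (v : EE n) : slot 0 M (vecL v) = vecL (mv M v) := by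
  ext α
  simp [slot, vecL_apply, mv, Matrix.mulVec, dotProduct]

/-- tensors of order one are symmetric -/
theorem tSym_one (t : TT n 1) : TSym t := by
  intro σ α
  have : σ = 1 := Subsingleton.elim _ _
  subst this
  rfl

end Claimed.Agent.R259
end

/- ===== packed: Claimed.Agent.R259.S5KitClm ===== -/
section
/-
Row 259 (S0499), section 5, kit for Lemmas 5.2-5.4: calculus of fields and constant coefficient linear maps (leaf L-s5k-clm).
Blueprint owner: helper202.  LEAF FILE: the seat that claims the leaf owns this file, keeps names and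
statements and replaces every `sorry` by a proof (helper lemmas with the same prefix are welcome).
-/
set_option autoImplicit false

open MeasureTheory
open scoped ContDiff BigOperators Matrix
open Claimed.Agent.R260 (Mx)

namespace Claimed.Agent.R259

variable {n d : ℕ}

/-! ### Calculus of fields: constant coefficient linear maps (leaf L-s5k-clm) -/

section clm

variable {V W : Type} [NormedAddCommGroup V] [NormedSpace ℝ V] [NormedAddCommGroup W]
  [NormedSpace ℝ W]

theorem s5k_fderiv_clm (P : V →L[ℝ] W) {F : EE n → V} {y : EE n} (hF : DifferentiableAt ℝ F y) :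
    fderiv ℝ (fun z => P (F z)) y = P.comp (fderiv ℝ F y) :=
  (P.hasFDerivAt.comp y hF.hasFDerivAt).fderiv

theorem s5k_dI_clm (P : V →L[ℝ] W) {F : EE n → V} {y : EE n} (hF : DifferentiableAt ℝ F y)
    (i : Fin n) : dI i (fun z => P (F z)) y = P (dI i F y) := by
  unfold dI
  rw [s5k_fderiv_clm P hF]
  rfl

theorem s5k_opA_clm (η : EE n → ℝ) (P : V →L[ℝ] W) {F : EE n → V} (hF : ContDiff ℝ 2 F)
    (y : EE n) : opA η (fun z => P (F z)) y = P (opA η F y) := by
  unfold opA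
  have h1 : Laplacian.laplacian (fun z => P (F z)) y = P (Laplacian.laplacian F y) :=
    hF.contDiffAt.laplacian_CLM_comp_left (l := P)
  rw [h1, s5k_fderiv_clm P ((hF.differentiable (by norm_num)) y), map_sub, map_neg]
  rfl

theorem s5k_test_clm (P : V →L[ℝ] W) {F : EE n → V} (hF : IsTestV F) :
    IsTestV (fun z => P (F z)) :=
  ⟨P.contDiff.comp hF.1, hF.2.comp_left (g := P) (map_zero P)⟩

theorem s5k_dSq_clm_le (P : V →L[ℝ] W) (hP : ‖P‖ ≤ 1) {F : EE n → V} {y : EE n}
    (hF : DifferentiableAt ℝ F y) : dSq (fun z => P (F z)) y ≤ dSq F y := by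
  unfold dSq
  refine Finset.sum_le_sum fun i _ => ?_
  rw [s5k_dI_clm P hF]
  have h1 : ‖P (dI i F y)‖ ≤ ‖dI i F y‖ := by
    calc ‖P (dI i F y)‖ ≤ ‖P‖ * ‖dI i F y‖ := P.le_opNorm _
      _ ≤ 1 * ‖dI i F y‖ := mul_le_mul_of_nonneg_right hP (norm_nonneg _)
      _ = ‖dI i F y‖ := one_mul _
  exact pow_le_pow_left₀ (norm_nonneg _) h1 2

theorem s5k_opA_sub (η : EE n → ℝ) {F G : EE n → V} (hF : ContDiff ℝ 2 F) (hG : ContDiff ℝ 2 G)
    (y : EE n) : opA η (fun z => F z - G z) y = opA η F y - opA η G y := by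
  unfold opA
  have h1 : Laplacian.laplacian (fun z => F z - G z) y
      = Laplacian.laplacian F y - Laplacian.laplacian G y :=
    hF.contDiffAt.laplacian_sub hG.contDiffAt
  have h2 : fderiv ℝ (fun z => F z - G z) y = fderiv ℝ F y - fderiv ℝ G y :=
    fderiv_fun_sub ((hF.differentiable (by norm_num)) y) ((hG.differentiable (by norm_num)) y)
  rw [h1, h2, sub_apply]
  abel

theorem s5k_laplacian_contDiff {F : EE n → V} (hF : ContDiff ℝ ∞ F) :
    ContDiff ℝ ∞ (Laplacian.laplacian F) := by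
  rw [InnerProductSpace.laplacian_eq_iteratedFDeriv_stdOrthonormalBasis]
  refine ContDiff.sum fun i _ => ?_
  have h2 : ContDiff ℝ ∞ (iteratedFDeriv ℝ 2 F) := hF.iteratedFDeriv_right (by norm_cast)
  exact (ContinuousMultilinearMap.apply ℝ (fun _ : Fin 2 => EE n) V _).contDiff.comp h2

theorem s5k_gradLog_contDiff {η : EE n → ℝ} (hη : SPD η) :
    ContDiff ℝ ∞ (fun x => gradient (fun y => Real.log (η y)) x) := by
  have h1 : ContDiff ℝ ∞ (fun y => Real.log (η y)) := hη.1.log fun x => (hη.2.1 x).ne'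
  have h2 : ContDiff ℝ ∞ (fderiv ℝ (fun y => Real.log (η y))) := h1.fderiv_right (by norm_cast)
  exact (InnerProductSpace.toDual ℝ (EE n)).symm.contDiff.comp h2

theorem s5k_opA_contDiff {η : EE n → ℝ} (hη : SPD η) {F : EE n → V} (hF : ContDiff ℝ ∞ F) :
    ContDiff ℝ ∞ (opA η F) := by
  have h2 : ContDiff ℝ ∞ (fderiv ℝ F) := hF.fderiv_right (by norm_cast)
  exact (s5k_laplacian_contDiff hF).neg.sub (h2.clm_apply (s5k_gradLog_contDiff hη))

theorem s5k_opA_eq_zero (η : EE n → ℝ) {F : EE n → V} {x : EE n} (hx : x ∉ tsupport F) :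
    opA η F x = 0 := by
  have h0 : F =ᶠ[nhds x] fun _ => 0 := notMem_tsupport_iff_eventuallyEq.1 hx
  unfold opA
  rw [(InnerProductSpace.laplacian_congr_nhds h0).eq_of_nhds, h0.fderiv_eq]
  simp [InnerProductSpace.laplacian_eq_iteratedFDeriv_stdOrthonormalBasis]

theorem s5k_opA_test {η : EE n → ℝ} (hη : SPD η) {F : EE n → V} (hF : IsTestV F) :
    IsTestV (opA η F) :=
  ⟨s5k_opA_contDiff hη hF.1, HasCompactSupport.intro hF.2 fun _ hx => s5k_opA_eq_zero η hx⟩

end clm

end Claimed.Agent.R259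
end
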