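/- Packed by merge_tool.py (helper293): 7 modules of Claimed.Agent.R259 in one file, same declarations.
   Old modules, in this order: S3Main, S4Defs, S4Hc, S4ProbeDefs, S4ProbeChainA, S4CurveHc, S4CurvePert -/
import Claimed.Agent.R259.Pack006
import Claimed.Agent.R259.Pack005
import Claimed.Agent.R259.Pack007
import Claimed.Agent.R259.Pack004
import Claimed.Agent.R259.Pack014
import Claimed.Agent.R259.Pack008
import Claimed.Agent.R259.Pack037
import Claimed.Agent.R259.Pack011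

/- ===== packed: Claimed.Agent.R259.S3Main ===== -/
section
/-
Row 259, section 3: MAIN EXPORT `crit_exists` (Propositions 3.8 and 3.9 in eps-delta form, flow-free).
Owner: helper83.  The glue of this file is PROVED from the kit exports.

Chain:  lc_* (kit LC)  +  opt_exists / gap_exists (Opt)  +  ref_main, gapf_main, gapf_mean,
tg_main  ==>  alt_main (Lemma 3.7)  ==(dini_strict, dini_gap)==>  heat_lsi_bound (Proposition 3.8)
==>  crit_exists (Proposition 3.9).
-/
set_option autoImplicit false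

open MeasureTheory Filter Topology ProbabilityTheory
open scoped ContDiff ENNReal

namespace Claimed.Agent.R259

variable {E : Type} [NormedAddCommGroup E] [InnerProductSpace ℝ E] [FiniteDimensional ℝ E]
  [MeasurableSpace E] [BorelSpace E]

/-! ### elementary facts on the constants -/

omit [BorelSpace E] in
theorem lsi_mono {m : Measure E} {R R' : ℝ} (h : LSI m R) (hRR : R ≤ R') : LSI m R' := by
  intro f hf
  refine (h f hf).trans ?_
  have : 0 ≤ nrg m f := integral_nonneg (fun x => by positivity)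
  nlinarith

omit [BorelSpace E] in
theorem lsisharp_le {m : Measure E} {R R' : ℝ} (h : LSIsharp m R) (h' : LSI m R') : R ≤ R' := by
  by_contra hlt
  exact h.2 R' (not_le.mp hlt) h'

omit [BorelSpace E] in
theorem lsisharp_unique {m : Measure E} {R R' : ℝ} (h : LSIsharp m R) (h' : LSIsharp m R') :
    R = R' :=
  le_antisymm (lsisharp_le h h'.1) (lsisharp_le h' h.1)

/-! ### Lemma 3.7 -/

/-- numerical core of the strict case of Lemma 3.7. -/
theorem alt_num {V : Type} [NormedAddCommGroup V] [InnerProductSpace ℝ V]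
    {CT a σ lam I D0 : ℝ} {p b m : V} (hCT : 0 < CT) (ha0 : 0 < a) (ha : a ≤ 1)
    (hσ1 : 1 / 8 ≤ σ) (hσ2 : σ ≤ 3 / 8) (hl1 : 4 / 5 ≤ lam) (hl2 : lam ≤ 4 / 3)
    (hI : 0 ≤ I) (hID : I = 2 * lam * D0)
    (hb : ‖b‖ ^ 2 ≤ CT * a ^ 2 * D0) (hm : m = σ⁻¹ • (p - b))
    (hgain : (σ⁻¹ ^ 2 - lam / σ) * ‖p‖ ^ 2 - CT * Real.sqrt a * (I + D0) ≤ I - 2 * lam * D0) :
    ‖m‖ ^ 2 ≤ (256 * CT + 6) * Real.sqrt a * I := by
  have hσ : 0 < σ := by linarith
  have hsa : 0 ≤ Real.sqrt a := Real.sqrt_nonneg a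
  have hsa2 : a ^ 2 ≤ Real.sqrt a := by
    have h1 : Real.sqrt a ^ 2 = a := Real.sq_sqrt ha0.le
    have h2 : Real.sqrt a ≤ 1 := by
      rw [show (1 : ℝ) = Real.sqrt 1 by simp]; exact Real.sqrt_le_sqrt ha
    have h3 : a ≤ Real.sqrt a := by nlinarith
    nlinarith
  have hD0 : D0 ≤ 5 / 8 * I := by
    have : 0 ≤ D0 := by
      by_contra hneg
      push Not at hneg
      nlinarith
    nlinarith
  have hD0' : 0 ≤ D0 := by
    by_contra hneg
    push Not at hneg
    nlinarith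
  have hinv1 : 8 / 3 ≤ σ⁻¹ := by
    rw [le_inv_comm₀ (by norm_num) hσ]; norm_num; linarith
  have hinv2 : σ⁻¹ ≤ 8 := by
    rw [inv_le_comm₀ hσ (by norm_num)]; norm_num; linarith
  have hcoef : 3 ≤ σ⁻¹ ^ 2 - lam / σ := by
    have : lam / σ = lam * σ⁻¹ := div_eq_mul_inv _ _
    rw [this]
    nlinarith
  have hp : ‖p‖ ^ 2 ≤ CT * Real.sqrt a * I := by
    have h1 : (σ⁻¹ ^ 2 - lam / σ) * ‖p‖ ^ 2 ≤ CT * Real.sqrt a * (I + D0) := by linarith
    have h2 : 3 * ‖p‖ ^ 2 ≤ (σ⁻¹ ^ 2 - lam / σ) * ‖p‖ ^ 2 :=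
      mul_le_mul_of_nonneg_right hcoef (by positivity)
    have h3 : CT * Real.sqrt a * (I + D0) ≤ CT * Real.sqrt a * (13 / 8 * I) :=
      mul_le_mul_of_nonneg_left (by linarith) (by positivity)
    have h4 : 0 ≤ CT * Real.sqrt a * I := by positivity
    nlinarith
  have hb' : ‖b‖ ^ 2 ≤ CT * Real.sqrt a * I := by
    have h1 : CT * a ^ 2 * D0 ≤ CT * Real.sqrt a * D0 :=
      mul_le_mul_of_nonneg_right (mul_le_mul_of_nonneg_left hsa2 hCT.le) hD0'
    have h2 : CT * Real.sqrt a * D0 ≤ CT * Real.sqrt a * I :=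
      mul_le_mul_of_nonneg_left (by linarith) (by positivity)
    linarith
  have hpb : ‖p - b‖ ^ 2 ≤ 2 * (‖p‖ ^ 2 + ‖b‖ ^ 2) := by
    have h1 : ‖p - b‖ ≤ ‖p‖ + ‖b‖ := norm_sub_le _ _
    have h2 : 0 ≤ ‖p - b‖ := norm_nonneg _
    nlinarith [sq_nonneg (‖p‖ - ‖b‖)]
  rw [hm, norm_smul, mul_pow, Real.norm_eq_abs, sq_abs]
  have h64 : σ⁻¹ ^ 2 ≤ 64 := by nlinarith [inv_pos.mpr hσ]
  have h5 : σ⁻¹ ^ 2 * ‖p - b‖ ^ 2 ≤ 64 * (2 * (‖p‖ ^ 2 + ‖b‖ ^ 2)) :=
    mul_le_mul h64 hpb (by positivity) (by norm_num)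
  have h6 : 0 ≤ Real.sqrt a * I := by positivity
  nlinarith

/-- LEMMA 3.7 (both alternatives, uniform smallness of the mean). -/
theorem alt_main : ∃ C : ℝ, 0 < C ∧ ∀ (E : Type) [NormedAddCommGroup E] [InnerProductSpace ℝ E]
    [FiniteDimensional ℝ E] [MeasurableSpace E] [BorelSpace E] (μ : Measure E) (a σ R : ℝ),
    BaseLaw μ a → a ≤ 1 → 1 / 8 ≤ σ → σ ≤ 3 / 8 → LSIsharp (dm (gconv μ σ)) R →
    3 / 4 ≤ R → R ≤ 5 / 4 →
    ∃ (η : E → ℝ) (w : E → E), CritField μ σ R⁻¹ η w ∧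
      ((∃ f, StrictBranch μ σ R⁻¹ η w f) ∨ (∃ φ, GapBranch μ σ R⁻¹ η w φ)) ∧
      ‖∫ x, w x ∂(dm η)‖ ^ 2 ≤ C * Real.sqrt a * ∫ x, ‖w x‖ ^ 2 ∂(dm η) := by
  obtain ⟨CT, hCT, hTG⟩ := tg_main
  refine ⟨256 * CT + 6, by positivity, ?_⟩
  intro E _ _ _ _ _ μ a σ R hμ ha hσ1 hσ2 hR hR1 hR2
  have := hμ.prob
  have hσ : 0 < σ := by linarith
  have hRpos : 0 < R := by linarith
  have hspd := gc_spd hμ.bdd hσ
  have hprobσ : IsProbabilityMeasure (dm (gconv μ σ)) := gc_isProb hσ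
  have hnt : Nontrivial E := lc_nontrivial_of_sharp hR
  obtain ⟨P, hPR, hP⟩ := lc_pi_sharp hspd (lc_pi hspd hR.1)
  have hl1 : 4 / 5 ≤ R⁻¹ := by
    rw [le_inv_comm₀ (by norm_num) hRpos]; norm_num; linarith
  have hl2 : R⁻¹ ≤ 4 / 3 := by
    rw [inv_le_comm₀ hRpos (by norm_num)]; norm_num; linarith
  rcases lt_or_eq_of_le hPR with hlt | heq
  · -- strict alternative
    obtain ⟨f, hf, hfpos, hf2, hDf2, hf1, hE, hint, hopt, hEul⟩ :=
      opt_exists hμ.bdd hσ hspd.1 hspd.2.1 hR hP.1 hlt (by linarith)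
    obtain ⟨hC, hS⟩ := ref_main hμ.bdd hμ.dens hσ hRpos hR.1 hf hfpos hf2 hDf2 hf1 hE hint hopt hEul
    refine ⟨_, _, hC, Or.inl ⟨f, hS⟩, ?_⟩
    have hH1 : H1 (dm (gconv μ σ)) f (gradient f) :=
      ws_H1_of_contDiff (hf.of_le (by exact_mod_cast le_top)) hf2 hDf2
    obtain ⟨-, -, hb, hsc, hgain⟩ := hTG E μ a σ R⁻¹ hμ ha hσ1 hσ2 hl1 hl2
      (by rw [inv_inv]; exact hR.1) f (gradient f) hH1 hf1
    refine alt_num (p := ∫ x, f x ^ 2 • x ∂(dm (gconv μ σ)))
      (b := ∫ x, f x ^ 2 • postMean μ σ x ∂(dm (gconv μ σ)))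
      (D0 := ∫ x, f x ^ 2 * Real.log (f x ^ 2) ∂(dm (gconv μ σ)))
      hCT hμ.apos ha hσ1 hσ2 hl1 hl2 hC.I_pos.le hS.I_eq hb ?_ ?_
    · rw [hS.w_mean]; exact hsc
    · rw [hS.I_nrg]; exact hgain
  · -- gap alternative
    subst heq
    obtain ⟨φ, hφ, hφ2, hDφ2, hφ0, hφ1, hEig⟩ := gap_exists hμ.bdd hσ hspd.1 hspd.2.1 hP
    obtain ⟨hC, hG⟩ := gapf_main hμ.bdd hμ.dens hσ hRpos hR.1 hφ hφ2 hDφ2 hφ0 hφ1 hEig
    refine ⟨_, _, hC, Or.inr ⟨φ, hG⟩, ?_⟩
    have hls : P⁻¹ * σ ≤ 1 / 2 := by nlinarith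
    have h1 := gapf_mean hμ hσ (inv_pos.mpr hRpos) hls hG hC
    have hI := hC.I_pos.le
    have ha0 := hμ.apos
    have hsa2 : a ^ 2 ≤ Real.sqrt a := by
      have h1 : Real.sqrt a ^ 2 = a := Real.sq_sqrt ha0.le
      have h2 : Real.sqrt a ≤ 1 := by
        rw [show (1 : ℝ) = Real.sqrt 1 by simp]; exact Real.sqrt_le_sqrt ha
      have h0 : 0 ≤ Real.sqrt a := Real.sqrt_nonneg a
      have h3 : a ≤ Real.sqrt a := by nlinarith
      nlinarith
    refine h1.trans ?_
    refine mul_le_mul_of_nonneg_right ?_ hI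
    have h0 : 0 ≤ Real.sqrt a := Real.sqrt_nonneg a
    have h4 : 4 * P⁻¹ * a ^ 2 ≤ 6 * Real.sqrt a := by
      have : 4 * P⁻¹ ≤ 6 := by linarith
      have h5 : 0 ≤ a ^ 2 := by positivity
      nlinarith
    nlinarith

/-! ### Proposition 3.8 -/

/-- Fencing by the upper left Dini derivative. -/
theorem dini_abs {r : ℝ → ℝ} {α β c : ℝ} (hαβ : α ≤ β) (hcont : ContinuousOn r (Set.Icc α β))
    (hD : ∀ σ ∈ Set.Ioc α β, ∀ ε > 0, ∃ h₀ > 0, ∀ h, 0 < h → h < h₀ → α ≤ σ - h →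
      r σ - r (σ - h) ≤ h * (c + ε)) : r β ≤ r α + c * (β - α) := by
  set f : ℝ → ℝ := fun x => - r (β - x) with hf
  have hfc : ContinuousOn f (Set.Icc 0 (β - α)) := by
    apply ContinuousOn.neg
    apply hcont.comp (by fun_prop)
    intro x hx
    exact ⟨by linarith [hx.2], by linarith [hx.1]⟩
  have key := image_le_of_liminf_slope_right_le_deriv_boundary (f := f) (a := 0) (b := β - α) hfc
    (B := fun x => f 0 + c * x) (B' := fun _ => c) (by simp) (by fun_prop)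
    (fun x _ => by
      have : HasDerivAt (fun x : ℝ => f 0 + c * x) c x := by
        simpa using ((hasDerivAt_id x).const_mul c).const_add (f 0)
      exact this.hasDerivWithinAt)
    (by
      intro x hx ρ hρ
      have hσ : β - x ∈ Set.Ioc α β := ⟨by linarith [hx.2], by linarith [hx.1]⟩
      obtain ⟨h₀, hh₀, H⟩ := hD (β - x) hσ ((ρ - c) / 2) (by linarith)
      apply Eventually.frequently
      have h1 : ∀ᶠ z in 𝓝[>] x, z ∈ Set.Ioo x (min (x + h₀) (β - α)) := by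
        apply Ioo_mem_nhdsGT
        exact lt_min (by linarith) hx.2
      filter_upwards [h1] with z hz
      have hz1 : x < z := hz.1
      have hz2 : z < x + h₀ := lt_of_lt_of_le hz.2 (min_le_left _ _)
      have hz3 : z < β - α := lt_of_lt_of_le hz.2 (min_le_right _ _)
      have := H (z - x) (by linarith) (by linarith) (by linarith)
      rw [slope_def_field]
      rw [div_lt_iff₀ (by linarith)]
      have e : β - x - (z - x) = β - z := by ring
      rw [e] at this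
      simp only [hf]
      nlinarith)
  have := key (x := β - α) ⟨by linarith, le_refl _⟩
  simp only [hf] at this
  simp only [sub_sub_cancel, sub_zero] at this
  linarith

/-- both branches of the backward heat step. -/
theorem dini_both {μ : Measure E} [IsProbabilityMeasure μ] (hb : BddSupp μ)
    {σ lam : ℝ} (hσ : 0 < σ) (hlam : 0 < lam) {η : E → ℝ} {w : E → E}
    (hC : CritField μ σ lam η w)
    (hbr : (∃ f, StrictBranch μ σ lam η w f) ∨ (∃ φ, GapBranch μ σ lam η w φ))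
    {ε : ℝ} (hε : 0 < ε) :
    ∃ h₀ > 0, ∀ h, 0 < h → h < h₀ → h < σ → ∀ R', 0 ≤ R' → LSI (dm (gconv μ (σ - h))) R' →
      (lam⁻¹ - R') * ∫ x, ‖w x‖ ^ 2 ∂(dm η) ≤
        h * ∫ x, ‖w x‖ ^ 2 ∂(dm η) - R' * h * (∫ x, hsSq (fderiv ℝ w x) ∂(dm η) - ε) := by
  rcases hbr with ⟨f, hS⟩ | ⟨φ, hG⟩
  · exact dini_strict hb hσ hlam hS hC hε
  · obtain ⟨h₀, hh₀, H⟩ := dini_gap hb hσ hlam hG hC hε
    refine ⟨h₀, hh₀, fun h h1 h2 h3 R' hR' hL => H h h1 h2 h3 R' hR' ?_⟩
    exact lc_pi (gc_spd hb (by linarith)) hL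

/-- numerical core of the Dini bound. -/
theorem dini_num {I D W M2 lam R R' h x ε' : ℝ} (hI : 0 < I) (hlam : lam = R⁻¹)
    (hR1 : 3 / 4 ≤ R) (hR2 : R ≤ 5 / 4) (hD : D = lam * I - W) (hW : W ≤ lam * M2)
    (hM : M2 ≤ x * I) (hx : 0 ≤ x) (h1 : R - h ≤ R') (h2 : R' ≤ R + h) (hh : 0 < h)
    (hh1 : h ≤ 1 / 4) (hε' : 0 < ε') (hh2 : h * (4 / 3 * (1 + x)) ≤ ε' / 2)
    (key : (lam⁻¹ - R') * I ≤ h * I - R' * h * (D - ε' * I / 4)) :
    R - R' ≤ h * (x + ε') := by
  have hRpos : 0 < R := by linarith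
  have hlpos : 0 < lam := by rw [hlam]; positivity
  have hl2 : lam ≤ 4 / 3 := by
    rw [hlam, inv_le_comm₀ hRpos (by norm_num)]; norm_num; linarith
  have hRl : R * lam = 1 := by rw [hlam]; field_simp
  have hli : lam⁻¹ = R := by rw [hlam, inv_inv]
  rw [hli] at key
  have hR'0 : 0 ≤ R' := by linarith
  have hR'2 : R' ≤ 2 := by linarith
  have hDlow : lam * I * (1 - x) ≤ D := by
    have : lam * M2 ≤ lam * (x * I) := mul_le_mul_of_nonneg_left hM hlpos.le
    nlinarith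
  have hk2 : (R - R') * I ≤ h * I - R' * h * (lam * I * (1 - x) - ε' * I / 4) := by
    have : R' * h * (lam * I * (1 - x) - ε' * I / 4) ≤ R' * h * (D - ε' * I / 4) :=
      mul_le_mul_of_nonneg_left (by linarith) (by positivity)
    linarith
  have hA : 1 - h * lam ≤ R' * lam := by nlinarith
  have hB : R' * lam ≤ 1 + h * lam := by nlinarith
  -- divide by I
  have hk3 : (R - R') * I ≤ (h * (x + ε')) * I := by
    have e : h * I - R' * h * (lam * I * (1 - x) - ε' * I / 4) =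
        (h * (1 - R' * lam + R' * lam * x + R' * ε' / 4)) * I := by ring
    rw [e] at hk2
    refine hk2.trans (mul_le_mul_of_nonneg_right ?_ hI.le)
    refine mul_le_mul_of_nonneg_left ?_ hh.le
    have t1 : 1 - R' * lam ≤ h * lam := by linarith
    have t2 : R' * lam * x ≤ (1 + h * lam) * x := mul_le_mul_of_nonneg_right hB hx
    have t3 : R' * ε' / 4 ≤ ε' / 2 := by nlinarith
    have t4 : h * lam * (1 + x) ≤ h * (4 / 3 * (1 + x)) := by
      have : h * lam ≤ h * (4 / 3) := mul_le_mul_of_nonneg_left hl2 hh.le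
      nlinarith
    nlinarith
  exact le_of_mul_le_mul_right hk3 hI


/-- PROPOSITION 3.8 (quantitative): `R_σ ≤ 1 + C √a (σ - 1/8)` on `[1/8, 3/8]`. -/
theorem heat_lsi_bound : ∃ C : ℝ, 0 < C ∧ ∀ (E : Type) [NormedAddCommGroup E]
    [InnerProductSpace ℝ E] [FiniteDimensional ℝ E] [MeasurableSpace E] [BorelSpace E]
    (μ : Measure E) (a : ℝ), NormLaw μ a → a ≤ 1 → ∀ σ, 1 / 8 ≤ σ → σ ≤ 3 / 8 →
      LSI (dm (gconv μ σ)) (1 + C * Real.sqrt a * (σ - 1 / 8)) := by
  obtain ⟨C, hC, hALT⟩ := alt_main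
  refine ⟨C, hC, ?_⟩
  intro E _ _ _ _ _ μ a hN ha σ₁ hσ₁ hσ₁'
  have hB : BaseLaw μ a := hN.toBaseLaw
  have hprob := hB.prob
  have hs0 : s0 = 1 / 8 := s0.eq_1
  have hsharp0 : LSIsharp (dm (gconv μ (1 / 8))) 1 := by
    have := hN.sharp
    rwa [hs0] at this
  have hprob0 : IsProbabilityMeasure (dm (gconv μ (1 / 8))) := gc_isProb (by norm_num)
  have hnt : Nontrivial E := lc_nontrivial_of_sharp hsharp0
  -- existence of the sharp constants
  have hex : ∀ σ ∈ Set.Icc (1 / 8 : ℝ) (3 / 8), ∃ R, LSIsharp (dm (gconv μ σ)) R := by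
    intro σ hσ
    have h1 : LSI (dm (gconv μ (1 / 8 + (σ - 1 / 8)))) (1 + (σ - 1 / 8)) :=
      lc_conv hB.bdd (by norm_num) (by linarith [hσ.1]) hsharp0.1
    have e : (1 / 8 : ℝ) + (σ - 1 / 8) = σ := by ring
    rw [e] at h1
    obtain ⟨R₀, _, h⟩ := lc_sharp (gc_spd hB.bdd (by linarith [hσ.1])) h1
    exact ⟨R₀, h⟩
  choose! r hr using hex
  have hr0 : r (1 / 8) = 1 := lsisharp_unique (hr _ ⟨le_refl _, by norm_num⟩) hsharp0
  -- one sided Lipschitz bounds
  have hup : ∀ σ ∈ Set.Icc (1 / 8 : ℝ) (3 / 8), ∀ σ' ∈ Set.Icc (1 / 8 : ℝ) (3 / 8), σ ≤ σ' →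
      r σ' ≤ r σ + (σ' - σ) := by
    intro σ hσ σ' hσ' hle
    have h1 : LSI (dm (gconv μ (σ + (σ' - σ)))) (r σ + (σ' - σ)) :=
      lc_conv hB.bdd (by linarith [hσ.1]) (by linarith) (hr σ hσ).1
    have e : σ + (σ' - σ) = σ' := by ring
    rw [e] at h1
    exact lsisharp_le (hr σ' hσ') h1
  have hdown : ∀ σ ∈ Set.Icc (1 / 8 : ℝ) (3 / 8), ∀ σ' ∈ Set.Icc (1 / 8 : ℝ) (3 / 8), σ ≤ σ' →
      r σ ≤ r σ' + (σ' - σ) := by
    intro σ hσ σ' hσ' hle
    have h0 : LSI (dm (gconv μ (σ + (σ' - σ)))) (r σ') := by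
      have e : σ + (σ' - σ) = σ' := by ring
      rw [e]; exact (hr σ' hσ').1
    have h1 : LSI (dm (gconv μ σ)) (r σ' + (σ' - σ)) :=
      lc_rev hB.bdd hB.dens (by linarith [hσ.1]) (by linarith) h0
    exact lsisharp_le (hr σ hσ) h1
  have hlow : ∀ σ ∈ Set.Icc (1 / 8 : ℝ) (3 / 8), 3 / 4 ≤ r σ := by
    intro σ hσ
    have := hdown (1 / 8) ⟨le_refl _, by norm_num⟩ σ hσ hσ.1
    rw [hr0] at this
    linarith [hσ.2]
  have hhigh : ∀ σ ∈ Set.Icc (1 / 8 : ℝ) (3 / 8), r σ ≤ 5 / 4 := by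
    intro σ hσ
    have := hup (1 / 8) ⟨le_refl _, by norm_num⟩ σ hσ hσ.1
    rw [hr0] at this
    linarith [hσ.2]
  have hlip : LipschitzOnWith 1 r (Set.Icc (1 / 8 : ℝ) (3 / 8)) := by
    apply LipschitzOnWith.of_dist_le_mul
    intro x hx y hy
    rw [Real.dist_eq, Real.dist_eq]
    simp only [NNReal.coe_one, one_mul]
    rcases le_total x y with hxy | hxy
    · have h1 := hup x hx y hy hxy
      have h2 := hdown x hx y hy hxy
      rw [abs_le]
      rw [abs_of_nonpos (by linarith : x - y ≤ 0)]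
      constructor <;> linarith
    · have h1 := hup y hy x hx hxy
      have h2 := hdown y hy x hx hxy
      rw [abs_le]
      rw [abs_of_nonneg (by linarith : 0 ≤ x - y)]
      constructor <;> linarith
  have hcont : ContinuousOn r (Set.Icc (1 / 8 : ℝ) σ₁) :=
    hlip.continuousOn.mono (Set.Icc_subset_Icc_right hσ₁')
  set x : ℝ := C * Real.sqrt a with hx
  have hx0 : 0 ≤ x := by positivity
  have hfinal : r σ₁ ≤ r (1 / 8) + x * (σ₁ - 1 / 8) := by
    refine dini_abs hσ₁ hcont ?_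
    intro σ hσ ε' hε'
    have hσI : σ ∈ Set.Icc (1 / 8 : ℝ) (3 / 8) := ⟨hσ.1.le, hσ.2.trans hσ₁'⟩
    obtain ⟨η, w, hCF, hbr, hmean⟩ := hALT E μ a σ (r σ) hB ha hσI.1 hσI.2 (hr σ hσI)
      (hlow σ hσI) (hhigh σ hσI)
    have hRpos : 0 < r σ := by linarith [hlow σ hσI]
    have hI := hCF.I_pos
    obtain ⟨h₀, hh₀, H⟩ := dini_both hB.bdd (by linarith [hσI.1] : (0 : ℝ) < σ)
      (inv_pos.mpr hRpos) hCF hbr
      (ε := ε' * (∫ x, ‖w x‖ ^ 2 ∂(dm η)) / 4) (by positivity)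
    refine ⟨min h₀ (min (1 / 4) (ε' / 2 / (4 / 3 * (1 + x)))), ?_, ?_⟩
    · refine lt_min hh₀ (lt_min (by norm_num) (by positivity))
    intro h hh hlt hα
    have hlt0 : h < h₀ := lt_of_lt_of_le hlt (min_le_left _ _)
    have hlt1 : h < 1 / 4 := lt_of_lt_of_le hlt ((min_le_right _ _).trans (min_le_left _ _))
    have hlt2 : h < ε' / 2 / (4 / 3 * (1 + x)) :=
      lt_of_lt_of_le hlt ((min_le_right _ _).trans (min_le_right _ _))
    have hσh : σ - h ∈ Set.Icc (1 / 8 : ℝ) (3 / 8) := ⟨hα, by linarith [hσI.2]⟩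
    have hkey := H h hh hlt0 (by linarith) (r (σ - h)) (by linarith [hlow _ hσh]) (hr _ hσh).1
    have h1 := hup (σ - h) hσh σ hσI (by linarith)
    have h2 := hdown (σ - h) hσh σ hσI (by linarith)
    refine dini_num (I := ∫ x, ‖w x‖ ^ 2 ∂(dm η)) (lam := (r σ)⁻¹) (R := r σ) hI rfl
      (hlow σ hσI) (hhigh σ hσI) hCF.Dw_energy hCF.wKw hmean hx0 (by linarith) (by linarith) hh
      hlt1.le hε' ?_ hkey
    have hpos : 0 < 4 / 3 * (1 + x) := by positivity
    exact ((lt_div_iff₀ hpos).mp hlt2).le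
  rw [hr0] at hfinal
  exact lsi_mono (hr σ₁ ⟨hσ₁, hσ₁'⟩).1 hfinal

/-! ### Proposition 3.9 -/

/-- The critical datum at the regularisation time `s0 = 1/8`; `lam = 1` exactly. -/
structure Crit (μ : Measure E) (a ε : ℝ) (η : E → ℝ) (w : E → E) : Prop where
  base : NormLaw μ a
  field : CritField μ s0 1 η w
  branch : (∃ f, StrictBranch μ s0 1 η w f) ∨ (∃ φ, GapBranch μ s0 1 η w φ)
  mean_small : ‖∫ x, w x ∂(dm η)‖ ^ 2 ≤ ε * ∫ x, ‖w x‖ ^ 2 ∂(dm η)
  wKw_small : ∫ x, inner ℝ (w x) (hessK μ s0 x (w x)) ∂(dm η) ≤ ε * ∫ x, ‖w x‖ ^ 2 ∂(dm η)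
  Kw_small : ∫ x, ‖hessK μ s0 x (w x)‖ ^ 2 ∂(dm η) ≤ ε * ∫ x, ‖w x‖ ^ 2 ∂(dm η)
  a_small : a ≤ ε
  lsi_heat : ∀ t, 0 ≤ t → t ≤ 1 / 4 → LSI (dm (gconv μ (s0 + t))) (1 + ε)

/-- `∫ |K w|² ≤ s⁻¹ ∫ ⟨w, K w⟩`. -/
theorem crit_Kw_le {μ : Measure E} [IsProbabilityMeasure μ] (hb : BddSupp μ)
    (hlc : ∃ ρ : E → ℝ, LogConc ρ ∧ μ = dm ρ) {s : ℝ} (hs : 0 < s) {m : Measure E} {w : E → E}
    (hw : Continuous w) (hw2 : MemLp w 2 m) :
    ∫ x, ‖hessK μ s x (w x)‖ ^ 2 ∂m ≤ s⁻¹ * ∫ x, inner ℝ (w x) (hessK μ s x (w x)) ∂m := by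
  have hKc : Continuous (hessK μ s) := (gc_hessK_contDiff hb hs).continuous
  have hKw : Continuous (fun x => hessK μ s x (w x)) := hKc.clm_apply hw
  have hint : Integrable (fun x => inner ℝ (w x) (hessK μ s x (w x))) m := by
    have h2 : Integrable (fun x => s⁻¹ * ‖w x‖ ^ 2) m := (hw2.integrable_norm_pow (by norm_num)).const_mul _
    refine h2.mono' (hw.inner hKw).aestronglyMeasurable (Eventually.of_forall fun x => ?_)
    calc ‖inner ℝ (w x) (hessK μ s x (w x))‖ ≤ ‖w x‖ * ‖hessK μ s x (w x)‖ := norm_inner_le_norm _ _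
      _ ≤ ‖w x‖ * (‖hessK μ s x‖ * ‖w x‖) := by gcongr; exact ContinuousLinearMap.le_opNorm _ _
      _ ≤ ‖w x‖ * (s⁻¹ * ‖w x‖) := by gcongr; exact gc_hessK_norm_le hb hlc hs x
      _ = s⁻¹ * ‖w x‖ ^ 2 := by ring
  rw [← integral_const_mul]
  refine integral_mono_of_nonneg (Eventually.of_forall fun x => by positivity) (hint.const_mul _)
    (Eventually.of_forall fun x => ?_)
  have := gc_hessK_sq_le hb hlc hs x (w x)
  rw [real_inner_comm] at this
  exact this

/-- PROPOSITION 3.9 (eps-delta form). -/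
theorem crit_exists : ∀ ε : ℝ, 0 < ε → ∃ a₀ : ℝ, 0 < a₀ ∧ ∀ (E : Type) [NormedAddCommGroup E]
    [InnerProductSpace ℝ E] [FiniteDimensional ℝ E] [MeasurableSpace E] [BorelSpace E]
    (μ : Measure E) (a : ℝ), NormLaw μ a → a < a₀ → ∃ (η : E → ℝ) (w : E → E), Crit μ a ε η w := by
  intro ε hε
  obtain ⟨CA, hCA, hALT⟩ := alt_main
  obtain ⟨CH, hCH, hHEAT⟩ := heat_lsi_bound
  set δ : ℝ := ε / (8 * (CA + CH)) with hδ
  have hδ0 : 0 < δ := by positivity
  refine ⟨min 1 (min ε (δ ^ 2)), lt_min one_pos (lt_min hε (by positivity)), ?_⟩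
  intro E _ _ _ _ _ μ a hN ha
  have hB : BaseLaw μ a := hN.toBaseLaw
  have hprob := hB.prob
  have ha1 : a ≤ 1 := (lt_of_lt_of_le ha (min_le_left _ _)).le
  have haε : a ≤ ε := (lt_of_lt_of_le ha ((min_le_right _ _).trans (min_le_left _ _))).le
  have haδ : a < δ ^ 2 := lt_of_lt_of_le ha ((min_le_right _ _).trans (min_le_right _ _))
  have hsq : Real.sqrt a ≤ δ := (Real.sqrt_lt' hδ0).mpr haδ |>.le
  have hsq0 : 0 ≤ Real.sqrt a := Real.sqrt_nonneg a
  have hsum : (CA + CH) * δ = ε / 8 := by rw [hδ]; field_simp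
  have hA : CA * Real.sqrt a ≤ ε / 8 := by
    calc CA * Real.sqrt a ≤ (CA + CH) * δ := by
          apply mul_le_mul (by linarith) hsq hsq0 (by positivity)
      _ = ε / 8 := hsum
  have hH : CH * Real.sqrt a ≤ ε / 8 := by
    calc CH * Real.sqrt a ≤ (CA + CH) * δ := by
          apply mul_le_mul (by linarith) hsq hsq0 (by positivity)
      _ = ε / 8 := hsum
  have hs0 : s0 = 1 / 8 := s0.eq_1
  obtain ⟨η, w, hCF, hbr, hmean⟩ := hALT E μ a s0 1 hB ha1 (by rw [hs0]) (by rw [hs0]; norm_num)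
    hN.sharp (by norm_num) (by norm_num)
  rw [inv_one] at hCF hbr
  have hI := hCF.I_pos
  have hmean8 : ‖∫ x, w x ∂(dm η)‖ ^ 2 ≤ ε / 8 * ∫ x, ‖w x‖ ^ 2 ∂(dm η) :=
    hmean.trans (mul_le_mul_of_nonneg_right hA hI.le)
  have hwKw : ∫ x, inner ℝ (w x) (hessK μ s0 x (w x)) ∂(dm η) ≤
      ε / 8 * ∫ x, ‖w x‖ ^ 2 ∂(dm η) := by
    have := hCF.wKw
    rw [one_mul] at this
    exact this.trans hmean8
  refine ⟨η, w, ⟨hN, hCF, hbr, ?_, ?_, ?_, haε, ?_⟩⟩
  · refine hmean8.trans (mul_le_mul_of_nonneg_right (by linarith) hI.le)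
  · refine hwKw.trans (mul_le_mul_of_nonneg_right (by linarith) hI.le)
  · have h1 := crit_Kw_le hB.bdd hB.dens (s := s0) (by rw [hs0]; norm_num) (m := dm η)
      hCF.w_smooth.continuous hCF.w_L2
    have h8 : s0⁻¹ = 8 := by rw [hs0]; norm_num
    rw [h8] at h1
    nlinarith
  · intro t ht ht'
    have := hHEAT E μ a hN ha1 (s0 + t) (by rw [hs0]; linarith) (by rw [hs0]; linarith)
    refine lsi_mono this ?_
    have e : s0 + t - 1 / 8 = t := by rw [hs0]; ring
    rw [e]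
    have : CH * Real.sqrt a * t ≤ ε / 8 * (1 / 4) :=
      mul_le_mul hH ht' ht (by positivity)
    linarith

end Claimed.Agent.R259
end

/- ===== packed: Claimed.Agent.R259.S4Defs ===== -/
section
/-
Row 259 (S0499), section 4 of the paper (efficient probes and the prediction curve): definitions of the
EXPORT of section 4 (= what sections 5-6 consume in addition to `Crit` of `S3Main`).
Owner: helper220.
-/
set_option autoImplicit false

open MeasureTheory Filter Topology ProbabilityTheory InformationTheory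
open scoped ContDiff ENNReal

namespace Claimed.Agent.R259

variable {E : Type} [NormedAddCommGroup E] [InnerProductSpace ℝ E] [FiniteDimensional ℝ E]
  [MeasurableSpace E] [BorelSpace E]

/-- orthogonal projection. -/
def IsOProj (Pj : E →L[ℝ] E) : Prop :=
  (∀ v, Pj (Pj v) = Pj v) ∧ ∀ u v, inner ℝ (Pj u) v = inner ℝ u (Pj v)

/-- PROPOSITION 4.3, uniform form: `|m(r) - e^{-r}| ≤ ε` on `[r0, 1/4 - r0]`,
`m(r) I = hpe (dm η) r w = E|E[w(Y) | Y + √r G]|²`. -/
def CurveOK (η : E → ℝ) (w : E → E) (ε r0 : ℝ) : Prop :=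
  ∀ r, r0 ≤ r → r ≤ 1 / 4 - r0 →
    |hpe (dm η) r w - Real.exp (-r) * ∫ x, ‖w x‖ ^ 2 ∂(dm η)| ≤ ε * ∫ x, ‖w x‖ ^ 2 ∂(dm η)

/-- the integrand of `TailOK`:  `E[2⟨M ẘ, ẘ⟩ - |M ẘ|² | U_r = u] - |M|²_HS`, `ẘ = w(Y) - E[w(Y) | U_r = u]`
(`= 2 tr(M C_r) - tr(M (1 + C_r) Mᵀ)` for the conditional covariance `C_r(u)`). -/
noncomputable def tailInt (η : E → ℝ) (w : E → E) (r : ℝ) (M : E →L[ℝ] E) (u : E) : ℝ :=
  hpost (dm η) r (fun y => 2 * inner ℝ (M (w y - hpost (dm η) r w u)) (w y - hpost (dm η) r w u)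
    - ‖M (w y - hpost (dm η) r w u)‖ ^ 2) u - hsSq M

/-- LEMMA 4.4 (iii), variational form without spectral projections, uniform in `r`. With `M = c P`,
`P` a measurable field of projections: `E tr(P C_r) ≤ c E rank P + (ε / c) I`. -/
def TailOK (η : E → ℝ) (w : E → E) (ε r0 : ℝ) : Prop :=
  ∀ r, r0 ≤ r → r ≤ 1 / 4 - r0 → ∀ M : E → E →L[ℝ] E, Measurable M → (∃ C, ∀ u, ‖M u‖ ≤ C) →
    ∫ u, tailInt η w r (M u) u ∂(dm (gconv (dm η) r)) ≤ ε * ∫ x, ‖w x‖ ^ 2 ∂(dm η)

/-- LEMMA 4.4 (i)+(ii) with ONE deterministic projection (`om = w` strict branch, `om = 0` gap branch;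
`D b_s = M_s`). -/
structure OutlierProj (μ : Measure E) (η : E → ℝ) (w om : E → E) (ε : ℝ) (Pj : E →L[ℝ] E) : Prop where
  proj : IsOProj Pj
  small : ∫ x, ‖Pj (w x)‖ ^ 2 ∂(dm η) ≤ ε * ∫ x, ‖w x‖ ^ 2 ∂(dm η)
  bb : ∀ v, ∫ x, inner ℝ (postMean μ s0 x) (v - Pj v) ^ 2 ∂(dm η) ≤ ε * ‖v‖ ^ 2
  ww : ∀ v, ∫ x, inner ℝ (om x) (v - Pj v) ^ 2 ∂(dm η) ≤ ε * ‖v‖ ^ 2
  mm : ∀ v, ∫ x, inner ℝ (fderiv ℝ (postMean μ s0) x (v - Pj v)) (v - Pj v) ∂(dm η) ≤ ε * ‖v‖ ^ 2

/-- `I p_v(r) = E|E[w(Y) | U_r, L_v]|²` (heat observation `U_r` and label `L_v = √v w(Y) + G'`). -/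
noncomputable def s4P (m : Measure E) (w : E → E) (r v : ℝ) : ℝ :=
  ∫ u, lcPE (hpm m r u) w v w ∂(dm (gconv m r))

/-- generates the equation lemmas of the definitions above in this file (rule 6: unique names) -/
theorem s4defs_eqns_cite : True := by
  have := @IsOProj.eq_1
  have := @CurveOK.eq_1
  have := @tailInt.eq_1
  have := @TailOK.eq_1
  have := @s4P.eq_1
  trivial

end Claimed.Agent.R259
end

/- ===== packed: Claimed.Agent.R259.S4Hc ===== -/
section
/-
Row 259 (S0499), section 4: kit HC (basics of the heat channel: conditional Jensen, tower property).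
Sub-captain: helper220.  DONE (helper221): statements verbatim, no own sorry.
Extra exports (prefix `hcx_`): hcx_cs (abstract weighted Cauchy-Schwarz: Z |N/Z|^2 <= int k |g|^2), hcx_int_k, hcx_sq_int,
hcx_pt (pointwise conditional Jensen), hcx_hpost_aesm, hcx_dm_ac, hcx_sq_integrable, hcx_hpe_eq, hcx_hpost_memLp
(hpost m r g in L2 of the law of U_r), hcx_tower (int gk t (u-u1) • hpost m r g u1 d(law U_r) = int gk (r+t) (u-x) • g x dm),
hcx_hpm_prob, hcx_hpm_integral (int g d(hpm m r u) = hpost m r g u).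
-/
set_option autoImplicit false
set_option linter.unusedSectionVars false
set_option linter.style.haveILetI false

open MeasureTheory Filter Topology ProbabilityTheory InformationTheory
open scoped ContDiff ENNReal

namespace Claimed.Agent.R259

variable {E : Type} [NormedAddCommGroup E] [InnerProductSpace ℝ E] [FiniteDimensional ℝ E]
  [MeasurableSpace E] [BorelSpace E]

section HC

variable {F : Type} [NormedAddCommGroup F] [InnerProductSpace ℝ F] [FiniteDimensional ℝ F]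

omit [FiniteDimensional ℝ F] in
theorem hc_pe_nonneg (m : Measure E) (r : ℝ) (g : E → F) : 0 ≤ hpe m r g :=
  integral_nonneg fun _ => by positivity

/-- abstract weighted Cauchy-Schwarz / conditional Jensen -/
theorem hcx_cs {α : Type} [MeasurableSpace α] {m : Measure α} {k : α → ℝ} {g : α → F}
    (hk0 : ∀ x, 0 ≤ k x) (hk : Integrable k m) (hkg : Integrable (fun x => k x • g x) m)
    (hkg2 : Integrable (fun x => k x * ‖g x‖ ^ 2) m) (hZ : 0 < ∫ x, k x ∂m) :
    (∫ x, k x ∂m) * ‖(∫ x, k x ∂m)⁻¹ • ∫ x, k x • g x ∂m‖ ^ 2 ≤ ∫ x, k x * ‖g x‖ ^ 2 ∂m := by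
  obtain ⟨Z, hZd⟩ : ∃ Z, Z = ∫ x, k x ∂m := ⟨_, rfl⟩
  obtain ⟨N, hN⟩ : ∃ N, N = ∫ x, k x • g x ∂m := ⟨_, rfl⟩
  rw [← hZd, ← hN]
  rw [← hZd] at hZ
  obtain ⟨c, hc⟩ : ∃ c, c = Z⁻¹ • N := ⟨_, rfl⟩
  rw [← hc]
  have h1 : ∀ x, k x * ‖g x - c‖ ^ 2
      = k x * ‖g x‖ ^ 2 - 2 * inner ℝ c (k x • g x) + ‖c‖ ^ 2 * k x := by
    intro x
    rw [norm_sub_sq_real, real_inner_smul_right, real_inner_comm]
    ring
  have hi : Integrable (fun x => inner ℝ c (k x • g x)) m := hkg.const_inner c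
  have h2 : 0 ≤ ∫ x, k x * ‖g x - c‖ ^ 2 ∂m :=
    integral_nonneg fun x => mul_nonneg (hk0 x) (by positivity)
  simp_rw [h1] at h2
  have hi2 : Integrable (fun x => 2 * inner ℝ c (k x • g x)) m := hi.const_mul 2
  have hi3 : Integrable (fun x => k x * ‖g x‖ ^ 2 - 2 * inner ℝ c (k x • g x)) m := hkg2.sub hi2
  have hi4 : Integrable (fun x => ‖c‖ ^ 2 * k x) m := hk.const_mul _
  rw [integral_add hi3 hi4, integral_sub hkg2 hi2,
    integral_const_mul, integral_const_mul, integral_inner (𝕜 := ℝ) hkg c, ← hN, ← hZd] at h2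
  have h3 : inner ℝ c N = Z * ‖c‖ ^ 2 := by
    have : N = Z • c := by rw [hc, smul_smul, mul_inv_cancel₀ hZ.ne', one_smul]
    rw [this, real_inner_smul_right, real_inner_self_eq_norm_sq]
  rw [h3] at h2
  linarith

variable {m : Measure E} [IsProbabilityMeasure m]

theorem hcx_int_k {r : ℝ} (hr : 0 < r) {g : E → F} (hg : Integrable g m) (u : E) :
    Integrable (fun x => gk r (u - x) • g x) m := by
  have hm := gck_measurable (E := E) r
  refine Integrable.bdd_smul hg ((2 * Real.pi * r) ^ (-(Module.finrank ℝ E : ℝ) / 2))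
    (Measurable.aestronglyMeasurable (by fun_prop)) (Eventually.of_forall fun x => ?_)
  rw [Real.norm_eq_abs, abs_of_pos (gc_gk_pos hr _)]
  exact gck_le hr _

theorem hcx_sq_int {g : E → F} (hg : MemLp g 2 m) : Integrable (fun x => ‖g x‖ ^ 2) m :=
  hg.integrable_norm_pow (by norm_num)

/-- pointwise conditional Jensen -/
theorem hcx_pt {r : ℝ} (hr : 0 < r) {g : E → F} (hg : MemLp g 2 m) (u : E) :
    gconv m r u * ‖hpost m r g u‖ ^ 2 ≤ ∫ x, gk r (u - x) • ‖g x‖ ^ 2 ∂m := by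
  have hg1 : Integrable g m := hg.integrable (by norm_num)
  exact hcx_cs (fun x => (gc_gk_pos hr _).le) (gck_gconv_integrable hr u) (hcx_int_k hr hg1 u)
    (hcx_int_k hr (hcx_sq_int hg) u) (gcm_gconv_pos hr u)

theorem hcx_hpost_aesm {r : ℝ} {g : E → F} (hg : AEStronglyMeasurable g m) :
    AEStronglyMeasurable (hpost m r g) volume := by
  have hm := gck_measurable (E := E) r
  unfold hpost
  refine AEStronglyMeasurable.smul
    (gck_gconv_measurable (μ := m) r).inv.aestronglyMeasurable ?_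
  have h : AEStronglyMeasurable (fun p : E × E => gk r (p.1 - p.2) • g p.2) (volume.prod m) :=
    AEStronglyMeasurable.smul (Measurable.aestronglyMeasurable (by fun_prop)) hg.comp_snd
  exact h.integral_prod_right'

theorem hcx_dm_ac (ρ : E → ℝ) : dm ρ ≪ (volume : Measure E) :=
  withDensity_absolutelyContinuous _ _

theorem hcx_sq_integrable {r : ℝ} (hr : 0 < r) {g : E → F} (hg : MemLp g 2 m) :
    Integrable (fun u => gconv m r u * ‖hpost m r g u‖ ^ 2) volume := by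
  refine Integrable.mono' (gcm_kernel_integrable_right hr (hcx_sq_int hg)) ?_
    (Eventually.of_forall fun u => ?_)
  · exact (gck_gconv_measurable (μ := m) r).aestronglyMeasurable.mul
      ((hcx_hpost_aesm hg.aestronglyMeasurable).norm.pow 2)
  · rw [Real.norm_eq_abs, abs_of_nonneg (mul_nonneg (gck_gconv_nonneg hr u) (by positivity))]
    exact hcx_pt hr hg u

theorem hcx_hpe_eq {r : ℝ} (hr : 0 < r) (g : E → F) :
    hpe m r g = ∫ u, gconv m r u * ‖hpost m r g u‖ ^ 2 := by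
  unfold hpe
  rw [gck_integral_dm (gck_gconv_measurable r) (gck_gconv_nonneg hr)]
  rfl

/-- conditional Jensen. -/
theorem hc_pe_le {r : ℝ} (hr : 0 < r) {g : E → F}
    (hg : MemLp g 2 m) : hpe m r g ≤ ∫ x, ‖g x‖ ^ 2 ∂m := by
  rw [hcx_hpe_eq hr, ← gcm_kernel_integral hr (hcx_sq_int hg)]
  exact integral_mono (hcx_sq_integrable hr hg) (gcm_kernel_integrable_right hr (hcx_sq_int hg))
    fun u => hcx_pt hr hg u

theorem hcx_hpost_memLp {r : ℝ} (hr : 0 < r) {g : E → F} (hg : MemLp g 2 m) :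
    MemLp (hpost m r g) 2 (dm (gconv m r)) := by
  have hae : AEStronglyMeasurable (hpost m r g) (dm (gconv m r)) :=
    (hcx_hpost_aesm hg.aestronglyMeasurable).mono_ac (hcx_dm_ac _)
  rw [memLp_two_iff_integrable_sq_norm hae]
  unfold dm
  rw [integrable_withDensity_iff_integrable_smul' (gck_gconv_measurable r).ennreal_ofReal
    (Eventually.of_forall fun x => ENNReal.ofReal_lt_top)]
  simp_rw [ENNReal.toReal_ofReal (gck_gconv_nonneg hr _)]
  exact hcx_sq_integrable hr hg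

/-- tower property of the numerators -/
theorem hcx_tower {g : E → F} (hg : Integrable g m) {r t : ℝ} (hr : 0 < r) (ht : 0 < t) (u : E) :
    ∫ u₁, gk t (u - u₁) • hpost m r g u₁ ∂(dm (gconv m r)) = ∫ x, gk (r + t) (u - x) • g x ∂m := by
  have hmr := gck_measurable (E := E) r
  have hmt := gck_measurable (E := E) t
  rw [gck_integral_dm (gck_gconv_measurable r) (gck_gconv_nonneg hr)]
  have h1 : ∀ u₁ : E, gconv m r u₁ • gk t (u - u₁) • hpost m r g u₁
      = ∫ x, gk t (u - u₁) • gk r (u₁ - x) • g x ∂m := by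
    intro u₁
    unfold hpost
    rw [integral_smul, smul_comm, smul_smul (gconv m r u₁),
      mul_inv_cancel₀ (gcm_gconv_pos hr u₁).ne', one_smul]
  simp_rw [h1]
  rw [integral_integral_swap]
  · refine integral_congr_ae (Eventually.of_forall fun x => ?_)
    show ∫ u₁, gk t (u - u₁) • gk r (u₁ - x) • g x = gk (r + t) (u - x) • g x
    simp_rw [smul_smul]
    rw [integral_smul_const, ← gck_conv hr ht (u - x),
      ← integral_sub_right_eq_self (fun w => gk t (u - x - w) * gk r w) x]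
    congr 2
    funext u₁
    rw [sub_sub_sub_cancel_right]
  · have hb := ((gcm_kernel_integrable hr hg).swap).smul
      ((2 * Real.pi * t) ^ (-(Module.finrank ℝ E : ℝ) / 2))
    refine hb.mono ?_ (Eventually.of_forall fun p => ?_)
    · exact AEStronglyMeasurable.smul (Measurable.aestronglyMeasurable (by fun_prop))
        (AEStronglyMeasurable.smul (Measurable.aestronglyMeasurable (by fun_prop))
          hg.aestronglyMeasurable.comp_snd)
    · show ‖gk t (u - p.1) • gk r (p.1 - p.2) • g p.2‖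
        ≤ ‖(2 * Real.pi * t) ^ (-(Module.finrank ℝ E : ℝ) / 2) • gk r (p.1 - p.2) • g p.2‖
      rw [norm_smul, norm_smul ((2 * Real.pi * t) ^ (-(Module.finrank ℝ E : ℝ) / 2))]
      apply mul_le_mul_of_nonneg_right _ (norm_nonneg _)
      rw [Real.norm_eq_abs, Real.norm_eq_abs, abs_of_pos (gc_gk_pos ht _)]
      exact (gck_le ht _).trans (le_abs_self _)

/-- a noisier observation predicts less (tower property + conditional Jensen). -/
theorem hc_pe_anti {g : E → F} (hg : MemLp g 2 m)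
    {r₁ r₂ : ℝ} (h₁ : 0 < r₁) (h₁₂ : r₁ ≤ r₂) : hpe m r₂ g ≤ hpe m r₁ g := by
  rcases h₁₂.eq_or_lt with rfl | hlt
  · exact le_rfl
  obtain ⟨t, ht, rfl⟩ : ∃ t, 0 < t ∧ r₂ = r₁ + t := ⟨r₂ - r₁, by linarith, by ring⟩
  haveI := gc_isProb (μ := m) h₁
  have hg1 : Integrable g m := hg.integrable (by norm_num)
  have hZ : gconv (dm (gconv m r₁)) t = gconv m (r₁ + t) := gc_semigroup h₁ ht
  have hP : hpost (dm (gconv m r₁)) t (hpost m r₁ g) = hpost m (r₁ + t) g := by
    funext u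
    unfold hpost
    rw [hZ]
    congr 1
    exact hcx_tower hg1 h₁ ht u
  have h := hc_pe_le (m := dm (gconv m r₁)) ht (hcx_hpost_memLp h₁ hg)
  unfold hpe at h ⊢
  rw [hZ, hP] at h
  exact h

theorem hcx_hpm_prob {r : ℝ} (hr : 0 < r) (u : E) : IsProbabilityMeasure (hpm m r u) := by
  have hm := gck_measurable (E := E) r
  constructor
  unfold hpm
  rw [withDensity_apply _ MeasurableSet.univ, Measure.restrict_univ,
    ← ofReal_integral_eq_lintegral_ofReal ((gck_gconv_integrable hr u).const_mul _)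
      (Eventually.of_forall fun x =>
        mul_nonneg (inv_nonneg.2 (gck_gconv_nonneg hr u)) (gc_gk_pos hr _).le),
    integral_const_mul]
  show ENNReal.ofReal ((gconv m r u)⁻¹ * gconv m r u) = 1
  rw [inv_mul_cancel₀ (gcm_gconv_pos hr u).ne', ENNReal.ofReal_one]

theorem hcx_hpm_integral {r : ℝ} (hr : 0 < r) (u : E) (g : E → F) :
    ∫ x, g x ∂(hpm m r u) = hpost m r g u := by
  have hm := gck_measurable (E := E) r
  unfold hpm hpost
  rw [integral_withDensity_eq_integral_toReal_smul (by fun_prop)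
    (Eventually.of_forall fun x => ENNReal.ofReal_lt_top), ← integral_smul]
  refine integral_congr_ae (Eventually.of_forall fun x => ?_)
  simp only
  rw [ENNReal.toReal_ofReal
    (mul_nonneg (inv_nonneg.2 (gck_gconv_nonneg hr u)) (gc_gk_pos hr _).le), smul_smul]

/-- no label = heat channel alone. -/
theorem s4_P_zero {w : E → E} (hw : MemLp w 2 m) {r : ℝ}
    (hr : 0 < r) : s4P m w r 0 = hpe m r w := by
  unfold s4P hpe
  refine integral_congr_ae (Eventually.of_forall fun u => ?_)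
  haveI := hcx_hpm_prob (m := m) hr u
  have hK : ∀ (l x : E), lcK w 0 l x = 1 := by
    intro l x
    unfold lcK
    simp
  have hZ : ∀ l : E, lcZ (hpm m r u) w 0 l = 1 := by
    intro l
    unfold lcZ
    simp [hK]
  have hE : ∀ l : E, lcE (hpm m r u) w 0 w l = hpost m r w u := by
    intro l
    unfold lcE
    rw [hZ]
    simp only [hK, one_smul, inv_one]
    exact hcx_hpm_integral hr u w
  show lcPE (hpm m r u) w 0 w = ‖hpost m r w u‖ ^ 2
  unfold lcPE
  simp [hZ, hE]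

end HC

end Claimed.Agent.R259
end

/- ===== packed: Claimed.Agent.R259.S4ProbeDefs ===== -/
section
/-
Row 259 (S0499), Lemma 4.1 (efficient Gaussian probes): definitions of the sub-blueprint.
Owner: helper220.

DESIGN (no semigroup, no diffusion, no conditional expectations).  `m = dm η`, label `L_T = √T w(Y_0) + G'`,
`Λ = lcLaw m w T`.  The "time `j κ`" conditional density of `Y` given `L_T = l` with respect to `η` is
`K j l = J^j (K 0 l)`, `J = (1 + κ A_η)⁻¹` (kit OP), `K 0 l y = lcK w T l y / lcZ m w T l`.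
A `PChain` is a jointly measurable version of this family.
  `Ch.H j l = H(σ_{j,l} | η)`,  `Ch.J j = MI(L_T; Y_j)`,  `Ch.pe j g l = E[g(Y_j) | L_T = l]`,
  `Ch.Q j g = E|E[g(Y_j) | L_T]|²`.
-/
set_option autoImplicit false

open MeasureTheory Filter Topology ProbabilityTheory InformationTheory
open scoped ContDiff ENNReal

namespace Claimed.Agent.R259

variable {E : Type} [NormedAddCommGroup E] [InnerProductSpace ℝ E] [FiniteDimensional ℝ E]
  [MeasurableSpace E] [BorelSpace E]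

/-- the data of the strict branch. -/
structure PData (μ : Measure E) (a δ : ℝ) (η : E → ℝ) (w : E → E) (f : E → ℝ) : Prop where
  crit : Crit μ a δ η w
  strict : StrictBranch μ s0 1 η w f

/-- jointly measurable version of the conditional densities `K j l = J^j (K 0 l)`. -/
structure PChain (η : E → ℝ) (w : E → E) (T κ : ℝ) where
  K : ℕ → E → E → ℝ
  G : ℕ → E → E → E
  meas : ∀ j, Measurable (fun p : E × E => K j p.1 p.2)
  zero : ∀ l y, K 0 l y = (lcZ (dm η) w T l)⁻¹ * lcK w T l y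
  res : ∀ j, ∀ᵐ l ∂(stdGaussian E), IsRes η κ (K j l) (K (j + 1) l) (G (j + 1) l)

namespace PChain

variable {η : E → ℝ} {w : E → E} {T κ : ℝ} (Ch : PChain η w T κ)

/-- `H(Law(Y_j | L_T = l) | η)`. -/
noncomputable def H (j : ℕ) (l : E) : ℝ := ∫ y, klFun (Ch.K j l y) ∂(dm η)

/-- `MI(L_T; Y_j)`. -/
noncomputable def J (j : ℕ) : ℝ := ∫ l, Ch.H j l ∂(lcLaw (dm η) w T)

/-- `E[g(Y_j) | L_T = l]`. -/
noncomputable def pe {F : Type} [NormedAddCommGroup F] [NormedSpace ℝ F] (j : ℕ) (g : E → F)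
    (l : E) : F := ∫ y, Ch.K j l y • g y ∂(dm η)

/-- `E|E[g(Y_j) | L_T]|²`. -/
noncomputable def Q {F : Type} [NormedAddCommGroup F] [NormedSpace ℝ F] (j : ℕ) (g : E → F) : ℝ :=
  ∫ l, ‖Ch.pe j g l‖ ^ 2 ∂(lcLaw (dm η) w T)

end PChain

/-- componentwise iterated resolvent of a vector field. -/
noncomputable def vJ (η : E → ℝ) (κ : ℝ) (j : ℕ) (g : E → E) (y : E) : E :=
  ∑ i, ((opJ η κ)^[j] (fun x => inner ℝ (stdOrthonormalBasis ℝ E i) (g x)) y) •
    stdOrthonormalBasis ℝ E i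

/-- generates the equation lemmas of the definitions above in this file (rule 6: unique names) -/
theorem s4probedefs_eqns_cite : True := by
  have := @PChain.H.eq_1
  have := @PChain.J.eq_1
  have := @PChain.pe.eq_1
  have := @PChain.Q.eq_1
  have := @vJ.eq_1
  trivial

end Claimed.Agent.R259
end

/- ===== packed: Claimed.Agent.R259.S4ProbeChainA ===== -/
section
/-
Row 259 (S0499), Lemma 4.1, leaf L-S4Probe-chain (helper220): proofs, part A.
-/
set_option autoImplicit false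

open MeasureTheory Filter Topology ProbabilityTheory InformationTheory
open scoped ContDiff ENNReal

namespace Claimed.Agent.R259

variable {E : Type} [NormedAddCommGroup E] [InnerProductSpace ℝ E] [FiniteDimensional ℝ E]
  [MeasurableSpace E] [BorelSpace E]

variable {η : E → ℝ} {w : E → E} {T κ : ℝ}

/-- the bound `B(l)` of the conditional densities. -/
noncomputable def pcB (η : E → ℝ) (w : E → E) (T : ℝ) (l : E) : ℝ :=
  (lcZ (dm η) w T l)⁻¹ * Real.exp (‖l‖ ^ 2 / 2)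

theorem s4pc_lcK_cont (hw : Continuous w) (T : ℝ) : Continuous (fun p : E × E => lcK w T p.1 p.2) := by
  unfold lcK
  fun_prop

theorem s4pc_lcZ_meas (hη : SPD η) (hw : Continuous w) (T : ℝ) : Measurable (lcZ (dm η) w T) := by
  have := lc_spd_prob hη
  have h := (s4pc_lcK_cont hw T).stronglyMeasurable.integral_prod_right' (ν := dm η)
  exact h.measurable

theorem s4pc_B_meas (hη : SPD η) (hw : Continuous w) (T : ℝ) : Measurable (pcB η w T) := by
  unfold pcB
  exact (s4pc_lcZ_meas hη hw T).inv.mul (by fun_prop)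

theorem s4pc_Z_pos (hη : SPD η) (hw : Continuous w) (hT : 0 ≤ T) (l : E) : 0 < lcZ (dm η) w T l := by
  have := lc_spd_prob hη
  exact lc_Z_pos hw.aemeasurable hT l

theorem s4pc_B_pos (hη : SPD η) (hw : Continuous w) (hT : 0 ≤ T) (l : E) : 0 < pcB η w T l := by
  unfold pcB
  have := s4pc_Z_pos hη hw hT l
  positivity

theorem s4pc_K0_bdd (hη : SPD η) (hw : Continuous w) (hT : 0 ≤ T) (l y : E) :
    0 ≤ (lcZ (dm η) w T l)⁻¹ * lcK w T l y ∧ (lcZ (dm η) w T l)⁻¹ * lcK w T l y ≤ pcB η w T l := by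
  have h1 := s4pc_Z_pos hη hw hT l
  have h2 : 0 < lcK w T l y := Real.exp_pos _
  have h3 : lcK w T l y ≤ Real.exp (‖l‖ ^ 2 / 2) := by
    rw [lc_K_eq]; exact imm_K_le hT _ _
  refine ⟨by positivity, ?_⟩
  unfold pcB
  gcongr

/-- invariants of the construction. -/
def pcGood (η : E → ℝ) (w : E → E) (T : ℝ) (k : E × E → ℝ) : Prop :=
  Measurable k ∧ ∀ l y, 0 ≤ k (l, y) ∧ k (l, y) ≤ pcB η w T l

theorem s4pc_memLp_of_bdd (hη : SPD η) {k : E → ℝ} (hk : Measurable k) {B : ℝ}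
    (hb : ∀ᵐ y, 0 ≤ k y ∧ k y ≤ B) : MemLp k 2 (dm η) := by
  have := lc_spd_prob hη
  have hac : dm η ≪ (volume : Measure E) := withDensity_absolutelyContinuous _ _
  have hb' : ∀ᵐ y ∂(dm η), 0 ≤ k y ∧ k y ≤ B := hac.ae_le hb
  refine MemLp.of_bound hk.aestronglyMeasurable B (hb'.mono fun y hy => ?_)
  rw [Real.norm_eq_abs, abs_of_nonneg hy.1]
  exact hy.2

theorem s4pc_step (hη : SPD η) (hw : Continuous w) (hT : 0 ≤ T) (hκ : 0 < κ) {k : E × E → ℝ}
    (hk : pcGood η w T k) : ∃ (k' : E × E → ℝ) (G' : E × E → E), pcGood η w T k' ∧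
      ∀ᵐ l ∂(stdGaussian E), IsRes η κ (fun y => k (l, y)) (fun y => k' (l, y)) (fun y => G' (l, y)) := by
  have := lc_spd_prob hη
  have hBm := s4pc_B_meas hη hw T
  have hBp := s4pc_B_pos hη hw hT
  set kt : E × E → ℝ := fun p => (1 + pcB η w T p.1)⁻¹ * k p with hkt
  have hktm : Measurable kt := ((measurable_const.add (hBm.comp measurable_fst)).inv).mul hk.1
  have hkt1 : ∀ p, |kt p| ≤ 1 := by
    intro p
    have h1 := hk.2 p.1 p.2
    have h2 := hBp p.1
    rw [hkt]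
    simp only
    rw [abs_of_nonneg (mul_nonneg (by positivity) h1.1), inv_mul_le_iff₀ (by positivity)]
    have : k p = k (p.1, p.2) := rfl
    linarith [h1.2]
  have hint : Integrable (fun p => kt p ^ 2) ((stdGaussian E).prod (dm η)) := by
    refine Integrable.of_bound (hktm.pow_const 2).aestronglyMeasurable 1 (Eventually.of_forall fun p => ?_)
    rw [Real.norm_eq_abs, abs_pow]
    exact pow_le_one₀ (abs_nonneg _) (hkt1 p)
  obtain ⟨K', G', hK', hG', hres⟩ := op_res_param hη.1.continuous hη.2.1 hκ (stdGaussian E) hktm hint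
  refine ⟨fun p => max (min ((1 + pcB η w T p.1) * K' p) (pcB η w T p.1)) 0,
    fun p => (1 + pcB η w T p.1) • G' p, ⟨?_, ?_⟩, ?_⟩
  · exact ((((measurable_const.add (hBm.comp measurable_fst))).mul hK').min (hBm.comp measurable_fst)).max
      measurable_const
  · intro l y
    exact ⟨le_max_right _ _, max_le (min_le_right _ _) (hBp l).le⟩
  · filter_upwards [hres] with l hl
    have h1 := op_res_smul (1 + pcB η w T l) hl
    have e1 : (fun x => (1 + pcB η w T l) * kt (l, x)) = fun y => k (l, y) := by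
      funext x
      have := hBp l
      rw [hkt]
      field_simp
    rw [e1] at h1
    have hkl : Measurable fun y => k (l, y) := hk.1.comp measurable_prodMk_left
    have hb : ∀ᵐ y, 0 ≤ k (l, y) ∧ k (l, y) ≤ pcB η w T l := Eventually.of_forall (hk.2 l)
    have h2 := s4pc_memLp_of_bdd hη hkl hb
    have h0 := op_res_nonneg hη.1.continuous hη.2.1 hκ h2 h1 (hb.mono fun _ h => h.1)
    have hB := op_res_le hη.1.continuous hη.2.1 hκ h2 h1 (hb.mono fun _ h => h.2)
    refine op_res_congr h1 (ae_eq_refl _) ?_ (ae_eq_refl _)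
    filter_upwards [h0, hB] with y a1 a2
    rw [min_eq_left a2, max_eq_left a1]

/-- the recursion. -/
noncomputable def pcSeq (hη : SPD η) (hw : Continuous w) (hT : 0 ≤ T) (hκ : 0 < κ) :
    ℕ → {k : E × E → ℝ // pcGood η w T k} × (E × E → E)
  | 0 => (⟨fun p => (lcZ (dm η) w T p.1)⁻¹ * lcK w T p.1 p.2,
      ((s4pc_lcZ_meas hη hw T).comp measurable_fst).inv.mul (s4pc_lcK_cont hw T).measurable,
      fun l y => s4pc_K0_bdd hη hw hT l y⟩, 0)
  | j + 1 =>
    (⟨(s4pc_step hη hw hT hκ (pcSeq hη hw hT hκ j).1.2).choose,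
      (s4pc_step hη hw hT hκ (pcSeq hη hw hT hκ j).1.2).choose_spec.choose_spec.1⟩,
      (s4pc_step hη hw hT hκ (pcSeq hη hw hT hκ j).1.2).choose_spec.choose)

theorem s4pc_chain_exists (hη : SPD η) (hw : Continuous w) (hT : 0 ≤ T) (hκ : 0 < κ) :
    Nonempty (PChain η w T κ) :=
  ⟨{ K := fun j l y => (pcSeq hη hw hT hκ j).1.1 (l, y)
     G := fun j l y => (pcSeq hη hw hT hκ j).2 (l, y)
     meas := fun j => (pcSeq hη hw hT hκ j).1.2.1
     zero := fun l y => rfl
     res := fun j => (s4pc_step hη hw hT hκ (pcSeq hη hw hT hκ j).1.2).choose_spec.choose_spec.2 }⟩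

theorem s4pc_sec_meas (Ch : PChain η w T κ) (j : ℕ) (l : E) : Measurable (Ch.K j l) :=
  (Ch.meas j).comp measurable_prodMk_left

theorem s4pc_K0_mass (hη : SPD η) (hw : Continuous w) (hT : 0 ≤ T) (l : E) :
    ∫ y, (lcZ (dm η) w T l)⁻¹ * lcK w T l y ∂(dm η) = 1 := by
  rw [integral_const_mul]
  exact inv_mul_cancel₀ (s4pc_Z_pos hη hw hT l).ne'

theorem s4pc_chain_bdd (hη : SPD η) (hw : Continuous w) (hT : 0 ≤ T) (hκ : 0 < κ)
    (Ch : PChain η w T κ) (j : ℕ) :
    ∀ᵐ l ∂(stdGaussian E), (∀ᵐ y, 0 ≤ Ch.K j l y ∧ Ch.K j l y ≤ pcB η w T l) ∧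
      ∫ y, Ch.K j l y ∂(dm η) = 1 := by
  have := lc_spd_prob hη
  induction j with
  | zero =>
    refine Eventually.of_forall fun l => ⟨Eventually.of_forall fun y => ?_, ?_⟩
    · rw [Ch.zero]; exact s4pc_K0_bdd hη hw hT l y
    · simp_rw [Ch.zero]; exact s4pc_K0_mass hη hw hT l
  | succ j ih =>
    filter_upwards [ih, Ch.res j] with l hl hr
    have h2 := s4pc_memLp_of_bdd hη (s4pc_sec_meas Ch j l) hl.1
    have h0 := op_res_nonneg hη.1.continuous hη.2.1 hκ h2 hr (hl.1.mono fun _ h => h.1)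
    have hB := op_res_le hη.1.continuous hη.2.1 hκ h2 hr (hl.1.mono fun _ h => h.2)
    refine ⟨?_, (op_res_integral hr).trans hl.2⟩
    filter_upwards [h0, hB] with y a1 a2
    exact ⟨a1, a2⟩

/-- generates the equation lemmas of the definitions above in this file (rule 6: unique names) -/
theorem s4probechaina_eqns_cite : True := by
  have := @pcB.eq_1
  have := @pcGood.eq_1
  have := @pcSeq.eq_1
  have := @pcSeq.eq_2
  trivial

end Claimed.Agent.R259
end

/- ===== packed: Claimed.Agent.R259.S4CurveHc ===== -/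
section
/-
Row 259 (S0499), section 4, package BP-S4-curve, file HC (LEAF L-s4c-hc): small facts on the heat channel, centring, Young inequalities, one Taylor bound.
Statements: helper147.     `ν` ANY probability on `E`; `hpost`, `hpe` of EntDefs.lean.   Black boxes: DbSmooth, DbTower (`db_num_integrable`, `db_gconv_pos`,
`db_tower`, `db_hpm_prob`, `db_hpm_integral`, `db_hpost_memLp`), S4Hc (`hc_pe_le`, `hc_pe_anti`).
`s4c_klFun_taylor`: `klFun (1+x) = (1+x) log(1+x) - x`; `h(x) = klFun(1+x) - x²/2`, `h(0) = h'(0) = 0`, `h''(x) = -x/(1+x)`, `|h''| ≤ 2|x|` on `[-1/2,∞)`.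
`s4c_hpe_young`: `hpost ν r a = hpost ν r b + hpost ν r (a - b)`, `|x + y|² ≤ (1+θ)|x|² + (1+1/θ)|y|²`, `hc_pe_le` for `a - b`.
`s4c_hpost_abs_le`: `hpost ν r g u = ∫ g d(hpm ν r u)`, a probability.
`s4c_hpe_center`: `hpost ν r (g - c) = hpost ν r g - c`, expand the square, `∫ hpost ν r (g - c) dν_r = 0` (`db_tower`).
-/
set_option autoImplicit false

open MeasureTheory ProbabilityTheory InformationTheory Filter Topology
open scoped ENNReal ContDiff

namespace Claimed.Agent.R259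

variable {E : Type} [NormedAddCommGroup E] [InnerProductSpace ℝ E] [FiniteDimensional ℝ E]
  [MeasurableSpace E] [BorelSpace E]

/-! ### scalar leaf -/

theorem s4ch_deriv {x : ℝ} (hx : -(1 / 2) < x) (c : ℝ) :
    HasDerivAt (fun y : ℝ => klFun (1 + y) - y ^ 2 / 2 + c * y ^ 3) (Real.log (1 + x) - x + c * (3 * x ^ 2)) x := by
  have h1 : HasDerivAt (fun y : ℝ => klFun (1 + y)) (Real.log (1 + x)) x := by
    have hne : (1 + x) ≠ 0 := by
      intro h
      linarith
    have := hasDerivAt_klFun hne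
    have h2 : HasDerivAt (fun y : ℝ => 1 + y) 1 x := by simpa using (hasDerivAt_id x).const_add 1
    have h3 := this.comp x h2
    rw [mul_one] at h3
    exact h3
  have h2 : HasDerivAt (fun y : ℝ => y ^ 2 / 2) x x := by
    have := (hasDerivAt_pow 2 x).div_const 2
    have e : ((2 : ℕ) : ℝ) * x ^ (2 - 1) / 2 = x := by norm_num
    rwa [e] at this
  have h3 : HasDerivAt (fun y : ℝ => c * y ^ 3) (c * (3 * x ^ 2)) x := by
    have := (hasDerivAt_pow 3 x).const_mul c
    have e : ((3 : ℕ) : ℝ) * x ^ (3 - 1) = 3 * x ^ 2 := by norm_num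
    rwa [e] at this
  exact (h1.sub h2).add h3

theorem s4c_klFun_taylor {x : ℝ} (hx : -(1 / 2) ≤ x) : |klFun (1 + x) - x ^ 2 / 2| ≤ |x| ^ 3 := by
  have hcont : ∀ c : ℝ, ContinuousOn (fun y : ℝ => klFun (1 + y) - y ^ 2 / 2 + c * y ^ 3) (Set.Ici (-(1 / 2))) := by
    intro c
    have := continuous_klFun
    exact Continuous.continuousOn (by fun_prop)
  have hint : interior (Set.Ici (-(1 / 2) : ℝ)) = Set.Ioi (-(1 / 2)) := interior_Ici
  have hA : AntitoneOn (fun y : ℝ => klFun (1 + y) - y ^ 2 / 2 + 0 * y ^ 3) (Set.Ici (-(1 / 2))) := by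
    refine antitoneOn_of_deriv_nonpos (convex_Ici _) (hcont 0) ?_ ?_
    · intro y hy
      rw [hint] at hy
      exact (s4ch_deriv hy 0).differentiableAt.differentiableWithinAt
    · intro y hy
      rw [hint] at hy
      rw [(s4ch_deriv hy 0).deriv]
      have hy' : -(1 / 2) < y := hy
      have := Real.log_le_sub_one_of_pos (show 0 < 1 + y by linarith)
      linarith
  have hM : MonotoneOn (fun y : ℝ => klFun (1 + y) - y ^ 2 / 2 + 1 * y ^ 3) (Set.Ici (-(1 / 2))) := by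
    refine monotoneOn_of_deriv_nonneg (convex_Ici _) (hcont 1) ?_ ?_
    · intro y hy
      rw [hint] at hy
      exact (s4ch_deriv hy 1).differentiableAt.differentiableWithinAt
    · intro y hy
      rw [hint] at hy
      rw [(s4ch_deriv hy 1).deriv]
      have hy' : -(1 / 2) < y := hy
      have hp : 0 < 1 + y := by linarith
      have h1 := Real.one_sub_inv_le_log_of_pos hp
      have h2 : (1 + y)⁻¹ ≤ 2 := by
        rw [inv_le_comm₀ hp (by norm_num)]
        linarith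
      have h3 : 1 - (1 + y)⁻¹ = y - y ^ 2 * (1 + y)⁻¹ := by
        field_simp
        ring
      have h4 : y ^ 2 * (1 + y)⁻¹ ≤ y ^ 2 * 2 := by gcongr
      nlinarith [sq_nonneg y]
  have h00 : (0 : ℝ) ∈ Set.Ici (-(1 / 2) : ℝ) := by simp
  have hxm : x ∈ Set.Ici (-(1 / 2) : ℝ) := hx
  rcases le_total 0 x with h0 | h0
  · have a := hA h00 hxm h0
    have b := hM h00 hxm h0
    simp only [add_zero, klFun_one] at a b
    rw [abs_of_nonneg h0, abs_le]
    constructor <;> [skip; skip] <;> nlinarith [pow_nonneg h0 3]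
  · have a := hA hxm h00 h0
    have b := hM hxm h00 h0
    simp only [add_zero, klFun_one] at a b
    rw [abs_of_nonpos h0, abs_le]
    have : (-x) ^ 3 = - x ^ 3 := by ring
    rw [this]
    have h3 : 0 ≤ (-x) ^ 3 := pow_nonneg (by linarith) 3
    constructor <;> nlinarith

/-! ### heat channel leaves (any probability `ν`) -/

theorem s4ch_young (p q : ℝ) {θ : ℝ} (hθ : 0 < θ) : (p + q) ^ 2 ≤ (1 + θ) * p ^ 2 + (1 + 1 / θ) * q ^ 2 := by
  have h : (1 + θ) * p ^ 2 + (1 + 1 / θ) * q ^ 2 - (p + q) ^ 2 = (θ * p - q) ^ 2 / θ := by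
    field_simp
    ring
  have h2 : 0 ≤ (θ * p - q) ^ 2 / θ := by positivity
  linarith

theorem s4ch_norm_young {F : Type} [NormedAddCommGroup F] (x y : F) {θ : ℝ} (hθ : 0 < θ) :
    ‖x + y‖ ^ 2 ≤ (1 + θ) * ‖x‖ ^ 2 + (1 + 1 / θ) * ‖y‖ ^ 2 :=
  (pow_le_pow_left₀ (norm_nonneg _) (norm_add_le x y) 2).trans (s4ch_young _ _ hθ)

section hc

variable {ν : Measure E} [IsProbabilityMeasure ν]
variable {F : Type} [NormedAddCommGroup F] [InnerProductSpace ℝ F] [FiniteDimensional ℝ F]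

/-- (c6) -/
theorem s4c_hpe_intervalIntegrable {G : E → F} (hG : MemLp G 2 ν) {z : ℝ} (hz : 0 ≤ z) :
    IntervalIntegrable (fun r => hpe ν r G) volume 0 z := by
  rw [intervalIntegrable_iff_integrableOn_Ioc_of_le hz]
  have hanti : AntitoneOn (fun r => hpe ν r G) (Set.Ioc 0 z) := fun x hx y _ hxy => hc_pe_anti hG hx.1 hxy
  refine ⟨(aemeasurable_restrict_of_antitoneOn measurableSet_Ioc hanti).aestronglyMeasurable,
    .restrict_of_bounded (C := ∫ y, ‖G y‖ ^ 2 ∂ν) (by simp) ?_⟩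
  rw [ae_restrict_iff' measurableSet_Ioc]
  refine ae_of_all _ fun r hr => ?_
  rw [Real.norm_eq_abs, abs_of_nonneg (hc_pe_nonneg _ _ _)]
  exact hc_pe_le hr.1 hG

theorem s4ch_hpost_add {a b : E → F} (ha : Integrable a ν) (hb : Integrable b ν) {r : ℝ} (hr : 0 < r) (u : E) :
    hpost ν r (fun x => a x + b x) u = hpost ν r a u + hpost ν r b u := by
  unfold hpost
  simp only [smul_add]
  rw [integral_add (hcx_int_k hr ha u) (hcx_int_k hr hb u), smul_add]

theorem s4ch_hpost_const {r : ℝ} (hr : 0 < r) (c : F) (u : E) : hpost ν r (fun _ => c) u = c := by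
  have := hcx_hpm_prob (m := ν) hr u
  rw [← hcx_hpm_integral hr u]
  simp

/-- Young form of the `L²` continuity of the conditional expectation -/
theorem s4c_hpe_young {a b : E → F} (ha : MemLp a 2 ν) (hb : MemLp b 2 ν) {r θ : ℝ} (hr : 0 < r) (hθ : 0 < θ) :
    hpe ν r a ≤ (1 + θ) * hpe ν r b + (1 + 1 / θ) * ∫ x, ‖a x - b x‖ ^ 2 ∂ν := by
  have hab : MemLp (fun x => a x - b x) 2 ν := ha.sub hb
  have h1 : ∀ u, hpost ν r a u = hpost ν r b u + hpost ν r (fun x => a x - b x) u := by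
    intro u
    rw [← s4ch_hpost_add (hb.integrable (by norm_num)) (hab.integrable (by norm_num)) hr u]
    congr 1
    funext x
    abel
  have i1 : Integrable (fun u => ‖hpost ν r b u‖ ^ 2) (dm (gconv ν r)) :=
    (hcx_hpost_memLp hr hb).integrable_norm_pow (by norm_num)
  have i2 : Integrable (fun u => ‖hpost ν r (fun x => a x - b x) u‖ ^ 2) (dm (gconv ν r)) :=
    (hcx_hpost_memLp hr hab).integrable_norm_pow (by norm_num)
  have i0 : Integrable (fun u => ‖hpost ν r a u‖ ^ 2) (dm (gconv ν r)) :=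
    (hcx_hpost_memLp hr ha).integrable_norm_pow (by norm_num)
  have h2 : hpe ν r a ≤ (1 + θ) * hpe ν r b + (1 + 1 / θ) * hpe ν r (fun x => a x - b x) := by
    unfold hpe
    rw [← integral_const_mul, ← integral_const_mul, ← integral_add (i1.const_mul _) (i2.const_mul _)]
    refine integral_mono i0 ((i1.const_mul _).add (i2.const_mul _)) fun u => ?_
    simp only
    rw [h1 u]
    exact s4ch_norm_young _ _ hθ
  have h3 := hc_pe_le hr hab
  have h4 : 0 ≤ 1 + 1 / θ := by positivity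
  nlinarith [mul_le_mul_of_nonneg_left h3 h4]

theorem s4c_hpost_abs_le {g : E → ℝ} (hg : Measurable g) {B : ℝ} (hB : ∀ x, |g x| ≤ B) {r : ℝ} (hr : 0 < r) (u : E) :
    |hpost ν r g u| ≤ B := by
  have := hcx_hpm_prob (m := ν) hr u
  rw [← hcx_hpm_integral hr u, ← Real.norm_eq_abs]
  have := norm_integral_le_of_norm_le_const (μ := hpm ν r u) (f := g) (C := B)
    (Eventually.of_forall fun x => by rw [Real.norm_eq_abs]; exact hB x)
  simpa using this

end hc

/-! ### centring (LEAVES; `ν` any probability) -/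

section center

variable {ν : Measure E} [IsProbabilityMeasure ν]
variable {F : Type} [NormedAddCommGroup F] [InnerProductSpace ℝ F] [FiniteDimensional ℝ F]

/-- `E|E[g | U_r]|² = E|E[g - c | U_r]|² + |c|²`, `c = E g`  (`hpost ν r (g - c) = hpost ν r g - c`, `db_tower`) -/
theorem s4c_hpe_center {g : E → F} (hg : MemLp g 2 ν) {r : ℝ} (hr : 0 < r) :
    hpe ν r g = hpe ν r (fun x => g x - ∫ y, g y ∂ν) + ‖∫ y, g y ∂ν‖ ^ 2 := by
  set c : F := ∫ y, g y ∂ν with hc
  have : IsProbabilityMeasure (dm (gconv ν r)) := gc_isProb hr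
  have hg1 : Integrable g ν := hg.integrable (by norm_num)
  have hgc : MemLp (fun x => g x - c) 2 ν := hg.sub (memLp_const c)
  have hgc1 : Integrable (fun x => g x - c) ν := hgc.integrable (by norm_num)
  have h1 : ∀ u, hpost ν r g u = hpost ν r (fun x => g x - c) u + c := by
    intro u
    have := s4ch_hpost_add hgc1 (integrable_const c) hr u
    rw [s4ch_hpost_const hr] at this
    rw [← this]
    congr 1
    funext x
    abel
  have ht := db_tower hr hgc1
  have h0 : ∫ u, hpost ν r (fun x => g x - c) u ∂(dm (gconv ν r)) = 0 := by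
    rw [ht.2, integral_sub hg1 (integrable_const c)]
    simp [hc]
  have i2 : Integrable (fun u => ‖hpost ν r (fun x => g x - c) u‖ ^ 2) (dm (gconv ν r)) :=
    (hcx_hpost_memLp hr hgc).integrable_norm_pow (by norm_num)
  have i3 : Integrable (fun u => 2 * inner ℝ (hpost ν r (fun x => g x - c) u) c) (dm (gconv ν r)) :=
    (ht.1.inner_const c).const_mul 2
  unfold hpe
  have h2 : ∀ u, ‖hpost ν r g u‖ ^ 2 = ‖hpost ν r (fun x => g x - c) u‖ ^ 2 +
      2 * inner ℝ (hpost ν r (fun x => g x - c) u) c + ‖c‖ ^ 2 := by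
    intro u
    rw [h1 u, norm_add_sq_real]
  simp only [h2]
  have i23 : Integrable (fun u => ‖hpost ν r (fun x => g x - c) u‖ ^ 2 +
      2 * inner ℝ (hpost ν r (fun x => g x - c) u) c) (dm (gconv ν r)) := i2.add i3
  have e : ∫ u, inner ℝ (hpost ν r (fun x => g x - c) u) c ∂(dm (gconv ν r)) = 0 := by
    simp only [real_inner_comm c]
    rw [integral_inner ht.1, h0, inner_zero_right]
  rw [integral_add i23 (integrable_const _), integral_add i2 i3, integral_const_mul, e]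
  simp

theorem s4c_center_sq_le {g : E → F} (hg : MemLp g 2 ν) :
    ∫ x, ‖g x - ∫ y, g y ∂ν‖ ^ 2 ∂ν ≤ ∫ x, ‖g x‖ ^ 2 ∂ν := by
  set c : F := ∫ y, g y ∂ν with hc
  have hg1 : Integrable g ν := hg.integrable (by norm_num)
  have i2 : Integrable (fun x => ‖g x‖ ^ 2) ν := hg.integrable_norm_pow (by norm_num)
  have i3 : Integrable (fun x => 2 * inner ℝ (g x) c) ν := (hg1.inner_const c).const_mul 2
  have h2 : ∀ x, ‖g x - c‖ ^ 2 = ‖g x‖ ^ 2 - 2 * inner ℝ (g x) c + ‖c‖ ^ 2 := fun x => norm_sub_sq_real _ _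
  simp only [h2]
  have i23 : Integrable (fun x => ‖g x‖ ^ 2 - 2 * inner ℝ (g x) c) ν := i2.sub i3
  have e : ∫ x, inner ℝ (g x) c ∂ν = inner ℝ c c := by
    simp only [real_inner_comm c]
    rw [integral_inner hg1, ← hc]
  rw [integral_add i23 (integrable_const _), integral_sub i2 i3, integral_const_mul, e]
  simp only [integral_const, probReal_univ, one_smul, real_inner_self_eq_norm_sq]
  nlinarith [sq_nonneg ‖c‖]

end center

/-! ### approximation -/

theorem s4c_test_center {ψ : E → ℝ} (hψ : IsTest ψ) (c : ℝ) :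
    ContDiff ℝ ∞ (fun x => ψ x - c) ∧ gradient (fun x => ψ x - c) = gradient ψ ∧
      ∃ B : ℝ, (∀ x, |ψ x - c| ≤ B) ∧ ∀ x, ‖gradient ψ x‖ ≤ B := by
  refine ⟨hψ.1.sub contDiff_const, ?_, ?_⟩
  · funext x
    unfold gradient
    rw [fderiv_sub_const]
  · obtain ⟨B1, hB1⟩ := hψ.2.exists_bound_of_continuous hψ.1.continuous
    have hgc : Continuous (gradient ψ) := by
      unfold gradient
      exact (LinearIsometryEquiv.continuous _).comp (hψ.1.continuous_fderiv (by simp))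
    have hgs : HasCompactSupport (gradient ψ) := by
      have := hψ.2.fderiv (𝕜 := ℝ)
      unfold gradient
      exact this.comp_left (map_zero _)
    obtain ⟨B2, hB2⟩ := hgs.exists_bound_of_continuous hgc
    refine ⟨max (B1 + |c|) B2, fun x => ?_, fun x => (hB2 x).trans (le_max_right _ _)⟩
    refine le_trans ?_ (le_max_left _ _)
    have := hB1 x
    rw [Real.norm_eq_abs] at this
    calc |ψ x - c| ≤ |ψ x| + |c| := abs_sub _ _
      _ ≤ _ := by linarith

theorem s4c_sq_young {ν : Measure E} {a b : E → ℝ} (ha : MemLp a 2 ν) (hb : MemLp b 2 ν) {θ : ℝ} (hθ : 0 < θ) :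
    ∫ x, a x ^ 2 ∂ν ≤ (1 + θ) * ∫ x, b x ^ 2 ∂ν + (1 + 1 / θ) * ∫ x, (b x - a x) ^ 2 ∂ν := by
  have i0 : Integrable (fun x => a x ^ 2) ν := ha.integrable_sq
  have i1 : Integrable (fun x => b x ^ 2) ν := hb.integrable_sq
  have i2 : Integrable (fun x => (b x - a x) ^ 2) ν := (hb.sub ha).integrable_sq
  rw [← integral_const_mul, ← integral_const_mul, ← integral_add (i1.const_mul _) (i2.const_mul _)]
  refine integral_mono i0 ((i1.const_mul _).add (i2.const_mul _)) fun x => ?_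
  simp only
  have := s4ch_young (b x) (-(b x - a x)) hθ
  have e : b x + -(b x - a x) = a x := by ring
  rw [e, neg_sq] at this
  exact this

/-- subtracting the mean does not increase the distance to a centred function -/
theorem s4c_center_dist {ν : Measure E} [IsProbabilityMeasure ν] {ψ φ : E → ℝ} (hψ : MemLp ψ 2 ν) (hφ : MemLp φ 2 ν)
    (h0 : ∫ x, φ x ∂ν = 0) :
    ∫ x, (ψ x - (∫ y, ψ y ∂ν) - φ x) ^ 2 ∂ν ≤ ∫ x, (ψ x - φ x) ^ 2 ∂ν := by
  set c : ℝ := ∫ y, ψ y ∂ν with hc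
  have hd : MemLp (fun x => ψ x - φ x) 2 ν := hψ.sub hφ
  have i1 : Integrable (fun x => ψ x - φ x) ν := hd.integrable (by norm_num)
  have i2 : Integrable (fun x => (ψ x - φ x) ^ 2) ν := hd.integrable_sq
  have hm : ∫ x, (ψ x - φ x) ∂ν = c := by
    rw [integral_sub (hψ.integrable (by norm_num)) (hφ.integrable (by norm_num)), h0, sub_zero]
  have h2 : ∀ x, (ψ x - c - φ x) ^ 2 = (ψ x - φ x) ^ 2 - 2 * c * (ψ x - φ x) + c ^ 2 := fun x => by ring
  simp only [h2]
  have i23 : Integrable (fun x => (ψ x - φ x) ^ 2 - 2 * c * (ψ x - φ x)) ν := i2.sub (i1.const_mul _)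
  rw [integral_add i23 (integrable_const _), integral_sub i2 (i1.const_mul _),
    integral_const_mul, hm]
  simp only [integral_const, probReal_univ, one_smul]
  nlinarith [sq_nonneg c]

end Claimed.Agent.R259
end

/- ===== packed: Claimed.Agent.R259.S4CurvePert ===== -/
section
/-
Row 259 (S0499), section 4, package BP-S4-curve, file PERT (LEAF L-s4c-pert): the perturbed law `p = (1 + ε g) ρ` of the linearisation of Lemma 4.2.
Statements: helper147.   `ν = dm ρ`, `ḡ_r = hpost ν r g`, `ν_r = dm (gconv ν r)`; `g` smooth, `|g| ≤ B`, `|∇g| ≤ B`, `∫ g dν = 0`, `0 < ε`, `ε B ≤ 1/2` (so `1/2 ≤ 1 + ε g ≤ 3/2`).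
 (c1) `p` is SPD;   (c2) `p/ρ = 1 + ε g`, `∇ log (1 + ε g) = (ε / (1 + ε g)) ∇g =: w_ε`;   (c7) exponential square moment (`p ≤ 2ρ`), `w_ε` bounded.
 (c3) `dm p = ν.withDensity (1 + ε g)` (`dfk_dm_mul`), `H(p | ρ) = ∫ klFun (1 + ε g) dν` (`s4c_kl_withDensity`, `s4c_entF_of_integrable`) `≥ ε²/2 ∫ g² - ε³ B³` (`s4c_klFun_taylor`)
 (c4) `gconv (dm p) z = (1 + ε ḡ_z) gconv ν z`, `|ḡ_z| ≤ B` (`s4c_hpost_abs_le`), so `H(p_z | ρ_z) = ∫ klFun (1 + ε ḡ_z) dν_z ≤ ε²/2 hpe ν z g + ε³ B³`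
      (`s4c_kl_dm` or `dfk_dm_mul` + `s4c_kl_withDensity`)
 (c5) `hpost (dm p) r w_ε = (ε / (1 + ε ḡ_r)) hpost ν r ∇g`, so `hpe (dm p) r w_ε = ε² ∫ |hpost ν r ∇g|² / (1 + ε ḡ_r) dν_r ≤ ε²/(1 - εB) hpe ν r ∇g`.
-/
set_option autoImplicit false
set_option linter.unusedSectionVars false
set_option linter.unusedVariables false

open MeasureTheory ProbabilityTheory InformationTheory Filter Topology
open scoped ENNReal ContDiff

namespace Claimed.Agent.R259

variable {E : Type} [NormedAddCommGroup E] [InnerProductSpace ℝ E] [FiniteDimensional ℝ E]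
  [MeasurableSpace E] [BorelSpace E]

section pert

variable {ρ : E → ℝ} {g : E → ℝ} {B ε : ℝ}

theorem s4cp_isProb (hρ : SPD ρ) : IsProbabilityMeasure (dm ρ) := by
  constructor
  unfold dm
  rw [withDensity_apply _ MeasurableSet.univ, Measure.restrict_univ,
    ← ofReal_integral_eq_lintegral_ofReal (integrable_of_integral_eq_one hρ.2.2)
      (Eventually.of_forall fun x => (hρ.2.1 x).le), hρ.2.2]
  simp

theorem s4cp_k_bounds (hB : ∀ x, |g x| ≤ B) (hε : 0 < ε) (hεB : ε * B ≤ 1 / 2) (x : E) :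
    1 - ε * B ≤ 1 + ε * g x ∧ 1 + ε * g x ≤ 1 + ε * B := by
  have h1 := abs_le.1 (hB x)
  constructor <;> nlinarith [h1.1, h1.2]

theorem s4cp_k_pos (hB : ∀ x, |g x| ≤ B) (hε : 0 < ε) (hεB : ε * B ≤ 1 / 2) (x : E) :
    0 < 1 + ε * g x := by
  have := (s4cp_k_bounds hB hε hεB x).1
  linarith

/-- integrals against the perturbed law. -/
theorem s4cp_integral {F : Type} [NormedAddCommGroup F] [NormedSpace ℝ F] (hρ : SPD ρ)
    (hg : ContDiff ℝ ∞ g) (hB : ∀ x, |g x| ≤ B) (hε : 0 < ε) (hεB : ε * B ≤ 1 / 2) (Φ : E → F) :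
    ∫ x, Φ x ∂(dm fun x => (1 + ε * g x) * ρ x) = ∫ x, (1 + ε * g x) • Φ x ∂(dm ρ) := by
  have hρm : Measurable ρ := hρ.1.continuous.measurable
  have hgm : Measurable g := hg.continuous.measurable
  rw [dfk_integral_dm (by fun_prop) (fun x => mul_nonneg (s4cp_k_pos hB hε hεB x).le (hρ.2.1 x).le),
    dfk_integral_dm hρm (fun x => (hρ.2.1 x).le)]
  refine integral_congr_ae (Eventually.of_forall fun x => ?_)
  simp only [smul_smul]
  rw [mul_comm]

theorem s4cp_integrable {F : Type} [NormedAddCommGroup F] [NormedSpace ℝ F] (hρ : SPD ρ)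
    (hg : ContDiff ℝ ∞ g) (hB : ∀ x, |g x| ≤ B) (hε : 0 < ε) (hεB : ε * B ≤ 1 / 2) (Φ : E → F) :
    Integrable Φ (dm fun x => (1 + ε * g x) * ρ x) ↔
      Integrable (fun x => (1 + ε * g x) • Φ x) (dm ρ) := by
  have hρm : Measurable ρ := hρ.1.continuous.measurable
  have hgm : Measurable g := hg.continuous.measurable
  rw [dbt_dm_integrable_iff (by fun_prop)
    (fun x => mul_nonneg (s4cp_k_pos hB hε hεB x).le (hρ.2.1 x).le),
    dbt_dm_integrable_iff hρm (fun x => (hρ.2.1 x).le)]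
  refine integrable_congr (Eventually.of_forall fun x => ?_)
  simp only [smul_smul]
  rw [mul_comm]

theorem s4cp_g_integrable (hρ : SPD ρ) (hg : ContDiff ℝ ∞ g) (hB : ∀ x, |g x| ≤ B) :
    Integrable g (dm ρ) := by
  have := s4cp_isProb hρ
  exact (integrable_const B).mono' hg.continuous.aestronglyMeasurable (Eventually.of_forall hB)

/-- (c1) -/
theorem s4c_pert_spd (hρ : SPD ρ) (hg : ContDiff ℝ ∞ g) (hB : ∀ x, |g x| ≤ B) (h0 : ∫ x, g x ∂(dm ρ) = 0)
    (hε : 0 < ε) (hεB : ε * B ≤ 1 / 2) : SPD fun x => (1 + ε * g x) * ρ x := by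
  have := s4cp_isProb hρ
  refine ⟨(contDiff_const.add (contDiff_const.mul hg)).mul hρ.1,
    fun x => mul_pos (s4cp_k_pos hB hε hεB x) (hρ.2.1 x), ?_⟩
  have hρm : Measurable ρ := hρ.1.continuous.measurable
  have h1 := dfk_integral_dm hρm (fun x => (hρ.2.1 x).le) (fun x => 1 + ε * g x)
  have h2 : ∫ x, (1 + ε * g x) ∂(dm ρ) = 1 := by
    rw [integral_add (integrable_const 1) ((s4cp_g_integrable hρ hg hB).const_mul ε),
      integral_const_mul, h0]
    simp
  rw [h1] at h2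
  refine Eq.trans ?_ h2
  refine integral_congr_ae (Eventually.of_forall fun x => ?_)
  simp only [smul_eq_mul]
  rw [mul_comm]

/-- (c2) -/
theorem s4c_pert_score (hρ : SPD ρ) (hg : ContDiff ℝ ∞ g) (hB : ∀ x, |g x| ≤ B) (hε : 0 < ε) (hεB : ε * B ≤ 1 / 2)
    (x : E) :
    (ε / (1 + ε * g x)) • gradient g x = gradient (fun y => Real.log ((1 + ε * g y) * ρ y / ρ y)) x := by
  have e1 : (fun y => Real.log ((1 + ε * g y) * ρ y / ρ y)) = fun y => Real.log (1 + ε * g y) := by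
    funext y
    rw [mul_div_assoc, div_self (hρ.2.1 y).ne', mul_one]
  rw [e1]
  have a1 := ((hg.differentiable (by simp)) x).hasFDerivAt
  have a2 := ((a1.const_mul ε).const_add 1).log (s4cp_k_pos hB hε hεB x).ne'
  unfold gradient
  rw [a2.fderiv, map_smul, map_smul, smul_smul]
  congr 1
  rw [div_eq_inv_mul]

/-- (c7) -/
theorem s4c_pert_expsq (hρ : SPD ρ) (hg : ContDiff ℝ ∞ g) (hB : ∀ x, |g x| ≤ B) (hε : 0 < ε) (hεB : ε * B ≤ 1 / 2)
    (hexp : ∃ c > 0, Integrable (fun y => Real.exp (c * ‖y‖ ^ 2)) (dm ρ)) :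
    ∃ c > 0, Integrable (fun y => Real.exp (c * ‖y‖ ^ 2)) (dm fun x => (1 + ε * g x) * ρ x) := by
  obtain ⟨c, hc, hI⟩ := hexp
  refine ⟨c, hc, ?_⟩
  rw [s4cp_integrable hρ hg hB hε hεB]
  refine (hI.const_mul (1 + ε * B)).mono' ?_ (Eventually.of_forall fun x => ?_)
  · have := hg.continuous
    apply Continuous.aestronglyMeasurable; fun_prop
  · rw [norm_smul, Real.norm_eq_abs, Real.norm_eq_abs, abs_of_pos (s4cp_k_pos hB hε hεB x),
      abs_of_pos (Real.exp_pos _)]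
    exact mul_le_mul_of_nonneg_right (s4cp_k_bounds hB hε hεB x).2 (Real.exp_pos _).le

theorem s4cp_gradient_continuous (hg : ContDiff ℝ ∞ g) : Continuous (gradient g) := by
  unfold gradient
  exact (LinearIsometryEquiv.continuous _).comp (hg.continuous_fderiv (by simp))

/-- (c7) -/
theorem s4c_pert_score_int (hρ : SPD ρ) (hg : ContDiff ℝ ∞ g) (hB : ∀ x, |g x| ≤ B) (hB' : ∀ x, ‖gradient g x‖ ≤ B)
    (h0 : ∫ x, g x ∂(dm ρ) = 0) (hε : 0 < ε) (hεB : ε * B ≤ 1 / 2) :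
    Integrable (fun x => ‖(ε / (1 + ε * g x)) • gradient g x‖ ^ 2) (dm fun x => (1 + ε * g x) * ρ x) := by
  have := s4cp_isProb (s4c_pert_spd hρ hg hB h0 hε hεB)
  have hB0 : 0 ≤ B := (abs_nonneg _).trans (hB 0)
  refine (integrable_const ((2 * ε * B) ^ 2)).mono' ?_ (Eventually.of_forall fun x => ?_)
  · have h1 := hg.continuous
    have h2 := s4cp_gradient_continuous hg
    apply Continuous.aestronglyMeasurable
    have h3 : Continuous fun x => ε / (1 + ε * g x) :=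
      continuous_const.div (by fun_prop) fun x => (s4cp_k_pos hB hε hεB x).ne'
    fun_prop
  · rw [Real.norm_eq_abs, abs_of_nonneg (sq_nonneg _)]
    apply pow_le_pow_left₀ (norm_nonneg _)
    rw [norm_smul, Real.norm_eq_abs, abs_of_pos (div_pos hε (s4cp_k_pos hB hε hεB x))]
    have hk : 1 / 2 ≤ 1 + ε * g x := by
      have := (s4cp_k_bounds hB hε hεB x).1; linarith
    have h4 : ε / (1 + ε * g x) ≤ 2 * ε := by
      rw [div_le_iff₀ (s4cp_k_pos hB hε hεB x)]; nlinarith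
    exact mul_le_mul h4 (hB' x) (norm_nonneg _) (by positivity)

/-- second order expansion of the entropy of `1 + ε a` under a probability measure. -/
theorem s4cp_taylor {m : Measure E} [IsProbabilityMeasure m] {a : E → ℝ} (ha : Continuous a)
    (hB : ∀ x, |a x| ≤ B) (hε : 0 < ε) (hεB : ε * B ≤ 1 / 2) :
    Integrable (fun x => klFun (1 + ε * a x)) m ∧
      |∫ x, klFun (1 + ε * a x) ∂m - ε ^ 2 / 2 * ∫ x, a x ^ 2 ∂m| ≤ ε ^ 3 * B ^ 3 := by
  have hB0 : 0 ≤ B := (abs_nonneg _).trans (hB 0)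
  have hpt : ∀ x, |klFun (1 + ε * a x) - ε ^ 2 / 2 * a x ^ 2| ≤ ε ^ 3 * B ^ 3 := by
    intro x
    have h1 := abs_le.1 (hB x)
    have h2 : -(1 / 2) ≤ ε * a x := by nlinarith [h1.1]
    have h3 := s4c_klFun_taylor h2
    have h4 : |ε * a x| ^ 3 ≤ ε ^ 3 * B ^ 3 := by
      rw [abs_mul, abs_of_pos hε, mul_pow]
      exact mul_le_mul_of_nonneg_left (pow_le_pow_left₀ (abs_nonneg _) (hB x) 3) (by positivity)
    have h5 : (ε * a x) ^ 2 / 2 = ε ^ 2 / 2 * a x ^ 2 := by ring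
    rw [h5] at h3
    exact h3.trans h4
  have i2 : Integrable (fun x => a x ^ 2) m := by
    refine (integrable_const (B ^ 2)).mono' (by fun_prop) (Eventually.of_forall fun x => ?_)
    rw [Real.norm_eq_abs, abs_pow]
    exact pow_le_pow_left₀ (abs_nonneg _) (hB x) 2
  have hkc : Continuous fun x => klFun (1 + ε * a x) := continuous_klFun.comp (by fun_prop)
  have i3 : Integrable (fun x => klFun (1 + ε * a x) - ε ^ 2 / 2 * a x ^ 2) m :=
    (integrable_const (ε ^ 3 * B ^ 3)).mono' (by fun_prop) (Eventually.of_forall hpt)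
  have i1 : Integrable (fun x => klFun (1 + ε * a x)) m := by
    have := i3.add (i2.const_mul (ε ^ 2 / 2))
    refine this.congr (Eventually.of_forall fun x => ?_)
    simp
  refine ⟨i1, ?_⟩
  rw [← integral_const_mul, ← integral_sub i1 (i2.const_mul _)]
  have := norm_integral_le_of_norm_le (μ := m) (integrable_const (ε ^ 3 * B ^ 3))
    (f := fun x => klFun (1 + ε * a x) - ε ^ 2 / 2 * a x ^ 2) (Eventually.of_forall hpt)
  simpa using this

/-- (c3) -/
theorem s4c_pert_kl0 (hρ : SPD ρ) (hg : ContDiff ℝ ∞ g) (hB : ∀ x, |g x| ≤ B) (h0 : ∫ x, g x ∂(dm ρ) = 0)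
    (hε : 0 < ε) (hεB : ε * B ≤ 1 / 2) :
    klDiv (dm fun x => (1 + ε * g x) * ρ x) (dm ρ) ≠ ⊤ ∧
      ε ^ 2 / 2 * ∫ x, g x ^ 2 ∂(dm ρ) - ε ^ 3 * B ^ 3 ≤ (klDiv (dm fun x => (1 + ε * g x) * ρ x) (dm ρ)).toReal := by
  have := s4cp_isProb hρ
  have hρm : Measurable ρ := hρ.1.continuous.measurable
  have hgm : Measurable g := hg.continuous.measurable
  have hkm : Measurable fun x => 1 + ε * g x := by fun_prop
  have hk0 : ∀ x, 0 ≤ 1 + ε * g x := fun x => (s4cp_k_pos hB hε hεB x).le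
  have e1 : (fun x => (1 + ε * g x) * ρ x) = fun x => ρ x * (1 + ε * g x) :=
    funext fun x => mul_comm _ _
  obtain ⟨i1, ht⟩ := s4cp_taylor (m := dm ρ) hg.continuous hB hε hεB
  have hki : Integrable (fun x => 1 + ε * g x) (dm ρ) :=
    (integrable_const 1).add ((s4cp_g_integrable hρ hg hB).const_mul ε)
  rw [e1, dfk_dm_mul hρm hkm (fun x => (hρ.2.1 x).le), s4c_kl_withDensity hkm hk0 hki,
    s4c_entF_of_integrable hk0 i1]
  refine ⟨ENNReal.ofReal_ne_top, ?_⟩
  rw [ENNReal.toReal_ofReal (integral_nonneg fun x => klFun_nonneg (hk0 x))]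
  have := (abs_le.1 ht).1
  linarith

/-- the heat output of the perturbed law. -/
theorem s4cp_gconv (hρ : SPD ρ) (hg : ContDiff ℝ ∞ g) (hB : ∀ x, |g x| ≤ B)
    (hε : 0 < ε) (hεB : ε * B ≤ 1 / 2) {z : ℝ} (hz : 0 < z) (u : E) :
    gconv (dm fun x => (1 + ε * g x) * ρ x) z u =
      (1 + ε * hpost (dm ρ) z g u) * gconv (dm ρ) z u := by
  have := s4cp_isProb hρ
  have hq := db_gconv_pos (ν := dm ρ) hz u
  have ig := s4cp_g_integrable hρ hg hB
  have i1 : Integrable (fun x => gk z (u - x)) (dm ρ) := dbt_gk_integrable hz u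
  have i2 : Integrable (fun x => gk z (u - x) * g x) (dm ρ) := by
    simpa using db_num_integrable hz ig u
  unfold hpost
  conv_lhs => unfold gconv
  rw [s4cp_integral hρ hg hB hε hεB]
  have e1 : ∀ x, (1 + ε * g x) • gk z (u - x) = gk z (u - x) + ε * (gk z (u - x) * g x) :=
    fun x => by simp only [smul_eq_mul]; ring
  simp only [e1, smul_eq_mul]
  rw [integral_add i1 (i2.const_mul ε), integral_const_mul]
  have e2 : ∫ x, gk z (u - x) ∂(dm ρ) = gconv (dm ρ) z u := rfl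
  rw [e2]
  field_simp

/-- (c4) -/
theorem s4c_pert_klz (hρ : SPD ρ) (hg : ContDiff ℝ ∞ g) (hB : ∀ x, |g x| ≤ B) (h0 : ∫ x, g x ∂(dm ρ) = 0)
    (hε : 0 < ε) (hεB : ε * B ≤ 1 / 2) {z : ℝ} (hz : 0 < z) :
    (klDiv (dm (gconv (dm fun x => (1 + ε * g x) * ρ x) z)) (dm (gconv (dm ρ) z))).toReal ≤
      ε ^ 2 / 2 * hpe (dm ρ) z g + ε ^ 3 * B ^ 3 := by
  have := s4cp_isProb hρ
  have := s4cp_isProb (s4c_pert_spd hρ hg hB h0 hε hεB)
  have : IsProbabilityMeasure (dm (gconv (dm ρ) z)) := gc_isProb hz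
  have : IsProbabilityMeasure (dm (gconv (dm fun x => (1 + ε * g x) * ρ x) z)) := gc_isProb hz
  have ig := s4cp_g_integrable hρ hg hB
  have hbc : Continuous (hpost (dm ρ) z g) := dbt_hpost_continuous hz ig
  have hbB : ∀ u, |hpost (dm ρ) z g u| ≤ B := s4c_hpost_abs_le hg.continuous.measurable hB hz
  have hq0 := db_gconv_pos (ν := dm ρ) hz
  have hqm : Measurable (gconv (dm ρ) z) := (dbt_gconv_continuous hz).measurable
  have hpm : Measurable (gconv (dm fun x => (1 + ε * g x) * ρ x) z) :=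
    (dbt_gconv_continuous hz).measurable
  have hp0 : ∀ u, 0 ≤ gconv (dm fun x => (1 + ε * g x) * ρ x) z u := fun u =>
    (db_gconv_pos hz u).le
  obtain ⟨i1, ht⟩ := s4cp_taylor (m := dm (gconv (dm ρ) z)) hbc hbB hε hεB
  have hk0 : ∀ u, 0 ≤ 1 + ε * hpost (dm ρ) z g u := fun u => (s4cp_k_pos hbB hε hεB u).le
  have e1 : (fun u => gconv (dm fun x => (1 + ε * g x) * ρ x) z u / gconv (dm ρ) z u) =
      fun u => 1 + ε * hpost (dm ρ) z g u := by
    funext u
    rw [s4cp_gconv hρ hg hB hε hεB hz, mul_div_assoc, div_self (hq0 u).ne', mul_one]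
  rw [s4c_kl_dm hpm hp0 hqm hq0, e1, s4c_entF_of_integrable hk0 i1,
    ENNReal.toReal_ofReal (integral_nonneg fun x => klFun_nonneg (hk0 x))]
  have h2 := (abs_le.1 ht).2
  have e2 : hpe (dm ρ) z g = ∫ u, hpost (dm ρ) z g u ^ 2 ∂(dm (gconv (dm ρ) z)) := by
    unfold hpe
    simp only [Real.norm_eq_abs, sq_abs]
  rw [e2]
  linarith

/-- (c5) -/
theorem s4c_pert_hpe (hρ : SPD ρ) (hg : ContDiff ℝ ∞ g) (hB : ∀ x, |g x| ≤ B) (hB' : ∀ x, ‖gradient g x‖ ≤ B)
    (h0 : ∫ x, g x ∂(dm ρ) = 0) (hε : 0 < ε) (hεB : ε * B ≤ 1 / 2) {r : ℝ} (hr : 0 < r) :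
    hpe (dm fun x => (1 + ε * g x) * ρ x) r (fun x => (ε / (1 + ε * g x)) • gradient g x) ≤
      ε ^ 2 / (1 - ε * B) * hpe (dm ρ) r (gradient g) := by
  have := s4cp_isProb hρ
  have : IsProbabilityMeasure (dm (gconv (dm ρ) r)) := gc_isProb hr
  have ig := s4cp_g_integrable hρ hg hB
  have hbB : ∀ u, |hpost (dm ρ) r g u| ≤ B := s4c_hpost_abs_le hg.continuous.measurable hB hr
  have hbc : Continuous (hpost (dm ρ) r g) := dbt_hpost_continuous hr ig
  have hq0 := db_gconv_pos (ν := dm ρ) hr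
  have hqm : Measurable (gconv (dm ρ) r) := (dbt_gconv_continuous hr).measurable
  have hkb := s4cp_k_pos hbB hε hεB
  have hGm : MemLp (gradient g) 2 (dm ρ) :=
    MemLp.of_bound (s4cp_gradient_continuous hg).aestronglyMeasurable B (Eventually.of_forall hB')
  have hH2 : Integrable (fun u => ‖hpost (dm ρ) r (gradient g) u‖ ^ 2) (dm (gconv (dm ρ) r)) :=
    (db_hpost_memLp hr hGm).integrable_norm_pow (by norm_num)
  -- the posterior mean of the score
  have epost : ∀ u, hpost (dm fun x => (1 + ε * g x) * ρ x) r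
      (fun x => (ε / (1 + ε * g x)) • gradient g x) u =
      (ε / (1 + ε * hpost (dm ρ) r g u)) • hpost (dm ρ) r (gradient g) u := by
    intro u
    conv_lhs => unfold hpost
    rw [s4cp_integral hρ hg hB hε hεB, s4cp_gconv hρ hg hB hε hεB hr]
    have e1 : ∀ x, (1 + ε * g x) • gk r (u - x) • (ε / (1 + ε * g x)) • gradient g x =
        ε • (gk r (u - x) • gradient g x) := fun x => by
      have := (s4cp_k_pos hB hε hεB x).ne'
      simp only [smul_smul]
      congr 1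
      field_simp
    simp only [e1]
    rw [integral_smul]
    unfold hpost
    simp only [smul_smul]
    congr 1
    have h1 := (hkb u).ne'
    have h2 := (hq0 u).ne'
    field_simp
  unfold hpe
  simp only [epost]
  have hpfun : gconv (dm fun x => (1 + ε * g x) * ρ x) r =
      fun u => (1 + ε * hpost (dm ρ) r g u) * gconv (dm ρ) r u :=
    funext fun u => s4cp_gconv hρ hg hB hε hεB hr u
  rw [hpfun, dfk_integral_dm (by fun_prop) (fun u => mul_nonneg (hkb u).le (hq0 u).le),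
    ← integral_const_mul, dfk_integral_dm hqm (fun u => (hq0 u).le)]
  have hd : 0 < 1 - ε * B := by linarith
  have hint : Integrable (fun u => gconv (dm ρ) r u •
      (ε ^ 2 / (1 - ε * B) * ‖hpost (dm ρ) r (gradient g) u‖ ^ 2)) :=
    (dbt_dm_integrable_iff hqm (fun u => (hq0 u).le) _).1 (hH2.const_mul _)
  refine integral_mono_of_nonneg (Eventually.of_forall fun u => ?_) hint
    (Eventually.of_forall fun u => ?_)
  · have := hkb u
    have := hq0 u
    simp only [Pi.zero_apply, smul_eq_mul]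
    positivity
  · simp only [smul_eq_mul]
    rw [norm_smul, mul_pow, Real.norm_eq_abs, sq_abs, div_pow]
    have hk := hkb u
    have hk1 := (s4cp_k_bounds hbB hε hεB u).1
    have e3 : (1 + ε * hpost (dm ρ) r g u) * gconv (dm ρ) r u *
        (ε ^ 2 / (1 + ε * hpost (dm ρ) r g u) ^ 2 * ‖hpost (dm ρ) r (gradient g) u‖ ^ 2) =
        gconv (dm ρ) r u * (ε ^ 2 / (1 + ε * hpost (dm ρ) r g u) *
          ‖hpost (dm ρ) r (gradient g) u‖ ^ 2) := by
      field_simp
    rw [e3]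
    apply mul_le_mul_of_nonneg_left _ (hq0 u).le
    apply mul_le_mul_of_nonneg_right _ (by positivity)
    exact div_le_div_of_nonneg_left (by positivity) hd hk1

end pert

end Claimed.Agent.R259
end
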