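/- Packed by merge_tool.py (helper293): 4 modules of Claimed.Agent.R259 in one file, same declarations.
   Old modules, in this order: MetA, MetC, MetX, MetF -/
import Claimed.Agent.R259.Pack048
import Claimed.Agent.R259.Pack021

/- ===== packed: Claimed.Agent.R259.MetA ===== -/
section
/-
Row 259 (S0499), kit MET, block A: the Metropolis chain (stationarity, marginals).
Blueprint: helper115, proofs: helper268.
-/
set_option autoImplicit false

open MeasureTheory ProbabilityTheory
open scoped ContDiff BigOperators ENNReal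

namespace Claimed.Agent.R259

variable {n : ℕ}

/-! ### elementary facts -/

theorem SPD.continuous {η : EE n → ℝ} (hη : SPD η) : Continuous η := hη.1.continuous

theorem met_step_measurable {η : EE n → ℝ} (hη : SPD η) (h : ℝ) :
    Measurable (fun p : EE n × (EE n × ℝ) => metStep η h p.1 p.2) := by
  have hc := hη.continuous.measurable
  unfold metStep
  refine Measurable.ite ?_ (by fun_prop) (by fun_prop)
  exact measurableSet_le (by fun_prop) (by fun_prop)

instance met_u_prob : IsProbabilityMeasure metU := by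
  refine ⟨?_⟩
  unfold metU
  simp

instance met_nu_prob (n : ℕ) : IsProbabilityMeasure (metNu n) := by
  unfold metNu
  infer_instance

theorem dm_prob {η : EE n → ℝ} (hη : SPD η) : IsProbabilityMeasure (dm η) := by
  refine ⟨?_⟩
  unfold dm
  rw [withDensity_apply _ MeasurableSet.univ, Measure.restrict_univ,
    ← ofReal_integral_eq_lintegral_ofReal ?_ (Filter.Eventually.of_forall fun x => (hη.2.1 x).le), hη.2.2]
  · simp
  · by_contra hni
    have := hη.2.2
    rw [integral_undef hni] at this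
    exact zero_ne_one this

theorem gaussK_prob (n : ℕ) (κ : ℝ) : IsProbabilityMeasure (gaussK n κ) := by
  unfold gaussK
  exact Measure.isProbabilityMeasure_map (by fun_prop)

theorem charFun_gaussK (n : ℕ) {κ : ℝ} (hκ : 0 ≤ κ) (t : EE n) :
    charFun (gaussK n κ) t = Complex.exp (-(κ * ‖t‖ ^ 2 : ℝ) / 2) := by
  unfold gaussK
  rw [charFun_map_smul, charFun_stdGaussian, norm_smul, ← Complex.ofReal_pow, mul_pow, Real.norm_eq_abs,
    sq_abs, Real.sq_sqrt hκ]

theorem gaussK_one (n : ℕ) : gaussK n 1 = stdGaussian (EE n) := by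
  unfold gaussK
  simp

theorem gaussK_zero (n : ℕ) : gaussK n 0 = Measure.dirac 0 := by
  unfold gaussK
  simp only [Real.sqrt_zero, zero_smul]
  rw [Measure.map_const]
  simp

theorem gaussK_add (n : ℕ) {κ : ℝ} (hκ : 0 ≤ κ) :
    ((gaussK n κ).prod (stdGaussian (EE n))).map (fun p => p.1 + p.2) = gaussK n (κ + 1) := by
  have := gaussK_prob n κ
  have := gaussK_prob n (κ + 1)
  change (gaussK n κ) ∗ (stdGaussian (EE n)) = gaussK n (κ + 1)
  refine Measure.ext_of_charFun ?_
  funext t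
  rw [charFun_conv, charFun_gaussK n hκ, charFun_gaussK n (by linarith), charFun_stdGaussian,
    ← Complex.exp_add]
  congr 1
  push_cast
  ring

/-! ### stationarity -/

/-- acceptance probability -/
noncomputable def metAcc (η : EE n → ℝ) (y y' : EE n) : ℝ := min 1 (η y' / η y)

theorem metAcc_pos {η : EE n → ℝ} (hη : SPD η) (y y' : EE n) : 0 < metAcc η y y' :=
  lt_min one_pos (div_pos (hη.2.1 _) (hη.2.1 _))

theorem metAcc_le_one (η : EE n → ℝ) (y y' : EE n) : metAcc η y y' ≤ 1 := min_le_left _ _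

theorem mul_metAcc {η : EE n → ℝ} (hη : SPD η) (y y' : EE n) :
    η y * metAcc η y y' = min (η y) (η y') := by
  unfold metAcc
  rw [mul_min_of_nonneg _ _ (hη.2.1 y).le, mul_one, mul_div_cancel₀ _ (hη.2.1 y).ne']

theorem met_lintegral_u {η : EE n → ℝ} (hη : SPD η) (y y' : EE n) (c1 c2 : ℝ≥0∞) :
    ∫⁻ u, (if u * η y ≤ η y' then c1 else c2) ∂metU
      = ENNReal.ofReal (metAcc η y y') * c1 + ENNReal.ofReal (1 - metAcc η y y') * c2 := by
  unfold metU
  have ha0 := metAcc_pos hη y y'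
  have ha1 := metAcc_le_one η y y'
  have hy := hη.2.1 y
  have hsplit : Set.Icc (0 : ℝ) 1 = Set.Icc 0 (metAcc η y y') ∪ Set.Ioc (metAcc η y y') 1 :=
    (Set.Icc_union_Ioc_eq_Icc ha0.le ha1).symm
  have hdisj : Disjoint (Set.Icc 0 (metAcc η y y')) (Set.Ioc (metAcc η y y') 1) := by
    rw [Set.disjoint_left]
    intro u hu hu'
    exact absurd hu.2 (not_le.2 hu'.1)
  rw [hsplit, lintegral_union measurableSet_Ioc hdisj]
  have h1 : ∫⁻ u in Set.Icc 0 (metAcc η y y'), (if u * η y ≤ η y' then c1 else c2)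
      = ∫⁻ _u in Set.Icc 0 (metAcc η y y'), c1 := by
    refine setLIntegral_congr_fun measurableSet_Icc fun u hu => if_pos ?_
    have : u ≤ η y' / η y := hu.2.trans (min_le_right _ _)
    exact (le_div_iff₀ hy).1 this
  have h2 : ∫⁻ u in Set.Ioc (metAcc η y y') 1, (if u * η y ≤ η y' then c1 else c2)
      = ∫⁻ _u in Set.Ioc (metAcc η y y') 1, c2 := by
    refine setLIntegral_congr_fun measurableSet_Ioc fun u hu => if_neg ?_
    intro hle
    have h3 : u ≤ η y' / η y := (le_div_iff₀ hy).2 hle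
    exact absurd (le_min hu.2 h3) (not_le.2 hu.1)
  rw [h1, h2, setLIntegral_const, setLIntegral_const, Real.volume_Icc, Real.volume_Ioc, sub_zero, mul_comm c1,
    mul_comm c2]

theorem met_gauss_neg (G : EE n → ℝ≥0∞) (hG : Measurable G) :
    ∫⁻ g, G (-g) ∂(stdGaussian (EE n)) = ∫⁻ g, G g ∂(stdGaussian (EE n)) := by
  have h := stdGaussian_map (E := EE n) (LinearIsometryEquiv.neg ℝ)
  have h2 : (stdGaussian (EE n)).map (fun g => -g) = stdGaussian (EE n) := h
  conv_rhs => rw [← h2]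
  rw [lintegral_map hG measurable_neg]

/-- detailed balance -/
theorem met_balance {η : EE n → ℝ} (hη : SPD η) (a : ℝ) {f : EE n → ℝ≥0∞} (hf : Measurable f) :
    ∫⁻ y, ∫⁻ g, ENNReal.ofReal (min (η y) (η (y + a • g))) * f (y + a • g) ∂(stdGaussian (EE n))
      = ∫⁻ y, ∫⁻ g, ENNReal.ofReal (min (η y) (η (y + a • g))) * f y ∂(stdGaussian (EE n)) := by
  have hm := hη.continuous.measurable
  -- the function `F (g, y') = min (η (y' - a g)) (η y') f y'`
  have hF : Measurable fun q : EE n × EE n =>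
      ENNReal.ofReal (min (η (q.2 - a • q.1)) (η q.2)) * f q.2 := by fun_prop
  calc ∫⁻ y, ∫⁻ g, ENNReal.ofReal (min (η y) (η (y + a • g))) * f (y + a • g) ∂(stdGaussian (EE n))
      = ∫⁻ g, (∫⁻ y, ENNReal.ofReal (min (η y) (η (y + a • g))) * f (y + a • g))
          ∂(stdGaussian (EE n)) := by
        refine lintegral_lintegral_swap ?_
        exact Measurable.aemeasurable (by fun_prop)
    _ = ∫⁻ g, (∫⁻ y, ENNReal.ofReal (min (η (y - a • g)) (η y)) * f y) ∂(stdGaussian (EE n)) := by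
        refine lintegral_congr fun g => ?_
        rw [← lintegral_add_right_eq_self
          (fun y => ENNReal.ofReal (min (η (y - a • g)) (η y)) * f y) (a • g)]
        simp only [add_sub_cancel_right]
    _ = ∫⁻ y, ∫⁻ g, ENNReal.ofReal (min (η (y - a • g)) (η y)) * f y ∂(stdGaussian (EE n)) := by
        refine lintegral_lintegral_swap ?_
        exact hF.aemeasurable
    _ = ∫⁻ y, ∫⁻ g, ENNReal.ofReal (min (η y) (η (y + a • g))) * f y ∂(stdGaussian (EE n)) := by
        refine lintegral_congr fun y => ?_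
        rw [← met_gauss_neg (fun g => ENNReal.ofReal (min (η (y - a • g)) (η y)) * f y) (by fun_prop)]
        refine lintegral_congr fun g => ?_
        rw [smul_neg, sub_neg_eq_add, min_comm]

/-- exact stationarity (detailed balance: `η(y) min(1, η(y')/η(y))` is symmetric, the proposal is
symmetric by translation invariance of Lebesgue measure and reflection invariance of the Gaussian) -/
theorem met_stationary {η : EE n → ℝ} (hη : SPD η) {h : ℝ} (hh : 0 ≤ h) :
    ((dm η).prod (metNu n)).map (fun p => metStep η h p.1 p.2) = dm η := by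
  have := dm_prob hη
  have hm := hη.continuous.measurable
  have hstep := met_step_measurable hη h
  refine Measure.ext_of_lintegral _ fun f hf => ?_
  rw [lintegral_map hf hstep, lintegral_prod (fun p : EE n × EE n × ℝ => f (metStep η h p.1 p.2))
    (hf.comp hstep).aemeasurable]
  have hinner : ∀ y, ∫⁻ z, f (metStep η h y z) ∂(metNu n)
      = ∫⁻ g, (ENNReal.ofReal (metAcc η y (y + Real.sqrt (2 * h) • g)) * f (y + Real.sqrt (2 * h) • g)
          + ENNReal.ofReal (1 - metAcc η y (y + Real.sqrt (2 * h) • g)) * f y) ∂(stdGaussian (EE n)) := by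
    intro y
    unfold metNu
    rw [lintegral_prod (fun z : EE n × ℝ => f (metStep η h y z))
      ((hf.comp hstep).comp measurable_prodMk_left).aemeasurable]
    refine lintegral_congr fun g => ?_
    have h1 : ∀ u : ℝ, f (metStep η h y (g, u))
        = if u * η y ≤ η (y + Real.sqrt (2 * h) • g) then f (y + Real.sqrt (2 * h) • g) else f y := by
      intro u
      unfold metStep
      exact apply_ite f _ _ _
    simp only [h1]
    exact met_lintegral_u hη y _ _ _
  simp only [hinner]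
  have hacc : Measurable fun q : EE n × EE n => metAcc η q.1 (q.1 + Real.sqrt (2 * h) • q.2) := by
    unfold metAcc
    fun_prop
  unfold dm
  rw [lintegral_withDensity_eq_lintegral_mul _ (by fun_prop) hf,
    lintegral_withDensity_eq_lintegral_mul _ (by fun_prop)
      (Measurable.lintegral_prod_right' (f := fun q : EE n × EE n =>
        ENNReal.ofReal (metAcc η q.1 (q.1 + Real.sqrt (2 * h) • q.2)) * f (q.1 + Real.sqrt (2 * h) • q.2)
          + ENNReal.ofReal (1 - metAcc η q.1 (q.1 + Real.sqrt (2 * h) • q.2)) * f q.1) (by fun_prop))]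
  simp only [Pi.mul_apply]
  have h2 : ∀ y, ENNReal.ofReal (η y) * ∫⁻ g, (ENNReal.ofReal (metAcc η y (y + Real.sqrt (2 * h) • g))
        * f (y + Real.sqrt (2 * h) • g)
          + ENNReal.ofReal (1 - metAcc η y (y + Real.sqrt (2 * h) • g)) * f y) ∂(stdGaussian (EE n))
      = (∫⁻ g, ENNReal.ofReal (min (η y) (η (y + Real.sqrt (2 * h) • g))) * f (y + Real.sqrt (2 * h) • g)
          ∂(stdGaussian (EE n)))
        + ∫⁻ g, ENNReal.ofReal (η y - min (η y) (η (y + Real.sqrt (2 * h) • g))) * f y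
          ∂(stdGaussian (EE n)) := by
    intro y
    have hacc' : Measurable fun g : EE n => metAcc η y (y + Real.sqrt (2 * h) • g) :=
      hacc.comp measurable_prodMk_left
    rw [← lintegral_const_mul _ (by fun_prop), ← lintegral_add_left (by fun_prop)]
    refine lintegral_congr fun g => ?_
    rw [mul_add, ← mul_assoc, ← mul_assoc, ← ENNReal.ofReal_mul (hη.2.1 y).le,
      ← ENNReal.ofReal_mul (hη.2.1 y).le, mul_sub, mul_one, mul_metAcc hη]
  simp only [h2]
  rw [lintegral_add_left (Measurable.lintegral_prod_right' (f := fun q : EE n × EE n =>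
    ENNReal.ofReal (min (η q.1) (η (q.1 + Real.sqrt (2 * h) • q.2))) * f (q.1 + Real.sqrt (2 * h) • q.2))
      (by fun_prop)), met_balance hη _ hf,
    ← lintegral_add_left (Measurable.lintegral_prod_right' (f := fun q : EE n × EE n =>
    ENNReal.ofReal (min (η q.1) (η (q.1 + Real.sqrt (2 * h) • q.2))) * f q.1) (by fun_prop))]
  refine lintegral_congr fun y => ?_
  rw [← lintegral_add_left (by fun_prop)]
  have h3 : ∀ g : EE n, ENNReal.ofReal (min (η y) (η (y + Real.sqrt (2 * h) • g))) * f y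
      + ENNReal.ofReal (η y - min (η y) (η (y + Real.sqrt (2 * h) • g))) * f y = ENNReal.ofReal (η y) * f y := by
    intro g
    rw [← add_mul, ← ENNReal.ofReal_add (le_min (hη.2.1 _).le (hη.2.1 _).le)
      (sub_nonneg.2 (min_le_left _ _))]
    congr 2
    ring
  simp only [h3]
  simp

/-! ### marginals -/

theorem met_next_measurable {η : EE n → ℝ} (hη : SPD η) (h : ℝ) :
    Measurable fun p : (EE n × EE n × EE n) × (EE n × ℝ) =>
      (p.1.1, p.1.2.1 + p.2.1, metStep η h p.1.2.2 p.2) := by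
  have h1 : Measurable fun p : (EE n × EE n × EE n) × (EE n × ℝ) => metStep η h p.1.2.2 p.2 :=
    (met_step_measurable hη h).comp (f := fun p : (EE n × EE n × EE n) × (EE n × ℝ) => (p.1.2.2, p.2))
      (by fun_prop)
  fun_prop

theorem metLaw_prob {η : EE n → ℝ} (hη : SPD η) (h : ℝ) (k : ℕ) :
    IsProbabilityMeasure (metLaw η h k) := by
  have := dm_prob hη
  induction k with
  | zero => exact Measure.isProbabilityMeasure_map (by fun_prop)
  | succ k ih => exact Measure.isProbabilityMeasure_map (met_next_measurable hη h).aemeasurable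

theorem metNu_map_fst (n : ℕ) : (metNu n).map Prod.fst = stdGaussian (EE n) := by
  unfold metNu
  rw [Measure.map_fst_prod]
  simp

/-- `(Y_0, S_k)` has law `η ⊗ N(0, k)` -/
theorem metLaw_fst {η : EE n → ℝ} (hη : SPD η) (h : ℝ) (k : ℕ) :
    (metLaw η h k).map (fun p => (p.1, p.2.1)) = (dm η).prod (gaussK n k) := by
  have := dm_prob hη
  induction k with
  | zero =>
    rw [Nat.cast_zero, gaussK_zero, Measure.prod_dirac]
    change ((dm η).map (fun y => (y, 0, y))).map (fun p : EE n × EE n × EE n => (p.1, p.2.1)) = _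
    rw [Measure.map_map (by fun_prop) (by fun_prop)]
    rfl
  | succ k ih =>
    have := metLaw_prob hη h k
    have := gaussK_prob n (k : ℝ)
    change (((metLaw η h k).prod (metNu n)).map
      (fun p => (p.1.1, p.1.2.1 + p.2.1, metStep η h p.1.2.2 p.2))).map
        (fun p : EE n × EE n × EE n => (p.1, p.2.1)) = _
    rw [Measure.map_map (by fun_prop) (met_next_measurable hη h)]
    have h1 : ((fun p : EE n × EE n × EE n => (p.1, p.2.1)) ∘
        fun p : (EE n × EE n × EE n) × (EE n × ℝ) => (p.1.1, p.1.2.1 + p.2.1, metStep η h p.1.2.2 p.2))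
        = ((Prod.map id fun q : EE n × EE n => q.1 + q.2) ∘ MeasurableEquiv.prodAssoc) ∘
          (Prod.map (fun p : EE n × EE n × EE n => (p.1, p.2.1)) Prod.fst) := by
      funext p
      rfl
    rw [h1, ← Measure.map_map (by fun_prop) (by fun_prop),
      ← Measure.map_prod_map _ _ (by fun_prop) (by fun_prop), ih, metNu_map_fst,
      ← Measure.map_map (by fun_prop) (by fun_prop), Measure.prodAssoc_prod,
      ← Measure.map_prod_map _ _ (by fun_prop) (by fun_prop), gaussK_add n (Nat.cast_nonneg k),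
      Measure.map_id, Nat.cast_succ]

/-- `Y_k` has law `η` -/
theorem metLaw_snd {η : EE n → ℝ} (hη : SPD η) {h : ℝ} (hh : 0 ≤ h) (k : ℕ) :
    (metLaw η h k).map (fun p => p.2.2) = dm η := by
  have := dm_prob hη
  induction k with
  | zero =>
    change ((dm η).map (fun y => (y, 0, y))).map (fun p : EE n × EE n × EE n => p.2.2) = _
    rw [Measure.map_map (by fun_prop) (by fun_prop)]
    exact Measure.map_id
  | succ k ih =>
    have := metLaw_prob hη h k
    change (((metLaw η h k).prod (metNu n)).map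
      (fun p => (p.1.1, p.1.2.1 + p.2.1, metStep η h p.1.2.2 p.2))).map
        (fun p : EE n × EE n × EE n => p.2.2) = _
    rw [Measure.map_map (by fun_prop) (met_next_measurable hη h)]
    have h1 : ((fun p : EE n × EE n × EE n => p.2.2) ∘
        fun p : (EE n × EE n × EE n) × (EE n × ℝ) => (p.1.1, p.1.2.1 + p.2.1, metStep η h p.1.2.2 p.2))
        = (fun p : EE n × (EE n × ℝ) => metStep η h p.1 p.2) ∘
          (Prod.map (fun p : EE n × EE n × EE n => p.2.2) id) := by
      funext p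
      rfl
    rw [h1, ← Measure.map_map (met_step_measurable hη h) (by fun_prop),
      ← Measure.map_prod_map _ _ (by fun_prop) (by fun_prop), ih, Measure.map_id, met_stationary hη hh]

theorem metPi_prob {η : EE n → ℝ} (hη : SPD η) (t : ℝ) (K : ℕ) :
    IsProbabilityMeasure (metPi η t K) := by
  have := metLaw_prob hη (t / K) K
  exact Measure.isProbabilityMeasure_map (by fun_prop)

/-- EXPORT: `(Y_0, N)` has law `η ⊗ γ` -/
theorem metPi_fst {η : EE n → ℝ} (hη : SPD η) (t : ℝ) {K : ℕ} (hK : 1 ≤ K) :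
    (metPi η t K).map Prod.fst = (dm η).prod (stdGaussian (EE n)) := by
  have := dm_prob hη
  have := gaussK_prob n (K : ℝ)
  unfold metPi
  rw [Measure.map_map (by fun_prop) (by fun_prop)]
  have h1 : (Prod.fst ∘ fun p : EE n × EE n × EE n => ((p.1, (Real.sqrt K)⁻¹ • p.2.1), p.2.2))
      = (Prod.map id fun s : EE n => (Real.sqrt K)⁻¹ • s) ∘ fun p : EE n × EE n × EE n => (p.1, p.2.1) := by
    funext p
    rfl
  rw [h1, ← Measure.map_map (by fun_prop) (by fun_prop), metLaw_fst hη,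
    ← Measure.map_prod_map _ _ (by fun_prop) (by fun_prop), Measure.map_id]
  congr 1
  unfold gaussK
  rw [Measure.map_map (by fun_prop) (by fun_prop)]
  have hK' : Real.sqrt K ≠ 0 := (Real.sqrt_pos.2 (by exact_mod_cast hK)).ne'
  have h2 : ((fun s : EE n => (Real.sqrt K)⁻¹ • s) ∘ fun x : EE n => Real.sqrt K • x) = id := by
    funext x
    simp [smul_smul, inv_mul_cancel₀ hK']
  rw [h2, Measure.map_id]

/-- EXPORT: `Y_t` has law `η` -/
theorem metPi_snd {η : EE n → ℝ} (hη : SPD η) {t : ℝ} (ht : 0 ≤ t) (K : ℕ) :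
    (metPi η t K).map Prod.snd = dm η := by
  unfold metPi
  rw [Measure.map_map (by fun_prop) (by fun_prop)]
  exact metLaw_snd hη (div_nonneg ht (Nat.cast_nonneg K)) K

end Claimed.Agent.R259
end

/- ===== packed: Claimed.Agent.R259.MetC ===== -/
section
/-
Row 259 (S0499), kit MET, block C: space-time Hermite tensors.   Blueprint: helper115, proofs: helper268.
One dimensional facts on `heK` (polynomial form, derivative, Stein, mean, first chaos, scaling, orthogonality),
the counting lemma for symmetric coefficients, and the exports `Hs_*`.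
-/
set_option autoImplicit false

open MeasureTheory ProbabilityTheory
open scoped ContDiff BigOperators

namespace Claimed.Agent.R259

/-! ### one dimensional facts -/

section OneD

open Polynomial

/-- polynomial form of `heK` -/
noncomputable def heKp (κ : ℝ) : ℕ → ℝ[X]
  | 0 => 1
  | 1 => X
  | c + 2 => X * heKp κ (c + 1) - C (κ * (c + 1)) * heKp κ c

theorem heK_eq_eval (κ : ℝ) (c : ℕ) (x : ℝ) : heK κ c x = (heKp κ c).eval x := by
  induction c using Nat.twoStepInduction with
  | zero => simp [heK, heKp]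
  | one => simp [heK, heKp]
  | more c ih1 ih2 => simp [heK, heKp, ih1, ih2]

theorem heKp_derivative (κ : ℝ) (c : ℕ) :
    derivative (heKp κ (c + 1)) = C ((c : ℝ) + 1) * heKp κ c := by
  induction c using Nat.twoStepInduction with
  | zero => simp [heKp]
  | one =>
    simp only [heKp, derivative_sub, derivative_mul, derivative_X, derivative_C, derivative_one]
    simp only [Nat.cast_one, map_add, map_one]
    ring
  | more c ih1 ih2 =>
    have h3 : heKp κ (c + 1 + 1 + 1) =
        X * heKp κ (c + 1 + 1) - C (κ * ((c + 1 : ℕ) + 1)) * heKp κ (c + 1) := rfl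
    have h2 : heKp κ (c + 1 + 1) = X * heKp κ (c + 1) - C (κ * (c + 1)) * heKp κ c := rfl
    rw [h3, derivative_sub, derivative_mul, derivative_mul, derivative_X, derivative_C, ih2, ih1, h2]
    simp only [Nat.cast_add, Nat.cast_one, Nat.cast_ofNat, map_add, map_mul, map_one, map_ofNat]
    ring

theorem metc_integrable_shift (q : ℝ[X]) (x : ℝ) : Integrable (fun g : ℝ => q.eval (x + g)) ghG1 := by
  refine (gh_integrable_eval (q.comp (C x + X))).congr (Filter.Eventually.of_forall fun g => ?_)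
  simp

theorem metc_integrable_mul_shift (q : ℝ[X]) (x : ℝ) :
    Integrable (fun g : ℝ => g * q.eval (x + g)) ghG1 := by
  refine (gh_integrable_eval (X * q.comp (C x + X))).congr (Filter.Eventually.of_forall fun g => ?_)
  simp

/-- Stein's identity for a shifted polynomial -/
theorem metc_stein (p : ℝ[X]) (x : ℝ) :
    ∫ g, g * p.eval (x + g) ∂ghG1 = ∫ g, (derivative p).eval (x + g) ∂ghG1 := by
  have h := gh_stein (p.comp (C x + X))
  simp only [derivative_comp, derivative_add, derivative_C, derivative_X, zero_add, one_mul, eval_comp,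
    eval_add, eval_C, eval_X] at h
  exact h.symm

theorem heK_integrable (κ : ℝ) (c : ℕ) (x : ℝ) : Integrable (fun g : ℝ => heK κ c (x + g)) ghG1 := by
  simp only [heK_eq_eval]
  exact metc_integrable_shift _ x

theorem heK_mul_integrable (κ : ℝ) (c : ℕ) (x : ℝ) :
    Integrable (fun g : ℝ => g * heK κ c (x + g)) ghG1 := by
  simp only [heK_eq_eval]
  exact metc_integrable_mul_shift _ x

/-- Stein for `heK` -/
theorem heK_stein (κ : ℝ) (c : ℕ) (x : ℝ) :
    ∫ g, g * heK κ (c + 1) (x + g) ∂ghG1 = ((c : ℝ) + 1) * ∫ g, heK κ c (x + g) ∂ghG1 := by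
  simp only [heK_eq_eval]
  rw [metc_stein, heKp_derivative, ← integral_const_mul]
  simp

/-- space-time harmonicity in one dimension -/
theorem heK_mean (κ : ℝ) (c : ℕ) (x : ℝ) : ∫ g, heK (κ + 1) c (x + g) ∂ghG1 = heK κ c x := by
  induction c using Nat.twoStepInduction with
  | zero => simp [heK]
  | one =>
    have h1 : ∫ g : ℝ, g ∂ghG1 = 0 := by simp
    have h2 : (fun g : ℝ => heK (κ + 1) 1 (x + g)) = fun g => x + g := by
      funext g; simp [heK]
    rw [h2, integral_add (integrable_const _) (by simpa using gh_integrable_pow 1), h1]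
    simp [heK]
  | more c ih1 ih2 =>
    have h2 : (fun g : ℝ => heK (κ + 1) (c + 2) (x + g)) = fun g =>
        x * heK (κ + 1) (c + 1) (x + g) + g * heK (κ + 1) (c + 1) (x + g)
          - (κ + 1) * (c + 1) * heK (κ + 1) c (x + g) := by
      funext g
      simp only [heK]
      ring
    have i1 : Integrable (fun g : ℝ => x * heK (κ + 1) (c + 1) (x + g)) ghG1 :=
      (heK_integrable _ _ _).const_mul _
    have i2 : Integrable (fun g : ℝ => g * heK (κ + 1) (c + 1) (x + g)) ghG1 := heK_mul_integrable _ _ _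
    have i3 : Integrable (fun g : ℝ => (κ + 1) * (c + 1) * heK (κ + 1) c (x + g)) ghG1 :=
      (heK_integrable _ _ _).const_mul _
    have i12 : Integrable (fun g : ℝ => x * heK (κ + 1) (c + 1) (x + g)
        + g * heK (κ + 1) (c + 1) (x + g)) ghG1 := i1.add i2
    rw [h2, integral_sub i12 i3, integral_add i1 i2, integral_const_mul, integral_const_mul, heK_stein,
      ih1, ih2]
    simp only [heK]
    ring

/-- first chaos in one dimension -/
theorem heK_first (κ : ℝ) (c : ℕ) (x : ℝ) :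
    ∫ g, g * heK (κ + 1) c (x + g) ∂ghG1 = (c : ℝ) * heK κ (c - 1) x := by
  cases c with
  | zero => simp [heK]
  | succ c =>
    rw [heK_stein, heK_mean]
    simp

/-- scaling in one dimension -/
theorem heK_scale {κ : ℝ} (hκ : 0 ≤ κ) (c : ℕ) (x : ℝ) :
    heK κ c (Real.sqrt κ * x) = Real.sqrt κ ^ c * heK 1 c x := by
  induction c using Nat.twoStepInduction with
  | zero => simp [heK]
  | one => simp [heK]
  | more c ih1 ih2 =>
    simp only [heK, ih1, ih2]
    have h : Real.sqrt κ ^ 2 = κ := Real.sq_sqrt hκ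
    linear_combination ((c : ℝ) + 1) * Real.sqrt κ ^ c * heK 1 c x * h

theorem heK_one_eq_ghHr (c : ℕ) (x : ℝ) : heK 1 c x = (ghHr c).eval x := by
  induction c using Nat.twoStepInduction with
  | zero => simp [heK, ghHr_zero]
  | one => simp [heK, ghHr_succ, ghHr_zero]
  | more c ih1 ih2 =>
    rw [ghHr_succ (c + 1), ghHr_derivative]
    simp only [heK, ih1, ih2, eval_sub, eval_mul, eval_X, eval_add, eval_natCast, eval_one]
    ring

theorem heK_one_eq_hermite (c : ℕ) (x : ℝ) :
    heK 1 c x = Polynomial.aeval x (Polynomial.hermite c) := by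
  rw [heK_one_eq_ghHr, ghHr, eval_map, aeval_def]
  rfl

theorem heK_orthogonal (a b : ℕ) :
    ∫ t, heK 1 a t * heK 1 b t ∂ghG1 = if a = b then (a.factorial : ℝ) else 0 := by
  simp only [heK_one_eq_ghHr]
  exact gh_hermite_orthogonal a b

theorem heK_continuous (κ : ℝ) (c : ℕ) : Continuous (heK κ c) := by
  have : heK κ c = fun x => (heKp κ c).eval x := funext (heK_eq_eval κ c)
  rw [this]
  exact (heKp κ c).continuous

end OneD

/-! ### counting -/

section Count

variable {n : ℕ}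

theorem cnt_eq_sum {j : ℕ} (β : Idx n j) (i : Fin n) : cnt β i = ∑ r, if β r = i then 1 else 0 := by
  rw [cnt, Finset.card_filter]

theorem cnt_sum {j : ℕ} (β : Idx n j) : ∑ i, cnt β i = j := by
  have h := Finset.card_eq_sum_card_fiberwise (s := (Finset.univ : Finset (Fin j)))
    (t := (Finset.univ : Finset (Fin n))) (f := β) (fun _ _ => Finset.mem_coe.2 (Finset.mem_univ _))
  rw [Finset.card_univ, Fintype.card_fin] at h
  exact h.symm

/-- insertion of the value `i` at the place `r` -/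
def insI {j : ℕ} (r : Fin (j + 1)) (i : Fin n) (β : Idx n j) : Idx n (j + 1) :=
  Fin.insertNth (α := fun _ => Fin n) r i β

/-- prepending the value `i` -/
def consI {j : ℕ} (i : Fin n) (β : Idx n j) : Idx n (j + 1) := Fin.cons (α := fun _ => Fin n) i β

theorem cnt_insI {j : ℕ} (r : Fin (j + 1)) (i : Fin n) (β : Idx n j) (l : Fin n) :
    cnt (insI r i β) l = cnt β l + if i = l then 1 else 0 := by
  rw [cnt_eq_sum, cnt_eq_sum, Fin.sum_univ_succAbove _ r, add_comm]
  simp [insI]

theorem insI_eq_consI_comp {j : ℕ} (r : Fin (j + 1)) (i : Fin n) (β : Idx n j) :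
    insI r i β = consI i β ∘ (Fin.cycleRange r) := by
  funext k
  refine Fin.succAboveCases r ?_ (fun k' => ?_) k
  · simp [insI, consI]
  · simp [insI, consI]

theorem insI_zero {j : ℕ} (i : Fin n) (β : Idx n j) : insI 0 i β = consI i β := by
  simp [insI, consI]

theorem cnt_consI {j : ℕ} (i : Fin n) (β : Idx n j) (l : Fin n) :
    cnt (consI i β) l = cnt β l + if i = l then 1 else 0 := by
  rw [← insI_zero, cnt_insI]

/-- summation over tuples, the entry at the place `r` separated -/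
theorem sum_idx_insI {j : ℕ} (r : Fin (j + 1)) (f : Idx n (j + 1) → ℝ) :
    ∑ β, f β = ∑ x : Fin n, ∑ β' : Idx n j, f (insI r x β') := by
  rw [← Fintype.sum_prod_type']
  exact (Equiv.sum_comp (Fin.insertNthEquiv (fun _ => Fin n) r) f).symm

/-- the counting lemma -/
theorem sum_cnt_mul {j : ℕ} (i : Fin n) (f : Idx n (j + 1) → ℝ) :
    ∑ β, (cnt β i : ℝ) * f β = ∑ r : Fin (j + 1), ∑ β' : Idx n j, f (insI r i β') := by
  have h1 : ∀ β : Idx n (j + 1), (cnt β i : ℝ) * f β = ∑ r, if β r = i then f β else 0 := by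
    intro β
    rw [cnt_eq_sum]
    push_cast
    rw [Finset.sum_mul]
    refine Finset.sum_congr rfl fun r _ => ?_
    split_ifs <;> simp
  simp only [h1]
  rw [Finset.sum_comm]
  refine Finset.sum_congr rfl fun r _ => ?_
  rw [sum_idx_insI r]
  have h2 : ∀ (x : Fin n) (β' : Idx n j), insI r x β' r = x := by
    intro x β'
    simp [insI]
  simp only [h2]
  rw [Finset.sum_eq_single i]
  · simp
  · intro x _ hx
    simp [hx]
  · intro h
    exact absurd (Finset.mem_univ i) h

/-- symmetric functions of tuples -/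
def IdxSym {j : ℕ} (u : Idx n j → ℝ) : Prop := ∀ (σ : Equiv.Perm (Fin j)) (β : Idx n j), u (β ∘ σ) = u β

theorem IdxSym.insI {j : ℕ} {u : Idx n (j + 1) → ℝ} (hu : IdxSym u) (r : Fin (j + 1)) (i : Fin n)
    (β : Idx n j) : u (insI r i β) = u (consI i β) := by
  rw [insI_eq_consI_comp]
  exact hu _ _

theorem IdxSym.consI {j : ℕ} {u : Idx n (j + 1) → ℝ} (hu : IdxSym u) (i : Fin n) :
    IdxSym fun β : Idx n j => u (consI i β) := by
  intro σ β
  have h : Claimed.Agent.R259.consI i (β ∘ σ)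
      = Claimed.Agent.R259.consI i β ∘ (Equiv.Perm.decomposeFin.symm (0, σ)) := by
    funext k
    refine Fin.cases ?_ (fun k' => ?_) k
    · simp [Claimed.Agent.R259.consI]
    · simp [Claimed.Agent.R259.consI]
  beta_reduce
  rw [h]
  exact hu _ _

/-- the counting lemma for symmetric coefficients: `Θ` is any function of the tuple whose value at an inserted tuple
does not depend on the place of the insertion -/
theorem sum_cnt_mul_sym {j : ℕ} (i : Fin n) {u : Idx n (j + 1) → ℝ} (hu : IdxSym u)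
    (Θ : Idx n (j + 1) → ℝ) (Φ : Idx n j → ℝ) (hΘ : ∀ r β', Θ (insI r i β') = Φ β') :
    ∑ β, u β * ((cnt β i : ℝ) * Θ β) = ((j : ℝ) + 1) * ∑ β' : Idx n j, u (consI i β') * Φ β' := by
  have h1 : ∀ β : Idx n (j + 1), u β * ((cnt β i : ℝ) * Θ β) = (cnt β i : ℝ) * (u β * Θ β) := by
    intro β; ring
  simp only [h1]
  rw [sum_cnt_mul i fun β => u β * Θ β]
  simp only [hu.insI, hΘ]
  rw [Finset.sum_const, Finset.card_univ, Fintype.card_fin, nsmul_eq_mul]
  push_cast
  ring

end Count

/-! ### product Hermite functions and their Gaussian integrals -/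

section Multi

variable {n : ℕ}

/-- product Hermite function of a multi-index -/
noncomputable def hsP (κ : ℝ) (s : EE n) (α : Fin n → ℕ) : ℝ := ∏ i, heK κ (α i) (s i)

theorem Hs_apply (j : ℕ) (κ : ℝ) (s : EE n) (β : Idx n j) : Hs j κ s β = hsP κ s (cnt β) := rfl

theorem hsP_continuous (κ : ℝ) (α : Fin n → ℕ) : Continuous fun s : EE n => hsP κ s α := by
  unfold hsP
  refine continuous_finset_prod _ fun i _ => (heK_continuous _ _).comp ?_
  fun_prop

theorem hsP_integrable (κ : ℝ) (s : EE n) (α : Fin n → ℕ) :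
    Integrable (fun g : EE n => hsP κ (s + g) α) (stdGaussian (EE n)) :=
  gh_integrable_prod (m := n) (f := fun i t => heK κ (α i) (s i + t)) fun _ => heK_integrable _ _ _

theorem hsP_mean (κ : ℝ) (s : EE n) (α : Fin n → ℕ) :
    ∫ g, hsP (κ + 1) (s + g) α ∂(stdGaussian (EE n)) = hsP κ s α := by
  have h := gh_integral_prod (m := n) (fun i t => heK (κ + 1) (α i) (s i + t))
  simp only [heK_mean] at h
  exact h

theorem metc_coord_mul_prod (i : Fin n) (q : Fin n → ℝ → ℝ) (g : Fin n → ℝ) :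
    ∏ l, (if l = i then g l * q l (g l) else q l (g l)) = g i * ∏ l, q l (g l) := by
  have h1 : ∀ l, (if l = i then g l * q l (g l) else q l (g l)) = (if l = i then g l else 1) * q l (g l) := by
    intro l
    split_ifs <;> simp
  simp only [h1]
  rw [Finset.prod_mul_distrib, Finset.prod_ite_eq' Finset.univ i g]
  simp

theorem hsP_coord_integrable (κ : ℝ) (s : EE n) (α : Fin n → ℕ) (i : Fin n) :
    Integrable (fun g : EE n => g i * hsP κ (s + g) α) (stdGaussian (EE n)) := by
  have h := gh_integrable_prod (m := n)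
    (f := fun l t => if l = i then t * heK κ (α l) (s l + t) else heK κ (α l) (s l + t)) (fun l => by
      by_cases hl : l = i
      · simp only [hl, if_true]
        exact heK_mul_integrable _ _ _
      · simp only [hl, if_false]
        exact heK_integrable _ _ _)
  refine h.congr (Filter.Eventually.of_forall fun g => ?_)
  exact metc_coord_mul_prod i (fun l t => heK κ (α l) (s l + t)) fun l => g l

theorem hsP_first (κ : ℝ) (s : EE n) (α : Fin n → ℕ) (i : Fin n) :
    ∫ g, g i * hsP (κ + 1) (s + g) α ∂(stdGaussian (EE n))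
      = (α i : ℝ) * hsP κ s (Function.update α i (α i - 1)) := by
  have h := gh_integral_prod (m := n)
    (fun l t => if l = i then t * heK (κ + 1) (α l) (s l + t) else heK (κ + 1) (α l) (s l + t))
  have h1 : (fun g : EE n => g i * hsP (κ + 1) (s + g) α) = fun g : EE n =>
      ∏ l, (if l = i then g l * heK (κ + 1) (α l) (s l + g l) else heK (κ + 1) (α l) (s l + g l)) := by
    funext g
    exact (metc_coord_mul_prod i (fun l t => heK (κ + 1) (α l) (s l + t)) fun l => g l).symm
  rw [h1, h]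
  have h2 : ∀ l, (∫ t, (if l = i then t * heK (κ + 1) (α l) (s l + t) else heK (κ + 1) (α l) (s l + t)) ∂ghG1)
      = (if l = i then (α l : ℝ) else 1) * heK κ (Function.update α i (α i - 1) l) (s l) := by
    intro l
    by_cases hl : l = i
    · subst hl
      simp only [if_true, Function.update_self]
      exact heK_first _ _ _
    · simp only [hl, if_false, Function.update_of_ne hl, one_mul]
      exact heK_mean _ _ _
  simp only [h2]
  rw [Finset.prod_mul_distrib, Finset.prod_ite_eq' Finset.univ i fun l => (α l : ℝ)]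
  simp [hsP]

theorem hsP_mul_integrable (α α' : Fin n → ℕ) :
    Integrable (fun x : EE n => hsP 1 x α * hsP 1 x α') (stdGaussian (EE n)) := by
  have h := gh_integrable_prod (m := n) (f := fun l t => heK 1 (α l) t * heK 1 (α' l) t) (fun l => by
    simp only [heK_eq_eval]
    refine (gh_integrable_eval (heKp 1 (α l) * heKp 1 (α' l))).congr
      (Filter.Eventually.of_forall fun t => ?_)
    simp)
  refine h.congr (Filter.Eventually.of_forall fun x => ?_)
  simp only [hsP, Finset.prod_mul_distrib]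

theorem hsP_orthogonal (α α' : Fin n → ℕ) :
    ∫ x, hsP 1 x α * hsP 1 x α' ∂(stdGaussian (EE n))
      = ∏ l, if α l = α' l then ((α l).factorial : ℝ) else 0 := by
  have h := gh_integral_prod (m := n) (fun l t => heK 1 (α l) t * heK 1 (α' l) t)
  simp only [heK_orthogonal] at h
  rw [← h]
  simp only [hsP, Finset.prod_mul_distrib]

/-- scaling of the product Hermite functions -/
theorem hsP_scale {κ : ℝ} (hκ : 0 ≤ κ) (x : EE n) (α : Fin n → ℕ) :
    hsP κ (Real.sqrt κ • x) α = Real.sqrt κ ^ (∑ i, α i) * hsP 1 x α := by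
  unfold hsP
  simp only [PiLp.smul_apply, smul_eq_mul, heK_scale hκ]
  rw [Finset.prod_mul_distrib, Finset.prod_pow_eq_pow_sum]

open Polynomial in
/-- products of one dimensional polynomials have all moments -/
theorem metc_memLp_prod (q : Fin n → ℝ[X]) (p : NNReal) :
    MemLp (fun x : EE n => ∏ i, (q i).eval (x i)) p (stdGaussian (EE n)) := by
  obtain ⟨m, hm⟩ := exists_nat_ge p
  have hcont : Continuous fun x : EE n => ∏ i, (q i).eval (x i) := by
    refine continuous_finset_prod _ fun i _ => (q i).continuous.comp ?_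
    fun_prop
  have h2 : MemLp (fun x : EE n => ∏ i, (q i).eval (x i)) ((2 * (m + 1) : ℕ) : ENNReal)
      (stdGaussian (EE n)) := by
    rw [← integrable_norm_rpow_iff hcont.aestronglyMeasurable (by simp) (ENNReal.natCast_ne_top _)]
    have h := gh_integrable_prod (m := n) (f := fun i t => ((q i) ^ (2 * (m + 1))).eval t)
      (fun i => gh_integrable_eval _)
    refine h.congr (Filter.Eventually.of_forall fun x => ?_)
    simp only [ENNReal.toReal_natCast, Real.rpow_natCast, eval_pow, Finset.prod_pow, Real.norm_eq_abs]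
    rw [pow_mul, pow_mul, sq_abs]
  refine h2.mono_exponent ?_
  have h3 : (p : ENNReal) ≤ ((m : NNReal) : ENNReal) := ENNReal.coe_le_coe.2 hm
  refine h3.trans ?_
  rw [ENNReal.coe_natCast]
  exact_mod_cast (by omega : m ≤ 2 * (m + 1))

end Multi

/-! ### the matching lemma (multinomial counting by induction) -/

section Match

variable {n : ℕ}

/-- the Gaussian pairing of two product Hermite functions -/
noncomputable def hsW (α α' : Fin n → ℕ) : ℝ := ∏ l, if α l = α' l then ((α l).factorial : ℝ) else 0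

theorem hsW_consI {j : ℕ} (i : Fin n) (β₀ : Idx n j) (α' : Fin n → ℕ) :
    hsW (cnt (consI i β₀)) α' = (α' i : ℝ) * hsW (cnt β₀) (Function.update α' i (α' i - 1)) := by
  unfold hsW
  rw [← Finset.mul_prod_erase Finset.univ _ (Finset.mem_univ i),
    ← Finset.mul_prod_erase Finset.univ (fun l => if cnt β₀ l = Function.update α' i (α' i - 1) l then
      ((cnt β₀ l).factorial : ℝ) else 0) (Finset.mem_univ i), ← mul_assoc]
  congr 1
  · rw [cnt_consI, if_pos rfl, Function.update_self]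
    rcases Nat.eq_zero_or_pos (α' i) with h0 | hpos
    · simp [h0]
    · obtain ⟨m, hm⟩ := Nat.exists_eq_succ_of_ne_zero hpos.ne'
      rw [hm]
      by_cases h : cnt β₀ i = m
      · simp [h, Nat.factorial_succ]
      ·         simp [h]
  · refine Finset.prod_congr rfl fun l hl => ?_
    have hli : l ≠ i := Finset.ne_of_mem_erase hl
    rw [cnt_consI, if_neg (Ne.symm hli), add_zero, Function.update_of_ne hli]

theorem update_cnt_insI {j : ℕ} (r : Fin (j + 1)) (i : Fin n) (β' : Idx n j) :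
    Function.update (cnt (insI r i β')) i (cnt (insI r i β') i - 1) = cnt β' := by
  funext l
  by_cases hl : l = i
  · subst hl
    rw [Function.update_self, cnt_insI, if_pos rfl, Nat.add_sub_cancel]
  · rw [Function.update_of_ne hl, cnt_insI, if_neg (Ne.symm hl), add_zero]

theorem sum_sym_match {j : ℕ} {u : Idx n j → ℝ} (hu : IdxSym u) (β : Idx n j) :
    ∑ β', u β' * hsW (cnt β) (cnt β') = (j.factorial : ℝ) * u β := by
  induction j with
  | zero =>
    have h1 : ∀ β' : Idx n 0, β' = β := fun β' => Subsingleton.elim _ _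
    rw [Fintype.sum_eq_single β fun β' hβ' => absurd (h1 β') hβ']
    simp [hsW, cnt]
  | succ j ih =>
    obtain ⟨i, β₀, rfl⟩ : ∃ i β₀, β = consI i β₀ := ⟨β 0, Fin.tail β, (Fin.cons_self_tail β).symm⟩
    simp only [hsW_consI]
    rw [sum_cnt_mul_sym i hu (fun β' => hsW (cnt β₀) (Function.update (cnt β') i (cnt β' i - 1)))
      (fun β'' => hsW (cnt β₀) (cnt β'')) (fun r β' => by rw [update_cnt_insI]), ih (hu.consI i) β₀,
      Nat.factorial_succ]
    push_cast
    ring

theorem hsW_eq_zero {j j' : ℕ} (h : j ≠ j') (β : Idx n j) (β' : Idx n j') : hsW (cnt β) (cnt β') = 0 := by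
  by_contra hne
  refine h ?_
  rw [← cnt_sum β, ← cnt_sum β']
  refine Finset.sum_congr rfl fun l _ => ?_
  by_contra hl
  exact hne (Finset.prod_eq_zero (Finset.mem_univ l) (if_neg hl))

/-- bilinear form of the pairing -/
theorem hs_bilin {j j' : ℕ} (u : Idx n j → ℝ) (v : Idx n j' → ℝ) :
    ∫ x, (∑ β, u β * hsP 1 x (cnt β)) * (∑ β', v β' * hsP 1 x (cnt β')) ∂(stdGaussian (EE n))
      = ∑ β, ∑ β', u β * v β' * hsW (cnt β) (cnt β') := by
  have h1 : ∀ x : EE n, (∑ β, u β * hsP 1 x (cnt β)) * (∑ β', v β' * hsP 1 x (cnt β'))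
      = ∑ β, ∑ β', u β * v β' * (hsP 1 x (cnt β) * hsP 1 x (cnt β')) := by
    intro x
    rw [Finset.sum_mul_sum]
    refine Finset.sum_congr rfl fun β _ => Finset.sum_congr rfl fun β' _ => ?_
    ring
  simp only [h1]
  rw [integral_finset_sum _ fun β _ => integrable_finset_sum _ fun β' _ =>
    (hsP_mul_integrable (cnt β) (cnt β')).const_mul _]
  refine Finset.sum_congr rfl fun β _ => ?_
  rw [integral_finset_sum _ fun β' _ => (hsP_mul_integrable (cnt β) (cnt β')).const_mul _]
  refine Finset.sum_congr rfl fun β' _ => ?_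
  rw [integral_const_mul, hsP_orthogonal]
  rfl

theorem hs_bilin_integrable {j j' : ℕ} (u : Idx n j → ℝ) (v : Idx n j' → ℝ) :
    Integrable (fun x : EE n => (∑ β, u β * hsP 1 x (cnt β)) * (∑ β', v β' * hsP 1 x (cnt β')))
      (stdGaussian (EE n)) := by
  have h1 : ∀ x : EE n, (∑ β, u β * hsP 1 x (cnt β)) * (∑ β', v β' * hsP 1 x (cnt β'))
      = ∑ β, ∑ β', u β * v β' * (hsP 1 x (cnt β) * hsP 1 x (cnt β')) := by
    intro x
    rw [Finset.sum_mul_sum]
    refine Finset.sum_congr rfl fun β _ => Finset.sum_congr rfl fun β' _ => ?_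
    ring
  simp only [h1]
  exact integrable_finset_sum _ fun β _ => integrable_finset_sum _ fun β' _ =>
    (hsP_mul_integrable (cnt β) (cnt β')).const_mul _

/-- scalar isometry at variance one -/
theorem hs_iso_scalar {j : ℕ} {u : Idx n j → ℝ} (hu : IdxSym u) :
    ∫ x, (∑ β, u β * hsP 1 x (cnt β)) ^ 2 ∂(stdGaussian (EE n)) = (j.factorial : ℝ) * ∑ β, u β ^ 2 := by
  simp only [sq]
  rw [hs_bilin u u, Finset.mul_sum]
  refine Finset.sum_congr rfl fun β _ => ?_
  have h1 : ∀ β', u β * u β' * hsW (cnt β) (cnt β') = u β * (u β' * hsW (cnt β) (cnt β')) := by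
    intro β'; ring
  simp only [h1]
  rw [← Finset.mul_sum, sum_sym_match hu β]
  ring

end Match

/-! ## Block C: the exports -/

section C
variable {n : ℕ} {ι : Type} [Fintype ι]

theorem Hs_zero (κ : ℝ) (s : EE n) (β : Idx n 0) : Hs 0 κ s β = 1 := by
  rw [Hs_apply]
  simp [hsP, cnt, heK]

theorem heK_var_zero (c : ℕ) (x : ℝ) : heK 0 c x = x ^ c := by
  induction c using Nat.twoStepInduction with
  | zero => simp [heK]
  | one => simp [heK]
  | more c ih1 ih2 =>
    simp only [heK, ih2]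
    ring

theorem Hs_at_zero (j : ℕ) : Hs (j + 1) 0 (0 : EE n) = 0 := by
  ext β
  rw [Hs_apply]
  have h1 : cnt β (β 0) ≠ 0 := by
    unfold cnt
    exact Finset.card_ne_zero_of_mem (a := 0) (by simp)
  have h2 : hsP 0 (0 : EE n) (cnt β) = 0 := by
    refine Finset.prod_eq_zero (Finset.mem_univ (β 0)) ?_
    rw [heK_var_zero]
    simp [h1]
  rw [h2]
  rfl

/-- scaling, variance `κ ≥ 0` -/
theorem Hs_scale' (j : ℕ) {κ : ℝ} (hκ : 0 ≤ κ) (x : EE n) :
    Hs j κ (Real.sqrt κ • x) = Real.sqrt κ ^ j • Hs j 1 x := by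
  ext β
  have h := hsP_scale hκ x (cnt β)
  rw [cnt_sum] at h
  rw [Hs_apply, h]
  rfl

/-- scaling -/
theorem Hs_scale (j : ℕ) {κ : ℝ} (hκ : 0 < κ) (s : EE n) :
    Hs j κ s = Real.sqrt κ ^ j • Hs j 1 ((Real.sqrt κ)⁻¹ • s) := by
  rw [← Hs_scale' j hκ.le, smul_smul, mul_inv_cancel₀ (Real.sqrt_pos.2 hκ).ne', one_smul]

theorem Hs_continuous (j : ℕ) (κ : ℝ) : Continuous (fun s : EE n => Hs j κ s) := by
  unfold Hs
  exact (PiLp.continuous_toLp 2 _).comp (continuous_pi fun β => hsP_continuous κ (cnt β))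

theorem Hs_measurable (j : ℕ) (κ : ℝ) : Measurable (fun s : EE n => Hs j κ s) :=
  (Hs_continuous j κ).measurable

open Polynomial in
/-- all moments: polynomial in a Gaussian vector -/
theorem Hs_memLp (j : ℕ) (κ κ' : ℝ) (s0 : EE n) (p : NNReal) :
    MemLp (fun s : EE n => Hs j κ (s0 + s)) p (gaussK n κ') := by
  have hc : Continuous fun s : EE n => Hs j κ (s0 + s) :=
    (Hs_continuous j κ).comp (continuous_const.add continuous_id)
  unfold gaussK
  rw [memLp_map_measure_iff hc.aestronglyMeasurable (by fun_prop), memLp_piLp_iff]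
  intro β
  have hfun : (fun x : EE n => ((fun s : EE n => Hs j κ (s0 + s)) ∘ fun x : EE n => Real.sqrt κ' • x) x β)
      = fun x : EE n => ∏ i, ((heKp κ (cnt β i)).comp (C (s0 i) + C (Real.sqrt κ') * X)).eval (x i) := by
    funext x
    simp only [Function.comp_apply, Hs_apply, hsP, heK_eq_eval, eval_comp, eval_add, eval_mul, eval_C, eval_X,
      PiLp.add_apply, PiLp.smul_apply, smul_eq_mul]
  rw [hfun]
  exact metc_memLp_prod _ p

theorem Hs_integrable (j : ℕ) (κ : ℝ) (s : EE n) :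
    Integrable (fun g : EE n => Hs j κ (s + g)) (stdGaussian (EE n)) :=
  Integrable.of_eval_piLp fun β => hsP_integrable κ s (cnt β)

/-- space-time harmonicity -/
theorem Hs_mean (j : ℕ) (κ : ℝ) (s : EE n) :
    ∫ g, Hs j (κ + 1) (s + g) ∂(stdGaussian (EE n)) = Hs j κ s := by
  ext β
  rw [eval_integral_piLp fun β => hsP_integrable (κ + 1) s (cnt β)]
  exact hsP_mean κ s (cnt β)

omit [Fintype ι] in
theorem CoefSym.idxSym {j : ℕ} {c : EuclideanSpace ℝ (ι × Idx n j)} (hc : CoefSym c) (a : ι) :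
    IdxSym fun β => c (a, β) := fun σ β => hc σ a β

omit [Fintype ι] in
theorem hcon_apply {j : ℕ} (c : EuclideanSpace ℝ (ι × Idx n j)) (τ : TT n j) (a : ι) :
    hcon c τ a = ∑ β, c (a, β) * τ β := rfl

/-- first chaos component in the increment (Gaussian integration by parts + `he' = c he`) -/
theorem Hs_first (j : ℕ) (κ : ℝ) (s : EE n) {c : EuclideanSpace ℝ (ι × Idx n (j + 1))}
    (hc : CoefSym c) (i : Fin n) (a : ι) :
    ∫ g, g i * hcon c (Hs (j + 1) (κ + 1) (s + g)) a ∂(stdGaussian (EE n))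
      = (j + 1 : ℝ) * hcon (shiftC c) (Hs j κ s) (a, i) := by
  have h1 : ∀ g : EE n, g i * hcon c (Hs (j + 1) (κ + 1) (s + g)) a
      = ∑ β, c (a, β) * (g i * hsP (κ + 1) (s + g) (cnt β)) := by
    intro g
    rw [hcon_apply, Finset.mul_sum]
    refine Finset.sum_congr rfl fun β _ => ?_
    rw [Hs_apply]
    ring
  simp only [h1]
  rw [integral_finset_sum _ fun β _ => (hsP_coord_integrable _ _ _ _).const_mul _]
  simp only [integral_const_mul, hsP_first]
  rw [sum_cnt_mul_sym i (hc.idxSym a) (fun β => hsP κ s (Function.update (cnt β) i (cnt β i - 1)))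
    (fun β' => hsP κ s (cnt β')) (fun r β' => by rw [update_cnt_insI])]
  rfl

theorem metc_norm_sq_hcon {j : ℕ} (c : EuclideanSpace ℝ (ι × Idx n j)) (τ : TT n j) :
    ‖hcon c τ‖ ^ 2 = ∑ a, (∑ β, c (a, β) * τ β) ^ 2 := by
  rw [EuclideanSpace.real_norm_sq_eq]
  rfl

/-- isometry (5.hermite-isometry) -/
theorem Hs_isometry (j : ℕ) {κ : ℝ} (hκ : 0 ≤ κ) {c : EuclideanSpace ℝ (ι × Idx n j)}
    (hc : CoefSym c) :
    ∫ s, ‖hcon c (Hs j κ s)‖ ^ 2 ∂(gaussK n κ) = (j.factorial : ℝ) * κ ^ j * ‖c‖ ^ 2 := by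
  have hcont : Continuous fun s : EE n => ‖hcon c (Hs j κ s)‖ ^ 2 := by
    simp only [metc_norm_sq_hcon, Hs_apply]
    refine continuous_finset_sum _ fun a _ => (continuous_finset_sum _ fun β _ => ?_).pow 2
    exact continuous_const.mul (hsP_continuous κ (cnt β))
  unfold gaussK
  rw [integral_map (by fun_prop) hcont.aestronglyMeasurable]
  have h1 : ∀ x : EE n, ‖hcon c (Hs j κ (Real.sqrt κ • x))‖ ^ 2
      = κ ^ j * ∑ a, (∑ β, c (a, β) * hsP 1 x (cnt β)) ^ 2 := by
    intro x
    rw [metc_norm_sq_hcon, Hs_scale' j hκ, Finset.mul_sum]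
    refine Finset.sum_congr rfl fun a _ => ?_
    have h2 : ∑ β, c (a, β) * (Real.sqrt κ ^ j • Hs j 1 x) β
        = Real.sqrt κ ^ j * ∑ β, c (a, β) * hsP 1 x (cnt β) := by
      rw [Finset.mul_sum]
      refine Finset.sum_congr rfl fun β _ => ?_
      rw [PiLp.smul_apply, Hs_apply, smul_eq_mul]
      ring
    rw [h2, mul_pow, ← pow_mul, mul_comm j 2, pow_mul, Real.sq_sqrt hκ]
  simp only [h1]
  rw [integral_const_mul, integral_finset_sum _ fun a _ => by
    simpa only [sq] using hs_bilin_integrable (fun β => c (a, β)) (fun β => c (a, β))]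
  simp only [hs_iso_scalar (hc.idxSym _)]
  rw [EuclideanSpace.real_norm_sq_eq, Fintype.sum_prod_type, ← Finset.mul_sum]
  ring

/-- orthogonality of different orders (not used by MET itself; export for S5, S6) -/
theorem Hs_orthogonal {j j' : ℕ} (hj : j ≠ j') {c : EuclideanSpace ℝ (ι × Idx n j)}
    {c' : EuclideanSpace ℝ (ι × Idx n j')} (hc : CoefSym c) (hc' : CoefSym c') :
    ∫ x, inner ℝ (hcon c (Hs j 1 x)) (hcon c' (Hs j' 1 x)) ∂(stdGaussian (EE n)) = 0 := by
  have h1 : ∀ x : EE n, inner ℝ (hcon c (Hs j 1 x)) (hcon c' (Hs j' 1 x))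
      = ∑ a, (∑ β, c (a, β) * hsP 1 x (cnt β)) * (∑ β', c' (a, β') * hsP 1 x (cnt β')) := by
    intro x
    rw [PiLp.inner_apply]
    refine Finset.sum_congr rfl fun a _ => ?_
    rw [hcon_apply, hcon_apply]
    simp only [Hs_apply, RCLike.inner_apply, conj_trivial]
    ring
  simp only [h1]
  rw [integral_finset_sum _ fun a _ => hs_bilin_integrable _ _]
  refine Finset.sum_eq_zero fun a _ => ?_
  rw [hs_bilin]
  simp [hsW_eq_zero hj]

end C

end Claimed.Agent.R259
end

/- ===== packed: Claimed.Agent.R259.MetX ===== -/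
section
/-
Row 259 (S0499), kit MET, block X: the higher chaos part of one step.
Blueprint: helper115, proofs: helper268.
-/
set_option autoImplicit false

open MeasureTheory ProbabilityTheory
open scoped ContDiff BigOperators

namespace Claimed.Agent.R259

variable {n : ℕ}

/-! ### first and second moments of the coordinates -/

theorem hsP_zero_idx (κ : ℝ) (s : EE n) : hsP κ s (fun _ => 0) = 1 := by
  simp [hsP, heK]

theorem hsP_single (κ : ℝ) (s : EE n) (l : Fin n) : hsP κ s (Pi.single l 1) = s l := by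
  unfold hsP
  rw [Finset.prod_eq_single l]
  · simp [heK]
  · intro m _ hm
    simp [Pi.single_eq_of_ne hm, heK]
  · intro h
    exact absurd (Finset.mem_univ l) h

theorem metx_coord_integrable (i : Fin n) : Integrable (fun g : EE n => g i) (stdGaussian (EE n)) := by
  have h := hsP_integrable 1 (0 : EE n) (Pi.single i 1)
  simpa only [hsP_single, zero_add] using h

theorem metx_coord_mul_integrable (i l : Fin n) :
    Integrable (fun g : EE n => g i * g l) (stdGaussian (EE n)) := by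
  have h := hsP_coord_integrable 1 (0 : EE n) (Pi.single l 1) i
  simpa only [hsP_single, zero_add] using h

theorem metx_coord_mean (i : Fin n) : ∫ g : EE n, g i ∂(stdGaussian (EE n)) = 0 := by
  have h := hsP_first 0 (0 : EE n) (fun _ => 0) i
  simpa only [hsP_zero_idx, mul_one, Nat.cast_zero, zero_mul] using h

theorem metx_coord_cov (i l : Fin n) :
    ∫ g : EE n, g i * g l ∂(stdGaussian (EE n)) = if i = l then 1 else 0 := by
  have h := hsP_first 0 (0 : EE n) (Pi.single l 1) i
  simp only [hsP_single, zero_add] at h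
  rw [h]
  by_cases hil : i = l
  · subst hil
    have h2 : Function.update (Pi.single i 1 : Fin n → ℕ) i ((Pi.single i 1 : Fin n → ℕ) i - 1) = fun _ => 0 := by
      funext m
      by_cases hm : m = i
      · subst hm; simp
      · simp [Function.update_of_ne hm, Pi.single_eq_of_ne hm]
    rw [h2, hsP_zero_idx]
    simp
  · simp [hil]

theorem metx_coord_memLp (i : Fin n) : MemLp (fun g : EE n => g i) 2 (stdGaussian (EE n)) := by
  rw [memLp_two_iff_integrable_sq (by fun_prop)]
  simpa only [sq] using metx_coord_mul_integrable i i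

/-! ### projection on the chaos of order at most one -/

theorem metx_proj {A : EE n → ℝ} (hA : MemLp A 2 (stdGaussian (EE n))) {p : ℝ} {e : Fin n → ℝ}
    (hp : ∫ g, A g ∂(stdGaussian (EE n)) = p) (he : ∀ i, ∫ g, g i * A g ∂(stdGaussian (EE n)) = e i) :
    ∫ g, (A g - p - ∑ i, e i * g i) ^ 2 ∂(stdGaussian (EE n))
      = (∫ g, A g ^ 2 ∂(stdGaussian (EE n))) - p ^ 2 - ∑ i, e i ^ 2 := by
  have iA2 : Integrable (fun g => A g ^ 2) (stdGaussian (EE n)) := hA.integrable_sq
  have iA : Integrable A (stdGaussian (EE n)) := hA.integrable one_le_two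
  have igA : ∀ i, Integrable (fun g : EE n => g i * A g) (stdGaussian (EE n)) := fun i =>
    (metx_coord_memLp i).integrable_mul hA
  have hexp : ∀ g : EE n, (A g - p - ∑ i, e i * g i) ^ 2
      = A g ^ 2 + ((-(2 * p)) * A g + (p ^ 2 + ((-2) * ∑ i, e i * (g i * A g) + (2 * p * ∑ i, e i * g i
        + ∑ i, ∑ l, e i * e l * (g i * g l))))) := by
    intro g
    have h1 : ∑ i, e i * (g i * A g) = (∑ i, e i * g i) * A g := by
      rw [Finset.sum_mul]
      exact Finset.sum_congr rfl fun i _ => by ring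
    have h2 : ∑ i, ∑ l, e i * e l * (g i * g l) = (∑ i, e i * g i) * (∑ i, e i * g i) := by
      rw [Finset.sum_mul_sum]
      exact Finset.sum_congr rfl fun i _ => Finset.sum_congr rfl fun l _ => by ring
    rw [h1, h2]
    ring
  simp only [hexp]
  have i1 : Integrable (fun g => (-(2 * p)) * A g) (stdGaussian (EE n)) := iA.const_mul _
  have i2 : Integrable (fun _ : EE n => p ^ 2) (stdGaussian (EE n)) := integrable_const _
  have i3 : Integrable (fun g : EE n => (-2) * ∑ i, e i * (g i * A g)) (stdGaussian (EE n)) :=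
    (integrable_finset_sum _ fun i _ => (igA i).const_mul _).const_mul _
  have i4 : Integrable (fun g : EE n => 2 * p * ∑ i, e i * g i) (stdGaussian (EE n)) :=
    (integrable_finset_sum _ fun i _ => (metx_coord_integrable i).const_mul _).const_mul _
  have i5 : Integrable (fun g : EE n => ∑ i, ∑ l, e i * e l * (g i * g l)) (stdGaussian (EE n)) :=
    integrable_finset_sum _ fun i _ => integrable_finset_sum _ fun l _ =>
      (metx_coord_mul_integrable i l).const_mul _
  have i45 : Integrable (fun g : EE n => 2 * p * ∑ i, e i * g i + ∑ i, ∑ l, e i * e l * (g i * g l))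
      (stdGaussian (EE n)) := i4.add i5
  have i345 : Integrable (fun g : EE n => (-2) * ∑ i, e i * (g i * A g) + (2 * p * ∑ i, e i * g i
      + ∑ i, ∑ l, e i * e l * (g i * g l))) (stdGaussian (EE n)) := i3.add i45
  have i2345 : Integrable (fun g : EE n => p ^ 2 + ((-2) * ∑ i, e i * (g i * A g) + (2 * p * ∑ i, e i * g i
      + ∑ i, ∑ l, e i * e l * (g i * g l)))) (stdGaussian (EE n)) := i2.add i345
  have i12345 : Integrable (fun g : EE n => (-(2 * p)) * A g + (p ^ 2 + ((-2) * ∑ i, e i * (g i * A g)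
      + (2 * p * ∑ i, e i * g i + ∑ i, ∑ l, e i * e l * (g i * g l))))) (stdGaussian (EE n)) := i1.add i2345
  rw [integral_add iA2 i12345, integral_add i1 i2345, integral_add i2 i345, integral_add i3 i45,
    integral_add i4 i5, integral_const_mul, integral_const_mul, integral_const_mul,
    integral_finset_sum _ fun i _ => (igA i).const_mul _,
    integral_finset_sum _ fun i _ => (metx_coord_integrable i).const_mul _,
    integral_finset_sum _ fun i _ => integrable_finset_sum _ fun l _ =>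
      (metx_coord_mul_integrable i l).const_mul _]
  have h6 : ∀ i, ∫ g : EE n, ∑ l, e i * e l * (g i * g l) ∂(stdGaussian (EE n)) = e i ^ 2 := by
    intro i
    rw [integral_finset_sum _ fun l _ => (metx_coord_mul_integrable i l).const_mul _]
    simp only [integral_const_mul, metx_coord_cov]
    simp [sq]
  simp only [h6, integral_const_mul, metx_coord_mean, mul_zero, Finset.sum_const_zero, he, hp]
  simp only [integral_const, probReal_univ, one_smul, ← sq]
  ring

theorem metx_lin_memLp (e : Fin n → ℝ) :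
    MemLp (fun g : EE n => ∑ i, e i * g i) 2 (stdGaussian (EE n)) :=
  memLp_finset_sum _ fun i _ => (metx_coord_memLp i).const_mul _

/-! ### the shift of a coefficient -/

section Shift

variable {ι : Type}

theorem metx_shiftC_apply {j : ℕ} (c : EuclideanSpace ℝ (ι × Idx n (j + 1))) (a : ι) (i : Fin n) (β : Idx n j) :
    shiftC c ((a, i), β) = c (a, consI i β) := rfl

theorem metx_shiftC_sym {j : ℕ} {c : EuclideanSpace ℝ (ι × Idx n (j + 1))} (hc : CoefSym c) :
    CoefSym (shiftC c) := by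
  rintro σ ⟨a, i⟩ β
  exact (hc.idxSym a).consI i σ β

theorem metx_shiftC_norm_sq [Fintype ι] {j : ℕ} (c : EuclideanSpace ℝ (ι × Idx n (j + 1))) :
    ‖shiftC c‖ ^ 2 = ‖c‖ ^ 2 := by
  rw [EuclideanSpace.real_norm_sq_eq, EuclideanSpace.real_norm_sq_eq, Fintype.sum_prod_type,
    Fintype.sum_prod_type, Fintype.sum_prod_type]
  refine Finset.sum_congr rfl fun a _ => ?_
  rw [sum_idx_insI 0 fun β => c (a, β) ^ 2]
  simp only [insI_zero]
  rfl

end Shift

/-! ### the remainder of order at least two, for a fixed coefficient -/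

section Rem

variable {ι : Type} [Fintype ι]

omit [Fintype ι] in
theorem apv_apply (d : EuclideanSpace ℝ (ι × Fin n)) (g : EE n) (a : ι) : apv d g a = ∑ i, d (a, i) * g i := rfl

omit [Fintype ι] in
theorem hcon_comp_memLp {j : ℕ} (c : EuclideanSpace ℝ (ι × Idx n j)) (κ κ' : ℝ) (s : EE n) (a : ι) :
    MemLp (fun g : EE n => hcon c (Hs j κ (s + g)) a) 2 (gaussK n κ') := by
  simp only [hcon_apply]
  exact memLp_finset_sum _ fun β _ => ((Hs_memLp j κ κ' s 2).eval_piLp β).const_mul _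

theorem hcon_sq_integrable {j : ℕ} (c : EuclideanSpace ℝ (ι × Idx n j)) (κ κ' : ℝ) (s : EE n) :
    Integrable (fun g : EE n => ‖hcon c (Hs j κ (s + g))‖ ^ 2) (gaussK n κ') := by
  simp only [EuclideanSpace.real_norm_sq_eq]
  exact integrable_finset_sum _ fun a _ => (hcon_comp_memLp c κ κ' s a).integrable_sq

omit [Fintype ι] in
theorem hcon_mean {j : ℕ} (c : EuclideanSpace ℝ (ι × Idx n j)) (κ : ℝ) (s : EE n) (a : ι) :
    ∫ g, hcon c (Hs j (κ + 1) (s + g)) a ∂(stdGaussian (EE n)) = hcon c (Hs j κ s) a := by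
  simp only [hcon_apply, Hs_apply]
  rw [integral_finset_sum _ fun β _ => (hsP_integrable _ _ _).const_mul _]
  simp only [integral_const_mul, hsP_mean]

/-- the part of `c : Hs (j+1) (κ+1) (s+g)` of order at least two in `g` -/
noncomputable def metR {j : ℕ} (c : EuclideanSpace ℝ (ι × Idx n (j + 1))) (κ : ℝ) (s g : EE n) :
    EuclideanSpace ℝ ι :=
  hcon c (Hs (j + 1) (κ + 1) (s + g)) - hcon c (Hs (j + 1) κ s)
    - ((j : ℝ) + 1) • apv (hcon (shiftC c) (Hs j κ s)) g

omit [Fintype ι] in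
theorem metR_apply {j : ℕ} (c : EuclideanSpace ℝ (ι × Idx n (j + 1))) (κ : ℝ) (s g : EE n) (a : ι) :
    metR c κ s g a = hcon c (Hs (j + 1) (κ + 1) (s + g)) a - hcon c (Hs (j + 1) κ s) a
      - ∑ i, (((j : ℝ) + 1) * hcon (shiftC c) (Hs j κ s) (a, i)) * g i := by
  unfold metR
  rw [PiLp.sub_apply, PiLp.sub_apply, PiLp.smul_apply, apv_apply, smul_eq_mul, Finset.mul_sum]
  congr 1
  exact Finset.sum_congr rfl fun i _ => by ring

omit [Fintype ι] in
theorem metR_comp_memLp {j : ℕ} (c : EuclideanSpace ℝ (ι × Idx n (j + 1))) (κ : ℝ) (s : EE n) (a : ι) :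
    MemLp (fun g : EE n => metR c κ s g a) 2 (stdGaussian (EE n)) := by
  simp only [metR_apply]
  have h1 := hcon_comp_memLp c (κ + 1) 1 s a
  rw [gaussK_one] at h1
  exact (h1.sub (memLp_const _)).sub (metx_lin_memLp _)

theorem metR_sq_integrable {j : ℕ} (c : EuclideanSpace ℝ (ι × Idx n (j + 1))) (κ : ℝ) (s : EE n) :
    Integrable (fun g : EE n => ‖metR c κ s g‖ ^ 2) (stdGaussian (EE n)) := by
  simp only [EuclideanSpace.real_norm_sq_eq]
  exact integrable_finset_sum _ fun a _ => (metR_comp_memLp c κ s a).integrable_sq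

theorem metR_norm_g {j : ℕ} {c : EuclideanSpace ℝ (ι × Idx n (j + 1))} (hc : CoefSym c) (κ : ℝ) (s : EE n) :
    ∫ g, ‖metR c κ s g‖ ^ 2 ∂(stdGaussian (EE n))
      = (∫ g, ‖hcon c (Hs (j + 1) (κ + 1) (s + g))‖ ^ 2 ∂(stdGaussian (EE n)))
        - ‖hcon c (Hs (j + 1) κ s)‖ ^ 2 - ((j : ℝ) + 1) ^ 2 * ‖hcon (shiftC c) (Hs j κ s)‖ ^ 2 := by
  have hm : ∀ a, MemLp (fun g : EE n => hcon c (Hs (j + 1) (κ + 1) (s + g)) a) 2 (stdGaussian (EE n)) := by
    intro a
    have h1 := hcon_comp_memLp c (κ + 1) 1 s a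
    rwa [gaussK_one] at h1
  simp only [EuclideanSpace.real_norm_sq_eq]
  rw [integral_finset_sum _ fun a _ => (metR_comp_memLp c κ s a).integrable_sq,
    integral_finset_sum _ fun a _ => (hm a).integrable_sq, Fintype.sum_prod_type, Finset.mul_sum,
    ← Finset.sum_sub_distrib, ← Finset.sum_sub_distrib]
  refine Finset.sum_congr rfl fun a _ => ?_
  simp only [metR_apply]
  rw [metx_proj (hm a) (hcon_mean c κ s a) fun i => Hs_first j κ s hc i a, Finset.mul_sum]
  congr 1
  exact Finset.sum_congr rfl fun i _ => by ring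

theorem metx_integral_add {κ : ℝ} (hκ : 0 ≤ κ) {Ψ : EE n → ℝ} (hΨ : Integrable Ψ (gaussK n (κ + 1))) :
    Integrable (fun s => ∫ g, Ψ (s + g) ∂(stdGaussian (EE n))) (gaussK n κ) ∧
      ∫ s, ∫ g, Ψ (s + g) ∂(stdGaussian (EE n)) ∂(gaussK n κ) = ∫ x, Ψ x ∂(gaussK n (κ + 1)) := by
  have := gaussK_prob n κ
  rw [← gaussK_add n hκ] at hΨ ⊢
  have h1 : Integrable (fun p : EE n × EE n => Ψ (p.1 + p.2)) ((gaussK n κ).prod (stdGaussian (EE n))) :=
    (integrable_map_measure hΨ.aestronglyMeasurable (by fun_prop)).1 hΨ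
  refine ⟨h1.integral_prod_left, ?_⟩
  rw [integral_map (by fun_prop) hΨ.aestronglyMeasurable, integral_prod _ h1]

theorem metR_norm {j : ℕ} {c : EuclideanSpace ℝ (ι × Idx n (j + 1))} (hc : CoefSym c) {κ : ℝ} (hκ : 0 ≤ κ) :
    Integrable (fun s => ∫ g, ‖metR c κ s g‖ ^ 2 ∂(stdGaussian (EE n))) (gaussK n κ) ∧
    ∫ s, ∫ g, ‖metR c κ s g‖ ^ 2 ∂(stdGaussian (EE n)) ∂(gaussK n κ)
      = ((j + 1).factorial : ℝ) * ((κ + 1) ^ (j + 1) - κ ^ (j + 1) - ((j : ℝ) + 1) * κ ^ j) * ‖c‖ ^ 2 := by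
  simp only [metR_norm_g hc]
  have hz : ∀ {j' : ℕ} (c' : EuclideanSpace ℝ (ι × Idx n j')) (κ₁ κ₂ : ℝ),
      Integrable (fun s : EE n => ‖hcon c' (Hs j' κ₁ s)‖ ^ 2) (gaussK n κ₂) := by
    intro j' c' κ₁ κ₂
    simpa only [zero_add] using hcon_sq_integrable c' κ₁ κ₂ 0
  have hz' : Integrable (fun s : EE n => ‖hcon (shiftC c) (Hs j κ s)‖ ^ 2) (gaussK n κ) := by
    simpa only [zero_add] using hcon_sq_integrable (shiftC c) κ κ 0
  obtain ⟨i1, e1⟩ := metx_integral_add hκ (hz c (κ + 1) (κ + 1))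
  have i2 := hz c κ κ
  have i3 := hz'.const_mul (((j : ℝ) + 1) ^ 2)
  have i12 : Integrable (fun s => (∫ g, ‖hcon c (Hs (j + 1) (κ + 1) (s + g))‖ ^ 2 ∂(stdGaussian (EE n)))
      - ‖hcon c (Hs (j + 1) κ s)‖ ^ 2) (gaussK n κ) := i1.sub i2
  refine ⟨i12.sub i3, ?_⟩
  rw [integral_sub i12 i3, integral_sub i1 i2, e1, integral_const_mul,
    Hs_isometry (j + 1) (by linarith) hc, Hs_isometry (j + 1) hκ hc, Hs_isometry j hκ (metx_shiftC_sym hc),
    metx_shiftC_norm_sq, Nat.factorial_succ]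
  push_cast
  ring

end Rem

/-! ### the decomposition of `metX` -/

section Dec

variable {ι : Type} [Fintype ι]

/-- the scalar coefficient of order `j` at time `k` -/
noncomputable def metCo (h : ℝ) (j k : ℕ) : ℝ :=
  Real.sqrt (2 * h) ^ j * (1 - h) ^ k / (1 - h) ^ j / (j.factorial : ℝ)

omit [Fintype ι] in
theorem metM_eq (h : ℝ) (M k : ℕ) (F : CoefFam n ι) (y0 s : EE n) :
    metM h M k F y0 s = ∑ j ∈ Finset.range M, metCo h j k • hcon (F j y0) (Hs j k s) := rfl

theorem metCo_succ_time (h : ℝ) (j k : ℕ) : metCo h j (k + 1) = (1 - h) * metCo h j k := by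
  unfold metCo
  rw [pow_succ]
  ring

theorem metCo_succ_succ {h : ℝ} (hh : 1 - h ≠ 0) (j k : ℕ) :
    metCo h (j + 1) (k + 1) * ((j : ℝ) + 1) = Real.sqrt (2 * h) * metCo h j k := by
  unfold metCo
  rw [Nat.factorial_succ]
  push_cast
  have h1 : ((j : ℝ) + 1) ≠ 0 := by positivity
  have h2 : (j.factorial : ℝ) ≠ 0 := by positivity
  field_simp
  ring

omit [Fintype ι] in
theorem apv_sum_smul (S : Finset ℕ) (a : ℕ → ℝ) (d : ℕ → EuclideanSpace ℝ (ι × Fin n)) (g : EE n) :
    apv (∑ j ∈ S, a j • d j) g = ∑ j ∈ S, a j • apv (d j) g := by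
  ext b
  simp only [apv_apply, WithLp.ofLp_sum, Finset.sum_apply, WithLp.ofLp_smul, Pi.smul_apply, smul_eq_mul,
    Finset.sum_mul, Finset.mul_sum]
  rw [Finset.sum_comm]
  exact Finset.sum_congr rfl fun j _ => Finset.sum_congr rfl fun i _ => by ring

theorem Hs_zero_eq (κ κ' : ℝ) (s s' : EE n) : Hs 0 κ s = Hs 0 κ' s' := by
  ext β
  rw [Hs_zero, Hs_zero]

omit [Fintype ι] in
theorem metX_eq {h : ℝ} (hh : 1 - h ≠ 0) (M k : ℕ) (F : CoefFam n ι) (y0 s g : EE n) :
    metX h M k F y0 s g = ∑ j ∈ Finset.range M, metCo h (j + 1) (k + 1) • metR (F (j + 1) y0) k s g := by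
  unfold metX
  rw [metM_eq, metM_eq, metM_eq, Finset.sum_range_succ', Finset.sum_range_succ', apv_sum_smul, smul_add,
    Finset.smul_sum, Finset.smul_sum, Hs_zero_eq ((k + 1 : ℕ) : ℝ) k (s + g) s, smul_smul (1 - h) (metCo h 0 k),
    ← metCo_succ_time]
  rw [add_sub_add_right_eq_sub, ← Finset.sum_sub_distrib, ← Finset.sum_sub_distrib]
  refine Finset.sum_congr rfl fun j _ => ?_
  unfold metR
  rw [smul_smul, smul_smul, ← metCo_succ_time, ← metCo_succ_succ hh, Nat.cast_succ]
  simp only [shiftF]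
  module

theorem hcon_integrable_vec {j : ℕ} (c : EuclideanSpace ℝ (ι × Idx n j)) (κ : ℝ) (s : EE n) :
    Integrable (fun g : EE n => hcon c (Hs j κ (s + g))) (stdGaussian (EE n)) := by
  refine Integrable.of_eval_piLp fun a => ?_
  have h1 := hcon_comp_memLp c κ 1 s a
  rw [gaussK_one] at h1
  exact h1.integrable one_le_two

theorem hcon_mean_vec {j : ℕ} (c : EuclideanSpace ℝ (ι × Idx n j)) (κ : ℝ) (s : EE n) :
    ∫ g, hcon c (Hs j (κ + 1) (s + g)) ∂(stdGaussian (EE n)) = hcon c (Hs j κ s) := by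
  ext a
  rw [eval_integral_piLp fun a => (hcon_integrable_vec c (κ + 1) s).eval_piLp a]
  exact hcon_mean c κ s a

theorem apv_integrable (d : EuclideanSpace ℝ (ι × Fin n)) :
    Integrable (fun g : EE n => apv d g) (stdGaussian (EE n)) :=
  Integrable.of_eval_piLp fun a => (metx_lin_memLp fun i => d (a, i)).integrable one_le_two

theorem apv_mean (d : EuclideanSpace ℝ (ι × Fin n)) :
    ∫ g : EE n, apv d g ∂(stdGaussian (EE n)) = 0 := by
  ext a
  rw [eval_integral_piLp fun a => (apv_integrable d).eval_piLp a]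
  simp only [apv_apply]
  rw [integral_finset_sum _ fun i _ => (metx_coord_integrable i).const_mul _]
  simp [integral_const_mul, metx_coord_mean]

end Dec

/-! ## Block X: the exports -/

section X
variable {ι : Type} [Fintype ι]

theorem metX_mean (h : ℝ) (M k : ℕ) (F : CoefFam n ι) (hsym : ∀ j y, CoefSym (F j y))
    (y0 s : EE n) : ∫ g, metX h M k F y0 s g ∂(stdGaussian (EE n)) = 0 := by
  unfold metX
  have i4 : ∀ j, Integrable (fun g : EE n => metCo h j (k + 1) • hcon (F j y0) (Hs j ((k + 1 : ℕ) : ℝ) (s + g)))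
      (stdGaussian (EE n)) := fun j => (hcon_integrable_vec (F j y0) _ s).smul (metCo h j (k + 1))
  have i1 : Integrable (fun g : EE n => metM h (M + 1) (k + 1) F y0 (s + g)) (stdGaussian (EE n)) := by
    simp only [metM_eq]
    exact integrable_finset_sum _ fun j _ => i4 j
  have i2 : Integrable (fun _ : EE n => (1 - h) • metM h (M + 1) k F y0 s) (stdGaussian (EE n)) :=
    integrable_const _
  have i3 : Integrable (fun g : EE n => Real.sqrt (2 * h) • apv (metM h M k (shiftF F) y0 s) g)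
      (stdGaussian (EE n)) := (apv_integrable (metM h M k (shiftF F) y0 s)).smul (Real.sqrt (2 * h))
  have i12 : Integrable (fun g : EE n => metM h (M + 1) (k + 1) F y0 (s + g)
      - (1 - h) • metM h (M + 1) k F y0 s) (stdGaussian (EE n)) := i1.sub i2
  rw [integral_sub i12 i3, integral_sub i1 i2, integral_smul (Real.sqrt (2 * h)), apv_mean, smul_zero, sub_zero]
  simp only [metM_eq]
  rw [integral_finset_sum _ fun j _ => i4 j]
  simp only [integral_smul, Nat.cast_succ, hcon_mean_vec, integral_const, probReal_univ,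
    Finset.smul_sum, smul_smul, ← metCo_succ_time, one_mul, sub_self]

/-- `(κ+1)^m - κ^m - m κ^(m-1) ≤ m² (κ+1)^(m-2)`, `m = j + 2` -/
theorem metx_rho_le {κ : ℝ} (hκ : 0 ≤ κ) (j : ℕ) :
    (κ + 1) ^ (j + 2) - κ ^ (j + 2) - ((j : ℝ) + 2) * κ ^ (j + 1) ≤ ((j : ℝ) + 2) ^ 2 * (κ + 1) ^ j := by
  induction j with
  | zero =>
    have h0 : (κ + 1) ^ (0 + 2) - κ ^ (0 + 2) - (((0 : ℕ) : ℝ) + 2) * κ ^ (0 + 1) = 1 := by
      push_cast
      ring
    rw [h0]
    norm_num
  | succ j ih =>
    have h1 : κ ^ (j + 1) ≤ (κ + 1) ^ (j + 1) := pow_le_pow_left₀ hκ (by linarith) _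
    have h2 : (0 : ℝ) ≤ (κ + 1) ^ (j + 1) := by positivity
    have h3 : (κ + 1) ^ (j + 1 + 2) - κ ^ (j + 1 + 2) - (((j + 1 : ℕ) : ℝ) + 2) * κ ^ (j + 1 + 1)
        = (κ + 1) * ((κ + 1) ^ (j + 2) - κ ^ (j + 2) - ((j : ℝ) + 2) * κ ^ (j + 1))
          + ((j : ℝ) + 2) * κ ^ (j + 1) := by
      push_cast
      ring
    rw [h3]
    have h4 : (κ + 1) * ((κ + 1) ^ (j + 2) - κ ^ (j + 2) - ((j : ℝ) + 2) * κ ^ (j + 1))
        ≤ (κ + 1) * (((j : ℝ) + 2) ^ 2 * (κ + 1) ^ j) := mul_le_mul_of_nonneg_left ih (by linarith)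
    have h5 : ((j : ℝ) + 2) * κ ^ (j + 1) ≤ ((j : ℝ) + 2) * (κ + 1) ^ (j + 1) :=
      mul_le_mul_of_nonneg_left h1 (by positivity)
    have h6 : (κ + 1) * (((j : ℝ) + 2) ^ 2 * (κ + 1) ^ j) + ((j : ℝ) + 2) * (κ + 1) ^ (j + 1)
        = (((j : ℝ) + 2) ^ 2 + ((j : ℝ) + 2)) * (κ + 1) ^ (j + 1) := by ring
    have h7 : (((j : ℝ) + 2) ^ 2 + ((j : ℝ) + 2)) * (κ + 1) ^ (j + 1)
        ≤ (((j + 1 : ℕ) : ℝ) + 2) ^ 2 * (κ + 1) ^ (j + 1) := by
      refine mul_le_mul_of_nonneg_right ?_ h2
      push_cast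
      nlinarith [(Nat.cast_nonneg j : (0 : ℝ) ≤ j)]
    linarith

theorem metCo_sq_le {h : ℝ} (hh : 0 < h) (hh2 : h ≤ 1 / 2) (m k : ℕ) :
    metCo h m k ^ 2 ≤ (8 * h) ^ m / (m.factorial : ℝ) ^ 2 := by
  have hq0 : 0 < 1 - h := by linarith
  have hq1 : 1 - h ≤ 1 := by linarith
  have h1 : metCo h m k = Real.sqrt (2 * h) ^ m * (1 - h) ^ k * ((1 - h)⁻¹) ^ m / (m.factorial : ℝ) := by
    unfold metCo
    rw [inv_pow, div_eq_mul_inv (Real.sqrt (2 * h) ^ m * (1 - h) ^ k)]
  have h2 : (1 - h)⁻¹ ≤ 2 := by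
    rw [inv_le_comm₀ hq0 two_pos]
    linarith
  have h3 : (1 - h) ^ k ≤ 1 := pow_le_one₀ hq0.le hq1
  have h4 : ((1 - h)⁻¹) ^ m ≤ 2 ^ m := pow_le_pow_left₀ (inv_nonneg.2 hq0.le) h2 _
  have h5 : 0 ≤ Real.sqrt (2 * h) ^ m := by positivity
  have h6 : Real.sqrt (2 * h) ^ m * (1 - h) ^ k * ((1 - h)⁻¹) ^ m ≤ Real.sqrt (2 * h) ^ m * 1 * 2 ^ m := by
    gcongr
  have h7 : 0 ≤ Real.sqrt (2 * h) ^ m * (1 - h) ^ k * ((1 - h)⁻¹) ^ m := by positivity
  rw [h1, div_pow]
  refine div_le_div_of_nonneg_right ?_ (by positivity)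
  calc (Real.sqrt (2 * h) ^ m * (1 - h) ^ k * ((1 - h)⁻¹) ^ m) ^ 2
      ≤ (Real.sqrt (2 * h) ^ m * 1 * 2 ^ m) ^ 2 := pow_le_pow_left₀ h7 h6 2
    _ = (Real.sqrt (2 * h) ^ 2) ^ m * 4 ^ m := by
        rw [mul_one, mul_pow, ← pow_mul, ← pow_mul, ← pow_mul, mul_comm m 2, pow_mul 2 2 m]
        norm_num
    _ = (8 * h) ^ m := by
        rw [Real.sq_sqrt (by positivity), ← mul_pow]
        congr 1
        ring

theorem metx_coef_bound {t h : ℝ} (hh : 0 < h) (hh2 : h ≤ 1 / 2) (k j : ℕ) (hk : ((k : ℝ) + 1) * h ≤ t) :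
    metCo h (j + 1) (k + 1) ^ 2 * (((j + 1).factorial : ℝ)
        * (((k : ℝ) + 1) ^ (j + 1) - (k : ℝ) ^ (j + 1) - ((j : ℝ) + 1) * (k : ℝ) ^ j))
      ≤ h ^ 2 * (64 * (8 * t) ^ (j - 1) * ((j : ℝ) + 1) ^ 2) := by
  have hk0 : (0 : ℝ) ≤ k := Nat.cast_nonneg k
  have ht : 0 ≤ t := le_trans (by positivity) hk
  cases j with
  | zero =>
    have : ((k : ℝ) + 1) ^ (0 + 1) - (k : ℝ) ^ (0 + 1) - (((0 : ℕ) : ℝ) + 1) * (k : ℝ) ^ 0 = 0 := by
      simp
    rw [this, mul_zero, mul_zero]
    positivity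
  | succ j =>
    have hfac : (0 : ℝ) < ((j + 1 + 1).factorial : ℝ) := by positivity
    have hfac1 : (1 : ℝ) ≤ ((j + 1 + 1).factorial : ℝ) := by
      exact_mod_cast Nat.succ_le_of_lt (Nat.factorial_pos _)
    have h1 := metCo_sq_le hh hh2 (j + 1 + 1) (k + 1)
    have h2 := metx_rho_le hk0 j
    have h2' : ((k : ℝ) + 1) ^ (j + 1 + 1) - (k : ℝ) ^ (j + 1 + 1) - (((j + 1 : ℕ) : ℝ) + 1) * (k : ℝ) ^ (j + 1)
        ≤ ((j : ℝ) + 2) ^ 2 * ((k : ℝ) + 1) ^ j := by
      have : (((j + 1 : ℕ) : ℝ) + 1) = (j : ℝ) + 2 := by push_cast; ring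
      rw [this]
      exact h2
    have h3 : (0 : ℝ) ≤ ((j : ℝ) + 2) ^ 2 * ((k : ℝ) + 1) ^ j := by positivity
    calc metCo h (j + 1 + 1) (k + 1) ^ 2 * (((j + 1 + 1).factorial : ℝ)
          * (((k : ℝ) + 1) ^ (j + 1 + 1) - (k : ℝ) ^ (j + 1 + 1) - (((j + 1 : ℕ) : ℝ) + 1) * (k : ℝ) ^ (j + 1)))
        ≤ metCo h (j + 1 + 1) (k + 1) ^ 2 * (((j + 1 + 1).factorial : ℝ)
          * (((j : ℝ) + 2) ^ 2 * ((k : ℝ) + 1) ^ j)) := by gcongr
      _ ≤ ((8 * h) ^ (j + 1 + 1) / ((j + 1 + 1).factorial : ℝ) ^ 2) * (((j + 1 + 1).factorial : ℝ)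
          * (((j : ℝ) + 2) ^ 2 * ((k : ℝ) + 1) ^ j)) := by gcongr
      _ = (8 * h) ^ (j + 1 + 1) * (((j : ℝ) + 2) ^ 2 * ((k : ℝ) + 1) ^ j) / ((j + 1 + 1).factorial : ℝ) := by
          field_simp
      _ ≤ (8 * h) ^ (j + 1 + 1) * (((j : ℝ) + 2) ^ 2 * ((k : ℝ) + 1) ^ j) :=
          div_le_self (by positivity) hfac1
      _ = h ^ 2 * (64 * (8 * (((k : ℝ) + 1) * h)) ^ j * ((j : ℝ) + 2) ^ 2) := by
          rw [mul_pow 8 (((k : ℝ) + 1) * h), mul_pow ((k : ℝ) + 1) h]
          ring
      _ ≤ h ^ 2 * (64 * (8 * t) ^ j * ((j : ℝ) + 2) ^ 2) := by gcongr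
      _ = h ^ 2 * (64 * (8 * t) ^ (j + 1 - 1) * (((j + 1 : ℕ) : ℝ) + 1) ^ 2) := by
          rw [Nat.add_sub_cancel]
          push_cast
          ring

theorem metx_norm_sq_sum_le (M : ℕ) (v : ℕ → EuclideanSpace ℝ ι) :
    ‖∑ j ∈ Finset.range M, v j‖ ^ 2 ≤ M * ∑ j ∈ Finset.range M, ‖v j‖ ^ 2 := by
  calc ‖∑ j ∈ Finset.range M, v j‖ ^ 2 ≤ (∑ j ∈ Finset.range M, ‖v j‖) ^ 2 :=
        pow_le_pow_left₀ (norm_nonneg _) (norm_sum_le _ _) 2
    _ ≤ M * ∑ j ∈ Finset.range M, ‖v j‖ ^ 2 := by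
        have := sq_sum_le_card_mul_sum_sq (s := Finset.range M) (f := fun j => ‖v j‖)
        simpa using this

/-- the estimate for a fixed starting point -/
theorem metX_norm_pt {t h : ℝ} (hh : 0 < h) (hh2 : h ≤ 1 / 2) (M k : ℕ) (hk : ((k : ℝ) + 1) * h ≤ t)
    (F : CoefFam n ι) (hsym : ∀ j y, CoefSym (F j y)) (y0 : EE n) :
    ∫ s, ∫ g, ‖metX h M k F y0 s g‖ ^ 2 ∂(stdGaussian (EE n)) ∂(gaussK n k)
      ≤ h ^ 2 * (M * ∑ j ∈ Finset.range M, 64 * (8 * t) ^ (j - 1) * ((j : ℝ) + 1) ^ 2 * ‖F (j + 1) y0‖ ^ 2) := by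
  have hq : 1 - h ≠ 0 := by linarith
  have hk0 : (0 : ℝ) ≤ k := Nat.cast_nonneg k
  -- bound for fixed `s`
  have h1 : ∀ s, ∫ g, ‖metX h M k F y0 s g‖ ^ 2 ∂(stdGaussian (EE n))
      ≤ M * ∑ j ∈ Finset.range M, metCo h (j + 1) (k + 1) ^ 2
          * ∫ g, ‖metR (F (j + 1) y0) k s g‖ ^ 2 ∂(stdGaussian (EE n)) := by
    intro s
    have i1 : ∀ j, Integrable (fun g : EE n => metCo h (j + 1) (k + 1) ^ 2 * ‖metR (F (j + 1) y0) k s g‖ ^ 2)
        (stdGaussian (EE n)) := fun j => (metR_sq_integrable _ _ _).const_mul _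
    have i2 : Integrable (fun g : EE n => (M : ℝ) * ∑ j ∈ Finset.range M,
        metCo h (j + 1) (k + 1) ^ 2 * ‖metR (F (j + 1) y0) k s g‖ ^ 2) (stdGaussian (EE n)) :=
      (integrable_finset_sum _ fun j _ => i1 j).const_mul _
    calc ∫ g, ‖metX h M k F y0 s g‖ ^ 2 ∂(stdGaussian (EE n))
        ≤ ∫ g, (M : ℝ) * ∑ j ∈ Finset.range M,
            metCo h (j + 1) (k + 1) ^ 2 * ‖metR (F (j + 1) y0) k s g‖ ^ 2 ∂(stdGaussian (EE n)) := by
          refine integral_mono_of_nonneg (Filter.Eventually.of_forall fun g => by positivity) i2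
            (Filter.Eventually.of_forall fun g => ?_)
          beta_reduce
          rw [metX_eq hq]
          refine (metx_norm_sq_sum_le M _).trans (le_of_eq ?_)
          congr 1
          refine Finset.sum_congr rfl fun j _ => ?_
          rw [norm_smul, mul_pow, Real.norm_eq_abs, sq_abs]
      _ = _ := by
          rw [integral_const_mul, integral_finset_sum _ fun j _ => i1 j]
          simp only [integral_const_mul]
  have i3 : ∀ j, Integrable (fun s => metCo h (j + 1) (k + 1) ^ 2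
      * ∫ g, ‖metR (F (j + 1) y0) k s g‖ ^ 2 ∂(stdGaussian (EE n))) (gaussK n k) := fun j =>
    (metR_norm (hsym (j + 1) y0) hk0).1.const_mul _
  have i4 : Integrable (fun s => (M : ℝ) * ∑ j ∈ Finset.range M, metCo h (j + 1) (k + 1) ^ 2
      * ∫ g, ‖metR (F (j + 1) y0) k s g‖ ^ 2 ∂(stdGaussian (EE n))) (gaussK n k) :=
    (integrable_finset_sum _ fun j _ => i3 j).const_mul _
  calc ∫ s, ∫ g, ‖metX h M k F y0 s g‖ ^ 2 ∂(stdGaussian (EE n)) ∂(gaussK n k)
      ≤ ∫ s, (M : ℝ) * ∑ j ∈ Finset.range M, metCo h (j + 1) (k + 1) ^ 2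
          * ∫ g, ‖metR (F (j + 1) y0) k s g‖ ^ 2 ∂(stdGaussian (EE n)) ∂(gaussK n k) :=
        integral_mono_of_nonneg (Filter.Eventually.of_forall fun s => integral_nonneg fun g => by positivity) i4
          (Filter.Eventually.of_forall h1)
    _ = M * ∑ j ∈ Finset.range M, metCo h (j + 1) (k + 1) ^ 2 * (((j + 1).factorial : ℝ)
          * (((k : ℝ) + 1) ^ (j + 1) - (k : ℝ) ^ (j + 1) - ((j : ℝ) + 1) * (k : ℝ) ^ j)) * ‖F (j + 1) y0‖ ^ 2 := by
        rw [integral_const_mul, integral_finset_sum _ fun j _ => i3 j]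
        simp only [integral_const_mul, (metR_norm (hsym _ y0) hk0).2]
        congr 1
        exact Finset.sum_congr rfl fun j _ => by ring
    _ ≤ M * ∑ j ∈ Finset.range M, h ^ 2 * (64 * (8 * t) ^ (j - 1) * ((j : ℝ) + 1) ^ 2) * ‖F (j + 1) y0‖ ^ 2 := by
        refine mul_le_mul_of_nonneg_left (Finset.sum_le_sum fun j _ => ?_) (Nat.cast_nonneg M)
        exact mul_le_mul_of_nonneg_right (metx_coef_bound hh hh2 k j hk) (by positivity)
    _ = _ := by
        rw [Finset.mul_sum, Finset.mul_sum, Finset.mul_sum]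
        exact Finset.sum_congr rfl fun j _ => by ring

theorem metx_test_sq_integrable {η : EE n → ℝ} (hη : SPD η) {W : Type} [NormedAddCommGroup W]
    [NormedSpace ℝ W] {f : EE n → W} (hf : IsTestV f) :
    Integrable (fun y0 : EE n => ‖f y0‖ ^ 2) (dm η) := by
  have := dm_prob hη
  have hc : Continuous (fun y0 : EE n => ‖f y0‖ ^ 2) := hf.1.continuous.norm.pow 2
  have hs : HasCompactSupport (fun y0 : EE n => ‖f y0‖ ^ 2) := by
    have := HasCompactSupport.comp_left (g := fun v : W => ‖v‖ ^ 2) hf.2 (by simp)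
    exact this
  exact hc.integrable_of_hasCompactSupport hs

/-- `‖metX‖_{L²} = O(h)`: by `Hs_mean`, `Hs_first`, `Hs_isometry` the three parts of
`c : Hs j (k+1) (s+g)` are orthogonal, so the squared norm of the third one is
`j! ((k+1)^j - k^j - j k^{j-1}) ‖c‖² ≤ j! (j choose 2) (k+1)^{j-2} ‖c‖²`. -/
theorem metX_norm {η : EE n → ℝ} (hη : SPD η) {t : ℝ} (ht : 0 < t) (M : ℕ) (F : CoefFam n ι)
    (hF : ∀ j, IsTestV (F j)) (hsym : ∀ j y, CoefSym (F j y)) :
    ∃ E : ℝ, 0 ≤ E ∧ ∀ (h : ℝ) (k : ℕ), 0 < h → h ≤ 1 / 2 → (k + 1 : ℝ) * h ≤ t →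
      ∫ q, (∫ g, ‖metX h M k F q.1 q.2 g‖ ^ 2 ∂(stdGaussian (EE n)))
        ∂((dm η).prod (gaussK n k)) ≤ (h * E) ^ 2 := by
  have := dm_prob hη
  have hnS : ∀ j : ℕ, 0 ≤ nSq η (F j) := fun j => integral_nonneg fun y => by positivity
  have hE2 : 0 ≤ (M : ℝ) * ∑ j ∈ Finset.range M,
      64 * (8 * t) ^ (j - 1) * ((j : ℝ) + 1) ^ 2 * nSq η (F (j + 1)) := by
    refine mul_nonneg (Nat.cast_nonneg M) (Finset.sum_nonneg fun j _ => ?_)
    have := hnS (j + 1)
    positivity
  refine ⟨Real.sqrt ((M : ℝ) * ∑ j ∈ Finset.range M,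
      64 * (8 * t) ^ (j - 1) * ((j : ℝ) + 1) ^ 2 * nSq η (F (j + 1))), Real.sqrt_nonneg _,
      fun h k hh hh2 hk => ?_⟩
  have := gaussK_prob n (k : ℝ)
  rw [mul_pow, Real.sq_sqrt hE2]
  by_cases hint : Integrable (fun q : EE n × EE n =>
      ∫ g, ‖metX h M k F q.1 q.2 g‖ ^ 2 ∂(stdGaussian (EE n))) ((dm η).prod (gaussK n k))
  swap
  · rw [integral_undef hint]
    positivity
  rw [integral_prod _ hint]
  have iF : ∀ j : ℕ, Integrable (fun y0 : EE n => ‖F j y0‖ ^ 2) (dm η) := fun j =>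
    metx_test_sq_integrable hη (hF j)
  have i5 : ∀ j : ℕ, Integrable (fun y0 : EE n => 64 * (8 * t) ^ (j - 1) * ((j : ℝ) + 1) ^ 2 * ‖F (j + 1) y0‖ ^ 2) (dm η) :=
    fun j => (iF (j + 1)).const_mul _
  have i6 : Integrable (fun y0 : EE n => h ^ 2 * ((M : ℝ) * ∑ j ∈ Finset.range M,
      64 * (8 * t) ^ (j - 1) * ((j : ℝ) + 1) ^ 2 * ‖F (j + 1) y0‖ ^ 2)) (dm η) :=
    ((integrable_finset_sum _ fun j _ => i5 j).const_mul _).const_mul _
  calc ∫ y0, ∫ s, ∫ g, ‖metX h M k F y0 s g‖ ^ 2 ∂(stdGaussian (EE n)) ∂(gaussK n k) ∂(dm η)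
      ≤ ∫ y0, h ^ 2 * ((M : ℝ) * ∑ j ∈ Finset.range M,
          64 * (8 * t) ^ (j - 1) * ((j : ℝ) + 1) ^ 2 * ‖F (j + 1) y0‖ ^ 2) ∂(dm η) :=
        integral_mono hint.integral_prod_left i6 fun y0 => metX_norm_pt hh hh2 M k hk F hsym y0
    _ = _ := by
        rw [integral_const_mul, integral_const_mul, integral_finset_sum _ fun j _ => i5 j]
        simp only [integral_const_mul, nSq]

end X

end Claimed.Agent.R259
end

/- ===== packed: Claimed.Agent.R259.MetF ===== -/
section
/-
Row 259 (S0499), kit MET, block F: from `metM` at time `K` to the Hermite expansion `metH`.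
Owner: helper115.  Contains a small function-level `L²` kit (prefix `metf_`).
-/
set_option autoImplicit false
set_option linter.unusedSectionVars false

open MeasureTheory ProbabilityTheory Filter Topology
open scoped ContDiff BigOperators

namespace Claimed.Agent.R259

/-! ### `L²` kit -/

section L2

variable {α : Type} [MeasurableSpace α] {μ : Measure α} {V : Type} [NormedAddCommGroup V]

theorem metf_sqrt_eq {f : α → V} (hf : MemLp f 2 μ) :
    Real.sqrt (∫ x, ‖f x‖ ^ 2 ∂μ) = (eLpNorm f 2 μ).toReal := by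
  rw [hf.eLpNorm_eq_integral_rpow_norm (by norm_num) (by norm_num)]
  have h0 : 0 ≤ ∫ x, ‖f x‖ ^ 2 ∂μ := integral_nonneg fun _ => by positivity
  simp only [ENNReal.toReal_ofNat, Real.rpow_ofNat]
  rw [ENNReal.toReal_ofReal (by positivity), Real.sqrt_eq_rpow]
  norm_num

theorem metf_add_le {f g : α → V} (hf : MemLp f 2 μ) (hg : MemLp g 2 μ) :
    Real.sqrt (∫ x, ‖f x + g x‖ ^ 2 ∂μ)
      ≤ Real.sqrt (∫ x, ‖f x‖ ^ 2 ∂μ) + Real.sqrt (∫ x, ‖g x‖ ^ 2 ∂μ) := by
  have h := metf_sqrt_eq (hf.add hg)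
  simp only [Pi.add_apply] at h
  rw [h, metf_sqrt_eq hf, metf_sqrt_eq hg, ← ENNReal.toReal_add hf.2.ne hg.2.ne]
  exact ENNReal.toReal_mono (ENNReal.add_ne_top.2 ⟨hf.2.ne, hg.2.ne⟩)
    (eLpNorm_add_le hf.1 hg.1 (by norm_num))

theorem metf_smul [NormedSpace ℝ V] (c : ℝ) (f : α → V) :
    Real.sqrt (∫ x, ‖c • f x‖ ^ 2 ∂μ) = |c| * Real.sqrt (∫ x, ‖f x‖ ^ 2 ∂μ) := by
  have : ∀ x, ‖c • f x‖ ^ 2 = c ^ 2 * ‖f x‖ ^ 2 := fun x => by
    rw [norm_smul, mul_pow, Real.norm_eq_abs, sq_abs]
  simp only [this]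
  rw [integral_const_mul, Real.sqrt_mul (sq_nonneg c), Real.sqrt_sq_eq_abs]

theorem metf_sum_le [NormedSpace ℝ V] {J : Type} (s : Finset J) (c : J → ℝ) (f : J → α → V)
    (hf : ∀ j ∈ s, MemLp (f j) 2 μ) :
    MemLp (fun x => ∑ j ∈ s, c j • f j x) 2 μ ∧
    Real.sqrt (∫ x, ‖∑ j ∈ s, c j • f j x‖ ^ 2 ∂μ)
      ≤ ∑ j ∈ s, |c j| * Real.sqrt (∫ x, ‖f j x‖ ^ 2 ∂μ) := by
  classical
  induction s using Finset.induction_on with
  | empty => simp
  | insert a s ha ih =>
    obtain ⟨h1, h2⟩ := ih fun j hj => hf j (Finset.mem_insert_of_mem hj)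
    have ha' : MemLp (fun x => c a • f a x) 2 μ := (hf a (Finset.mem_insert_self a s)).const_smul (c a)
    simp only [Finset.sum_insert ha]
    refine ⟨ha'.add h1, (metf_add_le ha' h1).trans ?_⟩
    rw [metf_smul]
    linarith

end L2

/-! ### The terms of the expansion -/

variable {n : ℕ} {ι : Type} [Fintype ι]

theorem metf_hcon_norm_le {j : ℕ} (c : EuclideanSpace ℝ (ι × Idx n j)) (τ : TT n j) :
    ‖hcon c τ‖ ≤ ‖c‖ * ‖τ‖ := by
  have h : ‖hcon c τ‖ ^ 2 ≤ (‖c‖ * ‖τ‖) ^ 2 := by
    rw [metc_norm_sq_hcon, mul_pow, EuclideanSpace.real_norm_sq_eq, EuclideanSpace.real_norm_sq_eq,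
      Fintype.sum_prod_type, Finset.sum_mul]
    refine Finset.sum_le_sum fun a _ => ?_
    exact Finset.sum_mul_sq_le_sq_mul_sq _ _ _
  exact abs_le_of_sq_le_sq' h (by positivity) |>.2

theorem metf_hcon_continuous {X : Type} [TopologicalSpace X] {j : ℕ}
    {c : X → EuclideanSpace ℝ (ι × Idx n j)} {τ : X → TT n j} (hc : Continuous c)
    (hτ : Continuous τ) : Continuous fun x => hcon (c x) (τ x) := by
  unfold hcon
  refine (PiLp.continuous_toLp 2 _).comp (continuous_pi fun a => ?_)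
  refine continuous_finsetSum _ fun β _ => ?_
  exact ((PiLp.continuous_apply 2 _ (a, β)).comp hc).mul ((PiLp.continuous_apply 2 _ β).comp hτ)

theorem metf_test_bdd {V : Type} [NormedAddCommGroup V] [NormedSpace ℝ V] {φ : EE n → V}
    (hφ : IsTestV φ) : ∃ C : ℝ, ∀ y, ‖φ y‖ ≤ C :=
  hφ.2.exists_bound_of_continuous hφ.1.continuous

/-- one term of the expansion is square integrable -/
theorem metf_term_memLp {η : EE n → ℝ} (hη : SPD η) {j : ℕ}
    {φ : EE n → EuclideanSpace ℝ (ι × Idx n j)} (hφ : IsTestV φ) :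
    MemLp (fun q : EE n × EE n => hcon (φ q.1) (Hs j 1 q.2)) 2
      ((dm η).prod (stdGaussian (EE n))) := by
  have := dm_prob hη
  obtain ⟨C, hC⟩ := metf_test_bdd hφ
  have h1 : MemLp (fun s : EE n => Hs j 1 s) 2 (stdGaussian (EE n)) := by
    have := Hs_memLp (n := n) j 1 1 0 2
    rw [gaussK_one] at this
    simpa using this
  have h2 : MemLp (fun q : EE n × EE n => Hs j 1 q.2) 2 ((dm η).prod (stdGaussian (EE n))) := by
    have h3 : ((dm η).prod (stdGaussian (EE n))).map Prod.snd = stdGaussian (EE n) := by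
      rw [Measure.map_snd_prod]; simp
    rw [← h3] at h1
    exact (memLp_map_measure_iff h1.1 measurable_snd.aemeasurable).1 h1
  refine h2.of_le_mul (c := C) ?_ (Eventually.of_forall fun q => ?_)
  · exact (metf_hcon_continuous (hφ.1.continuous.comp continuous_fst)
      ((Hs_continuous j 1).comp continuous_snd)).aestronglyMeasurable
  · exact (metf_hcon_norm_le _ _).trans (mul_le_mul_of_nonneg_right (hC _) (norm_nonneg _))

/-- EXPORT (integrability for the users) -/
theorem metH_memLp {η : EE n → ℝ} (hη : SPD η) (t : ℝ) (M : ℕ) (F : CoefFam n ι)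
    (hF : ∀ j, IsTestV (F j)) :
    MemLp (fun q : EE n × EE n => metH t M F q.1 q.2) 2 ((dm η).prod (stdGaussian (EE n))) := by
  unfold metH
  exact (metf_sum_le (Finset.range M) _ (fun j (q : EE n × EE n) => hcon (F j q.1) (Hs j 1 q.2))
    fun j _ => metf_term_memLp hη (hF j)).1

/-! ### Comparison of `metM` at time `K` with `metH` -/

theorem metf_hcon_smul {j : ℕ} (c : EuclideanSpace ℝ (ι × Idx n j)) (a : ℝ) (τ : TT n j) :
    hcon c (a • τ) = a • hcon c τ := by
  ext b
  simp only [hcon_apply, PiLp.smul_apply, smul_eq_mul, Finset.mul_sum]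
  exact Finset.sum_congr rfl fun β _ => by ring

/-- the coefficient of order `j` of `metM (t/K) M K` -/
noncomputable def metfC (t : ℝ) (K j : ℕ) : ℝ :=
  (1 - t / K) ^ K / (1 - t / K) ^ j * (Real.sqrt (2 * t) ^ j / (j.factorial : ℝ))

/-- the coefficient of order `j` of `metH t M` -/
noncomputable def metfH (t : ℝ) (j : ℕ) : ℝ :=
  Real.exp (-t) * (Real.sqrt (2 * t) ^ j / (j.factorial : ℝ))

theorem metf_metM_eq {t : ℝ} (ht : 0 < t) {K : ℕ} (hK : 0 < K) (M : ℕ) (F : CoefFam n ι)
    (y0 s : EE n) :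
    metM (t / K) M K F y0 s = ∑ j ∈ Finset.range M,
      metfC t K j • hcon (F j y0) (Hs j 1 ((Real.sqrt K)⁻¹ • s)) := by
  have hK' : (0 : ℝ) < K := by exact_mod_cast hK
  unfold metM metfC
  refine Finset.sum_congr rfl fun j _ => ?_
  rw [Hs_scale j hK' s, metf_hcon_smul, smul_smul]
  congr 1
  have h1 : Real.sqrt (2 * (t / K)) * Real.sqrt K = Real.sqrt (2 * t) := by
    rw [← Real.sqrt_mul (by positivity)]
    congr 1
    field_simp
  rw [← h1, mul_pow]
  ring

theorem metf_metH_eq (t : ℝ) (M : ℕ) (F : CoefFam n ι) (y0 x : EE n) :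
    metH t M F y0 x = ∑ j ∈ Finset.range M, metfH t j • hcon (F j y0) (Hs j 1 x) := by
  unfold metH metfH
  refine Finset.sum_congr rfl fun j _ => ?_
  rw [mul_div_assoc]

theorem metf_tendsto (t : ℝ) (j : ℕ) : Tendsto (fun K : ℕ => metfC t K j) atTop (𝓝 (metfH t j)) := by
  unfold metfC metfH
  have h0 : Tendsto (fun K : ℕ => t / (K : ℝ)) atTop (𝓝 0) :=
    tendsto_const_div_atTop_nhds_zero_nat t
  have h1 : Tendsto (fun K : ℕ => (1 - t / K) ^ K) atTop (𝓝 (Real.exp (-t))) := by
    have := Real.tendsto_one_add_div_pow_exp (-t)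
    refine this.congr fun K => ?_
    congr 1
    ring
  have h2 : Tendsto (fun K : ℕ => (1 - t / (K : ℝ)) ^ j) atTop (𝓝 1) := by
    have : Tendsto (fun K : ℕ => (1 - t / (K : ℝ)) ^ j) atTop (𝓝 ((1 - 0) ^ j)) :=
      (tendsto_const_nhds.sub h0).pow j
    simpa using this
  have h3 := (h1.div h2 one_ne_zero).mul_const (Real.sqrt (2 * t) ^ j / (j.factorial : ℝ))
  simpa using h3

theorem metf_hc0_norm (c : EuclideanSpace ℝ (ι × Idx n 0)) : ‖hc0 c‖ ≤ ‖c‖ := by
  have h : ‖hc0 c‖ ^ 2 ≤ ‖c‖ ^ 2 := by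
    rw [EuclideanSpace.real_norm_sq_eq, EuclideanSpace.real_norm_sq_eq, Fintype.sum_prod_type]
    refine Finset.sum_le_sum fun a _ => ?_
    exact Finset.single_le_sum (f := fun β : Idx n 0 => c (a, β) ^ 2) (fun _ _ => sq_nonneg _)
      (Finset.mem_univ (fun r : Fin 0 => r.elim0))
  exact abs_le_of_sq_le_sq' h (norm_nonneg _) |>.2

theorem metf_hc0_continuous {X : Type} [TopologicalSpace X] {c : X → EuclideanSpace ℝ (ι × Idx n 0)}
    (hc : Continuous c) : Continuous fun x => hc0 (c x) := by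
  unfold hc0
  exact (PiLp.continuous_toLp 2 _).comp
    (continuous_pi fun a => (PiLp.continuous_apply 2 _ (a, fun r : Fin 0 => r.elim0)).comp hc)

/-- `(1 - t/K)^{K-j} → e^{-t}`: the two approximations differ by `o(1)` as `K → ∞` -/
theorem metM_metH {η : EE n → ℝ} (hη : SPD η) {t : ℝ} (ht : 0 < t) (M : ℕ) (F : CoefFam n ι)
    (hF : ∀ j, IsTestV (F j)) (hsym : ∀ j y, CoefSym (F j y)) {ε : ℝ} (hε : 0 < ε) :
    ∃ K0 : ℕ, ∀ K ≥ K0,
      Real.sqrt (∫ p, ‖hc0 (F 0 p.2) - metH t M F p.1.1 p.1.2‖ ^ 2 ∂(metPi η t K))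
        ≤ metDist η (t / K) M K F + ε := by
  set f : ℕ → EE n × EE n → EuclideanSpace ℝ ι := fun j q => hcon (F j q.1) (Hs j 1 q.2) with hf
  set m := (dm η).prod (stdGaussian (EE n)) with hm
  have hfm : ∀ j, MemLp (f j) 2 m := fun j => metf_term_memLp hη (hF j)
  have hfc : ∀ j, Continuous (f j) := fun j =>
    metf_hcon_continuous ((hF j).1.continuous.comp continuous_fst)
      ((Hs_continuous j 1).comp continuous_snd)
  -- the error tends to zero
  have hlim : Tendsto (fun K : ℕ => ∑ j ∈ Finset.range M,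
      |metfC t K j - metfH t j| * Real.sqrt (∫ q, ‖f j q‖ ^ 2 ∂m)) atTop (𝓝 0) := by
    have : Tendsto (fun K : ℕ => ∑ j ∈ Finset.range M,
        |metfC t K j - metfH t j| * Real.sqrt (∫ q, ‖f j q‖ ^ 2 ∂m)) atTop
        (𝓝 (∑ j ∈ Finset.range M, |metfH t j - metfH t j| * Real.sqrt (∫ q, ‖f j q‖ ^ 2 ∂m))) :=
      tendsto_finsetSum _ fun j _ => (((metf_tendsto t j).sub_const _).abs).mul_const _
    simpa using this
  obtain ⟨K1, hK1⟩ := (Metric.tendsto_atTop.1 hlim) ε hε
  refine ⟨max K1 1, fun K hK => ?_⟩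
  have hKK1 : K1 ≤ K := (le_max_left _ _).trans hK
  have hKpos : 1 ≤ K := (le_max_right _ _).trans hK
  have hprob := metPi_prob hη t K
  have hfst := metPi_fst hη t hKpos
  -- the three functions on the coupling space
  set A : (EE n × EE n) × EE n → EuclideanSpace ℝ ι := fun p => hc0 (F 0 p.2) with hA
  set B : EE n × EE n → EuclideanSpace ℝ ι :=
    fun q => ∑ j ∈ Finset.range M, metfC t K j • f j q with hB
  set D : EE n × EE n → EuclideanSpace ℝ ι :=
    fun q => ∑ j ∈ Finset.range M, (metfC t K j - metfH t j) • f j q with hD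
  have hAc : Continuous A := metf_hc0_continuous ((hF 0).1.continuous.comp continuous_snd)
  have hBc : Continuous B := continuous_finsetSum _ fun j _ => by
    have := hfc j
    fun_prop
  have hDc : Continuous D := continuous_finsetSum _ fun j _ => by
    have := hfc j
    fun_prop
  have hAm : MemLp A 2 (metPi η t K) := by
    obtain ⟨C, hC⟩ := metf_test_bdd (hF 0)
    exact MemLp.of_bound hAc.aestronglyMeasurable C
      (Eventually.of_forall fun p => (metf_hc0_norm _).trans (hC _))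
  have hBm : MemLp (fun p : (EE n × EE n) × EE n => B p.1) 2 (metPi η t K) := by
    have h1 := (metf_sum_le (μ := m) (Finset.range M) (fun j => metfC t K j) f fun j _ => hfm j).1
    rw [hm, ← hfst] at h1
    exact (memLp_map_measure_iff h1.1 measurable_fst.aemeasurable).1 h1
  have hD2 := metf_sum_le (μ := m) (Finset.range M) (fun j => metfC t K j - metfH t j) f
    fun j _ => hfm j
  have hDm : MemLp (fun p : (EE n × EE n) × EE n => D p.1) 2 (metPi η t K) := by
    have h1 := hD2.1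
    rw [hm, ← hfst] at h1
    exact (memLp_map_measure_iff h1.1 measurable_fst.aemeasurable).1 h1
  -- identification of the two sides
  have e1 : ∀ p : (EE n × EE n) × EE n,
      hc0 (F 0 p.2) - metH t M F p.1.1 p.1.2 = (A p - B p.1) + D p.1 := by
    intro p
    rw [metf_metH_eq]
    simp only [hA, hB, hD, sub_smul, Finset.sum_sub_distrib]
    abel
  have e2 : metDist η (t / K) M K F
      = Real.sqrt (∫ p, ‖A p - B p.1‖ ^ 2 ∂(metPi η t K)) := by
    unfold metDist metPi
    have hc1 : Continuous fun p : (EE n × EE n) × EE n => ‖A p - B p.1‖ ^ 2 :=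
      (hAc.sub (hBc.comp continuous_fst)).norm.pow 2
    have hm1 : Measurable fun p : EE n × EE n × EE n =>
        ((p.1, (Real.sqrt K)⁻¹ • p.2.1), p.2.2) := by fun_prop
    rw [integral_map hm1.aemeasurable hc1.aestronglyMeasurable]
    congr 1
    refine integral_congr_ae (Eventually.of_forall fun p => ?_)
    simp only [hA, hB, hf]
    rw [metf_metM_eq ht hKpos]
  have e3 : ∫ p, ‖D p.1‖ ^ 2 ∂(metPi η t K) = ∫ q, ‖D q‖ ^ 2 ∂m := by
    have hc2 : Continuous fun q : EE n × EE n => ‖D q‖ ^ 2 := hDc.norm.pow 2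
    rw [hm, ← hfst, integral_map measurable_fst.aemeasurable hc2.aestronglyMeasurable]
  simp only [e1]
  refine (metf_add_le (hAm.sub hBm) hDm).trans ?_
  rw [e2, e3]
  have h4 := hK1 K hKK1
  rw [Real.dist_eq, sub_zero] at h4
  have h5 := hD2.2
  have h6 := (le_abs_self _).trans h4.le
  simp only [Pi.sub_apply] at *
  linarith

/-- generates the equation lemmas of the definitions above in this file (rule 6: unique names) -/
theorem metf_eqns_cite : True := by
  have := @metfC.eq_1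
  have := @metfH.eq_1
  trivial

end Claimed.Agent.R259
end
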