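/- Packed by merge_tool.py (helper293): 5 modules of Claimed.Agent.R259 in one file, same declarations.
   Old modules, in this order: HmKit, S6ExpGh, S6ExpPhiA, S6ExpPhiB, S6ExpCh -/
import Claimed.Agent.R260.GK
import Claimed.Agent.R260.MxChain
import Claimed.Agent.R259.Pack048
import Claimed.Agent.R259.Pack023
import Claimed.Agent.R259.Pack029

/- ===== packed: Claimed.Agent.R259.HmKit ===== -/
section
/-
Row 259 (S0499): Hermite tensor kit on top of `HmDefs` and the Gaussian kit of row 260.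
EXPORT FILE of leaf L-Hm-kit (statements: helper88).  PROVED (helper3), sorry-free, on top of MetC (hs_bilin, sum_sym_match).  The leaf owner owns this file: keep names and
statements, replace the sorries (helper files `HmKit*.lean`).

Hints.  `hm j x β = ∏_i he (cnt β i) (x i)`; `he` = Mathlib `Polynomial.hermite`
(`Polynomial.hermite_succ : hermite (n+1) = X * hermite n - derivative (hermite n)`).
`cnt (Fin.snoc β i) i = cnt β i + 1`, the other counts are unchanged: this gives `hm_snoc`.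
`hm_upper`: `∑_β a_β hm_β` only depends on the symmetrisation of `a`, which does not increase
`∑ a_β²`; for symmetric coefficients use `Hs_isometry`, `Hs_orthogonal` of `MetLeaves.lean` (kit MET,
block C; `Hs_one_eq_hm` in `MetGoal.lean`), or prove it directly: `E[hm_β hm_β'] = 1_{cnt β = cnt β'} ∏ (cnt β i)!`
(product measure, one dimensional orthogonality) and the fibre `{β' : cnt β' = cnt β}` has
`j! / ∏ (cnt β i)!` elements, then Cauchy-Schwarz on each fibre.  `hm_bessel` follows from `hm_upper` by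
duality: with `c_β = E[hm_β f]`, `∑ c_β² = E[f ∑ c_β hm_β] ≤ ‖f‖ (j! ∑ c_β²)^{1/2}`.
-/
set_option autoImplicit false

open MeasureTheory ProbabilityTheory
open scoped BigOperators

namespace Claimed.Agent.R259

variable {n : ℕ}

theorem hmk_apply (j : ℕ) (x : EE n) (β : Idx n j) : hm j x β = ∏ i, he (cnt β i) (x i) := rfl

theorem hmk_he_eq (c : ℕ) (t : ℝ) : he c t = heK 1 c t := (heK_one_eq_hermite c t).symm

theorem hmk_eq_hsP (j : ℕ) (x : EE n) (β : Idx n j) : hm j x β = hsP 1 x (cnt β) := by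
  rw [hmk_apply, hsP]
  exact Finset.prod_congr rfl fun i _ => hmk_he_eq _ _

theorem hm_zero_apply (x : EE n) (β : Idx n 0) : hm 0 x β = 1 := by
  rw [hmk_apply]
  refine Finset.prod_eq_one fun i _ => ?_
  have : cnt β i = 0 := by simp [cnt]
  rw [this]
  simp [he]

open Polynomial in
theorem hmk_C1P_eval (p : ℝ[X]) (i : Fin n) : R260.C1P (fun x : EE n => p.eval (x i)) := by
  induction p using Polynomial.induction_on with
  | C a =>
    simp only [eval_C]
    exact (R260.gk_closA_C1L_const a).toC1P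
  | add p q hp hq =>
    simp only [eval_add]
    exact hp.add hq
  | monomial k a ih =>
    have e : (fun x : EE n => (C a * X ^ (k + 1)).eval (x i))
        = fun x : EE n => (C a * X ^ k).eval (x i) * x i := by
      funext x
      simp only [eval_mul, eval_C, eval_pow, eval_X]
      ring
    rw [e]
    exact ih.mul (R260.gk_closA_C1L_coord i).toC1P

theorem hmk_C1P_he (c : ℕ) (i : Fin n) : R260.C1P (fun x : EE n => he c (x i)) := by
  simp only [hmk_he_eq, heK_eq_eval]
  exact hmk_C1P_eval _ i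

theorem hmk_C1P_prod (s : Finset (Fin n)) (c : Fin n → ℕ) :
    R260.C1P (fun x : EE n => ∏ i ∈ s, he (c i) (x i)) := by
  classical
  induction s using Finset.induction_on with
  | empty =>
    simp only [Finset.prod_empty]
    exact (R260.gk_closA_C1L_const 1).toC1P
  | insert a s ha ih =>
    simp only [Finset.prod_insert ha]
    exact (hmk_C1P_he _ a).mul ih

/-- the components of the Hermite tensors are polynomials -/
theorem hm_C1P (j : ℕ) (β : Idx n j) : Claimed.Agent.R260.C1P (fun x : EE n => hm j x β) := by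
  simp only [hmk_apply]
  exact hmk_C1P_prod _ _

theorem hm_memLp (j : ℕ) (β : Idx n j) (p : NNReal) :
    MemLp (fun x : EE n => hm j x β) p (stdGaussian (EE n)) := by
  simp only [hmk_apply, hmk_he_eq, heK_eq_eval]
  exact metc_memLp_prod _ p

theorem hmk_cnt_comp {j : ℕ} (α : Idx n j) (σ : Equiv.Perm (Fin j)) : cnt (α ∘ σ) = cnt α := by
  funext i
  rw [cnt_eq_sum, cnt_eq_sum]
  exact Equiv.sum_comp σ fun r => if α r = i then 1 else 0

/-- symmetry of the Hermite tensors -/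
theorem hm_symm (j : ℕ) (x : EE n) : TSym (hm j x) := by
  intro σ α
  rw [hmk_apply, hmk_apply, hmk_cnt_comp]

theorem hmk_cnt_snoc {j : ℕ} (β : Idx n j) (i l : Fin n) :
    cnt (Fin.snoc β i : Idx n (j + 1)) l = cnt β l + if i = l then 1 else 0 := by
  have e : (Fin.snoc β i : Idx n (j + 1)) = insI (Fin.last j) i β := by
    unfold insI
    rw [Fin.insertNth_last']
  rw [e, cnt_insI]

/-- derivative of `he` -/
noncomputable def hmkD (c : ℕ) (t : ℝ) : ℝ := Polynomial.aeval t (Polynomial.derivative (Polynomial.hermite c))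

theorem hmk_he_hasDerivAt (c : ℕ) (t : ℝ) : HasDerivAt (he c) (hmkD c t) t :=
  Polynomial.hasDerivAt_aeval _ t

theorem hmk_he_succ (c : ℕ) (t : ℝ) : he (c + 1) t = t * he c t - hmkD c t := by
  unfold he hmkD
  rw [Polynomial.hermite_succ]
  simp

theorem hmk_pd (c : Fin n → ℕ) (i : Fin n) (x : EE n) :
    R260.pd i (fun y : EE n => ∏ l, he (c l) (y l)) x
      = hmkD (c i) (x i) * ∏ l ∈ Finset.univ.erase i, he (c l) (x l) := by
  classical
  have hfd : ∀ l ∈ (Finset.univ : Finset (Fin n)), HasFDerivAt (fun y : EE n => he (c l) (y l))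
      (hmkD (c l) (x l) • (EuclideanSpace.proj l : EE n →L[ℝ] ℝ)) x := by
    intro l _
    exact (hmk_he_hasDerivAt (c l) (x l)).comp_hasFDerivAt x
      (EuclideanSpace.proj l : EE n →L[ℝ] ℝ).hasFDerivAt
  have h := HasFDerivAt.finsetProd hfd
  unfold R260.pd
  rw [h.fderiv, _root_.sum_apply, Finset.sum_eq_single i]
  · simp [R260.eb, mul_comm]
  · intro l _ hl
    simp [R260.eb, hl]
  · intro h
    exact absurd (Finset.mem_univ i) h

/-- creation operator: `𝔥_{j+1}(x)_{(β,i)} = x_i 𝔥_j(x)_β - ∂_i 𝔥_j(x)_β` -/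
theorem hm_snoc (j : ℕ) (β : Idx n j) (i : Fin n) (x : EE n) :
    hm (j + 1) x (Fin.snoc β i)
      = x i * hm j x β - Claimed.Agent.R260.pd i (fun y : EE n => hm j y β) x := by
  classical
  simp only [hmk_apply]
  rw [hmk_pd, ← Finset.mul_prod_erase Finset.univ _ (Finset.mem_univ i),
    ← Finset.mul_prod_erase Finset.univ (fun l => he (cnt β l) (x l)) (Finset.mem_univ i),
    hmk_cnt_snoc, if_pos rfl, hmk_he_succ]
  have e : ∏ l ∈ Finset.univ.erase i, he (cnt (Fin.snoc β i : Idx n (j + 1)) l) (x l)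
      = ∏ l ∈ Finset.univ.erase i, he (cnt β l) (x l) := by
    refine Finset.prod_congr rfl fun l hl => ?_
    rw [hmk_cnt_snoc, if_neg (Ne.symm (Finset.ne_of_mem_erase hl)), add_zero]
  rw [e]
  ring

/-- adjointness: `E[𝔥_{j+1,(β,i)} u] = E[𝔥_{j,β} ∂_i u]` for `u` in the Gaussian Sobolev class -/
theorem hm_ibp (j : ℕ) (β : Idx n j) (i : Fin n) {u : EE n → ℝ} {du : Fin n → EE n → ℝ}
    (hu : Claimed.Agent.R260.GH1 u du) :
    ∫ x, hm (j + 1) x (Fin.snoc β i) * u x ∂(stdGaussian (EE n))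
      = ∫ x, hm j x β * du i x ∂(stdGaussian (EE n)) := by
  have hv := R260.gk_gh1_of_C1P (hm_C1P j β)
  have h1 := hv.ibp_mul hu i
  have i1 : Integrable (fun x : EE n => x i * hm j x β * u x) (stdGaussian (EE n)) :=
    R260.gk_integrable_mul (hv.coord_mul_memLp i) hu.1
  have i2 : Integrable (fun x : EE n => R260.pd i (fun y : EE n => hm j y β) x * u x)
      (stdGaussian (EE n)) := R260.gk_integrable_mul (hv.2.1 i) hu.1
  have e : ∀ x : EE n, hm (j + 1) x (Fin.snoc β i) * u x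
      = x i * hm j x β * u x - R260.pd i (fun y : EE n => hm j y β) x * u x := by
    intro x
    rw [hm_snoc]
    ring
  simp only [e]
  rw [integral_sub i1 i2, h1]
  ring

theorem hmk_hsW_nonneg (α α' : Fin n → ℕ) : 0 ≤ hsW α α' := by
  unfold hsW
  refine Finset.prod_nonneg fun l _ => ?_
  split_ifs
  · positivity
  · exact le_rfl

theorem hmk_hsW_symm (α α' : Fin n → ℕ) : hsW α α' = hsW α' α := by
  unfold hsW
  refine Finset.prod_congr rfl fun l _ => ?_
  by_cases h : α l = α' l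
  · rw [if_pos h, if_pos h.symm, h]
  · rw [if_neg h, if_neg (Ne.symm h)]

theorem hmk_hsW_sum {j : ℕ} (β : Idx n j) : ∑ β' : Idx n j, hsW (cnt β) (cnt β') = (j.factorial : ℝ) := by
  have h := sum_sym_match (u := fun _ : Idx n j => (1 : ℝ)) (fun _ _ => rfl) β
  simpa using h

/-- Schur test for the Gram matrix of the Hermite tensor of order `j` -/
theorem hmk_schur {j : ℕ} (a : Idx n j → ℝ) :
    ∑ β, ∑ β', a β * a β' * hsW (cnt β) (cnt β') ≤ (j.factorial : ℝ) * ∑ β, a β ^ 2 := by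
  have h1 : ∀ β β' : Idx n j, a β * a β' * hsW (cnt β) (cnt β')
      ≤ (a β ^ 2 * hsW (cnt β) (cnt β') + a β' ^ 2 * hsW (cnt β') (cnt β)) / 2 := by
    intro β β'
    rw [hmk_hsW_symm (cnt β') (cnt β)]
    have := hmk_hsW_nonneg (cnt β) (cnt β')
    nlinarith [mul_nonneg (sq_nonneg (a β - a β')) this]
  calc ∑ β, ∑ β', a β * a β' * hsW (cnt β) (cnt β')
      ≤ ∑ β, ∑ β', (a β ^ 2 * hsW (cnt β) (cnt β') + a β' ^ 2 * hsW (cnt β') (cnt β)) / 2 :=
        Finset.sum_le_sum fun β _ => Finset.sum_le_sum fun β' _ => h1 β β'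
    _ = (∑ β, ∑ β', a β ^ 2 * hsW (cnt β) (cnt β')
          + ∑ β, ∑ β', a β' ^ 2 * hsW (cnt β') (cnt β)) / 2 := by
        rw [← Finset.sum_add_distrib, Finset.sum_div]
        refine Finset.sum_congr rfl fun β _ => ?_
        rw [← Finset.sum_add_distrib, Finset.sum_div]
    _ = ∑ β, ∑ β', a β ^ 2 * hsW (cnt β) (cnt β') := by
        rw [Finset.sum_comm (f := fun β β' => a β' ^ 2 * hsW (cnt β') (cnt β))]
        ring
    _ = (j.factorial : ℝ) * ∑ β, a β ^ 2 := by
        rw [Finset.mul_sum]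
        refine Finset.sum_congr rfl fun β _ => ?_
        rw [← Finset.mul_sum, hmk_hsW_sum]
        ring

theorem hmk_upper_one (j : ℕ) (a : Idx n j → ℝ) :
    ∫ x, (∑ β, a β * hm j x β) ^ 2 ∂(stdGaussian (EE n)) ≤ (j.factorial : ℝ) * ∑ β, a β ^ 2 := by
  simp only [hmk_eq_hsP, sq (∑ β, _)]
  rw [hs_bilin a a]
  exact hmk_schur a

/-- upper isometry bound for ARBITRARY (not necessarily symmetric) coefficients, all orders -/
theorem hm_upper (m : ℕ) (a : (j : ℕ) → Idx n j → ℝ) :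
    ∫ x, (∑ j ∈ Finset.range (m + 1), ∑ β, a j β * hm j x β) ^ 2 ∂(stdGaussian (EE n))
      ≤ ∑ j ∈ Finset.range (m + 1), (j.factorial : ℝ) * ∑ β, a j β ^ 2 := by
  have e : ∀ x : EE n, (∑ j ∈ Finset.range (m + 1), ∑ β, a j β * hm j x β) ^ 2
      = ∑ j ∈ Finset.range (m + 1), ∑ j' ∈ Finset.range (m + 1),
        (∑ β, a j β * hsP 1 x (cnt β)) * (∑ β', a j' β' * hsP 1 x (cnt β')) := by
    intro x
    simp only [hmk_eq_hsP]
    rw [sq, Finset.sum_mul_sum]
  simp only [e]
  rw [integral_finsetSum _ fun j _ => integrable_finsetSum _ fun j' _ => hs_bilin_integrable _ _]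
  refine Finset.sum_le_sum fun j hj => ?_
  rw [integral_finsetSum _ fun j' _ => hs_bilin_integrable _ _, Finset.sum_eq_single j]
  · rw [hs_bilin]
    exact hmk_schur (a j)
  · intro j' _ hne
    rw [hs_bilin]
    simp [hsW_eq_zero (Ne.symm hne)]
  · intro h
    exact absurd hj h

/-- Bessel inequality for the chaos coefficients of order `j` -/
theorem hm_bessel (j : ℕ) {f : EE n → ℝ} (hf : MemLp f 2 (stdGaussian (EE n))) :
    ∑ β : Idx n j, (∫ x, hm j x β * f x ∂(stdGaussian (EE n))) ^ 2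
      ≤ (j.factorial : ℝ) * ∫ x, f x ^ 2 ∂(stdGaussian (EE n)) := by
  set c : Idx n j → ℝ := fun β => ∫ x, hm j x β * f x ∂(stdGaussian (EE n)) with hc
  set S : ℝ := ∑ β, c β ^ 2 with hS
  have hS0 : 0 ≤ S := Finset.sum_nonneg fun β _ => sq_nonneg _
  have hP : MemLp (fun x : EE n => ∑ β, c β * hm j x β) 2 (stdGaussian (EE n)) :=
    memLp_finsetSum _ fun β _ => (hm_memLp j β 2).const_mul (c β)
  have h1 : S = ∫ x, (∑ β, c β * hm j x β) * f x ∂(stdGaussian (EE n)) := by
    simp only [Finset.sum_mul]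
    rw [integral_finsetSum _ fun β _ => by
      have := (R260.gk_integrable_mul (hm_memLp j β 2) hf).const_mul (c β)
      simpa only [mul_assoc] using this]
    refine Finset.sum_congr rfl fun β _ => ?_
    simp only [mul_assoc]
    rw [integral_const_mul, sq]
  have h2 := R260.gk_cs hP hf
  rw [← h1] at h2
  have h3 := hmk_upper_one j c
  have hF0 : 0 ≤ ∫ x, f x ^ 2 ∂(stdGaussian (EE n)) := integral_nonneg fun x => sq_nonneg _
  have h4 : S ^ 2 ≤ ((j.factorial : ℝ) * S) * ∫ x, f x ^ 2 ∂(stdGaussian (EE n)) :=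
    h2.trans (mul_le_mul_of_nonneg_right h3 hF0)
  rcases hS0.eq_or_lt with h0 | hpos
  · rw [← h0]
    positivity
  · have h5 : S * S ≤ S * ((j.factorial : ℝ) * ∫ x, f x ^ 2 ∂(stdGaussian (EE n))) := by
      nlinarith
    exact le_of_mul_le_mul_left h5 hpos

end Claimed.Agent.R259
end

/- ===== packed: Claimed.Agent.R259.S6ExpGh ===== -/
section
/-
Row 259 (S0499), package EXP: regularity and integrability of `N ↦ f(H[N])` under the Gaussian law.
EXPORT FILE of leaf L-exp-gh (statements: helper88).  The leaf owner owns this file.  PROVED (helper3): no sorry of its own; uses `hm_memLp` of HmKit.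

Hints.  `‖H[N]‖_HS ≤ (∑ ‖H_i‖²)^{1/2} ‖N‖`, eigenvalues are bounded by the HS norm (`R260.mxEig_sq_le`),
entries of `mxFun f A` by `sup |f(eig)|` (`R260.mxFun_apply_abs_le`); `exp(c ‖N‖)` is integrable for the
standard Gaussian (Fernique / `‖N‖ ≤ ∑ |N_i|` and independence / `R260.gk_gam_eq_withDensity`).
Measurability: `R260.mxFun_continuous`, `R260.mxDK_continuous` for continuous data, `RM.of_mxFun` (MkBorel).
`fz_gh1`: apply the chain rule `R260.mx_gh1_chain` to the BOUNDED field `A_K(x) = H[π_K x]`,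
`π_K x = (K tanh(x_i / K))_i` (or any smooth bounded truncation with `|π_K' | ≤ 1`, `π_K → id`), and let
`K → ∞` with `R260.gk_gh1_of_tendsto` + dominated convergence; alternatively use the partial sums of the
exponential series (`R260.mxDK_pow`, polynomials are `C1P`).
-/
set_option autoImplicit false

open MeasureTheory ProbabilityTheory Filter Topology
open scoped BigOperators Matrix
open Claimed.Agent.R260 (Mx mxFun mxSchur mxSq mxIP mxEig mxU mxRot mxDK MxGH1 MxL2)

namespace Claimed.Agent.R259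

variable {n : ℕ} {H : Fin n → Mx n} {W : Mx n}

/-- exponential moments of the norm -/
theorem fz_exp_norm_integrable (n : ℕ) (c : ℝ) :
    Integrable (fun N : EE n => Real.exp (c * ‖N‖)) (stdGaussian (EE n)) := by
  obtain ⟨C, hC, hI⟩ := IsGaussian.exists_integrable_exp_sq (stdGaussian (EE n))
  refine Integrable.mono' (hI.const_mul (Real.exp (c ^ 2 / (4 * C)))) (by fun_prop)
    (Eventually.of_forall fun N => ?_)
  rw [Real.norm_eq_abs, abs_of_pos (Real.exp_pos _), ← Real.exp_add]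
  apply Real.exp_le_exp.2
  have h1 : 0 ≤ (c / (2 * C) - ‖N‖) ^ 2 * C := by positivity
  have h2 : (c / (2 * C) - ‖N‖) ^ 2 * C = c ^ 2 / (4 * C) + C * ‖N‖ ^ 2 - c * ‖N‖ := by
    field_simp
    ring
  linarith

/-- the constant of the crude spectral bound -/
noncomputable def fzgS (H : Fin n → Mx n) : ℝ := ∑ k, ∑ l, ∑ r, |H r k l|

theorem fzgS_nonneg (H : Fin n → Mx n) : 0 ≤ fzgS H :=
  Finset.sum_nonneg fun _ _ => Finset.sum_nonneg fun _ _ => Finset.sum_nonneg fun _ _ => abs_nonneg _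

theorem fzg_lin_isSymm (hs : ∀ i, (H i).IsSymm) (y : Fin n → ℝ) : (∑ r, y r • H r).IsSymm := by
  unfold Matrix.IsSymm
  rw [Matrix.transpose_sum]
  refine Finset.sum_congr rfl fun i _ => ?_
  rw [Matrix.transpose_smul, (hs i).eq]

/-- crude spectral bound -/
theorem fzg_eig_le (hs : ∀ i, (H i).IsSymm) (y : Fin n → ℝ) {ρ : ℝ} (hy : ∀ r, |y r| ≤ ρ)
    (l : Fin n) : |mxEig (∑ r, y r • H r) l| ≤ fzgS H * ρ := by
  have h1 : |mxEig (∑ r, y r • H r) l| ≤ Real.sqrt (mxSq (∑ r, y r • H r)) :=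
    Real.abs_le_sqrt (R260.mxEig_sq_le (fzg_lin_isSymm hs y) l)
  refine h1.trans ((R260.mxc_sqrt_mxSq_le _).trans ?_)
  unfold fzgS
  rw [Finset.sum_mul]
  refine Finset.sum_le_sum fun k _ => ?_
  rw [Finset.sum_mul]
  refine Finset.sum_le_sum fun l _ => ?_
  rw [Finset.sum_mul, Matrix.sum_apply]
  refine (Finset.abs_sum_le_sum_abs _ _).trans (Finset.sum_le_sum fun r _ => ?_)
  rw [Matrix.smul_apply, smul_eq_mul, abs_mul, mul_comm]
  exact mul_le_mul_of_nonneg_left (hy r) (abs_nonneg _)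

theorem fzg_coord_le (N : EE n) (r : Fin n) : |N r| ≤ ‖N‖ := by
  have := PiLp.norm_apply_le N r
  simpa using this

theorem fzg_RM_colAt (H : Fin n → Mx n) : RM fun N : EE n => colAt H N := by
  intro i j
  simp only [colAt, Matrix.sum_apply, Matrix.smul_apply, smul_eq_mul]
  refine Finset.measurable_sum _ fun r _ => ?_
  exact ((EuclideanSpace.proj r : EE n →L[ℝ] ℝ).continuous.measurable).mul_const _

/-- functions of `D = H[N]` of exponential growth are square integrable -/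
theorem fz_fun_L2 (hs : ∀ i, (H i).IsSymm) {f : ℝ → ℝ} (hf : Measurable f) {C c : ℝ}
    (hb : ∀ x, |f x| ≤ C * Real.exp (c * |x|)) :
    MxL2 (stdGaussian (EE n)) (fun N => mxFun f (colAt H N)) := by
  intro i j
  have hC : 0 ≤ C := by
    have := hb 0
    simp only [abs_zero, mul_zero, Real.exp_zero, mul_one] at this
    exact (abs_nonneg _).trans this
  have hm : Measurable fun N : EE n => mxFun f (colAt H N) i j :=
    RM.of_mxFun hf (fzg_RM_colAt H) (colAt_isSymm hs) i j
  rw [memLp_two_iff_integrable_sq hm.aestronglyMeasurable]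
  refine Integrable.mono' ((fz_exp_norm_integrable n (2 * (|c| * fzgS H))).const_mul (C ^ 2))
    (hm.pow_const 2).aestronglyMeasurable (Eventually.of_forall fun N => ?_)
  rw [Real.norm_eq_abs, abs_of_nonneg (sq_nonneg _)]
  have h1 : |mxFun f (colAt H N) i j| ≤ C * Real.exp (|c| * fzgS H * ‖N‖) := by
    apply R260.mxFun_apply_abs_le
    intro l
    refine (hb _).trans (mul_le_mul_of_nonneg_left (Real.exp_le_exp.2 ?_) hC)
    have h2 := fzg_eig_le hs (fun r => N r) (fzg_coord_le N) l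
    calc c * |mxEig (colAt H N) l| ≤ |c| * |mxEig (colAt H N) l| :=
          mul_le_mul_of_nonneg_right (le_abs_self c) (abs_nonneg _)
      _ ≤ |c| * (fzgS H * ‖N‖) := mul_le_mul_of_nonneg_left h2 (abs_nonneg _)
      _ = |c| * fzgS H * ‖N‖ := by ring
  calc mxFun f (colAt H N) i j ^ 2 = |mxFun f (colAt H N) i j| ^ 2 := (sq_abs _).symm
    _ ≤ (C * Real.exp (|c| * fzgS H * ‖N‖)) ^ 2 := pow_le_pow_left₀ (abs_nonneg _) h1 2
    _ = C ^ 2 * Real.exp (2 * (|c| * fzgS H) * ‖N‖) := by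
        rw [mul_pow, ← Real.exp_nat_mul]
        congr 2
        push_cast
        ring

theorem fz_G_L2 (H : Fin n → Mx n) (j : ℕ) : MxL2 (stdGaussian (EE n)) (fzG H j) := by
  unfold fzG
  exact MxL2.sum _ fun β _ => MxL2.smul_const (hm_memLp j β 2) _

theorem fz_W_L2 (H : Fin n → Mx n) (t : ℝ) (m : ℕ) : MxL2 (stdGaussian (EE n)) (fzW H t m) := by
  unfold fzW
  exact MxL2.smul _ (MxL2.sum _ fun j _ => MxL2.smul _ (fz_G_L2 H j))

theorem fz_M_eq (H : Fin n → Mx n) (t : ℝ) (N : EE n) :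
    fzM H t N = Real.exp (-(2 * t)) • fzE H (Real.sqrt (2 * t)) N := by
  unfold fzM fzE
  rw [← R260.mxFun_smul]
  congr 1
  funext x
  rw [← Real.exp_add]
  congr 1
  ring

theorem fz_E_mul (H : Fin n → Mx n) (a b : ℝ) (N : EE n) :
    fzE H a N * fzE H b N = fzE H (a + b) N := by
  unfold fzE
  rw [← R260.mxFun_mul]
  congr 1
  funext x
  rw [← Real.exp_add]
  congr 1
  ring

theorem fz_E_zero (H : Fin n → Mx n) (N : EE n) : fzE H 0 N = 1 := by
  unfold fzE
  simp only [zero_mul, Real.exp_zero]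
  rw [R260.mxFun_const, one_smul]

theorem fz_E_psd (H : Fin n → Mx n) (a : ℝ) (N : EE n) : (fzE H a N).PosSemidef :=
  R260.mxFun_posSemidef fun _ => (Real.exp_pos _).le

theorem fz_E_neg (hs : ∀ i, (H i).IsSymm) (a : ℝ) (N : EE n) :
    fzE (fun i => -H i) a N = fzE H (-a) N := by
  unfold fzE
  have e1 : colAt (fun i => -H i) N = mxFun (fun x => (-1 : ℝ) * x) (colAt H N) := by
    rw [R260.mxFun_smul, R260.mxFun_id (colAt_isSymm hs N)]
    simp [colAt]
  rw [e1, R260.mxFun_comp]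
  congr 1
  funext x
  congr 1
  ring

/-- `‖e^{aD} W‖² = tr(W² e^{2aD})` -/
theorem FzCol.E_sq (h : FzCol H W) (a : ℝ) (N : EE n) :
    mxSq (fzE H a N * W) = Matrix.trace (W * W * fzE H (2 * a) N) := by
  have hW : Wᵀ = W := by
    have := h.psd.isHermitian
    rw [Matrix.IsHermitian, Matrix.conjTranspose_eq_transpose_of_trivial] at this
    exact this
  have hE : (fzE H a N)ᵀ = fzE H a N := (R260.mxFun_isSymm _ _).eq
  rw [mxSq, Matrix.transpose_mul, hW, hE, two_mul, ← fz_E_mul]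
  calc Matrix.trace (W * fzE H a N * (fzE H a N * W))
      = Matrix.trace ((W * (fzE H a N * fzE H a N)) * W) := by simp only [Matrix.mul_assoc]
    _ = Matrix.trace (W * (W * (fzE H a N * fzE H a N))) := Matrix.trace_mul_comm _ _
    _ = Matrix.trace (W * W * (fzE H a N * fzE H a N)) := by rw [Matrix.mul_assoc]

theorem fzg_cov (k l : Fin n) :
    ∫ N : EE n, N k * N l ∂(stdGaussian (EE n)) = if k = l then 1 else 0 := by
  have := (R260.gk_gh1_coord (m := n) l).ibp k
  rw [this]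
  simp

/-- second moments of the coordinates: `E‖∑_k N_k A_k‖² = ∑_k ‖A_k‖²` -/
theorem fz_lin_sq (A : Fin n → Mx n) :
    ∫ N : EE n, mxSq (∑ k, N k • A k) ∂(stdGaussian (EE n)) = ∑ k, mxSq (A k) := by
  have hint : ∀ k l : Fin n, Integrable (fun N : EE n => N k * N l) (stdGaussian (EE n)) :=
    fun k l => R260.gk_integrable_mul (R260.gk_gh1_coord (m := n) k).1 (R260.gk_gh1_coord (m := n) l).1
  have e : ∀ N : EE n, mxSq (∑ k, N k • A k)
      = ∑ i, ∑ j, ∑ k, ∑ l, (N k * N l) * (A k i j * A l i j) := by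
    intro N
    rw [R260.mxSq_eq_sum]
    refine Finset.sum_congr rfl fun i _ => Finset.sum_congr rfl fun j _ => ?_
    rw [Matrix.sum_apply, sq, Finset.sum_mul_sum]
    refine Finset.sum_congr rfl fun k _ => Finset.sum_congr rfl fun l _ => ?_
    simp only [Matrix.smul_apply, smul_eq_mul]
    ring
  simp only [e]
  rw [integral_finsetSum _ fun i _ => integrable_finsetSum _ fun j _ => integrable_finsetSum _
    fun k _ => integrable_finsetSum _ fun l _ => (hint k l).mul_const _]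
  simp only [R260.mxSq_eq_sum]
  rw [Finset.sum_comm' (t' := Finset.univ) (s' := fun _ => Finset.univ) (by simp)]
  refine Finset.sum_congr rfl fun i _ => ?_
  rw [integral_finsetSum _ fun j _ => integrable_finsetSum _
    fun k _ => integrable_finsetSum _ fun l _ => (hint k l).mul_const _]
  rw [Finset.sum_comm' (t' := Finset.univ) (s' := fun _ => Finset.univ) (by simp)]
  refine Finset.sum_congr rfl fun j _ => ?_
  rw [integral_finsetSum _ fun k _ => integrable_finsetSum _ fun l _ => (hint k l).mul_const _]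
  refine Finset.sum_congr rfl fun k _ => ?_
  rw [integral_finsetSum _ fun l _ => (hint k l).mul_const _]
  simp only [integral_mul_const, fzg_cov]
  simp [sq]

/-! ### a smooth bounded truncation of the coordinates -/

/-- `t / (1 + e t²)` -/
noncomputable def fzgT (e t : ℝ) : ℝ := t / (1 + e * t ^ 2)
/-- its derivative -/
noncomputable def fzgT' (e t : ℝ) : ℝ := (1 - e * t ^ 2) / (1 + e * t ^ 2) ^ 2

theorem fzgT_den_pos {e : ℝ} (he : 0 ≤ e) (t : ℝ) : 0 < 1 + e * t ^ 2 := by positivity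

theorem fzgT_hasDerivAt {e : ℝ} (he : 0 ≤ e) (t : ℝ) : HasDerivAt (fzgT e) (fzgT' e t) t := by
  have h1 : HasDerivAt (fun t : ℝ => 1 + e * t ^ 2) (e * (2 * t)) t := by
    have := ((hasDerivAt_pow 2 t).const_mul e).const_add 1
    simpa using this
  have h2 := (hasDerivAt_id t).div h1 (fzgT_den_pos he t).ne'
  have e1 : fzgT' e t = (1 * (1 + e * t ^ 2) - id t * (e * (2 * t))) / (1 + e * t ^ 2) ^ 2 := by
    unfold fzgT'
    congr 1
    simp only [id]
    ring
  rw [e1]
  exact h2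

theorem fzgT'_continuous {e : ℝ} (he : 0 ≤ e) : Continuous (fzgT' e) := by
  unfold fzgT'
  exact Continuous.div (by fun_prop) (by fun_prop) fun t => (pow_pos (fzgT_den_pos he t) 2).ne'

theorem fzgT'_abs_le {e : ℝ} (he : 0 ≤ e) (t : ℝ) : |fzgT' e t| ≤ 1 := by
  unfold fzgT'
  have hs : 0 ≤ e * t ^ 2 := by positivity
  rw [abs_div, abs_of_pos (pow_pos (fzgT_den_pos he t) 2), div_le_one (pow_pos (fzgT_den_pos he t) 2),
    abs_le]
  constructor <;> nlinarith

theorem fzgT_abs_le {e : ℝ} (he : 0 ≤ e) (t : ℝ) : |fzgT e t| ≤ |t| := by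
  unfold fzgT
  have hs : 0 ≤ e * t ^ 2 := by positivity
  rw [abs_div, abs_of_pos (fzgT_den_pos he t)]
  exact div_le_self (abs_nonneg _) (by linarith)

theorem fzgT_abs_le' {e : ℝ} (he : 0 < e) (t : ℝ) : |fzgT e t| ≤ 1 + 1 / e := by
  unfold fzgT
  rw [abs_div, abs_of_pos (fzgT_den_pos he.le t), div_le_iff₀ (fzgT_den_pos he.le t)]
  have h1 : |t| ≤ 1 + t ^ 2 := by
    rw [abs_le]
    constructor <;> nlinarith [sq_nonneg (t - 1), sq_nonneg (t + 1)]
  have h2 : (1 + 1 / e) * (1 + e * t ^ 2) = 1 + t ^ 2 + (1 / e + e * t ^ 2) := by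
    field_simp
    ring
  have h3 : 0 ≤ 1 / e + e * t ^ 2 := by positivity
  linarith

theorem fzgT_measurable (e : ℝ) : Measurable (fzgT e) := by
  unfold fzgT
  fun_prop

theorem fzgT'_measurable (e : ℝ) : Measurable (fzgT' e) := by
  unfold fzgT'
  fun_prop

theorem fzgT_tendsto (t : ℝ) : Tendsto (fun e => fzgT e t) (𝓝[>] 0) (𝓝 t) := by
  have h : ContinuousAt (fun e : ℝ => fzgT e t) 0 := by
    unfold fzgT
    exact ContinuousAt.div (by fun_prop) (by fun_prop) (by simp)
  have h2 := h.tendsto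
  simp only [fzgT, zero_mul, add_zero, div_one] at h2
  exact tendsto_nhdsWithin_of_tendsto_nhds h2

theorem fzgT'_tendsto (t : ℝ) : Tendsto (fun e => fzgT' e t) (𝓝[>] 0) (𝓝 1) := by
  have h : ContinuousAt (fun e : ℝ => fzgT' e t) 0 := by
    unfold fzgT'
    exact ContinuousAt.div (by fun_prop) (by fun_prop) (by simp)
  have h2 := h.tendsto
  simp only [fzgT', zero_mul, add_zero, sub_zero, one_pow, div_one] at h2
  exact tendsto_nhdsWithin_of_tendsto_nhds h2

/-- a `C¹` function with bounded derivative of one coordinate -/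
theorem fzg_gh1_comp {τ τ' : ℝ → ℝ} (h : ∀ t, HasDerivAt τ (τ' t) t) (hc : Continuous τ')
    {C : ℝ} (hb : ∀ t, |τ' t| ≤ C) (s : Fin n) :
    R260.GH1 (fun x : EE n => τ (x s)) (fun r x => if r = s then τ' (x s) else 0) := by
  have hfd : ∀ x : EE n, HasFDerivAt (fun x : EE n => τ (x s))
      (τ' (x s) • (EuclideanSpace.proj s : EE n →L[ℝ] ℝ)) x := by
    intro x
    exact (h (x s)).comp_hasFDerivAt x (EuclideanSpace.proj s : EE n →L[ℝ] ℝ).hasFDerivAt
  have hC1 : R260.C1L (fun x : EE n => τ (x s)) := by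
    refine ⟨?_, C * ‖(EuclideanSpace.proj s : EE n →L[ℝ] ℝ)‖, fun x => ?_⟩
    · have hτ : ContDiff ℝ 1 τ := by
        rw [contDiff_one_iff_deriv]
        refine ⟨fun t => (h t).differentiableAt, ?_⟩
        have : deriv τ = τ' := funext fun t => (h t).deriv
        rw [this]
        exact hc
      exact hτ.comp (EuclideanSpace.proj s : EE n →L[ℝ] ℝ).contDiff
    · rw [(hfd x).fderiv, norm_smul]
      exact mul_le_mul_of_nonneg_right (hb _) (norm_nonneg _)
  have h1 := R260.gk_gh1_of_C1L hC1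
  have e : (fun r => R260.pd r (fun x : EE n => τ (x s)))
      = fun r x => if r = s then τ' (x s) else 0 := by
    funext r x
    unfold R260.pd
    rw [(hfd x).fderiv]
    by_cases hrs : r = s
    · subst hrs
      simp [R260.eb]
    · have : s ≠ r := fun h => hrs h.symm
      simp [R260.eb, hrs, this]
  rwa [e] at h1

theorem fzg_trunc_gh1 (H : Fin n → Mx n) {e : ℝ} (he : 0 ≤ e) :
    MxGH1 (fun x : EE n => ∑ s, fzgT e (x s) • H s) (fun r x => fzgT' e (x r) • H r) := by
  have h1 : ∀ s ∈ (Finset.univ : Finset (Fin n)), MxGH1 (fun x : EE n => fzgT e (x s) • H s)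
      (fun r x => (if r = s then fzgT' e (x s) else 0) • H s) := by
    intro s _ i j
    have := (fzg_gh1_comp (n := n) (fzgT_hasDerivAt he) (fzgT'_continuous he) (fzgT'_abs_le he)
      s).const_mul (H s i j)
    simpa only [Matrix.smul_apply, smul_eq_mul, mul_comm] using this
  have h2 := MxGH1.sum Finset.univ h1
  have e2 : (fun (r : Fin n) (x : EE n) => ∑ s, (if r = s then fzgT' e (x s) else 0) • H s)
      = fun r x => fzgT' e (x r) • H r := by
    funext r x
    simp [ite_smul]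
  rwa [e2] at h2

theorem fzg_trunc_symBd (hs : ∀ i, (H i).IsSymm) {e : ℝ} (he : 0 < e) :
    R260.MxSymBd (fun x : EE n => ∑ s, fzgT e (x s) • H s) := by
  refine ⟨fun x => fzg_lin_isSymm hs _, fun i j => ?_, fzgS H * (1 + 1 / e), fun x l => ?_⟩
  · simp only [Matrix.sum_apply, Matrix.smul_apply, smul_eq_mul]
    refine Finset.measurable_sum _ fun r _ => ?_
    exact ((fzgT_measurable e).comp
      (EuclideanSpace.proj r : EE n →L[ℝ] ℝ).continuous.measurable).mul_const _
  · exact fzg_eig_le hs _ (fun r => fzgT_abs_le' he _) l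

theorem fzg_memLp_of_le {u : EE n → ℝ} (hm : AEStronglyMeasurable u (stdGaussian (EE n))) {C c : ℝ}
    (hb : ∀ x, |u x| ≤ C * Real.exp (c * ‖x‖)) : MemLp u 2 (stdGaussian (EE n)) := by
  rw [memLp_two_iff_integrable_sq hm]
  refine Integrable.mono' ((fz_exp_norm_integrable n (2 * c)).const_mul (C ^ 2)) (hm.pow 2)
    (Eventually.of_forall fun x => ?_)
  rw [Real.norm_eq_abs, abs_of_nonneg (sq_nonneg _)]
  calc u x ^ 2 = |u x| ^ 2 := (sq_abs _).symm
    _ ≤ (C * Real.exp (c * ‖x‖)) ^ 2 := pow_le_pow_left₀ (abs_nonneg _) (hb x) 2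
    _ = C ^ 2 * Real.exp (2 * c * ‖x‖) := by
        rw [mul_pow, ← Real.exp_nat_mul]
        congr 2
        push_cast
        ring

/-- dominated convergence in `L²(γ)` with an exponential majorant -/
theorem fzg_tendsto_sq {F : ℝ → EE n → ℝ} {G : EE n → ℝ} {C c : ℝ}
    (hFm : ∀ e, AEStronglyMeasurable (F e) (stdGaussian (EE n)))
    (hGm : AEStronglyMeasurable G (stdGaussian (EE n)))
    (hpt : ∀ x, Tendsto (fun e => F e x) (𝓝[>] 0) (𝓝 (G x)))
    (hb : ∀ᶠ e in 𝓝[>] (0 : ℝ), ∀ x, |F e x| ≤ C * Real.exp (c * ‖x‖)) :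
    Tendsto (fun e => ∫ x, (F e x - G x) ^ 2 ∂(stdGaussian (EE n))) (𝓝[>] 0) (𝓝 0) := by
  have hG : ∀ x, |G x| ≤ C * Real.exp (c * ‖x‖) := fun x =>
    le_of_tendsto (hpt x).abs (hb.mono fun e he => he x)
  suffices key : Tendsto (fun e => ∫ x, (F e x - G x) ^ 2 ∂(stdGaussian (EE n))) (𝓝[>] 0)
      (𝓝 (∫ _x : EE n, (0 : ℝ) ∂(stdGaussian (EE n)))) by simpa using key
  refine tendsto_integral_filter_of_dominated_convergence
    (fun x => 4 * (C ^ 2 * Real.exp (2 * c * ‖x‖)))
    (Eventually.of_forall fun e => ((hFm e).sub hGm).pow 2) ?_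
    (((fz_exp_norm_integrable n (2 * c)).const_mul (C ^ 2)).const_mul 4) ?_
  · filter_upwards [hb] with e he
    refine Eventually.of_forall fun x => ?_
    rw [Real.norm_eq_abs, abs_of_nonneg (sq_nonneg _)]
    have h1 : |F e x - G x| ≤ 2 * (C * Real.exp (c * ‖x‖)) := by
      have := abs_sub (F e x) (G x)
      have h2 := he x
      have h3 := hG x
      linarith
    calc (F e x - G x) ^ 2 = |F e x - G x| ^ 2 := (sq_abs _).symm
      _ ≤ (2 * (C * Real.exp (c * ‖x‖))) ^ 2 := pow_le_pow_left₀ (abs_nonneg _) h1 2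
      _ = 4 * (C ^ 2 * Real.exp (2 * c * ‖x‖)) := by
          rw [mul_pow, mul_pow, ← Real.exp_nat_mul]
          norm_num
          left
          ring_nf
  · refine Eventually.of_forall fun x => ?_
    have := ((hpt x).sub_const (G x)).pow 2
    simpa using this

theorem fzg_exp_hasDerivAt (a t : ℝ) :
    HasDerivAt (fun x => Real.exp (a * x)) (a * Real.exp (a * t)) t := by
  have := ((hasDerivAt_id t).const_mul a).exp
  simpa [mul_comm] using this

theorem fzg_exp_le {a t ρ : ℝ} (ht : |t| ≤ ρ) : Real.exp (a * t) ≤ Real.exp (|a| * ρ) := by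
  apply Real.exp_le_exp.2
  calc a * t ≤ |a * t| := le_abs_self _
    _ = |a| * |t| := abs_mul _ _
    _ ≤ |a| * ρ := mul_le_mul_of_nonneg_left ht (abs_nonneg _)

/-- entries of `e^{aA}` -/
theorem fzg_E_le (hs : ∀ i, (H i).IsSymm) (a : ℝ) (y : Fin n → ℝ) {ρ : ℝ} (hy : ∀ r, |y r| ≤ ρ)
    (i j : Fin n) :
    |mxFun (fun x => Real.exp (a * x)) (∑ r, y r • H r) i j| ≤ 1 * Real.exp (|a| * fzgS H * ρ) := by
  rw [one_mul]
  apply R260.mxFun_apply_abs_le
  intro l
  rw [abs_of_pos (Real.exp_pos _), mul_assoc]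
  exact fzg_exp_le (fzg_eig_le hs y hy l)

/-- entries of the Daleckii-Krein derivative of `e^{aA}` -/
theorem fzg_K_le (hs : ∀ i, (H i).IsSymm) (a : ℝ) (y : Fin n → ℝ) {ρ : ℝ} (hy : ∀ r, |y r| ≤ ρ)
    (Z : Mx n) (i j : Fin n) :
    |mxDK (fun x => Real.exp (a * x)) (fun x => a * Real.exp (a * x)) (∑ r, y r • H r) Z i j|
      ≤ |a| * Real.sqrt (mxSq Z) * Real.exp (|a| * fzgS H * ρ) := by
  have hDD : ∀ k l, |R260.mxDD (fun x => Real.exp (a * x)) (fun x => a * Real.exp (a * x))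
      (mxEig (∑ r, y r • H r) k) (mxEig (∑ r, y r • H r) l)| ≤ |a| * Real.exp (|a| * fzgS H * ρ) := by
    intro k l
    refine R260.mxDD_abs_le (fzg_exp_hasDerivAt a) (lo := -(fzgS H * ρ)) (hi := fzgS H * ρ) ?_
      (abs_le.1 (fzg_eig_le hs y hy k)) (abs_le.1 (fzg_eig_le hs y hy l))
    intro t ht
    rw [abs_mul, abs_of_pos (Real.exp_pos _), mul_assoc]
    exact mul_le_mul_of_nonneg_left (fzg_exp_le (abs_le.2 ht)) (abs_nonneg _)
  have h1 := R260.mxDK_sq_le hDD Z
  have h2 := R260.mxc_apply_sq_le (mxDK (fun x => Real.exp (a * x)) (fun x => a * Real.exp (a * x))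
    (∑ r, y r • H r) Z) i j
  have h3 : (|a| * Real.exp (|a| * fzgS H * ρ)) ^ 2 * mxSq Z
      = (|a| * Real.sqrt (mxSq Z) * Real.exp (|a| * fzgS H * ρ)) ^ 2 := by
    rw [mul_pow, mul_pow, mul_pow, Real.sq_sqrt (R260.mxSq_nonneg Z)]
    ring
  exact abs_le_of_sq_le_sq ((h2.trans h1).trans h3.le) (by positivity)

theorem fzg_sym_half {A : Mx n} (hA : A.IsSymm) : (1 / 2 : ℝ) • (A + Aᵀ) = A :=
  R260.mxiSym_of_isSymm hA

theorem fzg_trunc_tendsto (H : Fin n → Mx n) (x : EE n) :
    Tendsto (fun e => ∑ s, fzgT e (x s) • H s) (𝓝[>] 0) (𝓝 (∑ s, x s • H s)) :=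
  tendsto_finsetSum _ fun s _ => (fzgT_tendsto (x s)).smul_const (H s)

/-- **chain rule**: `e^{aD}` is in the Gaussian Sobolev class with derivative `fzK` -/
theorem fz_gh1 (hs : ∀ i, (H i).IsSymm) (a : ℝ) :
    MxGH1 (fun N => fzE H a N) (fun r N => fzK H a r N) := by
  intro i j
  set f : ℝ → ℝ := fun x => Real.exp (a * x) with hf
  set f' : ℝ → ℝ := fun x => a * Real.exp (a * x) with hf'
  have hfd : ∀ t, HasDerivAt f (f' t) t := fzg_exp_hasDerivAt a
  have hfc : Continuous f := by rw [hf]; fun_prop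
  have hf'c : Continuous f' := by rw [hf']; fun_prop
  show R260.GH1 (fun N : EE n => mxFun f (∑ s, N s • H s) i j)
    (fun r N => mxDK f f' (∑ s, N s • H s) (H r) i j)
  -- measurability of the truncated and of the limit fields
  have hJ : ∀ τ : ℝ → ℝ, Measurable τ → ∀ k l, Measurable fun x : EE n => (∑ s, τ (x s) • H s) k l := by
    intro τ hτ k l
    simp only [Matrix.sum_apply, Matrix.smul_apply, smul_eq_mul]
    refine Finset.measurable_sum _ fun r _ => ?_
    exact (hτ.comp (EuclideanSpace.proj r : EE n →L[ℝ] ℝ).continuous.measurable).mul_const _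
  have hmE : ∀ τ : ℝ → ℝ, Measurable τ →
      Measurable fun x : EE n => mxFun f (∑ s, τ (x s) • H s) i j := by
    intro τ hτ
    have h := R260.mxFun_measurable_sym (hJ τ hτ) hfc i j
    simpa only [fzg_sym_half (fzg_lin_isSymm hs _)] using h
  have hmK : ∀ τ σ : ℝ → ℝ, Measurable τ → Measurable σ → ∀ r,
      Measurable fun x : EE n => mxDK f f' (∑ s, τ (x s) • H s) (σ (x r) • H r) i j := by
    intro τ σ hτ hσ r
    have hZ : ∀ k l, Measurable fun x : EE n => (σ (x r) • H r) k l := by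
      intro k l
      simp only [Matrix.smul_apply, smul_eq_mul]
      exact (hσ.comp (EuclideanSpace.proj r : EE n →L[ℝ] ℝ).continuous.measurable).mul_const _
    have h := R260.mxDK_measurable_sym (hJ τ hτ) hZ hfd hf'c i j
    simpa only [fzg_sym_half (fzg_lin_isSymm hs _)] using h
  have hmE0 : Measurable fun x : EE n => mxFun f (∑ s, x s • H s) i j := hmE id measurable_id
  have hmK0 : ∀ r, Measurable fun x : EE n => mxDK f f' (∑ s, x s • H s) (H r) i j := by
    intro r
    have := hmK id (fun _ => 1) measurable_id measurable_const r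
    simpa only [one_smul, id] using this
  have hpos : ∀ᶠ e in 𝓝[>] (0 : ℝ), 0 < e := eventually_mem_nhdsWithin
  refine R260.gk_gh1_of_tendsto (l := 𝓝[>] (0 : ℝ))
    (v := fun e x => mxFun f (∑ s, fzgT e (x s) • H s) i j)
    (dv := fun e r x => mxDK f f' (∑ s, fzgT e (x s) • H s) (fzgT' e (x r) • H r) i j)
    ?_ ?_ ?_ ?_ ?_
  · filter_upwards [hpos] with e he
    exact R260.mx_gh1_chain (fzg_trunc_symBd hs he) (fzg_trunc_gh1 H he.le) hfd hf'c i j
  · exact fzg_memLp_of_le hmE0.aestronglyMeasurable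
      fun x => fzg_E_le hs a (fun r => x r) (fzg_coord_le x) i j
  · intro r
    exact fzg_memLp_of_le (hmK0 r).aestronglyMeasurable
      fun x => fzg_K_le hs a (fun r => x r) (fzg_coord_le x) (H r) i j
  · refine fzg_tendsto_sq (C := 1) (c := |a| * fzgS H)
      (fun e => (hmE _ (fzgT_measurable e)).aestronglyMeasurable) hmE0.aestronglyMeasurable ?_ ?_
    · intro x
      have h1 := (((R260.mxFun_continuous (m := n) hfc).matrix_elem i j).tendsto
        (∑ s, x s • H s)).comp (fzg_trunc_tendsto H x)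
      simpa only [Function.comp_def, fzg_sym_half (fzg_lin_isSymm hs _)] using h1
    · filter_upwards [hpos] with e he x
      exact fzg_E_le hs a _ (fun r => (fzgT_abs_le he.le _).trans (fzg_coord_le x r)) i j
  · intro r
    refine fzg_tendsto_sq (C := |a| * Real.sqrt (mxSq (H r))) (c := |a| * fzgS H)
      (fun e => (hmK _ _ (fzgT_measurable e) (fzgT'_measurable e) r).aestronglyMeasurable)
      (hmK0 r).aestronglyMeasurable ?_ ?_
    · intro x
      have hZ : Tendsto (fun e => fzgT' e (x r) • H r) (𝓝[>] 0) (𝓝 (H r)) := by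
        have := (fzgT'_tendsto (x r)).smul_const (H r)
        rwa [one_smul] at this
      have h1 := (((R260.mxDK_continuous (m := n) hfd hf'c).matrix_elem i j).tendsto
        (∑ s, x s • H s, H r)).comp ((fzg_trunc_tendsto H x).prodMk_nhds hZ)
      simpa only [Function.comp_def, fzg_sym_half (fzg_lin_isSymm hs _)] using h1
    · filter_upwards [hpos] with e he x
      refine (fzg_K_le hs a _ (fun r => (fzgT_abs_le he.le _).trans (fzg_coord_le x r)) _ i j).trans ?_
      refine mul_le_mul_of_nonneg_right (mul_le_mul_of_nonneg_left ?_ (abs_nonneg _))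
        (Real.exp_pos _).le
      apply Real.sqrt_le_sqrt
      have e1 : mxSq (fzgT' e (x r) • H r) = fzgT' e (x r) ^ 2 * mxSq (H r) := by
        simp only [R260.mxSq_eq_sum, Matrix.smul_apply, smul_eq_mul, mul_pow, Finset.mul_sum]
      rw [e1]
      have h2 : fzgT' e (x r) ^ 2 ≤ 1 := by
        rw [← sq_abs]
        exact pow_le_one₀ (abs_nonneg _) (fzgT'_abs_le he.le _)
      calc fzgT' e (x r) ^ 2 * mxSq (H r) ≤ 1 * mxSq (H r) :=
            mul_le_mul_of_nonneg_right h2 (R260.mxSq_nonneg _)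
        _ = mxSq (H r) := one_mul _

theorem fz_E_L2 (hs : ∀ i, (H i).IsSymm) (a : ℝ) : MxL2 (stdGaussian (EE n)) (fzE H a) :=
  (fz_gh1 hs a).toL2.1

theorem fz_K_L2 (hs : ∀ i, (H i).IsSymm) (a : ℝ) (i : Fin n) :
    MxL2 (stdGaussian (EE n)) (fzK H a i) :=
  (fz_gh1 hs a).toL2.2 i

theorem fz_Err_L2 (hs : ∀ i, (H i).IsSymm) (a : ℝ) (i : Fin n) :
    MxL2 (stdGaussian (EE n)) (fzErr H a i) := by
  unfold fzErr
  exact (fz_K_L2 hs a i).sub (MxL2.smul a ((R260.MxBd.const (H i)).mul_L2 (fz_E_L2 hs a)))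

theorem fz_M_L2 (hs : ∀ i, (H i).IsSymm) (t : ℝ) : MxL2 (stdGaussian (EE n)) (fzM H t) := by
  have e : fzM H t = fun N => Real.exp (-(2 * t)) • fzE H (Real.sqrt (2 * t)) N :=
    funext fun N => fz_M_eq H t N
  rw [e]
  exact MxL2.smul _ (fz_E_L2 hs _)

end Claimed.Agent.R259
end

/- ===== packed: Claimed.Agent.R259.S6ExpPhiA ===== -/
section
/-
Row 259 (S0499), package EXP, leaf L-exp-phiA: derivative of `φ(a) = E tr(W² e^{aD})` and the
Hermite-Hadamard bound for the Daleckii-Krein derivative.  Statements: helper88, proofs: helper268.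
-/
set_option autoImplicit false

open MeasureTheory ProbabilityTheory
open scoped BigOperators Matrix
open Claimed.Agent.R260 (Mx mxFun mxSchur mxSq mxIP mxEig mxU mxRot mxDK MxGH1 MxL2)

namespace Claimed.Agent.R259

variable {n : ℕ} {H : Fin n → Mx n} {W : Mx n}

/-! ### elementary facts -/

theorem FzCol.W_symm (h : FzCol H W) : Wᵀ = W := by
  have := h.psd.isHermitian
  rw [Matrix.IsHermitian, Matrix.conjTranspose_eq_transpose_of_trivial] at this
  exact this

theorem fzp_phi_zero (h : FzCol H W) : fzPhi H W 0 = mxSq W := by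
  unfold fzPhi
  simp only [fz_E_zero, Matrix.mul_one]
  rw [integral_const, mxSq, h.W_symm]
  simp

theorem fzp_trace_nonneg (h : FzCol H W) (a : ℝ) (N : EE n) :
    0 ≤ Matrix.trace (W * W * fzE H a N) := by
  have := h.E_sq (a / 2) N
  rw [show 2 * (a / 2) = a by ring] at this
  rw [← this]
  exact R260.mxSq_nonneg _

theorem fzp_phi_nonneg (h : FzCol H W) (a : ℝ) : 0 ≤ fzPhi H W a :=
  integral_nonneg fun N => fzp_trace_nonneg h a N

/-! ### differentiation in the parameter -/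

theorem fzp_mxFun_apply (f : ℝ → ℝ) (A : Mx n) (i j : Fin n) :
    mxFun f A i j = ∑ l, mxU A i l * f (mxEig A l) * mxU A j l := by
  rw [mxFun, Matrix.mul_apply]
  simp only [Matrix.mul_diagonal, Matrix.transpose_apply]

theorem fzp_mxFun_hasDerivAt {f f' : ℝ → ℝ → ℝ} (A : Mx n) (a : ℝ)
    (h : ∀ l, HasDerivAt (fun b => f b (mxEig A l)) (f' a (mxEig A l)) a) (i j : Fin n) :
    HasDerivAt (fun b => mxFun (f b) A i j) (mxFun (f' a) A i j) a := by
  simp only [fzp_mxFun_apply]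
  exact HasDerivAt.fun_sum fun l _ => ((h l).const_mul _).mul_const _

theorem fzp_trace_mul_hasDerivAt {f f' : ℝ → ℝ → ℝ} (M A : Mx n) (a : ℝ)
    (h : ∀ l, HasDerivAt (fun b => f b (mxEig A l)) (f' a (mxEig A l)) a) :
    HasDerivAt (fun b => Matrix.trace (M * mxFun (f b) A)) (Matrix.trace (M * mxFun (f' a) A)) a := by
  simp only [Matrix.trace, Matrix.diag_apply, Matrix.mul_apply]
  exact HasDerivAt.fun_sum fun i _ => HasDerivAt.fun_sum fun j _ =>
    (fzp_mxFun_hasDerivAt A a h j i).const_mul _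

theorem fzp_exp_param_hasDerivAt (a x : ℝ) :
    HasDerivAt (fun b => Real.exp (b * x)) (x * Real.exp (a * x)) a := by
  have := ((hasDerivAt_id a).mul_const x).exp
  simpa [mul_comm] using this

/-- `|tr(M f(A))| ≤ (∑ |M_ij|) sup |f|` -/
theorem fzp_trace_mul_abs_le (M : Mx n) {f : ℝ → ℝ} {C : ℝ} {A : Mx n}
    (h : ∀ i, |f (mxEig A i)| ≤ C) :
    |Matrix.trace (M * mxFun f A)| ≤ (∑ i, ∑ j, |M i j|) * C := by
  simp only [Matrix.trace, Matrix.diag_apply, Matrix.mul_apply]
  rw [Finset.sum_mul]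
  refine (Finset.abs_sum_le_sum_abs _ _).trans (Finset.sum_le_sum fun i _ => ?_)
  rw [Finset.sum_mul]
  refine (Finset.abs_sum_le_sum_abs _ _).trans (Finset.sum_le_sum fun j _ => ?_)
  rw [abs_mul]
  exact mul_le_mul_of_nonneg_left (R260.mxFun_apply_abs_le h j i) (abs_nonneg _)

theorem fzp_eig_le (hs : ∀ i, (H i).IsSymm) (N : EE n) (l : Fin n) :
    |mxEig (colAt H N) l| ≤ fzgS H * ‖N‖ :=
  fzg_eig_le hs (fun r => N r) (fzg_coord_le N) l

theorem fzp_xexp_le (a x : ℝ) : |x * Real.exp (a * x)| ≤ Real.exp ((|a| + 1) * |x|) := by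
  rw [abs_mul, abs_of_pos (Real.exp_pos _), add_mul, one_mul, Real.exp_add, mul_comm]
  refine mul_le_mul (Real.exp_le_exp.2 ?_) ?_ (abs_nonneg _) (Real.exp_pos _).le
  · rw [← abs_mul]
    exact le_abs_self _
  · have := Real.add_one_le_exp |x|
    linarith

/-- the field `D e^{aD}` -/
theorem fzp_DE_eq (hs : ∀ i, (H i).IsSymm) (a : ℝ) (N : EE n) :
    mxFun (fun x => x * Real.exp (a * x)) (colAt H N) = colAt H N * fzE H a N := by
  rw [R260.mxFun_mul, R260.mxFun_id (colAt_isSymm hs N)]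
  rfl

theorem fzp_DE_L2 (hs : ∀ i, (H i).IsSymm) (a : ℝ) :
    MxL2 (stdGaussian (EE n)) (fun N => mxFun (fun x => x * Real.exp (a * x)) (colAt H N)) := by
  refine fz_fun_L2 hs (by fun_prop) (C := 1) (c := |a| + 1) fun x => ?_
  rw [one_mul]
  exact fzp_xexp_le a x

theorem fzp_phi_hasDerivAt_aux (hs : ∀ i, (H i).IsSymm) (M : Mx n) (a : ℝ) :
    HasDerivAt (fun b => ∫ N, Matrix.trace (M * fzE H b N) ∂(stdGaussian (EE n)))
      (∫ N, Matrix.trace (M * mxFun (fun x => x * Real.exp (a * x)) (colAt H N))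
        ∂(stdGaussian (EE n))) a := by
  have hI : ∀ b, Integrable (fun N => Matrix.trace (M * fzE H b N)) (stdGaussian (EE n)) := fun b =>
    ((R260.MxBd.const M).mul_L2 (fz_E_L2 hs b)).integrable_trace
  have hI' : Integrable (fun N => Matrix.trace (M * mxFun (fun x => x * Real.exp (a * x)) (colAt H N)))
      (stdGaussian (EE n)) :=
    ((R260.MxBd.const M).mul_L2 (fzp_DE_L2 hs a)).integrable_trace
  refine (hasDerivAt_integral_of_dominated_loc_of_deriv_le
    (F := fun b N => Matrix.trace (M * fzE H b N))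
    (F' := fun b N => Matrix.trace (M * mxFun (fun x => x * Real.exp (b * x)) (colAt H N)))
    (bound := fun N => (∑ i, ∑ j, |M i j|) * Real.exp ((|a| + 1 + 1) * fzgS H * ‖N‖))
    (s := Metric.ball a 1) (Metric.ball_mem_nhds a one_pos)
    (Filter.Eventually.of_forall fun b => (hI b).aestronglyMeasurable) (hI a)
    hI'.aestronglyMeasurable ?_ ((fz_exp_norm_integrable n _).const_mul _) ?_).2
  · refine Filter.Eventually.of_forall fun N b hb => ?_
    rw [Real.norm_eq_abs]
    refine fzp_trace_mul_abs_le M fun l => (fzp_xexp_le b _).trans (Real.exp_le_exp.2 ?_)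
    have hb' : |b| ≤ |a| + 1 := by
      have h1 : |b - a| < 1 := by simpa [Real.dist_eq] using hb
      have h2 : |b| ≤ |b - a| + |a| := by
        have := abs_add_le (b - a) a
        simpa using this
      linarith
    have h3 := fzp_eig_le hs N l
    calc (|b| + 1) * |mxEig (colAt H N) l| ≤ (|a| + 1 + 1) * (fzgS H * ‖N‖) :=
          mul_le_mul (by linarith) h3 (abs_nonneg _) (by positivity)
      _ = _ := by ring
  · refine Filter.Eventually.of_forall fun N b _ => ?_
    exact fzp_trace_mul_hasDerivAt (f := fun b x => Real.exp (b * x))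
      (f' := fun b x => x * Real.exp (b * x)) M (colAt H N) b fun l => fzp_exp_param_hasDerivAt b _

theorem fzp_trace_colAt (M X : Mx n) (N : EE n) :
    Matrix.trace (M * (colAt H N * X)) = ∑ i, N i * Matrix.trace (M * H i * X) := by
  rw [colAt, Matrix.sum_mul, Matrix.mul_sum, Matrix.trace_sum]
  refine Finset.sum_congr rfl fun i _ => ?_
  rw [Matrix.smul_mul, Matrix.mul_smul, Matrix.trace_smul, smul_eq_mul, Matrix.mul_assoc]

theorem fzp_phi_hasDeriv (h : FzCol H W) (a : ℝ) :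
    HasDerivAt (fzPhi H W)
      (∑ i, ∫ N, Matrix.trace (W * W * (H i * fzK H a i N)) ∂(stdGaussian (EE n))) a := by
  have h1 := fzp_phi_hasDerivAt_aux h.symm (W * W) a
  have e : ∫ N, Matrix.trace (W * W * mxFun (fun x => x * Real.exp (a * x)) (colAt H N))
        ∂(stdGaussian (EE n))
      = ∑ i, ∫ N, Matrix.trace (W * W * (H i * fzK H a i N)) ∂(stdGaussian (EE n)) := by
    simp only [fzp_DE_eq h.symm, fzp_trace_colAt]
    have hg : ∀ i : Fin n, R260.GH1 (fun N : EE n => Matrix.trace (W * W * H i * fzE H a N))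
        (fun r N => Matrix.trace (W * W * H i * fzK H a r N)) := fun i =>
      ((fz_gh1 h.symm a).const_mul (W * W * H i)).trace
    rw [integral_finsetSum _ fun i _ =>
      R260.gk_integrable_mul (R260.gk_gh1_coord (m := n) i).1 (hg i).1]
    refine Finset.sum_congr rfl fun i _ => ?_
    rw [(hg i).ibp i]
    simp only [Matrix.mul_assoc]
  rw [← e]
  exact h1

/-! ### a monotonicity principle and Hermite-Hadamard for the exponential -/

theorem fzp_le_of_deriv_nonneg {g g' : ℝ → ℝ} {θ : ℝ} (hθ : 0 ≤ θ)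
    (hd : ∀ x ∈ Set.Icc 0 θ, HasDerivAt g (g' x) x) (h0 : ∀ x ∈ Set.Icc 0 θ, 0 ≤ g' x) :
    g 0 ≤ g θ := by
  have hm : MonotoneOn g (Set.Icc 0 θ) := by
    refine monotoneOn_of_deriv_nonneg (convex_Icc 0 θ)
      (fun x hx => (hd x hx).continuousAt.continuousWithinAt)
      (fun x hx => (hd x (interior_subset hx)).differentiableAt.differentiableWithinAt)
      fun x hx => ?_
    rw [(hd x (interior_subset hx)).deriv]
    exact h0 x (interior_subset hx)
  exact hm (Set.left_mem_Icc.2 hθ) (Set.right_mem_Icc.2 hθ) hθ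

theorem fzp_hh_aux {t : ℝ} (ht : 0 ≤ t) : Real.exp t - 1 ≤ t * (Real.exp t + 1) / 2 := by
  have hd : ∀ x ∈ Set.Icc 0 t, HasDerivAt (fun x => x * (Real.exp x + 1) / 2 - Real.exp x + 1)
      ((1 - Real.exp x + x * Real.exp x) / 2) x := by
    intro x _
    have h1 := ((((hasDerivAt_id x).mul ((Real.hasDerivAt_exp x).add_const 1)).div_const 2).sub
      (Real.hasDerivAt_exp x)).add_const 1
    have e : (1 - Real.exp x + x * Real.exp x) / 2
        = (1 * (Real.exp x + 1) + id x * Real.exp x) / 2 - Real.exp x := by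
      simp only [id]
      ring
    rw [e]
    exact h1
  have h0 : ∀ x ∈ Set.Icc 0 t, 0 ≤ (1 - Real.exp x + x * Real.exp x) / 2 := by
    intro x _
    have h1 := Real.add_one_le_exp (-x)
    have h2 : (1 - x) * Real.exp x ≤ 1 := by
      have h3 : (1 - x) * Real.exp x ≤ Real.exp (-x) * Real.exp x :=
        mul_le_mul_of_nonneg_right (by linarith) (Real.exp_pos x).le
      rwa [← Real.exp_add, neg_add_cancel, Real.exp_zero] at h3
    nlinarith
  have := fzp_le_of_deriv_nonneg ht hd h0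
  simp only [zero_mul, zero_div, Real.exp_zero] at this
  linarith

theorem fzp_dd_le_aux {a : ℝ} (ha : 0 ≤ a) {x y : ℝ} (hxy : y < x) :
    (Real.exp (a * x) - Real.exp (a * y)) / (x - y)
      ≤ a * (Real.exp (a * x) + Real.exp (a * y)) / 2 := by
  have hp : 0 < x - y := sub_pos.2 hxy
  rw [div_le_iff₀ hp]
  have h1 := fzp_hh_aux (t := a * (x - y)) (by positivity)
  have h2 : Real.exp (a * x) = Real.exp (a * (x - y)) * Real.exp (a * y) := by
    rw [← Real.exp_add]
    congr 1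
    ring
  rw [h2]
  have h3 := mul_le_mul_of_nonneg_right h1 (Real.exp_pos (a * y)).le
  nlinarith

theorem fzp_dd_le {a : ℝ} (ha : 0 ≤ a) (x y : ℝ) :
    R260.mxDD (fun x => Real.exp (a * x)) (fun x => a * Real.exp (a * x)) x y
      ≤ a * (Real.exp (a * x) + Real.exp (a * y)) / 2 := by
  unfold R260.mxDD
  split_ifs with hxy
  · subst hxy
    apply le_of_eq
    ring
  · rcases lt_or_gt_of_ne hxy with h | h
    · have := fzp_dd_le_aux ha h
      have e : (Real.exp (a * x) - Real.exp (a * y)) / (x - y)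
          = (Real.exp (a * y) - Real.exp (a * x)) / (y - x) := by
        rw [← neg_sub (Real.exp (a * y)), ← neg_sub y x, neg_div_neg_eq]
      rw [e]
      linarith
    · exact fzp_dd_le_aux ha h

/-! ### the trace inequality -/

theorem fzp_ip_DK_le {a : ℝ} (ha : 0 ≤ a) (A : Mx n) {Y : Mx n} (hY : Y.IsSymm) :
    mxIP Y (mxDK (fun x => Real.exp (a * x)) (fun x => a * Real.exp (a * x)) A Y)
      ≤ a * mxIP Y (Y * mxFun (fun x => Real.exp (a * x)) A) := by
  rw [R260.mxIP_rot A, R260.mxIP_rot A]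
  simp only [R260.mxRot_mxDK_apply, R260.mxRot_mul_mxFun_apply]
  have hsw : ∑ p, ∑ q, Real.exp (a * mxEig A p) * mxRot A Y p q ^ 2
      = ∑ p, ∑ q, Real.exp (a * mxEig A q) * mxRot A Y p q ^ 2 := by
    rw [Finset.sum_comm]
    refine Finset.sum_congr rfl fun p _ => Finset.sum_congr rfl fun q _ => ?_
    rw [R260.mxRot_symm_apply A hY]
  calc ∑ p, ∑ q, mxRot A Y p q * (R260.mxDD (fun x => Real.exp (a * x))
          (fun x => a * Real.exp (a * x)) (mxEig A p) (mxEig A q) * mxRot A Y p q)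
      ≤ ∑ p, ∑ q, (a * (Real.exp (a * mxEig A p) + Real.exp (a * mxEig A q)) / 2)
          * mxRot A Y p q ^ 2 := by
        refine Finset.sum_le_sum fun p _ => Finset.sum_le_sum fun q _ => ?_
        have := mul_le_mul_of_nonneg_right (fzp_dd_le ha (mxEig A p) (mxEig A q))
          (sq_nonneg (mxRot A Y p q))
        nlinarith
    _ = a / 2 * (∑ p, ∑ q, Real.exp (a * mxEig A p) * mxRot A Y p q ^ 2)
          + a / 2 * ∑ p, ∑ q, Real.exp (a * mxEig A q) * mxRot A Y p q ^ 2 := by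
        simp only [Finset.mul_sum, ← Finset.sum_add_distrib]
        refine Finset.sum_congr rfl fun p _ => Finset.sum_congr rfl fun q _ => ?_
        ring
    _ = a * ∑ p, ∑ q, mxRot A Y p q * (mxRot A Y p q * Real.exp (a * mxEig A q)) := by
        rw [hsw, ← add_mul, add_halves]
        congr 1
        refine Finset.sum_congr rfl fun p _ => Finset.sum_congr rfl fun q _ => ?_
        ring

theorem FzCol.WH_symm (h : FzCol H W) (i : Fin n) : (W * H i).IsSymm := by
  unfold Matrix.IsSymm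
  rw [Matrix.transpose_mul, h.W_symm, (h.symm i).eq, h.comm i]

theorem fzp_K_term (h : FzCol H W) (a : ℝ) (N : EE n) (i : Fin n) :
    Matrix.trace (W * W * (H i * fzK H a i N))
      = mxIP (W * H i) (mxDK (fun x => Real.exp (a * x)) (fun x => a * Real.exp (a * x))
          (colAt H N) (W * H i)) := by
  have e1 : fzK H a i N * W = mxDK (fun x => Real.exp (a * x)) (fun x => a * Real.exp (a * x))
      (colAt H N) (W * H i) := by
    unfold fzK mxDK
    rw [← mxSchur_mul_of_commute _ (colAt_isSymm h.symm N) (h.comm_colAt N), h.comm i]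
  rw [mxIP, (h.WH_symm i).eq, ← e1]
  calc Matrix.trace (W * W * (H i * fzK H a i N))
      = Matrix.trace (W * (W * H i * fzK H a i N)) := by simp only [Matrix.mul_assoc]
    _ = Matrix.trace (W * H i * fzK H a i N * W) := Matrix.trace_mul_comm _ _
    _ = _ := by rw [Matrix.mul_assoc (W * H i)]

theorem fzp_S_term (h : FzCol H W) (X : Mx n) :
    Matrix.trace (W * W * (colS H * X)) = ∑ i, mxIP (W * H i) (W * H i * X) := by
  rw [colS, Matrix.sum_mul, Matrix.mul_sum, Matrix.trace_sum]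
  refine Finset.sum_congr rfl fun i _ => ?_
  rw [mxIP, (h.WH_symm i).eq]
  congr 1
  calc W * W * (H i * H i * X) = W * (W * H i) * (H i * X) := by simp only [Matrix.mul_assoc]
    _ = W * (H i * W) * (H i * X) := by rw [h.comm i]
    _ = _ := by simp only [Matrix.mul_assoc]

theorem fzp_K_trace_le (h : FzCol H W) {a : ℝ} (ha : 0 ≤ a) (N : EE n) :
    ∑ i, Matrix.trace (W * W * (H i * fzK H a i N))
      ≤ a * Matrix.trace (W * W * (colS H * fzE H a N)) := by
  rw [fzp_S_term h, Finset.mul_sum]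
  refine Finset.sum_le_sum fun i _ => ?_
  rw [fzp_K_term h]
  exact fzp_ip_DK_le ha (colAt H N) (h.WH_symm i)

end Claimed.Agent.R259
end

/- ===== packed: Claimed.Agent.R259.S6ExpPhiB ===== -/
section
/-
Row 259 (S0499), package EXP, leaf L-exp-phiB: differential inequalities for
`φ(a) = E tr(W² e^{aD})`.  Statements: helper88, proofs: helper268.
-/
set_option autoImplicit false

open MeasureTheory ProbabilityTheory
open scoped BigOperators Matrix
open Claimed.Agent.R260 (Mx mxFun mxSchur mxSq mxIP mxEig mxU mxRot mxDK MxGH1 MxL2)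

namespace Claimed.Agent.R259

variable {n : ℕ} {H : Fin n → Mx n} {W : Mx n}

/-- the derivative of `φ` -/
noncomputable def fzpD (H : Fin n → Mx n) (W : Mx n) (a : ℝ) : ℝ :=
  ∑ i, ∫ N, Matrix.trace (W * W * (H i * fzK H a i N)) ∂(stdGaussian (EE n))

/-- `E tr(W² S e^{aD})` -/
noncomputable def fzpS (H : Fin n → Mx n) (W : Mx n) (a : ℝ) : ℝ :=
  ∫ N, Matrix.trace (W * W * (colS H * fzE H a N)) ∂(stdGaussian (EE n))

theorem s6expphib_eqns_cite : True := by
  have := @fzpD.eq_1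
  have := @fzpS.eq_1
  trivial

/-! ### integrability -/

theorem fzp_int2 (M A : Mx n) {F : EE n → Mx n} (hF : MxL2 (stdGaussian (EE n)) F) :
    Integrable (fun N => Matrix.trace (M * (A * F N))) (stdGaussian (EE n)) :=
  ((R260.MxBd.const M).mul_L2 ((R260.MxBd.const A).mul_L2 hF)).integrable_trace

theorem fzp_int1 (M : Mx n) {F : EE n → Mx n} (hF : MxL2 (stdGaussian (EE n)) F) :
    Integrable (fun N => Matrix.trace (M * F N)) (stdGaussian (EE n)) :=
  ((R260.MxBd.const M).mul_L2 hF).integrable_trace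

/-! ### pointwise trace identities -/

theorem fzp_trace_eq_hsI (h : FzCol H W) {A : Mx n} (hA : A.IsSymm) (X : Mx n) :
    Matrix.trace (W * W * (A * X)) = hsI (A * W) (X * W) := by
  rw [hsI_eq_trace', Matrix.transpose_mul, h.W_symm, hA.eq]
  calc Matrix.trace (W * W * (A * X)) = Matrix.trace (W * (W * A * X)) := by
        simp only [Matrix.mul_assoc]
    _ = Matrix.trace (W * A * X * W) := Matrix.trace_mul_comm _ _
    _ = _ := by rw [Matrix.mul_assoc (W * A)]

theorem fzp_S_le (h : FzCol H W) (a : ℝ) (N : EE n) :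
    Matrix.trace (W * W * (colS H * fzE H a N)) ≤ 4 * Matrix.trace (W * W * fzE H a N) := by
  have h1 := h.col_sq (fzE H (a / 2) N * W)
  rw [h.E_sq, show 2 * (a / 2) = a by ring] at h1
  refine le_trans (le_of_eq ?_) h1
  rw [colS, Matrix.sum_mul, Matrix.mul_sum, Matrix.trace_sum]
  refine Finset.sum_congr rfl fun i _ => ?_
  have hE : fzE H a N = fzE H (a / 2) N * fzE H (a / 2) N := by
    rw [fz_E_mul]
    congr 1
    ring
  have hEs : (fzE H (a / 2) N)ᵀ = fzE H (a / 2) N := (R260.mxFun_isSymm _ _).eq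
  have hc : fzE H (a / 2) N * W = W * fzE H (a / 2) N := h.comm_fun _ N
  set E := fzE H (a / 2) N with hEdef
  rw [hE, mxSq, Matrix.transpose_mul, Matrix.transpose_mul, h.W_symm, hEs, (h.symm i).eq]
  calc Matrix.trace (W * W * (H i * H i * (E * E)))
      = Matrix.trace (W * W * (H i * H i * E) * E) := by simp only [Matrix.mul_assoc]
    _ = Matrix.trace (E * (W * W * (H i * H i * E))) := Matrix.trace_mul_comm _ _
    _ = Matrix.trace (E * W * (W * (H i * H i * E))) := by simp only [Matrix.mul_assoc]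
    _ = Matrix.trace (W * (E * (W * (H i * H i * E)))) := by rw [hc]; simp only [Matrix.mul_assoc]
    _ = Matrix.trace (E * (W * (H i * H i * E)) * W) := Matrix.trace_mul_comm _ _
    _ = Matrix.trace (E * W * (H i * (H i * (E * W)))) := by simp only [Matrix.mul_assoc]
    _ = Matrix.trace (W * E * H i * (H i * (E * W))) := by rw [hc]; simp only [Matrix.mul_assoc]

/-! ### the differential inequalities -/

theorem fzp_D_le (h : FzCol H W) {a : ℝ} (ha : 0 ≤ a) : fzpD H W a ≤ a * fzpS H W a := by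
  unfold fzpD fzpS
  rw [← integral_finsetSum _ fun i _ => fzp_int2 (W * W) (H i) (fz_K_L2 h.symm a i),
    ← integral_const_mul]
  exact integral_mono (integrable_finsetSum _ fun i _ => fzp_int2 (W * W) (H i) (fz_K_L2 h.symm a i))
    ((fzp_int2 (W * W) (colS H) (fz_E_L2 h.symm a)).const_mul a) fun N => fzp_K_trace_le h ha N

theorem fzp_S_le_phi (h : FzCol H W) (a : ℝ) : fzpS H W a ≤ 4 * fzPhi H W a := by
  unfold fzpS fzPhi
  rw [← integral_const_mul]
  exact integral_mono (fzp_int2 (W * W) (colS H) (fz_E_L2 h.symm a))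
    ((fzp_int1 (W * W) (fz_E_L2 h.symm a)).const_mul 4) fun N => fzp_S_le h a N

theorem fzp_EW_L2 (h : FzCol H W) (a : ℝ) :
    RL2 (stdGaussian (EE n)) (fun N => fzE H a N * W) :=
  fun i j => ((fz_E_L2 h.symm a).mul_Bd (R260.MxBd.const W)) i j

theorem fzp_const_L2 (M : Mx n) : RL2 (stdGaussian (EE n)) (fun _ : EE n => M) :=
  fun i j => (R260.MxBd.const (Ω := EE n) M).toL2 i j

theorem fzp_integral_EW (h : FzCol H W) (a : ℝ) :
    ∫ N, hs2 (fzE H a N * W) ∂(stdGaussian (EE n)) = fzPhi H W (2 * a) := by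
  unfold fzPhi
  simp only [← mxSq_eq_hs2, h.E_sq]

theorem colS_sub_one_isSymm (hs : ∀ i, (H i).IsSymm) : (colS H - 1).IsSymm := by
  unfold Matrix.IsSymm
  rw [Matrix.transpose_sub, (colS_isSymm hs).eq, Matrix.transpose_one]

/-- `|E tr(W² S e^{aD}) - φ(a)| ≤ ‖(S-1)W‖ φ(2a)^{1/2}` -/
theorem fzp_S_sub_phi (h : FzCol H W) (a : ℝ) :
    |fzpS H W a - fzPhi H W a| ≤ Real.sqrt (fzS H W) * Real.sqrt (fzPhi H W (2 * a)) := by
  have e : fzpS H W a - fzPhi H W a
      = ∑ _i : Unit, ∫ N, hsI ((colS H - 1) * W) (fzE H a N * W) ∂(stdGaussian (EE n)) := by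
    unfold fzpS fzPhi
    rw [← integral_sub (fzp_int2 (W * W) (colS H) (fz_E_L2 h.symm a))
      (fzp_int1 (W * W) (fz_E_L2 h.symm a))]
    simp only [Finset.univ_unique, Finset.sum_singleton,
      ← fzp_trace_eq_hsI h (colS_sub_one_isSymm h.symm)]
    refine integral_congr_ae (Filter.Eventually.of_forall fun N => ?_)
    beta_reduce
    rw [Matrix.sub_mul, Matrix.one_mul, Matrix.mul_sub, Matrix.trace_sub]
  rw [e]
  have h1 := mk_abs_sum_integral_hsI_le (ι := Unit) (μ := stdGaussian (EE n))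
    (F := fun _ _ => (colS H - 1) * W) (G := fun _ N => fzE H a N * W)
    (fun _ => fzp_const_L2 _) (fun _ => fzp_EW_L2 h a)
  refine h1.trans (le_of_eq ?_)
  simp only [Finset.univ_unique, Finset.sum_singleton, fzp_integral_EW h, integral_const,
    probReal_univ, one_smul, fzS, mxSq_eq_hs2]

theorem fzp_D_eq (h : FzCol H W) (a : ℝ) :
    fzpD H W a = a * fzpS H W a
      + ∑ i, ∫ N, hsI (H i * W) (fzErr H a i N * W) ∂(stdGaussian (EE n)) := by
  unfold fzpD fzpS
  simp only [← fzp_trace_eq_hsI h (h.symm _)]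
  rw [← integral_finsetSum _ fun i _ => fzp_int2 (W * W) (H i) (fz_K_L2 h.symm a i),
    ← integral_finsetSum _ fun i _ => fzp_int2 (W * W) (H i) (fz_Err_L2 h.symm a i),
    ← integral_const_mul,
    ← integral_add ((fzp_int2 (W * W) (colS H) (fz_E_L2 h.symm a)).const_mul a)
      (integrable_finsetSum _ fun i _ => fzp_int2 (W * W) (H i) (fz_Err_L2 h.symm a i))]
  refine integral_congr_ae (Filter.Eventually.of_forall fun N => ?_)
  beta_reduce
  rw [colS, Matrix.sum_mul, Matrix.mul_sum, Matrix.trace_sum, Finset.mul_sum,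
    ← Finset.sum_add_distrib]
  refine Finset.sum_congr rfl fun i _ => ?_
  have e : fzK H a i N = a • (H i * fzE H a N) + fzErr H a i N := by
    unfold fzErr
    abel
  rw [e, Matrix.mul_add, Matrix.mul_add, Matrix.trace_add, Matrix.mul_smul, Matrix.mul_smul,
    Matrix.trace_smul, smul_eq_mul, Matrix.mul_assoc (H i)]

theorem fzp_err_le (h : FzCol H W) (a : ℝ) :
    |∑ i, ∫ N, hsI (H i * W) (fzErr H a i N * W) ∂(stdGaussian (EE n))|
      ≤ 2 * Real.sqrt (mxSq W) * Real.sqrt (fzEps H W a) := by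
  have h1 := mk_abs_sum_integral_hsI_le (ι := Fin n) (μ := stdGaussian (EE n))
    (F := fun i _ => H i * W) (G := fun i N => fzErr H a i N * W)
    (fun _ => fzp_const_L2 _)
    (fun i k l => ((fz_Err_L2 h.symm a i).mul_Bd (R260.MxBd.const W)) k l)
  refine h1.trans ?_
  simp only [integral_const, probReal_univ, one_smul, ← mxSq_eq_hs2]
  refine mul_le_mul_of_nonneg_right ?_ (Real.sqrt_nonneg _)
  have h2 := h.col_sq W
  calc Real.sqrt (∑ i, mxSq (H i * W)) ≤ Real.sqrt (4 * mxSq W) := Real.sqrt_le_sqrt h2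
    _ = 2 * Real.sqrt (mxSq W) := by
        rw [Real.sqrt_mul (by norm_num), show (4 : ℝ) = 2 ^ 2 by norm_num,
          Real.sqrt_sq (by norm_num)]

/-! ### integration of the differential inequalities -/

theorem fzp_gauss_hasDerivAt (c x : ℝ) :
    HasDerivAt (fun x => Real.exp (-(c * x ^ 2))) (-(2 * c * x) * Real.exp (-(c * x ^ 2))) x := by
  have h1 : HasDerivAt (fun x : ℝ => -(c * x ^ 2)) (-(c * (2 * x))) x := by
    have h3 := ((hasDerivAt_pow 2 x).const_mul c).fun_neg
    have e3 : -(c * (2 * x)) = -(c * (((2 : ℕ) : ℝ) * x ^ (2 - 1))) := by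
      norm_num
    rw [e3]
    exact h3
  have h2 := h1.exp
  have e : -(2 * c * x) * Real.exp (-(c * x ^ 2)) = Real.exp (-(c * x ^ 2)) * -(c * (2 * x)) := by
    ring
  rw [e]
  exact h2

theorem fzp_w_hasDerivAt (h : FzCol H W) (c x : ℝ) :
    HasDerivAt (fun x => Real.exp (-(c * x ^ 2)) * fzPhi H W x)
      (Real.exp (-(c * x ^ 2)) * (fzpD H W x - 2 * c * x * fzPhi H W x)) x := by
  have h1 := (fzp_gauss_hasDerivAt c x).mul (fzp_phi_hasDeriv h x)
  have e : Real.exp (-(c * x ^ 2)) * (fzpD H W x - 2 * c * x * fzPhi H W x)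
      = -(2 * c * x) * Real.exp (-(c * x ^ 2)) * fzPhi H W x + Real.exp (-(c * x ^ 2)) * fzpD H W x := by
    ring
  rw [e]
  exact h1

theorem fzp_phi_le_pos (h : FzCol H W) {a : ℝ} (ha : 0 ≤ a) :
    fzPhi H W a ≤ Real.exp (2 * a ^ 2) * mxSq W := by
  have hd : ∀ x ∈ Set.Icc 0 a, HasDerivAt (fun x => -(Real.exp (-(2 * x ^ 2)) * fzPhi H W x))
      (-(Real.exp (-(2 * x ^ 2)) * (fzpD H W x - 2 * 2 * x * fzPhi H W x))) x :=
    fun x _ => (fzp_w_hasDerivAt h 2 x).neg
  have h0 : ∀ x ∈ Set.Icc 0 a,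
      0 ≤ -(Real.exp (-(2 * x ^ 2)) * (fzpD H W x - 2 * 2 * x * fzPhi H W x)) := by
    intro x hx
    have h1 := fzp_D_le h hx.1
    have h2 := mul_le_mul_of_nonneg_left (fzp_S_le_phi h x) hx.1
    have h3 : fzpD H W x - 2 * 2 * x * fzPhi H W x ≤ 0 := by linarith
    have := mul_nonneg (Real.exp_pos (-(2 * x ^ 2))).le (neg_nonneg.2 h3)
    linarith
  have h1 := fzp_le_of_deriv_nonneg ha hd h0
  simp only [ne_eq, OfNat.ofNat_ne_zero, not_false_eq_true, zero_pow, mul_zero, neg_zero,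
    Real.exp_zero, one_mul, fzp_phi_zero h] at h1
  have h2 : Real.exp (-(2 * a ^ 2)) * fzPhi H W a ≤ mxSq W := by linarith
  have h3 := mul_le_mul_of_nonneg_left h2 (Real.exp_pos (2 * a ^ 2)).le
  rwa [← mul_assoc, ← Real.exp_add, add_neg_cancel, Real.exp_zero, one_mul] at h3

theorem fzp_phi_neg (h : FzCol H W) (a : ℝ) : fzPhi (fun i => -H i) W a = fzPhi H W (-a) := by
  unfold fzPhi
  simp only [fz_E_neg h.symm]

theorem fzp_phi_le (h : FzCol H W) (a : ℝ) : fzPhi H W a ≤ Real.exp (2 * a ^ 2) * mxSq W := by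
  rcases le_total 0 a with ha | ha
  · exact fzp_phi_le_pos h ha
  · have h1 := fzp_phi_le_pos h.neg (a := -a) (by linarith)
    rwa [fzp_phi_neg h, neg_neg, neg_sq] at h1

/-- `|E tr(W² S e^{aD}) - φ(a)| ≤ e^{4a²} (fzS ‖W‖²)^{1/2}` -/
theorem fzp_S_sub_phi' (h : FzCol H W) (a : ℝ) :
    |fzpS H W a - fzPhi H W a| ≤ Real.exp (4 * a ^ 2) * Real.sqrt (fzS H W * mxSq W) := by
  refine (fzp_S_sub_phi h a).trans ?_
  have h0 : 0 ≤ fzS H W := R260.mxSq_nonneg _
  have h1 : Real.sqrt (fzPhi H W (2 * a)) ≤ Real.exp (4 * a ^ 2) * Real.sqrt (mxSq W) := by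
    have h2 := fzp_phi_le h (2 * a)
    have e : Real.exp (2 * (2 * a) ^ 2) = Real.exp (4 * a ^ 2) ^ 2 := by
      rw [← Real.exp_nat_mul]
      congr 1
      push_cast
      ring
    rw [e] at h2
    calc Real.sqrt (fzPhi H W (2 * a)) ≤ Real.sqrt (Real.exp (4 * a ^ 2) ^ 2 * mxSq W) :=
          Real.sqrt_le_sqrt h2
      _ = _ := by rw [Real.sqrt_mul (sq_nonneg _), Real.sqrt_sq (Real.exp_pos _).le]
  rw [Real.sqrt_mul h0]
  calc Real.sqrt (fzS H W) * Real.sqrt (fzPhi H W (2 * a))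
      ≤ Real.sqrt (fzS H W) * (Real.exp (4 * a ^ 2) * Real.sqrt (mxSq W)) :=
        mul_le_mul_of_nonneg_left h1 (Real.sqrt_nonneg _)
    _ = _ := by ring

theorem fzp_exp4_hasDerivAt (κ x : ℝ) :
    HasDerivAt (fun x => Real.exp (4 * x ^ 2) / 8 * κ) (x * Real.exp (4 * x ^ 2) * κ) x := by
  have h1 := ((fzp_gauss_hasDerivAt (-4) x).div_const 8).mul_const κ
  have e : x * Real.exp (4 * x ^ 2) * κ
      = -(2 * -4 * x) * Real.exp (-(-4 * x ^ 2)) / 8 * κ := by
    rw [show -(-4 * x ^ 2) = 4 * x ^ 2 by ring]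
    ring
  rw [e]
  have e2 : (fun x : ℝ => Real.exp (4 * x ^ 2) / 8 * κ)
      = fun x => Real.exp (-(-4 * x ^ 2)) / 8 * κ := by
    funext y
    rw [show -(-4 * y ^ 2) = 4 * y ^ 2 by ring]
  rw [e2]
  exact h1

theorem fzp_exp_neg_le_one (x : ℝ) : Real.exp (-(1 / 2 * x ^ 2)) ≤ 1 := by
  rw [Real.exp_le_one_iff]
  have := sq_nonneg x
  linarith

theorem fzp_phi_up (h : FzCol H W) {a : ℝ} (ha : 0 ≤ a) :
    fzPhi H W a ≤ Real.exp (a ^ 2 / 2) *
      (mxSq W + Real.exp (4 * a ^ 2) * Real.sqrt (fzS H W * mxSq W)) := by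
  set κ := Real.sqrt (fzS H W * mxSq W) with hκ
  have hκ0 : 0 ≤ κ := Real.sqrt_nonneg _
  have hd : ∀ x ∈ Set.Icc 0 a, HasDerivAt
      (fun x => Real.exp (4 * x ^ 2) / 8 * κ - Real.exp (-(1 / 2 * x ^ 2)) * fzPhi H W x)
      (x * Real.exp (4 * x ^ 2) * κ
        - Real.exp (-(1 / 2 * x ^ 2)) * (fzpD H W x - 2 * (1 / 2) * x * fzPhi H W x)) x :=
    fun x _ => (fzp_exp4_hasDerivAt κ x).sub (fzp_w_hasDerivAt h (1 / 2) x)
  have h0 : ∀ x ∈ Set.Icc 0 a, 0 ≤ x * Real.exp (4 * x ^ 2) * κ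
        - Real.exp (-(1 / 2 * x ^ 2)) * (fzpD H W x - 2 * (1 / 2) * x * fzPhi H W x) := by
    intro x hx
    have h1 := fzp_D_le h hx.1
    have h2 := (abs_le.1 (fzp_S_sub_phi' h x)).2
    have h3 := mul_le_mul_of_nonneg_left h2 hx.1
    have h4 : fzpD H W x - 2 * (1 / 2) * x * fzPhi H W x ≤ x * Real.exp (4 * x ^ 2) * κ := by
      nlinarith
    have h5 : 0 ≤ x * Real.exp (4 * x ^ 2) * κ :=
      mul_nonneg (mul_nonneg hx.1 (Real.exp_pos _).le) hκ0
    have h6 : Real.exp (-(1 / 2 * x ^ 2)) * (fzpD H W x - 2 * (1 / 2) * x * fzPhi H W x)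
        ≤ Real.exp (-(1 / 2 * x ^ 2)) * (x * Real.exp (4 * x ^ 2) * κ) :=
      mul_le_mul_of_nonneg_left h4 (Real.exp_pos _).le
    have h7 : Real.exp (-(1 / 2 * x ^ 2)) * (x * Real.exp (4 * x ^ 2) * κ)
        ≤ 1 * (x * Real.exp (4 * x ^ 2) * κ) :=
      mul_le_mul_of_nonneg_right (fzp_exp_neg_le_one x) h5
    linarith
  have h1 := fzp_le_of_deriv_nonneg ha hd h0
  simp only [ne_eq, OfNat.ofNat_ne_zero, not_false_eq_true, zero_pow, mul_zero, neg_zero,
    Real.exp_zero, one_mul, fzp_phi_zero h] at h1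
  have h2 : Real.exp (-(1 / 2 * a ^ 2)) * fzPhi H W a ≤ mxSq W + Real.exp (4 * a ^ 2) * κ := by
    have : 0 ≤ Real.exp (4 * a ^ 2) * κ := mul_nonneg (Real.exp_pos _).le hκ0
    linarith
  have h3 := mul_le_mul_of_nonneg_left h2 (Real.exp_pos (a ^ 2 / 2)).le
  rwa [← mul_assoc, ← Real.exp_add, show a ^ 2 / 2 + -(1 / 2 * a ^ 2) = 0 by ring, Real.exp_zero,
    one_mul] at h3

theorem fzp_phi_lo (h : FzCol H W) {θ E : ℝ} (hθ : 0 ≤ θ) (hE0 : 0 ≤ E)
    (hE : ∀ a ∈ Set.Icc 0 θ, fzEps H W a ≤ E ^ 2) :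
    Real.exp (θ ^ 2 / 2) * (mxSq W - Real.exp (4 * θ ^ 2) * Real.sqrt (fzS H W * mxSq W)
        - 2 * θ * Real.sqrt (mxSq W) * E) ≤ fzPhi H W θ := by
  set κ := Real.sqrt (fzS H W * mxSq W) with hκ
  have hκ0 : 0 ≤ κ := Real.sqrt_nonneg _
  set w := Real.sqrt (mxSq W) with hw
  have hw0 : 0 ≤ w := Real.sqrt_nonneg _
  have hd : ∀ x ∈ Set.Icc 0 θ, HasDerivAt
      (fun x => Real.exp (-(1 / 2 * x ^ 2)) * fzPhi H W x + Real.exp (4 * x ^ 2) / 8 * κ
        + x * (2 * w * E))
      (Real.exp (-(1 / 2 * x ^ 2)) * (fzpD H W x - 2 * (1 / 2) * x * fzPhi H W x)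
        + x * Real.exp (4 * x ^ 2) * κ + 1 * (2 * w * E)) x :=
    fun x _ => ((fzp_w_hasDerivAt h (1 / 2) x).add (fzp_exp4_hasDerivAt κ x)).add
      ((hasDerivAt_id x).mul_const (2 * w * E))
  have h0 : ∀ x ∈ Set.Icc 0 θ,
      0 ≤ Real.exp (-(1 / 2 * x ^ 2)) * (fzpD H W x - 2 * (1 / 2) * x * fzPhi H W x)
        + x * Real.exp (4 * x ^ 2) * κ + 1 * (2 * w * E) := by
    intro x hx
    have h1 := fzp_D_eq h x
    have h2 := (abs_le.1 (fzp_S_sub_phi' h x)).1
    have h3 := mul_le_mul_of_nonneg_left h2 hx.1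
    have h4 := (abs_le.1 (fzp_err_le h x)).1
    have h5 : Real.sqrt (fzEps H W x) ≤ E := by
      rw [← Real.sqrt_sq hE0]
      exact Real.sqrt_le_sqrt (hE x hx)
    have h6 : 2 * w * Real.sqrt (fzEps H W x) ≤ 2 * w * E :=
      mul_le_mul_of_nonneg_left h5 (by positivity)
    have hB : 0 ≤ x * Real.exp (4 * x ^ 2) * κ + 2 * w * E :=
      add_nonneg (mul_nonneg (mul_nonneg hx.1 (Real.exp_pos _).le) hκ0) (by positivity)
    have h7 : -(x * Real.exp (4 * x ^ 2) * κ + 2 * w * E)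
        ≤ fzpD H W x - 2 * (1 / 2) * x * fzPhi H W x := by
      nlinarith
    have h8 : Real.exp (-(1 / 2 * x ^ 2)) * -(x * Real.exp (4 * x ^ 2) * κ + 2 * w * E)
        ≤ Real.exp (-(1 / 2 * x ^ 2)) * (fzpD H W x - 2 * (1 / 2) * x * fzPhi H W x) :=
      mul_le_mul_of_nonneg_left h7 (Real.exp_pos _).le
    have h9 : Real.exp (-(1 / 2 * x ^ 2)) * (x * Real.exp (4 * x ^ 2) * κ + 2 * w * E)
        ≤ 1 * (x * Real.exp (4 * x ^ 2) * κ + 2 * w * E) :=
      mul_le_mul_of_nonneg_right (fzp_exp_neg_le_one x) hB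
    linarith
  have h1 := fzp_le_of_deriv_nonneg hθ hd h0
  simp only [ne_eq, OfNat.ofNat_ne_zero, not_false_eq_true, zero_pow, mul_zero, neg_zero,
    Real.exp_zero, one_mul, fzp_phi_zero h, zero_mul, add_zero] at h1
  have h2 : mxSq W - Real.exp (4 * θ ^ 2) * κ - 2 * θ * w * E
      ≤ Real.exp (-(1 / 2 * θ ^ 2)) * fzPhi H W θ := by
    have : 0 ≤ Real.exp (4 * θ ^ 2) * κ := mul_nonneg (Real.exp_pos _).le hκ0
    linarith
  have h3 := mul_le_mul_of_nonneg_left h2 (Real.exp_pos (θ ^ 2 / 2)).le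
  rwa [← mul_assoc (Real.exp (θ ^ 2 / 2)) (Real.exp (-(1 / 2 * θ ^ 2))), ← Real.exp_add,
    show θ ^ 2 / 2 + -(1 / 2 * θ ^ 2) = 0 by ring, Real.exp_zero, one_mul] at h3

end Claimed.Agent.R259
end

/- ===== packed: Claimed.Agent.R259.S6ExpCh ===== -/
section
/-
Row 259 (S0499), package EXP: chaos coefficients of `e^{θD}`.
EXPORT FILE of leaf L-exp-chaos (statements: helper88).

PROOF of `FzCol.chaos` (induction on `j`).  `c_j = fzCh (fzE H θ) j`, `m = c_0 = E e^{θD}`.
`c_{j+1,(β,i)} = E[𝔥_{j,β} ∂_i e^{θD}]` (`fz_chaos_step`) `= θ H_i c_{j,β} + fzCh (fzErr H θ i) j β`.  Every index of order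
`j+1` is `Fin.snoc β i` (`Fin.snocEquiv` / `Fin.snoc_init_self`), `hpr H (j+1) (Fin.snoc β i) = H i * hpr H j β`.  So
`(c_{j+1,(β,i)} - θ^{j+1} H_i H_β m) W = θ H_i (c_{j,β} - θ^j H_β m) W + fzCh (err_i) j β W`; in `ℓ²(β,i)` the first term is at most
`2θ ρ_j` (`FzCol.col_sq`), the second one at most `(j!)^{1/2} ε₁` (`hm_bessel` applied to every entry of `err_i W`;
`fzCh F j β * W = fzCh (F · * W) j β` by linearity of the integral).
-/
set_option autoImplicit false

open MeasureTheory ProbabilityTheory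
open scoped BigOperators Matrix
open Claimed.Agent.R260 (Mx mxFun mxSchur mxSq mxIP mxEig mxU mxRot mxDK MxGH1 MxL2)

namespace Claimed.Agent.R259

variable {n : ℕ} {H : Fin n → Mx n} {W : Mx n}

theorem fz_chaos_step (hs : ∀ i, (H i).IsSymm) (a : ℝ) (j : ℕ) (β : Idx n j) (i : Fin n) :
    fzCh (fzE H a) (j + 1) (Fin.snoc β i) = fzCh (fzK H a i) j β := by
  ext k l
  simp only [fzCh, Matrix.of_apply]
  exact hm_ibp j β i (fz_gh1 hs a k l)

/-- integrability of `𝔥_β F_{ab}` -/
theorem fzch_integrable (j : ℕ) (β : Idx n j) {F : EE n → Mx n}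
    (hF : MxL2 (stdGaussian (EE n)) F) (a b : Fin n) :
    Integrable (fun N => hm j N β * F N a b) (stdGaussian (EE n)) := by
  have h : MemLp (fun N : EE n => hm j N β) 2 (stdGaussian (EE n)) := hm_memLp j β 2
  exact h.integrable_mul (hF a b)

theorem fzch_add (j : ℕ) (β : Idx n j) {F G : EE n → Mx n}
    (hF : MxL2 (stdGaussian (EE n)) F) (hG : MxL2 (stdGaussian (EE n)) G) :
    fzCh (fun N => F N + G N) j β = fzCh F j β + fzCh G j β := by
  ext a b
  simp only [fzCh, Matrix.of_apply, Matrix.add_apply, mul_add]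
  exact integral_add (fzch_integrable j β hF a b) (fzch_integrable j β hG a b)

theorem fzch_smul (j : ℕ) (β : Idx n j) (c : ℝ) (F : EE n → Mx n) :
    fzCh (fun N => c • F N) j β = c • fzCh F j β := by
  ext a b
  simp only [fzCh, Matrix.of_apply, Matrix.smul_apply, smul_eq_mul]
  rw [← integral_const_mul]
  refine integral_congr_ae (Filter.Eventually.of_forall fun N => ?_)
  simp only
  ring

theorem fzch_const_mul (j : ℕ) (β : Idx n j) (A : Mx n) {F : EE n → Mx n}
    (hF : MxL2 (stdGaussian (EE n)) F) :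
    fzCh (fun N => A * F N) j β = A * fzCh F j β := by
  ext a b
  simp only [fzCh, Matrix.of_apply, Matrix.mul_apply, Finset.mul_sum]
  rw [integral_finsetSum _ fun k _ => ?_]
  · refine Finset.sum_congr rfl fun k _ => ?_
    rw [← integral_const_mul]
    refine integral_congr_ae (Filter.Eventually.of_forall fun N => ?_)
    simp only
    ring
  · have := (fzch_integrable j β hF k b).const_mul (A a k)
    refine this.congr (Filter.Eventually.of_forall fun N => ?_)
    simp only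
    ring

theorem fzch_mul_const (j : ℕ) (β : Idx n j) (A : Mx n) {F : EE n → Mx n}
    (hF : MxL2 (stdGaussian (EE n)) F) :
    fzCh (fun N => F N * A) j β = fzCh F j β * A := by
  ext a b
  simp only [fzCh, Matrix.of_apply, Matrix.mul_apply, Finset.mul_sum]
  rw [integral_finsetSum _ fun k _ => ?_]
  · refine Finset.sum_congr rfl fun k _ => ?_
    rw [← integral_mul_const]
    refine integral_congr_ae (Filter.Eventually.of_forall fun N => ?_)
    simp only
    ring
  · have := (fzch_integrable j β hF a k).mul_const (A k b)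
    refine this.congr (Filter.Eventually.of_forall fun N => ?_)
    simp only
    ring

/-- Bessel inequality for matrix fields -/
theorem fz_bessel (j : ℕ) {F : EE n → Mx n} (hF : MxL2 (stdGaussian (EE n)) F) :
    ∑ β : Idx n j, mxSq (fzCh F j β) ≤ (j.factorial : ℝ) * ∫ N, mxSq (F N) ∂(stdGaussian (EE n)) := by
  simp only [R260.mxSq_eq_sum, fzCh, Matrix.of_apply]
  rw [integral_finsetSum _ fun a _ => integrable_finsetSum _ fun b _ => (hF a b).integrable_sq]
  rw [Finset.sum_comm, Finset.mul_sum]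
  refine Finset.sum_le_sum fun a _ => ?_
  rw [integral_finsetSum _ fun b _ => (hF a b).integrable_sq, Finset.sum_comm, Finset.mul_sum]
  exact Finset.sum_le_sum fun b _ => hm_bessel j (hF a b)

/-- the triangle inequality in `ℓ²(ι; HS)` -/
theorem fzch_minkowski {ι : Type*} (s : Finset ι) (A B : ι → Mx n) :
    Real.sqrt (∑ i ∈ s, mxSq (A i + B i))
      ≤ Real.sqrt (∑ i ∈ s, mxSq (A i)) + Real.sqrt (∑ i ∈ s, mxSq (B i)) := by
  simp only [mxSq_eq_hs2]
  apply Real.sqrt_le_iff.2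
  refine ⟨by positivity, ?_⟩
  have hA : 0 ≤ ∑ i ∈ s, hs2 (A i) := Finset.sum_nonneg fun i _ => hs2_nonneg _
  have hB : 0 ≤ ∑ i ∈ s, hs2 (B i) := Finset.sum_nonneg fun i _ => hs2_nonneg _
  have h1 : ∑ i ∈ s, hs2 (A i + B i) ≤
      ∑ i ∈ s, hs2 (A i) + 2 * ∑ i ∈ s, Real.sqrt (hs2 (A i)) * Real.sqrt (hs2 (B i))
        + ∑ i ∈ s, hs2 (B i) := by
    rw [Finset.mul_sum, ← Finset.sum_add_distrib, ← Finset.sum_add_distrib]
    refine Finset.sum_le_sum fun i _ => ?_
    rw [hs2_add]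
    have := (le_abs_self _).trans (abs_hsI_le (A i) (B i))
    linarith
  have h2 := Real.sum_sqrt_mul_sqrt_le s (fun i => hs2_nonneg (A i)) (fun i => hs2_nonneg (B i))
  have h3 := Real.sq_sqrt hA
  have h4 := Real.sq_sqrt hB
  nlinarith

/-- `∂_i e^{θD} = err_i + θ H_i e^{θD}` on the level of chaos coefficients -/
theorem fzch_K_eq (hs : ∀ i, (H i).IsSymm) (θ : ℝ) (j : ℕ) (β : Idx n j) (i : Fin n) :
    fzCh (fzK H θ i) j β = fzCh (fzErr H θ i) j β + θ • (H i * fzCh (fzE H θ) j β) := by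
  have e : fzK H θ i = fun N => fzErr H θ i N + θ • (H i * fzE H θ N) := by
    funext N
    simp only [fzErr, sub_add_cancel]
  have hL : MxL2 (stdGaussian (EE n)) (fun N => H i * fzE H θ N) :=
    (R260.MxBd.const (H i)).mul_L2 (fz_E_L2 hs θ)
  rw [e, fzch_add j β (fz_Err_L2 hs θ i) (MxL2.smul θ hL), fzch_smul,
    fzch_const_mul j β (H i) (fz_E_L2 hs θ)]

/-- the recursion for the defect of the chaos coefficients -/
theorem fzch_rec (hs : ∀ i, (H i).IsSymm) (θ : ℝ) (m : Mx n) (j : ℕ) (β : Idx n j) (i : Fin n) :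
    (fzCh (fzE H θ) (j + 1) (Fin.snoc β i) - θ ^ (j + 1) • (hpr H (j + 1) (Fin.snoc β i) * m)) * W
      = θ • (H i * ((fzCh (fzE H θ) j β - θ ^ j • (hpr H j β * m)) * W))
        + fzCh (fzErr H θ i) j β * W := by
  rw [fz_chaos_step hs, fzch_K_eq hs, hpr_snoc]
  simp only [Matrix.sub_mul, Matrix.mul_sub, Matrix.add_mul, Matrix.smul_mul, Matrix.mul_smul,
    smul_sub, smul_smul, Matrix.mul_assoc, pow_succ]
  rw [mul_comm θ (θ ^ j)]
  abel

/-- one step of the induction -/
theorem FzCol.chaos_step (h : FzCol H W) {θ E : ℝ} (hθ : 0 ≤ θ) (hE0 : 0 ≤ E)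
    (hE : fzEps H W θ ≤ E ^ 2) (m : Mx n) (j : ℕ) :
    Real.sqrt (∑ β : Idx n (j + 1), mxSq ((fzCh (fzE H θ) (j + 1) β
        - θ ^ (j + 1) • (hpr H (j + 1) β * m)) * W))
      ≤ 2 * θ * Real.sqrt (∑ β : Idx n j, mxSq ((fzCh (fzE H θ) j β
        - θ ^ j • (hpr H j β * m)) * W)) + Real.sqrt (j.factorial : ℝ) * E := by
  rw [fz_sum_snoc]
  simp only [fzch_rec h.symm]
  rw [← Fintype.sum_prod_type' (f := fun (β : Idx n j) (i : Fin n) =>
    mxSq (θ • (H i * ((fzCh (fzE H θ) j β - θ ^ j • (hpr H j β * m)) * W))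
        + fzCh (fzErr H θ i) j β * W))]
  refine (fzch_minkowski Finset.univ _ _).trans (add_le_add ?_ ?_)
  · rw [Fintype.sum_prod_type' (f := fun (β : Idx n j) (i : Fin n) =>
      mxSq (θ • (H i * ((fzCh (fzE H θ) j β - θ ^ j • (hpr H j β * m)) * W))))]
    have e : (2 * θ) * Real.sqrt (∑ β : Idx n j, mxSq ((fzCh (fzE H θ) j β
        - θ ^ j • (hpr H j β * m)) * W)) = Real.sqrt ((2 * θ) ^ 2 * ∑ β : Idx n j,
          mxSq ((fzCh (fzE H θ) j β - θ ^ j • (hpr H j β * m)) * W)) := by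
      rw [Real.sqrt_mul (by positivity), Real.sqrt_sq (by positivity)]
    rw [e]
    apply Real.sqrt_le_sqrt
    rw [Finset.mul_sum]
    refine Finset.sum_le_sum fun β _ => ?_
    simp only [mxSq_eq_hs2, hs2_smul]
    rw [← Finset.mul_sum]
    have h1 := h.col_sq ((fzCh (fzE H θ) j β - θ ^ j • (hpr H j β * m)) * W)
    simp only [mxSq_eq_hs2] at h1
    have h2 : 0 ≤ θ ^ 2 := by positivity
    nlinarith
  · rw [Fintype.sum_prod_type' (f := fun (β : Idx n j) (i : Fin n) =>
      mxSq (fzCh (fzErr H θ i) j β * W)), Finset.sum_comm]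
    have e : Real.sqrt (j.factorial : ℝ) * E = Real.sqrt ((j.factorial : ℝ) * E ^ 2) := by
      rw [Real.sqrt_mul (by positivity), Real.sqrt_sq hE0]
    rw [e]
    apply Real.sqrt_le_sqrt
    have hW : ∀ i, MxL2 (stdGaussian (EE n)) (fun N => fzErr H θ i N * W) := fun i =>
      (fz_Err_L2 h.symm θ i).mul_Bd (R260.MxBd.const W)
    calc ∑ i : Fin n, ∑ β : Idx n j, mxSq (fzCh (fzErr H θ i) j β * W)
        = ∑ i : Fin n, ∑ β : Idx n j, mxSq (fzCh (fun N => fzErr H θ i N * W) j β) := by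
          refine Finset.sum_congr rfl fun i _ => Finset.sum_congr rfl fun β _ => ?_
          rw [fzch_mul_const j β W (fz_Err_L2 h.symm θ i)]
      _ ≤ ∑ i : Fin n, (j.factorial : ℝ) * ∫ N, mxSq (fzErr H θ i N * W) ∂(stdGaussian (EE n)) :=
          Finset.sum_le_sum fun i _ => fz_bessel j (hW i)
      _ = (j.factorial : ℝ) * fzEps H W θ := by rw [fzEps, Finset.mul_sum]
      _ ≤ (j.factorial : ℝ) * E ^ 2 := mul_le_mul_of_nonneg_left hE (by positivity)

/-- the chaos coefficients of `e^{θD}` are `θ^j H_β E e^{θD}` up to the first order defect -/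
theorem FzCol.chaos (h : FzCol H W) {θ E : ℝ} (hθ : 0 ≤ θ) (hE0 : 0 ≤ E)
    (hE : fzEps H W θ ≤ E ^ 2) (j : ℕ) :
    Real.sqrt (∑ β : Idx n j, mxSq ((fzCh (fzE H θ) j β
        - θ ^ j • (hpr H j β * fzCh (fzE H θ) 0 (fun r => r.elim0))) * W))
      ≤ (∑ i ∈ Finset.range j, (2 * θ) ^ (j - 1 - i) * Real.sqrt (i.factorial : ℝ)) * E := by
  induction j with
  | zero =>
    have e : ∀ β : Idx n 0, (fzCh (fzE H θ) 0 β
        - θ ^ 0 • (hpr H 0 β * fzCh (fzE H θ) 0 (fun r => r.elim0))) * W = 0 := by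
      intro β
      have hβ : β = fun r => r.elim0 := Subsingleton.elim _ _
      rw [hβ, hpr, pow_zero, one_smul, Matrix.one_mul, sub_self, Matrix.zero_mul]
    simp only [e]
    simp [mxSq]
  | succ j ih =>
    refine (h.chaos_step hθ hE0 hE _ j).trans ?_
    have e : ∑ i ∈ Finset.range (j + 1), (2 * θ) ^ (j + 1 - 1 - i) * Real.sqrt (i.factorial : ℝ)
        = 2 * θ * (∑ i ∈ Finset.range j, (2 * θ) ^ (j - 1 - i) * Real.sqrt (i.factorial : ℝ))
          + Real.sqrt (j.factorial : ℝ) := by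
      rw [Finset.sum_range_succ, Finset.mul_sum]
      congr 1
      · refine Finset.sum_congr rfl fun i hi => ?_
        have hi' := Finset.mem_range.1 hi
        have : j + 1 - 1 - i = (j - 1 - i) + 1 := by omega
        rw [this, pow_succ]
        ring
      · have : j + 1 - 1 - j = 0 := by omega
        rw [this, pow_zero, one_mul]
    rw [e, add_mul]
    refine add_le_add ?_ le_rfl
    calc 2 * θ * Real.sqrt (∑ β : Idx n j, mxSq ((fzCh (fzE H θ) j β
          - θ ^ j • (hpr H j β * fzCh (fzE H θ) 0 (fun r => r.elim0))) * W))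
        ≤ 2 * θ * ((∑ i ∈ Finset.range j, (2 * θ) ^ (j - 1 - i) * Real.sqrt (i.factorial : ℝ)) * E) :=
          mul_le_mul_of_nonneg_left ih (by positivity)
      _ = _ := by ring

end Claimed.Agent.R259
end
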