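/- Packed by merge_tool.py (helper293): 5 modules of Claimed.Agent.R259 in one file, same declarations.
   Old modules, in this order: S6ColBand, S6ColBal, S6ColInt, S6ColIntB, S6ColMain -/
import Claimed.Agent.R259.Pack045

/- ===== packed: Claimed.Agent.R259.S6ColBand ===== -/
section
/-
Row 259 (S0499), section 6 of the paper, package BP-S6-col (Lemmas 6.4, 6.5).  Owner: helper144.

POINTWISE STATEMENTS FOR THE BAND `Ψ = ⊕_{k ≤ l < 2k} T_l / √(kI)` of a `HierData`: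
band identities (`|A_(1)Ψ|² = |A R|²`), the two balance equations in tested Young form, and the
pointwise versions of all conclusions of `s6_col` and `s6_trunc`.
-/
set_option autoImplicit false

open scoped BigOperators Matrix
open Claimed.Agent.R260 (Mx mxFun mxSchur mxSq mxIP mxEig mxU mxRot)

namespace Claimed.Agent.R259

noncomputable section

variable {n : ℕ}

namespace HierData

variable (X : HierData n) (k : ℕ)

/-- `∑_i |H_i R|²` -/
def pHr (H : Fin n → Mx n) (y : EE n) : ℝ := ∑ i, mxSq (H i * X.R k y)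

/-- `∑_i |[H_i,R]|²` -/
def pCm (H : Fin n → Mx n) (y : EE n) : ℝ := ∑ i, mxSq (cmm (H i) (X.R k y))

/-- `∑_i |D_iΨ - (H_i)_(1)Ψ|²` -/
def pAc (H : Fin n → Mx n) (y : EE n) : ℝ :=
  X.nrm k * ∑ l ∈ Finset.Ico k (2 * k), ∑ i, ‖dI i (X.T l) y - slot 0 (H i) (X.T l y)‖ ^ 2

/-- `∑_i |(H_i - H'_i) R|²` -/
def pCl (H H' : Fin n → Mx n) (y : EE n) : ℝ := ∑ i, mxSq ((H i - H' i) * X.R k y)

/-- `|DΨ|²` -/
def pDd (y : EE n) : ℝ := X.nrm k * ∑ l ∈ Finset.Ico k (2 * k), ∑ i, ‖dI i (X.T l) y‖ ^ 2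

/-- derivative coupling defect of the band -/
def pDe (y : EE n) : ℝ :=
  X.nrm k * ∑ l ∈ Finset.Ico k (2 * k), ‖tD (X.T l) y - X.T (l + 1) y‖ ^ 2

/-- squared norm of the shifted band -/
def pTp (y : EE n) : ℝ := X.nrm k * ∑ l ∈ Finset.Ico k (2 * k), ‖X.T (l + 1) y‖ ^ 2

/-- squared norm of the band, `= tr ρ` -/
def pTr (y : EE n) : ℝ := X.nrm k * ∑ l ∈ Finset.Ico k (2 * k), ‖X.T l y‖ ^ 2

/-- the two endpoints of the band -/
def pEn (y : EE n) : ℝ := X.nrm k * (‖X.T (2 * k) y‖ ^ 2 + ‖X.T k y‖ ^ 2)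

/-- the pointwise bound of the balance equations -/
def pE0 (θ : ℝ) (H : Fin n → Mx n) (y : EE n) : ℝ :=
  θ * (3 * X.pHr k H y + 2 * X.pDd k y + X.pTp k y)
    + (X.pCm k H y + X.pAc k H y + X.pDe k y) / (2 * θ) + X.pEn k y

end HierData

end

/-- generates the equation lemmas of the definitions above in this file (rule 6: unique names) -/
theorem s6colband_eqns_cite : True := by
  have := @HierData.pHr.eq_1
  have := @HierData.pCm.eq_1
  have := @HierData.pAc.eq_1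
  have := @HierData.pCl.eq_1
  have := @HierData.pDd.eq_1
  have := @HierData.pDe.eq_1
  have := @HierData.pTp.eq_1
  have := @HierData.pTr.eq_1
  have := @HierData.pEn.eq_1
  have := @HierData.pE0.eq_1
  trivial

variable {n : ℕ} (X : HierData n) (k : ℕ) (y : EE n)

/-! ### `ρ` and `R` -/

theorem s6b_nrm_nonneg : 0 ≤ X.nrm k := by
  unfold HierData.nrm
  have := X.I_pos
  positivity

theorem s6b_rho_isSymm : (X.rho k y).IsSymm := by
  unfold HierData.rho Matrix.IsSymm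
  rw [Matrix.transpose_smul, Matrix.transpose_sum]
  congr 1
  exact Finset.sum_congr rfl (fun l _ => s6n_red_isSymm _)

theorem s6b_rho_quad (w : Fin n → ℝ) :
    w ⬝ᵥ (X.rho k y *ᵥ w) = X.nrm k * ∑ l ∈ Finset.Ico k (2 * k),
      ∑ β : Idx n l, (∑ c, w c * X.T l y (Fin.cons c β)) ^ 2 := by
  unfold HierData.rho
  rw [Matrix.smul_mulVec, dotProduct_smul, smul_eq_mul, Matrix.sum_mulVec, dotProduct_sum]
  congr 1
  exact Finset.sum_congr rfl (fun l _ => s6n_red_quad _ _)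

theorem s6b_rho_eig_nonneg (i : Fin n) : 0 ≤ mxEig (X.rho k y) i := by
  refine s6k_eig_ge (s6b_rho_isSymm X k y) (c := 0) (fun v => ?_) i
  rw [zero_mul, s6b_rho_quad]
  exact mul_nonneg (s6b_nrm_nonneg X k)
    (Finset.sum_nonneg fun l _ => Finset.sum_nonneg fun β _ => sq_nonneg _)

theorem s6b_R_isSymm : (X.R k y).IsSymm :=
  Claimed.Agent.R260.mxFun_isSymm _ _

theorem s6b_R_mul_R : X.R k y * X.R k y = X.rho k y := by
  unfold HierData.R
  rw [← Claimed.Agent.R260.mxFun_mul,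
    Claimed.Agent.R260.mxFun_congr (g := fun a => a)
      (fun i => Real.mul_self_sqrt (s6b_rho_eig_nonneg X k y i)),
    Claimed.Agent.R260.mxFun_id (s6b_rho_isSymm X k y)]

theorem s6b_trace_rho : Matrix.trace (X.rho k y) = X.pTr k y := by
  unfold HierData.rho HierData.pTr
  rw [Matrix.trace_smul, Matrix.trace_sum, smul_eq_mul]
  congr 1
  exact Finset.sum_congr rfl (fun l _ => s6n_trace_red _)

theorem s6b_mxSq_R : mxSq (X.R k y) = X.pTr k y := by
  unfold Claimed.Agent.R260.mxSq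
  rw [(s6b_R_isSymm X k y).eq, s6b_R_mul_R, s6b_trace_rho]

/-- BAND IDENTITY `|A_(1)Ψ|² = |A R|²` -/
theorem s6b_band_sq (A : Mx n) :
    X.nrm k * ∑ l ∈ Finset.Ico k (2 * k), ‖slot 0 A (X.T l y)‖ ^ 2 = mxSq (A * X.R k y) := by
  have h1 : mxSq (A * X.R k y) = Matrix.trace (A * X.rho k y * Aᵀ) := by
    unfold Claimed.Agent.R260.mxSq
    rw [Matrix.transpose_mul, (s6b_R_isSymm X k y).eq, Matrix.trace_mul_comm,
      ← s6b_R_mul_R X k y]
    simp only [Matrix.mul_assoc]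
  rw [h1]
  unfold HierData.rho
  rw [Matrix.mul_smul, Matrix.smul_mul, Matrix.trace_smul, smul_eq_mul, Matrix.mul_sum,
    Matrix.sum_mul, Matrix.trace_sum]
  congr 1
  exact Finset.sum_congr rfl (fun l _ => s6n_slot_norm _ _)

/-- band identity for rows: `|wᵀ R|² = wᵀ ρ w` -/
theorem s6b_band_row (w : Fin n → ℝ) :
    ∑ b, (∑ c, w c * X.R k y c b) ^ 2 = w ⬝ᵥ (X.rho k y *ᵥ w) := by
  rw [← s6b_R_mul_R X k y, ← Matrix.mulVec_mulVec, Matrix.dotProduct_mulVec]
  have h2 : X.R k y *ᵥ w = Matrix.vecMul w (X.R k y) := by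
    rw [← Matrix.mulVec_transpose, (s6b_R_isSymm X k y).eq]
  rw [h2]
  simp only [dotProduct, Matrix.vecMul, sq]

/-! ### nonnegativity -/

theorem s6b_nonneg (H H' : Fin n → Mx n) :
    0 ≤ X.pHr k H y ∧ 0 ≤ X.pCm k H y ∧ 0 ≤ X.pAc k H y ∧ 0 ≤ X.pCl k H H' y ∧ 0 ≤ X.pDd k y ∧
      0 ≤ X.pDe k y ∧ 0 ≤ X.pTp k y ∧ 0 ≤ X.pTr k y ∧ 0 ≤ X.pEn k y := by
  have h0 := s6b_nrm_nonneg X k
  refine ⟨?_, ?_, ?_, ?_, ?_, ?_, ?_, ?_, ?_⟩
  · exact Finset.sum_nonneg fun i _ => Claimed.Agent.R260.mxSq_nonneg _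
  · exact Finset.sum_nonneg fun i _ => Claimed.Agent.R260.mxSq_nonneg _
  · exact mul_nonneg h0 (Finset.sum_nonneg fun l _ => Finset.sum_nonneg fun i _ => sq_nonneg _)
  · exact Finset.sum_nonneg fun i _ => Claimed.Agent.R260.mxSq_nonneg _
  · exact mul_nonneg h0 (Finset.sum_nonneg fun l _ => Finset.sum_nonneg fun i _ => sq_nonneg _)
  · exact mul_nonneg h0 (Finset.sum_nonneg fun l _ => sq_nonneg _)
  · exact mul_nonneg h0 (Finset.sum_nonneg fun l _ => sq_nonneg _)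
  · exact mul_nonneg h0 (Finset.sum_nonneg fun l _ => sq_nonneg _)
  · exact mul_nonneg h0 (add_nonneg (sq_nonneg _) (sq_nonneg _))

/-- `|a|² ≤ 2 |a - b|² + 2 |b|²` in a normed group -/
theorem s6b_norm_sq_le {V : Type} [SeminormedAddCommGroup V] (a b : V) :
    ‖a‖ ^ 2 ≤ 2 * ‖a - b‖ ^ 2 + 2 * ‖b‖ ^ 2 := by
  have h1 : ‖a‖ ≤ ‖a - b‖ + ‖b‖ := by
    have := norm_add_le (a - b) b
    rwa [sub_add_cancel] at this
  have h2 : ‖a‖ ^ 2 ≤ (‖a - b‖ + ‖b‖) ^ 2 := pow_le_pow_left₀ (norm_nonneg _) h1 2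
  nlinarith [sq_nonneg (‖a - b‖ - ‖b‖)]

/-- `|DΨ|² ≤ 2 (coupling defect) + 2 |shifted band|²` -/
theorem s6b_pDd_le : X.pDd k y ≤ 2 * X.pDe k y + 2 * X.pTp k y := by
  unfold HierData.pDd HierData.pDe HierData.pTp
  have h0 := s6b_nrm_nonneg X k
  have key : ∑ l ∈ Finset.Ico k (2 * k), ∑ i, ‖dI i (X.T l) y‖ ^ 2
      ≤ 2 * ∑ l ∈ Finset.Ico k (2 * k), ‖tD (X.T l) y - X.T (l + 1) y‖ ^ 2
        + 2 * ∑ l ∈ Finset.Ico k (2 * k), ‖X.T (l + 1) y‖ ^ 2 := by
    rw [Finset.mul_sum, Finset.mul_sum, ← Finset.sum_add_distrib]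
    refine Finset.sum_le_sum fun l _ => ?_
    rw [s6n_tD_sub_norm, ← s6n_lastSl_norm (X.T (l + 1) y), Finset.mul_sum, Finset.mul_sum,
      ← Finset.sum_add_distrib]
    exact Finset.sum_le_sum fun i _ => s6b_norm_sq_le _ _
  calc X.nrm k * ∑ l ∈ Finset.Ico k (2 * k), ∑ i, ‖dI i (X.T l) y‖ ^ 2
      ≤ X.nrm k * (2 * ∑ l ∈ Finset.Ico k (2 * k), ‖tD (X.T l) y - X.T (l + 1) y‖ ^ 2
        + 2 * ∑ l ∈ Finset.Ico k (2 * k), ‖X.T (l + 1) y‖ ^ 2) :=
        mul_le_mul_of_nonneg_left key h0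
    _ = _ := by ring

/-! ### perturbation accounting (after (6.weighted-change)) -/

/-- band identity summed over a column -/
theorem s6b_band_col (A : Fin n → Mx n) :
    X.nrm k * ∑ l ∈ Finset.Ico k (2 * k), ∑ i, ‖slot 0 (A i) (X.T l y)‖ ^ 2
      = ∑ i, mxSq (A i * X.R k y) := by
  rw [Finset.sum_comm, Finset.mul_sum]
  exact Finset.sum_congr rfl fun i _ => s6b_band_sq X k y (A i)

theorem s6b_pAc_pert (H H' : Fin n → Mx n) :
    X.pAc k H y ≤ 2 * X.pAc k H' y + 2 * X.pCl k H H' y := by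
  unfold HierData.pAc HierData.pCl
  rw [← s6b_band_col X k y (fun i => H i - H' i)]
  have h0 := s6b_nrm_nonneg X k
  have key : ∑ l ∈ Finset.Ico k (2 * k), ∑ i, ‖dI i (X.T l) y - slot 0 (H i) (X.T l y)‖ ^ 2
      ≤ 2 * ∑ l ∈ Finset.Ico k (2 * k), ∑ i, ‖dI i (X.T l) y - slot 0 (H' i) (X.T l y)‖ ^ 2
        + 2 * ∑ l ∈ Finset.Ico k (2 * k), ∑ i, ‖slot 0 (H i - H' i) (X.T l y)‖ ^ 2 := by
    rw [Finset.mul_sum, Finset.mul_sum, ← Finset.sum_add_distrib]
    refine Finset.sum_le_sum fun l _ => ?_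
    rw [Finset.mul_sum, Finset.mul_sum, ← Finset.sum_add_distrib]
    refine Finset.sum_le_sum fun i _ => ?_
    have h := s6b_norm_sq_le (dI i (X.T l) y - slot 0 (H i) (X.T l y))
      (-(slot 0 (H i - H' i) (X.T l y)))
    rw [norm_neg, s6n_slot_sub_left] at h
    have e : dI i (X.T l) y - slot 0 (H i) (X.T l y)
        - -(slot 0 (H i) (X.T l y) - slot 0 (H' i) (X.T l y))
        = dI i (X.T l) y - slot 0 (H' i) (X.T l y) := by abel
    rw [e] at h
    rw [s6n_slot_sub_left]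
    exact h
  calc X.nrm k * ∑ l ∈ Finset.Ico k (2 * k), ∑ i, ‖dI i (X.T l) y - slot 0 (H i) (X.T l y)‖ ^ 2
      ≤ X.nrm k * (2 * ∑ l ∈ Finset.Ico k (2 * k), ∑ i,
            ‖dI i (X.T l) y - slot 0 (H' i) (X.T l y)‖ ^ 2
        + 2 * ∑ l ∈ Finset.Ico k (2 * k), ∑ i, ‖slot 0 (H i - H' i) (X.T l y)‖ ^ 2) :=
        mul_le_mul_of_nonneg_left key h0
    _ = _ := by ring

theorem s6b_pCm_pert {H H' : Fin n → Mx n} (hs : ∀ i, (H i).IsSymm) (hs' : ∀ i, (H' i).IsSymm) :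
    X.pCm k H y ≤ 2 * X.pCm k H' y + 8 * X.pCl k H H' y := by
  unfold HierData.pCm HierData.pCl
  rw [Finset.mul_sum, Finset.mul_sum, ← Finset.sum_add_distrib]
  exact Finset.sum_le_sum fun i _ => s6p_cmm_pert (hs i) (hs' i) (s6b_R_isSymm X k y)

theorem s6b_pHr_le {H : Fin n → Mx n} (hH : ColB H 4) : X.pHr k H y ≤ 4 * X.pTr k y := by
  unfold HierData.pHr
  rw [← s6b_mxSq_R]
  exact s6k_col_mxSq hH _

theorem s6b_pCm_le_pHr {H : Fin n → Mx n} (hs : ∀ i, (H i).IsSymm) :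
    X.pCm k H y ≤ 4 * X.pHr k H y := by
  unfold HierData.pCm HierData.pHr
  rw [Finset.mul_sum]
  exact Finset.sum_le_sum fun i _ => s6p_cmm_le (hs i) (s6b_R_isSymm X k y)

theorem s6b_pAc_le (H : Fin n → Mx n) : X.pAc k H y ≤ 2 * X.pDd k y + 2 * X.pHr k H y := by
  unfold HierData.pAc HierData.pDd HierData.pHr
  rw [← s6b_band_col X k y H]
  have h0 := s6b_nrm_nonneg X k
  have key : ∑ l ∈ Finset.Ico k (2 * k), ∑ i, ‖dI i (X.T l) y - slot 0 (H i) (X.T l y)‖ ^ 2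
      ≤ 2 * ∑ l ∈ Finset.Ico k (2 * k), ∑ i, ‖dI i (X.T l) y‖ ^ 2
        + 2 * ∑ l ∈ Finset.Ico k (2 * k), ∑ i, ‖slot 0 (H i) (X.T l y)‖ ^ 2 := by
    rw [Finset.mul_sum, Finset.mul_sum, ← Finset.sum_add_distrib]
    refine Finset.sum_le_sum fun l _ => ?_
    rw [Finset.mul_sum, Finset.mul_sum, ← Finset.sum_add_distrib]
    refine Finset.sum_le_sum fun i _ => ?_
    have h := s6b_norm_sq_le (dI i (X.T l) y - slot 0 (H i) (X.T l y))
      (-(slot 0 (H i) (X.T l y)))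
    rw [norm_neg, sub_neg_eq_add, sub_add_cancel] at h
    exact h
  calc X.nrm k * ∑ l ∈ Finset.Ico k (2 * k), ∑ i, ‖dI i (X.T l) y - slot 0 (H i) (X.T l y)‖ ^ 2
      ≤ X.nrm k * (2 * ∑ l ∈ Finset.Ico k (2 * k), ∑ i, ‖dI i (X.T l) y‖ ^ 2
        + 2 * ∑ l ∈ Finset.Ico k (2 * k), ∑ i, ‖slot 0 (H i) (X.T l y)‖ ^ 2) :=
        mul_le_mul_of_nonneg_left key h0
    _ = _ := by ring

end Claimed.Agent.R259
end

/- ===== packed: Claimed.Agent.R259.S6ColBal ===== -/
section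
/-
Row 259 (S0499), section 6 of the paper, package BP-S6-col (Lemmas 6.4, 6.5).  Owner: helper144.

POINTWISE STATEMENTS FOR THE BAND, part 2: the two balance equations in tested Young form and the
pointwise versions of the conclusions of `s6_col` and `s6_trunc`.
-/
set_option autoImplicit false

open scoped BigOperators Matrix
open Claimed.Agent.R260 (Mx mxFun mxSchur mxSq mxIP mxEig mxU mxRot)

namespace Claimed.Agent.R259

variable {n : ℕ} (X : HierData n) (k : ℕ) (y : EE n)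

/-! ### auxiliary identities -/

/-- triangle inequality for `nrm • ∑_l ∑_i` of tested differences -/
theorem s6b_tested_sum {ι : Type} (s : Finset ι) {c : ℝ} (hc : 0 ≤ c) (B : Mx n)
    (D : ι → Mx n) (e : ι → ℝ) (h : ∀ j ∈ s, |Matrix.trace (B * D j)| ≤ e j) :
    |Matrix.trace (B * (c • ∑ j ∈ s, D j))| ≤ c * ∑ j ∈ s, e j := by
  rw [Matrix.mul_smul, Matrix.trace_smul, smul_eq_mul, abs_mul, abs_of_nonneg hc, Matrix.mul_sum,
    Matrix.trace_sum]
  exact mul_le_mul_of_nonneg_left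
    ((Finset.abs_sum_le_sum_abs _ _).trans (Finset.sum_le_sum h)) hc

theorem s6b_rSq_mul_flat {d : ℕ} (M : Mx n) (t : TT n (d + 1)) :
    rSq (M * flat t) = ‖slot 0 M t‖ ^ 2 := by
  rw [← s6n_flat_slot, s6n_rSq_flat]

theorem s6b_rSq_flat_sub {d : ℕ} (t u : TT n (d + 1)) :
    rSq (flat t - flat u) = ‖t - u‖ ^ 2 := by
  rw [← s6n_flat_sub, s6n_rSq_flat]

theorem s6b_conj_red {d : ℕ} {M : Mx n} (hM : M.IsSymm) (t : TT n (d + 1)) :
    M * red t * M = (M * flat t) * (M * flat t)ᵀ := by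
  unfold red
  rw [Matrix.transpose_mul, hM.eq]
  simp only [Matrix.mul_assoc]

theorem s6b_conj_rho (M : Mx n) :
    M * X.rho k y * M = X.nrm k • ∑ l ∈ Finset.Ico k (2 * k), M * red (X.T l y) * M := by
  unfold HierData.rho
  rw [Matrix.mul_smul, Matrix.smul_mul, Matrix.mul_sum, Matrix.sum_mul]

/-! ### the balance equations (6.balance), tested Young form -/

/-- step 1: `∑ H_i ρ H_i` against the reduction of `DΨ` -/
theorem s6b_bal_step1 {H : Fin n → Mx n} (hs : ∀ i, (H i).IsSymm) {B : Mx n} {b θ : ℝ}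
    (hb : 0 < b) (hθ : 0 < θ) (hB : opB B b) :
    |Matrix.trace (B * ((∑ i, H i * X.rho k y * H i)
        - X.nrm k • ∑ l ∈ Finset.Ico k (2 * k), ∑ i, red (dI i (X.T l) y)))|
      ≤ b * (θ * (X.pHr k H y + X.pDd k y) + X.pAc k H y / (2 * θ)) := by
  have h0 := s6b_nrm_nonneg X k
  have e1 : (∑ i, H i * X.rho k y * H i)
        - X.nrm k • ∑ l ∈ Finset.Ico k (2 * k), ∑ i, red (dI i (X.T l) y)
      = X.nrm k • ∑ l ∈ Finset.Ico k (2 * k), ∑ i,
          ((H i * flat (X.T l y)) * (H i * flat (X.T l y))ᵀ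
            - flat (dI i (X.T l) y) * (flat (dI i (X.T l) y))ᵀ) := by
    simp only [s6b_conj_rho]
    rw [← Finset.smul_sum, ← smul_sub, Finset.sum_comm, ← Finset.sum_sub_distrib]
    congr 1
    refine Finset.sum_congr rfl fun l _ => ?_
    rw [← Finset.sum_sub_distrib]
    refine Finset.sum_congr rfl fun i _ => ?_
    rw [s6b_conj_red (hs i)]
    rfl
  rw [e1]
  refine (s6b_tested_sum (Finset.Ico k (2 * k)) h0 B _
    (fun l => ∑ i, b * (θ * (‖slot 0 (H i) (X.T l y)‖ ^ 2 + ‖dI i (X.T l) y‖ ^ 2)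
      + ‖dI i (X.T l) y - slot 0 (H i) (X.T l y)‖ ^ 2 / (2 * θ))) fun l _ => ?_).trans
    (le_of_eq ?_)
  · rw [Matrix.mul_sum, Matrix.trace_sum]
    refine (Finset.abs_sum_le_sum_abs _ _).trans (Finset.sum_le_sum fun i _ => ?_)
    have h := s6k_tested hb hθ hB (H i * flat (X.T l y)) (flat (dI i (X.T l) y))
    rw [s6b_rSq_mul_flat, s6n_rSq_flat, ← s6n_flat_slot, s6b_rSq_flat_sub, norm_sub_rev] at h
    rw [← s6n_flat_slot]
    exact h
  · unfold HierData.pHr HierData.pDd HierData.pAc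
    rw [← s6b_band_col X k y H]
    simp only [← Finset.mul_sum, Finset.sum_add_distrib, ← Finset.sum_div]
    ring

/-- step 2: the reduction of `DΨ` against the reduction of the shifted band -/
theorem s6b_bal_step2 {B : Mx n} {b θ : ℝ} (hb : 0 < b) (hθ : 0 < θ) (hB : opB B b) :
    |Matrix.trace (B * (X.nrm k • ∑ l ∈ Finset.Ico k (2 * k), ∑ i, red (dI i (X.T l) y)
        - X.nrm k • ∑ l ∈ Finset.Ico k (2 * k), red (X.T (l + 1) y)))|
      ≤ b * (θ * (X.pDd k y + X.pTp k y) + X.pDe k y / (2 * θ)) := by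
  have h0 := s6b_nrm_nonneg X k
  have e1 : X.nrm k • ∑ l ∈ Finset.Ico k (2 * k), ∑ i, red (dI i (X.T l) y)
        - X.nrm k • ∑ l ∈ Finset.Ico k (2 * k), red (X.T (l + 1) y)
      = X.nrm k • ∑ l ∈ Finset.Ico k (2 * k), ∑ i,
          (flat (dI i (X.T l) y) * (flat (dI i (X.T l) y))ᵀ
            - flat (lastSl (X.T (l + 1) y) i) * (flat (lastSl (X.T (l + 1) y) i))ᵀ) := by
    rw [← smul_sub, ← Finset.sum_sub_distrib]
    congr 1
    refine Finset.sum_congr rfl fun l _ => ?_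
    rw [← s6n_lastSl_red, ← Finset.sum_sub_distrib]
    rfl
  rw [e1]
  refine (s6b_tested_sum (Finset.Ico k (2 * k)) h0 B _
    (fun l => ∑ i, b * (θ * (‖dI i (X.T l) y‖ ^ 2 + ‖lastSl (X.T (l + 1) y) i‖ ^ 2)
      + ‖dI i (X.T l) y - lastSl (X.T (l + 1) y) i‖ ^ 2 / (2 * θ))) fun l _ => ?_).trans
    (le_of_eq ?_)
  · rw [Matrix.mul_sum, Matrix.trace_sum]
    refine (Finset.abs_sum_le_sum_abs _ _).trans (Finset.sum_le_sum fun i _ => ?_)
    have h := s6k_tested hb hθ hB (flat (dI i (X.T l) y)) (flat (lastSl (X.T (l + 1) y) i))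
    rw [s6n_rSq_flat, s6n_rSq_flat, s6b_rSq_flat_sub] at h
    exact h
  · unfold HierData.pDd HierData.pTp HierData.pDe
    simp only [← Finset.mul_sum, Finset.sum_add_distrib, ← Finset.sum_div, s6n_lastSl_norm,
      s6n_tD_sub_norm]
    ring

/-- telescoping sum over `Ico` -/
theorem s6b_telescope {M : Type} [AddCommGroup M] (f : ℕ → M) (a : ℕ) :
    ∀ m, a ≤ m → ∑ l ∈ Finset.Ico a m, f (l + 1) - ∑ l ∈ Finset.Ico a m, f l = f m - f a := by
  intro m hm
  induction m, hm using Nat.le_induction with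
  | base => simp
  | succ m hm ih =>
    rw [Finset.sum_Ico_succ_top hm, Finset.sum_Ico_succ_top hm]
    have : ∑ l ∈ Finset.Ico a m, f (l + 1) + f (m + 1) - (∑ l ∈ Finset.Ico a m, f l + f m)
        = (∑ l ∈ Finset.Ico a m, f (l + 1) - ∑ l ∈ Finset.Ico a m, f l) + (f (m + 1) - f m) := by
      abel
    rw [this, ih]
    abel

/-- step 3: shifting the band costs the two endpoints -/
theorem s6b_bal_step3 {B : Mx n} {b : ℝ} (hb : 0 < b) (hB : opB B b) :
    |Matrix.trace (B * (X.nrm k • ∑ l ∈ Finset.Ico k (2 * k), red (X.T (l + 1) y) - X.rho k y))|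
      ≤ b * X.pEn k y := by
  have h0 := s6b_nrm_nonneg X k
  unfold HierData.rho HierData.pEn
  rw [← smul_sub, s6b_telescope (fun l => red (X.T l y)) k (2 * k) (by omega), Matrix.mul_smul,
    Matrix.trace_smul, smul_eq_mul, abs_mul, abs_of_nonneg h0, Matrix.mul_sub, Matrix.trace_sub]
  have h1 := s6k_tested_one hb hB (flat (X.T (2 * k) y))
  have h2 := s6k_tested_one hb hB (flat (X.T k y))
  rw [s6n_rSq_flat] at h1 h2
  have h3 : |Matrix.trace (B * red (X.T (2 * k) y)) - Matrix.trace (B * red (X.T k y))|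
      ≤ b * ‖X.T (2 * k) y‖ ^ 2 + b * ‖X.T k y‖ ^ 2 :=
    (abs_sub _ _).trans (add_le_add h1 h2)
  calc X.nrm k * |Matrix.trace (B * red (X.T (2 * k) y)) - Matrix.trace (B * red (X.T k y))|
      ≤ X.nrm k * (b * ‖X.T (2 * k) y‖ ^ 2 + b * ‖X.T k y‖ ^ 2) :=
        mul_le_mul_of_nonneg_left h3 h0
    _ = _ := by ring

/-- the three steps together -/
theorem s6b_bal_steps {H : Fin n → Mx n} (hs : ∀ i, (H i).IsSymm) {B : Mx n} {b θ : ℝ}
    (hb : 0 < b) (hθ : 0 < θ) (hB : opB B b) :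
    |Matrix.trace (B * ((∑ i, H i * X.rho k y * H i) - X.rho k y))|
      ≤ b * (θ * (X.pHr k H y + 2 * X.pDd k y + X.pTp k y)
        + (X.pAc k H y + X.pDe k y) / (2 * θ) + X.pEn k y) := by
  have h1 := s6b_bal_step1 X k y hs hb hθ hB
  have h2 := s6b_bal_step2 X k y hb hθ hB
  have h3 := s6b_bal_step3 X k y hb hB
  have e : B * ((∑ i, H i * X.rho k y * H i) - X.rho k y)
      = B * ((∑ i, H i * X.rho k y * H i)
          - X.nrm k • ∑ l ∈ Finset.Ico k (2 * k), ∑ i, red (dI i (X.T l) y))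
        + B * (X.nrm k • ∑ l ∈ Finset.Ico k (2 * k), ∑ i, red (dI i (X.T l) y)
          - X.nrm k • ∑ l ∈ Finset.Ico k (2 * k), red (X.T (l + 1) y))
        + B * (X.nrm k • ∑ l ∈ Finset.Ico k (2 * k), red (X.T (l + 1) y) - X.rho k y) := by
    rw [← Matrix.mul_add, ← Matrix.mul_add]
    congr 1
    abel
  rw [e, Matrix.trace_add, Matrix.trace_add]
  refine (abs_add_three _ _ _).trans ((add_le_add (add_le_add h1 h2) h3).trans (le_of_eq ?_))
  ring

/-- FIRST BALANCE EQUATION -/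
theorem s6b_bal1 {H : Fin n → Mx n} (hs : ∀ i, (H i).IsSymm) {B : Mx n} {b θ : ℝ}
    (hb : 0 < b) (hθ : 0 < θ) (hB : opB B b) :
    |Matrix.trace (B * ((∑ i, H i * (X.R k y * X.R k y) * H i) - X.R k y * X.R k y))|
      ≤ b * X.pE0 k θ H y := by
  rw [s6b_R_mul_R]
  refine (s6b_bal_steps X k y hs hb hθ hB).trans (mul_le_mul_of_nonneg_left ?_ hb.le)
  obtain ⟨p1, p2, -⟩ := s6b_nonneg X k y H H
  unfold HierData.pE0
  have q1 : 0 ≤ θ * (2 * X.pHr k H y) := by positivity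
  have q2 : 0 ≤ X.pCm k H y / (2 * θ) := by positivity
  have e : θ * (3 * X.pHr k H y + 2 * X.pDd k y + X.pTp k y)
        + (X.pCm k H y + X.pAc k H y + X.pDe k y) / (2 * θ) + X.pEn k y
      = (θ * (X.pHr k H y + 2 * X.pDd k y + X.pTp k y)
        + (X.pAc k H y + X.pDe k y) / (2 * θ) + X.pEn k y)
        + θ * (2 * X.pHr k H y) + X.pCm k H y / (2 * θ) := by ring
  rw [e]
  linarith

/-- comparison of `R S R` and `∑ H_i ρ H_i` -/
theorem s6b_bal_swap {H : Fin n → Mx n} (hs : ∀ i, (H i).IsSymm) {B : Mx n} {b θ : ℝ}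
    (hb : 0 < b) (hθ : 0 < θ) (hB : opB B b) :
    |Matrix.trace (B * (X.R k y * colS H * X.R k y - ∑ i, H i * X.rho k y * H i))|
      ≤ b * (θ * (2 * X.pHr k H y) + X.pCm k H y / (2 * θ)) := by
  have hR := s6b_R_isSymm X k y
  have e1 : X.R k y * colS H * X.R k y - ∑ i, H i * X.rho k y * H i
      = (1 : ℝ) • ∑ i, ((X.R k y * H i) * (X.R k y * H i)ᵀ - (H i * X.R k y) * (H i * X.R k y)ᵀ) := by
    unfold colS
    rw [one_smul, Matrix.mul_sum, Matrix.sum_mul, ← Finset.sum_sub_distrib]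
    refine Finset.sum_congr rfl fun i _ => ?_
    rw [Matrix.transpose_mul, Matrix.transpose_mul, hR.eq, (hs i).eq, ← s6b_R_mul_R X k y]
    simp only [Matrix.mul_assoc]
  rw [e1]
  refine (s6b_tested_sum Finset.univ zero_le_one B _
    (fun i => b * (θ * (mxSq (H i * X.R k y) + mxSq (H i * X.R k y))
      + mxSq (cmm (H i) (X.R k y)) / (2 * θ))) fun i _ => ?_).trans (le_of_eq ?_)
  · have h := s6k_tested hb hθ hB (X.R k y * H i) (H i * X.R k y)
    have t1 : mxSq (X.R k y * H i) = mxSq (H i * X.R k y) := by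
      rw [← s6k_mxSq_transpose, Matrix.transpose_mul, hR.eq, (hs i).eq]
    have t2 : mxSq (X.R k y * H i - H i * X.R k y) = mxSq (cmm (H i) (X.R k y)) := by
      rw [← s6k_mxSq_neg]
      unfold cmm
      rw [neg_sub]
    rw [s6k_rSq_eq_mxSq, s6k_rSq_eq_mxSq, s6k_rSq_eq_mxSq, t1, t2] at h
    exact h
  · unfold HierData.pHr HierData.pCm
    simp only [← Finset.mul_sum, Finset.sum_add_distrib, ← Finset.sum_div]
    ring

/-- SECOND BALANCE EQUATION -/
theorem s6b_bal2 {H : Fin n → Mx n} (hs : ∀ i, (H i).IsSymm) {B : Mx n} {b θ : ℝ}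
    (hb : 0 < b) (hθ : 0 < θ) (hB : opB B b) :
    |Matrix.trace (B * (X.R k y * colS H * X.R k y - X.R k y * X.R k y))|
      ≤ b * X.pE0 k θ H y := by
  rw [s6b_R_mul_R]
  have h1 := s6b_bal_swap X k y hs hb hθ hB
  have h2 := s6b_bal_steps X k y hs hb hθ hB
  have e : B * (X.R k y * colS H * X.R k y - X.rho k y)
      = B * (X.R k y * colS H * X.R k y - ∑ i, H i * X.rho k y * H i)
        + B * ((∑ i, H i * X.rho k y * H i) - X.rho k y) := by
    rw [← Matrix.mul_add]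
    congr 1
    abel
  rw [e, Matrix.trace_add]
  refine (abs_add_le _ _).trans ((add_le_add h1 h2).trans (le_of_eq ?_))
  unfold HierData.pE0
  ring

/-! ### pointwise versions of the conclusions -/

/-- last step of Lemma 6.4 -/
theorem s6b_sdef {H : Fin n → Mx n} (hH : ColB H 4) {θ : ℝ} (hθ : 0 < θ) :
    mxSq ((colS H - 1) * X.R k y) ≤ 6 * X.pE0 k θ H y + 16 * X.pCm k H y :=
  s6p_sdef hH (s6b_R_isSymm X k y) (E0 := X.pE0 k θ H y)
    (fun _ _ hb hB => s6b_bal2 X k y hH.symm hb hθ hB)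

/-- commutation (Lemma 6.5) -/
theorem s6b_cc {H : Fin n → Mx n} (hH : ColB H 4) (hk : 2 ≤ k) :
    ∑ i, ∑ j, mxSq (cmm (H i) (H j) * X.R k y) ≤ 256 * X.pAc k H y := by
  have h0 := s6b_nrm_nonneg X k
  have e : ∑ i, ∑ j, mxSq (cmm (H i) (H j) * X.R k y)
      = X.nrm k * ∑ l ∈ Finset.Ico k (2 * k), ∑ i, ∑ j,
          ‖slot 0 (cmm (H i) (H j)) (X.T l y)‖ ^ 2 := by
    have e1 : ∀ i, ∑ j, mxSq (cmm (H i) (H j) * X.R k y)
        = X.nrm k * ∑ l ∈ Finset.Ico k (2 * k), ∑ j,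
          ‖slot 0 (cmm (H i) (H j)) (X.T l y)‖ ^ 2 :=
      fun i => (s6b_band_col X k y (fun j => cmm (H i) (H j))).symm
    simp only [e1]
    rw [← Finset.mul_sum, Finset.sum_comm]
  rw [e]
  unfold HierData.pAc
  have key : ∑ l ∈ Finset.Ico k (2 * k), ∑ i, ∑ j, ‖slot 0 (cmm (H i) (H j)) (X.T l y)‖ ^ 2
      ≤ 256 * ∑ l ∈ Finset.Ico k (2 * k), ∑ i,
          ‖dI i (X.T l) y - slot 0 (H i) (X.T l y)‖ ^ 2 := by
    rw [Finset.mul_sum]
    refine Finset.sum_le_sum fun l hl => ?_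
    have hl2 : 2 ≤ l := hk.trans (Finset.mem_Ico.mp hl).1
    exact s6p_four_moves hH hl2 (X.T_symm l y)
      (fun i => s6n_dI_sym (X.T_test l) (X.T_symm l) i y)
  calc X.nrm k * ∑ l ∈ Finset.Ico k (2 * k), ∑ i, ∑ j, ‖slot 0 (cmm (H i) (H j)) (X.T l y)‖ ^ 2
      ≤ X.nrm k * (256 * ∑ l ∈ Finset.Ico k (2 * k), ∑ i,
          ‖dI i (X.T l) y - slot 0 (H i) (X.T l y)‖ ^ 2) := mul_le_mul_of_nonneg_left key h0
    _ = _ := by ring

theorem s6b_slot_cons {d : ℕ} (M : Mx n) (t : TT n (d + 1)) (a : Fin n) (β : Idx n d) :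
    slot 0 M t (Fin.cons a β) = ∑ c, M a c * t (Fin.cons c β) := by
  have h := congrFun (congrFun (s6n_flat_slot M t) a) β
  rw [Matrix.mul_apply] at h
  exact h

/-- index exchange (Lemma 6.5) -/
theorem s6b_ex (H : Fin n → Mx n) :
    ∑ i, ∑ a, ∑ b, ((H i * X.R k y) a b - (H a * X.R k y) i b) ^ 2
      ≤ 8 * X.pAc k H y + 8 * X.pDe k y := by
  have h0 := s6b_nrm_nonneg X k
  have e : ∑ i, ∑ a, ∑ b, ((H i * X.R k y) a b - (H a * X.R k y) i b) ^ 2
      = X.nrm k * ∑ l ∈ Finset.Ico k (2 * k), ∑ i, ∑ a, ∑ β : Idx n l,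
          (slot 0 (H i) (X.T l y) (Fin.cons a β) - slot 0 (H a) (X.T l y) (Fin.cons i β)) ^ 2 := by
    have e1 : ∀ i a, ∑ b, ((H i * X.R k y) a b - (H a * X.R k y) i b) ^ 2
        = X.nrm k * ∑ l ∈ Finset.Ico k (2 * k), ∑ β : Idx n l,
          (slot 0 (H i) (X.T l y) (Fin.cons a β)
            - slot 0 (H a) (X.T l y) (Fin.cons i β)) ^ 2 := by
      intro i a
      have q := s6b_rho_quad X k y (fun c => H i a c - H a i c)
      rw [← s6b_band_row] at q
      have l1 : ∑ b, ((H i * X.R k y) a b - (H a * X.R k y) i b) ^ 2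
          = ∑ b, (∑ c, (H i a c - H a i c) * X.R k y c b) ^ 2 := by
        refine Finset.sum_congr rfl fun b _ => ?_
        rw [Matrix.mul_apply, Matrix.mul_apply, ← Finset.sum_sub_distrib]
        congr 1
        exact Finset.sum_congr rfl fun c _ => by ring
      rw [l1, q]
      congr 1
      refine Finset.sum_congr rfl fun l _ => Finset.sum_congr rfl fun β _ => ?_
      rw [s6b_slot_cons, s6b_slot_cons, ← Finset.sum_sub_distrib]
      congr 1
      exact Finset.sum_congr rfl fun c _ => by ring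
    simp only [e1, ← Finset.mul_sum]
    congr 1
    exact (Finset.sum_congr rfl fun i _ => Finset.sum_comm).trans Finset.sum_comm
  rw [e]
  unfold HierData.pAc HierData.pDe
  have key : ∑ l ∈ Finset.Ico k (2 * k), ∑ i, ∑ a, ∑ β : Idx n l,
          (slot 0 (H i) (X.T l y) (Fin.cons a β) - slot 0 (H a) (X.T l y) (Fin.cons i β)) ^ 2
      ≤ 8 * ∑ l ∈ Finset.Ico k (2 * k), ∑ i, ‖dI i (X.T l) y - slot 0 (H i) (X.T l y)‖ ^ 2
        + 8 * ∑ l ∈ Finset.Ico k (2 * k), ‖tD (X.T l) y - X.T (l + 1) y‖ ^ 2 := by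
    rw [Finset.mul_sum, Finset.mul_sum, ← Finset.sum_add_distrib]
    refine Finset.sum_le_sum fun l _ => ?_
    rw [s6n_tD_sub_norm]
    exact s6p_exchange H (X.T l y) (fun i => dI i (X.T l) y) (X.T_symm (l + 1) y)
  calc X.nrm k * ∑ l ∈ Finset.Ico k (2 * k), ∑ i, ∑ a, ∑ β : Idx n l,
          (slot 0 (H i) (X.T l y) (Fin.cons a β) - slot 0 (H a) (X.T l y) (Fin.cons i β)) ^ 2
      ≤ X.nrm k * (8 * ∑ l ∈ Finset.Ico k (2 * k), ∑ i,
            ‖dI i (X.T l) y - slot 0 (H i) (X.T l y)‖ ^ 2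
        + 8 * ∑ l ∈ Finset.Ico k (2 * k), ‖tD (X.T l) y - X.T (l + 1) y‖ ^ 2) :=
        mul_le_mul_of_nonneg_left key h0
    _ = _ := by ring

/-- truncation (first half of Lemma 6.4) -/
theorem s6b_trunc {H : Fin n → Mx n} (hs : ∀ i, (H i).IsSymm) {θ : ℝ} (hθ : 0 < θ) :
    X.pCl k (truncCol H) H y
      ≤ 30 * (4 * X.pCm k H y + 8 * θ * X.pHr k H y + 2 * X.pCm k H y / θ)
        + 123 * X.pE0 k θ H y := by
  have hR := s6b_R_isSymm X k y
  have h1 := s6p_trunc_cost H hs hR (E0 := X.pE0 k θ H y)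
    (fun _ _ hb hB => s6b_bal1 X k y hs hb hθ hB)
  have h2 := s6p_tail H hs hR (E0 := X.pE0 k θ H y) hθ
    (fun _ _ hb hB => s6b_bal2 X k y hs hb hθ hB)
  unfold HierData.pCl
  unfold HierData.pCm HierData.pHr
  linarith

end Claimed.Agent.R259
end

/- ===== packed: Claimed.Agent.R259.S6ColInt ===== -/
section
/-
Row 259 (S0499), section 6 of the paper, package BP-S6-col (Lemmas 6.4, 6.5).  Owner: helper144.

INTEGRATION LAYER: bounded measurable functions, integrability of all pointwise quantities of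
`S6ColBand`, their integrals under `X.Small (3k) δ`, identification of the defects of `S6Defs`
(`actD`, `comD`, ...) with integrals of the pointwise quantities.
-/
set_option autoImplicit false

open MeasureTheory
open scoped BigOperators Matrix
open Claimed.Agent.R260 (Mx mxFun mxSchur mxSq mxIP mxEig mxU mxRot)

namespace Claimed.Agent.R259

/-- bounded measurable real function -/
def BdM {Ω : Type} [MeasurableSpace Ω] (f : Ω → ℝ) : Prop :=
  Measurable f ∧ ∃ C : ℝ, ∀ ω, |f ω| ≤ C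

/-- generates the equation lemmas of the definitions above in this file (rule 6: unique names) -/
theorem s6colint_eqns_cite : True := by
  have := @BdM.eq_1
  trivial

section bdm

variable {Ω Ω' : Type} [MeasurableSpace Ω] [MeasurableSpace Ω']

theorem BdM.const (c : ℝ) : BdM (fun _ : Ω => c) :=
  ⟨measurable_const, |c|, fun _ => le_rfl⟩

theorem BdM.add {f g : Ω → ℝ} (hf : BdM f) (hg : BdM g) : BdM (fun ω => f ω + g ω) := by
  obtain ⟨hf1, C, hC⟩ := hf
  obtain ⟨hg1, D, hD⟩ := hg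
  exact ⟨hf1.add hg1, C + D, fun ω => (abs_add_le _ _).trans (add_le_add (hC ω) (hD ω))⟩

theorem BdM.sub {f g : Ω → ℝ} (hf : BdM f) (hg : BdM g) : BdM (fun ω => f ω - g ω) := by
  obtain ⟨hf1, C, hC⟩ := hf
  obtain ⟨hg1, D, hD⟩ := hg
  exact ⟨hf1.sub hg1, C + D, fun ω => (abs_sub _ _).trans (add_le_add (hC ω) (hD ω))⟩

theorem BdM.mul {f g : Ω → ℝ} (hf : BdM f) (hg : BdM g) : BdM (fun ω => f ω * g ω) := by
  obtain ⟨hf1, C, hC⟩ := hf
  obtain ⟨hg1, D, hD⟩ := hg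
  refine ⟨hf1.mul hg1, C * D, fun ω => ?_⟩
  rw [abs_mul]
  exact mul_le_mul (hC ω) (hD ω) (abs_nonneg _) ((abs_nonneg _).trans (hC ω))

theorem BdM.pow {f : Ω → ℝ} (hf : BdM f) (m : ℕ) : BdM (fun ω => f ω ^ m) := by
  obtain ⟨hf1, C, hC⟩ := hf
  refine ⟨hf1.pow_const m, C ^ m, fun ω => ?_⟩
  rw [abs_pow]
  exact pow_le_pow_left₀ (abs_nonneg _) (hC ω) m

theorem BdM.sum {ι : Type} (s : Finset ι) {f : ι → Ω → ℝ} (hf : ∀ i ∈ s, BdM (f i)) :
    BdM (fun ω => ∑ i ∈ s, f i ω) := by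
  classical
  induction s using Finset.induction_on with
  | empty => simpa using BdM.const (Ω := Ω) 0
  | insert a s ha ih =>
    have h1 := (hf a (Finset.mem_insert_self a s)).add
      (ih fun i hi => hf i (Finset.mem_insert_of_mem hi))
    have e : (fun ω => ∑ i ∈ insert a s, f i ω) = fun ω => f a ω + ∑ i ∈ s, f i ω := by
      funext ω
      rw [Finset.sum_insert ha]
    rw [e]
    exact h1

theorem BdM.comp_fst {f : Ω → ℝ} (hf : BdM f) : BdM (fun p : Ω × Ω' => f p.1) :=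
  ⟨hf.1.comp measurable_fst, hf.2.choose, fun p => hf.2.choose_spec p.1⟩

theorem BdM.integrable {f : Ω → ℝ} (hf : BdM f) (μ : Measure Ω) [IsFiniteMeasure μ] :
    Integrable f μ := by
  obtain ⟨hf1, C, hC⟩ := hf
  exact Integrable.of_bound hf1.aestronglyMeasurable C (Filter.Eventually.of_forall hC)

theorem s6i_mxSq_eq {n : ℕ} (F : Mx n) : mxSq F = ∑ a, ∑ b, F a b ^ 2 := by
  unfold Claimed.Agent.R260.mxSq
  rw [Matrix.trace, Finset.sum_comm]
  refine Finset.sum_congr rfl fun b _ => ?_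
  rw [Matrix.diag_apply, Matrix.mul_apply]
  exact Finset.sum_congr rfl fun a _ => by rw [Matrix.transpose_apply, sq]

/-- a matrix field with `BdM` entries: `mxSq` of polynomial expressions is `BdM` -/
theorem BdM.mx_sq {n : ℕ} {F : Ω → Mx n} (hF : ∀ a b, BdM fun ω => F ω a b) :
    BdM (fun ω => mxSq (F ω)) := by
  simp only [s6i_mxSq_eq]
  exact BdM.sum _ fun a _ => BdM.sum _ fun b _ => (hF a b).pow 2

theorem BdM.mx_mul {n : ℕ} {F G : Ω → Mx n} (hF : ∀ a b, BdM fun ω => F ω a b)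
    (hG : ∀ a b, BdM fun ω => G ω a b) : ∀ a b, BdM fun ω => (F ω * G ω) a b := by
  intro a b
  simp only [Matrix.mul_apply]
  exact BdM.sum _ fun c _ => (hF a c).mul (hG c b)

theorem BdM.mx_sub {n : ℕ} {F G : Ω → Mx n} (hF : ∀ a b, BdM fun ω => F ω a b)
    (hG : ∀ a b, BdM fun ω => G ω a b) : ∀ a b, BdM fun ω => (F ω - G ω) a b := by
  intro a b
  simp only [Matrix.sub_apply]
  exact (hF a b).sub (hG a b)

theorem BdM.mx_sum {n : ℕ} {ι : Type} (s : Finset ι) {F : ι → Ω → Mx n}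
    (hF : ∀ i ∈ s, ∀ a b, BdM fun ω => F i ω a b) : ∀ a b, BdM fun ω => (∑ i ∈ s, F i ω) a b := by
  intro a b
  simp only [Matrix.sum_apply]
  exact BdM.sum _ fun i hi => hF i hi a b

theorem BdM.norm_sq {n d : ℕ} {F : Ω → TT n d} (hF : ∀ α, BdM fun ω => F ω α) :
    BdM (fun ω => ‖F ω‖ ^ 2) := by
  simp only [s6n_norm_sq]
  exact BdM.sum _ fun α _ => (hF α).pow 2

end bdm

variable {n : ℕ} (X : HierData n) (k : ℕ)

/-! ### the measures -/

theorem s6i_prob_eta : IsProbabilityMeasure (dm X.η) := by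
  constructor
  unfold dm
  rw [withDensity_apply _ MeasurableSet.univ, Measure.restrict_univ]
  obtain ⟨h1, h2, h3⟩ := X.spd
  have hint : Integrable X.η volume := by
    by_contra hc
    rw [integral_undef hc] at h3
    exact zero_ne_one h3
  rw [← ofReal_integral_eq_lintegral_ofReal hint (Filter.Eventually.of_forall fun x => (h2 x).le),
    h3, ENNReal.ofReal_one]

theorem s6i_prob_unif {h : ℝ} (hh : 0 < h) : IsProbabilityMeasure (unifM h) := by
  constructor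
  unfold unifM
  rw [Measure.smul_apply, Measure.restrict_apply MeasurableSet.univ, Set.univ_inter,
    Real.volume_Ico, sub_zero, smul_eq_mul, ← ENNReal.ofReal_mul (inv_nonneg.mpr hh.le),
    inv_mul_cancel₀ hh.ne', ENNReal.ofReal_one]

theorem s6i_prob_Qm {h : ℝ} (hh : 0 < h) : IsProbabilityMeasure (X.Qm h) := by
  have := s6i_prob_eta X
  have := s6i_prob_unif hh
  unfold HierData.Qm
  infer_instance

theorem s6i_integral_fst {h : ℝ} (hh : 0 < h) (f : EE n → ℝ) :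
    ∫ p, f p.1 ∂(X.Qm h) = ∫ y, f y ∂(dm X.η) := by
  have := s6i_prob_eta X
  have := s6i_prob_unif hh
  unfold HierData.Qm
  rw [integral_fun_fst]
  simp

theorem s6i_integrable_fst {h : ℝ} (hh : 0 < h) {f : EE n → ℝ} (hf : Integrable f (dm X.η)) :
    Integrable (fun p : EE n × ℝ => f p.1) (X.Qm h) := by
  have := s6i_prob_eta X
  have := s6i_prob_unif hh
  unfold HierData.Qm
  exact hf.comp_fst _

/-! ### the fields are bounded and measurable -/

theorem s6i_cs_bdm {ι : Type} [Fintype ι] {F : EE n → EuclideanSpace ℝ ι} (hc : Continuous F)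
    (hs : HasCompactSupport F) (α : ι) : BdM fun y => F y α := by
  refine ⟨?_, ?_⟩
  · exact ((EuclideanSpace.proj α).continuous.comp hc).measurable
  · obtain ⟨C, hC⟩ := hs.exists_bound_of_continuous hc
    refine ⟨C, fun y => ?_⟩
    have h1 : ‖F y α‖ ≤ ‖F y‖ := PiLp.norm_apply_le (F y) α
    rw [Real.norm_eq_abs] at h1
    exact h1.trans (hC y)

theorem s6i_T_bdm (l : ℕ) (α : Idx n (l + 1)) : BdM fun y => X.T l y α :=
  s6i_cs_bdm (X.T_test l).1.continuous (X.T_test l).2 α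

theorem s6i_dT_bdm (l : ℕ) (i : Fin n) (α : Idx n (l + 1)) : BdM fun y => dI i (X.T l) y α := by
  refine s6i_cs_bdm (F := fun y => dI i (X.T l) y) ?_ ?_ α
  · unfold dI
    exact ((X.T_test l).1.continuous_fderiv (by simp)).clm_apply continuous_const
  · unfold dI
    exact (X.T_test l).2.fderiv_apply ℝ (eb i)

theorem s6i_tD_bdm (l : ℕ) (α : Idx n (l + 1 + 1)) : BdM fun y => tD (X.T l) y α :=
  s6i_dT_bdm X l (α (Fin.last (l + 1))) (Fin.init α)

theorem s6i_rho_bdm (a b : Fin n) : BdM fun y => X.rho k y a b := by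
  unfold HierData.rho
  simp only [Matrix.smul_apply, Matrix.sum_apply, smul_eq_mul]
  refine (BdM.const _).mul (BdM.sum _ fun l _ => ?_)
  unfold red flat
  simp only [Matrix.mul_apply, Matrix.transpose_apply, Matrix.of_apply]
  exact BdM.sum _ fun β _ => (s6i_T_bdm X l _).mul (s6i_T_bdm X l _)

/-- continuity of the functional calculus (`R260.mxFun_continuous`) + `|R_ab|² ≤ tr ρ` -/
theorem s6i_R_bdm (a b : Fin n) : BdM fun y => X.R k y a b := by
  have hsb : Claimed.Agent.R260.MxSymBd (X.rho k) := by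
    refine ⟨fun y => s6b_rho_isSymm X k y, fun i j => (s6i_rho_bdm X k i j).1, ?_⟩
    obtain ⟨_, C, hC⟩ := BdM.mx_sq (F := X.rho k) (s6i_rho_bdm X k)
    refine ⟨C + 1, fun y i => ?_⟩
    have h1 := Claimed.Agent.R260.mxEig_sq_le (s6b_rho_isSymm X k y) i
    have h2 := (le_abs_self _).trans (hC y)
    have h3 : 0 ≤ C := (abs_nonneg _).trans (hC y)
    refine abs_le_of_sq_le_sq ?_ (by linarith)
    nlinarith
  obtain ⟨h1, C, hC⟩ := hsb.mxFun_bd Real.continuous_sqrt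
  exact ⟨h1 a b, C, fun y => hC y a b⟩

theorem s6i_base_bdm :
    BdM (X.pDd k) ∧ BdM (X.pDe k) ∧ BdM (X.pTp k) ∧ BdM (X.pTr k) ∧ BdM (X.pEn k) := by
  refine ⟨?_, ?_, ?_, ?_, ?_⟩
  · unfold HierData.pDd
    exact (BdM.const _).mul (BdM.sum _ fun l _ => BdM.sum _ fun i _ =>
      BdM.norm_sq (s6i_dT_bdm X l i))
  · unfold HierData.pDe
    refine (BdM.const _).mul (BdM.sum _ fun l _ => BdM.norm_sq fun α => ?_)
    exact (s6i_tD_bdm X l α).sub (s6i_T_bdm X (l + 1) α)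
  · unfold HierData.pTp
    exact (BdM.const _).mul (BdM.sum _ fun l _ => BdM.norm_sq (s6i_T_bdm X (l + 1)))
  · unfold HierData.pTr
    exact (BdM.const _).mul (BdM.sum _ fun l _ => BdM.norm_sq (s6i_T_bdm X l))
  · unfold HierData.pEn
    exact (BdM.const _).mul ((BdM.norm_sq (s6i_T_bdm X (2 * k))).add (BdM.norm_sq (s6i_T_bdm X k)))

/-! ### integrals of the base quantities under `Small` -/

theorem s6i_band_int {c : ℝ} (hk : 0 < k) (f : ℕ → EE n → ℝ) (hf : ∀ l, BdM (f l))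
    (hb : ∀ l ∈ Finset.Ico k (2 * k), ∫ y, f l y ∂(dm X.η) ≤ c * X.I) :
    ∫ y, X.nrm k * ∑ l ∈ Finset.Ico k (2 * k), f l y ∂(dm X.η) ≤ c := by
  have := s6i_prob_eta X
  rw [integral_const_mul, integral_finsetSum _ fun l _ => (hf l).integrable _]
  have h1 : ∑ l ∈ Finset.Ico k (2 * k), ∫ y, f l y ∂(dm X.η) ≤ (k : ℝ) * (c * X.I) := by
    refine (Finset.sum_le_sum hb).trans (le_of_eq ?_)
    rw [Finset.sum_const, Nat.card_Ico, nsmul_eq_mul]
    congr 2
    omega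
  have h0 := s6b_nrm_nonneg X k
  refine (mul_le_mul_of_nonneg_left h1 h0).trans (le_of_eq ?_)
  unfold HierData.nrm
  have hI := X.I_pos.ne'
  have hk' : (k : ℝ) ≠ 0 := by exact_mod_cast hk.ne'
  field_simp

theorem s6i_base_int {δ : ℝ} (hk : 0 < k) (hX : X.Small (3 * k) δ) :
    ∫ y, X.pTr k y ∂(dm X.η) ≤ 1 + δ ∧ ∫ y, X.pTp k y ∂(dm X.η) ≤ 1 + δ ∧
      ∫ y, X.pDe k y ∂(dm X.η) ≤ δ ∧ ∫ y, X.pDd k y ∂(dm X.η) ≤ 2 + 4 * δ ∧
      ∫ y, X.pEn k y ∂(dm X.η) ≤ 2 * (1 + δ) / k := by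
  have := s6i_prob_eta X
  have hn : ∀ l ≤ 3 * k, ∫ y, ‖X.T l y‖ ^ 2 ∂(dm X.η) ≤ (1 + δ) * X.I := by
    intro l hl
    have h1 := (abs_le.mp (hX.norm l hl)).2
    unfold nSq at h1
    linarith
  have hTr : ∫ y, X.pTr k y ∂(dm X.η) ≤ 1 + δ := by
    unfold HierData.pTr
    refine s6i_band_int X k hk (fun l y => ‖X.T l y‖ ^ 2)
      (fun l => BdM.norm_sq (s6i_T_bdm X l)) fun l hl => hn l ?_
    have := (Finset.mem_Ico.mp hl).2
    omega
  have hTp : ∫ y, X.pTp k y ∂(dm X.η) ≤ 1 + δ := by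
    unfold HierData.pTp
    refine s6i_band_int X k hk (fun l y => ‖X.T (l + 1) y‖ ^ 2)
      (fun l => BdM.norm_sq (s6i_T_bdm X (l + 1))) fun l hl => hn (l + 1) ?_
    have := (Finset.mem_Ico.mp hl).2
    omega
  have hDe : ∫ y, X.pDe k y ∂(dm X.η) ≤ δ := by
    unfold HierData.pDe
    refine s6i_band_int X k hk (fun l y => ‖tD (X.T l) y - X.T (l + 1) y‖ ^ 2)
      (fun l => BdM.norm_sq fun α => (s6i_tD_bdm X l α).sub (s6i_T_bdm X (l + 1) α))
      fun l hl => ?_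
    have := (Finset.mem_Ico.mp hl).2
    exact hX.deriv l (by omega)
  obtain ⟨bDd, bDe, bTp, bTr, bEn⟩ := s6i_base_bdm X k
  refine ⟨hTr, hTp, hDe, ?_, ?_⟩
  · have h1 : ∫ y, X.pDd k y ∂(dm X.η) ≤ ∫ y, (2 * X.pDe k y + 2 * X.pTp k y) ∂(dm X.η) :=
      integral_mono (bDd.integrable _)
        (((bDe.integrable _).const_mul 2).add ((bTp.integrable _).const_mul 2))
        (fun y => s6b_pDd_le X k y)
    rw [integral_add ((bDe.integrable _).const_mul 2) ((bTp.integrable _).const_mul 2),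
      integral_const_mul, integral_const_mul] at h1
    linarith
  · unfold HierData.pEn
    rw [integral_const_mul, integral_add ((BdM.norm_sq (s6i_T_bdm X (2 * k))).integrable _)
      ((BdM.norm_sq (s6i_T_bdm X k)).integrable _)]
    have h1 := hn (2 * k) (by omega)
    have h2 := hn k (by omega)
    have h0 := s6b_nrm_nonneg X k
    refine (mul_le_mul_of_nonneg_left (add_le_add h1 h2) h0).trans (le_of_eq ?_)
    unfold HierData.nrm
    have hI := X.I_pos.ne'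
    have hk' : (k : ℝ) ≠ 0 := by exact_mod_cast hk.ne'
    field_simp
    ring

end Claimed.Agent.R259
end

/- ===== packed: Claimed.Agent.R259.S6ColIntB ===== -/
section
/-
Row 259 (S0499), section 6 of the paper, package BP-S6-col (Lemmas 6.4, 6.5).  Owner: helper144.

INTEGRATION LAYER, part 2: bounded columns on `𝒟 = EE n × ℝ`, the (unbounded) Sylvester column,
identification of the defects of `S6Defs` with integrals of the pointwise quantities.
-/
set_option autoImplicit false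

open MeasureTheory
open scoped BigOperators Matrix
open Claimed.Agent.R260 (Mx mxFun mxSchur mxSq mxIP mxEig mxU mxRot)

namespace Claimed.Agent.R259

variable {n : ℕ} (X : HierData n) (k : ℕ)

/-! ### bounded columns on `𝒟` -/

section col

variable {h : ℝ} {H : EE n × ℝ → Fin n → Mx n}

theorem s6i_ColB (hH : HierData.ColOK H) (p : EE n × ℝ) : ColB (H p) 4 :=
  s6k_ColB_of_psd (hH.symm p) (hH.col p)

theorem s6i_H_bdm (hH : HierData.ColOK H) (i a b : Fin n) : BdM fun p => H p i a b := by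
  refine ⟨hH.meas i a b, 4 * mxSq (1 : Mx n) + 1, fun p => ?_⟩
  have h1 := s6k_col_mxSq (s6i_ColB hH p) (1 : Mx n)
  simp only [Matrix.mul_one] at h1
  have h2 : mxSq (H p i) ≤ ∑ j, mxSq (H p j) :=
    Finset.single_le_sum (f := fun j => mxSq (H p j))
      (fun j _ => Claimed.Agent.R260.mxSq_nonneg _) (Finset.mem_univ i)
  have h3 := Claimed.Agent.R260.mxi_apply_sq_le (H p i) a b
  have h4 : 0 ≤ mxSq (1 : Mx n) := Claimed.Agent.R260.mxSq_nonneg _
  refine abs_le_of_sq_le_sq ?_ (by linarith)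
  nlinarith

theorem s6i_Rp_bdm (a b : Fin n) : BdM fun p : EE n × ℝ => X.R k p.1 a b :=
  (s6i_R_bdm X k a b).comp_fst

theorem s6i_cmm_bdm {Ω : Type} [MeasurableSpace Ω] {F G : Ω → Mx n}
    (hF : ∀ a b, BdM fun ω => F ω a b) (hG : ∀ a b, BdM fun ω => G ω a b) :
    ∀ a b, BdM fun ω => cmm (F ω) (G ω) a b := by
  unfold cmm
  exact BdM.mx_sub (BdM.mx_mul hF hG) (BdM.mx_mul hG hF)

theorem s6i_ac_bdm (hH : HierData.ColOK H) (l : ℕ) (i : Fin n) :
    BdM fun p => ‖dI i (X.T l) p.1 - slot 0 (H p i) (X.T l p.1)‖ ^ 2 := by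
  refine BdM.norm_sq fun α => ?_
  have e : (fun p : EE n × ℝ => (dI i (X.T l) p.1 - slot 0 (H p i) (X.T l p.1)) α)
      = fun p => dI i (X.T l) p.1 α - ∑ j, H p i (α 0) j * X.T l p.1 (Function.update α 0 j) := by
    funext p
    rfl
  rw [e]
  exact (s6i_dT_bdm X l i α).comp_fst.sub
    (BdM.sum _ fun j _ => (s6i_H_bdm hH i (α 0) j).mul (s6i_T_bdm X l _).comp_fst)

/-- all pointwise quantities of a bounded column are bounded and measurable -/
theorem s6i_col_bdm (hH : HierData.ColOK H) :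
    BdM (fun p => X.pHr k (H p) p.1) ∧ BdM (fun p => X.pCm k (H p) p.1) ∧
      BdM (fun p => X.pAc k (H p) p.1) := by
  refine ⟨?_, ?_, ?_⟩
  · unfold HierData.pHr
    exact BdM.sum _ fun i _ => BdM.mx_sq (BdM.mx_mul (s6i_H_bdm hH i) (s6i_Rp_bdm X k))
  · unfold HierData.pCm
    exact BdM.sum _ fun i _ => BdM.mx_sq (s6i_cmm_bdm (s6i_H_bdm hH i) (s6i_Rp_bdm X k))
  · unfold HierData.pAc
    exact (BdM.const _).mul (BdM.sum _ fun l _ => BdM.sum _ fun i _ => s6i_ac_bdm X hH l i)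

theorem s6i_actD (hh : 0 < h) (hH : HierData.ColOK H) :
    X.actD k h H = ∫ p, X.pAc k (H p) p.1 ∂(X.Qm h) := by
  have := s6i_prob_Qm X hh
  unfold HierData.actD HierData.pAc
  rw [integral_const_mul, integral_finsetSum _ fun l _ =>
    (BdM.sum _ fun i _ => s6i_ac_bdm X hH l i).integrable _]
  congr 1
  refine Finset.sum_congr rfl fun l _ => ?_
  rw [integral_finsetSum _ fun i _ => (s6i_ac_bdm X hH l i).integrable _]

theorem s6i_comD (hh : 0 < h) (hH : HierData.ColOK H) :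
    X.comD k h H = ∫ p, X.pCm k (H p) p.1 ∂(X.Qm h) := by
  have := s6i_prob_Qm X hh
  unfold HierData.comD HierData.pCm
  rw [integral_finsetSum _ fun i _ =>
    (BdM.mx_sq (s6i_cmm_bdm (s6i_H_bdm hH i) (s6i_Rp_bdm X k))).integrable _]

theorem s6i_enD (hh : 0 < h) (hH : HierData.ColOK H) :
    X.enD k h H = ∫ p, X.pHr k (H p) p.1 ∂(X.Qm h) := by
  have := s6i_prob_Qm X hh
  unfold HierData.enD HierData.pHr
  rw [integral_finsetSum _ fun i _ =>
    (BdM.mx_sq (BdM.mx_mul (s6i_H_bdm hH i) (s6i_Rp_bdm X k))).integrable _]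

theorem s6i_cc_bdm (hH : HierData.ColOK H) (i j : Fin n) :
    BdM fun p => mxSq (cmm (H p i) (H p j) * X.R k p.1) :=
  BdM.mx_sq (BdM.mx_mul (s6i_cmm_bdm (s6i_H_bdm hH i) (s6i_H_bdm hH j)) (s6i_Rp_bdm X k))

theorem s6i_ccD (hh : 0 < h) (hH : HierData.ColOK H) :
    X.ccD k h H = ∫ p, ∑ i, ∑ j, mxSq (cmm (H p i) (H p j) * X.R k p.1) ∂(X.Qm h) := by
  have := s6i_prob_Qm X hh
  unfold HierData.ccD
  rw [integral_finsetSum _ fun i _ =>
    (BdM.sum _ fun j _ => s6i_cc_bdm X k hH i j).integrable _]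
  refine Finset.sum_congr rfl fun i _ => ?_
  rw [integral_finsetSum _ fun j _ => (s6i_cc_bdm X k hH i j).integrable _]

theorem s6i_ex_bdm (hH : HierData.ColOK H) :
    BdM (fun p => ∑ i, ∑ a, ∑ b, ((H p i * X.R k p.1) a b - (H p a * X.R k p.1) i b) ^ 2) :=
  BdM.sum _ fun i _ => BdM.sum _ fun a _ => BdM.sum _ fun b _ =>
    ((BdM.mx_mul (s6i_H_bdm hH i) (s6i_Rp_bdm X k) a b).sub
      (BdM.mx_mul (s6i_H_bdm hH a) (s6i_Rp_bdm X k) i b)).pow 2

theorem s6i_sd_bdm (hH : HierData.ColOK H) :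
    BdM (fun p => mxSq ((colS (H p) - 1) * X.R k p.1)) := by
  refine BdM.mx_sq (BdM.mx_mul (BdM.mx_sub ?_ fun a b => BdM.const _) (s6i_Rp_bdm X k))
  unfold colS
  exact BdM.mx_sum _ fun i _ => BdM.mx_mul (s6i_H_bdm hH i) (s6i_H_bdm hH i)

end col

/-! ### the Sylvester column (unbounded): hypotheses = conclusions of `s6_meas` -/

/-- the conclusion of `s6_meas` (S6Main) as a hypothesis -/
def S6Meas (X : HierData n) (k : ℕ) : Prop :=
    (∀ a b, Measurable fun y => X.R k y a b) ∧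
    (∀ i a b, Measurable fun y => X.DR k i y a b) ∧
    (∀ i a b, Measurable fun y => X.Hhat k y i a b) ∧
    (∀ i, Integrable (fun y => mxSq (X.DR k i y)) (dm X.η)) ∧
    (∀ i, Integrable (fun y => mxSq (X.Hhat k y i * X.R k y)) (dm X.η))

/-- generates the equation lemmas of the definition above in this file (rule 6: unique names) -/
theorem s6colint_eqns_cite2 : True := by
  have := @S6Meas.eq_1
  trivial

theorem s6i_mxSchur_isSymm {w : ℝ → ℝ → ℝ} (hw : ∀ a b, w a b = w b a) (A : Mx n) {Z : Mx n}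
    (hZ : Z.IsSymm) : (mxSchur w A Z).IsSymm := by
  unfold Matrix.IsSymm Claimed.Agent.R260.mxSchur
  rw [Matrix.transpose_mul, Matrix.transpose_mul, Matrix.transpose_transpose, ← Matrix.mul_assoc]
  congr 2
  ext i j
  rw [Matrix.transpose_apply, Matrix.of_apply, Matrix.of_apply, hw]
  congr 1
  unfold Claimed.Agent.R260.mxRot
  have e : ((mxU A)ᵀ * Z * mxU A)ᵀ = (mxU A)ᵀ * Z * mxU A := by
    rw [Matrix.transpose_mul, Matrix.transpose_mul, Matrix.transpose_transpose, hZ.eq,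
      Matrix.mul_assoc]
  calc ((mxU A)ᵀ * Z * mxU A) j i = ((mxU A)ᵀ * Z * mxU A)ᵀ i j := rfl
    _ = _ := by rw [e]

theorem s6i_Drho_isSymm (i : Fin n) (y : EE n) : (X.Drho k i y).IsSymm := by
  unfold HierData.Drho Matrix.IsSymm
  rw [Matrix.transpose_smul, Matrix.transpose_sum]
  congr 1
  refine Finset.sum_congr rfl fun l _ => ?_
  rw [Matrix.transpose_add, Matrix.transpose_mul, Matrix.transpose_mul,
    Matrix.transpose_transpose, Matrix.transpose_transpose, add_comm]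

theorem s6i_Hhat_symm (y : EE n) (i : Fin n) : (X.Hhat k y i).IsSymm := by
  unfold HierData.Hhat
  refine s6i_mxSchur_isSymm (fun a b => ?_) _ (s6i_Drho_isSymm X k i y)
  rw [add_comm]

/-- measurability of polynomial expressions in matrix fields -/
theorem s6i_meas_mul {Ω : Type} [MeasurableSpace Ω] {F G : Ω → Mx n}
    (hF : ∀ a b, Measurable fun ω => F ω a b) (hG : ∀ a b, Measurable fun ω => G ω a b) :
    ∀ a b, Measurable fun ω => (F ω * G ω) a b := by
  intro a b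
  simp only [Matrix.mul_apply]
  exact Finset.measurable_fun_sum _ fun c _ => (hF a c).mul (hG c b)

theorem s6i_meas_sub {Ω : Type} [MeasurableSpace Ω] {F G : Ω → Mx n}
    (hF : ∀ a b, Measurable fun ω => F ω a b) (hG : ∀ a b, Measurable fun ω => G ω a b) :
    ∀ a b, Measurable fun ω => (F ω - G ω) a b := by
  intro a b
  simp only [Matrix.sub_apply]
  exact (hF a b).sub (hG a b)

theorem s6i_meas_sq {Ω : Type} [MeasurableSpace Ω] {F : Ω → Mx n}
    (hF : ∀ a b, Measurable fun ω => F ω a b) : Measurable fun ω => mxSq (F ω) := by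
  simp only [s6i_mxSq_eq]
  exact Finset.measurable_fun_sum _ fun a _ => Finset.measurable_fun_sum _ fun b _ =>
    (hF a b).pow_const 2

theorem s6i_meas_cmm {Ω : Type} [MeasurableSpace Ω] {F G : Ω → Mx n}
    (hF : ∀ a b, Measurable fun ω => F ω a b) (hG : ∀ a b, Measurable fun ω => G ω a b) :
    ∀ a b, Measurable fun ω => cmm (F ω) (G ω) a b := by
  unfold cmm
  exact s6i_meas_sub (s6i_meas_mul hF hG) (s6i_meas_mul hG hF)

theorem s6i_hat_cm_integrable (hm : S6Meas X k) (i : Fin n) :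
    Integrable (fun y => mxSq (cmm (X.Hhat k y i) (X.R k y))) (dm X.η) := by
  obtain ⟨m1, _, m3, _, i5⟩ := hm
  refine ((i5 i).const_mul 4).mono' (s6i_meas_sq (s6i_meas_cmm (m3 i) m1)).aestronglyMeasurable
    (Filter.Eventually.of_forall fun y => ?_)
  rw [Real.norm_eq_abs, abs_of_nonneg (Claimed.Agent.R260.mxSq_nonneg _)]
  exact s6p_cmm_le (s6i_Hhat_symm X k y i) (s6b_R_isSymm X k y)

theorem s6i_hat_ac_meas (hm : S6Meas X k) (l : ℕ) (i : Fin n) :
    Measurable fun y => ‖dI i (X.T l) y - slot 0 (X.Hhat k y i) (X.T l y)‖ ^ 2 := by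
  obtain ⟨_, _, m3, _, _⟩ := hm
  simp only [s6n_norm_sq]
  refine Finset.measurable_fun_sum _ fun α _ => Measurable.pow_const ?_ 2
  have e : (fun y : EE n => (dI i (X.T l) y - slot 0 (X.Hhat k y i) (X.T l y)) α)
      = fun y => dI i (X.T l) y α
        - ∑ j, X.Hhat k y i (α 0) j * X.T l y (Function.update α 0 j) := by
    funext y
    rfl
  rw [e]
  exact (s6i_dT_bdm X l i α).1.sub
    (Finset.measurable_fun_sum _ fun j _ => (m3 i (α 0) j).mul (s6i_T_bdm X l _).1)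

theorem s6i_hat_ac_integrable (hm : S6Meas X k) {l : ℕ} (hl : l ∈ Finset.Ico k (2 * k))
    (i : Fin n) :
    Integrable (fun y => ‖dI i (X.T l) y - slot 0 (X.Hhat k y i) (X.T l y)‖ ^ 2) (dm X.η) := by
  have := s6i_prob_eta X
  have hmeas := s6i_hat_ac_meas X k hm l i
  obtain ⟨_, _, _, _, i5⟩ := hm
  have hk : 0 < k := by
    have := Finset.mem_Ico.mp hl
    omega
  have hn : 0 < X.nrm k := by
    unfold HierData.nrm
    have := X.I_pos
    positivity
  have hdom : Integrable (fun y => 2 * ‖dI i (X.T l) y‖ ^ 2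
      + 2 * ((X.nrm k)⁻¹ * mxSq (X.Hhat k y i * X.R k y))) (dm X.η) :=
    (((BdM.norm_sq (s6i_dT_bdm X l i)).integrable _).const_mul 2).add
      (((i5 i).const_mul _).const_mul 2)
  refine hdom.mono' hmeas.aestronglyMeasurable (Filter.Eventually.of_forall fun y => ?_)
  rw [Real.norm_eq_abs, abs_of_nonneg (sq_nonneg _)]
  have h1 := s6b_norm_sq_le (dI i (X.T l) y - slot 0 (X.Hhat k y i) (X.T l y)) (dI i (X.T l) y)
  have e : dI i (X.T l) y - slot 0 (X.Hhat k y i) (X.T l y) - dI i (X.T l) y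
      = - slot 0 (X.Hhat k y i) (X.T l y) := by abel
  rw [e, norm_neg] at h1
  have h2 : ‖slot 0 (X.Hhat k y i) (X.T l y)‖ ^ 2
      ≤ (X.nrm k)⁻¹ * mxSq (X.Hhat k y i * X.R k y) := by
    rw [← s6b_band_sq, ← mul_assoc, inv_mul_cancel₀ hn.ne', one_mul]
    exact Finset.single_le_sum (f := fun l => ‖slot 0 (X.Hhat k y i) (X.T l y)‖ ^ 2)
      (fun l _ => sq_nonneg _) hl
  linarith

theorem s6i_hat_integrable (hm : S6Meas X k) :
    Integrable (fun y => X.pHr k (X.Hhat k y) y) (dm X.η) ∧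
      Integrable (fun y => X.pCm k (X.Hhat k y) y) (dm X.η) ∧
      Integrable (fun y => X.pAc k (X.Hhat k y) y) (dm X.η) := by
  refine ⟨?_, ?_, ?_⟩
  · unfold HierData.pHr
    exact integrable_finsetSum _ fun i _ => hm.2.2.2.2 i
  · unfold HierData.pCm
    exact integrable_finsetSum _ fun i _ => s6i_hat_cm_integrable X k hm i
  · unfold HierData.pAc
    exact (integrable_finsetSum _ fun l hl => integrable_finsetSum _ fun i _ =>
      s6i_hat_ac_integrable X k hm hl i).const_mul _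

theorem s6i_hat_int (hm : S6Meas X k) :
    ∫ y, X.pHr k (X.Hhat k y) y ∂(dm X.η) = X.aHat k ∧
      ∫ y, X.pCm k (X.Hhat k y) y ∂(dm X.η) = X.cHat k ∧
      ∫ y, X.pAc k (X.Hhat k y) y ∂(dm X.η) = X.actHat k := by
  refine ⟨?_, ?_, ?_⟩
  · unfold HierData.pHr HierData.aHat
    rw [integral_finsetSum _ fun i _ => hm.2.2.2.2 i]
  · unfold HierData.pCm HierData.cHat
    rw [integral_finsetSum _ fun i _ => s6i_hat_cm_integrable X k hm i]
  · unfold HierData.pAc HierData.actHat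
    rw [integral_const_mul, integral_finsetSum _ fun l hl => integrable_finsetSum _ fun i _ =>
      s6i_hat_ac_integrable X k hm hl i]
    congr 1
    refine Finset.sum_congr rfl fun l hl => ?_
    rw [integral_finsetSum _ fun i _ => s6i_hat_ac_integrable X k hm hl i]

theorem s6i_cl_integrable {h : ℝ} {H : EE n × ℝ → Fin n → Mx n} (hh : 0 < h)
    (hH : HierData.ColOK H) (hm : S6Meas X k) (i : Fin n) :
    Integrable (fun p => mxSq ((H p i - X.Hhat k p.1 i) * X.R k p.1)) (X.Qm h) := by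
  have := s6i_prob_Qm X hh
  obtain ⟨m1, _, m3, _, i5⟩ := hm
  have hdom : Integrable (fun p : EE n × ℝ => 2 * mxSq (H p i * X.R k p.1)
      + 2 * mxSq (X.Hhat k p.1 i * X.R k p.1)) (X.Qm h) :=
    (((BdM.mx_sq (BdM.mx_mul (s6i_H_bdm hH i) (s6i_Rp_bdm X k))).integrable _).const_mul 2).add
      ((s6i_integrable_fst X hh (i5 i)).const_mul 2)
  have hmeas : Measurable fun p : EE n × ℝ => mxSq ((H p i - X.Hhat k p.1 i) * X.R k p.1) :=
    s6i_meas_sq (s6i_meas_mul (s6i_meas_sub (hH.meas i)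
      fun a b => (m3 i a b).comp measurable_fst) fun a b => (m1 a b).comp measurable_fst)
  refine hdom.mono' hmeas.aestronglyMeasurable (Filter.Eventually.of_forall fun p => ?_)
  rw [Real.norm_eq_abs, abs_of_nonneg (Claimed.Agent.R260.mxSq_nonneg _), Matrix.sub_mul]
  exact s6k_mxSq_sub_le _ _

/-- weighted distance of a bounded column to the Sylvester column -/
theorem s6i_clD {h : ℝ} {H : EE n × ℝ → Fin n → Mx n} (hh : 0 < h) (hH : HierData.ColOK H)
    (hm : S6Meas X k) :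
    Integrable (fun p => X.pCl k (H p) (X.Hhat k p.1) p.1) (X.Qm h) ∧
      X.clD k h H = ∫ p, X.pCl k (H p) (X.Hhat k p.1) p.1 ∂(X.Qm h) := by
  unfold HierData.pCl HierData.clD
  refine ⟨integrable_finsetSum _ fun i _ => s6i_cl_integrable X k hh hH hm i, ?_⟩
  rw [integral_finsetSum _ fun i _ => s6i_cl_integrable X k hh hH hm i]

/-- the compressed Sylvester column is an admissible column -/
theorem s6i_trunc_ColOK (hm : S6Meas X k) :
    HierData.ColOK (fun p : EE n × ℝ => truncCol (X.Hhat k p.1)) := by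
  obtain ⟨_, _, m3, _, _⟩ := hm
  have hs : ∀ y i, (X.Hhat k y i).IsSymm := fun y i => s6i_Hhat_symm X k y i
  refine ⟨fun i => ?_, fun p i => s6p_truncCol_symm _ (hs p.1) i,
    fun p => s6k_psd_of_ColB (s6p_truncCol_ColB _ (hs p.1))⟩
  have mH : ∀ i a b, Measurable fun p : EE n × ℝ => X.Hhat k p.1 i a b :=
    fun i a b => (m3 i a b).comp measurable_fst
  have mS : ∀ a b, Measurable fun p : EE n × ℝ => colS (X.Hhat k p.1) a b := by
    intro a b
    unfold colS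
    simp only [Matrix.sum_apply]
    exact Finset.measurable_fun_sum _ fun i _ => s6i_meas_mul (mH i) (mH i) a b
  have mC : ∀ a b, Measurable fun p : EE n × ℝ => mxFun chiF (colS (X.Hhat k p.1)) a b := by
    intro a b
    have h1 := Claimed.Agent.R260.mxFun_measurable_sym mS s6p_chiF_continuous a b
    have e : ∀ p : EE n × ℝ, (1 / 2 : ℝ) • (colS (X.Hhat k p.1) + (colS (X.Hhat k p.1))ᵀ)
        = colS (X.Hhat k p.1) := by
      intro p
      rw [(s6k_colS_isSymm _ (hs p.1)).eq, ← two_smul ℝ, smul_smul]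
      norm_num
    simpa only [e] using h1
  unfold truncCol
  exact s6i_meas_mul (s6i_meas_mul mC (mH i)) mC

end Claimed.Agent.R259
end

/- ===== packed: Claimed.Agent.R259.S6ColMain ===== -/
section
/-
Row 259 (S0499), section 6 of the paper, package BP-S6-col (Lemmas 6.4, 6.5).  Owner: helper144.

GLUE: `s6_col` and `s6_trunc` of `S6Main.lean` from `s6_sat`, `s6_meas` (hypotheses) and the leaves of
`S6ColBand` (pointwise) and `S6ColInt` (integration).
-/
set_option autoImplicit false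

open MeasureTheory
open scoped BigOperators Matrix
open Claimed.Agent.R260 (Mx mxFun mxSchur mxSq mxIP mxEig mxU mxRot)

namespace Claimed.Agent.R259

/-- the statement `s6_sat` of S6Main as a hypothesis -/
def S6Sat : Prop := ∀ ε : ℝ, 0 < ε → ∃ k₀ : ℕ, ∀ k : ℕ, k₀ ≤ k → ∃ δ : ℝ, 0 < δ ∧
    ∀ (n : ℕ) (X : HierData n), X.Small (3 * k) δ →
      |X.eD k - 1| ≤ ε ∧ X.cHat k ≤ ε ∧ |X.aHat k - 1| ≤ ε ∧ X.actHat k ≤ ε

/-- generates the equation lemmas of the definition above in this file (rule 6: unique names) -/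
theorem s6colmain_eqns_cite : True := by
  have := @S6Sat.eq_1
  trivial

variable {n : ℕ}

theorem s6c_small_mono {X : HierData n} {L : ℕ} {δ δ' : ℝ} (h : δ ≤ δ') (hX : X.Small L δ) :
    X.Small L δ' := by
  have hI := X.I_pos
  have hm : δ * X.I ≤ δ' * X.I := mul_le_mul_of_nonneg_right h hI.le
  exact ⟨by linarith [hX.lam_lo], by linarith [hX.lam_hi],
    fun l hl => (hX.norm l hl).trans hm, fun l hl => (hX.eigen l hl).trans hm,
    fun l hl => (hX.deriv l hl).trans hm, fun l hl => (hX.curv l hl).trans hm,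
    fun l hl => (hX.meanM l hl).trans hm⟩

section ineq

variable (X : HierData n) (k : ℕ) {h : ℝ} {H : EE n × ℝ → Fin n → Mx n}

theorem s6c_actD_le (hh : 0 < h) (hH : HierData.ColOK H) (hm : S6Meas X k) :
    X.actD k h H ≤ 2 * X.actHat k + 2 * X.clD k h H := by
  have := s6i_prob_Qm X hh
  have hcl := s6i_clD X k hh hH hm
  have hhat := s6i_integrable_fst X hh (s6i_hat_integrable X k hm).2.2
  rw [s6i_actD X k hh hH, hcl.2, ← (s6i_hat_int X k hm).2.2,
    ← s6i_integral_fst X hh (fun y => X.pAc k (X.Hhat k y) y),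
    ← integral_const_mul, ← integral_const_mul, ← integral_add (hhat.const_mul 2) (hcl.1.const_mul 2)]
  exact integral_mono ((s6i_col_bdm X k hH).2.2.integrable _)
    ((hhat.const_mul 2).add (hcl.1.const_mul 2)) fun p => s6b_pAc_pert X k p.1 (H p) (X.Hhat k p.1)

theorem s6c_comD_le (hh : 0 < h) (hH : HierData.ColOK H) (hm : S6Meas X k) :
    X.comD k h H ≤ 2 * X.cHat k + 8 * X.clD k h H := by
  have := s6i_prob_Qm X hh
  have hcl := s6i_clD X k hh hH hm
  have hhat := s6i_integrable_fst X hh (s6i_hat_integrable X k hm).2.1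
  rw [s6i_comD X k hh hH, hcl.2, ← (s6i_hat_int X k hm).2.1,
    ← s6i_integral_fst X hh (fun y => X.pCm k (X.Hhat k y) y),
    ← integral_const_mul, ← integral_const_mul, ← integral_add (hhat.const_mul 2) (hcl.1.const_mul 8)]
  exact integral_mono ((s6i_col_bdm X k hH).2.1.integrable _)
    ((hhat.const_mul 2).add (hcl.1.const_mul 8)) fun p =>
      s6b_pCm_pert X k p.1 (fun i => hH.symm p i) (fun i => s6i_Hhat_symm X k p.1 i)

theorem s6c_ccD_le (hh : 0 < h) (hH : HierData.ColOK H) (hk : 2 ≤ k) :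
    X.ccD k h H ≤ 256 * X.actD k h H := by
  have := s6i_prob_Qm X hh
  rw [s6i_ccD X k hh hH, s6i_actD X k hh hH, ← integral_const_mul]
  refine integral_mono_of_nonneg (Filter.Eventually.of_forall fun p => ?_)
    (((s6i_col_bdm X k hH).2.2.integrable _).const_mul 256)
    (Filter.Eventually.of_forall fun p => s6b_cc X k p.1 (s6i_ColB hH p) hk)
  exact Finset.sum_nonneg fun i _ => Finset.sum_nonneg fun j _ => Claimed.Agent.R260.mxSq_nonneg _

theorem s6c_exD_le (hh : 0 < h) (hH : HierData.ColOK H) {δ : ℝ} (hk : 0 < k)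
    (hX : X.Small (3 * k) δ) : X.exD k h H ≤ 8 * X.actD k h H + 8 * δ := by
  have := s6i_prob_Qm X hh
  have := s6i_prob_eta X
  have hde : Integrable (fun p : EE n × ℝ => X.pDe k p.1) (X.Qm h) :=
    s6i_integrable_fst X hh ((s6i_base_bdm X k).2.1.integrable _)
  have hac := (s6i_col_bdm X k hH).2.2.integrable (X.Qm h)
  have h1 : X.exD k h H ≤ ∫ p, (8 * X.pAc k (H p) p.1 + 8 * X.pDe k p.1) ∂(X.Qm h) :=
    integral_mono ((s6i_ex_bdm X k hH).integrable _) ((hac.const_mul 8).add (hde.const_mul 8))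
      fun p => s6b_ex X k p.1 (H p)
  rw [integral_add (hac.const_mul 8) (hde.const_mul 8), integral_const_mul, integral_const_mul,
    s6i_integral_fst X hh (X.pDe k), ← s6i_actD X k hh hH] at h1
  have := (s6i_base_int X k hk hX).2.2.1
  linarith

theorem s6c_enD_le (hh : 0 < h) (hH : HierData.ColOK H) {δ : ℝ} (hk : 0 < k)
    (hX : X.Small (3 * k) δ) : X.enD k h H ≤ 4 * (1 + δ) := by
  have := s6i_prob_Qm X hh
  have := s6i_prob_eta X
  have htr : Integrable (fun p : EE n × ℝ => X.pTr k p.1) (X.Qm h) :=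
    s6i_integrable_fst X hh ((s6i_base_bdm X k).2.2.2.1.integrable _)
  have h1 : X.enD k h H ≤ ∫ p, 4 * X.pTr k p.1 ∂(X.Qm h) := by
    rw [s6i_enD X k hh hH]
    exact integral_mono ((s6i_col_bdm X k hH).1.integrable _) (htr.const_mul 4)
      fun p => s6b_pHr_le X k p.1 (s6i_ColB hH p)
  rw [integral_const_mul, s6i_integral_fst X hh (X.pTr k)] at h1
  have := (s6i_base_int X k hk hX).1
  linarith

theorem s6c_sD_le (hh : 0 < h) (hH : HierData.ColOK H) {δ θ : ℝ} (hk : 0 < k) (hθ : 0 < θ)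
    (hX : X.Small (3 * k) δ) :
    X.sD k h H ≤ 6 * (θ * (3 * (4 * (1 + δ)) + 2 * (2 + 4 * δ) + (1 + δ))
        + (X.comD k h H + X.actD k h H + δ) / (2 * θ) + 2 * (1 + δ) / k) + 16 * X.comD k h H := by
  have := s6i_prob_Qm X hh
  have := s6i_prob_eta X
  obtain ⟨bDd, bDe, bTp, bTr, bEn⟩ := s6i_base_bdm X k
  obtain ⟨iTr, iTp, iDe, iDd, iEn⟩ := s6i_base_int X k hk hX
  obtain ⟨bHr, bCm, bAc⟩ := s6i_col_bdm X k hH
  have jDd := s6i_integrable_fst X hh (bDd.integrable (dm X.η))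
  have jDe := s6i_integrable_fst X hh (bDe.integrable (dm X.η))
  have jTp := s6i_integrable_fst X hh (bTp.integrable (dm X.η))
  have jEn := s6i_integrable_fst X hh (bEn.integrable (dm X.η))
  have jHr := bHr.integrable (X.Qm h)
  have jCm := bCm.integrable (X.Qm h)
  have jAc := bAc.integrable (X.Qm h)
  have a1 : Integrable (fun p : EE n × ℝ => 3 * X.pHr k (H p) p.1 + 2 * X.pDd k p.1) (X.Qm h) :=
    (jHr.const_mul 3).add (jDd.const_mul 2)
  have a2 : Integrable (fun p : EE n × ℝ => 3 * X.pHr k (H p) p.1 + 2 * X.pDd k p.1 + X.pTp k p.1)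
      (X.Qm h) := a1.add jTp
  have a3 : Integrable (fun p : EE n × ℝ => X.pCm k (H p) p.1 + X.pAc k (H p) p.1) (X.Qm h) :=
    jCm.add jAc
  have a4 : Integrable (fun p : EE n × ℝ => X.pCm k (H p) p.1 + X.pAc k (H p) p.1 + X.pDe k p.1)
      (X.Qm h) := a3.add jDe
  have a5 : Integrable (fun p : EE n × ℝ =>
      θ * (3 * X.pHr k (H p) p.1 + 2 * X.pDd k p.1 + X.pTp k p.1)) (X.Qm h) := a2.const_mul θ
  have a6 : Integrable (fun p : EE n × ℝ =>
      (X.pCm k (H p) p.1 + X.pAc k (H p) p.1 + X.pDe k p.1) / (2 * θ)) (X.Qm h) :=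
    a4.div_const (2 * θ)
  have a7 : Integrable (fun p : EE n × ℝ =>
      θ * (3 * X.pHr k (H p) p.1 + 2 * X.pDd k p.1 + X.pTp k p.1)
        + (X.pCm k (H p) p.1 + X.pAc k (H p) p.1 + X.pDe k p.1) / (2 * θ)) (X.Qm h) := a5.add a6
  have hE0 : Integrable (fun p : EE n × ℝ => X.pE0 k θ (H p) p.1) (X.Qm h) := by
    unfold HierData.pE0
    exact a7.add jEn
  have hE0v : ∫ p, X.pE0 k θ (H p) p.1 ∂(X.Qm h)
      = θ * (3 * X.enD k h H + 2 * ∫ y, X.pDd k y ∂(dm X.η) + ∫ y, X.pTp k y ∂(dm X.η))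
        + (X.comD k h H + X.actD k h H + ∫ y, X.pDe k y ∂(dm X.η)) / (2 * θ)
        + ∫ y, X.pEn k y ∂(dm X.η) := by
    unfold HierData.pE0
    rw [integral_add a7 jEn, integral_add a5 a6, integral_const_mul, integral_div,
      integral_add a1 jTp, integral_add (jHr.const_mul 3) (jDd.const_mul 2), integral_const_mul,
      integral_const_mul, integral_add a3 jDe, integral_add jCm jAc,
      s6i_integral_fst X hh (X.pDd k), s6i_integral_fst X hh (X.pTp k),
      s6i_integral_fst X hh (X.pDe k), s6i_integral_fst X hh (X.pEn k),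
      ← s6i_enD X k hh hH, ← s6i_comD X k hh hH, ← s6i_actD X k hh hH]
  have h1 : X.sD k h H ≤ ∫ p, (6 * X.pE0 k θ (H p) p.1 + 16 * X.pCm k (H p) p.1) ∂(X.Qm h) :=
    integral_mono ((s6i_sd_bdm X k hH).integrable _) ((hE0.const_mul 6).add (jCm.const_mul 16))
      fun p => s6b_sdef X k p.1 (s6i_ColB hH p) hθ
  rw [integral_add (hE0.const_mul 6) (jCm.const_mul 16), integral_const_mul, integral_const_mul,
    hE0v, ← s6i_comD X k hh hH] at h1
  have hen := s6c_enD_le X k hh hH hk hX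
  have h2 : θ * (3 * X.enD k h H + 2 * ∫ y, X.pDd k y ∂(dm X.η) + ∫ y, X.pTp k y ∂(dm X.η))
      ≤ θ * (3 * (4 * (1 + δ)) + 2 * (2 + 4 * δ) + (1 + δ)) :=
    mul_le_mul_of_nonneg_left (by linarith) hθ.le
  have h3 : (X.comD k h H + X.actD k h H + ∫ y, X.pDe k y ∂(dm X.η)) / (2 * θ)
      ≤ (X.comD k h H + X.actD k h H + δ) / (2 * θ) :=
    div_le_div_of_nonneg_right (by linarith) (by positivity)
  linarith

theorem s6c_trunc_le (hh : 0 < h) (hm : S6Meas X k) {δ θ : ℝ} (hk : 0 < k) (hθ : 0 < θ)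
    (hX : X.Small (3 * k) δ) :
    X.clD k h (fun p : EE n × ℝ => truncCol (X.Hhat k p.1))
      ≤ 30 * (4 * X.cHat k + 8 * θ * X.aHat k + 2 * X.cHat k / θ)
        + 123 * (θ * (3 * X.aHat k + 2 * (2 + 4 * δ) + (1 + δ))
          + (X.cHat k + X.actHat k + δ) / (2 * θ) + 2 * (1 + δ) / k) := by
  have := s6i_prob_Qm X hh
  have := s6i_prob_eta X
  obtain ⟨bDd, bDe, bTp, bTr, bEn⟩ := s6i_base_bdm X k
  obtain ⟨iTr, iTp, iDe, iDd, iEn⟩ := s6i_base_int X k hk hX
  obtain ⟨jHr, jCm, jAc⟩ := s6i_hat_integrable X k hm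
  obtain ⟨vHr, vCm, vAc⟩ := s6i_hat_int X k hm
  have jDd := bDd.integrable (dm X.η)
  have jDe := bDe.integrable (dm X.η)
  have jTp := bTp.integrable (dm X.η)
  have jEn := bEn.integrable (dm X.η)
  have a1 : Integrable (fun y => 3 * X.pHr k (X.Hhat k y) y + 2 * X.pDd k y) (dm X.η) :=
    (jHr.const_mul 3).add (jDd.const_mul 2)
  have a2 : Integrable (fun y => 3 * X.pHr k (X.Hhat k y) y + 2 * X.pDd k y + X.pTp k y)
      (dm X.η) := a1.add jTp
  have a3 : Integrable (fun y => X.pCm k (X.Hhat k y) y + X.pAc k (X.Hhat k y) y) (dm X.η) :=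
    jCm.add jAc
  have a4 : Integrable (fun y => X.pCm k (X.Hhat k y) y + X.pAc k (X.Hhat k y) y + X.pDe k y)
      (dm X.η) := a3.add jDe
  have a5 : Integrable (fun y =>
      θ * (3 * X.pHr k (X.Hhat k y) y + 2 * X.pDd k y + X.pTp k y)) (dm X.η) := a2.const_mul θ
  have a6 : Integrable (fun y =>
      (X.pCm k (X.Hhat k y) y + X.pAc k (X.Hhat k y) y + X.pDe k y) / (2 * θ)) (dm X.η) :=
    a4.div_const (2 * θ)
  have a7 : Integrable (fun y =>
      θ * (3 * X.pHr k (X.Hhat k y) y + 2 * X.pDd k y + X.pTp k y)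
        + (X.pCm k (X.Hhat k y) y + X.pAc k (X.Hhat k y) y + X.pDe k y) / (2 * θ)) (dm X.η) :=
    a5.add a6
  have hE0 : Integrable (fun y => X.pE0 k θ (X.Hhat k y) y) (dm X.η) := by
    unfold HierData.pE0
    exact a7.add jEn
  have hE0v : ∫ y, X.pE0 k θ (X.Hhat k y) y ∂(dm X.η)
      = θ * (3 * X.aHat k + 2 * ∫ y, X.pDd k y ∂(dm X.η) + ∫ y, X.pTp k y ∂(dm X.η))
        + (X.cHat k + X.actHat k + ∫ y, X.pDe k y ∂(dm X.η)) / (2 * θ)
        + ∫ y, X.pEn k y ∂(dm X.η) := by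
    unfold HierData.pE0
    rw [integral_add a7 jEn, integral_add a5 a6, integral_const_mul, integral_div,
      integral_add a1 jTp, integral_add (jHr.const_mul 3) (jDd.const_mul 2), integral_const_mul,
      integral_const_mul, integral_add a3 jDe, integral_add jCm jAc, vHr, vCm, vAc]
  have c1 : Integrable (fun y => 4 * X.pCm k (X.Hhat k y) y + 8 * θ * X.pHr k (X.Hhat k y) y)
      (dm X.η) := (jCm.const_mul 4).add (jHr.const_mul (8 * θ))
  have c2 : Integrable (fun y => 2 * X.pCm k (X.Hhat k y) y / θ) (dm X.η) :=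
    (jCm.const_mul 2).div_const θ
  have c3 : Integrable (fun y => 4 * X.pCm k (X.Hhat k y) y + 8 * θ * X.pHr k (X.Hhat k y) y
      + 2 * X.pCm k (X.Hhat k y) y / θ) (dm X.η) := c1.add c2
  have c3v : ∫ y, (4 * X.pCm k (X.Hhat k y) y + 8 * θ * X.pHr k (X.Hhat k y) y
      + 2 * X.pCm k (X.Hhat k y) y / θ) ∂(dm X.η)
      = 4 * X.cHat k + 8 * θ * X.aHat k + 2 * X.cHat k / θ := by
    rw [integral_add c1 c2, integral_add (jCm.const_mul 4) (jHr.const_mul (8 * θ)),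
      integral_const_mul, integral_const_mul, integral_div, integral_const_mul, vHr, vCm]
  have hcl := s6i_clD X k hh (s6i_trunc_ColOK X k hm) hm
  have h1 : X.clD k h (fun p : EE n × ℝ => truncCol (X.Hhat k p.1))
      ≤ ∫ y, (30 * (4 * X.pCm k (X.Hhat k y) y + 8 * θ * X.pHr k (X.Hhat k y) y
        + 2 * X.pCm k (X.Hhat k y) y / θ) + 123 * X.pE0 k θ (X.Hhat k y) y) ∂(dm X.η) := by
    rw [hcl.2, s6i_integral_fst X hh (fun y => X.pCl k (truncCol (X.Hhat k y)) (X.Hhat k y) y)]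
    refine integral_mono_of_nonneg (Filter.Eventually.of_forall fun y => ?_)
      ((c3.const_mul 30).add (hE0.const_mul 123))
      (Filter.Eventually.of_forall fun y => s6b_trunc X k y (fun i => s6i_Hhat_symm X k y i) hθ)
    exact (s6b_nonneg X k y (truncCol (X.Hhat k y)) (X.Hhat k y)).2.2.2.1
  rw [integral_add (c3.const_mul 30) (hE0.const_mul 123), integral_const_mul, integral_const_mul,
    hE0v, c3v] at h1
  have h2 : θ * (3 * X.aHat k + 2 * ∫ y, X.pDd k y ∂(dm X.η) + ∫ y, X.pTp k y ∂(dm X.η))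
      ≤ θ * (3 * X.aHat k + 2 * (2 + 4 * δ) + (1 + δ)) :=
    mul_le_mul_of_nonneg_left (by linarith) hθ.le
  have h3 : (X.cHat k + X.actHat k + ∫ y, X.pDe k y ∂(dm X.η)) / (2 * θ)
      ≤ (X.cHat k + X.actHat k + δ) / (2 * θ) :=
    div_le_div_of_nonneg_right (by linarith) (by positivity)
  linarith

end ineq

/-- `4/k ≤ ε/c` for `k ≥ ⌈4c/ε⌉` -/
theorem s6c_inv_k {ε c : ℝ} (hε : 0 < ε) {k : ℕ} (hk : 0 < k) (h : ⌈c / ε⌉₊ ≤ k) :
    c / k ≤ ε := by
  have hk' : (0 : ℝ) < k := by exact_mod_cast hk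
  have h1 : c / ε ≤ k := (Nat.le_ceil _).trans (by exact_mod_cast h)
  rw [div_le_iff₀ hε] at h1
  rw [div_le_iff₀ hk']
  linarith

/-- **BP-S6-COL** = `s6_col` of S6Col.lean (the closeness threshold `κ` is chosen before `k`). -/
theorem s6c_col (hsat : S6Sat) (hmeas : ∀ (n : ℕ) (X : HierData n) (k : ℕ), S6Meas X k) :
    ∀ ε : ℝ, 0 < ε → ∃ κ : ℝ, 0 < κ ∧ ∃ k₀ : ℕ, ∀ k : ℕ, k₀ ≤ k → ∃ δ : ℝ, 0 < δ ∧
    ∀ (n : ℕ) (X : HierData n), X.Small (3 * k) δ →
      ∀ (h : ℝ) (H : EE n × ℝ → Fin n → Mx n), 0 < h → HierData.ColOK H → X.clD k h H ≤ κ →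
        X.actD k h H ≤ ε ∧ X.comD k h H ≤ ε ∧ X.sD k h H ≤ ε ∧ X.ccD k h H ≤ ε ∧
          X.exD k h H ≤ ε := by
  intro ε hε
  obtain ⟨τ, hτ, hτ1, hτ2⟩ : ∃ τ : ℝ, 0 < τ ∧ τ ≤ ε / 256 ∧ τ ≤ ε ^ 2 / 32832 :=
    ⟨min (ε / 256) (ε ^ 2 / 32832), lt_min (by positivity) (by positivity), min_le_left _ _,
      min_le_right _ _⟩
  obtain ⟨k₁, hk₁⟩ := hsat (τ / 4) (by positivity)
  refine ⟨τ / 16, by positivity, max k₁ (max 2 ⌈96 / ε⌉₊), fun k hk => ?_⟩
  have hk1 : k₁ ≤ k := (le_max_left _ _).trans hk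
  have hk2 : 2 ≤ k := ((le_max_left _ _).trans (le_max_right _ _)).trans hk
  have hk3 : ⌈96 / ε⌉₊ ≤ k := ((le_max_right _ _).trans (le_max_right _ _)).trans hk
  have hk0 : 0 < k := by omega
  obtain ⟨δ₁, hδ₁, hS⟩ := hk₁ k hk1
  refine ⟨min δ₁ (min (τ / 16) 1), lt_min hδ₁ (lt_min (by positivity) one_pos), ?_⟩
  intro n X hX h H hh hH hcl
  set δ := min δ₁ (min (τ / 16) 1) with hδ
  have hδa : δ ≤ δ₁ := min_le_left _ _
  have hδb : δ ≤ τ / 16 := (min_le_right _ _).trans (min_le_left _ _)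
  have hδc : δ ≤ 1 := (min_le_right _ _).trans (min_le_right _ _)
  obtain ⟨-, hc, -, ha⟩ := hS n X (s6c_small_mono hδa hX)
  have hm := hmeas n X k
  have hA : X.actD k h H ≤ τ := by
    have := s6c_actD_le X k hh hH hm
    linarith
  have hC : X.comD k h H ≤ τ := by
    have := s6c_comD_le X k hh hH hm
    linarith
  have hθ : (0 : ℝ) < ε / 912 := by positivity
  have hs := s6c_sD_le X k hh hH hk0 hθ hX
  have e1 : ε / 912 * (3 * (4 * (1 + δ)) + 2 * (2 + 4 * δ) + (1 + δ)) ≤ ε / 912 * 38 :=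
    mul_le_mul_of_nonneg_left (by linarith) hθ.le
  have e2 : (X.comD k h H + X.actD k h H + δ) / (2 * (ε / 912)) ≤ ε / 24 := by
    rw [div_le_iff₀ (by positivity)]
    have : ε / 24 * (2 * (ε / 912)) = ε ^ 2 / 10944 := by ring
    rw [this]
    linarith
  have e3 : 2 * (1 + δ) / (k : ℝ) ≤ ε / 24 := by
    have h4 : (96 : ℝ) / k ≤ ε := s6c_inv_k hε hk0 hk3
    have hk' : (0 : ℝ) < k := by exact_mod_cast hk0
    have h5 : 2 * (1 + δ) / (k : ℝ) ≤ 4 / k := div_le_div_of_nonneg_right (by linarith) hk'.le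
    have h6 : (4 : ℝ) / k = 96 / k / 24 := by ring
    linarith
  refine ⟨by linarith, by linarith, by linarith, ?_, ?_⟩
  · have := s6c_ccD_le X k hh hH hk2
    linarith
  · have := s6c_exD_le X k hh hH hk0 hX
    linarith

/-- **BP-S6-TRUNC** = `s6_trunc` of S6Main. -/
theorem s6c_trunc (hsat : S6Sat) (hmeas : ∀ (n : ℕ) (X : HierData n) (k : ℕ), S6Meas X k) :
    ∀ ε : ℝ, 0 < ε → ∃ k₀ : ℕ, ∀ k : ℕ, k₀ ≤ k → ∃ δ : ℝ, 0 < δ ∧
    ∀ (n : ℕ) (X : HierData n), X.Small (3 * k) δ →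
      ∃ H : EE n × ℝ → Fin n → Mx n, HierData.ColOK H ∧ (∀ p q, p.1 = q.1 → H p = H q) ∧
        ∀ h : ℝ, 0 < h → X.clD k h H ≤ ε := by
  intro ε hε
  obtain ⟨τ, hτ, hτ1, hτ2, hτ3⟩ :
      ∃ τ : ℝ, 0 < τ ∧ τ ≤ ε / 480 ∧ τ ≤ ε ^ 2 / 11501280 ∧ τ ≤ 1 :=
    ⟨min (ε / 480) (min (ε ^ 2 / 11501280) 1),
      lt_min (by positivity) (lt_min (by positivity) one_pos), min_le_left _ _,
      (min_le_right _ _).trans (min_le_left _ _), (min_le_right _ _).trans (min_le_right _ _)⟩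
  obtain ⟨k₁, hk₁⟩ := hsat τ hτ
  refine ⟨max k₁ (max 1 ⌈1968 / ε⌉₊), fun k hk => ?_⟩
  have hk1 : k₁ ≤ k := (le_max_left _ _).trans hk
  have hk0 : 0 < k := ((le_max_left _ _).trans (le_max_right _ _)).trans hk
  have hk3 : ⌈1968 / ε⌉₊ ≤ k := ((le_max_right _ _).trans (le_max_right _ _)).trans hk
  obtain ⟨δ₁, hδ₁, hS⟩ := hk₁ k hk1
  refine ⟨min δ₁ τ, lt_min hδ₁ hτ, ?_⟩
  intro n X hX
  set δ := min δ₁ τ with hδ
  have hδa : δ ≤ δ₁ := min_le_left _ _
  have hδb : δ ≤ τ := min_le_right _ _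
  obtain ⟨-, hc, haa, ha⟩ := hS n X (s6c_small_mono hδa hX)
  have hm := hmeas n X k
  refine ⟨fun p => truncCol (X.Hhat k p.1), s6i_trunc_ColOK X k hm, fun p q hpq => by simp only [hpq],
    fun h hh => ?_⟩
  have hθ : (0 : ℝ) < ε / 11760 := by positivity
  have hs := s6c_trunc_le X k hh hm hk0 hθ hX
  have haH : X.aHat k ≤ 2 := by
    have := (abs_le.mp haa).2
    linarith
  have e0 : 8 * (ε / 11760) * X.aHat k ≤ 8 * (ε / 11760) * 2 :=
    mul_le_mul_of_nonneg_left haH (by positivity)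
  have e1 : ε / 11760 * (3 * X.aHat k + 2 * (2 + 4 * δ) + (1 + δ)) ≤ ε / 11760 * 20 :=
    mul_le_mul_of_nonneg_left (by linarith) hθ.le
  have e2 : (X.cHat k + X.actHat k + δ) / (2 * (ε / 11760)) ≤ ε / 652 := by
    rw [div_le_iff₀ (by positivity)]
    have : ε / 652 * (2 * (ε / 11760)) = ε ^ 2 / 3833760 := by ring
    rw [this]
    linarith
  have e2' : 2 * X.cHat k / (ε / 11760) ≤ ε / 489 := by
    rw [div_le_iff₀ (by positivity)]
    have : ε / 489 * (ε / 11760) = ε ^ 2 / 5750640 := by ring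
    rw [this]
    linarith
  have e3 : 2 * (1 + δ) / (k : ℝ) ≤ ε / 492 := by
    have h4 : (1968 : ℝ) / k ≤ ε := s6c_inv_k hε hk0 hk3
    have hk' : (0 : ℝ) < k := by exact_mod_cast hk0
    have h5 : 2 * (1 + δ) / (k : ℝ) ≤ 4 / k := div_le_div_of_nonneg_right (by linarith) hk'.le
    have h6 : (4 : ℝ) / k = 1968 / k / 492 := by ring
    linarith
  linarith

end Claimed.Agent.R259
end
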