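/- Packed by merge_tool.py (helper293): 5 modules of Claimed.Agent.R259 in one file, same declarations.
   Old modules, in this order: S7ValBd, S7ValInt, S6BlkDefs, S6BlkClip, S6ExpTau -/
import Claimed.Agent.R259.Pack036
import Claimed.Agent.R259.Pack035
import Claimed.Agent.R259.Pack046
import Claimed.Agent.R259.Pack048
import Claimed.Agent.R259.Pack029

/- ===== packed: Claimed.Agent.R259.S7ValBd ===== -/
section
/-
Row 259 (S0499), section 7, SHARED KIT VAL: pointwise bounds of the matrix test and of its pay-off.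
LEAF L-s7v-bd: PROVED (helper121).
No paper reading.

NOTATION. `R = B.Rs d` with eigenvalues `r_i = mxEig R i`, `K = P.K`, `C ≥ sup |c_k(u,·)|`,
`m = #{i : T r_i² ∈ [x0,x1]}` (sharp count, a natural number), `cnt = B.s7vCnt P T d = ∑ χ(T r_i²) ≥ m`.

PLAN.
(1) `cSq (tQ) ≤ K ∑_k cSq (c_k(u,T R²) E1 E2)` (`cSq_sum_le`) `= K ∑_k cSq (c_k(u,T R²))`
    (`cSq_mul_unitary` with `cE_mul_conjTranspose`, twice; mind the association `(X * E1) * E2`)
    `= K ∑_k ∑_i |c_k(u,T r_i²)|²` (`cSq_mxFunC`) `≤ K² C² m` (`P.c_supp`), and `m ≤ cnt`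
    (`s7v_chi_eq_one`, `s7v_chi_nonneg`).
(2) `|tr(H[v] Q)| ≤ √(cSq H[v]) √(cSq Q)` (`cSq_trace_mul_le`, `Complex.abs_re_le_norm`)
    `≤ 2|v| · K C √m ≤ 2 |v| K C m` (`√m ≤ m` for a natural number `m`; `s7v_cSq_colAt_le`).
    So state (1) internally with the sharp count `m` first.
-/
set_option autoImplicit false

open MeasureTheory ProbabilityTheory
open scoped BigOperators Matrix
open Claimed.Agent.R260 (Mx mxFun mxSchur mxSq mxIP mxEig mxU mxRot)

namespace Claimed.Agent.R259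

variable {n : ℕ} {D : Type} [MeasurableSpace D] {Q : Measure D} (B : BlockModel n Q)

theorem s7v_cnt_nonneg (P : Tst) (T : ℝ) (d : D) : 0 ≤ B.s7vCnt P T d :=
  Finset.sum_nonneg fun _ _ => s7v_chi_nonneg P _

/-- the sharp count of the eigenvalues in the window -/
noncomputable def BlockModel.s7vNum (P : Tst) (T : ℝ) (d : D) : ℕ :=
  (Finset.univ.filter fun i => T * mxEig (B.Rs d) i ^ 2 ∈ Set.Icc P.x0 P.x1).card

theorem s7valbd_eqns_cite : True := by
  have := @BlockModel.s7vNum.eq_1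
  trivial

theorem s7v_num_le_cnt (P : Tst) (T : ℝ) (d : D) : (B.s7vNum P T d : ℝ) ≤ B.s7vCnt P T d := by
  unfold BlockModel.s7vNum BlockModel.s7vCnt
  rw [Finset.card_filter]
  push_cast
  refine Finset.sum_le_sum fun i _ => ?_
  split_ifs with h
  · rw [s7v_chi_eq_one P h]
  · exact s7v_chi_nonneg P _

theorem s7v_KC_nonneg (P : Tst) {u C : ℝ} (hC : ∀ k x, ‖P.c k u x‖ ≤ C) : 0 ≤ (P.K : ℝ) * C := by
  rcases Nat.eq_zero_or_pos P.K with h | h
  · rw [h]; simp
  · exact mul_nonneg (Nat.cast_nonneg _) ((norm_nonneg _).trans (hC ⟨0, h⟩ 0))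

theorem s7v_cSq_tQ_le_num (P : Tst) {u C : ℝ} (hC : ∀ k x, ‖P.c k u x‖ ≤ C) (T : ℝ) (d : D)
    (y z : EE n) :
    cSq (B.tQ P u T d y z) ≤ ((P.K : ℝ) * C) ^ 2 * (B.s7vNum P T d : ℝ) := by
  unfold BlockModel.tQ
  refine (cSq_sum_le _ _).trans ?_
  rw [Finset.card_univ, Fintype.card_fin]
  have h1 : ∀ k : Fin P.K, cSq (mxFunC (fun v => P.c k u (T * v ^ 2)) (B.Rs d)
      * cE (P.s k) (colAt (B.H d) y) * cE (P.r k) (colAt (B.H d) z))
      ≤ C ^ 2 * (B.s7vNum P T d : ℝ) := by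
    intro k
    rw [cSq_mul_unitary _ (cE_mul_conjTranspose _ _), cSq_mul_unitary _ (cE_mul_conjTranspose _ _),
      cSq_mxFunC]
    unfold BlockModel.s7vNum
    rw [Finset.card_filter]
    push_cast
    rw [Finset.mul_sum]
    refine Finset.sum_le_sum fun i _ => ?_
    split_ifs with h
    · rw [mul_one]
      exact pow_le_pow_left₀ (norm_nonneg _) (hC k _) 2
    · rw [P.c_supp k u _ h]
      simp
  calc (P.K : ℝ) * ∑ k : Fin P.K, cSq (mxFunC (fun v => P.c k u (T * v ^ 2)) (B.Rs d)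
      * cE (P.s k) (colAt (B.H d) y) * cE (P.r k) (colAt (B.H d) z))
      ≤ (P.K : ℝ) * ∑ _k : Fin P.K, C ^ 2 * (B.s7vNum P T d : ℝ) :=
        mul_le_mul_of_nonneg_left (Finset.sum_le_sum fun k _ => h1 k) (Nat.cast_nonneg _)
    _ = ((P.K : ℝ) * C) ^ 2 * (B.s7vNum P T d : ℝ) := by
        rw [Finset.sum_const, Finset.card_univ, Fintype.card_fin, nsmul_eq_mul]
        ring

theorem s7v_cSq_tQ_le (P : Tst) {u C : ℝ} (hC : ∀ k x, ‖P.c k u x‖ ≤ C) (T : ℝ) (d : D)
    (y z : EE n) :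
    cSq (B.tQ P u T d y z) ≤ (P.K : ℝ) ^ 2 * C ^ 2 * B.s7vCnt P T d := by
  refine (s7v_cSq_tQ_le_num B P hC T d y z).trans ?_
  rw [mul_pow]
  exact mul_le_mul_of_nonneg_left (s7v_num_le_cnt B P T d) (by positivity)

theorem s7v_pay_tQ_le (P : Tst) {u C : ℝ} (hC : ∀ k x, ‖P.c k u x‖ ≤ C) (T : ℝ) (d : D)
    (v y z : EE n) :
    |B.pay d v (B.tQ P u T d y z)|
      ≤ (4 * (P.K : ℝ) * C * ‖v‖ + 4 * (P.K : ℝ) ^ 2 * C ^ 2) * B.s7vCnt P T d := by
  set Qm := B.tQ P u T d y z with hQ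
  set m : ℝ := (B.s7vNum P T d : ℝ) with hm
  have hKC := s7v_KC_nonneg P hC
  have hm0 : 0 ≤ m := Nat.cast_nonneg _
  have hmm : Real.sqrt m ≤ m := by
    rw [Real.sqrt_le_left hm0]
    have : B.s7vNum P T d ≤ B.s7vNum P T d ^ 2 := Nat.le_self_pow two_ne_zero _
    rw [hm]
    exact_mod_cast this
  have h1 : cSq Qm ≤ ((P.K : ℝ) * C) ^ 2 * m := s7v_cSq_tQ_le_num B P hC T d y z
  have h2 : Real.sqrt (cSq Qm) ≤ (P.K : ℝ) * C * m := by
    refine (Real.sqrt_le_sqrt h1).trans ?_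
    rw [Real.sqrt_mul (sq_nonneg _), Real.sqrt_sq hKC]
    exact mul_le_mul_of_nonneg_left hmm hKC
  have h3 : Real.sqrt (cSq (toC (colAt (B.H d) v))) ≤ 2 * ‖v‖ := by
    refine (Real.sqrt_le_sqrt (s7v_cSq_colAt_le B d v)).trans ?_
    have : (4 : ℝ) * ‖v‖ ^ 2 = (2 * ‖v‖) ^ 2 := by ring
    rw [this, Real.sqrt_sq (by positivity)]
  have h4 : |(Matrix.trace (toC (colAt (B.H d) v) * Qm)).re| ≤ 2 * ‖v‖ * ((P.K : ℝ) * C * m) :=
    (Complex.abs_re_le_norm _).trans ((cSq_trace_mul_le _ _).trans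
      (mul_le_mul h3 h2 (Real.sqrt_nonneg _) (by positivity)))
  have h5 : |B.pay d v Qm| ≤ (4 * (P.K : ℝ) * C * ‖v‖ + 4 * (P.K : ℝ) ^ 2 * C ^ 2) * m := by
    unfold BlockModel.pay
    have h6 := cSq_nonneg Qm
    rw [abs_le] at h4 ⊢
    constructor <;> nlinarith [h4.1, h4.2]
  refine h5.trans (mul_le_mul_of_nonneg_left (s7v_num_le_cnt B P T d) ?_)
  have : 0 ≤ (P.K : ℝ) * C * ‖v‖ := mul_nonneg hKC (norm_nonneg _)
  nlinarith [sq_nonneg ((P.K : ℝ) * C)]

/-- the test vanishes at nonpositive scales -/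
theorem s7v_tQ_of_nonpos (P : Tst) (u : ℝ) {T : ℝ} (hT : T ≤ 0) (d : D) (y z : EE n) :
    B.tQ P u T d y z = 0 := by
  unfold BlockModel.tQ
  refine Finset.sum_eq_zero fun k _ => ?_
  have h : mxFunC (fun v => P.c k u (T * v ^ 2)) (B.Rs d) = 0 := by
    have e : mxFunC (fun v => P.c k u (T * v ^ 2)) (B.Rs d) = mxFunC (fun _ => (0 : ℂ)) (B.Rs d) := by
      refine mxFunC_congr fun i => ?_
      refine P.c_supp k u _ ?_
      intro hx
      have h1 := hx.1
      have h2 : T * mxEig (B.Rs d) i ^ 2 ≤ 0 := mul_nonpos_of_nonpos_of_nonneg hT (sq_nonneg _)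
      linarith [P.x0_pos]
    rw [e, mxFunC_const, zero_smul]
  rw [h, zero_mul, zero_mul]

end Claimed.Agent.R259
end

/- ===== packed: Claimed.Agent.R259.S7ValInt ===== -/
section
/-
Row 259 (S0499), section 7, SHARED KIT VAL: INTEGRABILITY of the integrand of `valM` on
`(T,u,s) ∈ (0,∞) × [u0,u1] × S` against `dT/T² du dμ`, for a GENERAL observation matrix `M T s`.
LEAF L-s7v-int.  Statements FIXED (owner of the statements: helper121); replace the sorries in place.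
No paper reading.  `s7v_fubini3` is proved.

PLAN.
* `s7v_cnt_integral(-ableOn)`: `cnt/T² = ∑_i χ(T r_i²)/T²`; `s7v_scale`, `s7v_scale_integrableOn` with
  `φ = χ`, `c = r_i²` (`s7v_chi_zero`, `s7v_chi_integrableOn`), `integral_finset_sum`,
  `∑ r_i² = mxSq R` (`s7v_sum_eig_sq`, `s7v_Rs_symm`).
* `s7v_cnt_le`: `χ(x) ≤ 2x/x0` for `x ≥ 0` (`χ ≤ 1`, `χ = 0` for `x < x0/2`).
* `s7v_dom_integrable`: `integrable_prod_iff'` (slices in `T` first): measurability from
  `s7v_meas_cnt`, `Z.N_meas.norm` ...; slices: `s7v_cnt_integrableOn`; the integral of the norm of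
  the slice is `a(s) * (Cχ * mxSq (R_*(d s)))` (nonnegativity: `s7v_cnt_nonneg`), a function of `s` only,
  integrable by `Z.int` on `(vol|Icc).prod μ` (`Integrable.comp_snd`/`Integrable.mul_prod` with `f = 1`;
  `vol|Icc` is a finite measure).
* `s7v_integrable`: `Integrable.mono'` with `C' •` the dominating function.
  - measurability: `Φ'(T,u,s) = kap u * Z.val P u T (M |T| s) s / T²` is `Measurable`
    (`s7v_meas_pay`, `s7v_meas_tQ`, `s7v_meas_mv` + `hM`, `s7v_meas_ouV`, `s7v_meas_v`,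
    `s7v_kap_measurable`), and `Φ = Φ'` for `T > 0`; a.e. on the restricted product measure:
    `Measure.prod_restrict` (`(μ.restrict s).prod (ν.restrict t) = (μ.prod ν).restrict (s ×ˢ t)`, use
    `Measure.restrict_univ` for the factor `μ`) + `ae_restrict_of_forall_mem`; or
    `Measure.ae_prod_iff_ae_ae`/`ae_prod_mem...`.
  - bound for `u ∈ [u0,u1]`: `s7v_pay_tQ_le` (`C` from `s7v_coef_bound`), `s7v_norm_v_le`,
    `s7v_kap_bound`.
* `s7v_low_integrableOn`: `(s7v_integrable ..).integral_prod_left` and, for a.e. `T`,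
  `integral_prod` on the slice (`Integrable.prod_right_ae`), then `integral_const_mul`, `integral_div`
  (these two need no integrability).
* `s7v_val_integrable`: bound `C (1+|v|) cnt ≤ C' (1+|N|+|G1|) mxSq R_*` by `s7v_cnt_le`.
-/
set_option autoImplicit false

open MeasureTheory ProbabilityTheory
open scoped BigOperators Matrix
open Claimed.Agent.R260 (Mx mxFun mxSchur mxSq mxIP mxEig mxU mxRot)

namespace Claimed.Agent.R259

/-- Fubini for three factors: the first variable is moved to the innermost position. -/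
theorem s7v_fubini3 {α β γ : Type} [MeasurableSpace α] [MeasurableSpace β] [MeasurableSpace γ]
    {μa : Measure α} {μb : Measure β} {μc : Measure γ} [SFinite μa] [SFinite μb] [SFinite μc]
    {Φ : α × β × γ → ℝ} (h : Integrable Φ (μa.prod (μb.prod μc))) :
    ∫ a, ∫ b, ∫ c, Φ (a, b, c) ∂μc ∂μb ∂μa = ∫ b, ∫ c, ∫ a, Φ (a, b, c) ∂μa ∂μc ∂μb := by
  have h1 : ∫ a, ∫ b, ∫ c, Φ (a, b, c) ∂μc ∂μb ∂μa = ∫ a, ∫ p, Φ (a, p) ∂(μb.prod μc) ∂μa := by
    refine integral_congr_ae ?_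
    filter_upwards [h.prod_right_ae] with a ha
    exact (integral_prod (fun p => Φ (a, p)) ha).symm
  rw [h1, integral_integral_swap (f := fun a p => Φ (a, p)) h]
  exact integral_prod (fun p => ∫ a, Φ (a, p) ∂μa) h.integral_prod_right

variable {n : ℕ} {D : Type} [MeasurableSpace D] {Q : Measure D} {B : BlockModel n Q}

theorem s7v_cnt_integrableOn (B : BlockModel n Q) (P : Tst) (d : D) :
    IntegrableOn (fun T => B.s7vCnt P T d / T ^ 2) (Set.Ioi 0) := by
  unfold BlockModel.s7vCnt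
  simp only [Finset.sum_div]
  exact integrable_finsetSum _ fun i _ =>
    s7v_scale_integrableOn (s7v_chi_zero P) (s7v_chi_integrableOn P) (sq_nonneg _)

theorem s7v_cnt_integral (B : BlockModel n Q) (P : Tst) (d : D) :
    ∫ T in Set.Ioi (0 : ℝ), B.s7vCnt P T d / T ^ 2 = P.s7vCchi * mxSq (B.Rs d) := by
  unfold BlockModel.s7vCnt
  simp only [Finset.sum_div]
  rw [integral_finsetSum _ fun i _ =>
    s7v_scale_integrableOn (s7v_chi_zero P) (s7v_chi_integrableOn P) (sq_nonneg _)]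
  simp only [s7v_scale P.s7vChi (s7v_chi_zero P) (sq_nonneg _)]
  rw [← Finset.sum_mul, s7v_sum_eig_sq (s7v_Rs_symm B d), mul_comm]
  rfl

theorem s7v_chi_le_lin (P : Tst) {x : ℝ} (hx : 0 ≤ x) : P.s7vChi x ≤ 2 * x / P.x0 := by
  have h0 := P.x0_pos
  by_cases h : x < P.x0 / 2
  · rw [s7v_chi_eq_zero P (fun hm => absurd hm.1 (not_le.2 h))]
    positivity
  · have h1 : P.x0 / 2 ≤ x := not_lt.1 h
    refine (s7v_chi_le_one P x).trans ?_
    rw [le_div_iff₀ h0]; linarith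

theorem s7v_cnt_le (B : BlockModel n Q) (P : Tst) {T : ℝ} (hT : 0 ≤ T) (d : D) :
    B.s7vCnt P T d ≤ 2 * T / P.x0 * mxSq (B.Rs d) := by
  unfold BlockModel.s7vCnt
  rw [← s7v_sum_eig_sq (s7v_Rs_symm B d), Finset.mul_sum]
  refine Finset.sum_le_sum fun i _ => ?_
  refine (s7v_chi_le_lin P (by positivity)).trans (le_of_eq ?_)
  ring

variable {S : Type} [MeasurableSpace S] {μ : Measure S}

/-- the dominating function -/
theorem s7v_dom_integrable (Z : S7vSp B μ) [SFinite μ] (P : Tst) (u0 u1 : ℝ) :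
    Integrable (fun q : ℝ × ℝ × S =>
        (1 + ‖Z.N q.2.2‖ + ‖Z.G1 q.2.2‖) * (B.s7vCnt P q.1 (Z.d q.2.2) / q.1 ^ 2))
      ((volume.restrict (Set.Ioi 0)).prod ((volume.restrict (Set.Icc u0 u1)).prod μ)) := by
  have hmeas : Measurable (fun q : ℝ × ℝ × S =>
        (1 + ‖Z.N q.2.2‖ + ‖Z.G1 q.2.2‖) * (B.s7vCnt P q.1 (Z.d q.2.2) / q.1 ^ 2)) := by
    have h1 : Measurable fun q : ℝ × ℝ × S => Z.N q.2.2 := Z.N_meas.comp (by fun_prop)
    have h2 : Measurable fun q : ℝ × ℝ × S => Z.G1 q.2.2 := Z.G1_meas.comp (by fun_prop)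
    have h3 : Measurable fun q : ℝ × ℝ × S => B.s7vCnt P q.1 (Z.d q.2.2) :=
      s7v_meas_cnt B P measurable_fst (Z.d_meas.comp (by fun_prop))
    exact ((measurable_const.add h1.norm).add h2.norm).mul (h3.div (measurable_fst.pow_const 2))
  rw [integrable_prod_iff' hmeas.aestronglyMeasurable]
  refine ⟨Filter.Eventually.of_forall fun y => ?_, ?_⟩
  · have h4 : Integrable (fun T => B.s7vCnt P T (Z.d y.2) / T ^ 2) (volume.restrict (Set.Ioi 0)) :=
      s7v_cnt_integrableOn B P (Z.d y.2)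
    exact h4.const_mul (1 + ‖Z.N y.2‖ + ‖Z.G1 y.2‖)
  have e1 : ∀ y : ℝ × S, ∫ T in Set.Ioi (0 : ℝ),
      ‖(1 + ‖Z.N y.2‖ + ‖Z.G1 y.2‖) * (B.s7vCnt P T (Z.d y.2) / T ^ 2)‖ =
      P.s7vCchi * ((1 + ‖Z.N y.2‖ + ‖Z.G1 y.2‖) * mxSq (B.Rs (Z.d y.2))) := by
    intro y
    have e2 : ∀ T : ℝ, ‖(1 + ‖Z.N y.2‖ + ‖Z.G1 y.2‖) * (B.s7vCnt P T (Z.d y.2) / T ^ 2)‖ =
        (1 + ‖Z.N y.2‖ + ‖Z.G1 y.2‖) * (B.s7vCnt P T (Z.d y.2) / T ^ 2) := fun T => by
      rw [Real.norm_eq_abs, abs_of_nonneg]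
      have := s7v_cnt_nonneg B P T (Z.d y.2)
      positivity
    simp only [e2]
    rw [integral_const_mul, s7v_cnt_integral]
    ring
  simp only [e1]
  exact (Z.int.comp_snd _).const_mul _

/-- the pointwise bound of the integrand. -/
theorem s7v_val_le (Z : S7vSp B μ) (P : Tst) {u C : ℝ} (hu : 0 ≤ u) (hC0 : 0 ≤ C)
    (hC : ∀ k x, ‖P.c k u x‖ ≤ C) (T : ℝ) (M : Mx n) (s : S) :
    |Z.val P u T M s| ≤ (8 * (P.K : ℝ) * C + 4 * (P.K : ℝ) ^ 2 * C ^ 2) *
      ((1 + ‖Z.N s‖ + ‖Z.G1 s‖) * B.s7vCnt P T (Z.d s)) := by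
  unfold S7vSp.val
  have h1 := s7v_pay_tQ_le B P hC T (Z.d s) (Z.N s - Real.exp (-u) • ouV u (Z.N s) (Z.G1 s))
    (ouV u (Z.N s) (Z.G1 s)) (mv M (Z.G2 s))
  have h2 := s7v_norm_v_le hu (Z.N s) (Z.G1 s)
  have h3 := s7v_cnt_nonneg B P T (Z.d s)
  refine h1.trans ?_
  rw [← mul_assoc]
  apply mul_le_mul_of_nonneg_right _ h3
  have hK : (0 : ℝ) ≤ P.K := Nat.cast_nonneg _
  have hN := norm_nonneg (Z.N s)
  have hG := norm_nonneg (Z.G1 s)
  have h4 : 4 * (P.K : ℝ) * C * ‖Z.N s - Real.exp (-u) • ouV u (Z.N s) (Z.G1 s)‖ ≤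
      4 * (P.K : ℝ) * C * (2 * ‖Z.N s‖ + ‖Z.G1 s‖) :=
    mul_le_mul_of_nonneg_left h2 (by positivity)
  have h5 : 0 ≤ (P.K : ℝ) * C := by positivity
  have h6 : 0 ≤ (P.K : ℝ) ^ 2 * C ^ 2 := by positivity
  nlinarith [mul_nonneg h5 hN, mul_nonneg h5 hG, mul_nonneg h6 hN, mul_nonneg h6 hG]

theorem s7v_val_measurable (Z : S7vSp B μ) (P : Tst) {X : Type} [MeasurableSpace X] {u T : X → ℝ}
    {σ : X → S} {M : X → Mx n} (hu : Measurable u) (hT : Measurable T) (hσ : Measurable σ)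
    (hM : ∀ a b, Measurable fun x => M x a b) :
    Measurable fun x => Z.val P (u x) (T x) (M x) (σ x) := by
  unfold S7vSp.val
  have hN : Measurable fun x => Z.N (σ x) := Z.N_meas.comp hσ
  have hG1 : Measurable fun x => Z.G1 (σ x) := Z.G1_meas.comp hσ
  have hG2 : Measurable fun x => Z.G2 (σ x) := Z.G2_meas.comp hσ
  have hd : Measurable fun x => Z.d (σ x) := Z.d_meas.comp hσ
  exact s7v_meas_pay B hd (s7v_meas_v hu hN hG1)
    (s7v_meas_tQ B P hu hT hd (s7v_meas_ouV hu hN hG1) (s7v_meas_mv hM hG2))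

/-- V4: joint integrability of the integrand of `valM`, with all weights. -/
theorem s7v_integrable (Z : S7vSp B μ) [SFinite μ] (P : Tst) {u0 : ℝ} (hu0 : 0 < u0) (u1 : ℝ)
    (M : ℝ → S → Mx n) (hM : ∀ a b, Measurable fun p : ℝ × S => M |p.1| p.2 a b) :
    Integrable (fun q : ℝ × ℝ × S =>
        kap q.2.1 * Z.val P q.2.1 q.1 (M q.1 q.2.2) q.2.2 / q.1 ^ 2)
      ((volume.restrict (Set.Ioi 0)).prod ((volume.restrict (Set.Icc u0 u1)).prod μ)) := by
  obtain ⟨Ck, hCk0, hCk⟩ := s7v_kap_bound hu0 u1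
  obtain ⟨C, hC0, hC⟩ := s7v_coef_bound P u0 u1
  have hTpos : ∀ᵐ q : ℝ × ℝ × S ∂((volume.restrict (Set.Ioi (0 : ℝ))).prod
      ((volume.restrict (Set.Icc u0 u1)).prod μ)), q.1 ∈ Set.Ioi (0 : ℝ) :=
    Measure.quasiMeasurePreserving_fst.ae (ae_restrict_mem measurableSet_Ioi)
  have humem : ∀ᵐ q : ℝ × ℝ × S ∂((volume.restrict (Set.Ioi (0 : ℝ))).prod
      ((volume.restrict (Set.Icc u0 u1)).prod μ)), q.2.1 ∈ Set.Icc u0 u1 :=
    Measure.quasiMeasurePreserving_snd.ae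
      (Measure.quasiMeasurePreserving_fst.ae (ae_restrict_mem measurableSet_Icc))
  have hmeas' : Measurable (fun q : ℝ × ℝ × S =>
      kap q.2.1 * Z.val P q.2.1 q.1 (M |q.1| q.2.2) q.2.2 / q.1 ^ 2) := by
    have h1 : Measurable fun q : ℝ × ℝ × S => Z.val P q.2.1 q.1 (M |q.1| q.2.2) q.2.2 :=
      s7v_val_measurable Z P (by fun_prop) measurable_fst (by fun_prop)
        (fun a b => (hM a b).comp (by fun_prop : Measurable fun q : ℝ × ℝ × S => (q.1, q.2.2)))
    have h2 : Measurable fun q : ℝ × ℝ × S => kap q.2.1 := s7v_kap_measurable.comp (by fun_prop)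
    exact (h2.mul h1).div (measurable_fst.pow_const 2)
  refine ((s7v_dom_integrable Z P u0 u1).const_mul
    (Ck * (8 * (P.K : ℝ) * C + 4 * (P.K : ℝ) ^ 2 * C ^ 2))).mono' ?_ ?_
  · refine hmeas'.aestronglyMeasurable.congr ?_
    filter_upwards [hTpos] with q hq
    rw [abs_of_pos hq]
  · filter_upwards [hTpos, humem] with q hq hu
    have hq0 : (0 : ℝ) < q.1 := hq
    have h1 := s7v_val_le Z P (hu0.le.trans hu.1) hC0 (fun k x => hC k q.2.1 hu x) q.1
      (M q.1 q.2.2) q.2.2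
    have h2 := hCk q.2.1 hu
    rw [Real.norm_eq_abs, abs_div, abs_mul, abs_of_pos (by positivity : 0 < q.1 ^ 2)]
    have h3 : |kap q.2.1| * |Z.val P q.2.1 q.1 (M q.1 q.2.2) q.2.2| ≤
        Ck * ((8 * (P.K : ℝ) * C + 4 * (P.K : ℝ) ^ 2 * C ^ 2) *
          ((1 + ‖Z.N q.2.2‖ + ‖Z.G1 q.2.2‖) * B.s7vCnt P q.1 (Z.d q.2.2))) :=
      mul_le_mul h2 h1 (abs_nonneg _) hCk0
    calc _ ≤ Ck * ((8 * (P.K : ℝ) * C + 4 * (P.K : ℝ) ^ 2 * C ^ 2) *
          ((1 + ‖Z.N q.2.2‖ + ‖Z.G1 q.2.2‖) * B.s7vCnt P q.1 (Z.d q.2.2))) / q.1 ^ 2 :=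
          div_le_div_of_nonneg_right h3 (by positivity)
      _ = _ := by ring

/-- integrability of the `u`-integrated value against `dT/T²` -/
theorem s7v_low_integrableOn (Z : S7vSp B μ) [SFinite μ] (P : Tst) {u0 : ℝ} (hu0 : 0 < u0) (u1 : ℝ)
    (M : ℝ → S → Mx n) (hM : ∀ a b, Measurable fun p : ℝ × S => M |p.1| p.2 a b) :
    IntegrableOn (fun T => (∫ u in Set.Icc u0 u1, kap u * ∫ s, Z.val P u T (M T s) s ∂μ) / T ^ 2)
      (Set.Ioi 0) := by
  have H := s7v_integrable Z P hu0 u1 M hM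
  refine H.integral_prod_left.congr ?_
  filter_upwards [H.prod_right_ae] with T hT
  rw [integral_prod _ hT]
  simp only [integral_div, integral_const_mul]

/-- integrability at fixed `(u,T)` -/
theorem s7v_val_integrable (Z : S7vSp B μ) (P : Tst) {u T : ℝ} (hu : 0 ≤ u) (hT : 0 ≤ T)
    (M : S → Mx n) (hM : ∀ a b, Measurable fun s => M s a b) :
    Integrable (fun s => Z.val P u T (M s) s) μ := by
  obtain ⟨C, hC0, hC⟩ := s7v_coef_bound P u u
  have hmeas : Measurable fun s => Z.val P u T (M s) s :=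
    s7v_val_measurable Z P measurable_const measurable_const measurable_id hM
  refine (Z.int.const_mul ((8 * (P.K : ℝ) * C + 4 * (P.K : ℝ) ^ 2 * C ^ 2) * (2 * T / P.x0))).mono'
    hmeas.aestronglyMeasurable (Filter.Eventually.of_forall fun s => ?_)
  have h1 := s7v_val_le Z P hu hC0 (fun k x => hC k u ⟨le_rfl, le_rfl⟩ x) T (M s) s
  have h2 := s7v_cnt_le B P hT (Z.d s)
  have hK : (0 : ℝ) ≤ P.K := Nat.cast_nonneg _
  rw [Real.norm_eq_abs]
  refine h1.trans ?_
  have h3 : (1 + ‖Z.N s‖ + ‖Z.G1 s‖) * B.s7vCnt P T (Z.d s) ≤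
      (1 + ‖Z.N s‖ + ‖Z.G1 s‖) * (2 * T / P.x0 * mxSq (B.Rs (Z.d s))) :=
    mul_le_mul_of_nonneg_left h2 (by positivity)
  calc _ ≤ (8 * (P.K : ℝ) * C + 4 * (P.K : ℝ) ^ 2 * C ^ 2) *
        ((1 + ‖Z.N s‖ + ‖Z.G1 s‖) * (2 * T / P.x0 * mxSq (B.Rs (Z.d s)))) :=
        mul_le_mul_of_nonneg_left h3 (by positivity)
    _ = _ := by ring

end Claimed.Agent.R259
end

/- ===== packed: Claimed.Agent.R259.S6BlkDefs ===== -/
section
/-
Row 259 (S0499), Lemma 6.6 of the paper (random logarithmic blocks), package BP-S6-blocks.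
Owner: helper144.

DEFINITIONS + spectral projection kit.  Everything is frame-free and pointwise.
* `pinch Rs Z = ∑_β P_β Z P_β` (sum over the NONZERO eigenvalues `β` of `Rs`), defined as a Schur
  multiplier with the fixed Borel weight `pw0 a b = 1[a = b ≠ 0]` (measurability: `RM.of_mxSchur`),
* `colA Rs H`  : row and column index in the same block,
* `colO Rs A`  : the same pinching in the index pair (outer, row), for each fixed column index,
* `colC B`     : clipping of the input map `v ↦ B[v]`, `C = χ(Gram B)`, `χ = chiF` continuous.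
-/
set_option autoImplicit false

open scoped BigOperators Matrix
open Claimed.Agent.R260 (Mx mxFun mxSchur mxSq mxIP mxEig mxU mxRot)

namespace Claimed.Agent.R259

noncomputable section

variable {n : ℕ}

/-- weight of the pinching onto the blocks of the nonzero eigenvalues -/
def pw0 (a b : ℝ) : ℝ := if a = b ∧ a ≠ 0 then 1 else 0

/-- pinching `∑_β P_β Z P_β` -/
def pinch (Rs Z : Mx n) : Mx n := mxSchur pw0 Rs Z

/-- spectral projection of `Rs` for the eigenvalue `β` -/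
def spP (Rs : Mx n) (β : ℝ) : Mx n := mxFun (fun x => if x = β then 1 else 0) Rs

/-- the nonzero eigenvalues -/
def spSet (Rs : Mx n) : Finset ℝ := (Finset.univ.image (mxEig Rs)).filter (fun β => β ≠ 0)

/-- action of a matrix on the outer index of a column -/
def oAct (M : Mx n) (H : Fin n → Mx n) : Fin n → Mx n := fun i => ∑ j, M i j • H j

/-- exchange of the outer index and the row index -/
def exch (H : Fin n → Mx n) : Fin n → Mx n := fun i => Matrix.of fun a b => H a i b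

/-- squared Euclidean norm of a column (3-tensor) -/
def c3Sq (H : Fin n → Mx n) : ℝ := ∑ i, mxSq (H i)

/-- index exchange defect `∑ |(H_i R)_ab - (H_a R)_ib|²` -/
def exP (H : Fin n → Mx n) (R : Mx n) : ℝ :=
  ∑ i, ∑ a, ∑ b, ((H i * R) a b - (H a * R) i b) ^ 2

/-- row and column index restricted to the same block -/
def colA (Rs : Mx n) (H : Fin n → Mx n) : Fin n → Mx n := fun i => pinch Rs (H i)

/-- outer index restricted to the block of the row index -/
def colO (Rs : Mx n) (A : Fin n → Mx n) : Fin n → Mx n :=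
  fun i => Matrix.of fun a b => pinch Rs (Matrix.of fun i' a' => A i' a' b) i a

/-- Gram matrix of the input map `v ↦ B[v]` -/
def gram3 (B : Fin n → Mx n) : Mx n := Matrix.of fun i j => Matrix.trace ((B i)ᵀ * B j)

/-- clipped column -/
def colC (B : Fin n → Mx n) : Fin n → Mx n := oAct (mxFun chiF (gram3 B)) B

/-- the pointwise algebraic fields of `BlockModel` (without `flt`) -/
structure BlkCol (Rs : Mx n) (H : Fin n → Mx n) : Prop where
  symm : ∀ i, (H i).IsSymm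
  comm : ∀ i, H i * Rs = Rs * H i
  outer : ∀ v : EE n, colAt H (mv Rs v) = Rs * colAt H v
  ker : ∀ v : EE n, mv Rs v = 0 → colAt H v = 0 ∧ ∀ i, mv (H i) v = 0
  col : ColB H 4

end

/-- generates the equation lemmas of the definitions above in this file (rule 6: unique names) -/
theorem s6blkdefs_eqns_cite : True := by
  have := @pw0.eq_1
  have := @pinch.eq_1
  have := @spP.eq_1
  have := @spSet.eq_1
  have := @oAct.eq_1
  have := @exch.eq_1
  have := @c3Sq.eq_1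
  have := @exP.eq_1
  have := @colA.eq_1
  have := @colO.eq_1
  have := @gram3.eq_1
  have := @colC.eq_1
  trivial

variable {n : ℕ}

/-! ### auxiliary: finite sums in the functional calculus -/

theorem s6q_mxFun_sum {ι : Type} (s : Finset ι) (f : ι → ℝ → ℝ) (A : Mx n) :
    ∑ j ∈ s, mxFun (f j) A = mxFun (fun x => ∑ j ∈ s, f j x) A := by
  classical
  induction s using Finset.induction_on with
  | empty =>
    simp only [Finset.sum_empty]
    rw [Claimed.Agent.R260.mxFun_const, zero_smul]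
  | insert a s ha ih =>
    simp only [Finset.sum_insert ha]
    rw [ih, ← Claimed.Agent.R260.mxFun_add]

theorem s6q_mxRot_sum {ι : Type} (s : Finset ι) (A : Mx n) (F : ι → Mx n) :
    mxRot A (∑ j ∈ s, F j) = ∑ j ∈ s, mxRot A (F j) := by
  simp only [Claimed.Agent.R260.mxRot, Matrix.mul_sum, Matrix.sum_mul]

theorem s6q_mem_spSet (Rs : Mx n) (i : Fin n) : mxEig Rs i ∈ spSet Rs ↔ mxEig Rs i ≠ 0 := by
  unfold spSet
  rw [Finset.mem_filter]
  constructor
  · exact fun h => h.2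
  · exact fun h => ⟨Finset.mem_image_of_mem _ (Finset.mem_univ i), h⟩

theorem s6q_ne_zero_of_mem {Rs : Mx n} {β : ℝ} (hβ : β ∈ spSet Rs) : β ≠ 0 :=
  (Finset.mem_filter.mp hβ).2

/-! ### spectral projections -/

theorem s6q_spP_isSymm (Rs : Mx n) (β : ℝ) : (spP Rs β).IsSymm :=
  Claimed.Agent.R260.mxFun_isSymm _ _

theorem s6q_spP_mul_self (Rs : Mx n) (β : ℝ) : spP Rs β * spP Rs β = spP Rs β := by
  unfold spP
  rw [← Claimed.Agent.R260.mxFun_mul]
  exact Claimed.Agent.R260.mxFun_congr (fun i => by split_ifs <;> simp)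

theorem s6q_spP_mul_ne (Rs : Mx n) {β β' : ℝ} (h : β ≠ β') : spP Rs β * spP Rs β' = 0 := by
  unfold spP
  rw [← Claimed.Agent.R260.mxFun_mul, Claimed.Agent.R260.mxFun_congr (g := fun _ => 0),
    Claimed.Agent.R260.mxFun_const, zero_smul]
  intro i
  by_cases h1 : mxEig Rs i = β
  · have h2 : mxEig Rs i ≠ β' := fun h2 => h (h1.symm.trans h2)
    simp [h2]
  · simp [h1]

theorem s6q_mul_spP {Rs : Mx n} (hs : Rs.IsSymm) (β : ℝ) : Rs * spP Rs β = β • spP Rs β := by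
  have h : Rs * spP Rs β = mxFun (fun a => a) Rs * spP Rs β := by
    rw [Claimed.Agent.R260.mxFun_id hs]
  rw [h]
  unfold spP
  rw [← Claimed.Agent.R260.mxFun_mul, ← Claimed.Agent.R260.mxFun_smul]
  refine Claimed.Agent.R260.mxFun_congr (fun i => ?_)
  by_cases h1 : mxEig Rs i = β
  · simp [h1]
  · simp [h1]

theorem s6q_spP_mul {Rs : Mx n} (hs : Rs.IsSymm) (β : ℝ) : spP Rs β * Rs = β • spP Rs β := by
  have h : spP Rs β * Rs = spP Rs β * mxFun (fun a => a) Rs := by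
    rw [Claimed.Agent.R260.mxFun_id hs]
  rw [h]
  unfold spP
  rw [← Claimed.Agent.R260.mxFun_mul, ← Claimed.Agent.R260.mxFun_smul]
  refine Claimed.Agent.R260.mxFun_congr (fun i => ?_)
  by_cases h1 : mxEig Rs i = β
  · simp [h1]
  · simp [h1]

theorem s6q_spP_opB (Rs : Mx n) (β : ℝ) : opB (spP Rs β) 1 := by
  refine s6k_opB_mxFun (fun i => ?_)
  split_ifs <;> simp

theorem s6q_one_sub_spP_opB (Rs : Mx n) (β : ℝ) : opB (1 - spP Rs β) 1 := by
  have h : (1 : Mx n) - spP Rs β = mxFun (fun x => 1 - (if x = β then 1 else 0)) Rs := by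
    rw [Claimed.Agent.R260.mxFun_sub, Claimed.Agent.R260.mxFun_const, one_smul]
    rfl
  rw [h]
  refine s6k_opB_mxFun (fun i => ?_)
  split_ifs <;> simp

/-- `∑_β P_β` is the support projection -/
theorem s6q_sum_spP (Rs : Mx n) :
    ∑ β ∈ spSet Rs, spP Rs β = mxFun (fun x => if x ≠ 0 then 1 else 0) Rs := by
  unfold spP
  rw [s6q_mxFun_sum]
  refine Claimed.Agent.R260.mxFun_congr (fun i => ?_)
  rw [Finset.sum_ite_eq]
  simp only [s6q_mem_spSet]

/-- spectral projections of `g(R)` commute with `R` -/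
theorem s6q_spP_comm {R : Mx n} (hR : R.IsSymm) (g : ℝ → ℝ) (β : ℝ) :
    spP (mxFun g R) β * R = R * spP (mxFun g R) β := by
  unfold spP
  rw [Claimed.Agent.R260.mxFun_comp]
  have h := Claimed.Agent.R260.mxFun_commute (fun a => if g a = β then (1 : ℝ) else 0)
    (fun a => a) R
  rw [Claimed.Agent.R260.mxFun_id hR] at h
  exact h

theorem s6q_mxFun_one (A : Mx n) : mxFun (fun _ => 1) A = 1 := by
  rw [Claimed.Agent.R260.mxFun_const, one_smul]

/-- Bessel inequality for the row projections -/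
theorem s6q_bessel (Rs M : Mx n) : ∑ β ∈ spSet Rs, mxSq (spP Rs β * M) ≤ mxSq M := by
  have h1 : ∀ β, mxSq (spP Rs β * M) = Matrix.trace (Mᵀ * spP Rs β * M) := by
    intro β
    unfold Claimed.Agent.R260.mxSq
    rw [Matrix.transpose_mul, (s6q_spP_isSymm Rs β).eq]
    have : Mᵀ * spP Rs β * (spP Rs β * M) = Mᵀ * (spP Rs β * spP Rs β) * M := by
      simp only [Matrix.mul_assoc]
    rw [this, s6q_spP_mul_self]
  simp only [h1]
  rw [← Matrix.trace_sum, ← Matrix.sum_mul, ← Matrix.mul_sum, s6q_sum_spP]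
  have h2 := s6k_trace_mxFun_mono (g := fun x => if x ≠ 0 then 1 else 0) (g' := fun _ => 1)
    (A := Rs) (fun i => by split_ifs <;> simp) M
  rw [s6q_mxFun_one, Matrix.mul_one] at h2
  exact h2

theorem s6q_bessel_vec (Rs : Mx n) (v : Fin n → ℝ) :
    ∑ β ∈ spSet Rs, (spP Rs β *ᵥ v) ⬝ᵥ (spP Rs β *ᵥ v) ≤ v ⬝ᵥ v := by
  have h1 : ∀ β, (spP Rs β *ᵥ v) ⬝ᵥ (spP Rs β *ᵥ v) = v ⬝ᵥ (spP Rs β *ᵥ v) := by
    intro β
    rw [Matrix.dotProduct_mulVec, ← Matrix.mulVec_transpose, (s6q_spP_isSymm Rs β).eq,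
      Matrix.mulVec_mulVec, s6q_spP_mul_self, dotProduct_comm]
  simp only [h1]
  rw [← dotProduct_sum, ← Matrix.sum_mulVec, s6q_sum_spP]
  have h2 := Claimed.Agent.R260.mxFun_quad_mono (f := fun x => if x ≠ 0 then 1 else 0)
    (g := fun _ => 1) (A := Rs) (fun i => by split_ifs <;> simp) v
  rw [s6q_mxFun_one, Matrix.one_mulVec] at h2
  exact h2

/-- Pythagoras for sums with orthogonal row ranges -/
theorem s6q_pyth (Rs : Mx n) (M : ℝ → Mx n) :
    mxSq (∑ β ∈ spSet Rs, spP Rs β * M β) = ∑ β ∈ spSet Rs, mxSq (spP Rs β * M β) := by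
  unfold Claimed.Agent.R260.mxSq
  rw [Matrix.transpose_sum, Matrix.sum_mul, Matrix.trace_sum]
  refine Finset.sum_congr rfl fun β hβ => ?_
  rw [Matrix.mul_sum, Finset.sum_eq_single β]
  · intro β' _ hne
    rw [Matrix.transpose_mul, (s6q_spP_isSymm Rs β).eq]
    have : (M β)ᵀ * spP Rs β * (spP Rs β' * M β') = (M β)ᵀ * (spP Rs β * spP Rs β') * M β' := by
      simp only [Matrix.mul_assoc]
    rw [this, s6q_spP_mul_ne Rs (Ne.symm hne), Matrix.mul_zero, Matrix.zero_mul]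
  · exact fun h => absurd hβ h

/-- a kernel vector of `Rs` is killed by all `P_β`, `β ≠ 0` -/
theorem s6q_spP_ker {Rs : Mx n} (hs : Rs.IsSymm) {v : Fin n → ℝ} (hv : Rs *ᵥ v = 0) {β : ℝ}
    (hβ : β ∈ spSet Rs) : spP Rs β *ᵥ v = 0 := by
  have h1 : β • (spP Rs β *ᵥ v) = 0 := by
    rw [← Matrix.smul_mulVec, ← s6q_spP_mul hs, ← Matrix.mulVec_mulVec, hv, Matrix.mulVec_zero]
  exact (smul_eq_zero.mp h1).resolve_left (s6q_ne_zero_of_mem hβ)

/-! ### the pinching -/

theorem s6q_pinch_eq (Rs Z : Mx n) :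
    pinch Rs Z = ∑ β ∈ spSet Rs, spP Rs β * Z * spP Rs β := by
  apply Claimed.Agent.R260.mxRot_injective Rs
  ext i j
  unfold pinch
  rw [Claimed.Agent.R260.mxRot_mxSchur_apply, s6q_mxRot_sum, Matrix.sum_apply]
  have h1 : ∀ β, mxRot Rs (spP Rs β * Z * spP Rs β) i j
      = (if mxEig Rs i = β then (if mxEig Rs j = β then mxRot Rs Z i j else 0) else 0) := by
    intro β
    unfold spP
    rw [Claimed.Agent.R260.mxRot_mul_mxFun_apply, Claimed.Agent.R260.mxRot_mxFun_mul_apply]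
    split_ifs <;> simp
  simp only [h1]
  rw [Finset.sum_ite_eq]
  unfold pw0
  by_cases h0 : mxEig Rs i = 0
  · have : mxEig Rs i ∉ spSet Rs := fun h => (s6q_mem_spSet Rs i).mp h h0
    rw [if_neg this, if_neg (fun h => h.2 h0), zero_mul]
  · have : mxEig Rs i ∈ spSet Rs := (s6q_mem_spSet Rs i).mpr h0
    by_cases h2 : mxEig Rs i = mxEig Rs j
    · simp [this, h0, h2.symm]
    · have h3 : mxEig Rs j ≠ mxEig Rs i := fun h => h2 h.symm
      simp [this, h2, h3]

theorem s6q_pinch_isSymm (Rs : Mx n) {Z : Mx n} (hZ : Z.IsSymm) : (pinch Rs Z).IsSymm := by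
  rw [s6q_pinch_eq]
  unfold Matrix.IsSymm
  rw [Matrix.transpose_sum]
  refine Finset.sum_congr rfl fun β _ => ?_
  rw [Matrix.transpose_mul, Matrix.transpose_mul, (s6q_spP_isSymm Rs β).eq, hZ.eq,
    Matrix.mul_assoc]

theorem s6q_pinch_pinch (Rs Z : Mx n) : pinch Rs (pinch Rs Z) = pinch Rs Z := by
  apply Claimed.Agent.R260.mxRot_injective Rs
  ext i j
  unfold pinch
  rw [Claimed.Agent.R260.mxRot_mxSchur_apply, Claimed.Agent.R260.mxRot_mxSchur_apply]
  unfold pw0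
  split_ifs <;> simp

theorem s6q_spP_pinch (Rs Z : Mx n) {β : ℝ} (hβ : β ∈ spSet Rs) :
    spP Rs β * pinch Rs Z = spP Rs β * Z * spP Rs β ∧
      pinch Rs Z * spP Rs β = spP Rs β * Z * spP Rs β := by
  rw [s6q_pinch_eq]
  constructor
  · rw [Matrix.mul_sum, Finset.sum_eq_single β]
    · rw [← Matrix.mul_assoc, ← Matrix.mul_assoc, s6q_spP_mul_self]
    · intro β' _ hne
      rw [← Matrix.mul_assoc, ← Matrix.mul_assoc, s6q_spP_mul_ne Rs (Ne.symm hne),
        Matrix.zero_mul, Matrix.zero_mul]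
    · exact fun h => absurd hβ h
  · rw [Matrix.sum_mul, Finset.sum_eq_single β]
    · rw [Matrix.mul_assoc, s6q_spP_mul_self]
    · intro β' _ hne
      rw [Matrix.mul_assoc, s6q_spP_mul_ne Rs hne, Matrix.mul_zero]
    · exact fun h => absurd hβ h

theorem s6q_pinch_comm {Rs : Mx n} (hs : Rs.IsSymm) (Z : Mx n) :
    pinch Rs Z * Rs = Rs * pinch Rs Z := by
  rw [s6q_pinch_eq, Matrix.sum_mul, Matrix.mul_sum]
  refine Finset.sum_congr rfl fun β _ => ?_
  rw [Matrix.mul_assoc, s6q_spP_mul hs, ← Matrix.mul_assoc, ← Matrix.mul_assoc, s6q_mul_spP hs,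
    Matrix.mul_smul, Matrix.smul_mul, Matrix.smul_mul]

/-- `colO` in projection form -/
theorem s6q_colO_eq (Rs : Mx n) (A : Fin n → Mx n) (i : Fin n) :
    colO Rs A i = ∑ β ∈ spSet Rs, ∑ j, spP Rs β i j • (spP Rs β * A j) := by
  ext a b
  unfold colO
  rw [Matrix.of_apply, s6q_pinch_eq, Matrix.sum_apply, Matrix.sum_apply]
  refine Finset.sum_congr rfl fun β _ => ?_
  rw [Matrix.sum_apply, Matrix.mul_apply]
  simp only [Matrix.mul_apply, Matrix.of_apply, Matrix.smul_apply, smul_eq_mul, Finset.sum_mul,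
    Finset.mul_sum]
  rw [Finset.sum_comm]
  refine Finset.sum_congr rfl fun j _ => Finset.sum_congr rfl fun c _ => ?_
  have hsym : spP Rs β c a = spP Rs β a c := (s6q_spP_isSymm Rs β).apply a c
  rw [hsym]
  ring

/-! ### actions on the outer index -/

/-- contraction on the outer index, scalar families -/
theorem s6q_oAct_scal {M : Mx n} {b : ℝ} (hM : opB M b) (x : Fin n → ℝ) :
    ∑ i, (∑ j, M i j * x j) ^ 2 ≤ b ^ 2 * ∑ j, x j ^ 2 := by
  have h := hM x
  simp only [dotProduct, Matrix.mulVec] at h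
  simpa only [sq] using h

theorem s6q_oAct_c3Sq {M : Mx n} {b : ℝ} (hM : opB M b) (H : Fin n → Mx n) :
    c3Sq (oAct M H) ≤ b ^ 2 * c3Sq H := by
  unfold c3Sq oAct
  simp only [Claimed.Agent.R260.mxSq_eq_sum, Matrix.sum_apply, Matrix.smul_apply, smul_eq_mul]
  have e1 : ∑ i, ∑ a, ∑ c, (∑ j, M i j * H j a c) ^ 2
      = ∑ a, ∑ c, ∑ i, (∑ j, M i j * H j a c) ^ 2 := by
    rw [Finset.sum_comm]
    exact Finset.sum_congr rfl fun a _ => Finset.sum_comm
  have e2 : ∑ j, ∑ a, ∑ c, H j a c ^ 2 = ∑ a, ∑ c, ∑ j, H j a c ^ 2 := by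
    rw [Finset.sum_comm]
    exact Finset.sum_congr rfl fun a _ => Finset.sum_comm
  rw [e1, e2, Finset.mul_sum]
  refine Finset.sum_le_sum fun a _ => ?_
  rw [Finset.mul_sum]
  exact Finset.sum_le_sum fun c _ => s6q_oAct_scal hM (fun j => H j a c)

/-- contraction on the outer index, applied to vectors -/
theorem s6q_oAct_vec {M : Mx n} {b : ℝ} (hM : opB M b) (x : Fin n → Fin n → ℝ) :
    ∑ i, (∑ j, M i j • x j) ⬝ᵥ (∑ j, M i j • x j) ≤ b ^ 2 * ∑ j, x j ⬝ᵥ x j := by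
  simp only [dotProduct, Finset.sum_apply, Pi.smul_apply, smul_eq_mul, ← sq]
  rw [Finset.sum_comm, Finset.sum_comm (f := fun j a => x j a ^ 2), Finset.mul_sum]
  exact Finset.sum_le_sum fun a _ => s6q_oAct_scal hM (fun j => x j a)

theorem s6q_colAt_oAct {M : Mx n} (hM : M.IsSymm) (H : Fin n → Mx n) (v : EE n) :
    colAt (oAct M H) v = colAt H (mv M v) := by
  unfold colAt oAct mv
  simp only [Finset.smul_sum, Matrix.mulVec, dotProduct, Finset.sum_smul, smul_smul]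
  rw [Finset.sum_comm]
  refine Finset.sum_congr rfl fun j _ => Finset.sum_congr rfl fun i _ => ?_
  rw [hM.apply j i, mul_comm]

theorem s6q_exP_eq (H : Fin n → Mx n) (R : Mx n) :
    exP H R = c3Sq (fun i => H i * R - exch (fun j => H j * R) i) := by
  unfold exP c3Sq exch
  simp only [Claimed.Agent.R260.mxSq_eq_sum, Matrix.sub_apply, Matrix.of_apply]

end Claimed.Agent.R259
end

/- ===== packed: Claimed.Agent.R259.S6BlkClip ===== -/
section
/-
Row 259 (S0499), Lemma 6.6 of the paper (random logarithmic blocks), package BP-S6-blocks.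
Owner: helper144.

POINTWISE ALGEBRA, part 2: clipping of the input map (`colC`) and comparison of the weights
`R_* ≤ R ≤ e^h R_*`.
-/
set_option autoImplicit false

open scoped BigOperators Matrix
open Claimed.Agent.R260 (Mx mxFun mxSchur mxSq mxIP mxEig mxU mxRot)

namespace Claimed.Agent.R259

variable {n : ℕ}

/-! ### step C: clipping of the input map -/

theorem s6qc_gram3_apply (B : Fin n → Mx n) (i j : Fin n) : gram3 B i j = hsI (B i) (B j) := by
  rw [gram3, Matrix.of_apply, hsI_eq_trace']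

theorem s6q_gram3_isSymm (B : Fin n → Mx n) : (gram3 B).IsSymm := by
  ext i j
  rw [Matrix.transpose_apply, s6qc_gram3_apply, s6qc_gram3_apply, hsI_comm]

theorem s6qc_mv_fun (A : Mx n) (v : EE n) : (fun i => mv A v i) = A *ᵥ (fun i => v i) := rfl

theorem s6qc_mv_mv (A C : Mx n) (v : EE n) : mv A (mv C v) = mv (A * C) v := by
  unfold mv
  rw [← Matrix.mulVec_mulVec]

theorem s6qc_mv_zero (A : Mx n) : mv A (0 : EE n) = 0 := by
  unfold mv
  have : (fun i => (0 : EE n) i) = (0 : Fin n → ℝ) := rfl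
  rw [this, Matrix.mulVec_zero]
  rfl

theorem s6qc_hsI_sum_right {ι : Type} (s : Finset ι) (A : Mx n) (C : ι → Mx n) :
    hsI A (∑ i ∈ s, C i) = ∑ i ∈ s, hsI A (C i) := by
  rw [hsI_comm, hsI_sum_left]
  exact Finset.sum_congr rfl fun i _ => hsI_comm _ _

/-- `|B[v]|² = vᵀ Gram v` -/
theorem s6q_gram3_quad (B : Fin n → Mx n) (v : EE n) :
    mxSq (colAt B v) = (fun i => v i) ⬝ᵥ (gram3 B *ᵥ fun i => v i) := by
  rw [mxSq_eq_hs2, ← hsI_self, colAt, hsI_sum_left]
  simp only [dotProduct, Matrix.mulVec, s6qc_gram3_apply, s6qc_hsI_sum_right, hsI_smul_left,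
    Finset.mul_sum]
  refine Finset.sum_congr rfl fun i _ => Finset.sum_congr rfl fun j _ => ?_
  rw [hsI_comm (B i), hsI_smul_left, hsI_comm (B j)]
  ring

theorem s6q_gram3_eig_nonneg (B : Fin n → Mx n) (i : Fin n) : 0 ≤ mxEig (gram3 B) i := by
  refine s6k_eig_ge (s6q_gram3_isSymm B) (fun v => ?_) i
  rw [zero_mul]
  have h := s6q_gram3_quad B (WithLp.toLp 2 v)
  have h2 : (fun i => (WithLp.toLp 2 v : EE n) i) = v := rfl
  rw [h2] at h
  rw [← h]
  exact R260.mxSq_nonneg _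

theorem s6qc_oAct_Rs {Rs : Mx n} (hs : Rs.IsSymm) {B : Fin n → Mx n} (hB : BlkCol Rs B) (j : Fin n) :
    oAct Rs B j = Rs * B j := by
  have h := hB.outer (EuclideanSpace.single j 1)
  have e1 : colAt B (EuclideanSpace.single j 1) = B j := by
    unfold colAt
    rw [Finset.sum_eq_single j]
    · simp
    · intro b _ hb
      simp [hb]
    · simp
  have e2 : colAt B (mv Rs (EuclideanSpace.single j 1)) = oAct Rs B j := by
    unfold colAt oAct mv
    refine Finset.sum_congr rfl fun k _ => ?_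
    congr 1
    have : (Rs *ᵥ fun i => (EuclideanSpace.single j (1 : ℝ) : EE n) i) k = Rs k j := by
      simp [Matrix.mulVec, dotProduct]
    rw [hs.apply j k] at this
    exact this
  rw [e1, e2] at h
  exact h

/-- the Gram matrix of a block column commutes with `Rs` -/
theorem s6q_gram3_comm {Rs : Mx n} (hs : Rs.IsSymm) {B : Fin n → Mx n} (hB : BlkCol Rs B) :
    gram3 B * Rs = Rs * gram3 B := by
  ext i j
  have e1 : (gram3 B * Rs) i j = hsI (B i) (oAct Rs B j) := by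
    rw [Matrix.mul_apply, oAct, s6qc_hsI_sum_right]
    refine Finset.sum_congr rfl fun k _ => ?_
    rw [s6qc_gram3_apply, hsI_comm (B i) (_ • _), hsI_smul_left, hsI_comm (B k), hs.apply j k,
      mul_comm]
  have e2 : (Rs * gram3 B) i j = hsI (oAct Rs B i) (B j) := by
    rw [Matrix.mul_apply, oAct, hsI_sum_left]
    refine Finset.sum_congr rfl fun k _ => ?_
    rw [s6qc_gram3_apply, hsI_smul_left]
  rw [e1, e2, s6qc_oAct_Rs hs hB, s6qc_oAct_Rs hs hB, hsI_mul_left, hs.eq]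

/-- a matrix commuting with a symmetric matrix commutes with its functional calculus -/
theorem s6q_comm_mxFun {A M : Mx n} (hA : A.IsSymm) (h : A * M = M * A) (f : ℝ → ℝ) :
    mxFun f A * M = M * mxFun f A :=
  (mk_commute_mxFun hA h.symm f).symm

theorem s6qc_chi_opB (B : Fin n → Mx n) : opB (mxFun chiF (gram3 B)) 1 := by
  refine s6k_opB_mxFun fun i => ?_
  obtain ⟨h1, h2, -⟩ := s6p_chiF_bounds (s6q_gram3_eig_nonneg B i)
  rw [abs_of_nonneg h1]
  exact h2

theorem s6q_colC_blk {Rs : Mx n} (hs : Rs.IsSymm) {B : Fin n → Mx n} (hB : BlkCol Rs B) :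
    BlkCol Rs (colC B) := by
  have hCs : (mxFun chiF (gram3 B)).IsSymm := R260.mxFun_isSymm _ _
  have hCR : mxFun chiF (gram3 B) * Rs = Rs * mxFun chiF (gram3 B) :=
    s6q_comm_mxFun (s6q_gram3_isSymm B) (s6q_gram3_comm hs hB) chiF
  have hsymm : ∀ i, (colC B i).IsSymm := by
    intro i
    unfold Matrix.IsSymm colC oAct
    rw [Matrix.transpose_sum]
    refine Finset.sum_congr rfl fun j _ => ?_
    rw [Matrix.transpose_smul, (hB.symm j).eq]
  refine ⟨hsymm, fun i => ?_, fun v => ?_, fun v hv => ⟨?_, fun i => ?_⟩, hsymm, fun v => ?_⟩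
  · unfold colC oAct
    rw [Matrix.sum_mul, Matrix.mul_sum]
    refine Finset.sum_congr rfl fun j _ => ?_
    rw [Matrix.smul_mul, Matrix.mul_smul, hB.comm j]
  · rw [colC, s6q_colAt_oAct hCs, s6q_colAt_oAct hCs, s6qc_mv_mv, hCR, ← s6qc_mv_mv, hB.outer]
  · rw [colC, s6q_colAt_oAct hCs]
    refine (hB.ker _ ?_).1
    rw [s6qc_mv_mv, ← hCR, ← s6qc_mv_mv, hv, s6qc_mv_zero]
  · have h := (hB.ker v hv).2
    unfold colC oAct mv
    rw [Matrix.sum_mulVec]
    have h2 : ∀ j, B j *ᵥ (fun i => v i) = 0 := by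
      intro j
      have := congrArg (fun w : EE n => (fun i => w i)) (h j)
      exact this
    simp only [Matrix.smul_mulVec, h2, smul_zero, Finset.sum_const_zero]
    rfl
  · rw [s6k_colS_quad _ hsymm]
    have h1 := s6q_oAct_vec (s6qc_chi_opB B) (fun j => B j *ᵥ v)
    rw [one_pow, one_mul, ← s6k_colS_quad B hB.symm] at h1
    refine le_trans (le_of_eq ?_) (h1.trans (hB.col.le v))
    refine Finset.sum_congr rfl fun i _ => ?_
    have e : colC B i *ᵥ v = ∑ j, mxFun chiF (gram3 B) i j • (B j *ᵥ v) := by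
      unfold colC oAct
      rw [Matrix.sum_mulVec]
      simp only [Matrix.smul_mulVec]
    rw [e]

/-- (6.flattening-bound) -/
theorem s6q_colC_flt (B : Fin n → Mx n) (v : EE n) : mxSq (colAt (colC B) v) ≤ 4 * ‖v‖ ^ 2 := by
  have hCs : (mxFun chiF (gram3 B)).IsSymm := R260.mxFun_isSymm _ _
  rw [colC, s6q_colAt_oAct hCs, s6q_gram3_quad, s6qc_mv_fun]
  obtain ⟨w, hw⟩ : ∃ w : Fin n → ℝ, w = fun i => v i := ⟨_, rfl⟩
  have hn : ‖v‖ ^ 2 = w ⬝ᵥ w := by
    rw [EuclideanSpace.real_norm_sq_eq, hw]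
    simp only [dotProduct, sq]
  rw [← hw, hn]
  have e : (mxFun chiF (gram3 B) *ᵥ w) ⬝ᵥ (gram3 B *ᵥ (mxFun chiF (gram3 B) *ᵥ w))
      = w ⬝ᵥ (mxFun (fun x => chiF x * x * chiF x) (gram3 B) *ᵥ w) := by
    rw [R260.mxFun_mul, R260.mxFun_mul, R260.mxFun_id (s6q_gram3_isSymm B),
      ← Matrix.mulVec_mulVec, ← Matrix.mulVec_mulVec, Matrix.dotProduct_mulVec w,
      ← Matrix.mulVec_transpose, (R260.mxFun_isSymm _ _).eq]
  have e2 : 4 * (w ⬝ᵥ w) = w ⬝ᵥ (mxFun (fun _ => 4) (gram3 B) *ᵥ w) := by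
    rw [R260.mxFun_const, Matrix.smul_mulVec, Matrix.one_mulVec, dotProduct_smul, smul_eq_mul]
  rw [e, e2]
  refine R260.mxFun_quad_mono (fun i => ?_) w
  obtain ⟨-, -, h3, -⟩ := s6p_chiF_bounds (s6q_gram3_eig_nonneg B i)
  calc chiF (mxEig (gram3 B) i) * mxEig (gram3 B) i * chiF (mxEig (gram3 B) i)
      = mxEig (gram3 B) i * chiF (mxEig (gram3 B) i) ^ 2 := by ring
    _ ≤ 4 := h3

theorem s6qc_oAct_mul (M N : Mx n) (H : Fin n → Mx n) : oAct (M * N) H = oAct M (oAct N H) := by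
  funext i
  unfold oAct
  simp only [Matrix.mul_apply, Finset.sum_smul, Finset.smul_sum, smul_smul]
  exact Finset.sum_comm

theorem s6qc_oAct_sub (M : Mx n) (H H' : Fin n → Mx n) :
    oAct M (fun i => H i - H' i) = fun i => oAct M H i - oAct M H' i := by
  funext i
  unfold oAct
  simp only [smul_sub, Finset.sum_sub_distrib]

theorem s6qc_oAct_sub_left (M N : Mx n) (H : Fin n → Mx n) :
    oAct (M - N) H = fun i => oAct M H i - oAct N H i := by
  funext i
  unfold oAct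
  simp only [Matrix.sub_apply, sub_smul, Finset.sum_sub_distrib]

theorem s6qc_oAct_one (H : Fin n → Mx n) : oAct 1 H = H := by
  funext i
  unfold oAct
  rw [Finset.sum_eq_single i]
  · rw [Matrix.one_apply_eq, one_smul]
  · intro j _ hj
    rw [Matrix.one_apply_ne (Ne.symm hj), zero_smul]
  · simp

theorem s6qc_oAct_mul_right (M : Mx n) (H : Fin n → Mx n) (R : Mx n) :
    oAct M (fun j => H j * R) = fun i => oAct M H i * R := by
  funext i
  unfold oAct
  rw [Matrix.sum_mul]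
  simp only [Matrix.smul_mul]

theorem s6qc_oAct_diag (d : Fin n → ℝ) (H : Fin n → Mx n) :
    oAct (Matrix.diagonal d) H = fun i => d i • H i := by
  funext i
  unfold oAct
  rw [Finset.sum_eq_single i]
  · rw [Matrix.diagonal_apply_eq]
  · intro j _ hj
    rw [Matrix.diagonal_apply_ne _ (Ne.symm hj), zero_smul]
  · simp

theorem s6qc_mxU_opB (A : Mx n) : opB (mxU A) 1 ∧ opB (mxU A)ᵀ 1 := by
  constructor
  · intro v
    rw [Matrix.dotProduct_mulVec, ← Matrix.mulVec_transpose, Matrix.mulVec_mulVec,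
      R260.mxU_transpose_mul, Matrix.one_mulVec, one_pow, one_mul]
  · intro v
    rw [Matrix.dotProduct_mulVec, ← Matrix.mulVec_transpose, Matrix.mulVec_mulVec,
      Matrix.transpose_transpose, R260.mxU_mul_transpose, Matrix.one_mulVec, one_pow, one_mul]

theorem s6qc_chiF_sharp {x : ℝ} (hx : 0 ≤ x) :
    0 < chiF x ∧ (1 - chiF x) * (x * chiF x ^ 2 - 4) = 0 := by
  by_cases h : Real.sqrt x ≤ 2
  · have e : chiF x = 1 := by
      unfold chiF
      rw [max_eq_left h]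
      norm_num
    rw [e]
    norm_num
  · have hs : 2 < Real.sqrt x := not_le.1 h
    have e : chiF x = 2 / Real.sqrt x := by
      unfold chiF
      rw [max_eq_right hs.le]
    have hpos : 0 < Real.sqrt x := by linarith
    refine ⟨by rw [e]; positivity, ?_⟩
    have e2 : x * chiF x ^ 2 = 4 := by
      rw [e, div_pow, Real.sq_sqrt hx]
      have : x ≠ 0 := by
        intro h0
        rw [h0, Real.sqrt_zero] at hpos
        exact lt_irrefl _ hpos
      field_simp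
      norm_num
    rw [e2, sub_self, mul_zero]

theorem s6qc_clip_young (X Y : Mx n) {γ q : ℝ} (hγ : 0 ≤ γ) (hX : mxSq X = γ * q)
    (hY : mxSq Y ≤ 4 * q) : (1 - chiF γ) ^ 2 * mxSq X ≤ mxSq (X - Y) := by
  obtain ⟨hpos, k1⟩ := s6qc_chiF_sharp hγ
  obtain ⟨-, hle, -⟩ := s6p_chiF_bounds hγ
  obtain ⟨χ, hχ⟩ : ∃ χ : ℝ, χ = chiF γ := ⟨_, rfl⟩
  rw [← hχ] at hpos k1 hle ⊢
  have h := hs2_nonneg (χ • X - Y)
  rw [hs2_sub, hs2_smul, hsI_smul_left] at h
  rw [mxSq_eq_hs2] at hX hY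
  rw [mxSq_eq_hs2, mxSq_eq_hs2, hs2_sub]
  have k2 : 0 ≤ (1 - χ) * (4 * q - hs2 Y) := mul_nonneg (by linarith) (by linarith)
  have k3 : (1 - χ) * (χ ^ 2 * hs2 X - hs2 Y)
      = (1 - χ) * (γ * χ ^ 2 - 4) * q + (1 - χ) * (4 * q - hs2 Y) := by
    rw [hX]
    ring
  have k4 : χ * (hs2 X - 2 * hsI X Y + hs2 Y) - χ * ((1 - χ) ^ 2 * hs2 X)
      = (χ ^ 2 * hs2 X - 2 * (χ * hsI X Y) + hs2 Y) + (1 - χ) * (χ ^ 2 * hs2 X - hs2 Y) := by
    ring
  rw [k1, zero_mul, zero_add] at k3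
  refine le_of_mul_le_mul_left ?_ hpos
  linarith

theorem s6qc_exch_quad {B : Fin n → Mx n} (hs : ∀ i, (B i).IsSymm) (u : EE n) :
    mxSq (colAt (exch B) u) = (fun i => u i) ⬝ᵥ (colS B *ᵥ fun i => u i) := by
  rw [s6k_colS_quad B hs, R260.mxSq_eq_sum]
  refine Finset.sum_congr rfl fun a _ => ?_
  simp only [dotProduct, ← sq]
  refine Finset.sum_congr rfl fun b _ => ?_
  congr 1
  unfold colAt exch
  rw [Matrix.sum_apply]
  simp only [Matrix.smul_apply, Matrix.of_apply, smul_eq_mul, Matrix.mulVec, dotProduct]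
  refine Finset.sum_congr rfl fun c _ => ?_
  rw [(hs a).apply b c, mul_comm]

theorem s6qc_oAct_eq_colAt (M : Mx n) (H : Fin n → Mx n) (i : Fin n) :
    oAct M H i = colAt H (WithLp.toLp 2 (M i)) := rfl

/-- COST OF STEP C `≤` exchange defect with weight `Rs`.
Proof: `F u = B[u]`, `(G u)_ab = (B_b u)_a`, `|G u|² = uᵀ S u ≤ 4|u|²`, `|F u|² = uᵀ Gram u`;
`∑_i |(C B - B)_i Rs|² = tr(Rs φ(Gram) Rs) = ∑_i φ(γ_i) |Rs v_i|²`, `φ(x) = x (1 - χ(x))² = (√x - 2)₊²`,
`v_i` eigenvectors of `Gram`; `u_i = Rs v_i` is again an eigenvector for `γ_i`, so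
`(√γ_i - 2)₊ |u_i| ≤ |F u_i| - |G u_i| ≤ |(F - G) u_i|`; `∑_i |(F-G) Rs v_i|² = ∑_j |(F-G) Rs e_j|²`
`= ∑_{j,a,b} ((B_j Rs)_ab - (B_b Rs)_aj)² = exP B Rs` (the matrices `B_j Rs` are symmetric). -/
theorem s6q_costC {Rs : Mx n} (hs : Rs.IsSymm) {B : Fin n → Mx n} (hB : BlkCol Rs B) :
    ∑ i, mxSq ((colC B i - B i) * Rs) ≤ exP B Rs := by
  have hΓs := s6q_gram3_isSymm B
  have hcomm := s6q_gram3_comm hs hB
  have hY : oAct Rs B = fun j => B j * Rs := funext fun j => by rw [s6qc_oAct_Rs hs hB, hB.comm]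
  obtain ⟨hU1, hU2⟩ := s6qc_mxU_opB (gram3 B)
  have hdiag := R260.mxU_transpose_mul_self_eq hΓs
  have hD : mxFun chiF (gram3 B) - 1 = mxU (gram3 B)
      * (Matrix.diagonal (fun i => chiF (mxEig (gram3 B) i) - 1) * (mxU (gram3 B))ᵀ) := by
    have : mxFun chiF (gram3 B) - 1 = mxFun (fun x => chiF x - 1) (gram3 B) := by
      rw [R260.mxFun_sub, R260.mxFun_const, one_smul]
    rw [this, R260.mxFun, Matrix.mul_assoc]
  obtain ⟨U, hU⟩ : ∃ U : Mx n, U = mxU (gram3 B) := ⟨_, rfl⟩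
  rw [← hU] at hU1 hU2 hdiag hD
  -- step (i)
  have e1 : (fun i => (colC B i - B i) * Rs)
      = oAct U (fun i => (chiF (mxEig (gram3 B) i) - 1) • oAct (Uᵀ * Rs) B i) := by
    have a1 : (fun i => (colC B i - B i) * Rs) = oAct (mxFun chiF (gram3 B) - 1) (oAct Rs B) := by
      rw [hY, s6qc_oAct_mul_right, s6qc_oAct_sub_left, s6qc_oAct_one]
      rfl
    rw [a1, hD, s6qc_oAct_mul, s6qc_oAct_mul, s6qc_oAct_diag, ← s6qc_oAct_mul]
  have h1 : ∑ i, mxSq ((colC B i - B i) * Rs)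
      ≤ ∑ i, (1 - chiF (mxEig (gram3 B) i)) ^ 2 * mxSq (oAct (Uᵀ * Rs) B i) := by
    have a2 := s6q_oAct_c3Sq hU1 (fun i => (chiF (mxEig (gram3 B) i) - 1) • oAct (Uᵀ * Rs) B i)
    rw [← e1, one_pow, one_mul] at a2
    unfold c3Sq at a2
    refine a2.trans (le_of_eq ?_)
    refine Finset.sum_congr rfl fun i _ => ?_
    rw [mxSq_eq_hs2, mxSq_eq_hs2, hs2_smul]
    ring
  -- step (iii)
  have e3 : oAct Rs (exch B) = exch (fun j => B j * Rs) := by
    funext d
    ext a b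
    unfold oAct exch
    rw [Matrix.sum_apply, Matrix.of_apply]
    show _ = (B a * Rs) d b
    rw [hB.comm a, Matrix.mul_apply]
    simp only [Matrix.smul_apply, Matrix.of_apply, smul_eq_mul]
  have h3 : ∑ i, mxSq (oAct (Uᵀ * Rs) B i - oAct (Uᵀ * Rs) (exch B) i) ≤ exP B Rs := by
    have a3 := s6q_oAct_c3Sq hU2 (oAct Rs (fun i => B i - exch B i))
    rw [← s6qc_oAct_mul, s6qc_oAct_sub, s6qc_oAct_sub, hY, e3, ← s6q_exP_eq, one_pow, one_mul] at a3
    exact a3
  -- step (ii)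
  refine h1.trans (le_trans (Finset.sum_le_sum fun i _ => ?_) h3)
  rw [s6qc_oAct_eq_colAt, s6qc_oAct_eq_colAt]
  obtain ⟨u, hu⟩ : ∃ u : Fin n → ℝ, u = (Uᵀ * Rs) i := ⟨_, rfl⟩
  rw [← hu]
  have hfun : (fun i => (WithLp.toLp 2 u : EE n) i) = u := rfl
  have heig : gram3 B *ᵥ u = mxEig (gram3 B) i • u := by
    have b1 : Uᵀ * Rs * gram3 B = Matrix.diagonal (mxEig (gram3 B)) * (Uᵀ * Rs) := by
      rw [Matrix.mul_assoc, ← hcomm, ← Matrix.mul_assoc, hdiag, Matrix.mul_assoc]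
    funext a
    have b2 := congrFun (congrFun b1 i) a
    rw [Matrix.diagonal_mul, Matrix.mul_apply] at b2
    rw [Pi.smul_apply, smul_eq_mul, hu, ← b2]
    simp only [Matrix.mulVec, dotProduct]
    refine Finset.sum_congr rfl fun c _ => ?_
    rw [hΓs.apply c a, mul_comm]
  refine s6qc_clip_young _ _ (q := u ⬝ᵥ u) (s6q_gram3_eig_nonneg B i) ?_ ?_
  · rw [s6q_gram3_quad, hfun, heig, dotProduct_smul, smul_eq_mul]
  · rw [s6qc_exch_quad hB.symm, hfun]
    exact hB.col.le u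

/-! ### comparison of the weights `R_* ≤ R ≤ e^h R_*` -/

theorem s6q_rnd_bounds {h θ x : ℝ} (hh : 0 < h) (hx : 0 ≤ x) :
    0 ≤ HierData.rnd h θ x ∧ HierData.rnd h θ x ≤ x ∧ x ≤ Real.exp h * HierData.rnd h θ x := by
  unfold HierData.rnd
  by_cases h0 : x ≤ 0
  · have e : x = 0 := le_antisymm h0 hx
    rw [if_pos h0, e]
    simp
  · have hx0 : 0 < x := not_le.1 h0
    rw [if_neg h0]
    have h1 := Int.floor_le ((Real.log x - θ) / h)
    have h2 := Int.lt_floor_add_one ((Real.log x - θ) / h)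
    obtain ⟨t, ht⟩ : ∃ t : ℝ, t = (Real.log x - θ) / h := ⟨_, rfl⟩
    rw [← ht] at h1 h2 ⊢
    have e : Real.log x = θ + h * t := by
      rw [ht]
      field_simp
      ring
    have ex : x = Real.exp (θ + h * t) := by rw [← e, Real.exp_log hx0]
    refine ⟨(Real.exp_pos _).le, ?_, ?_⟩
    · conv_rhs => rw [ex]
      apply Real.exp_le_exp.2
      nlinarith
    · rw [← Real.exp_add]
      conv_lhs => rw [ex]
      apply Real.exp_le_exp.2
      nlinarith

theorem s6qc_rnd_nonneg (h θ x : ℝ) : 0 ≤ HierData.rnd h θ x := by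
  unfold HierData.rnd
  split_ifs
  · exact le_rfl
  · exact (Real.exp_pos _).le

theorem s6q_Rs_psd {R : Mx n} (h θ : ℝ) : (mxFun (HierData.rnd h θ) R).PosSemidef :=
  R260.mxFun_posSemidef fun _ => s6qc_rnd_nonneg _ _ _

theorem s6qc_mxSq_mul_fun (f : ℝ → ℝ) (A M : Mx n) :
    mxSq (M * mxFun f A) = Matrix.trace (Mᵀᵀ * mxFun (fun x => f x * f x) A * Mᵀ) := by
  rw [← s6k_mxSq_transpose, Matrix.transpose_mul, (R260.mxFun_isSymm f A).eq, s6r_mxSq_fun]

theorem s6q_weight_le {R : Mx n} (hR : R.IsSymm) (hpos : ∀ i, 0 ≤ mxEig R i) {h θ : ℝ} (hh : 0 < h)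
    (M : Mx n) :
    mxSq (M * mxFun (HierData.rnd h θ) R) ≤ mxSq (M * R) ∧
      mxSq (M * R) ≤ Real.exp (2 * h) * mxSq (M * mxFun (HierData.rnd h θ) R) := by
  have e : mxSq (M * R) = Matrix.trace (Mᵀᵀ * mxFun (fun x => x * x) R * Mᵀ) := by
    conv_lhs => rw [← R260.mxFun_id hR]
    rw [s6qc_mxSq_mul_fun]
  have e2 : Real.exp (2 * h) * mxSq (M * mxFun (HierData.rnd h θ) R)
      = Matrix.trace (Mᵀᵀ * mxFun (fun x => Real.exp (2 * h)
          * (HierData.rnd h θ x * HierData.rnd h θ x)) R * Mᵀ) := by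
    rw [R260.mxFun_smul, Matrix.mul_smul, Matrix.smul_mul, Matrix.trace_smul, smul_eq_mul,
      s6qc_mxSq_mul_fun]
  rw [e2, e, s6qc_mxSq_mul_fun]
  constructor
  · refine s6k_trace_mxFun_mono (fun i => ?_) _
    obtain ⟨h1, h2, -⟩ := s6q_rnd_bounds (θ := θ) hh (hpos i)
    exact mul_le_mul h2 h2 h1 (hpos i)
  · refine s6k_trace_mxFun_mono (fun i => ?_) _
    obtain ⟨h1, -, h3⟩ := s6q_rnd_bounds (θ := θ) hh (hpos i)
    have e3 : Real.exp (2 * h) = Real.exp h * Real.exp h := by rw [← Real.exp_add]; ring_nf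
    rw [e3]
    calc mxEig R i * mxEig R i
        ≤ (Real.exp h * HierData.rnd h θ (mxEig R i)) * (Real.exp h * HierData.rnd h θ (mxEig R i)) :=
          mul_le_mul h3 h3 (hpos i) (mul_nonneg (Real.exp_pos _).le h1)
      _ = _ := by ring

theorem s6qc_exP_eq_sum (H : Fin n → Mx n) (R : Mx n) :
    exP H R = ∑ i, mxSq ((H i - exch H i) * R) := by
  unfold exP
  refine Finset.sum_congr rfl fun i _ => ?_
  rw [R260.mxSq_eq_sum]
  refine Finset.sum_congr rfl fun a _ => Finset.sum_congr rfl fun b _ => ?_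
  congr 1
  rw [Matrix.sub_mul, Matrix.sub_apply]
  congr 1

theorem s6q_exP_le {R : Mx n} (hR : R.IsSymm) (hpos : ∀ i, 0 ≤ mxEig R i) {h θ : ℝ} (hh : 0 < h)
    (B : Fin n → Mx n) : exP B (mxFun (HierData.rnd h θ) R) ≤ exP B R := by
  rw [s6qc_exP_eq_sum, s6qc_exP_eq_sum]
  exact Finset.sum_le_sum fun i _ => (s6q_weight_le hR hpos hh _).1

end Claimed.Agent.R259
end

/- ===== packed: Claimed.Agent.R259.S6ExpTau ===== -/
section
/-
Row 259 (S0499), package EXP, leaf L-exp-tau: the bridge from block models to frozen columns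
(`BlockModel.tau_one`, `fzS_integrable`, `fzC_integrable`, `tau_S`, `tau_C` of `S6Exp.lean`).
Statements: helper88.  Proofs: helper32.  Prefix `s6et_`.
-/
set_option autoImplicit false

open MeasureTheory ProbabilityTheory
open scoped BigOperators Matrix
open Claimed.Agent.R260 (Mx mxSq)

namespace Claimed.Agent.R259

variable {n : ℕ}

/-! ### pointwise identities and bounds -/

theorem s6et_symm_of_psd {W : Mx n} (h : W.PosSemidef) : Wᵀ = W := by
  have := h.isHermitian.eq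
  rwa [Matrix.conjTranspose_eq_transpose_of_trivial] at this

/-- `‖X W‖² = tr(W² Xᵀ X)` for a symmetric `W` -/
theorem s6et_mxSq_mul {W : Mx n} (hW : Wᵀ = W) (X : Mx n) :
    mxSq (X * W) = Matrix.trace (W * W * (Xᵀ * X)) := by
  rw [mxSq, Matrix.transpose_mul, hW]
  calc Matrix.trace (W * Xᵀ * (X * W)) = Matrix.trace ((W * (Xᵀ * X)) * W) := by
        simp only [Matrix.mul_assoc]
    _ = Matrix.trace (W * (W * (Xᵀ * X))) := Matrix.trace_mul_comm _ _
    _ = Matrix.trace (W * W * (Xᵀ * X)) := by rw [Matrix.mul_assoc]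

theorem s6et_one {W : Mx n} (hW : Wᵀ = W) : Matrix.trace (W * W * 1) = mxSq W := by
  rw [Matrix.mul_one, mxSq, hW]

theorem s6et_term_le {H : Fin n → Mx n} {W : Mx n} (h : FzCol H W) (i : Fin n) (X : Mx n) :
    mxSq (H i * X) ≤ 4 * mxSq X :=
  (Finset.single_le_sum (f := fun i => mxSq (H i * X))
    (fun _ _ => Claimed.Agent.R260.mxSq_nonneg _) (Finset.mem_univ i)).trans (h.col_sq X)

theorem s6et_cmm_le {H : Fin n → Mx n} {W : Mx n} (h : FzCol H W) (i j : Fin n) :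
    mxSq (cmm (H i) (H j) * W) ≤ 64 * mxSq W := by
  have e : cmm (H i) (H j) * W = H i * (H j * W) - H j * (H i * W) := by
    rw [cmm, Matrix.sub_mul, Matrix.mul_assoc, Matrix.mul_assoc]
  have h1 := hs2_sub_le (H i * (H j * W)) (H j * (H i * W))
  rw [← mxSq_eq_hs2, ← mxSq_eq_hs2, ← mxSq_eq_hs2, ← e] at h1
  have h2 := s6et_term_le h i (H j * W)
  have h3 := s6et_term_le h j W
  have h4 := s6et_term_le h j (H i * W)
  have h5 := s6et_term_le h i W
  linarith

/-! ### block models -/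

section bridge

variable {D : Type} [MeasurableSpace D] {Q : Measure D}

theorem s6et_fzCol (B : BlockModel n Q) (d : D) : FzCol (B.H d) (B.Rs d) :=
  ⟨B.H_symm d, B.Rs_psd d, B.comm d, B.col d⟩

theorem s6et_rm_Rs (B : BlockModel n Q) : RM fun d => B.Rs d := B.Rs_meas

theorem s6et_rm_H (B : BlockModel n Q) (i : Fin n) : RM fun d => B.H d i := B.H_meas i

theorem s6et_rm_colS (B : BlockModel n Q) : RM fun d => colS (B.H d) := by
  unfold colS
  exact RM.sum _ fun i _ => (s6et_rm_H B i).mul (s6et_rm_H B i)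

theorem s6et_rm_cmm (B : BlockModel n Q) (i j : Fin n) : RM fun d => cmm (B.H d i) (B.H d j) := by
  unfold cmm
  exact ((s6et_rm_H B i).mul (s6et_rm_H B j)).sub ((s6et_rm_H B j).mul (s6et_rm_H B i))

theorem s6et_meas_mxSq {F : D → Mx n} (hF : RM F) : Measurable fun d => mxSq (F d) := by
  simp only [mxSq_eq_hs2]
  exact hF.meas_hs2

/-- domination by a multiple of `‖R_*‖²` -/
theorem s6et_integrable_of_le (B : BlockModel n Q) {F : D → Mx n} (hF : RM F) (C : ℝ)
    (h : ∀ d, mxSq (F d) ≤ C * mxSq (B.Rs d)) : Integrable (fun d => mxSq (F d)) Q := by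
  refine (B.Rs_int.const_mul C).mono' (s6et_meas_mxSq hF).aestronglyMeasurable
    (Filter.Eventually.of_forall fun d => ?_)
  rw [Real.norm_eq_abs, abs_of_nonneg (Claimed.Agent.R260.mxSq_nonneg _)]
  exact h d

theorem s6et_tau_one (B : BlockModel n Q) : B.tau (fun _ => 1) = ∫ d, mxSq (B.Rs d) ∂Q := by
  unfold BlockModel.tau
  exact integral_congr_ae (Filter.Eventually.of_forall fun d =>
    s6et_one (s6et_symm_of_psd (B.Rs_psd d)))

theorem s6et_fzS_integrable (B : BlockModel n Q) :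
    Integrable (fun d => fzS (B.H d) (B.Rs d)) Q := by
  unfold fzS
  exact s6et_integrable_of_le B (((s6et_rm_colS B).sub (RM.const 1)).mul (s6et_rm_Rs B)) 9
    fun d => (s6et_fzCol B d).S_sub_one_sq _

theorem s6et_cmm_integrable (B : BlockModel n Q) (i j : Fin n) :
    Integrable (fun d => mxSq (cmm (B.H d i) (B.H d j) * B.Rs d)) Q :=
  s6et_integrable_of_le B ((s6et_rm_cmm B i j).mul (s6et_rm_Rs B)) 64
    fun d => s6et_cmm_le (s6et_fzCol B d) i j

theorem s6et_fzC_integrable (B : BlockModel n Q) :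
    Integrable (fun d => fzC (B.H d) (B.Rs d)) Q := by
  unfold fzC
  exact integrable_finsetSum _ fun i _ => integrable_finsetSum _ fun j _ =>
    s6et_cmm_integrable B i j

theorem s6et_tau_S (B : BlockModel n Q) :
    B.tau (fun d => (colS (B.H d) - 1) * (colS (B.H d) - 1)) = ∫ d, fzS (B.H d) (B.Rs d) ∂Q := by
  unfold BlockModel.tau fzS
  refine integral_congr_ae (Filter.Eventually.of_forall fun d => ?_)
  have hS : (colS (B.H d) - 1)ᵀ = colS (B.H d) - 1 := by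
    rw [Matrix.transpose_sub, (colS_isSymm (B.H_symm d)).eq, Matrix.transpose_one]
  show Matrix.trace (B.Rs d * B.Rs d * ((colS (B.H d) - 1) * (colS (B.H d) - 1)))
    = mxSq ((colS (B.H d) - 1) * B.Rs d)
  rw [s6et_mxSq_mul (s6et_symm_of_psd (B.Rs_psd d)), hS]

theorem s6et_tau_C (B : BlockModel n Q) :
    ∑ i, ∑ j, B.tau (fun d => (cmm (B.H d i) (B.H d j))ᵀ * cmm (B.H d i) (B.H d j))
      = ∫ d, fzC (B.H d) (B.Rs d) ∂Q := by
  unfold fzC
  rw [integral_finsetSum _ fun i _ => integrable_finsetSum _ fun j _ => s6et_cmm_integrable B i j]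
  refine Finset.sum_congr rfl fun i _ => ?_
  rw [integral_finsetSum _ fun j _ => s6et_cmm_integrable B i j]
  refine Finset.sum_congr rfl fun j _ => ?_
  unfold BlockModel.tau
  refine integral_congr_ae (Filter.Eventually.of_forall fun d => ?_)
  exact (s6et_mxSq_mul (s6et_symm_of_psd (B.Rs_psd d)) _).symm

end bridge

end Claimed.Agent.R259
end
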