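/- Packed by merge_tool.py (helper293): 9 modules of Claimed.Agent.R259 in one file, same declarations.
   Old modules, in this order: S4ProbePlsLim, S4ProbePlsDis, S4ProbePlsRef, S4ProbePlsTg, S4ProbePls, S6ExpPhi, S6ExpErr, S6ExpP, S6Exp -/
import Claimed.Agent.R259.WsH1
import Claimed.Agent.R259.WsIbp
import Claimed.Agent.R259.OpCalc
import Claimed.Agent.R259.Pack012
import Claimed.Agent.R259.Pack007
import Claimed.Agent.R259.Pack048
import Claimed.Agent.R259.Pack005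
import Claimed.Agent.R259.Pack049
import Claimed.Agent.R259.Pack030
import Claimed.Agent.R259.Pack020
import Claimed.Agent.R259.Pack050

/- ===== packed: Claimed.Agent.R259.S4ProbePlsLim ===== -/
section
/-
Row 259 (S0499), Lemma 4.1, package BP-S4Probe-pls (one resolvent step): bounds for the resolvent of
a bounded density and the limits `e → 0+` (leaf L-s4pl-lim).
Blueprint owner: helper202.  Leaf owner: helper54.
-/
set_option autoImplicit false
set_option linter.unusedSectionVars false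

open MeasureTheory Filter Topology ProbabilityTheory InformationTheory
open scoped ContDiff ENNReal

namespace Claimed.Agent.R259

variable {E : Type} [NormedAddCommGroup E] [InnerProductSpace ℝ E] [FiniteDimensional ℝ E]
  [MeasurableSpace E] [BorelSpace E]

theorem s4pl_memLp_of_bdd {m : Measure E} [IsFiniteMeasure m] {B : ℝ} {k : E → ℝ}
    (hkm : AEStronglyMeasurable k m) (hk : ∀ᵐ y ∂m, 0 ≤ k y ∧ k y ≤ B) (p : ℝ≥0∞) :
    MemLp k p m := by
  refine MemLp.of_bound hkm B ?_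
  filter_upwards [hk] with y hy
  rw [Real.norm_of_nonneg hy.1]
  exact hy.2

theorem s4pl_bounds {η : E → ℝ} (hη : Continuous η) (hpos : ∀ x, 0 < η x)
    [IsProbabilityMeasure (dm η)] {κ B : ℝ} (hκ : 0 < κ) {k k' : E → ℝ} {g' : E → E}
    (hkm : Measurable k) (hk : ∀ᵐ y, 0 ≤ k y ∧ k y ≤ B) (hres : IsRes η κ k k' g') :
    (∀ᵐ y, 0 ≤ k' y ∧ k' y ≤ B) ∧ ∫ y, k' y ∂(dm η) = ∫ y, k y ∂(dm η) := by
  have hk2 : MemLp k 2 (dm η) :=
    s4pl_memLp_of_bdd hkm.aestronglyMeasurable ((dfk_dm_ac η).ae_le hk) 2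
  have h0 := op_res_nonneg hη hpos hκ hk2 hres (hk.mono fun y hy => hy.1)
  have h1 := op_res_le hη hpos hκ hk2 hres (hk.mono fun y hy => hy.2)
  refine ⟨?_, op_res_integral hres⟩
  filter_upwards [h0, h1] with y a b
  exact ⟨a, b⟩

theorem s4pl_klFun_le {x : ℝ} (hx : 0 ≤ x) : klFun x ≤ x ^ 2 + 1 := by
  rw [klFun_apply]
  have h1 := Real.log_le_self hx
  nlinarith [mul_le_mul_of_nonneg_left h1 hx]

theorem s4pl_Ioo_mem : Set.Ioo (0 : ℝ) 1 ∈ 𝓝[>] (0 : ℝ) := Ioo_mem_nhdsGT (by norm_num)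

theorem s4pl_lim_kl {m : Measure E} [IsProbabilityMeasure m] {B : ℝ} {k : E → ℝ}
    (hkm : AEStronglyMeasurable k m) (hk : ∀ᵐ y ∂m, 0 ≤ k y ∧ k y ≤ B) :
    Tendsto (fun e : ℝ => ∫ y, klFun (k y + e) ∂m) (𝓝[>] 0) (𝓝 (∫ y, klFun (k y) ∂m)) := by
  refine tendsto_integral_filter_of_dominated_convergence (fun _ => (B + 1) ^ 2 + 1)
    (Eventually.of_forall fun e =>
      continuous_klFun.comp_aestronglyMeasurable (hkm.add aestronglyMeasurable_const))
    ?_ (integrable_const _) (Eventually.of_forall fun y => ?_)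
  · filter_upwards [s4pl_Ioo_mem] with e he
    filter_upwards [hk] with y hy
    have h0 : 0 ≤ k y + e := by linarith [hy.1, he.1]
    rw [Real.norm_of_nonneg (klFun_nonneg h0)]
    refine (s4pl_klFun_le h0).trans ?_
    have := pow_le_pow_left₀ h0 (by linarith [hy.2, he.2] : k y + e ≤ B + 1) 2
    linarith
  · have h1 : Tendsto (fun e : ℝ => k y + e) (𝓝[>] 0) (𝓝 (k y + 0)) :=
      (tendsto_const_nhds.add tendsto_id).mono_left nhdsWithin_le_nhds
    rw [add_zero] at h1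
    exact (continuous_klFun.tendsto _).comp h1

theorem s4pl_lim_ent {m : Measure E} [IsProbabilityMeasure m] {B : ℝ} {k : E → ℝ}
    (hkm : AEStronglyMeasurable k m) (hk : ∀ᵐ y ∂m, 0 ≤ k y ∧ k y ≤ B) (h1 : ∫ y, k y ∂m = 1) :
    Tendsto (fun e : ℝ => ∫ y, (k y + e) / (1 + e) * Real.log ((k y + e) / (1 + e)) ∂m) (𝓝[>] 0)
      (𝓝 (∫ y, klFun (k y) ∂m)) := by
  have hki : Integrable k m := (s4pl_memLp_of_bdd hkm hk 1).integrable le_rfl
  have hkl : Integrable (fun y => k y * Real.log (k y)) m := by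
    refine Integrable.mono' (integrable_const (B ^ 2 + 2 + B))
      (Real.continuous_mul_log.comp_aestronglyMeasurable hkm) ?_
    filter_upwards [hk] with y hy
    have h2 := s4pl_klFun_le hy.1
    have h3 := klFun_nonneg hy.1
    rw [klFun_apply] at h2 h3
    have h4 := pow_le_pow_left₀ hy.1 hy.2 2
    rw [Real.norm_eq_abs, abs_le]
    constructor <;> nlinarith [hy.1, hy.2]
  have e0 : ∫ y, klFun (k y) ∂m = ∫ y, k y * Real.log (k y) ∂m := by
    simp only [klFun_apply]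
    have i1 : Integrable (fun y => k y * Real.log (k y) + 1) m := hkl.add (integrable_const 1)
    rw [integral_sub i1 hki, integral_add hkl (integrable_const 1), h1]
    simp
  rw [e0]
  refine tendsto_integral_filter_of_dominated_convergence (fun _ => (B + 1) ^ 2 + 2 + (B + 1))
    (Eventually.of_forall fun e => Real.continuous_mul_log.comp_aestronglyMeasurable
      ((hkm.aemeasurable.add_const e).div_const (1 + e)).aestronglyMeasurable)
    ?_ (integrable_const _) (Eventually.of_forall fun y => ?_)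
  · filter_upwards [s4pl_Ioo_mem] with e he
    filter_upwards [hk] with y hy
    have he1 : 0 < 1 + e := by linarith [he.1]
    have h0 : 0 ≤ (k y + e) / (1 + e) := div_nonneg (by linarith [hy.1, he.1]) he1.le
    have hB : (k y + e) / (1 + e) ≤ B + 1 := by
      rw [div_le_iff₀ he1]
      nlinarith [hy.1, hy.2, he.1, he.2]
    have h2 := s4pl_klFun_le h0
    have h3 := klFun_nonneg h0
    rw [klFun_apply] at h2 h3
    have h4 := pow_le_pow_left₀ h0 hB 2
    rw [Real.norm_eq_abs, abs_le]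
    constructor <;> nlinarith
  · have h2 : Tendsto (fun e : ℝ => (k y + e) / (1 + e)) (𝓝[>] 0) (𝓝 ((k y + 0) / (1 + 0))) :=
      ((tendsto_const_nhds.add tendsto_id).div (tendsto_const_nhds.add tendsto_id)
        (by norm_num)).mono_left nhdsWithin_le_nhds
    rw [add_zero, add_zero, div_one] at h2
    exact (Real.continuous_mul_log.tendsto _).comp h2

theorem s4pl_lim_lin {m : Measure E} [IsProbabilityMeasure m] {B : ℝ} {k : E → ℝ}
    (hkm : AEStronglyMeasurable k m) (hk : ∀ᵐ y ∂m, 0 ≤ k y ∧ k y ≤ B)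
    {F : Type} [NormedAddCommGroup F] [NormedSpace ℝ F] {G : E → F} (hG : Integrable G m) :
    Tendsto (fun e : ℝ => ∫ y, ((k y + e) / (1 + e)) • G y ∂m) (𝓝[>] 0)
      (𝓝 (∫ y, k y • G y ∂m)) := by
  have hkG : Integrable (fun y => k y • G y) m := by
    refine Integrable.mono' (hG.norm.const_mul B) (hkm.smul hG.1) ?_
    filter_upwards [hk] with y hy
    rw [norm_smul, Real.norm_of_nonneg hy.1]
    exact mul_le_mul_of_nonneg_right hy.2 (norm_nonneg _)
  have e1 : ∀ e : ℝ, ∫ y, ((k y + e) / (1 + e)) • G y ∂m =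
      (1 + e)⁻¹ • (∫ y, k y • G y ∂m + e • ∫ y, G y ∂m) := by
    intro e
    have hGe : Integrable (fun y => e • G y) m := hG.smul e
    rw [← integral_smul e, ← integral_add hkG hGe, ← integral_smul]
    refine integral_congr_ae (Eventually.of_forall fun y => ?_)
    simp only
    rw [← add_smul, smul_smul, div_eq_inv_mul]
  simp only [e1]
  have h2 : Tendsto (fun e : ℝ => (1 + e)⁻¹ • (∫ y, k y • G y ∂m + e • ∫ y, G y ∂m)) (𝓝 0)
      (𝓝 ((1 + (0 : ℝ))⁻¹ • (∫ y, k y • G y ∂m + (0 : ℝ) • ∫ y, G y ∂m))) := by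
    refine Tendsto.smul ?_ (tendsto_const_nhds.add (tendsto_id.smul_const _))
    exact (tendsto_const_nhds.add tendsto_id).inv₀ (by norm_num)
  simp only [add_zero, inv_one, zero_smul, one_smul] at h2
  exact h2.mono_left nhdsWithin_le_nhds

end Claimed.Agent.R259
end

/- ===== packed: Claimed.Agent.R259.S4ProbePlsDis ===== -/
section
/-
Row 259 (S0499), Lemma 4.1, package BP-S4Probe-pls: entropy dissipation of one resolvent step =
convexity (leaf L-s4pl-dis).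
Blueprint owner: helper202.  Leaf owner: helper54.  Proof: `opd_dissip` (OpDissip.lean).
-/
set_option autoImplicit false

open MeasureTheory Filter Topology ProbabilityTheory InformationTheory
open scoped ContDiff ENNReal

namespace Claimed.Agent.R259

variable {E : Type} [NormedAddCommGroup E] [InnerProductSpace ℝ E] [FiniteDimensional ℝ E]
  [MeasurableSpace E] [BorelSpace E]

theorem s4pl_dissip {η : E → ℝ} (hη : Continuous η) (hpos : ∀ x, 0 < η x)
    [IsProbabilityMeasure (dm η)] {κ B e : ℝ} (hκ : 0 < κ) (he : 0 < e) {k k' : E → ℝ}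
    {g' : E → E} (hkm : Measurable k) (hk : ∀ᵐ y, 0 ≤ k y ∧ k y ≤ B) (hres : IsRes η κ k k' g') :
    κ * ∫ y, ‖g' y‖ ^ 2 / (k' y + e) ∂(dm η) ≤
      ∫ y, klFun (k y + e) ∂(dm η) - ∫ y, klFun (k' y + e) ∂(dm η) :=
  opd_dissip hη hpos hκ he
    (s4pl_memLp_of_bdd hkm.aestronglyMeasurable ((dfk_dm_ac η).ae_le hk) 2)
    (hk.mono fun _ hy => hy.1) (hk.mono fun _ hy => hy.2) hres

end Claimed.Agent.R259
end

/- ===== packed: Claimed.Agent.R259.S4ProbePlsRef ===== -/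
section
/-
Row 259 (S0499), Lemma 4.1, package BP-S4Probe-pls: change of reference `η = f² ν → ν = μ_s` at the
optimiser (leaf L-s4pl-ref).
Blueprint owner: helper202.  Leaf owner: helper54.

NOTATION.  `ν = gconv μ s0`, `η = f² ν` (`hS.η_eq`), `|φ| ≤ M` a.e., `(φ, gφ) ∈ H¹(η)`.
(i)  `WeakGrad (f φ) (f gφ + φ ∇f)` by `ws_weakGrad_mul`; `f φ, f gφ ∈ L²(ν)` by the change of measure,
     `φ ∇f ∈ L²(ν)` since `∇f ∈ L²(ν)` (`hS.Df_L2`).
(ii) `|f gφ + φ ∇f|² = f²|gφ|² + ⟨G, ∇f⟩`, `G = f (φ gφ + φ gφ) + φ² ∇f` = weak gradient of `U = f φ²`.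
(iii) `s4pl_ibp_cut`: `∫ ⟨χ_k G + U ∇χ_k, ∇f⟩ dν = ∫ χ_k U A_ν f dν` (`wsh_ibp_test` with `ζ = wsCut (2k+2) · f`).
(iv) `k → ∞`: `wsh_cut_tendsto` on the left, dominated convergence on the right.
-/
set_option autoImplicit false
set_option linter.unusedSectionVars false

open MeasureTheory Filter Topology ProbabilityTheory InformationTheory
open scoped ContDiff ENNReal

namespace Claimed.Agent.R259

variable {E : Type} [NormedAddCommGroup E] [InnerProductSpace ℝ E] [FiniteDimensional ℝ E]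
  [MeasurableSpace E] [BorelSpace E]

theorem s4pl_cut_zero {k : ℕ} {x : E} (hx : 2 * ((k : ℝ) + 1) ≤ ‖x‖) : wsCut k x = 0 := by
  apply (wsChi : ContDiffBump (0 : E)).zero_of_le_dist
  have hk : (0:ℝ) < (k : ℝ) + 1 := by positivity
  rw [dist_zero_right, norm_smul, norm_inv, Real.norm_of_nonneg hk.le]
  show (2 : ℝ) ≤ ((k : ℝ) + 1)⁻¹ * ‖x‖
  rw [le_inv_mul_iff₀ hk]
  linarith

theorem s4pl_cut_grad_zero {k : ℕ} {x : E} (hx : 2 * ((k : ℝ) + 1) < ‖x‖) :
    gradient (wsCut k) x = 0 := by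
  have : (wsCut k : E → ℝ) =ᶠ[𝓝 x] fun _ => (0:ℝ) := by
    have ho : IsOpen {y : E | 2 * ((k : ℝ) + 1) < ‖y‖} := isOpen_lt continuous_const continuous_norm
    filter_upwards [ho.mem_nhds hx] with y hy
    exact s4pl_cut_zero (le_of_lt hy)
  rw [this.gradient_eq, gradient_fun_const]

/-- integration by parts of a cut-off `H¹_loc` function against a smooth function (no
integrability of `f` is needed). -/
theorem s4pl_ibp_cut {ν : E → ℝ} (hν : ContDiff ℝ ∞ ν) (hpos : ∀ x, 0 < ν x) {U : E → ℝ}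
    {G : E → E} (h : WeakGrad U G) {f : E → ℝ} (hf : ContDiff ℝ ∞ f) (k : ℕ) :
    ∫ x, inner ℝ (wsCut k x • G x + U x • gradient (wsCut k) x) (gradient f x) ∂(dm ν) =
      ∫ x, wsCut k x * U x * opA ν f x ∂(dm ν) := by
  have hc1 : ContDiff ℝ 1 (wsCut k : E → ℝ) := (wsCut_contDiff k).of_le (by simp)
  have hW := ws_weakGrad_mul h hc1
  have hζ : IsTest (fun x : E => wsCut (2 * k + 2) x * f x) :=
    ⟨(wsCut_contDiff _).mul hf, (wsCut_hasCompactSupport _).mul_right⟩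
  have h1 := wsh_ibp_test hν hpos hW hζ
  have hnear : ∀ x : E, ‖x‖ < 2 * (k : ℝ) + 3 →
      (fun x : E => wsCut (2 * k + 2) x * f x) =ᶠ[𝓝 x] f := by
    intro x hx
    have ho : IsOpen {y : E | ‖y‖ < 2 * (k : ℝ) + 3} := isOpen_lt continuous_norm continuous_const
    filter_upwards [ho.mem_nhds hx] with y hy
    have hy' : ‖y‖ ≤ ((2 * k + 2 : ℕ) : ℝ) + 1 := by
      push_cast
      have : ‖y‖ < 2 * (k : ℝ) + 3 := hy
      linarith
    rw [wsCut_eq_one hy', one_mul]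
  have eL : (fun x => inner ℝ (wsCut k x • G x + U x • gradient (wsCut k) x)
      (gradient (fun x : E => wsCut (2 * k + 2) x * f x) x)) =
      fun x => inner ℝ (wsCut k x • G x + U x • gradient (wsCut k) x) (gradient f x) := by
    funext x
    rcases lt_or_ge ‖x‖ (2 * (k : ℝ) + 3) with hx | hx
    · rw [(hnear x hx).gradient_eq]
    · rw [s4pl_cut_zero (by linarith), s4pl_cut_grad_zero (by linarith)]
      simp
  have eR : (fun x => wsCut k x * U x * opA ν (fun x : E => wsCut (2 * k + 2) x * f x) x) =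
      fun x => wsCut k x * U x * opA ν f x := by
    funext x
    rcases lt_or_ge ‖x‖ (2 * (k : ℝ) + 3) with hx | hx
    · rw [opc_congr_nhds (hnear x hx)]
    · rw [s4pl_cut_zero (by linarith)]
      simp
  rw [eL, eR] at h1
  exact h1

/-- change of measure `η = f² ν` -/
theorem s4pl_dm_eta {μ : Measure E} {η : E → ℝ} {w : E → E} {f : E → ℝ}
    (hS : StrictBranch μ s0 1 η w f) (hν : SPD (gconv μ s0)) {F : Type} [NormedAddCommGroup F]
    [NormedSpace ℝ F] (G : E → F) :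
    (Integrable G (dm η) ↔ Integrable (fun y => f y ^ 2 • G y) (dm (gconv μ s0))) ∧
      ∫ y, G y ∂(dm η) = ∫ y, f y ^ 2 • G y ∂(dm (gconv μ s0)) := by
  have hm1 : Measurable (gconv μ s0) := hν.1.continuous.measurable
  have hm2 : Measurable (fun y => f y ^ 2) := (hS.f_smooth.continuous.pow 2).measurable
  have e : dm η = (dm (gconv μ s0)).withDensity (fun x => ENNReal.ofReal (f x ^ 2)) := by
    rw [← dfk_dm_mul hm1 hm2 fun x => (hν.2.1 x).le]
    congr 1
    funext x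
    rw [hS.η_eq x, mul_comm]
  rw [e]
  exact ⟨dfk_integrable_wd _ hm2 (fun x => sq_nonneg _) G,
    dfk_integral_wd _ hm2 (fun x => sq_nonneg _) G⟩

/-- `log f² ∈ L¹(η)` -/
theorem s4pl_logf_int {μ : Measure E} {η : E → ℝ} {w : E → E} {f : E → ℝ}
    (hS : StrictBranch μ s0 1 η w f) (hν : SPD (gconv μ s0)) :
    Integrable (fun y => Real.log (f y ^ 2)) (dm η) :=
  (s4pl_dm_eta hS hν _).1.mpr hS.ent_int

/-- MAIN STATEMENT of the leaf. -/
theorem s4pl_ref {μ : Measure E} {η : E → ℝ} {w : E → E} {f : E → ℝ}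
    (hS : StrictBranch μ s0 1 η w f) (hν : SPD (gconv μ s0)) {φ : E → ℝ} {gφ : E → E} {M : ℝ}
    (hφ : H1 (dm η) φ gφ) (hM : ∀ᵐ y, |φ y| ≤ M) :
    H1 (dm (gconv μ s0)) (fun y => f y * φ y) (fun y => f y • gφ y + φ y • gradient f y) ∧
    ∫ y, ‖f y • gφ y + φ y • gradient f y‖ ^ 2 ∂(dm (gconv μ s0)) =
      ∫ y, ‖gφ y‖ ^ 2 ∂(dm η) + 1 / 2 * ∫ y, φ y ^ 2 * Real.log (f y ^ 2) ∂(dm η) := by
  have hf1 : ContDiff ℝ 1 f := hS.f_smooth.of_le (by simp)
  have hfc : Continuous f := hS.f_smooth.continuous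
  have hMν : ∀ᵐ y ∂(dm (gconv μ s0)), |φ y| ≤ M := (dfk_dm_ac _).ae_le hM
  obtain ⟨hφm, hgm⟩ := dfk_H1_aesm hφ (gconv μ s0)
  have hfm : AEStronglyMeasurable f (dm (gconv μ s0)) := hfc.aestronglyMeasurable
  obtain ⟨iφ, ig⟩ := dfk_H1_int hφ
  -- membership in `L²(ν)`
  have a1 : MemLp (fun y => f y * φ y) 2 (dm (gconv μ s0)) := by
    have m1 : AEStronglyMeasurable (fun y => f y * φ y) (dm (gconv μ s0)) := hfm.mul hφm
    rw [memLp_two_iff_integrable_sq m1]
    have := (s4pl_dm_eta hS hν _).1.mp iφ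
    refine this.congr (Eventually.of_forall fun y => ?_)
    simp only [smul_eq_mul]
    ring
  have a2 : MemLp (fun y => f y • gφ y) 2 (dm (gconv μ s0)) := by
    have m1 : AEStronglyMeasurable (fun y => f y • gφ y) (dm (gconv μ s0)) := hfm.smul hgm
    rw [memLp_two_iff_integrable_sq_norm m1]
    have := (s4pl_dm_eta hS hν _).1.mp ig
    refine this.congr (Eventually.of_forall fun y => ?_)
    simp only [smul_eq_mul]
    rw [norm_smul, mul_pow, Real.norm_eq_abs, sq_abs]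
  have a3 : MemLp (fun y => φ y • gradient f y) 2 (dm (gconv μ s0)) := by
    refine hS.Df_L2.of_le_mul (c := M) (hφm.smul hS.Df_L2.1) ?_
    filter_upwards [hMν] with y hy
    rw [norm_smul, Real.norm_eq_abs]
    exact mul_le_mul_of_nonneg_right hy (norm_nonneg _)
  have hH : H1 (dm (gconv μ s0)) (fun y => f y * φ y)
      (fun y => f y • gφ y + φ y • gradient f y) := ⟨ws_weakGrad_mul hφ.1 hf1, a1, a2.add a3⟩
  refine ⟨hH, ?_⟩
  -- `U = f φ²`
  have hW1 := ws_weakGrad_mul_bdd hφ.1 hφ.1 hM hM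
  have hW2 := ws_weakGrad_mul hW1 hf1
  have b1 : MemLp (fun y => f y * (φ y * φ y)) 2 (dm (gconv μ s0)) := by
    refine a1.of_le_mul (c := M) (hfm.mul (hφm.mul hφm)) ?_
    filter_upwards [hMν] with y hy
    rw [Real.norm_eq_abs, Real.norm_eq_abs, ← mul_assoc, abs_mul, mul_comm]
    exact mul_le_mul_of_nonneg_right hy (abs_nonneg _)
  have b2 : MemLp (fun y => f y • (φ y • gφ y + φ y • gφ y) + (φ y * φ y) • gradient f y) 2
      (dm (gconv μ s0)) := by
    have e : (fun y => f y • (φ y • gφ y + φ y • gφ y) + (φ y * φ y) • gradient f y) =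
        fun y => φ y • ((2 : ℝ) • (f y • gφ y) + φ y • gradient f y) := by
      funext y
      module
    rw [e]
    refine ((a2.const_smul (2 : ℝ)).add a3).of_le_mul (c := M)
      (hφm.smul ((a2.const_smul (2 : ℝ)).add a3).1) ?_
    filter_upwards [hMν] with y hy
    rw [norm_smul, Real.norm_eq_abs]
    exact mul_le_mul_of_nonneg_right hy (norm_nonneg _)
  have hU : H1 (dm (gconv μ s0)) (fun y => f y * (φ y * φ y))
      (fun y => f y • (φ y • gφ y + φ y • gφ y) + (φ y * φ y) • gradient f y) := ⟨hW2, b1, b2⟩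
  -- the limit of the cut-off identities
  have hcut := fun k => s4pl_ibp_cut hν.1 hν.2.1 hW2 hS.f_smooth k
  have hL : Tendsto (fun k => ∫ x, inner ℝ (wsCut k x •
      (f x • (φ x • gφ x + φ x • gφ x) + (φ x * φ x) • gradient f x)
      + (f x * (φ x * φ x)) • gradient (wsCut k) x) (gradient f x) ∂(dm (gconv μ s0))) atTop
      (𝓝 (∫ x, inner ℝ (f x • (φ x • gφ x + φ x • gφ x) + (φ x * φ x) • gradient f x)
        (gradient f x) ∂(dm (gconv μ s0)))) := by
    refine ws_tendsto_inner (fun k => (wsh_cut hU k).2.2) b2 (fun _ => hS.Df_L2) hS.Df_L2 ?_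
      (by simp)
    exact (ws_tendsto_sq_iff (fun k => (wsh_cut hU k).2.2.sub b2)).2 (wsh_cut_tendsto hU).2
  have hdom : Integrable (fun x => M ^ 2 * |f x ^ 2 * Real.log (f x ^ 2)|) (dm (gconv μ s0)) :=
    hS.ent_int.abs.const_mul _
  have hAf : ∀ x, f x * (φ x * φ x) * opA (gconv μ s0) f x =
      1 / 2 * (φ x ^ 2 * (f x ^ 2 * Real.log (f x ^ 2))) := by
    intro x
    rw [hS.euler x, Real.log_pow]
    push_cast
    ring
  have hlm : AEStronglyMeasurable (fun x => f x ^ 2 * Real.log (f x ^ 2)) (dm (gconv μ s0)) :=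
    hS.ent_int.1
  have hR : Tendsto (fun k => ∫ x, wsCut k x * (f x * (φ x * φ x)) * opA (gconv μ s0) f x
      ∂(dm (gconv μ s0))) atTop
      (𝓝 (∫ x, 1 / 2 * (φ x ^ 2 * (f x ^ 2 * Real.log (f x ^ 2))) ∂(dm (gconv μ s0)))) := by
    refine tendsto_integral_of_dominated_convergence
      (fun x => M ^ 2 * |f x ^ 2 * Real.log (f x ^ 2)|) (fun k => ?_) hdom (fun k => ?_)
      (Eventually.of_forall fun x => ?_)
    · have hcm : AEStronglyMeasurable (wsCut k : E → ℝ) (dm (gconv μ s0)) :=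
        (wsCut_contDiff k).continuous.aestronglyMeasurable
      have e2 : (fun x => wsCut k x * (f x * (φ x * φ x)) * opA (gconv μ s0) f x) = fun x =>
          wsCut k x * (1 / 2 * (φ x ^ 2 * (f x ^ 2 * Real.log (f x ^ 2)))) := by
        funext x
        rw [mul_assoc, hAf]
      rw [e2]
      exact hcm.mul (((hφm.pow 2).mul hlm).const_mul (1 / 2))
    · filter_upwards [hMν] with x hx
      rw [mul_assoc, hAf, Real.norm_eq_abs, abs_mul, abs_mul, abs_mul, abs_of_nonneg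
        (wsCut_nonneg k x), abs_of_nonneg (sq_nonneg (φ x))]
      have h1 : φ x ^ 2 ≤ M ^ 2 := by
        rw [← sq_abs]
        exact pow_le_pow_left₀ (abs_nonneg _) hx 2
      have h2 := abs_nonneg (f x ^ 2 * Real.log (f x ^ 2))
      have h3 : wsCut k x * (|(1 / 2 : ℝ)| * (φ x ^ 2 * |f x ^ 2 * Real.log (f x ^ 2)|)) ≤
          1 * (1 * (M ^ 2 * |f x ^ 2 * Real.log (f x ^ 2)|)) := by
        refine mul_le_mul (wsCut_le_one k x) ?_ (by positivity) (by norm_num)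
        refine mul_le_mul (by rw [abs_of_nonneg] <;> norm_num) ?_ (by positivity) (by norm_num)
        exact mul_le_mul_of_nonneg_right h1 h2
      linarith
    · refine tendsto_const_nhds.congr' ?_
      filter_upwards [wsCut_eventually x] with k hk
      rw [wsCut_eq_one hk.le, one_mul, hAf]
  have hlim := tendsto_nhds_unique hL ((tendsto_congr hcut).mpr hR)
  -- assemble
  have c1 : Integrable (fun y => f y ^ 2 * ‖gφ y‖ ^ 2) (dm (gconv μ s0)) :=
    (s4pl_dm_eta hS hν _).1.mp ig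
  have c2 := ws_integrable_inner b2 hS.Df_L2
  have e1 : (fun y => ‖f y • gφ y + φ y • gradient f y‖ ^ 2) = fun y =>
      f y ^ 2 * ‖gφ y‖ ^ 2 + inner ℝ (f y • (φ y • gφ y + φ y • gφ y)
        + (φ y * φ y) • gradient f y) (gradient f y) := by
    funext y
    rw [norm_add_sq_real, norm_smul, norm_smul, mul_pow, mul_pow, Real.norm_eq_abs,
      Real.norm_eq_abs, sq_abs, sq_abs, inner_add_left, inner_smul_left, inner_smul_left,
      inner_add_left, inner_smul_left, inner_smul_left, inner_smul_right,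
      real_inner_self_eq_norm_sq]
    simp only [conj_trivial]
    ring
  rw [e1, integral_add c1 c2, hlim, integral_const_mul, (s4pl_dm_eta hS hν _).2,
    (s4pl_dm_eta hS hν (fun y => φ y ^ 2 * Real.log (f y ^ 2))).2]
  simp only [smul_eq_mul]
  congr 2
  refine integral_congr_ae (Eventually.of_forall fun y => ?_)
  simp only
  ring

end Claimed.Agent.R259
end

/- ===== packed: Claimed.Agent.R259.S4ProbePlsTg ===== -/
section
/-
Row 259 (S0499), Lemma 4.1, package BP-S4Probe-pls: the translation gain for the regularised density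
`k'_e = (k'+e)/(1+e)` (leaf L-s4pl-tg).
Blueprint owner: helper202.  Leaf owner: helper54.
(`s4pl_sqrt`: the hypothesis `m ≪ volume` was added; without it the statement is false.)

PROOF of `s4pl_tg` (`C` = the constant of `tg_main`, `α = C √a`, `ν = gconv μ s0`, `h = log f²`).
`φ = √k'_e`, `gφ = (2 (1+e) φ)⁻¹ • g'` (`s4pl_sqrt`), `|gφ|² = |g'|²/(4 (1+e) (k'+e))`, `0 ≤ φ ≤ √((B+e)/(1+e))`.
`u = f φ`, `g = f gφ + φ ∇f`: `(u,g) ∈ H¹(ν)`, `4 ∫|g|² dν = (1+e)⁻¹ D + 2 χ` with `D = ∫ |g'|²/(k'+e) dη`,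
`χ = ∫ k'_e h dη` (`s4pl_ref`).  By `s4pl_dm_eta`: `∫ u² dν = ∫ k'_e dη = 1`,
`∫ u² log u² dν = ∫ k'_e (log k'_e + h) dη = H + χ`, `∫ u² • y dν = ∫ k'_e • y dη`, same for `postMean`.
`tg_main` with `σ = s0 = 1/8`, `lam = 1` (`σ⁻¹² - lam/σ = 56`).
-/
set_option autoImplicit false
set_option linter.unusedSectionVars false

open MeasureTheory Filter Topology ProbabilityTheory InformationTheory
open scoped ContDiff ENNReal

namespace Claimed.Agent.R259

variable {E : Type} [NormedAddCommGroup E] [InnerProductSpace ℝ E] [FiniteDimensional ℝ E]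
  [MeasurableSpace E] [BorelSpace E]

/-- square root of the regularised density (chain rule after rescaling, so that
`ws_weakGrad_comp_Icc` applies on an interval `[2, ·]`). -/
theorem s4pl_sqrt {m : Measure E} [IsFiniteMeasure m] (hac : m ≪ volume) {B e : ℝ} (he : 0 < e)
    {k' : E → ℝ} {g' : E → E} (h : H1 m k' g') (hb : ∀ᵐ y, 0 ≤ k' y ∧ k' y ≤ B) :
    H1 m (fun y => Real.sqrt ((k' y + e) / (1 + e)))
      (fun y => (2 * (1 + e) * Real.sqrt ((k' y + e) / (1 + e)))⁻¹ • g' y) := by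
  have he1 : 0 < 1 + e := by linarith
  set M : ℝ := 2 / e with hM
  have hM0 : 0 < M := by positivity
  have hMe : M * e = 2 := by rw [hM]; field_simp
  have hc : 0 < M * (1 + e) := by positivity
  have hW1 : WeakGrad (fun x => k' x + e) g' := by
    have := ws_weakGrad_add h.1 (wsg_const e)
    simpa using this
  have hW2 : WeakGrad (fun x => M * (k' x + e)) (fun x => M • g' x) := ws_weakGrad_smul M hW1
  have hUI : ∀ᵐ x, M * (k' x + e) ∈ Set.Icc 2 (M * (B + e)) := by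
    filter_upwards [hb] with x hx
    constructor
    · have := mul_nonneg hM0.le hx.1
      nlinarith
    · exact mul_le_mul_of_nonneg_left (by linarith [hx.2]) hM0.le
  have hW3 := ws_weakGrad_comp_Icc hW2 (Θ := fun t => Real.sqrt (t / (M * (1 + e)))) hUI
    (ContDiffOn.sqrt (contDiff_id.div_const _).contDiffOn fun x hx => by
      have : (1 : ℝ) < x := by
        have := hx.1
        linarith
      have : 0 < x / (M * (1 + e)) := div_pos (by linarith) hc
      exact this.ne')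
  have e1 : ∀ x, M * (k' x + e) / (M * (1 + e)) = (k' x + e) / (1 + e) := by
    intro x
    rw [mul_div_mul_left _ _ hM0.ne']
  have hW4 : WeakGrad (fun y => Real.sqrt ((k' y + e) / (1 + e)))
      (fun y => (2 * (1 + e) * Real.sqrt ((k' y + e) / (1 + e)))⁻¹ • g' y) := by
    refine ws_weakGrad_congr hW3 (Eventually.of_forall fun x => ?_) ?_
    · simp only [e1]
    · filter_upwards [hb] with x hx
      have hX : 0 < (k' x + e) / (1 + e) := div_pos (by linarith [hx.1]) he1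
      have hd : HasDerivAt (fun t : ℝ => Real.sqrt (t / (M * (1 + e))))
          ((1 / (M * (1 + e))) / (2 * Real.sqrt (M * (k' x + e) / (M * (1 + e)))))
          (M * (k' x + e)) := by
        refine ((hasDerivAt_id _).div_const _).sqrt ?_
        simp only [e1]
        exact hX.ne'
      rw [hd.deriv, e1, smul_smul]
      congr 1
      have := Real.sqrt_pos.mpr hX
      field_simp
  have hbm : ∀ᵐ y ∂m, 0 ≤ k' y ∧ k' y ≤ B := hac.ae_le hb
  have hXm : AEStronglyMeasurable (fun y => Real.sqrt ((k' y + e) / (1 + e))) m :=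
    Real.continuous_sqrt.comp_aestronglyMeasurable
      ((h.2.1.1.aemeasurable.add_const e).div_const (1 + e)).aestronglyMeasurable
  refine ⟨hW4, ?_, ?_⟩
  · refine MemLp.of_bound hXm (Real.sqrt ((B + e) / (1 + e))) ?_
    filter_upwards [hbm] with y hy
    rw [Real.norm_of_nonneg (Real.sqrt_nonneg _)]
    exact Real.sqrt_le_sqrt (div_le_div_of_nonneg_right (by linarith [hy.2]) he1.le)
  · refine h.2.2.of_le_mul (c := (2 * (1 + e) * Real.sqrt (e / (1 + e)))⁻¹)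
      (((hXm.aemeasurable.const_mul (2 * (1 + e))).inv.aestronglyMeasurable).smul h.2.2.1) ?_
    filter_upwards [hbm] with y hy
    have h0 : 0 < Real.sqrt (e / (1 + e)) := Real.sqrt_pos.mpr (by positivity)
    have h1 : Real.sqrt (e / (1 + e)) ≤ Real.sqrt ((k' y + e) / (1 + e)) :=
      Real.sqrt_le_sqrt (div_le_div_of_nonneg_right (by linarith [hy.1]) he1.le)
    rw [norm_smul, Real.norm_of_nonneg (by positivity)]
    refine mul_le_mul_of_nonneg_right (inv_anti₀ (by positivity) ?_) (norm_nonneg _)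
    exact mul_le_mul_of_nonneg_left h1 (by positivity)

theorem s4pl_prob {η : E → ℝ} (hspd : SPD η) : IsProbabilityMeasure (dm η) := by
  have hηi : Integrable η := by
    by_contra hi
    have := hspd.2.2
    rw [integral_undef hi] at this
    norm_num at this
  exact dfk_dm_prob (fun x => (hspd.2.1 x).le) hηi hspd.2.2

theorem s4pl_tg : ∃ C : ℝ, 0 < C ∧ ∀ (E : Type) [NormedAddCommGroup E] [InnerProductSpace ℝ E]
    [FiniteDimensional ℝ E] [MeasurableSpace E] [BorelSpace E] (μ : Measure E) (a δ : ℝ)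
    (η : E → ℝ) (w : E → E) (f : E → ℝ), PData μ a δ η w f → a ≤ 1 →
    ∀ (B e : ℝ) (k' : E → ℝ) (g' : E → E), 0 < e → H1 (dm η) k' g' →
      (∀ᵐ y, 0 ≤ k' y ∧ k' y ≤ B) → ∫ y, k' y ∂(dm η) = 1 →
      (2 - C * Real.sqrt a) * ∫ y, (k' y + e) / (1 + e) * Real.log ((k' y + e) / (1 + e)) ∂(dm η)
          + 56 * ‖∫ y, ((k' y + e) / (1 + e)) • y ∂(dm η)‖ ^ 2
          - 3 * (C * Real.sqrt a) * ∫ y, ((k' y + e) / (1 + e)) • Real.log (f y ^ 2) ∂(dm η)
        ≤ (1 + C * Real.sqrt a) * ((1 + e)⁻¹ * ∫ y, ‖g' y‖ ^ 2 / (k' y + e) ∂(dm η)) ∧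
      ‖∫ y, ((k' y + e) / (1 + e)) • postMean μ s0 y ∂(dm η)‖ ^ 2 ≤
        C * a ^ 2 * (∫ y, (k' y + e) / (1 + e) * Real.log ((k' y + e) / (1 + e)) ∂(dm η)
          + ∫ y, ((k' y + e) / (1 + e)) • Real.log (f y ^ 2) ∂(dm η)) := by
  obtain ⟨C, hC, htg⟩ := tg_main
  refine ⟨C, hC, ?_⟩
  intro E _ _ _ _ _ μ a δ η w f hP ha B e k' g' he hk hb h1
  have hS := hP.strict
  have hbase : BaseLaw μ a := hP.crit.base.toBaseLaw
  have := hbase.prob
  have hs0 : (0:ℝ) < s0 := by unfold s0; norm_num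
  have hν : SPD (gconv μ s0) := gc_spd hbase.bdd hs0
  have hprob : IsProbabilityMeasure (dm η) := s4pl_prob hP.crit.field.spd
  have he1 : 0 < 1 + e := by linarith
  have hφ := s4pl_sqrt (dfk_dm_ac η) he hk hb
  have hMφ : ∀ᵐ y, |Real.sqrt ((k' y + e) / (1 + e))| ≤ Real.sqrt ((B + e) / (1 + e)) := by
    filter_upwards [hb] with y hy
    rw [abs_of_nonneg (Real.sqrt_nonneg _)]
    exact Real.sqrt_le_sqrt (div_le_div_of_nonneg_right (by linarith [hy.2]) he1.le)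
  obtain ⟨hH, hG⟩ := s4pl_ref hS hν hφ hMφ
  have hbν : ∀ᵐ y ∂(dm (gconv μ s0)), 0 ≤ k' y ∧ k' y ≤ B := (dfk_dm_ac _).ae_le hb
  have hbη : ∀ᵐ y ∂(dm η), 0 ≤ k' y ∧ k' y ≤ B := (dfk_dm_ac _).ae_le hb
  have hXpos : ∀ y, 0 ≤ k' y → 0 < (k' y + e) / (1 + e) := fun y hy => div_pos (by linarith) he1
  have hk'm : AEStronglyMeasurable k' (dm η) := hk.2.1.1
  have hXm : AEStronglyMeasurable (fun y => (k' y + e) / (1 + e)) (dm η) :=
    ((hk'm.aemeasurable.add_const e).div_const (1 + e)).aestronglyMeasurable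
  have hXb : ∀ᵐ y ∂(dm η), 0 ≤ (k' y + e) / (1 + e) ∧ (k' y + e) / (1 + e) ≤ (B + e) / (1 + e) := by
    filter_upwards [hbη] with y hy
    exact ⟨(hXpos y hy.1).le, div_le_div_of_nonneg_right (by linarith [hy.2]) he1.le⟩
  -- translation of the integrals
  have hsq : ∀ᵐ y ∂(dm (gconv μ s0)), (f y * Real.sqrt ((k' y + e) / (1 + e))) ^ 2 =
      f y ^ 2 * ((k' y + e) / (1 + e)) := by
    filter_upwards [hbν] with y hy
    rw [mul_pow, Real.sq_sqrt (hXpos y hy.1).le]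
  have htr : ∀ {F : Type} [NormedAddCommGroup F] [NormedSpace ℝ F] (G : E → F),
      ∫ y, (f y * Real.sqrt ((k' y + e) / (1 + e))) ^ 2 • G y ∂(dm (gconv μ s0)) =
        ∫ y, ((k' y + e) / (1 + e)) • G y ∂(dm η) := by
    intro F _ _ G
    rw [(s4pl_dm_eta hS hν _).2]
    refine integral_congr_ae ?_
    filter_upwards [hsq] with y hy
    rw [hy, smul_smul]
  have hki : Integrable k' (dm η) := hk.2.1.integrable (by norm_num)
  have hX1 : ∫ y, (k' y + e) / (1 + e) ∂(dm η) = 1 := by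
    rw [integral_div, integral_add hki (integrable_const e), h1, integral_const]
    simp only [probReal_univ, smul_eq_mul, one_mul]
    exact div_self he1.ne'
  have hu1 : ∫ y, (f y * Real.sqrt ((k' y + e) / (1 + e))) ^ 2 ∂(dm (gconv μ s0)) = 1 := by
    have := htr (fun _ => (1 : ℝ))
    simp only [smul_eq_mul, mul_one] at this
    rw [this, hX1]
  -- integrability under `η`
  have iXlog : Integrable (fun y => (k' y + e) / (1 + e) * Real.log ((k' y + e) / (1 + e)))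
      (dm η) := by
    set B' := (B + e) / (1 + e) with hB'
    refine Integrable.mono' (integrable_const (B' ^ 2 + 2 + B'))
      (Real.continuous_mul_log.comp_aestronglyMeasurable hXm) ?_
    filter_upwards [hXb] with y hy
    have h2 := s4pl_klFun_le hy.1
    have h3 := klFun_nonneg hy.1
    rw [klFun_apply] at h2 h3
    have h4 := pow_le_pow_left₀ hy.1 hy.2 2
    rw [Real.norm_eq_abs, abs_le]
    constructor <;> nlinarith [hy.1, hy.2]
  have iXh : Integrable (fun y => ((k' y + e) / (1 + e)) • Real.log (f y ^ 2)) (dm η) := by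
    have hl := s4pl_logf_int hS hν
    refine Integrable.mono' (hl.norm.const_mul ((B + e) / (1 + e))) (hXm.smul hl.1) ?_
    filter_upwards [hXb] with y hy
    rw [norm_smul, Real.norm_of_nonneg hy.1]
    exact mul_le_mul_of_nonneg_right hy.2 (norm_nonneg _)
  have hD0 : ∫ y, (f y * Real.sqrt ((k' y + e) / (1 + e))) ^ 2 *
      Real.log ((f y * Real.sqrt ((k' y + e) / (1 + e))) ^ 2) ∂(dm (gconv μ s0)) =
      ∫ y, (k' y + e) / (1 + e) * Real.log ((k' y + e) / (1 + e)) ∂(dm η)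
        + ∫ y, ((k' y + e) / (1 + e)) • Real.log (f y ^ 2) ∂(dm η) := by
    rw [← integral_add iXlog iXh, (s4pl_dm_eta hS hν _).2]
    refine integral_congr_ae ?_
    filter_upwards [hsq, hbν] with y hy hy2
    have hf2 : 0 < f y ^ 2 := by have := hS.f_pos y; positivity
    rw [hy, Real.log_mul hf2.ne' (hXpos y hy2.1).ne']
    simp only [smul_eq_mul]
    ring
  have hG4 : 4 * ∫ y, ‖f y • (2 * (1 + e) * Real.sqrt ((k' y + e) / (1 + e)))⁻¹ • g' y
      + Real.sqrt ((k' y + e) / (1 + e)) • gradient f y‖ ^ 2 ∂(dm (gconv μ s0)) =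
      (1 + e)⁻¹ * ∫ y, ‖g' y‖ ^ 2 / (k' y + e) ∂(dm η)
        + 2 * ∫ y, ((k' y + e) / (1 + e)) • Real.log (f y ^ 2) ∂(dm η) := by
    rw [hG]
    have e2 : ∫ y, ‖(2 * (1 + e) * Real.sqrt ((k' y + e) / (1 + e)))⁻¹ • g' y‖ ^ 2 ∂(dm η) =
        1 / 4 * ((1 + e)⁻¹ * ∫ y, ‖g' y‖ ^ 2 / (k' y + e) ∂(dm η)) := by
      rw [← integral_const_mul, ← integral_const_mul]
      refine integral_congr_ae ?_
      filter_upwards [hbη] with y hy
      have hX := hXpos y hy.1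
      have hke : 0 < k' y + e := by linarith [hy.1]
      rw [norm_smul, mul_pow, Real.norm_eq_abs, sq_abs, inv_pow, mul_pow, Real.sq_sqrt hX.le]
      field_simp
      ring
    have e3 : ∫ y, Real.sqrt ((k' y + e) / (1 + e)) ^ 2 * Real.log (f y ^ 2) ∂(dm η) =
        ∫ y, ((k' y + e) / (1 + e)) • Real.log (f y ^ 2) ∂(dm η) := by
      refine integral_congr_ae ?_
      filter_upwards [hbη] with y hy
      rw [Real.sq_sqrt (hXpos y hy.1).le, smul_eq_mul]
    rw [e2, e3]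
    ring
  obtain ⟨-, -, T3, -, T5⟩ := htg E μ a s0 1 hbase ha (by unfold s0; norm_num)
    (by unfold s0; norm_num) (by norm_num) (by norm_num)
    (by simpa using hP.crit.base.sharp.1) _ _ hH hu1
  rw [htr, hD0] at T3
  rw [htr, hD0, hG4] at T5
  refine ⟨?_, T3⟩
  have e56 : (s0⁻¹ ^ 2 - 1 / s0 : ℝ) = 56 := by unfold s0; norm_num
  rw [e56] at T5
  linarith

/-- integrability of the three observables -/
theorem s4pl_obs_int {μ : Measure E} {a δ : ℝ} {η : E → ℝ} {w : E → E} {f : E → ℝ}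
    (hP : PData μ a δ η w f) :
    Integrable (fun y : E => y) (dm η) ∧ Integrable (postMean μ s0) (dm η) ∧
      Integrable (fun y => Real.log (f y ^ 2)) (dm η) := by
  have hbase : BaseLaw μ a := hP.crit.base.toBaseLaw
  have := hbase.prob
  have hs0 : (0:ℝ) < s0 := by unfold s0; norm_num
  have hν : SPD (gconv μ s0) := gc_spd hbase.bdd hs0
  have hprob : IsProbabilityMeasure (dm η) := s4pl_prob hP.crit.field.spd
  refine ⟨?_, ?_, s4pl_logf_int hP.strict hν⟩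
  · refine Integrable.mono' ((integrable_const (1 : ℝ)).add hP.crit.field.mom2)
      aestronglyMeasurable_id (Eventually.of_forall fun y => ?_)
    simp only [Pi.add_apply]
    nlinarith [sq_nonneg (‖y‖ - 1)]
  · obtain ⟨r, hr⟩ := hbase.bdd
    exact Integrable.mono' (integrable_const r)
      (gc_postMean_contDiff hbase.bdd hs0).continuous.aestronglyMeasurable
      (Eventually.of_forall fun y => gc_postMean_norm_le hr hs0 y)

end Claimed.Agent.R259
end

/- ===== packed: Claimed.Agent.R259.S4ProbePls ===== -/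
section
/-
Row 259 (S0499), Lemma 4.1 (efficient Gaussian probes), sub-blueprint of helper220: package BP-S4Probe-pls (ONE resolvent step for ONE conditional density).
SUB-BLUEPRINT by helper202: GLUE PROVED BELOW from the leaf files S4ProbePlsLim (bounds, limits e -> 0), S4ProbePlsDis (step 1),
S4ProbePlsRef (step 2), S4ProbePlsTg (step 3).
EXPORT FILE of a leaf package: the package owner OWNS this file, keeps names and statements (report a false / awkward
statement to helper220 at once), replaces every `sorry`, and may add helper files `S4ProbePls*.lean`.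
PROOF (`ν = gconv μ s0`, `h = log f²`, `α = C √a`, `C` the constant of `tg_main`, `σ = s0`, `lam = 1`, `σ⁻² - 1/σ = 56`).
For `e > 0` put `k'_e = (k' + e)/(1 + e)`, `φ_e = √k'_e`, `u_e = φ_e f`.  `0 ≤ k' ≤ B` (`op_res_nonneg`, `op_res_le`), `∫ k' dη = 1`.
(1) DISSIPATION = CONVEXITY: `klFun (k+e) ≥ klFun (k'+e) + log (k'+e) (k - k')`; test `IsRes` with `z = log (k'+e) ∈ H¹(η)`
    (chain rule `ws_weakGrad_comp`): `∫ klFun (k+e) - ∫ klFun (k'+e) ≥ κ ∫ |g'|²/(k'+e) dη =: κ (1+e) F_e`.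
(2) CHANGE OF REFERENCE: for bounded `φ` with `H1 (dm η) φ gφ`:  `H1 (dm ν) (φ f) (f gφ + φ ∇f)` and
    `∫ |∇(φ f)|² dν = ∫ |gφ|² dη + (1/2) ∫ φ² h dη`   (`|∇(φ f)|² = f²|∇φ|² + ∇f·∇(φ² f)`, Euler equation `StrictBranch.euler`
    tested with `φ² f χ_R`, cutoffs `χ_R`; `f²|log f| ∈ L¹(ν)` by `ent_int`, `f ∇f ∈ L¹(ν)`).
(3) `tg_main` for `u_e`: `∫ u_e² log u_e² dν = H_e + χ_e`, `4 ∫|∇u_e|² dν = F_e + 2 χ_e`, `∫ u_e² y dν = p_e`, with
    `H_e = ∫ k'_e log k'_e dη`, `χ_e = ∫ k'_e h dη`;  so  `(1+α) F_e ≥ (2-α) H_e + 56 |p_e|² - 3 α χ_e`  and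
    `|∫ k'_e b dη|² ≤ C a² (H_e + χ_e)`.
(4) `e → 0` (dominated convergence; `k, k'` bounded, `h, y ∈ L¹(η)`).
-/
set_option autoImplicit false

open MeasureTheory Filter Topology ProbabilityTheory InformationTheory
open scoped ContDiff ENNReal

namespace Claimed.Agent.R259

variable {E : Type} [NormedAddCommGroup E] [InnerProductSpace ℝ E] [FiniteDimensional ℝ E]
  [MeasurableSpace E] [BorelSpace E]

theorem s4p_pls : ∃ C : ℝ, 0 < C ∧ ∀ (E : Type) [NormedAddCommGroup E] [InnerProductSpace ℝ E]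
    [FiniteDimensional ℝ E] [MeasurableSpace E] [BorelSpace E] (μ : Measure E) (a δ : ℝ)
    (η : E → ℝ) (w : E → E) (f : E → ℝ), PData μ a δ η w f → a ≤ 1 →
    ∀ (κ B : ℝ) (k k' : E → ℝ) (g' : E → E), 0 < κ → Measurable k →
      (∀ᵐ y, 0 ≤ k y ∧ k y ≤ B) → ∫ y, k y ∂(dm η) = 1 → IsRes η κ k k' g' →
      κ * ((2 - C * Real.sqrt a) * ∫ y, klFun (k' y) ∂(dm η)
          + 56 * ‖∫ y, k' y • y ∂(dm η)‖ ^ 2
          - 3 * (C * Real.sqrt a) * ∫ y, k' y * Real.log (f y ^ 2) ∂(dm η))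
        ≤ (1 + C * Real.sqrt a) * (∫ y, klFun (k y) ∂(dm η) - ∫ y, klFun (k' y) ∂(dm η)) ∧
      ‖∫ y, k' y • postMean μ s0 y ∂(dm η)‖ ^ 2 ≤
        C * a ^ 2 * (∫ y, klFun (k' y) ∂(dm η) + ∫ y, k' y * Real.log (f y ^ 2) ∂(dm η)) ∧
      ∫ y, klFun (k' y) ∂(dm η) ≤ ∫ y, klFun (k y) ∂(dm η) := by
  obtain ⟨C, hC, htg⟩ := s4pl_tg
  refine ⟨C, hC, ?_⟩
  intro E _ _ _ _ _ μ a δ η w f hP ha κ B k k' g' hκ hkm hk h1 hres
  have hspd : SPD η := hP.crit.field.spd
  have hηc : Continuous η := hspd.1.continuous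
  have hpos := hspd.2.1
  have hηi : Integrable η := by
    by_contra hi
    have := hspd.2.2
    rw [integral_undef hi] at this
    norm_num at this
  have hprob : IsProbabilityMeasure (dm η) := dfk_dm_prob (fun x => (hpos x).le) hηi hspd.2.2
  obtain ⟨hk', h1'⟩ := s4pl_bounds hηc hpos hκ hkm hk hres
  rw [h1] at h1'
  obtain ⟨hiy, hib, hil⟩ := s4pl_obs_int hP
  set α := C * Real.sqrt a with hα
  have hα0 : 0 ≤ α := by positivity
  have hkη : ∀ᵐ y ∂(dm η), 0 ≤ k y ∧ k y ≤ B := (dfk_dm_ac η).ae_le hk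
  have hk'η : ∀ᵐ y ∂(dm η), 0 ≤ k' y ∧ k' y ≤ B := (dfk_dm_ac η).ae_le hk'
  have hk'm : AEStronglyMeasurable k' (dm η) := hres.1.2.1.1
  have L1 := s4pl_lim_kl hkm.aestronglyMeasurable hkη
  have L2 := s4pl_lim_kl hk'm hk'η
  have L3 := s4pl_lim_ent hk'm hk'η h1'
  have L4 := s4pl_lim_lin hk'm hk'η hiy
  have L5 := s4pl_lim_lin hk'm hk'η hib
  have L6 := s4pl_lim_lin hk'm hk'η hil
  have L7 : Tendsto (fun e : ℝ => (1 + e)⁻¹) (𝓝[>] 0) (𝓝 1) := by
    have : Tendsto (fun e : ℝ => (1 + e)⁻¹) (𝓝 0) (𝓝 (1 + 0)⁻¹) :=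
      (tendsto_const_nhds.add tendsto_id).inv₀ (by norm_num)
    simpa using this.mono_left nhdsWithin_le_nhds
  have hdis : ∀ e : ℝ, 0 < e → κ * ∫ y, ‖g' y‖ ^ 2 / (k' y + e) ∂(dm η) ≤
      ∫ y, klFun (k y + e) ∂(dm η) - ∫ y, klFun (k' y + e) ∂(dm η) := fun e he =>
    s4pl_dissip hηc hpos hκ he hkm hk hres
  have hD0 : ∀ e : ℝ, 0 < e → 0 ≤ ∫ y, ‖g' y‖ ^ 2 / (k' y + e) ∂(dm η) := by
    intro e he
    refine integral_nonneg_of_ae ?_
    filter_upwards [hk'η] with y hy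
    have : 0 < k' y + e := by linarith [hy.1]
    positivity
  have htg' := fun e he => htg E μ a δ η w f hP ha B e k' g' he hres.1 hk' h1'
  refine ⟨?_, ?_, ?_⟩
  · have hl := ((((L3.const_mul (2 - α)).add ((L4.norm.pow 2).const_mul 56)).sub
      (L6.const_mul (3 * α))).const_mul κ)
    have hr := ((L7.mul (L1.sub L2)).const_mul (1 + α))
    have hle := le_of_tendsto_of_tendsto hl hr (by
      filter_upwards [self_mem_nhdsWithin] with e he
      have he0 : (0 : ℝ) < e := he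
      have h2 := (htg' e he0).1
      have h3 := hdis e he0
      have h4 : (0 : ℝ) < (1 + e)⁻¹ := by positivity
      calc κ * ((2 - α) * ∫ y, (k' y + e) / (1 + e) * Real.log ((k' y + e) / (1 + e)) ∂(dm η)
            + 56 * ‖∫ y, ((k' y + e) / (1 + e)) • y ∂(dm η)‖ ^ 2
            - 3 * α * ∫ y, ((k' y + e) / (1 + e)) • Real.log (f y ^ 2) ∂(dm η))
          ≤ κ * ((1 + α) * ((1 + e)⁻¹ * ∫ y, ‖g' y‖ ^ 2 / (k' y + e) ∂(dm η))) :=
            mul_le_mul_of_nonneg_left h2 hκ.le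
        _ = (1 + α) * ((1 + e)⁻¹ * (κ * ∫ y, ‖g' y‖ ^ 2 / (k' y + e) ∂(dm η))) := by ring
        _ ≤ (1 + α) * ((1 + e)⁻¹ * (∫ y, klFun (k y + e) ∂(dm η) -
              ∫ y, klFun (k' y + e) ∂(dm η))) := by gcongr)
    simpa [smul_eq_mul] using hle
  · have hl := L5.norm.pow 2
    have hr := ((L3.add L6).const_mul (C * a ^ 2))
    have hle := le_of_tendsto_of_tendsto hl hr (by
      filter_upwards [self_mem_nhdsWithin] with e he
      exact (htg' e he).2)
    simpa [smul_eq_mul] using hle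
  · refine le_of_tendsto_of_tendsto L2 L1 ?_
    filter_upwards [self_mem_nhdsWithin] with e he
    have he0 : (0 : ℝ) < e := he
    have h3 := hdis e he0
    have h4 := mul_nonneg hκ.le (hD0 e he0)
    linarith

end Claimed.Agent.R259
end

/- ===== packed: Claimed.Agent.R259.S6ExpPhi ===== -/
section
/-
Row 259 (S0499), package EXP: the scalar function `φ(a) = E tr(W² e^{aD})`.
EXPORT FILE of leaves L-exp-phiA (`fz_phi_hasDeriv`, `fz_K_trace_le`) and L-exp-phiB (the bounds).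
Statements: helper88.  PROVED (helper268) in `S6ExpPhiA.lean`, `S6ExpPhiB.lean`.

PROOFS.  `φ'(a) = E tr(W² D e^{aD}) = ∑_i E[N_i tr(W² H_i e^{aD})] = ∑_i E tr(W² H_i ∂_i e^{aD})`
(differentiation under the integral: `hasDerivAt_integral_of_dominated_loc_of_deriv_le`, domination by
`fz_fun_L2` / `fz_exp_norm_integrable`; Gaussian integration by parts: `R260.MxGH1.ibp` for `fz_gh1`).
`fz_K_trace_le`: with `Y_i = H_i W = W H_i` (symmetric) and `mxSchur_mul_of_commute`,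
`tr(W² H_i ∂_i e^{aD}) = ∑_{p,q} dd(d_p,d_q) (Ỹ_i)_{pq}²` in the eigenbasis of `D` (`R260.mxIP_rot`,
`R260.mxRot_mxDK_apply`), and `dd(x,y) = (e^{ax}-e^{ay})/(x-y) ≤ a (e^{ax}+e^{ay})/2` (Hermite-Hadamard for the
convex function `a e^{a·}`, `a ≥ 0`); summing gives `a tr(W S W e^{aD})`.
Bounds: `tr(W² S e^{aD}) ≤ 4 tr(W² e^{aD})` gives `φ' ≤ 4aφ`, so `φ(a) ≤ e^{2a²} ‖W‖²` (`a<0`: replace `H` by `-H`).
`tr(W² (S-1) e^{aD}) ≤ ‖(S-1)W‖ ‖e^{aD}W‖`, `E‖e^{aD}W‖ ≤ φ(2a)^{1/2} ≤ e^{4a²}‖W‖`; hence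
`(e^{-a²/2} φ)' ≤ a e^{4a²} (fzS ‖W‖²)^{1/2}`; integrate with `image_sub_le_mul_sub_of_deriv_le` or monotonicity of
`e^{-a²/2} φ(a) - (e^{4a²}/8) (fzS ‖W‖²)^{1/2}`.  Lower bound: `φ' = a E tr(W² S e^{aD}) + ∑_i E tr(W² H_i err_i)`,
`|∑_i tr((H_i W)ᵀ err_i W)| ≤ (∑‖H_i W‖²)^{1/2} (∑‖err_i W‖²)^{1/2} ≤ 2‖W‖ (∑‖err_i W‖²)^{1/2}`.
-/
set_option autoImplicit false

open MeasureTheory ProbabilityTheory
open scoped BigOperators Matrix
open Claimed.Agent.R260 (Mx mxFun mxSchur mxSq mxIP mxEig mxU mxRot mxDK MxGH1 MxL2)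

namespace Claimed.Agent.R259

variable {n : ℕ} {H : Fin n → Mx n} {W : Mx n}

theorem FzCol.phi_zero (h : FzCol H W) : fzPhi H W 0 = mxSq W :=
  fzp_phi_zero h

theorem FzCol.phi_nonneg (h : FzCol H W) (a : ℝ) : 0 ≤ fzPhi H W a :=
  fzp_phi_nonneg h a

/-- L-exp-phiA -/
theorem FzCol.phi_hasDeriv (h : FzCol H W) (a : ℝ) :
    HasDerivAt (fzPhi H W)
      (∑ i, ∫ N, Matrix.trace (W * W * (H i * fzK H a i N)) ∂(stdGaussian (EE n))) a :=
  fzp_phi_hasDeriv h a

/-- L-exp-phiA -/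
theorem FzCol.K_trace_le (h : FzCol H W) {a : ℝ} (ha : 0 ≤ a) (N : EE n) :
    ∑ i, Matrix.trace (W * W * (H i * fzK H a i N))
      ≤ a * Matrix.trace (W * W * (colS H * fzE H a N)) :=
  fzp_K_trace_le h ha N

/-- L-exp-phiB: crude bound -/
theorem FzCol.phi_le (h : FzCol H W) (a : ℝ) : fzPhi H W a ≤ Real.exp (2 * a ^ 2) * mxSq W :=
  fzp_phi_le h a

/-- L-exp-phiB: sharp upper bound -/
theorem FzCol.phi_up (h : FzCol H W) {a : ℝ} (ha : 0 ≤ a) :
    fzPhi H W a ≤ Real.exp (a ^ 2 / 2) *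
      (mxSq W + Real.exp (4 * a ^ 2) * Real.sqrt (fzS H W * mxSq W)) :=
  fzp_phi_up h ha

/-- L-exp-phiB: sharp lower bound -/
theorem FzCol.phi_lo (h : FzCol H W) {θ E : ℝ} (hθ : 0 ≤ θ) (hE0 : 0 ≤ E)
    (hE : ∀ a ∈ Set.Icc 0 θ, fzEps H W a ≤ E ^ 2) :
    Real.exp (θ ^ 2 / 2) * (mxSq W - Real.exp (4 * θ ^ 2) * Real.sqrt (fzS H W * mxSq W)
        - 2 * θ * Real.sqrt (mxSq W) * E) ≤ fzPhi H W θ :=
  fzp_phi_lo h hθ hE0 hE

end Claimed.Agent.R259
end

/- ===== packed: Claimed.Agent.R259.S6ExpErr ===== -/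
section
/-
Row 259 (S0499), package EXP: the first order defect `err_i = ∂_i e^{aD} - a H_i e^{aD}`.
EXPORT FILE of leaves L-exp-errA (pointwise: `err_pt`, `err_trunc`) and L-exp-errB (`fz_err`).
Statements: helper88.

PROOFS.  In the eigenbasis of `D` (eigenvalues `d_p`), with `Y_i = H_i W` symmetric and `mxSchur_mul_of_commute`:
`(err_i W)~_{pq} = g(d_p,d_q) (Ỹ_i)_{pq}`, `g(x,y) = (e^{ax}-e^{ay})/(x-y) - a e^{ay}`,
`|g(x,y)| ≤ (a²/2) |x-y| max(e^{ax},e^{ay})` (Taylor), so `g² ≤ (a⁴/4)(x-y)²(e^{2ax}+e^{2ay})`; by the symmetry of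
`Ỹ_i` both halves are equal: `err_pt`.
`err_trunc`: split `e^{2a d_q} = e^{2a d_q} 1_{d_q ≤ Λ} + v(d_q)`; on the second part `(d_p-d_q)² ≤ 2d_p²+2d_q²`;
`∑_i ∑ 2 d_q² v(d_q) Ỹ² = 2 tr(W S W u(D)) ≤ 8 tr(W² u(D))`;
`∑_i ∑ 2 d_p² v(d_q) Ỹ² = 2 tr(D² W · ∑_i H_i (v(D) W) H_i) ≤ 2 ‖D² W‖ · 4 ‖v(D) W‖` (`FzCol.cp_sq`).
`fz_err`: expectation; `E ∑_i ‖[D,H_i] W‖² = fzC` (`fz_lin_sq`); `x⁴ ≤ 12(e^x+e^{-x})`, `u(x) ≤ 2 e^{-Λ} e^{(2a+2)x}`,
`v(x)² ≤ e^{-Λ} e^{(4a+1)x}` for `Λ ≥ 0`, `FzCol.phi_le`, Cauchy-Schwarz in `N`; choose `Λ` large, then `C = θ⁴ e^{2θΛ}/2`.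
-/
set_option autoImplicit false

open MeasureTheory ProbabilityTheory
open scoped BigOperators Matrix
open Claimed.Agent.R260 (Mx mxFun mxSchur mxSq mxIP mxEig mxU mxRot mxDK MxGH1 MxL2)

namespace Claimed.Agent.R259

variable {n : ℕ} {H : Fin n → Mx n} {W : Mx n}

/-- L-exp-errA -/
theorem FzCol.err_pt (h : FzCol H W) {a : ℝ} (ha : 0 ≤ a) (i : Fin n) (N : EE n) :
    mxSq (fzErr H a i N * W)
      ≤ a ^ 4 / 2 * mxSq (cmm (colAt H N) (H i) * W * fzE H a N) :=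
  h.fzea_err_pt a i N

/-- L-exp-errA -/
theorem FzCol.err_trunc (h : FzCol H W) {a Λ : ℝ} (ha : 0 ≤ a) (N : EE n) :
    ∑ i, mxSq (cmm (colAt H N) (H i) * W * fzE H a N)
      ≤ Real.exp (2 * a * Λ) * ∑ i, mxSq (cmm (colAt H N) (H i) * W)
        + 8 * Matrix.trace (W * W *
            mxFun (fun x => if Λ < x then x ^ 2 * Real.exp (2 * a * x) else 0) (colAt H N))
        + 8 * Real.sqrt (Matrix.trace (W * W * mxFun (fun x => x ^ 4) (colAt H N)))
            * Real.sqrt (Matrix.trace (W * W *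
                mxFun (fun x => if Λ < x then Real.exp (4 * a * x) else 0) (colAt H N))) :=
  h.fzea_err_trunc ha N

/-! ### L-exp-errB: helpers -/

theorem fzeb_cmm_lin (H : Fin n → Mx n) (W : Mx n) (i : Fin n) (N : EE n) :
    cmm (colAt H N) (H i) * W = ∑ k, N k • (cmm (H k) (H i) * W) := by
  simp only [cmm, colAt, Matrix.sum_mul, Matrix.mul_sum, Matrix.smul_mul, Matrix.mul_smul,
    Matrix.sub_mul, smul_sub, Finset.sum_sub_distrib]

theorem fzeb_cmm_integrable (H : Fin n → Mx n) (W : Mx n) (i : Fin n) :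
    Integrable (fun N : EE n => mxSq (cmm (colAt H N) (H i) * W)) (stdGaussian (EE n)) := by
  simp only [fzeb_cmm_lin]
  have hL : MxL2 (stdGaussian (EE n)) (fun N : EE n => ∑ k, N k • (cmm (H k) (H i) * W)) :=
    MxL2.sum _ fun k _ => MxL2.smul_const (R260.gk_gh1_coord (m := n) k).1 _
  exact hL.integrable_mxSq

theorem fzeb_trace_nonneg {W : Mx n} (hW : W.IsSymm) {f : ℝ → ℝ} (hf : ∀ x, 0 ≤ f x) (D : Mx n) :
    0 ≤ Matrix.trace (W * W * mxFun f D) := by
  have e : (fun x => Real.sqrt (f x) ^ 2) = f := funext fun x => Real.sq_sqrt (hf x)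
  rw [← e, ← fzea_mxSq_mul_fun hW]
  exact R260.mxSq_nonneg _

theorem fzeb_trace_mono {W : Mx n} (hW : W.IsSymm) {f g : ℝ → ℝ} (hfg : ∀ x, f x ≤ g x)
    (D : Mx n) :
    Matrix.trace (W * W * mxFun f D) ≤ Matrix.trace (W * W * mxFun g D) := by
  have h := fzeb_trace_nonneg hW (f := fun x => g x - f x) (fun x => sub_nonneg.2 (hfg x)) D
  rw [R260.mxFun_sub, Matrix.mul_sub, Matrix.trace_sub] at h
  linarith

theorem fzeb_T_integrable (hs : ∀ i, (H i).IsSymm) (M : Mx n) (b : ℝ) :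
    Integrable (fun N => Matrix.trace (M * fzE H b N)) (stdGaussian (EE n)) :=
  ((R260.MxBd.const M).mul_L2 (fz_E_L2 hs b)).integrable_trace

/-- `1_{x>Λ} x² e^{2ax} ≤ 2 e^{-Λ} e^{(2a+2)x}` -/
theorem fzeb_u_le {Λ : ℝ} (hΛ : 0 ≤ Λ) (a x : ℝ) :
    (if Λ < x then x ^ 2 * Real.exp (2 * a * x) else 0)
      ≤ 2 * Real.exp (-Λ) * Real.exp ((2 * a + 2) * x) := by
  split_ifs with hx
  · have hx0 : 0 ≤ x := hΛ.trans hx.le
    have h1 : x ^ 2 ≤ 2 * Real.exp x := by
      have := Real.quadratic_le_exp_of_nonneg hx0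
      linarith
    have h2 : 1 ≤ Real.exp (x - Λ) := Real.one_le_exp (by linarith)
    have e : 2 * Real.exp (-Λ) * Real.exp ((2 * a + 2) * x)
        = 2 * Real.exp x * Real.exp (x - Λ) * Real.exp (2 * a * x) := by
      rw [mul_assoc, mul_assoc, mul_assoc, ← Real.exp_add, ← Real.exp_add, ← Real.exp_add]
      congr 2
      ring
    rw [e]
    refine mul_le_mul_of_nonneg_right ?_ (Real.exp_pos _).le
    calc x ^ 2 ≤ 2 * Real.exp x := h1
      _ = 2 * Real.exp x * 1 := (mul_one _).symm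
      _ ≤ 2 * Real.exp x * Real.exp (x - Λ) :=
          mul_le_mul_of_nonneg_left h2 (by positivity)
  · positivity

/-- `1_{x>Λ} e^{4ax} ≤ e^{-Λ} e^{(4a+1)x}` -/
theorem fzeb_v_le (Λ a x : ℝ) :
    (if Λ < x then Real.exp (4 * a * x) else 0)
      ≤ Real.exp (-Λ) * Real.exp ((4 * a + 1) * x) := by
  split_ifs with hx
  · have h2 : 1 ≤ Real.exp (x - Λ) := Real.one_le_exp (by linarith)
    have e : Real.exp (-Λ) * Real.exp ((4 * a + 1) * x)
        = Real.exp (x - Λ) * Real.exp (4 * a * x) := by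
      rw [← Real.exp_add, ← Real.exp_add]
      congr 1
      ring
    rw [e]
    calc Real.exp (4 * a * x) = 1 * Real.exp (4 * a * x) := (one_mul _).symm
      _ ≤ Real.exp (x - Λ) * Real.exp (4 * a * x) :=
          mul_le_mul_of_nonneg_right h2 (Real.exp_pos _).le
  · positivity

/-- `x⁴ ≤ 24 (e^x + e^{-x})` -/
theorem fzeb_pow4_le (x : ℝ) : x ^ 4 ≤ 24 * (Real.exp (1 * x) + Real.exp (-1 * x)) := by
  have key : ∀ y : ℝ, 0 ≤ y → y ^ 4 ≤ 24 * Real.exp y := by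
    intro y hy
    have := Real.pow_div_factorial_le_exp y hy 4
    have e : ((4 : ℕ).factorial : ℝ) = 24 := by norm_num [Nat.factorial]
    rw [e, div_le_iff₀ (by norm_num)] at this
    linarith
  rw [one_mul, neg_one_mul]
  rcases le_total 0 x with hx | hx
  · have := key x hx
    have := Real.exp_pos (-x)
    linarith
  · have := key (-x) (by linarith)
    have h2 := Real.exp_pos x
    have e : (-x) ^ 4 = x ^ 4 := by ring
    rw [e] at this
    linarith

/-- `√A √B ≤ (δ A + B/δ)/2` -/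
theorem fzeb_amgm {A B δ : ℝ} (hA : 0 ≤ A) (hB : 0 ≤ B) (hδ : 0 < δ) :
    Real.sqrt A * Real.sqrt B ≤ (δ * A + B / δ) / 2 := by
  have h1 := Real.sq_sqrt hA
  have h2 := Real.sq_sqrt hB
  have h3 : 0 ≤ (δ * Real.sqrt A - Real.sqrt B) ^ 2 := sq_nonneg _
  rw [le_div_iff₀ (by norm_num : (0 : ℝ) < 2)]
  have h4 : δ * A + B / δ = (δ ^ 2 * A + B) / δ := by
    field_simp
  rw [h4, le_div_iff₀ hδ]
  nlinarith

/-- pointwise bound of the total first order defect by exponential traces -/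
theorem FzCol.fzeb_pt (h : FzCol H W) {a Λ δ : ℝ} (ha : 0 ≤ a) (hΛ : 0 ≤ Λ) (hδ : 0 < δ)
    (N : EE n) :
    ∑ i, mxSq (fzErr H a i N * W)
      ≤ a ^ 4 / 2 * (Real.exp (2 * a * Λ) * ∑ i, mxSq (cmm (colAt H N) (H i) * W)
        + 16 * Real.exp (-Λ) * Matrix.trace (W * W * fzE H (2 * a + 2) N)
        + 96 * δ * (Matrix.trace (W * W * fzE H 1 N) + Matrix.trace (W * W * fzE H (-1) N))
        + 4 / δ * Real.exp (-Λ) * Matrix.trace (W * W * fzE H (4 * a + 1) N)) := by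
  have hW : W.IsSymm := mk_isSymm_of_psd h.psd
  have ha4 : 0 ≤ a ^ 4 / 2 := by positivity
  -- the three traces
  have hu : Matrix.trace (W * W *
      mxFun (fun x => if Λ < x then x ^ 2 * Real.exp (2 * a * x) else 0) (colAt H N))
      ≤ 2 * Real.exp (-Λ) * Matrix.trace (W * W * fzE H (2 * a + 2) N) := by
    refine (fzeb_trace_mono hW (fzeb_u_le hΛ a) (colAt H N)).trans (le_of_eq ?_)
    rw [R260.mxFun_smul, Matrix.mul_smul, Matrix.trace_smul, smul_eq_mul]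
    rfl
  have hv : Matrix.trace (W * W *
      mxFun (fun x => if Λ < x then Real.exp (4 * a * x) else 0) (colAt H N))
      ≤ Real.exp (-Λ) * Matrix.trace (W * W * fzE H (4 * a + 1) N) := by
    refine (fzeb_trace_mono hW (fzeb_v_le Λ a) (colAt H N)).trans (le_of_eq ?_)
    rw [R260.mxFun_smul, Matrix.mul_smul, Matrix.trace_smul, smul_eq_mul]
    rfl
  have h4 : Matrix.trace (W * W * mxFun (fun x => x ^ 4) (colAt H N))
      ≤ 24 * (Matrix.trace (W * W * fzE H 1 N) + Matrix.trace (W * W * fzE H (-1) N)) := by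
    refine (fzeb_trace_mono hW fzeb_pow4_le (colAt H N)).trans (le_of_eq ?_)
    rw [R260.mxFun_smul, R260.mxFun_add, Matrix.mul_smul, Matrix.trace_smul, smul_eq_mul,
      Matrix.mul_add, Matrix.trace_add]
    rfl
  have hv0 : 0 ≤ Matrix.trace (W * W *
      mxFun (fun x => if Λ < x then Real.exp (4 * a * x) else 0) (colAt H N)) :=
    fzeb_trace_nonneg hW (fun x => by split_ifs <;> positivity) _
  have h40 : 0 ≤ Matrix.trace (W * W * mxFun (fun x => x ^ 4) (colAt H N)) :=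
    fzeb_trace_nonneg hW (fun x => by positivity) _
  have hag := fzeb_amgm h40 hv0 hδ
  have hdv : Matrix.trace (W * W *
      mxFun (fun x => if Λ < x then Real.exp (4 * a * x) else 0) (colAt H N)) / δ
      ≤ Real.exp (-Λ) * Matrix.trace (W * W * fzE H (4 * a + 1) N) / δ :=
    div_le_div_of_nonneg_right hv hδ.le
  have hd4 := mul_le_mul_of_nonneg_left h4 hδ.le
  calc ∑ i, mxSq (fzErr H a i N * W)
      ≤ ∑ i, a ^ 4 / 2 * mxSq (cmm (colAt H N) (H i) * W * fzE H a N) :=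
        Finset.sum_le_sum fun i _ => h.err_pt ha i N
    _ = a ^ 4 / 2 * ∑ i, mxSq (cmm (colAt H N) (H i) * W * fzE H a N) :=
        (Finset.mul_sum _ _ _).symm
    _ ≤ _ := by
        refine mul_le_mul_of_nonneg_left ((h.err_trunc (Λ := Λ) ha N).trans ?_) ha4
        have e : 4 / δ * Real.exp (-Λ) * Matrix.trace (W * W * fzE H (4 * a + 1) N)
            = 4 * (Real.exp (-Λ) * Matrix.trace (W * W * fzE H (4 * a + 1) N) / δ) := by ring
        rw [e, mul_assoc 8 (Real.sqrt _) (Real.sqrt _)]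
        linarith

/-- L-exp-errB -/
theorem FzCol.comm_mean (h : FzCol H W) :
    ∫ N, ∑ i, mxSq (cmm (colAt H N) (H i) * W) ∂(stdGaussian (EE n)) = fzC H W := by
  rw [integral_finsetSum _ fun i _ => fzeb_cmm_integrable H W i]
  simp only [fzeb_cmm_lin, fz_lin_sq]
  rw [fzC, Finset.sum_comm]

/-- integrated bound -/
theorem FzCol.fzeb_int (h : FzCol H W) {a Λ δ : ℝ} (ha : 0 ≤ a) (hΛ : 0 ≤ Λ) (hδ : 0 < δ) :
    fzEps H W a
      ≤ a ^ 4 / 2 * (Real.exp (2 * a * Λ) * fzC H W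
        + 16 * Real.exp (-Λ) * fzPhi H W (2 * a + 2)
        + 96 * δ * (fzPhi H W 1 + fzPhi H W (-1))
        + 4 / δ * Real.exp (-Λ) * fzPhi H W (4 * a + 1)) := by
  have hT := fun b => fzeb_T_integrable (H := H) h.symm (W * W) b
  have hc : Integrable (fun N : EE n => ∑ i, mxSq (cmm (colAt H N) (H i) * W))
      (stdGaussian (EE n)) := integrable_finsetSum _ fun i _ => fzeb_cmm_integrable H W i
  have hE : ∀ i, Integrable (fun N => mxSq (fzErr H a i N * W)) (stdGaussian (EE n)) := fun i =>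
    ((fz_Err_L2 h.symm a i).mul_Bd (R260.MxBd.const W)).integrable_mxSq
  have i1 := hc.const_mul (Real.exp (2 * a * Λ))
  have i2 := (hT (2 * a + 2)).const_mul (16 * Real.exp (-Λ))
  have i3 := ((hT 1).add (hT (-1))).const_mul (96 * δ)
  have i4 := (hT (4 * a + 1)).const_mul (4 / δ * Real.exp (-Λ))
  have iall := (((i1.add i2).add i3).add i4).const_mul (a ^ 4 / 2)
  rw [fzEps, ← integral_finsetSum _ fun i _ => hE i]
  refine (integral_mono (integrable_finsetSum _ fun i _ => hE i) iall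
    (fun N => h.fzeb_pt ha hΛ hδ N)).trans (le_of_eq ?_)
  rw [integral_const_mul]
  congr 1
  have e1 := integral_add ((i1.add i2).add i3) i4
  have e2 := integral_add (i1.add i2) i3
  have e3 := integral_add i1 i2
  have e4 := integral_add (hT 1) (hT (-1))
  simp only [Pi.add_apply] at e1 e2 e3 e4 ⊢
  rw [e1, e2, e3, integral_const_mul, integral_const_mul, integral_const_mul, integral_const_mul,
    e4, h.comm_mean]
  rfl

theorem fzeb_fzC_nonneg (H : Fin n → Mx n) (W : Mx n) : 0 ≤ fzC H W :=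
  Finset.sum_nonneg fun _ _ => Finset.sum_nonneg fun _ _ => R260.mxSq_nonneg _

/-- L-exp-errB: the first order defect is small, uniformly for `a ∈ [0,θ]` -/
theorem fz_err {θ : ℝ} (hθ : 0 ≤ θ) : ∀ η : ℝ, 0 < η → ∃ C : ℝ, 0 ≤ C ∧
    ∀ (n : ℕ) (H : Fin n → Mx n) (W : Mx n), FzCol H W → ∀ a ∈ Set.Icc 0 θ,
      fzEps H W a ≤ η * mxSq W + C * fzC H W := by
  intro η hη
  obtain ⟨E1, hE1⟩ : ∃ E1 : ℝ, E1 = Real.exp (2 * (2 * θ + 2) ^ 2) := ⟨_, rfl⟩
  obtain ⟨E4, hE4⟩ : ∃ E4 : ℝ, E4 = Real.exp (2 * (4 * θ + 1) ^ 2) := ⟨_, rfl⟩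
  have hE1p : 0 < E1 := hE1 ▸ Real.exp_pos _
  have hE4p : 0 < E4 := hE4 ▸ Real.exp_pos _
  have he2 : 0 < Real.exp 2 := Real.exp_pos _
  obtain ⟨M0, hM0⟩ : ∃ M0 : ℝ, M0 = 16 * E1 + 192 * Real.exp 2 + 4 * E4 := ⟨_, rfl⟩
  have hM0p : 0 < M0 := by rw [hM0]; positivity
  obtain ⟨M, hM⟩ : ∃ M : ℝ, M = θ ^ 4 / 2 * M0 := ⟨_, rfl⟩
  have hMnn : 0 ≤ M := by rw [hM]; positivity
  obtain ⟨Λ, hΛdef⟩ : ∃ Λ : ℝ, Λ = 2 * (M / η) := ⟨_, rfl⟩
  have hΛ : 0 ≤ Λ := by rw [hΛdef]; positivity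
  obtain ⟨s, hs⟩ : ∃ s : ℝ, s = Real.exp (-(Λ / 2)) := ⟨_, rfl⟩
  have hs0 : 0 < s := hs ▸ Real.exp_pos _
  have hs1 : s ≤ 1 := by
    rw [hs]
    exact Real.exp_le_one_iff.2 (by linarith)
  have hss : Real.exp (-Λ) = s * s := by
    rw [hs, ← Real.exp_add]
    congr 1
    ring
  have hMs : M * s ≤ η := by
    have ht : Λ / 2 = M / η := by rw [hΛdef]; ring
    have h1 : M / η + 1 ≤ Real.exp (M / η) := Real.add_one_le_exp _
    rw [hs, ht, Real.exp_neg, ← div_eq_mul_inv, div_le_iff₀ (Real.exp_pos _)]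
    have h2 : M = η * (M / η) := by field_simp
    calc M = η * (M / η) := h2
      _ ≤ η * Real.exp (M / η) := mul_le_mul_of_nonneg_left (by linarith) hη.le
  refine ⟨θ ^ 4 / 2 * Real.exp (2 * θ * Λ), by positivity, ?_⟩
  intro n H W h a ha
  obtain ⟨ha0, ha1⟩ := ha
  have hb := h.fzeb_int (Λ := Λ) (δ := s) ha0 hΛ hs0
  have hW0 : 0 ≤ mxSq W := R260.mxSq_nonneg _
  have hC0 : 0 ≤ fzC H W := fzeb_fzC_nonneg H W
  have p1 : fzPhi H W (2 * a + 2) ≤ E1 * mxSq W := by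
    refine (h.phi_le _).trans (mul_le_mul_of_nonneg_right ?_ hW0)
    rw [hE1]
    refine Real.exp_le_exp.2 ?_
    have : (2 * a + 2) ^ 2 ≤ (2 * θ + 2) ^ 2 := pow_le_pow_left₀ (by linarith) (by linarith) 2
    linarith
  have p2 : fzPhi H W 1 ≤ Real.exp 2 * mxSq W := by
    have := h.phi_le 1
    simpa using this
  have p3 : fzPhi H W (-1) ≤ Real.exp 2 * mxSq W := by
    have := h.phi_le (-1)
    simpa using this
  have p4 : fzPhi H W (4 * a + 1) ≤ E4 * mxSq W := by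
    refine (h.phi_le _).trans (mul_le_mul_of_nonneg_right ?_ hW0)
    rw [hE4]
    refine Real.exp_le_exp.2 ?_
    have : (4 * a + 1) ^ 2 ≤ (4 * θ + 1) ^ 2 := pow_le_pow_left₀ (by linarith) (by linarith) 2
    linarith
  have q1 : 16 * Real.exp (-Λ) * fzPhi H W (2 * a + 2) ≤ s * (16 * E1 * mxSq W) := by
    rw [hss]
    have h1 : s * s ≤ s := by nlinarith
    have h2 : 0 ≤ E1 * mxSq W := by positivity
    calc 16 * (s * s) * fzPhi H W (2 * a + 2) ≤ 16 * (s * s) * (E1 * mxSq W) :=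
          mul_le_mul_of_nonneg_left p1 (by positivity)
      _ ≤ 16 * s * (E1 * mxSq W) :=
          mul_le_mul_of_nonneg_right (by linarith) h2
      _ = s * (16 * E1 * mxSq W) := by ring
  have q2 : 96 * s * (fzPhi H W 1 + fzPhi H W (-1)) ≤ s * (192 * Real.exp 2 * mxSq W) := by
    calc 96 * s * (fzPhi H W 1 + fzPhi H W (-1))
        ≤ 96 * s * (Real.exp 2 * mxSq W + Real.exp 2 * mxSq W) :=
          mul_le_mul_of_nonneg_left (add_le_add p2 p3) (by positivity)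
      _ = s * (192 * Real.exp 2 * mxSq W) := by ring
  have q3 : 4 / s * Real.exp (-Λ) * fzPhi H W (4 * a + 1) ≤ s * (4 * E4 * mxSq W) := by
    have e : 4 / s * Real.exp (-Λ) = 4 * s := by
      rw [hss]
      field_simp
    rw [e]
    calc 4 * s * fzPhi H W (4 * a + 1) ≤ 4 * s * (E4 * mxSq W) :=
          mul_le_mul_of_nonneg_left p4 (by positivity)
      _ = s * (4 * E4 * mxSq W) := by ring
  have q0 : Real.exp (2 * a * Λ) * fzC H W ≤ Real.exp (2 * θ * Λ) * fzC H W := by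
    refine mul_le_mul_of_nonneg_right (Real.exp_le_exp.2 ?_) hC0
    exact mul_le_mul_of_nonneg_right (by linarith) hΛ
  have ha4 : a ^ 4 / 2 ≤ θ ^ 4 / 2 := by
    have := pow_le_pow_left₀ ha0 ha1 4
    linarith
  have hinner : 0 ≤ Real.exp (2 * θ * Λ) * fzC H W + s * (M0 * mxSq W) := by positivity
  calc fzEps H W a
      ≤ a ^ 4 / 2 * (Real.exp (2 * a * Λ) * fzC H W
        + 16 * Real.exp (-Λ) * fzPhi H W (2 * a + 2)
        + 96 * s * (fzPhi H W 1 + fzPhi H W (-1))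
        + 4 / s * Real.exp (-Λ) * fzPhi H W (4 * a + 1)) := hb
    _ ≤ a ^ 4 / 2 * (Real.exp (2 * θ * Λ) * fzC H W + s * (M0 * mxSq W)) := by
        refine mul_le_mul_of_nonneg_left ?_ (by positivity)
        rw [hM0]
        linarith
    _ ≤ θ ^ 4 / 2 * (Real.exp (2 * θ * Λ) * fzC H W + s * (M0 * mxSq W)) :=
        mul_le_mul_of_nonneg_right ha4 hinner
    _ = M * s * mxSq W + θ ^ 4 / 2 * Real.exp (2 * θ * Λ) * fzC H W := by
        rw [hM]
        ring
    _ ≤ η * mxSq W + θ ^ 4 / 2 * Real.exp (2 * θ * Λ) * fzC H W := by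
        have := mul_le_mul_of_nonneg_right hMs hW0
        linarith

end Claimed.Agent.R259
end

/- ===== packed: Claimed.Agent.R259.S6ExpP ===== -/
section
/-
Row 259 (S0499), package EXP: the three quadratic quantities `‖M‖²`, `‖W_m‖²`, `⟨W_m, M⟩`.
EXPORT FILE of leaves L-exp-P1, L-exp-P2, L-exp-P3 (statements: helper88).
Notation: `θ = √(2t)`, `T = mxSq W`, `s = fzS H W`, `c = fzC H W`, `p_m = fzP t m`.  Everywhere `√(sT) ≤ ηT + s/(4η)`.

P1.  `M = e^{-θ²} e^{θD}` (`fz_M_eq`), `‖M W‖² = e^{-2θ²} tr(W² e^{2θD})` (`FzCol.E_sq`), so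
`E‖MW‖² = e^{-2θ²} φ(2θ) ≤ T + e^{16θ²} √(sT)` (`FzCol.phi_up` with `a = 2θ`).
P2.  Entrywise `hm_upper`: `E‖W_m W‖² ≤ e^{-2t} ∑_j θ^{2j}/j! ∑_β ‖H_β W‖²`, then `FzCol.hpr_sq_near`.
P3.  `E⟨W_m W, M W⟩ = e^{-3t} ∑_j θ^j/j! ∑_β ⟨H_β W, c_{j,β} W⟩`, `c_j = fzCh (fzE H θ) j`.  Write
`c_{j,β} = θ^j H_β m + r_{j,β}` (`FzCol.chaos`, `E² = η₁T + C₁c` from `fz_err`):
`∑_β ⟨H_β W, H_β m W⟩ = tr(Wᵀ S_j m W) = φ(θ) + ⟨(S_j-1)W, mW⟩`, `‖mW‖² ≤ E‖e^{θD}W‖² = φ(2θ) ≤ e^{8θ²}T`,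
`‖(S_j-1)W‖ ≤ 4^j √s` (`FzCol.Sj_sub_one`), `|∑_β ⟨H_β W, r_{j,β} W⟩| ≤ 2^j √T ρ_j` (`FzCol.hpr_sq`), and
`φ(θ) ≥ e^{θ²/2}(T - e^{4θ²}√(sT) - 2θ√T E)` (`FzCol.phi_lo`); `e^{-3t} e^{θ²/2} = e^{-2t}`.
-/
set_option autoImplicit false

open MeasureTheory ProbabilityTheory
open scoped BigOperators Matrix
open Claimed.Agent.R260 (Mx mxFun mxSchur mxSq mxIP mxEig mxU mxRot mxDK MxGH1 MxL2)

namespace Claimed.Agent.R259

variable {n : ℕ}

/-! ### Tools -/

/-- arithmetic-geometric mean inequality in the form used everywhere -/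
theorem fzp_amgm {K η s T : ℝ} (hη : 0 < η) (hs : 0 ≤ s) (hT : 0 ≤ T) :
    K * Real.sqrt (s * T) ≤ η * T + K ^ 2 / (4 * η) * s := by
  rw [Real.sqrt_mul hs]
  have hx : Real.sqrt T ^ 2 = T := Real.sq_sqrt hT
  have hy : Real.sqrt s ^ 2 = s := Real.sq_sqrt hs
  set x := Real.sqrt T
  set y := Real.sqrt s
  rw [← hx, ← hy]
  have h0 : 0 ≤ (2 * η * x - K * y) ^ 2 / (4 * η) := by positivity
  have e : (2 * η * x - K * y) ^ 2 / (4 * η) = η * x ^ 2 + K ^ 2 / (4 * η) * y ^ 2 - K * (y * x) := by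
    field_simp
    ring
  linarith

theorem fzp_S_nonneg (H : Fin n → Mx n) (W : Mx n) : 0 ≤ fzS H W := R260.mxSq_nonneg _

theorem fzp_C_nonneg (H : Fin n → Mx n) (W : Mx n) : 0 ≤ fzC H W :=
  Finset.sum_nonneg fun _ _ => Finset.sum_nonneg fun _ _ => R260.mxSq_nonneg _

theorem fzp_int {F : EE n → Mx n} (hF : MxL2 (stdGaussian (EE n)) F) (j : ℕ) (β : Idx n j)
    (a b : Fin n) : Integrable (fun N => hm j N β * F N a b) (stdGaussian (EE n)) :=
  R260.gk_integrable_mul (hm_memLp j β 2) (hF a b)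

theorem fzp_L2_mul {F : EE n → Mx n} (hF : MxL2 (stdGaussian (EE n)) F) (W : Mx n) :
    MxL2 (stdGaussian (EE n)) (fun N => F N * W) := hF.mul_Bd (R260.MxBd.const W)

/-- chaos coefficients commute with right multiplication -/
theorem fzp_ch_mul {F : EE n → Mx n} (hF : MxL2 (stdGaussian (EE n)) F) (W : Mx n) (j : ℕ)
    (β : Idx n j) : fzCh (fun N => F N * W) j β = fzCh F j β * W := by
  ext a b
  simp only [fzCh, Matrix.of_apply, Matrix.mul_apply]
  have e : ∀ N : EE n, hm j N β * ∑ k, F N a k * W k b = ∑ k, (hm j N β * F N a k) * W k b := by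
    intro N
    rw [Finset.mul_sum]
    exact Finset.sum_congr rfl fun k _ => by ring
  simp only [e]
  rw [integral_finsetSum _ (fun k _ => (fzp_int hF j β a k).mul_const _)]
  exact Finset.sum_congr rfl fun k _ => integral_mul_const _ _

theorem fzp_ch_smul (c : ℝ) (F : EE n → Mx n) (j : ℕ) (β : Idx n j) :
    fzCh (fun N => c • F N) j β = c • fzCh F j β := by
  ext a b
  simp only [fzCh, Matrix.of_apply, Matrix.smul_apply, smul_eq_mul]
  rw [← integral_const_mul]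
  exact integral_congr_ae (Filter.Eventually.of_forall fun N => by ring)

/-- pairing of a constant matrix with a chaos coefficient -/
theorem fzp_ip_ch (B : Mx n) {G : EE n → Mx n} (hG : MxL2 (stdGaussian (EE n)) G) (j : ℕ)
    (β : Idx n j) :
    mxIP B (fzCh G j β) = ∫ N, hm j N β * mxIP B (G N) ∂(stdGaussian (EE n)) := by
  have hint : ∀ a b : Fin n, Integrable (fun N => hm j N β * (B a b * G N a b)) (stdGaussian (EE n)) :=
    fun a b => ((fzp_int hG j β a b).const_mul (B a b)).congr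
      (Filter.Eventually.of_forall fun N => by ring)
  simp only [R260.mxIP_eq_sum, fzCh, Matrix.of_apply, Finset.mul_sum]
  rw [integral_finsetSum _ (fun a _ => integrable_finsetSum _ fun b _ => hint a b)]
  refine Finset.sum_congr rfl fun a _ => ?_
  rw [integral_finsetSum _ (fun b _ => hint a b)]
  refine Finset.sum_congr rfl fun b _ => ?_
  rw [← integral_const_mul]
  exact integral_congr_ae (Filter.Eventually.of_forall fun N => by ring)

theorem fzp_ip_ch_int (B : Mx n) {G : EE n → Mx n} (hG : MxL2 (stdGaussian (EE n)) G) (j : ℕ)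
    (β : Idx n j) : Integrable (fun N => hm j N β * mxIP B (G N)) (stdGaussian (EE n)) := by
  simp only [R260.mxIP_eq_sum, Finset.mul_sum]
  refine integrable_finsetSum _ fun a _ => integrable_finsetSum _ fun b _ => ?_
  exact ((fzp_int hG j β a b).const_mul (B a b)).congr
    (Filter.Eventually.of_forall fun N => by ring)

theorem fzp_mxIP_sum_left {ι : Type} (s : Finset ι) (A : ι → Mx n) (B : Mx n) :
    mxIP (∑ i ∈ s, A i) B = ∑ i ∈ s, mxIP (A i) B := by
  simp only [mxIP_eq_hsI, hsI_sum_left]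

theorem fzp_mxIP_smul_left (c : ℝ) (A B : Mx n) : mxIP (c • A) B = c * mxIP A B := by
  simp only [mxIP_eq_hsI, hsI_smul_left]

theorem fzp_mxIP_smul_right (c : ℝ) (A B : Mx n) : mxIP A (c • B) = c * mxIP A B := by
  rw [mxIP_eq_hsI, hsI_comm, hsI_smul_left, hsI_comm, ← mxIP_eq_hsI]

theorem fzp_mxIP_add_right (A B C : Mx n) : mxIP A (B + C) = mxIP A B + mxIP A C := by
  rw [mxIP_eq_hsI, hsI_comm, hsI_add_left, hsI_comm B, hsI_comm C, ← mxIP_eq_hsI, ← mxIP_eq_hsI]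

theorem fzp_abs_mxIP_le (A B : Mx n) :
    |mxIP A B| ≤ Real.sqrt (mxSq A) * Real.sqrt (mxSq B) := by
  rw [mxIP_eq_hsI, mxSq_eq_hs2, mxSq_eq_hs2]
  exact abs_hsI_le A B

/-- Cauchy-Schwarz for families of matrices -/
theorem fzp_cs {ι : Type} [Fintype ι] (A B : ι → Mx n) :
    |∑ i, mxIP (A i) (B i)| ≤ Real.sqrt (∑ i, mxSq (A i)) * Real.sqrt (∑ i, mxSq (B i)) := by
  calc |∑ i, mxIP (A i) (B i)| ≤ ∑ i, |mxIP (A i) (B i)| := Finset.abs_sum_le_sum_abs _ _
    _ ≤ ∑ i, Real.sqrt (mxSq (A i)) * Real.sqrt (mxSq (B i)) :=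
        Finset.sum_le_sum fun i _ => fzp_abs_mxIP_le _ _
    _ ≤ _ := Real.sum_sqrt_mul_sqrt_le _ (fun i => R260.mxSq_nonneg _) (fun i => R260.mxSq_nonneg _)

/-- upper isometry bound for matrix coefficients -/
theorem fzp_upper (m : ℕ) (A : (j : ℕ) → Idx n j → Mx n) :
    ∫ N, mxSq (∑ j ∈ Finset.range (m + 1), ∑ β, hm j N β • A j β) ∂(stdGaussian (EE n))
      ≤ ∑ j ∈ Finset.range (m + 1), (j.factorial : ℝ) * ∑ β, mxSq (A j β) := by
  have hL2 : MxL2 (stdGaussian (EE n))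
      (fun N => ∑ j ∈ Finset.range (m + 1), ∑ β, hm j N β • A j β) :=
    MxL2.sum _ fun j _ => MxL2.sum _ fun β _ => MxL2.smul_const (hm_memLp j β 2) _
  simp only [R260.mxSq_eq_sum]
  rw [integral_finsetSum _ (fun a _ => integrable_finsetSum _ fun b _ => (hL2 a b).integrable_sq)]
  have h1 : ∀ a b : Fin n,
      ∫ N, ((∑ j ∈ Finset.range (m + 1), ∑ β, hm j N β • A j β) a b) ^ 2 ∂(stdGaussian (EE n))
        ≤ ∑ j ∈ Finset.range (m + 1), (j.factorial : ℝ) * ∑ β, A j β a b ^ 2 := by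
    intro a b
    have := hm_upper (n := n) m (fun j β => A j β a b)
    refine le_trans (le_of_eq ?_) this
    refine integral_congr_ae (Filter.Eventually.of_forall fun N => ?_)
    simp only [Matrix.sum_apply, Matrix.smul_apply, smul_eq_mul]
    congr 1
    exact Finset.sum_congr rfl fun j _ => Finset.sum_congr rfl fun β _ => mul_comm _ _
  calc ∑ a, ∫ N, ∑ b, ((∑ j ∈ Finset.range (m + 1), ∑ β, hm j N β • A j β) a b) ^ 2
          ∂(stdGaussian (EE n))
      = ∑ a, ∑ b, ∫ N, ((∑ j ∈ Finset.range (m + 1), ∑ β, hm j N β • A j β) a b) ^ 2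
          ∂(stdGaussian (EE n)) :=
        Finset.sum_congr rfl fun a _ => integral_finsetSum _ fun b _ => (hL2 a b).integrable_sq
    _ ≤ ∑ a, ∑ b, ∑ j ∈ Finset.range (m + 1), (j.factorial : ℝ) * ∑ β, A j β a b ^ 2 :=
        Finset.sum_le_sum fun a _ => Finset.sum_le_sum fun b _ => h1 a b
    _ = ∑ j ∈ Finset.range (m + 1), (j.factorial : ℝ) * ∑ β, ∑ a, ∑ b, A j β a b ^ 2 := by
        have e1 : ∀ a : Fin n, ∑ b, ∑ j ∈ Finset.range (m + 1), (j.factorial : ℝ) * ∑ β, A j β a b ^ 2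
            = ∑ j ∈ Finset.range (m + 1), (j.factorial : ℝ) * ∑ β, ∑ b, A j β a b ^ 2 := by
          intro a
          rw [Finset.sum_comm]
          refine Finset.sum_congr rfl fun j _ => ?_
          rw [← Finset.mul_sum, Finset.sum_comm]
        simp only [e1]
        rw [Finset.sum_comm]
        refine Finset.sum_congr rfl fun j _ => ?_
        rw [← Finset.mul_sum, Finset.sum_comm]

/-- expansion of the pairing with a Hermite polynomial field -/
theorem fzp_expand (m : ℕ) (A : (j : ℕ) → Idx n j → Mx n) {G : EE n → Mx n}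
    (hG : MxL2 (stdGaussian (EE n)) G) :
    ∫ N, mxIP (∑ j ∈ Finset.range (m + 1), ∑ β, hm j N β • A j β) (G N) ∂(stdGaussian (EE n))
      = ∑ j ∈ Finset.range (m + 1), ∑ β, mxIP (A j β) (fzCh G j β) := by
  simp only [fzp_mxIP_sum_left, fzp_mxIP_smul_left]
  rw [integral_finsetSum _ (fun j _ => integrable_finsetSum _ fun β _ => fzp_ip_ch_int _ hG j β)]
  refine Finset.sum_congr rfl fun j _ => ?_
  rw [integral_finsetSum _ (fun β _ => fzp_ip_ch_int _ hG j β)]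
  exact Finset.sum_congr rfl fun β _ => (fzp_ip_ch _ hG j β).symm

/-- `W_m W` as a Hermite polynomial field -/
theorem fzp_W_mul (H : Fin n → Mx n) (W : Mx n) (t : ℝ) (m : ℕ) (N : EE n) :
    fzW H t m N * W = ∑ j ∈ Finset.range (m + 1), ∑ β, hm j N β •
      ((Real.exp (-t) * (Real.sqrt (2 * t) ^ j / (j.factorial : ℝ))) • (hpr H j β * W)) := by
  unfold fzW fzG
  rw [Matrix.smul_mul, Finset.sum_mul, Finset.smul_sum]
  refine Finset.sum_congr rfl fun j _ => ?_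
  rw [Matrix.smul_mul, Finset.sum_mul, Finset.smul_sum, Finset.smul_sum]
  refine Finset.sum_congr rfl fun β _ => ?_
  rw [Matrix.smul_mul, smul_smul, smul_smul, smul_smul]
  congr 1
  ring

theorem fzp_sq_theta {t : ℝ} (ht : 0 ≤ t) : Real.sqrt (2 * t) ^ 2 = 2 * t :=
  Real.sq_sqrt (by positivity)

theorem fzp_mxSq_smul (c : ℝ) (A : Mx n) : mxSq (c • A) = c ^ 2 * mxSq A := by
  rw [mxSq_eq_hs2, mxSq_eq_hs2, hs2_smul]

/-- `E‖e^{aD} W‖² = φ(2a)` -/
theorem FzCol.int_E_sq {H : Fin n → Mx n} {W : Mx n} (h : FzCol H W) (a : ℝ) :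
    ∫ N, mxSq (fzE H a N * W) ∂(stdGaussian (EE n)) = fzPhi H W (2 * a) := by
  unfold fzPhi
  exact integral_congr_ae (Filter.Eventually.of_forall fun N => h.E_sq a N)

/-! ### P1 -/

/-- L-exp-P1 -/
theorem fz_normM {t : ℝ} (ht : 0 ≤ t) : ∀ η : ℝ, 0 < η → ∃ C : ℝ, 0 ≤ C ∧
    ∀ (n : ℕ) (H : Fin n → Mx n) (W : Mx n), FzCol H W →
      ∫ N, mxSq (fzM H t N * W) ∂(stdGaussian (EE n)) ≤ (1 + η) * mxSq W + C * fzS H W := by
  intro η hη
  refine ⟨Real.exp (32 * t) ^ 2 / (4 * η), by positivity, fun n H W h => ?_⟩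
  have hθ2 : Real.sqrt (2 * t) ^ 2 = 2 * t := fzp_sq_theta ht
  set θ := Real.sqrt (2 * t) with hθ
  have hθ0 : 0 ≤ θ := Real.sqrt_nonneg _
  have e1 : ∀ N, mxSq (fzM H t N * W) = Real.exp (-(2 * t)) ^ 2 * mxSq (fzE H θ N * W) := by
    intro N
    rw [fz_M_eq, Matrix.smul_mul, fzp_mxSq_smul]
  simp only [e1]
  rw [integral_const_mul, h.int_E_sq]
  have h1 := h.phi_up (a := 2 * θ) (by positivity)
  have e2 : (2 * θ) ^ 2 / 2 = 4 * t := by rw [mul_pow, hθ2]; ring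
  have e3 : 4 * (2 * θ) ^ 2 = 32 * t := by rw [mul_pow, hθ2]; ring
  rw [e2, e3] at h1
  have e4 : Real.exp (-(2 * t)) ^ 2 * Real.exp (4 * t) = 1 := by
    rw [← Real.exp_nat_mul, ← Real.exp_add]
    norm_num
    ring
  have h2 := fzp_amgm (K := Real.exp (32 * t)) hη (fzp_S_nonneg H W) (R260.mxSq_nonneg W)
  calc Real.exp (-(2 * t)) ^ 2 * fzPhi H W (2 * θ)
      ≤ Real.exp (-(2 * t)) ^ 2 * (Real.exp (4 * t) *
          (mxSq W + Real.exp (32 * t) * Real.sqrt (fzS H W * mxSq W))) :=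
        mul_le_mul_of_nonneg_left h1 (by positivity)
    _ = mxSq W + Real.exp (32 * t) * Real.sqrt (fzS H W * mxSq W) := by
        rw [← mul_assoc, e4, one_mul]
    _ ≤ _ := by linarith

/-! ### P2 -/

/-- L-exp-P2 -/
theorem fz_normW {t : ℝ} (ht : 0 ≤ t) (m : ℕ) : ∀ η : ℝ, 0 < η → ∃ C : ℝ, 0 ≤ C ∧
    ∀ (n : ℕ) (H : Fin n → Mx n) (W : Mx n), FzCol H W →
      ∫ N, mxSq (fzW H t m N * W) ∂(stdGaussian (EE n))
        ≤ (fzP t m + η) * mxSq W + C * fzS H W := by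
  intro η hη
  obtain ⟨K, hK⟩ : ∃ K : ℝ, K = ∑ j ∈ Finset.range (m + 1),
    Real.exp (-(2 * t)) * ((2 * t) ^ j / (j.factorial : ℝ)) * ∑ i ∈ Finset.range j, (4 : ℝ) ^ i :=
    ⟨_, rfl⟩
  refine ⟨K ^ 2 / (4 * η), by positivity, fun n H W h => ?_⟩
  have hθ2 : Real.sqrt (2 * t) ^ 2 = 2 * t := fzp_sq_theta ht
  set θ := Real.sqrt (2 * t) with hθ
  simp only [fzp_W_mul]
  refine (fzp_upper m _).trans ?_
  have h2 := fzp_amgm (K := K) hη (fzp_S_nonneg H W) (R260.mxSq_nonneg W)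
  have h3 : ∀ j ∈ Finset.range (m + 1), (j.factorial : ℝ) * ∑ β : Idx n j,
      mxSq ((Real.exp (-t) * (θ ^ j / (j.factorial : ℝ))) • (hpr H j β * W))
      ≤ Real.exp (-(2 * t)) * ((2 * t) ^ j / (j.factorial : ℝ)) * mxSq W
        + Real.exp (-(2 * t)) * ((2 * t) ^ j / (j.factorial : ℝ)) * (∑ i ∈ Finset.range j, (4 : ℝ) ^ i)
          * Real.sqrt (fzS H W * mxSq W) := by
    intro j _
    simp only [fzp_mxSq_smul]
    rw [← Finset.mul_sum]
    have h4 := (abs_le.1 (h.hpr_sq_near j)).2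
    have hf : (0 : ℝ) < (j.factorial : ℝ) := by exact_mod_cast j.factorial_pos
    have e5 : (j.factorial : ℝ) * ((Real.exp (-t) * (θ ^ j / (j.factorial : ℝ))) ^ 2)
        = Real.exp (-(2 * t)) * ((2 * t) ^ j / (j.factorial : ℝ)) := by
      have e6 : Real.exp (-t) ^ 2 = Real.exp (-(2 * t)) := by
        rw [← Real.exp_nat_mul]
        congr 1
        push_cast
        ring
      have e7 : (θ ^ j) ^ 2 = (2 * t) ^ j := by rw [← pow_mul, mul_comm, pow_mul, hθ2]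
      rw [mul_pow, div_pow, e6, e7]
      field_simp
    rw [← mul_assoc, e5]
    have hq : 0 ≤ Real.exp (-(2 * t)) * ((2 * t) ^ j / (j.factorial : ℝ)) := by positivity
    calc Real.exp (-(2 * t)) * ((2 * t) ^ j / (j.factorial : ℝ)) * ∑ β : Idx n j, mxSq (hpr H j β * W)
        ≤ Real.exp (-(2 * t)) * ((2 * t) ^ j / (j.factorial : ℝ)) *
            (mxSq W + (∑ i ∈ Finset.range j, (4 : ℝ) ^ i) * Real.sqrt (fzS H W * mxSq W)) :=
          mul_le_mul_of_nonneg_left (by linarith) hq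
      _ = _ := by ring
  refine (Finset.sum_le_sum h3).trans ?_
  rw [Finset.sum_add_distrib, ← Finset.sum_mul, ← Finset.sum_mul, ← hK, ← Finset.mul_sum]
  have e8 : Real.exp (-(2 * t)) * ∑ j ∈ Finset.range (m + 1), (2 * t) ^ j / (j.factorial : ℝ)
      = fzP t m := rfl
  rw [e8]
  linarith

/-! ### P3 -/

theorem fzSj_transpose (H : Fin n → Mx n) (j : ℕ) : (fzSj H j)ᵀ = fzSj H j := by
  unfold fzSj
  rw [Matrix.transpose_sum]
  exact Finset.sum_congr rfl fun β _ => by rw [Matrix.transpose_mul, Matrix.transpose_transpose]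

theorem fzp_sum_hpr (H : Fin n → Mx n) (W X : Mx n) (j : ℕ) :
    ∑ β : Idx n j, mxIP (hpr H j β * W) (hpr H j β * X) = mxIP (fzSj H j * W) X := by
  unfold mxIP
  rw [Matrix.transpose_mul, fzSj_transpose, fzSj, Matrix.mul_sum, Matrix.sum_mul, Matrix.trace_sum]
  refine Finset.sum_congr rfl fun β _ => ?_
  rw [Matrix.transpose_mul]
  simp only [Matrix.mul_assoc]

section cross

variable {H : Fin n → Mx n} {W : Mx n}

theorem FzCol.W_transpose (h : FzCol H W) : Wᵀ = W := by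
  have := h.psd.isHermitian
  rw [Matrix.IsHermitian, Matrix.conjTranspose_eq_transpose_of_trivial] at this
  exact this

theorem FzCol.ip_mean (h : FzCol H W) (θ : ℝ) :
    mxIP W (fzCh (fzE H θ) 0 (fun r => r.elim0) * W) = fzPhi H W θ := by
  rw [← fzp_ch_mul (fz_E_L2 h.symm θ), fzp_ip_ch _ (fzp_L2_mul (fz_E_L2 h.symm θ) W)]
  unfold fzPhi
  refine integral_congr_ae (Filter.Eventually.of_forall fun N => ?_)
  simp only []
  rw [hm_zero_apply, one_mul, mxIP, h.W_transpose, ← Matrix.mul_assoc, Matrix.trace_mul_comm,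
    ← Matrix.mul_assoc]

theorem FzCol.mean_sq (h : FzCol H W) (θ : ℝ) :
    mxSq (fzCh (fzE H θ) 0 (fun r => r.elim0) * W) ≤ fzPhi H W (2 * θ) := by
  rw [← fzp_ch_mul (fz_E_L2 h.symm θ), ← h.int_E_sq]
  have h1 := fz_bessel 0 (fzp_L2_mul (fz_E_L2 h.symm θ) W)
  rw [Nat.factorial_zero, Nat.cast_one, one_mul] at h1
  refine le_trans ?_ h1
  exact Finset.single_le_sum (f := fun β : Idx n 0 => mxSq (fzCh (fun N => fzE H θ N * W) 0 β))
    (fun β _ => R260.mxSq_nonneg _) (Finset.mem_univ _)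

/-- the contribution of the chaos of order `j` -/
theorem FzCol.cross_j (h : FzCol H W) {θ E : ℝ} (hθ : 0 ≤ θ) (hE0 : 0 ≤ E)
    (hE : fzEps H W θ ≤ E ^ 2) (j : ℕ) :
    θ ^ j * (fzPhi H W θ - (∑ i ∈ Finset.range j, (4 : ℝ) ^ i) * Real.exp (4 * θ ^ 2)
          * Real.sqrt (fzS H W * mxSq W))
      - 2 ^ j * (∑ i ∈ Finset.range j, (2 * θ) ^ (j - 1 - i) * Real.sqrt (i.factorial : ℝ))
          * (Real.sqrt (mxSq W) * E)
    ≤ ∑ β : Idx n j, mxIP (hpr H j β * W) (fzCh (fzE H θ) j β * W) := by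
  obtain ⟨m0, hm0⟩ : ∃ m0 : Mx n, m0 = fzCh (fzE H θ) 0 (fun r => r.elim0) := ⟨_, rfl⟩
  have hch := h.chaos hθ hE0 hE j
  rw [← hm0] at hch
  have e1 : ∀ β : Idx n j, fzCh (fzE H θ) j β * W
      = θ ^ j • (hpr H j β * (m0 * W)) + (fzCh (fzE H θ) j β - θ ^ j • (hpr H j β * m0)) * W := by
    intro β
    rw [Matrix.sub_mul, Matrix.smul_mul, Matrix.mul_assoc]
    abel
  have e2 : ∑ β : Idx n j, mxIP (hpr H j β * W) (fzCh (fzE H θ) j β * W)
      = θ ^ j * mxIP (fzSj H j * W) (m0 * W)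
        + ∑ β : Idx n j, mxIP (hpr H j β * W)
            ((fzCh (fzE H θ) j β - θ ^ j • (hpr H j β * m0)) * W) := by
    rw [← fzp_sum_hpr, Finset.mul_sum, ← Finset.sum_add_distrib]
    refine Finset.sum_congr rfl fun β _ => ?_
    conv_lhs => rw [e1 β]
    rw [fzp_mxIP_add_right, fzp_mxIP_smul_right]
  -- the remainder
  have h3 := fzp_cs (fun β : Idx n j => hpr H j β * W)
    (fun β => (fzCh (fzE H θ) j β - θ ^ j • (hpr H j β * m0)) * W)
  have h4 : Real.sqrt (∑ β : Idx n j, mxSq (hpr H j β * W)) ≤ 2 ^ j * Real.sqrt (mxSq W) := by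
    have h5 := h.hpr_sq j W
    have e5 : (4 : ℝ) ^ j * mxSq W = (2 ^ j) ^ 2 * mxSq W := by
      rw [← pow_mul, mul_comm j 2, pow_mul]
      norm_num
    rw [e5] at h5
    calc Real.sqrt (∑ β : Idx n j, mxSq (hpr H j β * W)) ≤ Real.sqrt ((2 ^ j) ^ 2 * mxSq W) :=
          Real.sqrt_le_sqrt h5
      _ = 2 ^ j * Real.sqrt (mxSq W) := by
          rw [Real.sqrt_mul (by positivity), Real.sqrt_sq (by positivity)]
  have h6 : |∑ β : Idx n j, mxIP (hpr H j β * W)
      ((fzCh (fzE H θ) j β - θ ^ j • (hpr H j β * m0)) * W)|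
      ≤ 2 ^ j * (∑ i ∈ Finset.range j, (2 * θ) ^ (j - 1 - i) * Real.sqrt (i.factorial : ℝ))
          * (Real.sqrt (mxSq W) * E) := by
    refine h3.trans ?_
    calc _ ≤ (2 ^ j * Real.sqrt (mxSq W))
          * ((∑ i ∈ Finset.range j, (2 * θ) ^ (j - 1 - i) * Real.sqrt (i.factorial : ℝ)) * E) :=
          mul_le_mul h4 hch (Real.sqrt_nonneg _) (by positivity)
      _ = _ := by ring
  -- the main term
  have e7 : mxIP (fzSj H j * W) (m0 * W) = fzPhi H W θ + mxIP ((fzSj H j - 1) * W) (m0 * W) := by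
    rw [← h.ip_mean θ, ← hm0, mxIP_eq_hsI, mxIP_eq_hsI, mxIP_eq_hsI, ← hsI_add_left]
    congr 1
    rw [Matrix.sub_mul, Matrix.one_mul]
    abel
  have h8 : |mxIP ((fzSj H j - 1) * W) (m0 * W)|
      ≤ (∑ i ∈ Finset.range j, (4 : ℝ) ^ i) * Real.exp (4 * θ ^ 2)
          * Real.sqrt (fzS H W * mxSq W) := by
    refine (fzp_abs_mxIP_le _ _).trans ?_
    have h9 : Real.sqrt (mxSq (m0 * W)) ≤ Real.exp (4 * θ ^ 2) * Real.sqrt (mxSq W) := by
      have h10 := (h.mean_sq θ).trans (h.phi_le (2 * θ))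
      rw [← hm0] at h10
      have e10 : Real.exp (2 * (2 * θ) ^ 2) = Real.exp (4 * θ ^ 2) ^ 2 := by
        rw [← Real.exp_nat_mul]
        congr 1
        push_cast
        ring
      rw [e10] at h10
      calc Real.sqrt (mxSq (m0 * W)) ≤ Real.sqrt (Real.exp (4 * θ ^ 2) ^ 2 * mxSq W) :=
            Real.sqrt_le_sqrt h10
        _ = _ := by rw [Real.sqrt_mul (by positivity), Real.sqrt_sq (by positivity)]
    calc _ ≤ ((∑ i ∈ Finset.range j, (4 : ℝ) ^ i) * Real.sqrt (fzS H W))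
          * (Real.exp (4 * θ ^ 2) * Real.sqrt (mxSq W)) :=
          mul_le_mul (h.Sj_sub_one j) h9 (Real.sqrt_nonneg _)
            (mul_nonneg (Finset.sum_nonneg fun i _ => by positivity) (Real.sqrt_nonneg _))
      _ = _ := by
          rw [Real.sqrt_mul (fzp_S_nonneg H W)]
          ring
  rw [e2, e7]
  have h11 := (abs_le.1 h6).1
  have h12 := (abs_le.1 h8).1
  have h13 : θ ^ j * (fzPhi H W θ - (∑ i ∈ Finset.range j, (4 : ℝ) ^ i) * Real.exp (4 * θ ^ 2)
          * Real.sqrt (fzS H W * mxSq W))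
      ≤ θ ^ j * (fzPhi H W θ + mxIP ((fzSj H j - 1) * W) (m0 * W)) :=
    mul_le_mul_of_nonneg_left (by linarith) (by positivity)
  linarith

/-- one order of the chaos expansion of the cross term -/
theorem FzCol.cross_term (h : FzCol H W) {t E : ℝ} (ht : 0 ≤ t) (hE0 : 0 ≤ E)
    (hE : ∀ a ∈ Set.Icc 0 (Real.sqrt (2 * t)), fzEps H W a ≤ E ^ 2) (j : ℕ) :
    Real.exp (-(2 * t)) * ((2 * t) ^ j / (j.factorial : ℝ)) * mxSq W
      - (Real.exp (-t) * Real.exp (-(2 * t)) * (Real.sqrt (2 * t) ^ j / (j.factorial : ℝ))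
          * Real.sqrt (2 * t) ^ j * (Real.exp (Real.sqrt (2 * t) ^ 2 / 2)
              * Real.exp (4 * Real.sqrt (2 * t) ^ 2)
            + (∑ i ∈ Finset.range j, (4 : ℝ) ^ i) * Real.exp (4 * Real.sqrt (2 * t) ^ 2)))
          * Real.sqrt (fzS H W * mxSq W)
      - (Real.exp (-t) * Real.exp (-(2 * t)) * (Real.sqrt (2 * t) ^ j / (j.factorial : ℝ))
          * (Real.sqrt (2 * t) ^ j * Real.exp (Real.sqrt (2 * t) ^ 2 / 2) * (2 * Real.sqrt (2 * t))
            + 2 ^ j * ∑ i ∈ Finset.range j,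
                (2 * Real.sqrt (2 * t)) ^ (j - 1 - i) * Real.sqrt (i.factorial : ℝ)))
          * (Real.sqrt (mxSq W) * E)
    ≤ ∑ β : Idx n j, mxIP ((Real.exp (-t) * (Real.sqrt (2 * t) ^ j / (j.factorial : ℝ)))
          • (hpr H j β * W)) (fzCh (fun N => fzM H t N * W) j β) := by
  have hθ2 : Real.sqrt (2 * t) ^ 2 = 2 * t := fzp_sq_theta ht
  have hθ0 : 0 ≤ Real.sqrt (2 * t) := Real.sqrt_nonneg _
  obtain ⟨θ, hθ⟩ : ∃ θ : ℝ, θ = Real.sqrt (2 * t) := ⟨_, rfl⟩
  rw [← hθ] at hθ2 hθ0 hE ⊢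
  have eM : ∀ β : Idx n j, fzCh (fun N => fzM H t N * W) j β
      = Real.exp (-(2 * t)) • (fzCh (fzE H θ) j β * W) := by
    intro β
    rw [fzp_ch_mul (fz_M_L2 h.symm t)]
    have e : fzM H t = fun N => Real.exp (-(2 * t)) • fzE H θ N := by
      funext N
      rw [fz_M_eq, hθ]
    rw [e, fzp_ch_smul, Matrix.smul_mul]
  have e1 : ∑ β : Idx n j, mxIP ((Real.exp (-t) * (θ ^ j / (j.factorial : ℝ)))
          • (hpr H j β * W)) (fzCh (fun N => fzM H t N * W) j β)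
      = Real.exp (-t) * Real.exp (-(2 * t)) * (θ ^ j / (j.factorial : ℝ))
          * ∑ β : Idx n j, mxIP (hpr H j β * W) (fzCh (fzE H θ) j β * W) := by
    rw [Finset.mul_sum]
    refine Finset.sum_congr rfl fun β _ => ?_
    rw [eM, fzp_mxIP_smul_left, fzp_mxIP_smul_right]
    ring
  rw [e1]
  have hX := h.cross_j hθ0 hE0 (hE θ ⟨hθ0, le_rfl⟩) j
  have hφ := h.phi_lo hθ0 hE0 hE
  have hf : (0 : ℝ) < (j.factorial : ℝ) := by exact_mod_cast j.factorial_pos
  have hw : 0 ≤ Real.exp (-t) * Real.exp (-(2 * t)) * (θ ^ j / (j.factorial : ℝ)) := by positivity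
  have eq : Real.exp (-(2 * t)) * ((2 * t) ^ j / (j.factorial : ℝ))
      = Real.exp (-t) * Real.exp (-(2 * t)) * (θ ^ j / (j.factorial : ℝ)) * θ ^ j
          * Real.exp (θ ^ 2 / 2) := by
    have e2 : Real.exp (-t) * Real.exp (θ ^ 2 / 2) = 1 := by
      rw [← Real.exp_add, hθ2]
      norm_num
    have e3 : (2 * t) ^ j = θ ^ j * θ ^ j := by rw [← hθ2, ← pow_mul, ← pow_add]; congr 1; ring
    calc Real.exp (-(2 * t)) * ((2 * t) ^ j / (j.factorial : ℝ))
        = (Real.exp (-t) * Real.exp (θ ^ 2 / 2)) * Real.exp (-(2 * t))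
            * ((2 * t) ^ j / (j.factorial : ℝ)) := by rw [e2, one_mul]
      _ = _ := by rw [e3]; ring
  rw [eq]
  have h1 : θ ^ j * (Real.exp (θ ^ 2 / 2) * (mxSq W - Real.exp (4 * θ ^ 2)
        * Real.sqrt (fzS H W * mxSq W) - 2 * θ * Real.sqrt (mxSq W) * E)
        - (∑ i ∈ Finset.range j, (4 : ℝ) ^ i) * Real.exp (4 * θ ^ 2)
          * Real.sqrt (fzS H W * mxSq W))
      ≤ θ ^ j * (fzPhi H W θ - (∑ i ∈ Finset.range j, (4 : ℝ) ^ i) * Real.exp (4 * θ ^ 2)
          * Real.sqrt (fzS H W * mxSq W)) :=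
    mul_le_mul_of_nonneg_left (by linarith) (by positivity)
  refine le_trans (le_of_eq ?_) (mul_le_mul_of_nonneg_left (le_trans (sub_le_sub_right h1 _) hX) hw)
  ring

end cross

theorem fzp_cross_core {t : ℝ} (ht : 0 ≤ t) (m : ℕ) : ∃ K₁ K₂ : ℝ, 0 ≤ K₁ ∧ 0 ≤ K₂ ∧
    ∀ (n : ℕ) (H : Fin n → Mx n) (W : Mx n), FzCol H W → ∀ E : ℝ, 0 ≤ E →
      (∀ a ∈ Set.Icc 0 (Real.sqrt (2 * t)), fzEps H W a ≤ E ^ 2) →
      fzP t m * mxSq W - K₁ * Real.sqrt (fzS H W * mxSq W) - K₂ * (Real.sqrt (mxSq W) * E)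
        ≤ ∫ N, mxIP (fzW H t m N * W) (fzM H t N * W) ∂(stdGaussian (EE n)) := by
  refine ⟨∑ j ∈ Finset.range (m + 1),
      (Real.exp (-t) * Real.exp (-(2 * t)) * (Real.sqrt (2 * t) ^ j / (j.factorial : ℝ))
          * Real.sqrt (2 * t) ^ j * (Real.exp (Real.sqrt (2 * t) ^ 2 / 2)
              * Real.exp (4 * Real.sqrt (2 * t) ^ 2)
            + (∑ i ∈ Finset.range j, (4 : ℝ) ^ i) * Real.exp (4 * Real.sqrt (2 * t) ^ 2))),
    ∑ j ∈ Finset.range (m + 1),
      (Real.exp (-t) * Real.exp (-(2 * t)) * (Real.sqrt (2 * t) ^ j / (j.factorial : ℝ))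
          * (Real.sqrt (2 * t) ^ j * Real.exp (Real.sqrt (2 * t) ^ 2 / 2) * (2 * Real.sqrt (2 * t))
            + 2 ^ j * ∑ i ∈ Finset.range j,
                (2 * Real.sqrt (2 * t)) ^ (j - 1 - i) * Real.sqrt (i.factorial : ℝ))),
    Finset.sum_nonneg fun j _ => by positivity, Finset.sum_nonneg fun j _ => by positivity,
    fun n H W h E hE0 hE => ?_⟩
  simp only [fzp_W_mul]
  rw [fzp_expand m _ (fzp_L2_mul (fz_M_L2 h.symm t) W)]
  refine le_trans (le_of_eq ?_) (Finset.sum_le_sum fun j _ => h.cross_term ht hE0 hE j)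
  rw [Finset.sum_sub_distrib, Finset.sum_sub_distrib, ← Finset.sum_mul, ← Finset.sum_mul,
    ← Finset.sum_mul, ← Finset.mul_sum]
  rfl

/-- L-exp-P3 -/
theorem fz_cross {t : ℝ} (ht : 0 ≤ t) (m : ℕ) : ∀ η : ℝ, 0 < η → ∃ C : ℝ, 0 ≤ C ∧
    ∀ (n : ℕ) (H : Fin n → Mx n) (W : Mx n), FzCol H W →
      (fzP t m - η) * mxSq W - C * (fzS H W + fzC H W)
        ≤ ∫ N, mxIP (fzW H t m N * W) (fzM H t N * W) ∂(stdGaussian (EE n)) := by
  intro η hη
  obtain ⟨K₁, K₂, hK₁, hK₂, hcore⟩ := fzp_cross_core ht m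
  obtain ⟨η₁, hη₁⟩ : ∃ η₁ : ℝ, η₁ = η ^ 2 / (4 * (K₂ ^ 2 + 1)) := ⟨_, rfl⟩
  have hη₁0 : 0 < η₁ := by rw [hη₁]; positivity
  obtain ⟨C₁, hC₁, herr⟩ := fz_err (Real.sqrt_nonneg (2 * t)) η₁ hη₁0
  refine ⟨K₁ ^ 2 / (2 * η) + K₂ ^ 2 * C₁ / η, by positivity, fun n H W h => ?_⟩
  have hT := R260.mxSq_nonneg W
  have hs := fzp_S_nonneg H W
  have hc := fzp_C_nonneg H W
  have hE2 : Real.sqrt (η₁ * mxSq W + C₁ * fzC H W) ^ 2 = η₁ * mxSq W + C₁ * fzC H W :=
    Real.sq_sqrt (by positivity)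
  have h1 := hcore n H W h (Real.sqrt (η₁ * mxSq W + C₁ * fzC H W)) (Real.sqrt_nonneg _)
    (fun a ha => by rw [hE2]; exact herr n H W h a ha)
  have h2 := fzp_amgm (K := K₁) (η := η / 2) (by positivity) hs hT
  have h3 := fzp_amgm (K := K₂) (η := η / 4) (s := η₁ * mxSq W + C₁ * fzC H W) (by positivity)
    (by positivity) hT
  rw [Real.sqrt_mul (by positivity)] at h3
  have e2 : K₁ ^ 2 / (4 * (η / 2)) = K₁ ^ 2 / (2 * η) := by congr 1; ring
  have e3 : K₂ ^ 2 / (4 * (η / 4)) = K₂ ^ 2 / η := by congr 1; ring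
  rw [e2] at h2
  rw [e3] at h3
  have h4 : K₂ ^ 2 / η * (η₁ * mxSq W) ≤ η / 4 * mxSq W := by
    rw [← mul_assoc]
    refine mul_le_mul_of_nonneg_right ?_ hT
    rw [hη₁, div_mul_div_comm, div_le_iff₀ (by positivity)]
    nlinarith [sq_nonneg K₂, sq_nonneg η, mul_pos hη hη, mul_pos (mul_pos hη hη) hη]
  have e5 : K₂ ^ 2 / η * (η₁ * mxSq W + C₁ * fzC H W)
      = K₂ ^ 2 / η * (η₁ * mxSq W) + K₂ ^ 2 * C₁ / η * fzC H W := by ring
  rw [e5] at h3
  have h6 : 0 ≤ K₁ ^ 2 / (2 * η) * fzC H W := by positivity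
  have h7 : 0 ≤ K₂ ^ 2 * C₁ / η * fzS H W := by positivity
  have e8 : K₂ * (Real.sqrt (mxSq W) * Real.sqrt (η₁ * mxSq W + C₁ * fzC H W))
      = K₂ * (Real.sqrt (η₁ * mxSq W + C₁ * fzC H W) * Real.sqrt (mxSq W)) := by ring
  rw [e8] at h1
  nlinarith

end Claimed.Agent.R259
end

/- ===== packed: Claimed.Agent.R259.S6Exp ===== -/
section
/-
Row 259 (S0499), package EXP: EXPORT `s6e_main` (replaces Lemma 6.7 and (6.exponential-limit) of the
paper).  Owner: helper88.  GLUE of `fz_normM`, `fz_normW`, `fz_cross` (S6ExpP) and of the bridge to block models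
(leaf L-exp-tau, the sorried statements of this file).
-/
set_option autoImplicit false

open MeasureTheory ProbabilityTheory
open scoped BigOperators Matrix
open Claimed.Agent.R260 (Mx mxFun mxSchur mxSq mxIP mxEig mxU mxRot mxDK MxGH1 MxL2 MxBd)

namespace Claimed.Agent.R259

variable {n : ℕ}

theorem fzS_nonneg (H : Fin n → Mx n) (W : Mx n) : 0 ≤ fzS H W := Claimed.Agent.R260.mxSq_nonneg _

theorem fzC_nonneg (H : Fin n → Mx n) (W : Mx n) : 0 ≤ fzC H W :=
  Finset.sum_nonneg fun _ _ => Finset.sum_nonneg fun _ _ => Claimed.Agent.R260.mxSq_nonneg _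

/-- the truncated Wick exponential is close to the matrix exponential, at ONE datum -/
theorem fz_point {t : ℝ} (ht : 0 ≤ t) (m : ℕ) : ∀ η : ℝ, 0 < η → ∃ C : ℝ, 0 ≤ C ∧
    ∀ (n : ℕ) (H : Fin n → Mx n) (W : Mx n), FzCol H W →
      ∫ N, mxSq ((fzW H t m N - fzM H t N) * W) ∂(stdGaussian (EE n))
        ≤ (1 - fzP t m + η) * mxSq W + C * (fzS H W + fzC H W) := by
  intro η hη
  obtain ⟨C1, hC1, H1⟩ := fz_normM ht (η / 4) (by positivity)
  obtain ⟨C2, hC2, H2⟩ := fz_normW ht m (η / 4) (by positivity)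
  obtain ⟨C3, hC3, H3⟩ := fz_cross ht m (η / 4) (by positivity)
  refine ⟨C1 + C2 + 2 * C3, by positivity, fun n H W h => ?_⟩
  have hWL : MxL2 (stdGaussian (EE n)) (fun N => fzW H t m N * W) :=
    (fz_W_L2 H t m).mul_Bd (MxBd.const W)
  have hML : MxL2 (stdGaussian (EE n)) (fun N => fzM H t N * W) :=
    (fz_M_L2 h.symm t).mul_Bd (MxBd.const W)
  have hexp : ∀ N, mxSq ((fzW H t m N - fzM H t N) * W)
      = mxSq (fzW H t m N * W) - 2 * mxIP (fzW H t m N * W) (fzM H t N * W)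
        + mxSq (fzM H t N * W) := by
    intro N
    rw [sub_mul, mxSq_eq_hs2, hs2_sub, ← mxSq_eq_hs2, ← mxSq_eq_hs2, ← mxIP_eq_hsI]
  simp only [hexp]
  have i1 : Integrable (fun N => mxSq (fzW H t m N * W)) (stdGaussian (EE n)) :=
    hWL.integrable_mxSq
  have i2 : Integrable (fun N => 2 * mxIP (fzW H t m N * W) (fzM H t N * W))
      (stdGaussian (EE n)) := (hWL.integrable_mxIP hML).const_mul 2
  have i3 : Integrable (fun N => mxSq (fzM H t N * W)) (stdGaussian (EE n)) :=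
    hML.integrable_mxSq
  have i12 : Integrable (fun N => mxSq (fzW H t m N * W)
      - 2 * mxIP (fzW H t m N * W) (fzM H t N * W)) (stdGaussian (EE n)) := i1.sub i2
  rw [integral_add i12 i3, integral_sub i1 i2, integral_const_mul]
  have h1 := H1 n H W h
  have h2 := H2 n H W h
  have h3 := H3 n H W h
  have hs := fzS_nonneg H W
  have hc := fzC_nonneg H W
  nlinarith [mul_nonneg hC1 hc, mul_nonneg hC2 hc]

/-! ### Bridge to block models (leaf L-exp-tau) -/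

section bridge

variable {D : Type} [MeasurableSpace D] {Q : Measure D}

theorem BlockModel.fzCol (B : BlockModel n Q) (d : D) : FzCol (B.H d) (B.Rs d) :=
  ⟨B.H_symm d, B.Rs_psd d, B.comm d, B.col d⟩

theorem BlockModel.tau_one (B : BlockModel n Q) :
    B.tau (fun _ => 1) = ∫ d, mxSq (B.Rs d) ∂Q := by
  exact s6et_tau_one B

theorem BlockModel.fzS_integrable (B : BlockModel n Q) :
    Integrable (fun d => fzS (B.H d) (B.Rs d)) Q := by
  exact s6et_fzS_integrable B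

theorem BlockModel.fzC_integrable (B : BlockModel n Q) :
    Integrable (fun d => fzC (B.H d) (B.Rs d)) Q := by
  exact s6et_fzC_integrable B

theorem BlockModel.tau_S (B : BlockModel n Q) :
    B.tau (fun d => (colS (B.H d) - 1) * (colS (B.H d) - 1)) = ∫ d, fzS (B.H d) (B.Rs d) ∂Q := by
  exact s6et_tau_S B

theorem BlockModel.tau_C (B : BlockModel n Q) :
    ∑ i, ∑ j, B.tau (fun d => (cmm (B.H d i) (B.H d j))ᵀ * cmm (B.H d i) (B.H d j))
      = ∫ d, fzC (B.H d) (B.Rs d) ∂Q := by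
  exact s6et_tau_C B

end bridge

/-- the Poisson masses tend to one -/
theorem fzP_near (t : ℝ) : ∀ ε : ℝ, 0 < ε → ∃ m₀ : ℕ, ∀ m : ℕ, m₀ ≤ m → 1 - fzP t m ≤ ε := by
  intro ε hε
  have h1 : Filter.Tendsto (fun m : ℕ => ∑ j ∈ Finset.range m, (2 * t) ^ j / (j.factorial : ℝ))
      Filter.atTop (nhds (Real.exp (2 * t))) := by
    have := (NormedSpace.expSeries_div_hasSum_exp (𝔸 := ℝ) (2 * t)).tendsto_sum_nat
    rwa [← Real.exp_eq_exp_ℝ] at this
  have h2 : Filter.Tendsto (fun m : ℕ => fzP t m) Filter.atTop (nhds 1) := by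
    have h3 := ((Filter.tendsto_add_atTop_iff_nat 1).2 h1).const_mul (Real.exp (-(2 * t)))
    rw [← Real.exp_add] at h3
    simpa [fzP] using h3
  have h4 : ∀ᶠ m in Filter.atTop, 1 - ε < fzP t m :=
    h2.eventually (lt_mem_nhds (by linarith))
  obtain ⟨m₀, hm₀⟩ := Filter.eventually_atTop.1 h4
  exact ⟨m₀, fun m hm => by linarith [hm₀ m hm]⟩

/-- **EXPORT of package EXP.** -/
theorem s6e_main {t : ℝ} (ht : 0 ≤ t) : ∀ ε : ℝ, 0 < ε → ∃ m₀ : ℕ, ∀ m : ℕ, m₀ ≤ m →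
    ∃ δ : ℝ, 0 < δ ∧
    ∀ (n : ℕ) (D : Type) [MeasurableSpace D] (Q : Measure D) [IsProbabilityMeasure Q]
      (B : BlockModel n Q), B.Small δ →
      ∫ d, ∫ N, mxSq ((fzW (B.H d) t m N - fzM (B.H d) t N) * B.Rs d) ∂(gam n) ∂Q ≤ ε := by
  intro ε hε
  obtain ⟨m₀, hm₀⟩ := fzP_near t (ε / 8) (by positivity)
  refine ⟨m₀, fun m hm => ?_⟩
  obtain ⟨C, hC, HC⟩ := fz_point ht m (ε / 8) (by positivity)
  refine ⟨min 1 (ε / (4 * C + 1)), lt_min one_pos (by positivity), ?_⟩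
  intro n D _ Q _ B hB
  set δ : ℝ := min 1 (ε / (4 * C + 1)) with hδ
  have hδ1 : δ ≤ 1 := min_le_left _ _
  have hδ2 : δ ≤ ε / (4 * C + 1) := min_le_right _ _
  rw [gam_eq_std]
  have hbound : ∀ d, ∫ N, mxSq ((fzW (B.H d) t m N - fzM (B.H d) t N) * B.Rs d)
        ∂(stdGaussian (EE n))
      ≤ (1 - fzP t m + ε / 8) * mxSq (B.Rs d)
        + C * (fzS (B.H d) (B.Rs d) + fzC (B.H d) (B.Rs d)) := fun d => HC n _ _ (B.fzCol d)
  have hint : Integrable (fun d => (1 - fzP t m + ε / 8) * mxSq (B.Rs d)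
      + C * (fzS (B.H d) (B.Rs d) + fzC (B.H d) (B.Rs d))) Q :=
    (B.Rs_int.const_mul _).add ((B.fzS_integrable.add B.fzC_integrable).const_mul _)
  have h1 := integral_mono_of_nonneg
    (Filter.Eventually.of_forall fun d => integral_nonneg fun N =>
      Claimed.Agent.R260.mxSq_nonneg _) hint (Filter.Eventually.of_forall hbound)
  refine h1.trans ?_
  have j1 : Integrable (fun d => (1 - fzP t m + ε / 8) * mxSq (B.Rs d)) Q := B.Rs_int.const_mul _
  have j23 : Integrable (fun d => fzS (B.H d) (B.Rs d) + fzC (B.H d) (B.Rs d)) Q :=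
    B.fzS_integrable.add B.fzC_integrable
  have j2 : Integrable (fun d => C * (fzS (B.H d) (B.Rs d) + fzC (B.H d) (B.Rs d))) Q :=
    j23.const_mul _
  rw [integral_add j1 j2, integral_const_mul, integral_const_mul,
    integral_add B.fzS_integrable B.fzC_integrable, ← B.tau_one, ← B.tau_S, ← B.tau_C]
  have hm1 := (abs_le.1 hB.mass).2
  have hs := hB.sdef
  have hc := hB.cdef
  have hP := hm₀ m hm
  have hτ : B.tau (fun _ => 1) ≤ 2 := by linarith
  have hτ0 : 0 ≤ B.tau (fun _ => 1) := by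
    rw [B.tau_one]
    exact integral_nonneg fun d => Claimed.Agent.R260.mxSq_nonneg _
  have hCδ : C * (2 * δ) ≤ ε / 2 := by
    have h5 : (4 * C + 1) * δ ≤ ε := by
      rw [le_div_iff₀ (by positivity)] at hδ2
      linarith
    have hδ0 : 0 < δ := lt_min one_pos (by positivity)
    nlinarith
  have h6 : (1 - fzP t m + ε / 8) * B.tau (fun _ => 1) ≤ ε / 4 * 2 := by
    have h7 : 1 - fzP t m + ε / 8 ≤ ε / 4 := by linarith
    calc (1 - fzP t m + ε / 8) * B.tau (fun _ => 1) ≤ ε / 4 * B.tau (fun _ => 1) :=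
          mul_le_mul_of_nonneg_right h7 hτ0
      _ ≤ ε / 4 * 2 := mul_le_mul_of_nonneg_left hτ (by positivity)
  have h8 : C * (B.tau (fun d => (colS (B.H d) - 1) * (colS (B.H d) - 1))
      + ∑ i, ∑ j, B.tau (fun d => (cmm (B.H d i) (B.H d j))ᵀ * cmm (B.H d i) (B.H d j)))
      ≤ C * (2 * δ) := mul_le_mul_of_nonneg_left (by linarith) hC
  linarith

end Claimed.Agent.R259
end
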