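/- Packed by merge_tool.py (helper293): 10 modules of Claimed.Agent.R259 in one file, same declarations.
   Old modules, in this order: S4ProbeChainB, S4ProbeChainC, S4ProbeChain, S4ProbeStep, S4ProbeRec, S4ProbeLowA, S4ProbeLowB, S4ProbeLowC, S4ProbeLow, S4Probe -/
import Claimed.Agent.R259.OpCalc
import Claimed.Agent.R259.Pack012
import Claimed.Agent.R259.Pack051
import Claimed.Agent.R259.Pack039
import Claimed.Agent.R259.Pack004
import Claimed.Agent.R259.Pack011

/- ===== packed: Claimed.Agent.R259.S4ProbeChainB ===== -/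
section
/-
Row 259 (S0499), Lemma 4.1, leaf L-S4Probe-chain (helper220): proofs, part B.
-/
set_option autoImplicit false

open MeasureTheory Filter Topology ProbabilityTheory InformationTheory
open scoped ContDiff ENNReal

namespace Claimed.Agent.R259

variable {E : Type} [NormedAddCommGroup E] [InnerProductSpace ℝ E] [FiniteDimensional ℝ E]
  [MeasurableSpace E] [BorelSpace E]

variable {η : E → ℝ} {w : E → E} {T κ : ℝ}

theorem s4pc_ac (η : E → ℝ) : dm η ≪ (volume : Measure E) := withDensity_absolutelyContinuous _ _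

theorem s4pc_law_ac (η : E → ℝ) (w : E → E) (T : ℝ) : lcLaw (dm η) w T ≪ stdGaussian E :=
  withDensity_absolutelyContinuous _ _

theorem s4pc_lintegral_law (hη : SPD η) (hw : Continuous w) (T : ℝ) {g : E → ℝ≥0∞} (hg : Measurable g) :
    ∫⁻ l, g l ∂(lcLaw (dm η) w T) = ∫⁻ l, ENNReal.ofReal (lcZ (dm η) w T l) * g l ∂(stdGaussian E) := by
  unfold lcLaw
  rw [lintegral_withDensity_eq_lintegral_mul _ (s4pc_lcZ_meas hη hw T).ennreal_ofReal hg]
  rfl

/-- Fubini for the label kernel. -/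
theorem s4pc_base_int (hη : SPD η) (hw : Continuous w) (hT : 0 ≤ T) {φ : E → ℝ} (hφ : Integrable φ (dm η)) :
    Integrable (fun p : E × E => lcK w T p.1 p.2 * φ p.2) ((stdGaussian E).prod (dm η)) := by
  have := lc_spd_prob hη
  have hm : AEStronglyMeasurable (fun p : E × E => lcK w T p.1 p.2 * φ p.2)
      ((stdGaussian E).prod (dm η)) :=
    (s4pc_lcK_cont hw T).aestronglyMeasurable.mul hφ.1.comp_snd
  rw [integrable_prod_iff' hm]
  refine ⟨Eventually.of_forall fun y => ?_, ?_⟩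
  · simp_rw [lc_K_eq]
    exact (imm_K_integrable hT (w y)).mul_const _
  · have : (fun y => ∫ l, ‖lcK w T l y * φ y‖ ∂(stdGaussian E)) = fun y => ‖φ y‖ := by
      funext y
      simp_rw [norm_mul, lc_K_eq, Real.norm_eq_abs, abs_of_pos (imm_K_pos _ _ _)]
      rw [integral_mul_const, imm_K_integral hT, one_mul]
    rw [this]
    exact hφ.norm

theorem s4pc_base (hη : SPD η) (hw : Continuous w) (hT : 0 ≤ T) {φ : E → ℝ} (hφ : Integrable φ (dm η)) :
    Integrable (fun l => ∫ y, lcK w T l y * φ y ∂(dm η)) (stdGaussian E) ∧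
    ∫ l, ∫ y, lcK w T l y * φ y ∂(dm η) ∂(stdGaussian E) = ∫ y, φ y ∂(dm η) := by
  have := lc_spd_prob hη
  have h := s4pc_base_int hη hw hT hφ
  refine ⟨h.integral_prod_left, ?_⟩
  rw [integral_integral_swap h]
  refine integral_congr_ae (Eventually.of_forall fun y => ?_)
  simp only
  simp_rw [lc_K_eq]
  rw [integral_mul_const, imm_K_integral hT, one_mul]

/-- the marginal identity for bounded nonnegative functions. -/
theorem s4pc_claim (hη : SPD η) (hw : Continuous w) (hT : 0 ≤ T) (hκ : 0 < κ) (Ch : PChain η w T κ)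
    (j : ℕ) : ∀ φ : E → ℝ, Measurable φ → (∀ᵐ y, 0 ≤ φ y ∧ φ y ≤ 1) →
      ∫⁻ l, ENNReal.ofReal (∫ y, Ch.K j l y * φ y ∂(dm η)) ∂(lcLaw (dm η) w T) =
        ENNReal.ofReal (∫ y, φ y ∂(dm η)) := by
  have := lc_spd_prob hη
  induction j with
  | zero =>
    intro φ hφ hb
    have hφ2 := s4pc_memLp_of_bdd hη hφ hb
    have hφ1 : Integrable φ (dm η) := hφ2.integrable (by norm_num)
    have hb' : ∀ᵐ y ∂(dm η), 0 ≤ φ y ∧ φ y ≤ 1 := (s4pc_ac η).ae_le hb
    have hN : ∀ l, 0 ≤ ∫ y, lcK w T l y * φ y ∂(dm η) := fun l =>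
      integral_nonneg_of_ae (hb'.mono fun y hy => mul_nonneg (Real.exp_pos _).le hy.1)
    have hNm : Measurable fun l => ∫ y, lcK w T l y * φ y ∂(dm η) := by
      have : StronglyMeasurable (fun p : E × E => lcK w T p.1 p.2 * φ p.2) :=
        ((s4pc_lcK_cont hw T).measurable.mul (hφ.comp measurable_snd)).stronglyMeasurable
      exact this.integral_prod_right'.measurable
    have e0 : ∀ l, ∫ y, Ch.K 0 l y * φ y ∂(dm η) =
        (lcZ (dm η) w T l)⁻¹ * ∫ y, lcK w T l y * φ y ∂(dm η) := by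
      intro l
      simp_rw [Ch.zero, mul_assoc]
      rw [integral_const_mul]
    simp_rw [e0]
    have hmm : Measurable fun l => ENNReal.ofReal ((lcZ (dm η) w T l)⁻¹ * ∫ y, lcK w T l y * φ y ∂(dm η)) :=
      ((s4pc_lcZ_meas hη hw T).inv.mul hNm).ennreal_ofReal
    rw [s4pc_lintegral_law hη hw T hmm]
    have e1 : ∀ l, ENNReal.ofReal (lcZ (dm η) w T l) *
        ENNReal.ofReal ((lcZ (dm η) w T l)⁻¹ * ∫ y, lcK w T l y * φ y ∂(dm η)) =
        ENNReal.ofReal (∫ y, lcK w T l y * φ y ∂(dm η)) := by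
      intro l
      have hz := s4pc_Z_pos hη hw hT l
      rw [← ENNReal.ofReal_mul hz.le, ← mul_assoc, mul_inv_cancel₀ hz.ne', one_mul]
    simp_rw [e1]
    obtain ⟨h1, h2⟩ := s4pc_base hη hw hT hφ1
    rw [← ofReal_integral_eq_lintegral_ofReal h1 (Eventually.of_forall hN), h2]
  | succ j ih =>
    intro φ hφ hb
    have hφ2 := s4pc_memLp_of_bdd hη hφ hb
    have hJ := op_J_spec hη.1.continuous hη.2.1 hκ hφ2
    have h0 := op_res_nonneg hη.1.continuous hη.2.1 hκ hφ2 hJ (hb.mono fun _ h => h.1)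
    have h1 := op_res_le hη.1.continuous hη.2.1 hκ hφ2 hJ (hb.mono fun _ h => h.2)
    have hih := ih (opJ η κ φ) (op_J_meas η κ φ).measurable (by
      filter_upwards [h0, h1] with y a1 a2
      exact ⟨a1, a2⟩)
    rw [op_res_integral hJ] at hih
    rw [← hih]
    refine lintegral_congr_ae ((s4pc_law_ac η w T).ae_le ?_)
    filter_upwards [Ch.res j] with l hl
    rw [op_res_symm hl hJ]

/-- the joint law of `(L_T, Y_j)`. -/
noncomputable def pcJoint (Ch : PChain η w T κ) (j : ℕ) : Measure (E × E) :=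
  ((lcLaw (dm η) w T).prod (dm η)).withDensity fun p => ENNReal.ofReal (Ch.K j p.1 p.2)

theorem s4pc_law_prob (hη : SPD η) (hw : Continuous w) (hT : 0 ≤ T) :
    IsProbabilityMeasure (lcLaw (dm η) w T) := by
  have := lc_spd_prob hη
  exact lc_law_prob hw.aemeasurable hT

theorem s4pc_bdd_law (hη : SPD η) (hw : Continuous w) (hT : 0 ≤ T) (hκ : 0 < κ)
    (Ch : PChain η w T κ) (j : ℕ) :
    ∀ᵐ l ∂(lcLaw (dm η) w T), (∀ᵐ y ∂(dm η), 0 ≤ Ch.K j l y ∧ Ch.K j l y ≤ pcB η w T l) ∧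
      ∫ y, Ch.K j l y ∂(dm η) = 1 := by
  refine (s4pc_law_ac η w T).ae_le ?_
  filter_upwards [s4pc_chain_bdd hη hw hT hκ Ch j] with l hl
  exact ⟨(s4pc_ac η).ae_le hl.1, hl.2⟩

theorem s4pc_nonneg_prod (hη : SPD η) (hw : Continuous w) (hT : 0 ≤ T) (hκ : 0 < κ)
    (Ch : PChain η w T κ) (j : ℕ) :
    ∀ᵐ p ∂((lcLaw (dm η) w T).prod (dm η)), 0 ≤ Ch.K j p.1 p.2 := by
  have := lc_spd_prob hη
  have := s4pc_law_prob hη hw hT
  rw [Measure.ae_prod_iff_ae_ae (measurableSet_le measurable_const (Ch.meas j))]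
  filter_upwards [s4pc_bdd_law hη hw hT hκ Ch j] with l hl
  exact hl.1.mono fun y hy => hy.1

theorem s4pc_snd (hη : SPD η) (hw : Continuous w) (hT : 0 ≤ T) (hκ : 0 < κ) (Ch : PChain η w T κ)
    (j : ℕ) : (pcJoint Ch j).map Prod.snd = dm η := by
  have := lc_spd_prob hη
  have := s4pc_law_prob hη hw hT
  ext A hA
  rw [Measure.map_apply measurable_snd hA, pcJoint, withDensity_apply _ (measurable_snd hA),
    ← lintegral_indicator (measurable_snd hA), lintegral_prod _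
      (((Ch.meas j).ennreal_ofReal.indicator (measurable_snd hA)).aemeasurable)]
  have hφm : Measurable (A.indicator (fun _ => (1 : ℝ))) := measurable_const.indicator hA
  have hφb : ∀ y, 0 ≤ A.indicator (fun _ => (1 : ℝ)) y ∧ A.indicator (fun _ => (1 : ℝ)) y ≤ 1 := by
    intro y
    by_cases hy : y ∈ A <;> simp [hy]
  have hcl := s4pc_claim hη hw hT hκ Ch j _ hφm (Eventually.of_forall hφb)
  have e2 : ENNReal.ofReal (∫ y, A.indicator (fun _ => (1 : ℝ)) y ∂(dm η)) = dm η A := by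
    rw [integral_indicator hA, integral_const, smul_eq_mul, mul_one, Measure.real,
      Measure.restrict_apply MeasurableSet.univ, Set.univ_inter, ENNReal.ofReal_toReal (measure_ne_top _ _)]
  rw [← e2, ← hcl]
  refine lintegral_congr_ae ?_
  filter_upwards [s4pc_bdd_law hη hw hT hκ Ch j] with l hl
  have hKi : Integrable (fun y => Ch.K j l y * A.indicator (fun _ => (1 : ℝ)) y) (dm η) := by
    refine Integrable.of_bound ((s4pc_sec_meas Ch j l).mul hφm).aestronglyMeasurable (pcB η w T l)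
      (hl.1.mono fun y hy => ?_)
    rw [Real.norm_eq_abs, abs_of_nonneg (mul_nonneg hy.1 (hφb y).1)]
    calc Ch.K j l y * A.indicator (fun _ => (1 : ℝ)) y ≤ Ch.K j l y * 1 := by
          gcongr
          · exact hy.1
          · exact (hφb y).2
      _ ≤ _ := by rw [mul_one]; exact hy.2
  rw [ofReal_integral_eq_lintegral_ofReal hKi (hl.1.mono fun y hy => mul_nonneg hy.1 (hφb y).1)]
  refine lintegral_congr fun y => ?_
  by_cases hy : y ∈ A
  · have : (l, y) ∈ Prod.snd ⁻¹' A := hy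
    simp [hy, this]
  · have : (l, y) ∉ Prod.snd ⁻¹' A := hy
    simp [hy, this]

section fields

variable {F : Type} [NormedAddCommGroup F] [NormedSpace ℝ F]

theorem s4pc_marginal (hη : SPD η) (hw : Continuous w) (hT : 0 ≤ T) (hκ : 0 < κ)
    (Ch : PChain η w T κ) (j : ℕ) {g : E → F} (hg : Integrable g (dm η)) :
    Integrable (fun p : E × E => Ch.K j p.1 p.2 • g p.2) ((lcLaw (dm η) w T).prod (dm η)) ∧
      ∫ l, Ch.pe j g l ∂(lcLaw (dm η) w T) = ∫ y, g y ∂(dm η) := by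
  have := lc_spd_prob hη
  have := s4pc_law_prob hη hw hT
  have hs := s4pc_snd hη hw hT hκ Ch j
  have hKm : Measurable fun p : E × E => ENNReal.ofReal (Ch.K j p.1 p.2) := (Ch.meas j).ennreal_ofReal
  have hae : (fun p : E × E => (ENNReal.ofReal (Ch.K j p.1 p.2)).toReal • g p.2)
      =ᵐ[(lcLaw (dm η) w T).prod (dm η)] fun p => Ch.K j p.1 p.2 • g p.2 := by
    filter_upwards [s4pc_nonneg_prod hη hw hT hκ Ch j] with p hp
    rw [ENNReal.toReal_ofReal hp]
  have hg' : Integrable g ((pcJoint Ch j).map Prod.snd) := by rw [hs]; exact hg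
  have h1 : Integrable (g ∘ Prod.snd) (pcJoint Ch j) :=
    (integrable_map_measure hg'.1 measurable_snd.aemeasurable).1 hg'
  have h2 : Integrable (fun p : E × E => (ENNReal.ofReal (Ch.K j p.1 p.2)).toReal • g p.2)
      ((lcLaw (dm η) w T).prod (dm η)) :=
    (integrable_withDensity_iff_integrable_smul' hKm (Eventually.of_forall fun _ => ENNReal.ofReal_lt_top)).1 h1
  have h3 := h2.congr hae
  refine ⟨h3, ?_⟩
  calc ∫ l, Ch.pe j g l ∂(lcLaw (dm η) w T)
      = ∫ p, Ch.K j p.1 p.2 • g p.2 ∂((lcLaw (dm η) w T).prod (dm η)) := (integral_prod _ h3).symm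
    _ = ∫ p, (ENNReal.ofReal (Ch.K j p.1 p.2)).toReal • g p.2 ∂((lcLaw (dm η) w T).prod (dm η)) :=
        (integral_congr_ae hae).symm
    _ = ∫ p, g p.2 ∂(pcJoint Ch j) :=
        (integral_withDensity_eq_integral_toReal_smul hKm
          (Eventually.of_forall fun _ => ENNReal.ofReal_lt_top) _).symm
    _ = ∫ y, g y ∂((pcJoint Ch j).map Prod.snd) :=
        (integral_map measurable_snd.aemeasurable hg'.1).symm
    _ = _ := by rw [hs]

end fields

/-- generates the equation lemmas of the definitions above in this file (rule 6: unique names) -/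
theorem s4probechainb_eqns_cite : True := by
  have := @pcJoint.eq_1
  trivial

end Claimed.Agent.R259
end

/- ===== packed: Claimed.Agent.R259.S4ProbeChainC ===== -/
section
/-
Row 259 (S0499), Lemma 4.1, leaf L-S4Probe-chain (helper220): proofs, part C.
-/
set_option autoImplicit false

open MeasureTheory Filter Topology ProbabilityTheory InformationTheory
open scoped ContDiff ENNReal

namespace Claimed.Agent.R259

variable {E : Type} [NormedAddCommGroup E] [InnerProductSpace ℝ E] [FiniteDimensional ℝ E]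
  [MeasurableSpace E] [BorelSpace E]

variable {η : E → ℝ} {w : E → E} {T κ : ℝ}

section fields

variable {F : Type} [NormedAddCommGroup F] [InnerProductSpace ℝ F] [FiniteDimensional ℝ F]

/-- Jensen for one bounded probability density. -/
theorem s4pc_jensen {m : Measure E} [IsProbabilityMeasure m] {k : E → ℝ} (hkm : Measurable k) {B : ℝ}
    (hk : ∀ᵐ y ∂m, 0 ≤ k y ∧ k y ≤ B) (h1 : ∫ y, k y ∂m = 1) {g : E → F} (hg : MemLp g 2 m) :
    ‖∫ y, k y • g y ∂m‖ ^ 2 ≤ ∫ y, k y • ‖g y‖ ^ 2 ∂m := by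
  set kp : E → ℝ := fun y => max (k y) 0 with hkp
  have hae : kp =ᵐ[m] k := hk.mono fun y hy => max_eq_left hy.1
  have hkpm : Measurable kp := hkm.max measurable_const
  have hkpb : ∀ᵐ y ∂m, ‖kp y‖ ≤ B := hk.mono fun y hy => by
    rw [hkp]; simp only; rw [max_eq_left hy.1, Real.norm_eq_abs, abs_of_nonneg hy.1]; exact hy.2
  have hg1 : Integrable g m := hg.integrable (by norm_num)
  have hg2 : Integrable (fun y => ‖g y‖ ^ 2) m := hg.integrable_norm_pow (by norm_num)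
  have i1 : Integrable kp m := Integrable.of_bound hkpm.aestronglyMeasurable B hkpb
  have i2 : Integrable (fun y => kp y • g y) m :=
    hg1.bdd_smul B hkpm.aestronglyMeasurable hkpb
  have i3 : Integrable (fun y => kp y * ‖g y‖ ^ 2) m :=
    hg2.bdd_mul hkpm.aestronglyMeasurable hkpb
  have e1 : ∫ y, kp y ∂m = 1 := by rw [integral_congr_ae hae, h1]
  have h := hcx_cs (m := m) (k := kp) (g := g) (fun y => le_max_right _ _) i1 i2 i3 (by rw [e1]; exact one_pos)
  rw [e1, inv_one, one_smul, one_mul] at h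
  have e2 : ∫ y, kp y • g y ∂m = ∫ y, k y • g y ∂m :=
    integral_congr_ae (hae.mono fun y hy => by simp only [hy])
  have e3 : ∫ y, kp y * ‖g y‖ ^ 2 ∂m = ∫ y, k y • ‖g y‖ ^ 2 ∂m :=
    integral_congr_ae (hae.mono fun y hy => by simp only [hy, smul_eq_mul])
  rwa [e2, e3] at h

theorem s4pc_Q_le (hη : SPD η) (hw : Continuous w) (hT : 0 ≤ T) (hκ : 0 < κ) (Ch : PChain η w T κ)
    (j : ℕ) {g : E → F} (hg : MemLp g 2 (dm η)) :
    Integrable (fun l => ‖Ch.pe j g l‖ ^ 2) (lcLaw (dm η) w T) ∧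
      Ch.Q j g ≤ ∫ y, ‖g y‖ ^ 2 ∂(dm η) := by
  have := lc_spd_prob hη
  have := s4pc_law_prob hη hw hT
  have hg1 : Integrable g (dm η) := hg.integrable (by norm_num)
  have hg2 : Integrable (fun y => ‖g y‖ ^ 2) (dm η) := hg.integrable_norm_pow (by norm_num)
  obtain ⟨a1, _⟩ := s4pc_marginal hη hw hT hκ Ch j hg1
  obtain ⟨b1, b2⟩ := s4pc_marginal hη hw hT hκ Ch j hg2
  have hpe : Integrable (Ch.pe j g) (lcLaw (dm η) w T) := a1.integral_prod_left
  have hpe2 : Integrable (Ch.pe j fun y => ‖g y‖ ^ 2) (lcLaw (dm η) w T) := b1.integral_prod_left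
  have hle : ∀ᵐ l ∂(lcLaw (dm η) w T), ‖Ch.pe j g l‖ ^ 2 ≤ Ch.pe j (fun y => ‖g y‖ ^ 2) l := by
    filter_upwards [s4pc_bdd_law hη hw hT hκ Ch j] with l hl
    exact s4pc_jensen (s4pc_sec_meas Ch j l) hl.1 hl.2 hg
  have hint : Integrable (fun l => ‖Ch.pe j g l‖ ^ 2) (lcLaw (dm η) w T) := by
    refine hpe2.mono' (hpe.1.norm.pow 2) (hle.mono fun l hl => ?_)
    rw [Real.norm_eq_abs, abs_of_nonneg (by positivity)]
    exact hl
  refine ⟨hint, ?_⟩
  rw [← b2]
  exact integral_mono_ae hint hpe2 hle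

end fields

theorem s4pc_pe_zero {F : Type} [NormedAddCommGroup F] [NormedSpace ℝ F] (Ch : PChain η w T κ) (g : E → F)
    (l : E) : Ch.pe 0 g l = lcE (dm η) w T g l := by
  unfold PChain.pe lcE
  simp_rw [Ch.zero, mul_smul]
  rw [integral_smul]

theorem s4pc_integral_law {F : Type} [NormedAddCommGroup F] [NormedSpace ℝ F] (hη : SPD η)
    (hw : Continuous w) (hT : 0 ≤ T) (g : E → F) :
    ∫ l, g l ∂(lcLaw (dm η) w T) = ∫ l, lcZ (dm η) w T l • g l ∂(stdGaussian E) := by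
  unfold lcLaw
  rw [integral_withDensity_eq_integral_toReal_smul (s4pc_lcZ_meas hη hw T).ennreal_ofReal
    (Eventually.of_forall fun _ => ENNReal.ofReal_lt_top)]
  refine integral_congr_ae (Eventually.of_forall fun l => ?_)
  simp only
  rw [ENNReal.toReal_ofReal (s4pc_Z_pos hη hw hT l).le]

theorem s4pc_Q_zero {F : Type} [NormedAddCommGroup F] [NormedSpace ℝ F] (hη : SPD η) (hw : Continuous w)
    (hT : 0 ≤ T) (Ch : PChain η w T κ) (g : E → F) : Ch.Q 0 g = lcPE (dm η) w T g := by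
  unfold PChain.Q lcPE
  rw [s4pc_integral_law hη hw hT]
  simp_rw [s4pc_pe_zero, smul_eq_mul, mul_comm]

theorem s4pc_klFun_bdd (B : ℝ) : ∃ C, ∀ x, 0 ≤ x → x ≤ B → |klFun x| ≤ C := by
  obtain ⟨C, hC⟩ := (isCompact_Icc (a := (0 : ℝ)) (b := B)).exists_bound_of_continuousOn
    continuous_klFun.continuousOn
  exact ⟨C, fun x h0 h1 => hC x ⟨h0, h1⟩⟩

theorem s4pc_J_zero (hη : SPD η) (hw : Continuous w) (hw2 : MemLp w 2 (dm η)) (hT : 0 ≤ T)
    (Ch : PChain η w T κ) :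
    Integrable (Ch.H 0) (lcLaw (dm η) w T) ∧
      Ch.J 0 = T / 2 * ∫ x, ‖w x‖ ^ 2 ∂(dm η) - lcD (dm η) w T := by
  have := lc_spd_prob hη
  have := s4pc_law_prob hη hw hT
  have hMI := lc_MI hw2 hT
  have hc : 0 ≤ T / 2 * ∫ x, ‖w x‖ ^ 2 ∂(dm η) - lcD (dm η) w T := sub_nonneg.2 (lc_D_le hw2 hT)
  have hH0 : ∀ l, 0 ≤ Ch.H 0 l := fun l => integral_nonneg fun y => klFun_nonneg (by
    rw [Ch.zero]; exact (s4pc_K0_bdd hη hw hT l y).1)
  have hkl : ∀ l, klDiv (lcPm (dm η) w T l) (dm η) = ENNReal.ofReal (Ch.H 0 l) := by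
    intro l
    rw [lc_klDiv_Pm hw.aemeasurable hT, entF]
    obtain ⟨C, hC⟩ := s4pc_klFun_bdd (pcB η w T l)
    have hi : Integrable (fun y => klFun (Ch.K 0 l y)) (dm η) := by
      refine Integrable.of_bound (continuous_klFun.measurable.comp (s4pc_sec_meas Ch 0 l)).aestronglyMeasurable C
        (Eventually.of_forall fun y => ?_)
      have := s4pc_K0_bdd hη hw hT l y
      rw [Ch.zero]
      exact hC _ this.1 this.2
    unfold PChain.H
    rw [ofReal_integral_eq_lintegral_ofReal hi (Eventually.of_forall fun y => klFun_nonneg (by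
      rw [Ch.zero]; exact (s4pc_K0_bdd hη hw hT l y).1))]
    simp_rw [Ch.zero]
  simp_rw [hkl] at hMI
  have hm : StronglyMeasurable (Ch.H 0) := by
    have : StronglyMeasurable fun p : E × E => klFun (Ch.K 0 p.1 p.2) :=
      (continuous_klFun.measurable.comp (Ch.meas 0)).stronglyMeasurable
    exact this.integral_prod_right'
  have hint : Integrable (Ch.H 0) (lcLaw (dm η) w T) := by
    refine ⟨hm.aestronglyMeasurable, ?_⟩
    rw [hasFiniteIntegral_iff_ofReal (Eventually.of_forall hH0), hMI]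
    exact ENNReal.ofReal_lt_top
  refine ⟨hint, ?_⟩
  unfold PChain.J
  rw [integral_eq_lintegral_of_nonneg_ae (Eventually.of_forall hH0) hm.aestronglyMeasurable, hMI,
    ENNReal.toReal_ofReal hc]

end Claimed.Agent.R259
end

/- ===== packed: Claimed.Agent.R259.S4ProbeChain ===== -/
section
/-
Row 259 (S0499), Lemma 4.1 (efficient Gaussian probes), sub-blueprint of helper220: package L-S4Probe-chain (the family of conditional densities).
EXPORT FILE of a leaf package: the package owner OWNS this file, keeps names and statements (report a false / awkward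
statement to helper220 at once), replaces every `sorry`, and may add helper files `S4ProbeChain*.lean`.
HINTS.  Existence: recursion with `op_res_param` (kit OP, helper217: jointly measurable resolvent of a jointly measurable
family in `L²(Λ' ⊗ η)`), applied with the FINITE measure `dΛ' = dγ / (1 + B(l)²)`, `B(l) = exp(|l|²/2) / lcZ l`, which is
equivalent to `γ` (note `0 ≤ K 0 l y ≤ B(l)` because `√T⟨l,s⟩ - T|s|²/2 ≤ |l|²/2`; `K 0` is in general NOT in `L²(Λ ⊗ η)`).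
Bounds and mass: `op_res_nonneg`, `op_res_le`, `op_res_integral`.  Marginal: for bounded `g`, symmetry `op_res_symm` gives
`∫ g K_{j+1}(l) dη = ∫ (J g) K_j(l) dη`, induction on `j`, `∫ J g dη = ∫ g dη`; `j = 0`: Fubini and `∫ lcK dγ(l) = 1`;
then monotone convergence / density.  `Q_le`: Cauchy-Schwarz `|∫ K g|² ≤ ∫ K |g|²` and the marginal identity.
`J_zero`: `lc_MI`, `lc_klDiv_Pm` (ImmseLc).
-/
set_option autoImplicit false

open MeasureTheory Filter Topology ProbabilityTheory InformationTheory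
open scoped ContDiff ENNReal

namespace Claimed.Agent.R259

variable {E : Type} [NormedAddCommGroup E] [InnerProductSpace ℝ E] [FiniteDimensional ℝ E]
  [MeasurableSpace E] [BorelSpace E]

variable {η : E → ℝ} {w : E → E} {T κ : ℝ}

theorem s4p_chain_exists (hη : SPD η) (hw : Continuous w) (hw2 : MemLp w 2 (dm η)) (hT : 0 ≤ T)
    (hκ : 0 < κ) : Nonempty (PChain η w T κ) :=
  s4pc_chain_exists hη hw hT hκ

theorem s4p_chain_bdd (hη : SPD η) (hw : Continuous w) (hw2 : MemLp w 2 (dm η)) (hT : 0 ≤ T)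
    (hκ : 0 < κ) (Ch : PChain η w T κ) (j : ℕ) :
    ∀ᵐ l ∂(stdGaussian E), (∀ᵐ y, 0 ≤ Ch.K j l y ∧
      Ch.K j l y ≤ (lcZ (dm η) w T l)⁻¹ * Real.exp (‖l‖ ^ 2 / 2)) ∧
      ∫ y, Ch.K j l y ∂(dm η) = 1 :=
  s4pc_chain_bdd hη hw hT hκ Ch j

section fields

variable {F : Type} [NormedAddCommGroup F] [InnerProductSpace ℝ F] [FiniteDimensional ℝ F]

/-- the `Y_j`-marginal of the joint law is `η`. -/
theorem s4p_marginal (hη : SPD η) (hw : Continuous w) (hw2 : MemLp w 2 (dm η)) (hT : 0 ≤ T)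
    (hκ : 0 < κ) (Ch : PChain η w T κ) (j : ℕ) {g : E → F} (hg : Integrable g (dm η)) :
    Integrable (fun p : E × E => Ch.K j p.1 p.2 • g p.2) ((lcLaw (dm η) w T).prod (dm η)) ∧
      ∫ l, Ch.pe j g l ∂(lcLaw (dm η) w T) = ∫ y, g y ∂(dm η) :=
  s4pc_marginal hη hw hT hκ Ch j hg

/-- conditional Jensen. -/
theorem s4p_Q_le (hη : SPD η) (hw : Continuous w) (hw2 : MemLp w 2 (dm η)) (hT : 0 ≤ T)
    (hκ : 0 < κ) (Ch : PChain η w T κ) (j : ℕ) {g : E → F} (hg : MemLp g 2 (dm η)) :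
    Integrable (fun l => ‖Ch.pe j g l‖ ^ 2) (lcLaw (dm η) w T) ∧
      Ch.Q j g ≤ ∫ y, ‖g y‖ ^ 2 ∂(dm η) :=
  s4pc_Q_le hη hw hT hκ Ch j hg

theorem s4p_Q_zero (hη : SPD η) (hw : Continuous w) (hT : 0 ≤ T) (Ch : PChain η w T κ)
    (g : E → F) : Ch.Q 0 g = lcPE (dm η) w T g :=
  s4pc_Q_zero hη hw hT Ch g

end fields

/-- `MI(L_T; Y_0) = T I / 2 - d(T)`. -/
theorem s4p_J_zero (hη : SPD η) (hw : Continuous w) (hw2 : MemLp w 2 (dm η)) (hT : 0 ≤ T)
    (Ch : PChain η w T κ) :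
    Integrable (Ch.H 0) (lcLaw (dm η) w T) ∧
      Ch.J 0 = T / 2 * ∫ x, ‖w x‖ ^ 2 ∂(dm η) - lcD (dm η) w T :=
  s4pc_J_zero hη hw hw2 hT Ch

end Claimed.Agent.R259
end

/- ===== packed: Claimed.Agent.R259.S4ProbeStep ===== -/
section
/-
Row 259 (S0499), Lemma 4.1 (efficient Gaussian probes), sub-blueprint of helper220: package L-S4Probe-step (integration of the one-step inequality over the labels).
EXPORT FILE of a leaf package: the package owner OWNS this file, keeps names and statements (report a false / awkward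
statement to helper220 at once), replaces every `sorry`, and may add helper files `S4ProbeStep*.lean`.
PROOF: `s4p_pls` for `k = Ch.K j l`, `k' = Ch.K (j+1) l` (a.e. `l`; `s4p_chain_bdd`), integrate against `Λ = lcLaw (dm η) w T`
(`Λ ≪ γ`).  `∫∫ K_{j+1} h dη dΛ = ∫ h dη = I/2` (`s4p_marginal`, `StrictBranch.I_eq`, `η_eq`).  Integrability of `Ch.H j`:
induction from `s4p_J_zero` with `0 ≤ H (j+1) l ≤ H j l`; measurability from `Ch.meas`.  The constant `C` is that of `s4p_pls`.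
-/
set_option autoImplicit false

open MeasureTheory Filter Topology ProbabilityTheory InformationTheory
open scoped ContDiff ENNReal

namespace Claimed.Agent.R259

variable {E : Type} [NormedAddCommGroup E] [InnerProductSpace ℝ E] [FiniteDimensional ℝ E]
  [MeasurableSpace E] [BorelSpace E]

theorem s4ps_H_meas {η : E → ℝ} {w : E → E} {T κ : ℝ} (hη : SPD η) (Ch : PChain η w T κ) (j : ℕ) :
    StronglyMeasurable (Ch.H j) := by
  have := lc_spd_prob hη
  have : StronglyMeasurable fun p : E × E => klFun (Ch.K j p.1 p.2) :=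
    (continuous_klFun.measurable.comp (Ch.meas j)).stronglyMeasurable
  exact this.integral_prod_right'

theorem s4ps_H_nonneg {η : E → ℝ} {w : E → E} {T κ : ℝ} (hη : SPD η) (hw : Continuous w) (hT : 0 ≤ T)
    (hκ : 0 < κ) (Ch : PChain η w T κ) (j : ℕ) : ∀ᵐ l ∂(lcLaw (dm η) w T), 0 ≤ Ch.H j l := by
  filter_upwards [s4pc_bdd_law hη hw hT hκ Ch j] with l hl
  exact integral_nonneg_of_ae (hl.1.mono fun y hy => klFun_nonneg hy.1)

theorem s4p_step : ∃ C : ℝ, 0 < C ∧ ∀ (E : Type) [NormedAddCommGroup E] [InnerProductSpace ℝ E]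
    [FiniteDimensional ℝ E] [MeasurableSpace E] [BorelSpace E] (μ : Measure E) (a δ : ℝ)
    (η : E → ℝ) (w : E → E) (f : E → ℝ), PData μ a δ η w f → a ≤ 1 →
    ∀ (T κ : ℝ), 0 ≤ T → 0 < κ → ∀ (Ch : PChain η w T κ) (j : ℕ),
      0 ≤ Ch.J j ∧
      κ * ((2 - C * Real.sqrt a) * Ch.J (j + 1) + 56 * Ch.Q (j + 1) (fun y => y)
          - 3 / 2 * (C * Real.sqrt a) * ∫ x, ‖w x‖ ^ 2 ∂(dm η))
        ≤ (1 + C * Real.sqrt a) * (Ch.J j - Ch.J (j + 1)) ∧
      Ch.Q (j + 1) (postMean μ s0) ≤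
        C * a ^ 2 * (Ch.J (j + 1) + (∫ x, ‖w x‖ ^ 2 ∂(dm η)) / 2) := by
  obtain ⟨C, hC, hP⟩ := s4p_pls
  refine ⟨C, hC, ?_⟩
  intro E _ _ _ _ _ μ a δ η w f hD ha T κ hT hκ Ch j
  have hη := hD.crit.field.spd
  have hw : Continuous w := hD.crit.field.w_smooth.continuous
  have hw2 := hD.crit.field.w_L2
  have hb : BaseLaw μ a := hD.crit.base.toBaseLaw
  have := hb.prob
  have := lc_spd_prob hη
  have := s4pc_law_prob hη hw hT
  have hs : (0 : ℝ) < s0 := by unfold s0; norm_num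
  have hν : SPD (gconv μ s0) := gc_spd hb.bdd hs
  set Λ := lcLaw (dm η) w T with hΛ
  set h : E → ℝ := fun y => Real.log (f y ^ 2) with hh
  -- the pointwise inequalities
  have hpt : ∀ i : ℕ, ∀ᵐ l ∂Λ,
      κ * ((2 - C * Real.sqrt a) * Ch.H (i + 1) l + 56 * ‖Ch.pe (i + 1) (fun y => y) l‖ ^ 2
          - 3 * (C * Real.sqrt a) * Ch.pe (i + 1) h l)
        ≤ (1 + C * Real.sqrt a) * (Ch.H i l - Ch.H (i + 1) l) ∧
      ‖Ch.pe (i + 1) (postMean μ s0) l‖ ^ 2 ≤ C * a ^ 2 * (Ch.H (i + 1) l + Ch.pe (i + 1) h l) ∧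
      Ch.H (i + 1) l ≤ Ch.H i l := by
    intro i
    refine (s4pc_law_ac η w T).ae_le ?_
    filter_upwards [s4pc_chain_bdd hη hw hT hκ Ch i, Ch.res i] with l hl hr
    exact hP E μ a δ η w f hD ha κ (pcB η w T l) (Ch.K i l) (Ch.K (i + 1) l) (Ch.G (i + 1) l) hκ
      (s4pc_sec_meas Ch i l) hl.1 hl.2 hr
  -- integrability
  have hHi : ∀ i : ℕ, Integrable (Ch.H i) Λ := by
    intro i
    induction i with
    | zero => exact (s4pc_J_zero hη hw hw2 hT Ch).1
    | succ i ih =>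
      refine ih.mono' (s4ps_H_meas hη Ch (i + 1)).aestronglyMeasurable ?_
      filter_upwards [hpt i, s4ps_H_nonneg hη hw hT hκ Ch (i + 1)] with l h1 h2
      rw [Real.norm_eq_abs, abs_of_nonneg h2]
      exact h1.2.2
  have hid2 : MemLp (fun y : E => y) 2 (dm η) :=
    (memLp_two_iff_integrable_sq_norm aestronglyMeasurable_id).2 hD.crit.field.mom2
  have hb2 : MemLp (postMean μ s0) 2 (dm η) := by
    obtain ⟨r, hr⟩ := hb.bdd
    exact MemLp.of_bound (gc_postMean_contDiff hb.bdd hs).continuous.aestronglyMeasurable r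
      (Eventually.of_forall fun y => gc_postMean_norm_le hr hs y)
  have hhi : Integrable h (dm η) := s4pl_logf_int hD.strict hν
  obtain ⟨q1, _⟩ := s4pc_Q_le hη hw hT hκ Ch (j + 1) hid2
  obtain ⟨q2, _⟩ := s4pc_Q_le hη hw hT hκ Ch (j + 1) hb2
  obtain ⟨m1, m2⟩ := s4pc_marginal hη hw hT hκ Ch (j + 1) hhi
  have hpeh : Integrable (Ch.pe (j + 1) h) Λ := m1.integral_prod_left
  have hI : ∫ y, h y ∂(dm η) = (∫ x, ‖w x‖ ^ 2 ∂(dm η)) / 2 := by
    rw [(s4pl_dm_eta hD.strict hν h).2, hD.strict.I_eq]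
    simp only [smul_eq_mul, hh]
    ring
  rw [hI] at m2
  refine ⟨integral_nonneg_of_ae (s4ps_H_nonneg hη hw hT hκ Ch j), ?_, ?_⟩
  · have hL : Integrable (fun l => κ * ((2 - C * Real.sqrt a) * Ch.H (j + 1) l
        + 56 * ‖Ch.pe (j + 1) (fun y => y) l‖ ^ 2 - 3 * (C * Real.sqrt a) * Ch.pe (j + 1) h l)) Λ :=
      ((((hHi (j + 1)).const_mul _).add (q1.const_mul 56)).sub (hpeh.const_mul _)).const_mul κ
    have hR : Integrable (fun l => (1 + C * Real.sqrt a) * (Ch.H j l - Ch.H (j + 1) l)) Λ :=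
      ((hHi j).sub (hHi (j + 1))).const_mul _
    have hmono := integral_mono_ae hL hR ((hpt j).mono fun l hl => hl.1)
    have i3 : Integrable (fun l => (2 - C * Real.sqrt a) * Ch.H (j + 1) l) Λ := (hHi (j + 1)).const_mul _
    have i4 : Integrable (fun l => 56 * ‖Ch.pe (j + 1) (fun y => y) l‖ ^ 2) Λ := q1.const_mul 56
    have i1 : Integrable (fun l => (2 - C * Real.sqrt a) * Ch.H (j + 1) l
        + 56 * ‖Ch.pe (j + 1) (fun y => y) l‖ ^ 2) Λ := i3.add i4
    have i2 : Integrable (fun l => 3 * (C * Real.sqrt a) * Ch.pe (j + 1) h l) Λ := hpeh.const_mul _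
    rw [integral_const_mul, integral_const_mul, integral_sub (hHi j) (hHi (j + 1)),
      integral_sub i1 i2, integral_add i3 i4, integral_const_mul, integral_const_mul,
      integral_const_mul, m2] at hmono
    unfold PChain.J PChain.Q
    rw [← hΛ]
    linarith
  · have hR : Integrable (fun l => C * a ^ 2 * (Ch.H (j + 1) l + Ch.pe (j + 1) h l)) Λ :=
      ((hHi (j + 1)).add hpeh).const_mul _
    have hmono := integral_mono_ae q2 hR ((hpt j).mono fun l hl => hl.2.1)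
    rw [integral_const_mul, integral_add (hHi (j + 1)) hpeh, m2] at hmono
    exact hmono

end Claimed.Agent.R259
end

/- ===== packed: Claimed.Agent.R259.S4ProbeRec ===== -/
section
/-
Row 259 (S0499), Lemma 4.1 (efficient Gaussian probes), sub-blueprint of helper220: package L-S4Probe-rec (position and score recursions; extraction of the predicted score).
EXPORT FILE of a leaf package: the package owner OWNS this file, keeps names and statements (report a false / awkward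
statement to helper220 at once), replaces every `sorry`, and may add helper files `S4ProbeRec*.lean`.
PROOF.  `pos_rec`: test `IsRes η κ (K j l) (K (j+1) l) (G (j+1) l)` with the coordinate `z = ⟨e, y⟩` (`H¹(η)` by `mom2`);
`ws_classical_dom` / `op_dom_classical`: `∫ ⟨G, e⟩ dη = ∫ K_{j+1} opA η z dη`, `opA η z = -⟨e, ∇ log η⟩ = ⟨e, (y - b)/s0 - w⟩`
(`StrictBranch.drift`).  `score_rec`: the same with `z = ⟨e, w⟩`, `opA η w = w - K w` (`CritField.eqn`, `lam = 1`).
`extract`: `s4p_det` pointwise in `l` (`s0⁻¹ = 8`), integrate (`s4p_Q_le` gives integrability).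
-/
set_option autoImplicit false

open MeasureTheory Filter Topology ProbabilityTheory InformationTheory
open scoped ContDiff ENNReal

namespace Claimed.Agent.R259

variable {E : Type} [NormedAddCommGroup E] [InnerProductSpace ℝ E] [FiniteDimensional ℝ E]
  [MeasurableSpace E] [BorelSpace E]

variable {μ : Measure E} {a δ : ℝ} {η : E → ℝ} {w : E → E} {f : E → ℝ} {T κ : ℝ}

omit [FiniteDimensional ℝ E] in
theorem s4pr_int_smul {m : Measure E} {k : E → ℝ} {g : E → E} (hk : MemLp k 2 m) (hg : MemLp g 2 m) :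
    Integrable (fun y => k y • g y) m :=
  memLp_one_iff_integrable.1 (hg.smul hk)

/-- test the resolvent equation with the components of a classical field in the domain of `A_η`. -/
theorem s4pr_rec (hη : SPD η) {k k' : E → ℝ} {g' : E → E} (hk : MemLp k 2 (dm η))
    (hr : IsRes η κ k k' g') {g : E → E} (hg : ContDiff ℝ ∞ g) (hg2 : MemLp g 2 (dm η))
    (hA : MemLp (opA η g) 2 (dm η)) :
    ∫ y, k' y • g y ∂(dm η) + κ • ∫ y, k' y • opA η g y ∂(dm η) = ∫ y, k y • g y ∂(dm η) := by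
  have hk' : MemLp k' 2 (dm η) := hr.1.2.1
  refine ext_inner_left ℝ fun e => ?_
  rw [inner_add_right, inner_smul_right, ← integral_inner (s4pr_int_smul hk' hg2),
    ← integral_inner (s4pr_int_smul hk' hA), ← integral_inner (s4pr_int_smul hk hg2)]
  simp_rw [inner_smul_right]
  set z : E → ℝ := fun y => inner ℝ e (g y) with hz
  have hzs : ContDiff ℝ ∞ z := contDiff_const.inner ℝ hg
  have hz2 : MemLp z 2 (dm η) := hg2.const_inner e
  have hAz : opA η z = fun y => inner ℝ e (opA η g y) :=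
    funext fun y => opc_inner_left e (hg.contDiffAt.of_le (by norm_cast))
  have hAz2 : MemLp (opA η z) 2 (dm η) := by rw [hAz]; exact hA.const_inner e
  have hd := op_dom_classical hη.1 hη.2.1 hzs hz2 hAz2
  have h1 := hr.2 z (gradient z) hd.1
  have h2 := hd.2.2 k' g' hr.1
  rw [hAz] at h2
  simp_rw [real_inner_comm (g' _) (gradient z _)] at h2
  rw [h2] at h1
  simp_rw [mul_comm (inner ℝ e (opA η g _)) (k' _)] at h1
  exact h1

theorem s4pr_memLp (hD : PData μ a δ η w f) :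
    MemLp (fun y : E => y) 2 (dm η) ∧ MemLp (postMean μ s0) 2 (dm η) ∧
      MemLp (fun y => hessK μ s0 y (w y)) 2 (dm η) := by
  have hη := hD.crit.field.spd
  have hb : BaseLaw μ a := hD.crit.base.toBaseLaw
  have := hb.prob
  have := lc_spd_prob hη
  have hs : (0 : ℝ) < s0 := by unfold s0; norm_num
  refine ⟨(memLp_two_iff_integrable_sq_norm aestronglyMeasurable_id).2 hD.crit.field.mom2, ?_, ?_⟩
  · obtain ⟨r, hr⟩ := hb.bdd
    exact MemLp.of_bound (gc_postMean_contDiff hb.bdd hs).continuous.aestronglyMeasurable r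
      (Eventually.of_forall fun y => gc_postMean_norm_le hr hs y)
  · have hc : Continuous fun y => hessK μ s0 y (w y) :=
      (gc_hessK_contDiff hb.bdd hs).continuous.clm_apply hD.crit.field.w_smooth.continuous
    refine (hD.crit.field.w_L2.const_smul s0⁻¹).mono hc.aestronglyMeasurable
      (Eventually.of_forall fun y => ?_)
    calc ‖hessK μ s0 y (w y)‖ ≤ ‖hessK μ s0 y‖ * ‖w y‖ := ContinuousLinearMap.le_opNorm _ _
      _ ≤ s0⁻¹ * ‖w y‖ := by gcongr; exact gc_hessK_norm_le hb.bdd hb.dens hs y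
      _ = ‖s0⁻¹ • w y‖ := by rw [norm_smul, Real.norm_eq_abs, abs_of_pos (inv_pos.2 hs)]

theorem s4p_pos_rec (hD : PData μ a δ η w f) (hT : 0 ≤ T) (hκ : 0 < κ) (Ch : PChain η w T κ)
    (j : ℕ) : ∀ᵐ l ∂(stdGaussian E),
      (1 + κ * s0⁻¹) • Ch.pe (j + 1) (fun y => y) l - Ch.pe j (fun y => y) l =
        κ • Ch.pe (j + 1) w l + (κ * s0⁻¹) • Ch.pe (j + 1) (postMean μ s0) l := by
  have hη := hD.crit.field.spd
  have hw : Continuous w := hD.crit.field.w_smooth.continuous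
  have hw2 := hD.crit.field.w_L2
  obtain ⟨hid, hb2, _⟩ := s4pr_memLp hD
  have hAe : opA η (fun y : E => y) = fun y => s0⁻¹ • (y - postMean μ s0 y) - w y := by
    funext y
    rw [opc_id, hD.strict.drift]
    abel
  have hA2 : MemLp (opA η (fun y : E => y)) 2 (dm η) := by
    rw [hAe]
    exact ((hid.sub hb2).const_smul s0⁻¹).sub hw2
  filter_upwards [s4pc_chain_bdd hη hw hT hκ Ch j, Ch.res j] with l hl hr
  have hk := s4pc_memLp_of_bdd hη (s4pc_sec_meas Ch j l) hl.1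
  have hk' : MemLp (Ch.K (j + 1) l) 2 (dm η) := hr.1.2.1
  have h := s4pr_rec (g := fun y : E => y) hη hk hr contDiff_id hid hA2
  rw [hAe] at h
  have e1 : ∫ y, Ch.K (j + 1) l y • (s0⁻¹ • (y - postMean μ s0 y) - w y) ∂(dm η) =
      s0⁻¹ • (Ch.pe (j + 1) (fun y => y) l - Ch.pe (j + 1) (postMean μ s0) l) - Ch.pe (j + 1) w l := by
    unfold PChain.pe
    have j1 := s4pr_int_smul hk' hid
    have j2 := s4pr_int_smul hk' hb2
    have j3 := s4pr_int_smul hk' hw2
    have j4 : Integrable (fun y => s0⁻¹ • (Ch.K (j + 1) l y • y - Ch.K (j + 1) l y • postMean μ s0 y))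
        (dm η) := (j1.sub j2).smul s0⁻¹
    rw [← integral_sub j1 j2, ← integral_smul, ← integral_sub j4 j3]
    refine integral_congr_ae (Eventually.of_forall fun y => ?_)
    simp only
    module
  rw [e1] at h
  have h' : Ch.pe (j + 1) (fun y => y) l + κ • (s0⁻¹ • (Ch.pe (j + 1) (fun y => y) l
      - Ch.pe (j + 1) (postMean μ s0) l) - Ch.pe (j + 1) w l) = Ch.pe j (fun y => y) l := h
  rw [← h']
  module

theorem s4p_score_rec (hD : PData μ a δ η w f) (hT : 0 ≤ T) (hκ : 0 < κ) (Ch : PChain η w T κ)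
    (j : ℕ) : ∀ᵐ l ∂(stdGaussian E),
      (1 + κ) • Ch.pe (j + 1) w l - Ch.pe j w l =
        κ • Ch.pe (j + 1) (fun y => hessK μ s0 y (w y)) l := by
  have hη := hD.crit.field.spd
  have hw : Continuous w := hD.crit.field.w_smooth.continuous
  have hw2 := hD.crit.field.w_L2
  obtain ⟨_, _, hK2⟩ := s4pr_memLp hD
  have hAe : opA η w = fun y => w y - hessK μ s0 y (w y) := by
    funext y
    rw [hD.crit.field.eqn, one_smul]
  have hA2 : MemLp (opA η w) 2 (dm η) := by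
    rw [hAe]
    exact hw2.sub hK2
  filter_upwards [s4pc_chain_bdd hη hw hT hκ Ch j, Ch.res j] with l hl hr
  have hk := s4pc_memLp_of_bdd hη (s4pc_sec_meas Ch j l) hl.1
  have hk' : MemLp (Ch.K (j + 1) l) 2 (dm η) := hr.1.2.1
  have h := s4pr_rec hη hk hr hD.crit.field.w_smooth hw2 hA2
  rw [hAe] at h
  have e1 : ∫ y, Ch.K (j + 1) l y • (w y - hessK μ s0 y (w y)) ∂(dm η) =
      Ch.pe (j + 1) w l - Ch.pe (j + 1) (fun y => hessK μ s0 y (w y)) l := by
    unfold PChain.pe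
    rw [← integral_sub (s4pr_int_smul hk' hw2) (s4pr_int_smul hk' hK2)]
    refine integral_congr_ae (Eventually.of_forall fun y => ?_)
    simp only [smul_sub]
  rw [e1] at h
  have h' : Ch.pe (j + 1) w l + κ • (Ch.pe (j + 1) w l
      - Ch.pe (j + 1) (fun y => hessK μ s0 y (w y)) l) = Ch.pe j w l := h
  rw [← h']
  module

theorem s4p_Q_Kw (hD : PData μ a δ η w f) (hT : 0 ≤ T) (hκ : 0 < κ) (Ch : PChain η w T κ)
    (j : ℕ) : Ch.Q j (fun y => hessK μ s0 y (w y)) ≤ δ * ∫ x, ‖w x‖ ^ 2 ∂(dm η) :=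
  (s4pc_Q_le hD.crit.field.spd hD.crit.field.w_smooth.continuous hT hκ Ch j (s4pr_memLp hD).2.2).2.trans
    hD.crit.Kw_small

theorem s4p_extract (hD : PData μ a δ η w f) (hT : 0 ≤ T) {N : ℕ} (hN : 2 ≤ N)
    (Ch : PChain η w T (1 / (N : ℝ))) :
    Ch.Q 0 w ≤ 19200 * (1 / (N : ℝ) * ∑ i ∈ Finset.range N,
      (Ch.Q (i + 1) (fun y => y) + Ch.Q (i + 1) (fun y => hessK μ s0 y (w y))
        + Ch.Q (i + 1) (postMean μ s0))) := by
  have hη := hD.crit.field.spd
  have hw : Continuous w := hD.crit.field.w_smooth.continuous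
  have hw2 := hD.crit.field.w_L2
  have hκ : (0 : ℝ) < 1 / (N : ℝ) := by
    have : 0 < N := by omega
    positivity
  obtain ⟨hid, hb2, hK2⟩ := s4pr_memLp hD
  have hs8 : s0⁻¹ = 8 := by unfold s0; norm_num
  set Λ := lcLaw (dm η) w T with hΛ
  have hpt : ∀ᵐ l ∂Λ, ‖Ch.pe 0 w l‖ ^ 2 ≤ 19200 * (1 / (N : ℝ) * ∑ i ∈ Finset.range N,
      (‖Ch.pe (i + 1) (fun y => y) l‖ ^ 2 + ‖Ch.pe (i + 1) (fun y => hessK μ s0 y (w y)) l‖ ^ 2
        + ‖Ch.pe (i + 1) (postMean μ s0) l‖ ^ 2)) := by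
    refine (s4pc_law_ac η w T).ae_le ?_
    have h1 : ∀ᵐ l ∂(stdGaussian E), ∀ j : ℕ,
        (1 + 1 / (N : ℝ) * s0⁻¹) • Ch.pe (j + 1) (fun y => y) l - Ch.pe j (fun y => y) l =
        (1 / (N : ℝ)) • Ch.pe (j + 1) w l + (1 / (N : ℝ) * s0⁻¹) • Ch.pe (j + 1) (postMean μ s0) l :=
      ae_all_iff.2 fun j => s4p_pos_rec hD hT hκ Ch j
    have h2 : ∀ᵐ l ∂(stdGaussian E), ∀ j : ℕ,
        (1 + 1 / (N : ℝ)) • Ch.pe (j + 1) w l - Ch.pe j w l =
        (1 / (N : ℝ)) • Ch.pe (j + 1) (fun y => hessK μ s0 y (w y)) l :=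
      ae_all_iff.2 fun j => s4p_score_rec hD hT hκ Ch j
    filter_upwards [h1, h2] with l a1 a2
    rw [hs8] at a1
    exact s4p_det hN rfl (fun j => Ch.pe j (fun y => y) l) (fun j => Ch.pe j w l)
      (fun j => Ch.pe j (postMean μ s0) l) (fun j => Ch.pe j (fun y => hessK μ s0 y (w y)) l)
      (fun j _ => a1 j) (fun j _ => a2 j)
  have i0 := (s4pc_Q_le hη hw hT hκ Ch 0 hw2).1
  have i1 := fun i => (s4pc_Q_le hη hw hT hκ Ch (i + 1) hid).1
  have i2 := fun i => (s4pc_Q_le hη hw hT hκ Ch (i + 1) hK2).1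
  have i3 := fun i => (s4pc_Q_le hη hw hT hκ Ch (i + 1) hb2).1
  have i4 : ∀ i, Integrable (fun l => ‖Ch.pe (i + 1) (fun y => y) l‖ ^ 2
      + ‖Ch.pe (i + 1) (fun y => hessK μ s0 y (w y)) l‖ ^ 2 + ‖Ch.pe (i + 1) (postMean μ s0) l‖ ^ 2) Λ :=
    fun i => ((i1 i).add (i2 i)).add (i3 i)
  have isum : Integrable (fun l => ∑ i ∈ Finset.range N,
      (‖Ch.pe (i + 1) (fun y => y) l‖ ^ 2 + ‖Ch.pe (i + 1) (fun y => hessK μ s0 y (w y)) l‖ ^ 2
        + ‖Ch.pe (i + 1) (postMean μ s0) l‖ ^ 2)) Λ :=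
    integrable_finsetSum _ fun i _ => i4 i
  have hmono := integral_mono_ae i0 ((isum.const_mul _).const_mul 19200) hpt
  rw [integral_const_mul, integral_const_mul, integral_finsetSum _ fun i _ => i4 i] at hmono
  have e : ∀ i, ∫ l, (‖Ch.pe (i + 1) (fun y => y) l‖ ^ 2
      + ‖Ch.pe (i + 1) (fun y => hessK μ s0 y (w y)) l‖ ^ 2 + ‖Ch.pe (i + 1) (postMean μ s0) l‖ ^ 2) ∂Λ =
      Ch.Q (i + 1) (fun y => y) + Ch.Q (i + 1) (fun y => hessK μ s0 y (w y))
        + Ch.Q (i + 1) (postMean μ s0) := by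
    intro i
    have i5 : Integrable (fun l => ‖Ch.pe (i + 1) (fun y => y) l‖ ^ 2
      + ‖Ch.pe (i + 1) (fun y => hessK μ s0 y (w y)) l‖ ^ 2) Λ := (i1 i).add (i2 i)
    rw [integral_add i5 (i3 i), integral_add (i1 i) (i2 i)]
    rfl
  simp_rw [e] at hmono
  exact hmono

end Claimed.Agent.R259
end

/- ===== packed: Claimed.Agent.R259.S4ProbeLowA ===== -/
section
/-
Row 259 (S0499), Lemma 4.1, leaf L-S4Probe-low, part A (YOUNG): lower bound of the mutual information by a bounded test field.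
Sub-captain: helper220.  The owner of this part OWNS this file, keeps names and statements, replaces every `sorry`.
Tools (all PROVED): S4ProbeChainA/B/C (`s4pc_bdd_law`, `s4pc_marginal`, `s4pc_integral_law`, `s4pc_law_prob`, `s4pc_lcZ_meas`, `s4pc_Z_pos`, `s4pc_J_zero`),
S4ProbeStep (`s4ps_H_meas`, `s4ps_H_nonneg`), ImmseKer (`imm_mgf`, `imm_K_sq_integral`, ...), ImmseLc (`lc_klFun_integrable`, `lc_Z_integral`),
S4ProbePlsDis/Lim (`s4pl_dissip`, `s4pl_bounds`, `s4pl_lim_kl`), `ent_young` (Ent.lean).     `Λ = lcLaw (dm η) w T = lcZ dγ`.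

`s4pw_H_anti`: `s4pl_dissip` (left side ≥ 0) and `e ↓ 0` with `s4pl_lim_kl` for `k` and `k'` (`le_of_tendsto_of_tendsto`).
`s4pw_H_integrable`: induction from `s4pc_J_zero` (as in the proof of `s4p_step`, but WITHOUT `a ≤ 1`).
`s4pw_young`.  For `x ≥ 0` and real `g`: `klFun x ≥ x g - exp g + 1` (`ent_young`).  Fix `l` (a.e.), `K = Ch.K N l`, `g y = ⟨v y, l⟩ - |v y|²/2 - log (lcZ l)`:
   `Ch.H N l ≥ ⟨l, pe N v l⟩ - (1/2) pe N |v|² l - log (lcZ l) - (lcZ l)⁻¹ ∫ exp(⟨v y, l⟩ - |v y|²/2) dη(y) + 1`     (`∫ K dη = 1`).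
 Integrate `dΛ = lcZ dγ`:  `∫ pe N |v|² dΛ = ∫ |v|² dη` (`s4pc_marginal`),  `∫ log lcZ dΛ = ∫ lcZ log lcZ dγ = lcD` (`klFun z = z log z + 1 - z`, `lc_Z_integral`),
   `∫ (lcZ)⁻¹ (∫ exp(..) dη) dΛ = ∫∫ exp(⟨v y, l⟩ - |v y|²/2) dη dγ(l) = 1` (Tonelli/Fubini + `imm_mgf`).
 Integrability w.r.t. `Λ`: `|⟨l, pe N v l⟩| ≤ M |l|`, `∫ |l|² dΛ = ∫∫ lcK |l|² dγ dη < ∞` (`imm_K_sq_integral`, `w ∈ L²`).
-/
set_option autoImplicit false

open MeasureTheory Filter Topology ProbabilityTheory InformationTheory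
open scoped ContDiff ENNReal

namespace Claimed.Agent.R259

variable {E : Type} [NormedAddCommGroup E] [InnerProductSpace ℝ E] [FiniteDimensional ℝ E]
  [MeasurableSpace E] [BorelSpace E]

variable {η : E → ℝ} {w : E → E} {T κ : ℝ}

/-- the entropy decreases along one resolvent step. -/
theorem s4pw_H_anti (hη : SPD η) (hκ : 0 < κ) {B : ℝ} {k k' : E → ℝ} {g' : E → E} (hkm : Measurable k)
    (hk : ∀ᵐ y, 0 ≤ k y ∧ k y ≤ B) (hres : IsRes η κ k k' g') :
    ∫ y, klFun (k' y) ∂(dm η) ≤ ∫ y, klFun (k y) ∂(dm η) := by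
  have := lc_spd_prob hη
  obtain ⟨hb', _⟩ := s4pl_bounds hη.1.continuous hη.2.1 hκ hkm hk hres
  have hac := s4pc_ac η
  have hb'' : ∀ᵐ y ∂(dm η), 0 ≤ k' y ∧ k' y ≤ B := hac.ae_le hb'
  have l1 := s4pl_lim_kl (m := dm η) hkm.aestronglyMeasurable (hac.ae_le hk)
  have l2 := s4pl_lim_kl (m := dm η) hres.1.2.1.1 hb''
  refine le_of_tendsto_of_tendsto l2 l1 ?_
  filter_upwards [self_mem_nhdsWithin] with e he
  have he' : (0 : ℝ) < e := he
  have h1 := s4pl_dissip hη.1.continuous hη.2.1 hκ he' hkm hk hres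
  have h2 : 0 ≤ κ * ∫ y, ‖g' y‖ ^ 2 / (k' y + e) ∂(dm η) :=
    mul_nonneg hκ.le (integral_nonneg_of_ae (hb''.mono fun y hy =>
      div_nonneg (by positivity) (by linarith [hy.1])))
  linarith

theorem s4pw_H_integrable (hη : SPD η) (hw : Continuous w) (hw2 : MemLp w 2 (dm η)) (hT : 0 ≤ T)
    (hκ : 0 < κ) (Ch : PChain η w T κ) (j : ℕ) : Integrable (Ch.H j) (lcLaw (dm η) w T) := by
  induction j with
  | zero => exact (s4pc_J_zero hη hw hw2 hT Ch).1
  | succ i ih =>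
    refine ih.mono' (s4ps_H_meas hη Ch (i + 1)).aestronglyMeasurable ?_
    have hanti : ∀ᵐ l ∂(lcLaw (dm η) w T), Ch.H (i + 1) l ≤ Ch.H i l := by
      refine (s4pc_law_ac η w T).ae_le ?_
      filter_upwards [s4pc_chain_bdd hη hw hT hκ Ch i, Ch.res i] with l hl hr
      exact s4pw_H_anti hη hκ (s4pc_sec_meas Ch i l) hl.1 hr
    filter_upwards [hanti, s4ps_H_nonneg hη hw hT hκ Ch (i + 1)] with l h1 h2
    rw [Real.norm_eq_abs, abs_of_nonneg h2]
    exact h1

theorem s4pw_integrable_law {F : Type} [NormedAddCommGroup F] [NormedSpace ℝ F] (hη : SPD η)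
    (hw : Continuous w) (hT : 0 ≤ T) {g : E → F} :
    Integrable g (lcLaw (dm η) w T) ↔ Integrable (fun l => lcZ (dm η) w T l • g l) (stdGaussian E) := by
  unfold lcLaw
  rw [integrable_withDensity_iff_integrable_smul' (s4pc_lcZ_meas hη hw T).ennreal_ofReal
    (Eventually.of_forall fun _ => ENNReal.ofReal_lt_top)]
  refine integrable_congr (Eventually.of_forall fun l => ?_)
  simp only
  rw [ENNReal.toReal_ofReal (s4pc_Z_pos hη hw hT l).le]

theorem s4pw_sq_law (hη : SPD η) (hw : Continuous w) (hw2 : MemLp w 2 (dm η)) (hT : 0 ≤ T) :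
    Integrable (fun l : E => ‖l‖ ^ 2) (lcLaw (dm η) w T) := by
  have := lc_spd_prob hη
  have := lc_map_prob (m := dm η) hw.aemeasurable
  rw [s4pw_integrable_law hη hw hT]
  simp_rw [lc_Z_eq hw.aemeasurable, smul_eq_mul]
  exact imm_L_sq_integrable (lc_mom hw2) hT

theorem s4pw_log_law (hη : SPD η) (hw : Continuous w) (hw2 : MemLp w 2 (dm η)) (hT : 0 ≤ T) :
    Integrable (fun l : E => Real.log (lcZ (dm η) w T l)) (lcLaw (dm η) w T) ∧
      ∫ l, Real.log (lcZ (dm η) w T l) ∂(lcLaw (dm η) w T) = lcD (dm η) w T := by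
  have := lc_spd_prob hη
  have := lc_map_prob (m := dm η) hw.aemeasurable
  constructor
  · rw [s4pw_integrable_law hη hw hT]
    simp_rw [lc_Z_eq hw.aemeasurable, smul_eq_mul]
    exact imm_D_integrable (lc_mom hw2) hT
  · rw [s4pc_integral_law hη hw hT, lc_D_eq hw2 hT]
    simp_rw [lc_Z_eq hw.aemeasurable, smul_eq_mul]
    rfl

theorem s4pw_X_law (hη : SPD η) (hw : Continuous w) (hT : 0 ≤ T) {v : E → E} (hv : Measurable v) :
    Integrable (fun l : E => (lcZ (dm η) w T l)⁻¹ * lcZ (dm η) v 1 l) (lcLaw (dm η) w T) ∧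
      ∫ l, (lcZ (dm η) w T l)⁻¹ * lcZ (dm η) v 1 l ∂(lcLaw (dm η) w T) = 1 := by
  have := lc_spd_prob hη
  have := lc_map_prob (m := dm η) hv.aemeasurable
  have e : ∀ l, lcZ (dm η) w T l • ((lcZ (dm η) w T l)⁻¹ * lcZ (dm η) v 1 l) = lcZ (dm η) v 1 l := by
    intro l
    rw [smul_eq_mul, ← mul_assoc, mul_inv_cancel₀ (s4pc_Z_pos hη hw hT l).ne', one_mul]
  constructor
  · rw [s4pw_integrable_law hη hw hT]
    simp_rw [e, lc_Z_eq hv.aemeasurable]
    exact imm_L_integrable zero_le_one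
  · rw [s4pc_integral_law hη hw hT]
    simp_rw [e]
    exact lc_Z_integral hv.aemeasurable zero_le_one

/-- Young's inequality for one label. -/
theorem s4pw_young_pt {m : Measure E} [IsProbabilityMeasure m] {K : E → ℝ} (hKm : Measurable K) {B : ℝ}
    (hK : ∀ᵐ y ∂m, 0 ≤ K y ∧ K y ≤ B) (h1 : ∫ y, K y ∂m = 1) {v : E → E} (hv : Measurable v) {M : ℝ}
    (hM : ∀ y, ‖v y‖ ≤ M) (l : E) {z : ℝ} (hz : 0 < z) :
    inner ℝ l (∫ y, K y • v y ∂m) - 1 / 2 * ∫ y, K y • ‖v y‖ ^ 2 ∂m - Real.log z - z⁻¹ * lcZ m v 1 l + 1 ≤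
      ∫ y, klFun (K y) ∂m := by
  have hM0 : 0 ≤ M := (norm_nonneg _).trans (hM l)
  have hKb : ∀ᵐ y ∂m, ‖K y‖ ≤ B := hK.mono fun y hy => by
    rw [Real.norm_eq_abs, abs_of_nonneg hy.1]; exact hy.2
  have iK : Integrable K m := Integrable.of_bound hKm.aestronglyMeasurable B hKb
  have iv : Integrable v m := Integrable.of_bound hv.aestronglyMeasurable M (Eventually.of_forall hM)
  have iv2 : Integrable (fun y => ‖v y‖ ^ 2) m :=
    Integrable.of_bound (hv.norm.pow_const 2).aestronglyMeasurable (M ^ 2) (Eventually.of_forall fun y => by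
      rw [Real.norm_eq_abs, abs_of_nonneg (by positivity)]
      exact pow_le_pow_left₀ (norm_nonneg _) (hM y) 2)
  have iKv : Integrable (fun y => K y • v y) m := iv.bdd_smul B hKm.aestronglyMeasurable hKb
  have iKv2 : Integrable (fun y => K y • ‖v y‖ ^ 2) m := iv2.bdd_smul B hKm.aestronglyMeasurable hKb
  have ilK : Integrable (fun y => lcK v 1 l y) m := by
    have hm : Measurable fun y => lcK v 1 l y := by
      unfold lcK
      fun_prop
    refine Integrable.of_bound hm.aestronglyMeasurable (Real.exp (‖l‖ ^ 2 / 2)) (Eventually.of_forall fun y => ?_)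
    rw [Real.norm_eq_abs, lc_K_eq, abs_of_pos (imm_K_pos _ _ _)]
    exact imm_K_le zero_le_one _ _
  obtain ⟨C, hC⟩ := s4pc_klFun_bdd B
  have ikl : Integrable (fun y => klFun (K y)) m :=
    Integrable.of_bound (continuous_klFun.measurable.comp hKm).aestronglyMeasurable C
      (hK.mono fun y hy => hC _ hy.1 hy.2)
  have e1 : inner ℝ l (∫ y, K y • v y ∂m) = ∫ y, inner ℝ l (K y • v y) ∂m := (integral_inner iKv l).symm
  have iin : Integrable (fun y => inner ℝ l (K y • v y)) m := iKv.const_inner l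
  have hsum : inner ℝ l (∫ y, K y • v y ∂m) - 1 / 2 * ∫ y, K y • ‖v y‖ ^ 2 ∂m - Real.log z
      - z⁻¹ * lcZ m v 1 l + 1 =
      ∫ y, (inner ℝ l (K y • v y) - 1 / 2 * (K y • ‖v y‖ ^ 2) - Real.log z * K y - z⁻¹ * lcK v 1 l y + 1) ∂m := by
    have j1 : Integrable (fun y => inner ℝ l (K y • v y) - 1 / 2 * (K y • ‖v y‖ ^ 2)) m :=
      iin.sub (iKv2.const_mul _)
    have j2 : Integrable (fun y => inner ℝ l (K y • v y) - 1 / 2 * (K y • ‖v y‖ ^ 2) - Real.log z * K y) m :=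
      j1.sub (iK.const_mul _)
    have j3 : Integrable (fun y => inner ℝ l (K y • v y) - 1 / 2 * (K y • ‖v y‖ ^ 2) - Real.log z * K y
        - z⁻¹ * lcK v 1 l y) m := j2.sub (ilK.const_mul _)
    rw [integral_add j3 (integrable_const _), integral_sub j2 (ilK.const_mul _),
      integral_sub j1 (iK.const_mul _), integral_sub iin (iKv2.const_mul _), integral_const_mul,
      integral_const_mul, integral_const_mul, h1, e1]
    simp [lcZ]
  rw [hsum]
  refine integral_mono_ae ?_ ikl (hK.mono fun y hy => ?_)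
  · exact ((((iin.sub (iKv2.const_mul _)).sub (iK.const_mul _)).sub (ilK.const_mul _)).add (integrable_const _))
  · have hy' := ent_young (K y) (Real.sqrt 1 * inner ℝ l (v y) - 1 * ‖v y‖ ^ 2 / 2 - Real.log z) hy.1
    have e2 : Real.exp (Real.sqrt 1 * inner ℝ l (v y) - 1 * ‖v y‖ ^ 2 / 2 - Real.log z) = z⁻¹ * lcK v 1 l y := by
      rw [Real.exp_sub, Real.exp_log hz, lcK]
      field_simp
    rw [e2, Real.sqrt_one] at hy'
    simp only [klFun, inner_smul_right, smul_eq_mul]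
    linarith

theorem s4pw_young (hη : SPD η) (hw : Continuous w) (hw2 : MemLp w 2 (dm η)) (hT : 0 ≤ T)
    (hκ : 0 < κ) (Ch : PChain η w T κ) (N : ℕ) {v : E → E} (hv : Measurable v) {M : ℝ}
    (hM : ∀ y, ‖v y‖ ≤ M) :
    ∫ l, inner ℝ l (Ch.pe N v l) ∂(lcLaw (dm η) w T) - 1 / 2 * ∫ y, ‖v y‖ ^ 2 ∂(dm η) ≤
      Ch.J N + lcD (dm η) w T := by
  have := lc_spd_prob hη
  have := s4pc_law_prob hη hw hT
  set Λ := lcLaw (dm η) w T with hΛ
  have hM0 : 0 ≤ M := (norm_nonneg _).trans (hM 0)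
  have iv : Integrable v (dm η) := Integrable.of_bound hv.aestronglyMeasurable M (Eventually.of_forall hM)
  have iv2 : Integrable (fun y => ‖v y‖ ^ 2) (dm η) :=
    Integrable.of_bound (hv.norm.pow_const 2).aestronglyMeasurable (M ^ 2) (Eventually.of_forall fun y => by
      rw [Real.norm_eq_abs, abs_of_nonneg (by positivity)]
      exact pow_le_pow_left₀ (norm_nonneg _) (hM y) 2)
  obtain ⟨a1, _⟩ := s4pc_marginal hη hw hT hκ Ch N iv
  obtain ⟨b1, b2⟩ := s4pc_marginal hη hw hT hκ Ch N iv2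
  have hpe : Integrable (Ch.pe N v) Λ := a1.integral_prod_left
  have hpe2 : Integrable (Ch.pe N fun y => ‖v y‖ ^ 2) Λ := b1.integral_prod_left
  obtain ⟨c1, c2⟩ := s4pw_log_law hη hw hw2 hT
  obtain ⟨d1, d2⟩ := s4pw_X_law hη hw hT hv
  have hH := s4pw_H_integrable hη hw hw2 hT hκ Ch N
  -- the linear term
  have hpeM : ∀ᵐ l ∂Λ, ‖Ch.pe N v l‖ ≤ M := by
    filter_upwards [s4pc_bdd_law hη hw hT hκ Ch N] with l hl
    calc ‖Ch.pe N v l‖ ≤ ∫ y, ‖Ch.K N l y • v y‖ ∂(dm η) := norm_integral_le_integral_norm _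
      _ ≤ ∫ y, M * Ch.K N l y ∂(dm η) := by
          refine integral_mono_of_nonneg (Eventually.of_forall fun _ => norm_nonneg _) ?_ ?_
          · refine Integrable.const_mul ?_ M
            by_contra hc
            have := integral_undef hc
            rw [hl.2] at this
            exact one_ne_zero this
          · filter_upwards [hl.1] with y hy
            rw [norm_smul, Real.norm_eq_abs, abs_of_nonneg hy.1, mul_comm]
            exact mul_le_mul_of_nonneg_right (hM y) hy.1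
      _ = M := by rw [integral_const_mul, hl.2, mul_one]
  have hlin : Integrable (fun l => inner ℝ l (Ch.pe N v l)) Λ := by
    have hb : Integrable (fun l : E => M * (1 + ‖l‖ ^ 2)) Λ :=
      ((integrable_const _).add (s4pw_sq_law hη hw hw2 hT)).const_mul M
    refine hb.mono' (aestronglyMeasurable_id.inner hpe.1) (hpeM.mono fun l hl => ?_)
    calc ‖inner ℝ l (Ch.pe N v l)‖ ≤ ‖l‖ * ‖Ch.pe N v l‖ := norm_inner_le_norm _ _
      _ ≤ ‖l‖ * M := by gcongr
      _ ≤ M * (1 + ‖l‖ ^ 2) := by nlinarith [sq_nonneg (‖l‖ - 1), norm_nonneg l]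
  have hpt : ∀ᵐ l ∂Λ, inner ℝ l (Ch.pe N v l) - 1 / 2 * Ch.pe N (fun y => ‖v y‖ ^ 2) l
      - Real.log (lcZ (dm η) w T l) - (lcZ (dm η) w T l)⁻¹ * lcZ (dm η) v 1 l + 1 ≤ Ch.H N l := by
    filter_upwards [s4pc_bdd_law hη hw hT hκ Ch N] with l hl
    exact s4pw_young_pt (s4pc_sec_meas Ch N l) hl.1 hl.2 hv hM l (s4pc_Z_pos hη hw hT l)
  have j1 : Integrable (fun l => inner ℝ l (Ch.pe N v l) - 1 / 2 * Ch.pe N (fun y => ‖v y‖ ^ 2) l) Λ :=
    hlin.sub (hpe2.const_mul _)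
  have j2 : Integrable (fun l => inner ℝ l (Ch.pe N v l) - 1 / 2 * Ch.pe N (fun y => ‖v y‖ ^ 2) l
      - Real.log (lcZ (dm η) w T l)) Λ := j1.sub c1
  have j3 : Integrable (fun l => inner ℝ l (Ch.pe N v l) - 1 / 2 * Ch.pe N (fun y => ‖v y‖ ^ 2) l
      - Real.log (lcZ (dm η) w T l) - (lcZ (dm η) w T l)⁻¹ * lcZ (dm η) v 1 l) Λ := j2.sub d1
  have j4 : Integrable (fun l => inner ℝ l (Ch.pe N v l) - 1 / 2 * Ch.pe N (fun y => ‖v y‖ ^ 2) l
      - Real.log (lcZ (dm η) w T l) - (lcZ (dm η) w T l)⁻¹ * lcZ (dm η) v 1 l + 1) Λ :=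
    j3.add (integrable_const 1)
  have hmono := integral_mono_ae j4 hH hpt
  rw [integral_add j3 (integrable_const _), integral_sub j2 d1, integral_sub j1 c1,
    integral_sub hlin (hpe2.const_mul _), integral_const_mul, b2, c2, d2] at hmono
  simp only [integral_const, probReal_univ, smul_eq_mul, mul_one] at hmono
  unfold PChain.J
  rw [← hΛ]
  linarith

end Claimed.Agent.R259
end

/- ===== packed: Claimed.Agent.R259.S4ProbeLowB ===== -/
section
/-
Row 259 (S0499), Lemma 4.1, leaf L-S4Probe-low, part B (TRANSFER by symmetry of the resolvent).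
Sub-captain: helper220.  The owner of this part OWNS this file, keeps names and statements, replaces every `sorry`.
Tools (all PROVED): S4ProbeChainA/B/C (`s4pc_chain_bdd`, `s4pc_memLp_of_bdd`, `s4pc_sec_meas`, `s4pc_pe_zero`, `s4pc_integral_law`, `s4pc_law_ac`), OP.lean (`op_J_spec`, `op_J_meas`,
`op_res_symm`, `op_res_contract`), ImmseKer (`imm_K_mean : ∫ immK t s z • z dγ = √t • s`, `imm_K_sq_integrable`), `lc_K_eq`.   `b = stdOrthonormalBasis ℝ E`.

`s4pw_iter_memLp`: induction, `op_J_spec` gives `IsRes η κ u (opJ η κ u) _`, whose first component contains `MemLp (opJ η κ u) 2`.  (`Function.iterate_succ_apply'`.)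
`s4pw_iter_symm`: `∫ (J^n u) u' dη = ∫ u (J^n u') dη` (induction with `op_res_symm`).
`s4pw_chain_symm`: for a.e. `l`: `∫ K_N(l,·) φ dη = ∫ K_0(l,·) (J^N φ) dη` (induction on `N` for all `φ ∈ L²`: `op_res_symm (Ch.res j) (op_J_spec ..)`; `ae_all_iff` is not needed, `N` is fixed,
   but the induction hypothesis must be quantified over `φ` OUTSIDE of the a.e. quantifier: apply it to `opJ η κ φ`.)
`s4pw_first`: `∫ ⟨l, e⟩ (∫ K_0(l,y) φ y dη) dΛ = √T ∫ ⟨w y, e⟩ φ y dη` for `φ ∈ L²(η)`: `K_0 = lcK/lcZ`, `dΛ = lcZ dγ`, Fubini on `γ ⊗ η`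
   (`∫ lcK |⟨l,e⟩| dγ ≤ (∫ lcK |l|² dγ)^{1/2} |e| ≤ (√T |w y| + √n)|e|`, or `|⟨l,e⟩| ≤ (1 + |l|²)|e|` and ... choose what is convenient: `w, φ ∈ L²`), `imm_K_mean`.
`s4pw_transfer`: expand `⟨l, pe N v l⟩ = ∑ i ⟨l, b i⟩ ∫ K_N(l,y) ⟨b i, v y⟩ dη`, use the three lemmas componentwise:
   `= ∑ i √T ∫ ⟨w, b i⟩ J^N(⟨b i, v⟩) dη = ∑ i √T ∫ J^N(⟨b i, w⟩) ⟨b i, v⟩ dη = √T ∫ ⟨vJ η κ N w, v⟩ dη`.
-/
set_option autoImplicit false

open MeasureTheory Filter Topology ProbabilityTheory InformationTheory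
open scoped ContDiff ENNReal

namespace Claimed.Agent.R259

variable {E : Type} [NormedAddCommGroup E] [InnerProductSpace ℝ E] [FiniteDimensional ℝ E]
  [MeasurableSpace E] [BorelSpace E]

variable {η : E → ℝ} {w : E → E} {T κ : ℝ}

theorem s4pw_iter_memLp (hη : SPD η) (hκ : 0 < κ) {u : E → ℝ} (hu : MemLp u 2 (dm η)) (n : ℕ) :
    MemLp ((opJ η κ)^[n] u) 2 (dm η) := by
  induction n with
  | zero => exact hu
  | succ n ih =>
    rw [Function.iterate_succ_apply']
    exact (op_J_spec hη.1.continuous hη.2.1 hκ ih).1.2.1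

theorem s4pw_iter_symm (hη : SPD η) (hκ : 0 < κ) {u u' : E → ℝ} (hu : MemLp u 2 (dm η))
    (hu' : MemLp u' 2 (dm η)) (n : ℕ) :
    ∫ y, (opJ η κ)^[n] u y * u' y ∂(dm η) = ∫ y, u y * (opJ η κ)^[n] u' y ∂(dm η) := by
  induction n generalizing u' with
  | zero => rfl
  | succ n ih =>
    have h1 := op_J_spec hη.1.continuous hη.2.1 hκ (s4pw_iter_memLp hη hκ hu n)
    have h2 := op_J_spec hη.1.continuous hη.2.1 hκ hu'
    rw [Function.iterate_succ_apply', op_res_symm h1 h2, ih h2.1.2.1, Function.iterate_succ_apply]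

theorem s4pw_chain_symm (hη : SPD η) (hw : Continuous w) (hT : 0 ≤ T) (hκ : 0 < κ)
    (Ch : PChain η w T κ) (N : ℕ) {φ : E → ℝ} (hφ : MemLp φ 2 (dm η)) :
    ∀ᵐ l ∂(stdGaussian E), ∫ y, Ch.K N l y * φ y ∂(dm η) =
      ∫ y, Ch.K 0 l y * (opJ η κ)^[N] φ y ∂(dm η) := by
  induction N generalizing φ with
  | zero => exact Eventually.of_forall fun l => rfl
  | succ N ih =>
    have h2 := op_J_spec hη.1.continuous hη.2.1 hκ hφ
    filter_upwards [Ch.res N, ih h2.1.2.1] with l hl hi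
    rw [op_res_symm hl h2, hi, Function.iterate_succ_apply]

theorem s4pw_amgm {a x : ℝ} (ha : 0 < a) : x ≤ (a + x ^ 2 / a) / 2 := by
  have h : 0 ≤ (a - x) ^ 2 / a := by positivity
  have e : (a - x) ^ 2 / a = a + x ^ 2 / a - 2 * x := by
    field_simp
    ring
  linarith

/-- first absolute moment of the label kernel -/
theorem s4pw_K_norm (hT : 0 ≤ T) (s : E) :
    Integrable (fun l => immK T s l * ‖l‖) (stdGaussian E) ∧
      ∫ l, immK T s l * ‖l‖ ∂(stdGaussian E) ≤ (1 + Module.finrank ℝ E + (1 + T) * ‖s‖) / 2 := by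
  set a : ℝ := 1 + ‖s‖ with ha
  have ha0 : 0 < a := by positivity
  have hb : Integrable (fun l => a / 2 * immK T s l + 1 / (2 * a) * (immK T s l * ‖l‖ ^ 2))
      (stdGaussian E) :=
    ((imm_K_integrable hT s).const_mul _).add ((imm_K_sq_integrable hT s).const_mul _)
  have hle : ∀ l : E, immK T s l * ‖l‖ ≤
      a / 2 * immK T s l + 1 / (2 * a) * (immK T s l * ‖l‖ ^ 2) := by
    intro l
    have h1 := mul_le_mul_of_nonneg_left (s4pw_amgm (x := ‖l‖) ha0) (imm_K_pos T s l).le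
    refine h1.trans (le_of_eq ?_)
    field_simp
  have hc : Continuous fun l : E => immK T s l * ‖l‖ := by
    unfold immK
    fun_prop
  have hi : Integrable (fun l => immK T s l * ‖l‖) (stdGaussian E) := by
    refine hb.mono' hc.aestronglyMeasurable (Eventually.of_forall fun l => ?_)
    rw [Real.norm_eq_abs, abs_of_nonneg (mul_nonneg (imm_K_pos T s l).le (norm_nonneg l))]
    exact hle l
  refine ⟨hi, (integral_mono hi hb hle).trans ?_⟩
  rw [integral_add ((imm_K_integrable hT s).const_mul _) ((imm_K_sq_integrable hT s).const_mul _),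
    integral_const_mul, integral_const_mul, imm_K_integral hT, imm_K_sq_integral hT]
  have hn : (0 : ℝ) ≤ Module.finrank ℝ E := Nat.cast_nonneg _
  have h1 : ‖s‖ ^ 2 / a ≤ ‖s‖ := by
    rw [div_le_iff₀ ha0, ha]
    nlinarith [norm_nonneg s]
  have h2 : (Module.finrank ℝ E : ℝ) / a ≤ Module.finrank ℝ E := by
    rw [div_le_iff₀ ha0, ha]
    nlinarith [norm_nonneg s]
  have e : a / 2 * 1 + 1 / (2 * a) * (T * ‖s‖ ^ 2 + (Module.finrank ℝ E : ℝ)) =
      (a + T * (‖s‖ ^ 2 / a) + (Module.finrank ℝ E : ℝ) / a) / 2 := by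
    field_simp
    ring
  rw [e]
  have h3 : T * (‖s‖ ^ 2 / a) ≤ T * ‖s‖ := mul_le_mul_of_nonneg_left h1 hT
  rw [ha] at *
  linarith

theorem s4pw_K_inner (hT : 0 ≤ T) (s e : E) :
    Integrable (fun l => immK T s l * inner ℝ l e) (stdGaussian E) ∧
      ∫ l, immK T s l * inner ℝ l e ∂(stdGaussian E) = Real.sqrt T * inner ℝ s e := by
  have h1 : Integrable (fun l : E => immK T s l • l) (stdGaussian E) := by
    rw [imm_shift_integrable hT s (fun z => z) aestronglyMeasurable_id]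
    exact (integrable_const _).add IsGaussian.integrable_id
  have e1 : ∀ l : E, immK T s l * inner ℝ l e = inner ℝ e (immK T s l • l) := by
    intro l
    rw [real_inner_smul_right, real_inner_comm]
  simp_rw [e1]
  refine ⟨h1.const_inner e, ?_⟩
  rw [integral_inner h1, imm_K_mean hT, real_inner_smul_right, real_inner_comm]

/-- the Fubini integrand of `s4pw_first` -/
theorem s4pw_first_int (hη : SPD η) (hw : Continuous w) (hw2 : MemLp w 2 (dm η)) (hT : 0 ≤ T)
    (e : E) {φ : E → ℝ} (hφ : MemLp φ 2 (dm η)) :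
    Integrable (fun p : E × E => inner ℝ p.2 e * (lcK w T p.2 p.1 * φ p.1))
      ((dm η).prod (stdGaussian E)) := by
  have := lc_spd_prob hη
  have hm : AEStronglyMeasurable (fun p : E × E => inner ℝ p.2 e * (lcK w T p.2 p.1 * φ p.1))
      ((dm η).prod (stdGaussian E)) := by
    have h1 : Continuous fun p : E × E => inner ℝ p.2 e := by fun_prop
    have h2 : Continuous fun p : E × E => lcK w T p.2 p.1 :=
      (s4pc_lcK_cont hw T).comp continuous_swap
    exact h1.aestronglyMeasurable.mul (h2.aestronglyMeasurable.mul hφ.1.comp_fst)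
  have hb : ∀ y l : E, ‖inner ℝ l e * (lcK w T l y * φ y)‖ ≤
      ‖e‖ * |φ y| * (immK T (w y) l * ‖l‖) := by
    intro y l
    rw [lc_K_eq, norm_mul, norm_mul, Real.norm_eq_abs, Real.norm_eq_abs, Real.norm_eq_abs,
      abs_of_pos (imm_K_pos _ _ _)]
    have h1 : |inner ℝ l e| ≤ ‖l‖ * ‖e‖ := abs_real_inner_le_norm l e
    have h2 : 0 ≤ immK T (w y) l * |φ y| := mul_nonneg (imm_K_pos _ _ _).le (abs_nonneg _)
    calc |inner ℝ l e| * (immK T (w y) l * |φ y|) ≤ ‖l‖ * ‖e‖ * (immK T (w y) l * |φ y|) :=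
          mul_le_mul_of_nonneg_right h1 h2
      _ = _ := by ring
  rw [integrable_prod_iff hm]
  refine ⟨Eventually.of_forall fun y => ?_, ?_⟩
  · have hc : Continuous fun l : E => inner ℝ l e * (lcK w T l y * φ y) := by
      unfold lcK
      fun_prop
    exact ((s4pw_K_norm hT (w y)).1.const_mul (‖e‖ * |φ y|)).mono' hc.aestronglyMeasurable
      (Eventually.of_forall fun l => hb y l)
  · have hD : Integrable (fun y => ‖e‖ * ((1 + Module.finrank ℝ E) / 2) * |φ y|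
        + ‖e‖ * ((1 + T) / 2) * (‖w y‖ * |φ y|)) (dm η) := by
      have h1 : Integrable (fun y => |φ y|) (dm η) := (hφ.integrable one_le_two).norm
      have h2 : Integrable (fun y => ‖w y‖ * |φ y|) (dm η) := ws_integrable_mul hw2.norm hφ.norm
      exact (h1.const_mul _).add (h2.const_mul _)
    refine hD.mono' hm.norm.integral_prod_right' (Eventually.of_forall fun y => ?_)
    rw [Real.norm_eq_abs, abs_of_nonneg (integral_nonneg fun l => norm_nonneg _)]
    obtain ⟨k1, k2⟩ := s4pw_K_norm hT (w y)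
    have hc : Continuous fun l : E => inner ℝ l e * (lcK w T l y * φ y) := by
      unfold lcK
      fun_prop
    have hi : Integrable (fun l => ‖inner ℝ l e * (lcK w T l y * φ y)‖) (stdGaussian E) :=
      ((k1.const_mul (‖e‖ * |φ y|)).mono' hc.aestronglyMeasurable
        (Eventually.of_forall fun l => hb y l)).norm
    refine (integral_mono hi (k1.const_mul _) (hb y)).trans ?_
    rw [integral_const_mul]
    have h0 : 0 ≤ ‖e‖ * |φ y| := by positivity
    refine (mul_le_mul_of_nonneg_left k2 h0).trans (le_of_eq ?_)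
    ring

theorem s4pw_first (hη : SPD η) (hw : Continuous w) (hw2 : MemLp w 2 (dm η)) (hT : 0 ≤ T)
    (Ch : PChain η w T κ) (e : E) {φ : E → ℝ} (hφ : MemLp φ 2 (dm η)) :
    Integrable (fun l => inner ℝ l e * ∫ y, Ch.K 0 l y * φ y ∂(dm η)) (lcLaw (dm η) w T) ∧
    ∫ l, inner ℝ l e * ∫ y, Ch.K 0 l y * φ y ∂(dm η) ∂(lcLaw (dm η) w T) =
      Real.sqrt T * ∫ y, inner ℝ (w y) e * φ y ∂(dm η) := by
  have := lc_spd_prob hη
  have hF := s4pw_first_int hη hw hw2 hT e hφ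
  have hZ : ∀ l, 0 < lcZ (dm η) w T l := s4pc_Z_pos hη hw hT
  have e1 : ∀ l, lcZ (dm η) w T l • (inner ℝ l e * ∫ y, Ch.K 0 l y * φ y ∂(dm η)) =
      ∫ y, inner ℝ l e * (lcK w T l y * φ y) ∂(dm η) := by
    intro l
    simp_rw [Ch.zero, mul_assoc]
    rw [integral_const_mul, integral_const_mul, smul_eq_mul]
    have := (hZ l).ne'
    field_simp
  have hI : Integrable (fun l => ∫ y, inner ℝ l e * (lcK w T l y * φ y) ∂(dm η)) (stdGaussian E) :=
    hF.integral_prod_right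
  constructor
  · unfold lcLaw
    rw [integrable_withDensity_iff_integrable_smul' (s4pc_lcZ_meas hη hw T).ennreal_ofReal
      (Eventually.of_forall fun _ => ENNReal.ofReal_lt_top)]
    refine hI.congr (Eventually.of_forall fun l => ?_)
    simp only
    rw [ENNReal.toReal_ofReal (hZ l).le, e1]
  · rw [s4pc_integral_law hη hw hT]
    simp_rw [e1]
    rw [← integral_integral_swap (f := fun y l => inner ℝ l e * (lcK w T l y * φ y)) hF,
      ← integral_const_mul]
    refine integral_congr_ae (Eventually.of_forall fun y => ?_)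
    simp only
    have e2 : ∀ l : E, inner ℝ l e * (lcK w T l y * φ y) = immK T (w y) l * inner ℝ l e * φ y := by
      intro l
      rw [lc_K_eq]
      ring
    simp_rw [e2]
    rw [integral_mul_const, (s4pw_K_inner hT (w y) e).2]
    ring

theorem s4pw_transfer (hη : SPD η) (hw : Continuous w) (hw2 : MemLp w 2 (dm η)) (hT : 0 ≤ T)
    (hκ : 0 < κ) (Ch : PChain η w T κ) (N : ℕ) {v : E → E} (hv : Measurable v) {M : ℝ}
    (hM : ∀ y, ‖v y‖ ≤ M) :
    ∫ l, inner ℝ l (Ch.pe N v l) ∂(lcLaw (dm η) w T) =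
      Real.sqrt T * ∫ y, inner ℝ (vJ η κ N w y) (v y) ∂(dm η) := by
  have := lc_spd_prob hη
  set b := stdOrthonormalBasis ℝ E with hb
  have hφ : ∀ i, MemLp (fun y => inner ℝ (b i) (v y)) 2 (dm η) := by
    intro i
    refine MemLp.of_bound (measurable_const.inner hv).aestronglyMeasurable M
      (Eventually.of_forall fun y => ?_)
    refine (norm_inner_le_norm _ _).trans ?_
    rw [b.orthonormal.1 i, one_mul]
    exact hM y
  have hu : ∀ i, MemLp (fun y => inner ℝ (b i) (w y)) 2 (dm η) := fun i => hw2.const_inner (b i)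
  have hJφ : ∀ i, MemLp ((opJ η κ)^[N] fun y => inner ℝ (b i) (v y)) 2 (dm η) :=
    fun i => s4pw_iter_memLp hη hκ (hφ i) N
  have hJu : ∀ i, MemLp ((opJ η κ)^[N] fun y => inner ℝ (b i) (w y)) 2 (dm η) :=
    fun i => s4pw_iter_memLp hη hκ (hu i) N
  -- Step 1
  have h1 : ∀ᵐ l ∂(lcLaw (dm η) w T), inner ℝ l (Ch.pe N v l) =
      ∑ i, inner ℝ l (b i) * ∫ y, Ch.K 0 l y * (opJ η κ)^[N] (fun y => inner ℝ (b i) (v y)) y ∂(dm η) := by
    refine (s4pc_law_ac η w T).ae_le ?_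
    have hall : ∀ᵐ l ∂(stdGaussian E), ∀ i, ∫ y, Ch.K N l y * inner ℝ (b i) (v y) ∂(dm η) =
        ∫ y, Ch.K 0 l y * (opJ η κ)^[N] (fun y => inner ℝ (b i) (v y)) y ∂(dm η) :=
      ae_all_iff.2 fun i => s4pw_chain_symm hη hw hT hκ Ch N (hφ i)
    filter_upwards [hall, s4pc_chain_bdd hη hw hT hκ Ch N] with l hl hbd
    have hbd' : ∀ᵐ y ∂(dm η), 0 ≤ Ch.K N l y ∧ Ch.K N l y ≤ pcB η w T l := (s4pc_ac η).ae_le hbd.1
    have hKi : Integrable (fun y => Ch.K N l y • v y) (dm η) := by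
      refine Integrable.of_bound ((s4pc_sec_meas Ch N l).smul hv).aestronglyMeasurable
        (pcB η w T l * M) (hbd'.mono fun y hy => ?_)
      rw [norm_smul, Real.norm_eq_abs, abs_of_nonneg hy.1]
      exact mul_le_mul hy.2 (hM y) (norm_nonneg _) (hy.1.trans hy.2)
    rw [← b.sum_inner_mul_inner l (Ch.pe N v l)]
    refine Finset.sum_congr rfl fun i _ => ?_
    congr 1
    rw [← hl i]
    unfold PChain.pe
    rw [← integral_inner hKi]
    simp_rw [real_inner_smul_right]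
  rw [integral_congr_ae h1,
    integral_finsetSum _ fun i _ => (s4pw_first hη hw hw2 hT Ch (b i) (hJφ i)).1]
  simp_rw [(s4pw_first hη hw hw2 hT Ch (b _) (hJφ _)).2]
  rw [← Finset.mul_sum]
  congr 1
  have h3 : ∀ i, ∫ y, inner ℝ (w y) (b i) * (opJ η κ)^[N] (fun y => inner ℝ (b i) (v y)) y ∂(dm η) =
      ∫ y, (opJ η κ)^[N] (fun y => inner ℝ (b i) (w y)) y * inner ℝ (b i) (v y) ∂(dm η) := by
    intro i
    rw [s4pw_iter_symm hη hκ (hu i) (hφ i) N]
    simp_rw [real_inner_comm (b i) (w _)]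
  simp_rw [h3]
  rw [← integral_finsetSum _ fun i _ => ws_integrable_mul (hJu i) (hφ i)]
  refine integral_congr_ae (Eventually.of_forall fun y => ?_)
  simp only
  unfold vJ
  rw [sum_inner]
  simp_rw [real_inner_smul_left]
  rfl

end Claimed.Agent.R259
end

/- ===== packed: Claimed.Agent.R259.S4ProbeLowC ===== -/
section
/-
Row 259 (S0499), Lemma 4.1, leaf L-S4Probe-low, part C (the iterated resolvent of the almost-eigenfield `w`).
Sub-captain: helper220.  The owner of this part OWNS this file, keeps names and statements, replaces every `sorry`.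
Tools (all PROVED): OP.lean (`op_dom_classical`, `op_res_of_dom`, `op_J_spec`, `op_J_meas`, `op_res_unique`, `op_res_add`, `op_res_smul`, `op_res_contract`), OpCalc (`opc_inner_left`),
`s4pr_memLp` (S4ProbeRec.lean: `K w ∈ L²(η)`), WsLim (`ws_cauchy_schwarz`), `s4pw_iter_memLp` (S4ProbeLowB.lean).   `θ = (1 + κ)⁻¹`, `b = stdOrthonormalBasis ℝ E`.

SCALAR LEMMA `s4pw_scalar`: `u` smooth, `u, h ∈ L²(η)`, `opA η u = u - h` pointwise.  Then `IsDomA η u (∇u) (u - h)`, so (`op_res_of_dom`) `u = J((1+κ) u - κ h)`, i.e. a.e.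
   `J u = θ u + θ κ J h`  (linearity `op_res_add/smul` + uniqueness `op_res_unique`), hence `‖J u - θ u‖ ≤ κ ‖h‖` (`op_res_contract`, `θ ≤ 1`).
   Induction: `J^{n+1} u - θ^{n+1} u = J (J^n u - θ^n u) + θ^n (J u - θ u)`, `‖·‖_{n+1} ≤ ‖·‖_n + κ ‖h‖`; in squared form:  `∫ (J^n u - θ^n u)² dη ≤ (n κ)² ∫ h² dη`.
   (Work with `√∫` or in `Lp`, or prove `D_{n+1} ≤ (√D_n + κ√H)²` by Cauchy-Schwarz.)
`s4pw_norm`: components `u_i = ⟨b i, w⟩`, `h_i = ⟨b i, K w⟩` (`CritField.eqn`, `lam = 1`, `opc_inner_left`);  `∑ i ∫ h_i² = ∫ |K w|² ≤ δ I` (`Crit.Kw_small`), so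
   `∫ |W - θ^N w|² ≤ (N κ)² δ I`, `W = vJ η κ N w`;   `∫ |W|² ≥ θ^{2N} I - 2 θ^N |∫ ⟨w, W - θ^N w⟩| ≥ θ^{2N} I - 2 √I · N κ √(δ I)`   (`|a + b|² ≥ |a|² + 2⟨a, b⟩`, Cauchy-Schwarz, `θ ≤ 1`).
Measurability: `N = 0`: `vJ η κ 0 w = w` (`OrthonormalBasis.sum_repr'`); `N ≥ 1`: `op_J_meas` (`Function.iterate_succ_apply'`).
-/
set_option autoImplicit false

open MeasureTheory Filter Topology ProbabilityTheory InformationTheory
open scoped ContDiff ENNReal

namespace Claimed.Agent.R259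

variable {E : Type} [NormedAddCommGroup E] [InnerProductSpace ℝ E] [FiniteDimensional ℝ E]
  [MeasurableSpace E] [BorelSpace E]

/-- one step: `J u - θ u = θ κ J h`. -/
theorem s4pw_one {η : E → ℝ} {κ : ℝ} (hη : SPD η) (hκ : 0 < κ) {u h : E → ℝ} (hu : ContDiff ℝ ∞ u)
    (hu2 : MemLp u 2 (dm η)) (hh2 : MemLp h 2 (dm η)) (hA : ∀ y, opA η u y = u y - h y) :
    ∫ y, (opJ η κ u y - (1 + κ)⁻¹ * u y) ^ 2 ∂(dm η) ≤ κ ^ 2 * ∫ y, h y ^ 2 ∂(dm η) := by
  have hc := hη.1.continuous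
  have hp := hη.2.1
  have hAe : opA η u = fun x => u x + (-1) * h x := funext fun y => by rw [hA]; ring
  have hA2 : MemLp (opA η u) 2 (dm η) := by
    rw [hAe]; exact hu2.add (hh2.const_mul (-1))
  have hd := op_dom_classical hη.1 hp hu hu2 hA2
  rw [hAe] at hd
  have hJu := op_J_spec hc hp hκ hu2
  have hJh := op_J_spec hc hp hκ hh2
  have h2 := op_res_add hu2 (hh2.const_mul (-1)) hJu (op_res_smul (-1) hJh)
  have hcomm := op_res_comm hκ hd hJu h2
  have hθ : 0 < (1 + κ)⁻¹ := by positivity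
  have hθ1 : (1 + κ)⁻¹ ≤ 1 := inv_le_one_of_one_le₀ (by linarith)
  have hae : (fun y => (opJ η κ u y - (1 + κ)⁻¹ * u y) ^ 2) =ᵐ[dm η]
      fun y => ((1 + κ)⁻¹ * κ) ^ 2 * opJ η κ h y ^ 2 := by
    filter_upwards [hcomm] with y hy
    have h1 : opJ η κ u y = (1 + κ)⁻¹ * u y + (1 + κ)⁻¹ * κ * opJ η κ h y := by
      have h3 : (1 + κ) * opJ η κ u y = u y + κ * opJ η κ h y := by linarith
      field_simp
      linarith
    rw [h1]
    ring
  rw [integral_congr_ae hae, integral_const_mul]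
  have hcon := op_res_contract hκ hh2 hJh
  have hg0 : 0 ≤ ∫ x, ‖opJg η κ h x‖ ^ 2 ∂(dm η) := integral_nonneg fun _ => by positivity
  have hJ0 : 0 ≤ ∫ x, opJ η κ h x ^ 2 ∂(dm η) := integral_nonneg fun _ => by positivity
  have h4 : ∫ x, opJ η κ h x ^ 2 ∂(dm η) ≤ ∫ y, h y ^ 2 ∂(dm η) := by nlinarith
  have h5 : ((1 + κ)⁻¹ * κ) ^ 2 ≤ κ ^ 2 := by
    apply pow_le_pow_left₀ (by positivity)
    calc (1 + κ)⁻¹ * κ ≤ 1 * κ := by gcongr
      _ = κ := one_mul κ
  calc ((1 + κ)⁻¹ * κ) ^ 2 * ∫ x, opJ η κ h x ^ 2 ∂(dm η) ≤ κ ^ 2 * ∫ x, opJ η κ h x ^ 2 ∂(dm η) := by gcongr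
    _ ≤ _ := by gcongr

theorem s4pw_scalar {η : E → ℝ} {κ : ℝ} (hη : SPD η) (hκ : 0 < κ) {u h : E → ℝ} (hu : ContDiff ℝ ∞ u)
    (hu2 : MemLp u 2 (dm η)) (hh2 : MemLp h 2 (dm η)) (hA : ∀ y, opA η u y = u y - h y) (n : ℕ) :
    ∫ y, ((opJ η κ)^[n] u y - ((1 + κ)⁻¹) ^ n * u y) ^ 2 ∂(dm η) ≤ (n * κ) ^ 2 * ∫ y, h y ^ 2 ∂(dm η) := by
  have hc := hη.1.continuous
  have hp := hη.2.1
  set θ : ℝ := (1 + κ)⁻¹ with hθd
  have hθ : 0 < θ := by positivity
  have hθ1 : θ ≤ 1 := inv_le_one_of_one_le₀ (by linarith)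
  set H := ∫ y, h y ^ 2 ∂(dm η) with hH
  have hH0 : 0 ≤ H := integral_nonneg fun _ => by positivity
  have h1 := s4pw_one hη hκ hu hu2 hh2 hA
  rw [← hθd, ← hH] at h1
  rcases Nat.eq_zero_or_pos n with rfl | hn
  · simp
  induction n, hn using Nat.le_induction with
  | base => simpa using h1
  | succ n hn ih =>
    have hn0 : (0 : ℝ) < n := by exact_mod_cast hn
    have hJn : MemLp ((opJ η κ)^[n] u) 2 (dm η) := s4pw_iter_memLp hη hκ hu2 n
    set r : E → ℝ := fun y => (opJ η κ)^[n] u y - θ ^ n * u y with hr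
    have hr2 : MemLp r 2 (dm η) := hJn.sub (hu2.const_mul (θ ^ n))
    have hJr := op_J_spec hc hp hκ hr2
    have hJu := op_J_spec hc hp hκ hu2
    have hJJ := op_J_spec hc hp hκ hJn
    have hsum := op_res_add hr2 (hu2.const_mul (θ ^ n)) hJr (op_res_smul (θ ^ n) hJu)
    have e1 : (fun x => r x + θ ^ n * u x) = (opJ η κ)^[n] u := funext fun x => by rw [hr]; ring
    rw [e1] at hsum
    have huq := (op_res_unique hκ hJJ hsum).1
    have hcon := op_res_contract hκ hr2 hJr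
    have hg0 : 0 ≤ ∫ x, ‖opJg η κ r x‖ ^ 2 ∂(dm η) := integral_nonneg fun _ => by positivity
    have hJr2 : ∫ x, opJ η κ r x ^ 2 ∂(dm η) ≤ (n * κ) ^ 2 * H := by
      have : ∫ x, opJ η κ r x ^ 2 ∂(dm η) ≤ ∫ x, r x ^ 2 ∂(dm η) := by nlinarith
      exact this.trans ih
    have i1 : Integrable (fun x => opJ η κ r x ^ 2) (dm η) := hJr.1.2.1.integrable_sq
    have i2 : Integrable (fun y => (opJ η κ u y - θ * u y) ^ 2) (dm η) :=
      (hJu.1.2.1.sub (hu2.const_mul θ)).integrable_sq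
    have hle : ∫ y, ((opJ η κ)^[n + 1] u y - θ ^ (n + 1) * u y) ^ 2 ∂(dm η) ≤
        ∫ y, ((1 + 1 / (n : ℝ)) * opJ η κ r y ^ 2 + (1 + n) * (opJ η κ u y - θ * u y) ^ 2) ∂(dm η) := by
      refine integral_mono_of_nonneg (Eventually.of_forall fun _ => by positivity)
        ((i1.const_mul _).add (i2.const_mul _)) ?_
      filter_upwards [huq] with y hy
      rw [Function.iterate_succ_apply', hy]
      set x1 := opJ η κ r y
      set x2 := opJ η κ u y - θ * u y with hx2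
      have e2 : x1 + θ ^ n * opJ η κ u y - θ ^ (n + 1) * u y = x1 + θ ^ n * x2 := by
        rw [hx2]; ring
      rw [e2]
      have hθn : θ ^ n ≤ 1 := pow_le_one₀ hθ.le hθ1
      have hθn0 : 0 ≤ θ ^ n := by positivity
      have h3 : (θ ^ n * x2) ^ 2 ≤ x2 ^ 2 := by
        rw [mul_pow]
        have : (θ ^ n) ^ 2 ≤ 1 := pow_le_one₀ hθn0 hθn
        nlinarith [sq_nonneg x2]
      have h4 : 2 * x1 * (θ ^ n * x2) ≤ 1 / (n : ℝ) * x1 ^ 2 + n * (θ ^ n * x2) ^ 2 := by
        have h5 : 0 ≤ (x1 - n * (θ ^ n * x2)) ^ 2 / n := by positivity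
        have h6 : (x1 - n * (θ ^ n * x2)) ^ 2 / n =
            1 / (n : ℝ) * x1 ^ 2 - 2 * x1 * (θ ^ n * x2) + n * (θ ^ n * x2) ^ 2 := by
          field_simp
          ring
        linarith
      nlinarith
    rw [integral_add (i1.const_mul _) (i2.const_mul _), integral_const_mul, integral_const_mul] at hle
    have hfin : (1 + 1 / (n : ℝ)) * ((n * κ) ^ 2 * H) + (1 + n) * (κ ^ 2 * H) = (((n + 1 : ℕ) : ℝ) * κ) ^ 2 * H := by
      push_cast
      field_simp
      ring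
    rw [← hfin]
    have a1 : (1 + 1 / (n : ℝ)) * ∫ x, opJ η κ r x ^ 2 ∂(dm η) ≤ (1 + 1 / (n : ℝ)) * ((n * κ) ^ 2 * H) := by
      gcongr
    have a2 : (1 + (n : ℝ)) * ∫ y, (opJ η κ u y - θ * u y) ^ 2 ∂(dm η) ≤ (1 + n) * (κ ^ 2 * H) := by
      gcongr
    linarith

variable {μ : Measure E} {a δ : ℝ} {η : E → ℝ} {w : E → E} {f : E → ℝ} {κ : ℝ}

omit [MeasurableSpace E] [BorelSpace E] in
theorem s4pw_norm_sum (c : Fin (Module.finrank ℝ E) → ℝ) :
    ‖∑ i, c i • stdOrthonormalBasis ℝ E i‖ ^ 2 = ∑ i, c i ^ 2 := by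
  rw [← (stdOrthonormalBasis ℝ E).sum_sq_inner_right]
  refine Finset.sum_congr rfl fun i _ => ?_
  rw [(stdOrthonormalBasis ℝ E).orthonormal.inner_right_fintype]

theorem s4pw_iter_meas {u : E → ℝ} (hu : Measurable u) (N : ℕ) : Measurable ((opJ η κ)^[N] u) := by
  cases N with
  | zero => simpa using hu
  | succ n =>
    rw [Function.iterate_succ_apply']
    exact (op_J_meas η κ _).measurable

theorem s4pw_norm (hD : PData μ a δ η w f) (hδ : 0 ≤ δ) (hκ : 0 < κ) (N : ℕ) :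
    Measurable (vJ η κ N w) ∧ MemLp (vJ η κ N w) 2 (dm η) ∧
      (((1 + κ)⁻¹) ^ (2 * N) - 2 * (N * κ) * Real.sqrt δ) * ∫ x, ‖w x‖ ^ 2 ∂(dm η) ≤
        ∫ y, ‖vJ η κ N w y‖ ^ 2 ∂(dm η) := by
  have hη := hD.crit.field.spd
  have hws := hD.crit.field.w_smooth
  have hw2 := hD.crit.field.w_L2
  have := lc_spd_prob hη
  obtain ⟨_, _, hKw2⟩ := s4pr_memLp hD
  set b := stdOrthonormalBasis ℝ E with hb
  set θ : ℝ := (1 + κ)⁻¹ with hθd
  have hθ : 0 < θ := by positivity
  have hθ1 : θ ≤ 1 := inv_le_one_of_one_le₀ (by linarith)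
  set t : ℝ := θ ^ N with ht
  have ht0 : 0 ≤ t := by positivity
  have ht1 : t ≤ 1 := pow_le_one₀ hθ.le hθ1
  set I := ∫ x, ‖w x‖ ^ 2 ∂(dm η) with hI
  have hI0 : 0 ≤ I := integral_nonneg fun _ => by positivity
  set u : Fin (Module.finrank ℝ E) → E → ℝ := fun i x => inner ℝ (b i) (w x) with hu
  set h : Fin (Module.finrank ℝ E) → E → ℝ := fun i x => inner ℝ (b i) (hessK μ s0 x (w x)) with hh
  have hus : ∀ i, ContDiff ℝ ∞ (u i) := fun i => contDiff_const.inner ℝ hws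
  have hu2 : ∀ i, MemLp (u i) 2 (dm η) := fun i => hw2.const_inner (b i)
  have hh2 : ∀ i, MemLp (h i) 2 (dm η) := fun i => hKw2.const_inner (b i)
  have hA : ∀ i y, opA η (u i) y = u i y - h i y := by
    intro i y
    have h1 := opc_inner_left (η := η) (x := y) (b i) (g := w) (hws.contDiffAt.of_le (by norm_cast))
    rw [hu]
    simp only
    rw [h1, hD.crit.field.eqn, one_smul, inner_sub_right]
  have hsc := fun i => s4pw_scalar hη hκ (hus i) (hu2 i) (hh2 i) (hA i) N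
  have hJ2 : ∀ i, MemLp ((opJ η κ)^[N] (u i)) 2 (dm η) := fun i => s4pw_iter_memLp hη hκ (hu2 i) N
  have hJm : ∀ i, Measurable ((opJ η κ)^[N] (u i)) := fun i => s4pw_iter_meas (hus i).continuous.measurable N
  have hWm : Measurable (vJ η κ N w) := by
    unfold vJ
    exact Finset.measurable_sum _ fun i _ => (hJm i).smul_const _
  have hW2 : MemLp (vJ η κ N w) 2 (dm η) := by
    unfold vJ
    refine memLp_finsetSum _ fun i _ => ?_
    exact (ContinuousLinearMap.toSpanSingleton ℝ (b i)).comp_memLp' (hJ2 i)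
  refine ⟨hWm, hW2, ?_⟩
  set d : E → E := fun y => vJ η κ N w y - t • w y with hd
  have hd2 : MemLp d 2 (dm η) := hW2.sub (hw2.const_smul t)
  have hdn : ∀ y, ‖d y‖ ^ 2 = ∑ i, ((opJ η κ)^[N] (u i) y - t * u i y) ^ 2 := by
    intro y
    rw [← s4pw_norm_sum]
    have e0 : d y = ∑ i, ((opJ η κ)^[N] (u i) y - t * u i y) • stdOrthonormalBasis ℝ E i := by
      rw [hd]
      simp only
      conv_lhs => rw [← b.sum_repr' (w y)]
      rw [vJ, Finset.smul_sum, ← Finset.sum_sub_distrib]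
      refine Finset.sum_congr rfl fun i _ => ?_
      rw [sub_smul, mul_smul]
    rw [e0]
  have hKn : ∀ y, ‖hessK μ s0 y (w y)‖ ^ 2 = ∑ i, h i y ^ 2 := fun y =>
    (b.sum_sq_inner_right _).symm
  have hD' : ∫ y, ‖d y‖ ^ 2 ∂(dm η) ≤ (N * κ) ^ 2 * (δ * I) := by
    simp_rw [hdn]
    have isq : ∀ i, Integrable (fun y => ((opJ η κ)^[N] (u i) y - t * u i y) ^ 2) (dm η) := fun i =>
      ((hJ2 i).sub ((hu2 i).const_mul t)).integrable_sq
    rw [integral_finsetSum _ fun i _ => isq i]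
    calc ∑ i, ∫ y, ((opJ η κ)^[N] (u i) y - t * u i y) ^ 2 ∂(dm η)
        ≤ ∑ i, (N * κ) ^ 2 * ∫ y, h i y ^ 2 ∂(dm η) := Finset.sum_le_sum fun i _ => hsc i
      _ = (N * κ) ^ 2 * ∫ y, ‖hessK μ s0 y (w y)‖ ^ 2 ∂(dm η) := by
          simp_rw [hKn]
          rw [integral_finsetSum _ fun i _ => (hh2 i).integrable_sq, Finset.mul_sum]
      _ ≤ _ := by
          have := hD.crit.Kw_small
          gcongr
  have hcs := ws_cauchy_schwarz hw2 hd2
  have habs : |∫ y, inner ℝ (w y) (d y) ∂(dm η)| ≤ N * κ * Real.sqrt δ * I := by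
    apply abs_le_of_sq_le_sq _ (by positivity)
    calc (∫ y, inner ℝ (w y) (d y) ∂(dm η)) ^ 2 ≤ I * ∫ y, ‖d y‖ ^ 2 ∂(dm η) := hcs
      _ ≤ I * ((N * κ) ^ 2 * (δ * I)) := by gcongr
      _ = (N * κ * Real.sqrt δ * I) ^ 2 := by
          have := Real.sq_sqrt hδ
          calc I * ((N * κ) ^ 2 * (δ * I)) = (N * κ) ^ 2 * δ * I ^ 2 := by ring
            _ = (N * κ) ^ 2 * Real.sqrt δ ^ 2 * I ^ 2 := by rw [this]
            _ = _ := by ring
  have iw : Integrable (fun y => ‖w y‖ ^ 2) (dm η) := hw2.integrable_norm_pow (by norm_num)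
  have iwd : Integrable (fun y => inner ℝ (w y) (d y)) (dm η) := ws_integrable_inner hw2 hd2
  have hlow : ∫ y, (t ^ 2 * ‖w y‖ ^ 2 + 2 * t * inner ℝ (w y) (d y)) ∂(dm η) ≤
      ∫ y, ‖vJ η κ N w y‖ ^ 2 ∂(dm η) := by
    refine integral_mono ((iw.const_mul _).add (iwd.const_mul _)) (hW2.integrable_norm_pow (by norm_num))
      fun y => ?_
    have e : vJ η κ N w y = t • w y + d y := by rw [hd]; simp
    show t ^ 2 * ‖w y‖ ^ 2 + 2 * t * inner ℝ (w y) (d y) ≤ ‖vJ η κ N w y‖ ^ 2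
    rw [e, norm_add_sq_real, norm_smul, inner_smul_left, mul_pow, Real.norm_eq_abs, sq_abs]
    have : 0 ≤ ‖d y‖ ^ 2 := by positivity
    simp only [conj_trivial]
    linarith
  rw [integral_add (iw.const_mul _) (iwd.const_mul _), integral_const_mul, integral_const_mul, ← hI] at hlow
  have e2 : θ ^ (2 * N) = t ^ 2 := by rw [ht, ← pow_mul, mul_comm]
  rw [e2]
  have h3 := (abs_le.1 habs).1
  have h4 : 0 ≤ N * κ * Real.sqrt δ * I := by positivity
  nlinarith

end Claimed.Agent.R259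
end

/- ===== packed: Claimed.Agent.R259.S4ProbeLow ===== -/
section
/-
Row 259 (S0499), Lemma 4.1 (efficient Gaussian probes), sub-blueprint of helper220: package L-S4Probe-low (lower bound for the mutual information after `N` steps).
EXPORT FILE of a leaf package: the package owner OWNS this file, keeps names and statements (report a false / awkward
statement to helper220 at once), replaces every `sorry`, and may add helper files `S4ProbeLow*.lean`.
PROOF.  `W_N = vJ η κ N w` (componentwise `J^N w`), `θ = (1+κ)⁻¹`.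
(a) YOUNG: `klFun x ≥ x g - exp g + 1`.  With the density `K̃_N(l,y) = K N l y * lcZ l` of the joint law with respect to `γ ⊗ η`:
    `∫∫ klFun K̃_N dγ dη = Ch.J N + lcD` (`log K̃ = log K + log lcZ`, `∫ K N l y dη = 1`), and for bounded measurable `v : E → E`,
    `g(l,y) = ⟨v y, l⟩ - |v y|²/2`, `∫ exp g dγ(l) = 1`:   `Ch.J N + lcD ≥ ∫ ⟨l, Ch.pe N v l⟩ dΛ - (1/2) ∫ |v|² dη` (`s4p_marginal`).
(b) TRANSFER (symmetry of `J`, `op_res_symm`, componentwise): `Ch.pe N v l = Ch.pe 0 (vJ η κ N v) l` for a.e. `l`.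
(c) `∫ ⟨l, Ch.pe 0 g l⟩ dΛ = √T ∫ ⟨w, g⟩ dη` (Fubini, `∫ l lcK w T l y dγ(l) = √T w y`), and `∫ ⟨w, vJ N v⟩ dη = ∫ ⟨W_N, v⟩ dη`.
(d) `v = √T W_N 1_{|W_N| ≤ R}`, `R → ∞`:  `Ch.J N + lcD ≥ (T/2) ∫ |W_N|² dη`.
(e) `w = J((1+κ) w - κ K w)` (`op_dom_classical`, `op_res_iff_dom`, `CritField.eqn`) so `‖J w - θ w‖ ≤ κ ‖K w‖`, induction with the
    contraction `op_res_contract`: `‖W_N - θ^N w‖ ≤ N κ √(δ I)` (`Crit.Kw_small`);  `‖W_N‖² ≥ (θ^{2N} - 2 N κ √δ) I`.
-/
set_option autoImplicit false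

open MeasureTheory Filter Topology ProbabilityTheory InformationTheory
open scoped ContDiff ENNReal

namespace Claimed.Agent.R259

variable {E : Type} [NormedAddCommGroup E] [InnerProductSpace ℝ E] [FiniteDimensional ℝ E]
  [MeasurableSpace E] [BorelSpace E]

variable {μ : Measure E} {a δ : ℝ} {η : E → ℝ} {w : E → E} {f : E → ℝ} {T κ : ℝ}

theorem s4p_lower (hD : PData μ a δ η w f) (hδ : 0 ≤ δ) (hT : 0 ≤ T) (hκ : 0 < κ)
    (Ch : PChain η w T κ) (N : ℕ) :
    T / 2 * (((1 + κ)⁻¹) ^ (2 * N) - 2 * (N * κ) * Real.sqrt δ) * ∫ x, ‖w x‖ ^ 2 ∂(dm η)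
      ≤ Ch.J N + lcD (dm η) w T := by
  have hη := hD.crit.field.spd
  have hw : Continuous w := hD.crit.field.w_smooth.continuous
  have hw2 := hD.crit.field.w_L2
  have := lc_spd_prob hη
  obtain ⟨hWm, hW2, hWn⟩ := s4pw_norm hD hδ hκ N
  set W := vJ η κ N w with hW
  have hWi : Integrable (fun y => ‖W y‖ ^ 2) (dm η) := hW2.integrable_norm_pow (by norm_num)
  -- truncated test fields
  have hstep : ∀ n : ℕ, T / 2 * ∫ y, {y | ‖W y‖ ≤ n}.indicator (fun y => ‖W y‖ ^ 2) y ∂(dm η) ≤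
      Ch.J N + lcD (dm η) w T := by
    intro n
    have hS : MeasurableSet {y | ‖W y‖ ≤ (n : ℝ)} := measurableSet_le hWm.norm measurable_const
    set v : E → E := {y | ‖W y‖ ≤ (n : ℝ)}.indicator (fun y => Real.sqrt T • W y) with hv
    have hvm : Measurable v := (hWm.const_smul _).indicator hS
    have hvb : ∀ y, ‖v y‖ ≤ Real.sqrt T * n := by
      intro y
      by_cases hy : y ∈ {y | ‖W y‖ ≤ (n : ℝ)}
      · rw [hv, Set.indicator_of_mem hy, norm_smul, Real.norm_eq_abs, abs_of_nonneg (Real.sqrt_nonneg T)]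
        exact mul_le_mul_of_nonneg_left hy (Real.sqrt_nonneg T)
      · rw [hv, Set.indicator_of_notMem hy, norm_zero]
        positivity
    have h1 := s4pw_young hη hw hw2 hT hκ Ch N hvm hvb
    rw [s4pw_transfer hη hw hw2 hT hκ Ch N hvm hvb, ← hW] at h1
    have e1 : ∀ y, inner ℝ (W y) (v y) =
        Real.sqrt T * {y | ‖W y‖ ≤ (n : ℝ)}.indicator (fun y => ‖W y‖ ^ 2) y := by
      intro y
      by_cases hy : y ∈ {y | ‖W y‖ ≤ (n : ℝ)}
      · rw [hv, Set.indicator_of_mem hy, Set.indicator_of_mem hy, inner_smul_right,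
          real_inner_self_eq_norm_sq]
      · rw [hv, Set.indicator_of_notMem hy, Set.indicator_of_notMem hy, inner_zero_right, mul_zero]
    have e2 : ∀ y, ‖v y‖ ^ 2 = T * {y | ‖W y‖ ≤ (n : ℝ)}.indicator (fun y => ‖W y‖ ^ 2) y := by
      intro y
      by_cases hy : y ∈ {y | ‖W y‖ ≤ (n : ℝ)}
      · rw [hv, Set.indicator_of_mem hy, Set.indicator_of_mem hy, norm_smul, mul_pow, Real.norm_eq_abs,
          sq_abs, Real.sq_sqrt hT]
      · rw [hv, Set.indicator_of_notMem hy, Set.indicator_of_notMem hy, norm_zero]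
        simp
    simp_rw [e1, e2] at h1
    rw [integral_const_mul, integral_const_mul, ← mul_assoc, Real.mul_self_sqrt hT] at h1
    linarith
  have hlim : Tendsto (fun n : ℕ => ∫ y, {y | ‖W y‖ ≤ (n : ℝ)}.indicator (fun y => ‖W y‖ ^ 2) y ∂(dm η))
      atTop (𝓝 (∫ y, ‖W y‖ ^ 2 ∂(dm η))) := by
    refine tendsto_integral_of_dominated_convergence (fun y => ‖W y‖ ^ 2) (fun n => ?_) hWi (fun n => ?_) ?_
    · exact ((hWm.norm.pow_const 2).indicator
        (measurableSet_le hWm.norm measurable_const)).aestronglyMeasurable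
    · refine Eventually.of_forall fun y => ?_
      rw [Real.norm_eq_abs, abs_of_nonneg (Set.indicator_nonneg (fun _ _ => by positivity) _)]
      exact Set.indicator_le_self' (fun _ _ => by positivity) _
    · refine Eventually.of_forall fun y => ?_
      obtain ⟨n0, hn0⟩ := exists_nat_ge ‖W y‖
      refine tendsto_const_nhds.congr' ?_
      filter_upwards [eventually_ge_atTop n0] with n hn
      have : y ∈ {y | ‖W y‖ ≤ (n : ℝ)} := hn0.trans (by exact_mod_cast hn)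
      rw [Set.indicator_of_mem this]
  have hfin : T / 2 * ∫ y, ‖W y‖ ^ 2 ∂(dm η) ≤ Ch.J N + lcD (dm η) w T :=
    le_of_tendsto (hlim.const_mul (T / 2)) (Eventually.of_forall hstep)
  calc T / 2 * (((1 + κ)⁻¹) ^ (2 * N) - 2 * (N * κ) * Real.sqrt δ) * ∫ x, ‖w x‖ ^ 2 ∂(dm η)
      = T / 2 * ((((1 + κ)⁻¹) ^ (2 * N) - 2 * (N * κ) * Real.sqrt δ) * ∫ x, ‖w x‖ ^ 2 ∂(dm η)) := by ring
    _ ≤ T / 2 * ∫ y, ‖W y‖ ^ 2 ∂(dm η) := by gcongr
    _ ≤ _ := hfin

end Claimed.Agent.R259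
end

/- ===== packed: Claimed.Agent.R259.S4Probe ===== -/
section
/-
Row 259 (S0499), section 4: Lemma 4.1 (efficient Gaussian probes), `s4_probes`, PROVED from the exports of the leaf packages
  S4ProbeChain, S4ProbePls -> S4ProbeStep, S4ProbeNum, S4ProbeRec, S4ProbeLow   and   ImmseLc (helper147).
Owner: helper220.
-/
set_option autoImplicit false

open MeasureTheory Filter Topology ProbabilityTheory InformationTheory
open scoped ContDiff ENNReal

namespace Claimed.Agent.R259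

variable {E : Type} [NormedAddCommGroup E] [InnerProductSpace ℝ E] [FiniteDimensional ℝ E]
  [MeasurableSpace E] [BorelSpace E]

theorem s4p_spd_prob {η : E → ℝ} (h : SPD η) : IsProbabilityMeasure (dm η) := by
  constructor
  have hint : Integrable η := by
    by_contra hc
    have := integral_undef hc
    rw [h.2.2] at this
    exact one_ne_zero this
  rw [dm, withDensity_apply _ MeasurableSet.univ, Measure.restrict_univ,
    ← ofReal_integral_eq_lintegral_ofReal hint (Eventually.of_forall fun x => (h.2.1 x).le), h.2.2]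
  simp

/-- the predicted score is controlled by the entropy of the probe:
`E|E[w | L_T]|² ≤ 4800 d(T) + ε I` for `T ≤ M`. -/
theorem s4p_score : ∀ ε : ℝ, 0 < ε → ∀ M : ℝ, 0 < M → ∃ δ : ℝ, 0 < δ ∧ ∀ (E : Type)
    [NormedAddCommGroup E] [InnerProductSpace ℝ E] [FiniteDimensional ℝ E] [MeasurableSpace E]
    [BorelSpace E] (μ : Measure E) (a : ℝ) (η : E → ℝ) (w : E → E) (f : E → ℝ),
    PData μ a δ η w f → ∀ T, 0 ≤ T → T ≤ M →
      lcPE (dm η) w T w ≤ 4800 * lcD (dm η) w T + ε * ∫ x, ‖w x‖ ^ 2 ∂(dm η) := by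
  intro ε hε M hM
  obtain ⟨C, hC, hstep⟩ := s4p_step
  obtain ⟨N, hN, δ, hδ, hδ1, hpar⟩ := s4p_param C ε M hC hε hM
  refine ⟨δ, hδ, ?_⟩
  intro E _ _ _ _ _ μ a η w f hD T hT hTM
  have hη := hD.crit.field.spd
  have hw2 := hD.crit.field.w_L2
  have hwc : Continuous w := hD.crit.field.w_smooth.continuous
  have := s4p_spd_prob hη
  have ha0 : 0 ≤ a := hD.crit.base.apos.le
  have haδ : a ≤ δ := hD.crit.a_small
  have ha1 : a ≤ 1 := haδ.trans hδ1
  set I := ∫ x, ‖w x‖ ^ 2 ∂(dm η) with hIdef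
  have hI : 0 ≤ I := integral_nonneg fun _ => by positivity
  set d := lcD (dm η) w T with hddef
  have hd : 0 ≤ d := lc_D_nonneg hw2 hT
  have hNpos : (0 : ℝ) < N := by exact_mod_cast (by omega : 0 < N)
  set κ : ℝ := 1 / (N : ℝ) with hκdef
  have hκ : 0 < κ := by positivity
  have hκN : κ * N = 1 := by rw [hκdef]; field_simp
  set α := C * Real.sqrt a with hαdef
  have hα0 : 0 ≤ α := by positivity
  obtain ⟨hα1, hnum⟩ := hpar δ a T ha0 haδ le_rfl hT hTM
  obtain ⟨Ch⟩ := s4p_chain_exists (κ := κ) hη hwc hw2 hT hκ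
  have hst := fun j => hstep E μ a δ η w f hD ha1 T κ hT hκ Ch j
  have hQ0 : ∀ j, 0 ≤ Ch.Q j (fun y : E => y) := fun j => integral_nonneg fun _ => by positivity
  obtain ⟨hsum, hJle⟩ := s4p_sum (N := N) (by omega) hκdef hα0 hα1 hT hδ.le hI hd
    (J := Ch.J) (Q := fun j => Ch.Q j (fun y : E => y)) (fun j => (hst j).1) hQ0
    (fun j _ => (hst j).2.1) (s4p_J_zero hη hwc hw2 hT Ch).2
    (s4p_lower hD hδ.le hT hκ Ch N)
  have hext := s4p_extract hD hT hN Ch
  rw [s4p_Q_zero hη hwc hT Ch w] at hext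
  -- the three sums
  have hsK : κ * ∑ i ∈ Finset.range N, Ch.Q (i + 1) (fun y => hessK μ s0 y (w y)) ≤ δ * I := by
    have h1 : ∑ i ∈ Finset.range N, Ch.Q (i + 1) (fun y => hessK μ s0 y (w y))
        ≤ ∑ _i ∈ Finset.range N, δ * I :=
      Finset.sum_le_sum fun i _ => s4p_Q_Kw hD hT hκ Ch (i + 1)
    rw [Finset.sum_const, Finset.card_range, nsmul_eq_mul] at h1
    calc _ ≤ κ * (N * (δ * I)) := by gcongr
      _ = (κ * N) * (δ * I) := by ring
      _ = δ * I := by rw [hκN, one_mul]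
  have hsb : κ * ∑ i ∈ Finset.range N, Ch.Q (i + 1) (postMean μ s0)
      ≤ C * a ^ 2 * (T / 2 + 3 / 2 * α + 1 / 2) * I := by
    have h1 : ∑ i ∈ Finset.range N, Ch.Q (i + 1) (postMean μ s0)
        ≤ ∑ _i ∈ Finset.range N, C * a ^ 2 * (T / 2 + 3 / 2 * α + 1 / 2) * I := by
      refine Finset.sum_le_sum fun i hi => ?_
      have hi' : i + 1 ≤ N := by have := Finset.mem_range.mp hi; omega
      calc Ch.Q (i + 1) (postMean μ s0) ≤ C * a ^ 2 * (Ch.J (i + 1) + I / 2) := (hst i).2.2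
        _ ≤ C * a ^ 2 * ((T / 2 * I + 3 / 2 * α * I) + I / 2) := by
            have := hJle (i + 1) hi'
            gcongr
        _ = _ := by ring
    rw [Finset.sum_const, Finset.card_range, nsmul_eq_mul] at h1
    calc _ ≤ κ * (N * (C * a ^ 2 * (T / 2 + 3 / 2 * α + 1 / 2) * I)) := by gcongr
      _ = (κ * N) * (C * a ^ 2 * (T / 2 + 3 / 2 * α + 1 / 2) * I) := by ring
      _ = _ := by rw [hκN, one_mul]
  have hsplit : κ * ∑ i ∈ Finset.range N, (Ch.Q (i + 1) (fun y => y)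
      + Ch.Q (i + 1) (fun y => hessK μ s0 y (w y)) + Ch.Q (i + 1) (postMean μ s0))
      = κ * ∑ i ∈ Finset.range N, Ch.Q (i + 1) (fun y => y)
        + κ * ∑ i ∈ Finset.range N, Ch.Q (i + 1) (fun y => hessK μ s0 y (w y))
        + κ * ∑ i ∈ Finset.range N, Ch.Q (i + 1) (postMean μ s0) := by
    rw [Finset.sum_add_distrib, Finset.sum_add_distrib]; ring
  rw [hsplit] at hext
  have hfin : 19200 * ((T / 2 * (κ + 3 * α) + 8 * T * Real.sqrt δ + 12 * α) / 28 + δ
      + C * a ^ 2 * (T / 2 + 3 / 2 * α + 1 / 2)) * I ≤ ε * I := by gcongr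
  calc lcPE (dm η) w T w ≤ _ := hext
    _ ≤ 19200 * (((T / 2 * (κ + 3 * α) + 8 * T * Real.sqrt δ + 12 * α) / 28 * I + d / 4)
          + δ * I + C * a ^ 2 * (T / 2 + 3 / 2 * α + 1 / 2) * I) := by gcongr
    _ = 4800 * d + 19200 * ((T / 2 * (κ + 3 * α) + 8 * T * Real.sqrt δ + 12 * α) / 28 + δ
          + C * a ^ 2 * (T / 2 + 3 / 2 * α + 1 / 2)) * I := by ring
    _ ≤ 4800 * d + ε * I := by linarith

/-- LEMMA 4.1 (efficient Gaussian probes): `sup_{T ≤ M} d(T) ≤ ε I`. -/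
theorem s4_probes : ∀ ε : ℝ, 0 < ε → ∀ M : ℝ, 0 < M → ∃ δ : ℝ, 0 < δ ∧ ∀ (E : Type)
    [NormedAddCommGroup E] [InnerProductSpace ℝ E] [FiniteDimensional ℝ E] [MeasurableSpace E]
    [BorelSpace E] (μ : Measure E) (a : ℝ) (η : E → ℝ) (w : E → E) (f : E → ℝ),
    Crit μ a δ η w → StrictBranch μ s0 1 η w f → ∀ T, 0 ≤ T → T ≤ M →
      lcD (dm η) w T ≤ ε * ∫ x, ‖w x‖ ^ 2 ∂(dm η) := by
  intro ε hε M hM
  have hX : 0 < M * Real.exp (4800 * M) := by positivity
  obtain ⟨δ, hδ, h⟩ := s4p_score (ε / (M * Real.exp (4800 * M))) (by positivity) M hM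
  refine ⟨δ, hδ, ?_⟩
  intro E _ _ _ _ _ μ a η w f hC hS T hT hTM
  have hw2 := hC.field.w_L2
  have := s4p_spd_prob hC.field.spd
  set I := ∫ x, ‖w x‖ ^ 2 ∂(dm η) with hIdef
  have hI : 0 ≤ I := integral_nonneg fun _ => by positivity
  have key := s4p_gronwall (C := 4800) (e := ε / (M * Real.exp (4800 * M)) * I) (M := M)
    (by norm_num) (by positivity) hM.le (d := fun t => lcD (dm η) w t) (lc_D_zero hw2)
    (fun t₁ t₂ h1 h12 h2 => by
      have h3 := (lc_D_inc hw2 h1 h12).2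
      have h4 := h E μ a η w f ⟨hC, hS⟩ t₂ (h1.trans h12) h2
      have h5 : 0 ≤ (t₂ - t₁) / 2 := by linarith
      exact h3.trans (mul_le_mul_of_nonneg_left h4 h5))
    T hT hTM
  calc lcD (dm η) w T ≤ _ := key
    _ = ε * I := by field_simp

end Claimed.Agent.R259
end
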