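/- Packed by merge_tool.py (helper293): 7 modules of Claimed.Agent.R259 in one file, same declarations.
   Old modules, in this order: S4LossChi, S4LossMom, S4LossStep, MetB4, MetB5, MetB6, MetB -/
import Claimed.Agent.R259.Pack011
import Claimed.Agent.R259.Pack001
import Claimed.Agent.R259.Pack048
import Claimed.Agent.R259.Pack029

/- ===== packed: Claimed.Agent.R259.S4LossChi ===== -/
section
/-
Row 259 (S0499), Lemma 4.2, leaf `L-s4l-chi` (PROVED): the one-step estimate for two laws (chi-square bound for outputs with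
equal means).  Owner of the statement: helper103.  Self-contained: Mathlib + S4LossBase (Gaussian kernel facts).

NOTATION. `s4lT δ ζ y = exp(⟨ζ,y⟩ - δ|y|²/2)`, `s4lLap α δ ζ = ∫ s4lT δ ζ y dα(y)`.
PLAN. Put `a = ∫ x dα`, `a' = ∫ x dβ`, `D = a - a'`, `F_α(ξ) = ∫ s4lT δ ξ (y - a) dα(y)`, `F_β(ξ) = ∫ s4lT δ ξ (y - a') dβ(y)`.
(1) `s4l_T_shift`: `s4lLap α δ ζ = s4lT δ ζ a * F_α(ζ - δa)`, `s4lLap β δ (ζ - δD) = s4lT δ (ζ - δD) a' * F_β(ζ - δa)`;
    `gk δ ζ * s4lT δ ζ a = gk δ (ζ - δa)` (`s4l_gk_mul_T`); the logarithm of the ratio of the two prefactors is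
    `⟨ζ,D⟩ - δ|D|²/2`.  Translate `ζ = ξ + δa`: the integrand is
    `gk δ ξ * F_α ξ * (log(F_α ξ / F_β ξ) + ⟨ξ,D⟩ + δ⟨a,D⟩ - δ|D|²/2)`.
(2) `∫ gk δ F_α = 1`, `∫ gk δ ξ F_α ξ ⟨ξ,D⟩ dξ = δ ⟨∫ (y-a) dα, D⟩ = 0` (Fubini, `s4l_gk_mul_T`, `s4l_gk_first`).
(3) `log x ≤ x - 1`: `F_α log(F_α/F_β) ≤ F_α²/F_β - F_α = (F_α-F_β)²/F_β + F_α - F_β`; `|log x| ≤ x + 1/x` for integrability.
(4) Jensen: `F_β ≥ exp(-δ m/2)`, `m = ∫ |y-a'|² dβ`, `δ m ≤ κ m ≤ Aβ`.
(5) `(F_α-F_β)² ≤ 2(F_α-1)² + 2(F_β-1)²`, `∫ gk δ (F-1)² = ∫∫ exp(δ⟨x,x'⟩) - 1 = ∫∫ (exp(δ s) - 1 - δ s)`, `s = ⟨x,x'⟩`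
    (centred), `e^u - 1 - u ≤ u² e^{|u|}/2`, `|s| ≤ σ = (|x|²+|x'|²)/2`, `σ²/2 ≤ e^{κσ}/κ²`, `δ ≤ κ`:
    `≤ (δ²/κ²) (∫ e^{κ|x|²})²`.
-/
set_option autoImplicit false
set_option linter.unusedSectionVars false

open MeasureTheory Filter Topology
open scoped ContDiff ENNReal

namespace Claimed.Agent.R259

variable {E : Type} [NormedAddCommGroup E] [InnerProductSpace ℝ E] [FiniteDimensional ℝ E]
  [MeasurableSpace E] [BorelSpace E]

/-! ### scalar inequalities -/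

theorem s4lc_exp_sub (u : ℝ) : Real.exp u - 1 - u ≤ u ^ 2 * Real.exp |u| := by
  have h1 : 1 - u ≤ Real.exp (-u) := by have := Real.add_one_le_exp (-u); linarith
  have h3 : Real.exp (-u) * Real.exp u = 1 := by rw [← Real.exp_add]; simp
  have hpos := Real.exp_pos u
  rcases le_or_gt 0 u with hu | hu
  · rw [abs_of_nonneg hu]
    have h2 : (1 + u) * (1 - u) ≤ (1 + u) * Real.exp (-u) :=
      mul_le_mul_of_nonneg_left h1 (by linarith)
    have h4 := mul_le_mul_of_nonneg_right h2 hpos.le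
    rw [mul_assoc (1 + u) (Real.exp (-u)), h3] at h4
    nlinarith
  · rw [abs_of_neg hu]
    have h5 : (1 - u) * Real.exp u ≤ 1 := by
      have := mul_le_mul_of_nonneg_right h1 hpos.le
      rwa [h3] at this
    have h6 : 0 ≤ Real.exp u - 1 - u := by have := Real.add_one_le_exp u; linarith
    have h7 : Real.exp u - 1 - u ≤ u ^ 2 := by nlinarith
    have h8 : 1 ≤ Real.exp (-u) := by linarith
    nlinarith [sq_nonneg u]

theorem s4lc_sq_le_exp {x : ℝ} (hx : 0 ≤ x) : x ^ 2 ≤ Real.exp x := by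
  have h1 : 1 + x / 4 ≤ Real.exp (x / 4) := by have := Real.add_one_le_exp (x / 4); linarith
  have h2 : (1 + x / 4) ^ 4 ≤ Real.exp (x / 4) ^ 4 := pow_le_pow_left₀ (by positivity) h1 4
  have h3 : Real.exp (x / 4) ^ 4 = Real.exp x := by
    rw [← Real.exp_nat_mul]; congr 1; push_cast; ring
  have h4 : x ≤ (1 + x / 4) ^ 2 := by nlinarith [sq_nonneg (1 - x / 4)]
  have h5 : x ^ 2 ≤ ((1 + x / 4) ^ 2) ^ 2 := pow_le_pow_left₀ hx h4 2
  calc x ^ 2 ≤ ((1 + x / 4) ^ 2) ^ 2 := h5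
    _ = (1 + x / 4) ^ 4 := by ring
    _ ≤ _ := by rw [← h3]; exact h2

theorem s4lc_scalar {δ κ s σ : ℝ} (hδ : 0 < δ) (hδκ : δ ≤ κ) (hs : |s| ≤ σ) :
    Real.exp (δ * s) - 1 - δ * s ≤ δ ^ 2 / κ ^ 2 * Real.exp (2 * κ * σ) := by
  have hκ : 0 < κ := hδ.trans_le hδκ
  have hσ : 0 ≤ σ := (abs_nonneg s).trans hs
  have h1 := s4lc_exp_sub (δ * s)
  have h2 : |δ * s| ≤ δ * σ := by
    rw [abs_mul, abs_of_pos hδ]; exact mul_le_mul_of_nonneg_left hs hδ.le
  have h3 : (δ * s) ^ 2 ≤ (δ * σ) ^ 2 := by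
    rw [← sq_abs (δ * s)]; exact pow_le_pow_left₀ (abs_nonneg _) h2 2
  have h4 : (κ * σ) ^ 2 ≤ Real.exp (κ * σ) := s4lc_sq_le_exp (by positivity)
  have h5 : Real.exp |δ * s| ≤ Real.exp (κ * σ) :=
    Real.exp_le_exp.2 (h2.trans (mul_le_mul_of_nonneg_right hδκ hσ))
  have h6 : Real.exp (2 * κ * σ) = Real.exp (κ * σ) * Real.exp (κ * σ) := by
    rw [← Real.exp_add]; congr 1; ring
  have h7 : (δ * σ) ^ 2 = δ ^ 2 / κ ^ 2 * (κ * σ) ^ 2 := by field_simp
  calc Real.exp (δ * s) - 1 - δ * s ≤ (δ * s) ^ 2 * Real.exp |δ * s| := h1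
    _ ≤ (δ * σ) ^ 2 * Real.exp (κ * σ) := by gcongr
    _ = δ ^ 2 / κ ^ 2 * ((κ * σ) ^ 2 * Real.exp (κ * σ)) := by rw [h7]; ring
    _ ≤ δ ^ 2 / κ ^ 2 * (Real.exp (κ * σ) * Real.exp (κ * σ)) := by gcongr
    _ = _ := by rw [h6]

/-! ### Fubini with shifted Gaussian kernels -/

theorem s4lc_swap {X : Type} [MeasurableSpace X] (ν : Measure X) [SFinite ν] {δ : ℝ} (hδ : 0 < δ)
    {S : X → E} (hS : Measurable S) {ρ : X → ℝ} (hρ : Integrable ρ ν) :
    Integrable (fun ξ : E => ∫ x, gk δ (ξ - δ • S x) * ρ x ∂ν) ∧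
      ∫ ξ : E, ∫ x, gk δ (ξ - δ • S x) * ρ x ∂ν = ∫ x, ρ x ∂ν := by
  have hgm := (s4l_gk_continuous (E := E) δ).measurable
  have hm : AEStronglyMeasurable (fun z : E × X => gk δ (z.1 - δ • S z.2) * ρ z.2)
      ((volume : Measure E).prod ν) := by
    refine AEStronglyMeasurable.mul ?_ hρ.aestronglyMeasurable.comp_snd
    have : Measurable (fun z : E × X => gk δ (z.1 - δ • S z.2)) := by fun_prop
    exact this.aestronglyMeasurable
  have hI : Integrable (fun z : E × X => gk δ (z.1 - δ • S z.2) * ρ z.2)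
      ((volume : Measure E).prod ν) := by
    rw [integrable_prod_iff' hm]
    constructor
    · refine ae_of_all _ fun x => ?_
      have h5 : Integrable (fun ξ : E => gk δ (ξ - δ • S x)) :=
        (s4l_gk_integrable hδ).comp_sub_right (δ • S x)
      exact h5.mul_const (ρ x)
    · have h3 : ∀ x, ∫ ξ : E, ‖gk δ (ξ - δ • S x) * ρ x‖ = ‖ρ x‖ := by
        intro x
        have h4 : ∀ ξ : E, ‖gk δ (ξ - δ • S x) * ρ x‖ = gk δ (ξ - δ • S x) * ‖ρ x‖ := by
          intro ξ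
          rw [norm_mul, Real.norm_eq_abs, abs_of_nonneg (s4l_gk_nonneg hδ _)]
        simp only [h4]
        rw [integral_mul_const, integral_sub_right_eq_self (fun ζ : E => gk δ ζ), gc_gk_integral hδ,
          one_mul]
      simp only [h3]
      exact hρ.norm
  refine ⟨hI.integral_prod_left, ?_⟩
  rw [integral_integral_swap (f := fun (ξ : E) (x : X) => gk δ (ξ - δ • S x) * ρ x) hI]
  congr 1; ext x
  rw [integral_mul_const, integral_sub_right_eq_self (fun ζ : E => gk δ ζ), gc_gk_integral hδ,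
    one_mul]

/-- first moment of a shifted Gaussian. -/
theorem s4lc_first {δ : ℝ} (hδ : 0 < δ) (v : E) :
    Integrable (fun ξ : E => gk δ (ξ - v) • ξ) ∧ ∫ ξ : E, gk δ (ξ - v) • ξ = v ∧
      ∫ ξ : E, gk δ (ξ - v) * ‖ξ‖ ≤ (∫ ξ : E, gk δ ξ * ‖ξ‖) + ‖v‖ := by
  have h1 : Integrable (fun ξ : E => gk δ ξ • ξ) := by
    refine (s4l_gk_norm_integrable (E := E) hδ).mono'
      ((s4l_gk_continuous δ).smul continuous_id).aestronglyMeasurable (ae_of_all _ fun ξ => ?_)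
    rw [norm_smul, Real.norm_eq_abs, abs_of_nonneg (s4l_gk_nonneg hδ _)]
  have h2 : Integrable (fun ξ : E => gk δ ξ • v) := (s4l_gk_integrable hδ).smul_const v
  have h3 : Integrable (fun ξ : E => gk δ ξ • (ξ + v)) := by
    refine (h1.add h2).congr (ae_of_all _ fun ξ => ?_)
    simp only [Pi.add_apply, smul_add]
  have e : (fun ξ : E => gk δ (ξ - v) • ξ) = fun ξ => (fun η : E => gk δ η • (η + v)) (ξ - v) := by
    ext ξ; simp
  refine ⟨?_, ?_, ?_⟩
  · rw [e]; exact h3.comp_sub_right v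
  · rw [e, integral_sub_right_eq_self (fun η : E => gk δ η • (η + v))]
    simp only [smul_add]
    rw [integral_add h1 h2, s4l_gk_first, integral_smul_const, gc_gk_integral hδ, zero_add, one_smul]
  · have e' : (fun ξ : E => gk δ (ξ - v) * ‖ξ‖) = fun ξ => (fun η : E => gk δ η * ‖η + v‖) (ξ - v) := by
      ext ξ; simp
    rw [e', integral_sub_right_eq_self (fun η : E => gk δ η * ‖η + v‖)]
    have h4 : Integrable (fun η : E => gk δ η * ‖η‖ + gk δ η * ‖v‖) :=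
      (s4l_gk_norm_integrable hδ).add ((s4l_gk_integrable hδ).mul_const _)
    have h5 : ∫ η : E, (gk δ η * ‖η‖ + gk δ η * ‖v‖) = (∫ ξ : E, gk δ ξ * ‖ξ‖) + ‖v‖ := by
      rw [integral_add (s4l_gk_norm_integrable hδ) ((s4l_gk_integrable hδ).mul_const _),
        integral_mul_const, gc_gk_integral hδ, one_mul]
    rw [← h5]
    refine integral_mono_of_nonneg (ae_of_all _ fun η => mul_nonneg (s4l_gk_nonneg hδ _) (norm_nonneg _))
      h4 (ae_of_all _ fun η => ?_)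
    simp only
    rw [← mul_add]
    exact mul_le_mul_of_nonneg_left (norm_add_le _ _) (s4l_gk_nonneg hδ _)

/-! ### the Laplace transform of a probability measure -/

section lap

variable (α : Measure E) [IsProbabilityMeasure α]

theorem s4lc_T_integrable {δ : ℝ} (hδ : 0 < δ) (ξ : E) : Integrable (fun y => s4lT δ ξ y) α := by
  refine Integrable.mono' (integrable_const (Real.exp (‖ξ‖ ^ 2 / (2 * δ))))
    (s4l_T_continuous_right δ ξ).aestronglyMeasurable (ae_of_all _ fun y => ?_)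
  rw [Real.norm_eq_abs, abs_of_pos (s4l_T_pos _ _ _)]
  exact s4l_T_le hδ ξ y

theorem s4lc_Lap_pos {δ : ℝ} (hδ : 0 < δ) (ξ : E) : 0 < s4lLap α δ ξ := by
  unfold s4lLap
  rw [integral_pos_iff_support_of_nonneg (fun y => (s4l_T_pos _ _ _).le) (s4lc_T_integrable α hδ ξ)]
  have : Function.support (fun y => s4lT δ ξ y) = Set.univ := by
    ext y
    simp only [Function.mem_support, ne_eq, Set.mem_univ, iff_true]
    exact (s4l_T_pos _ _ _).ne'
  rw [this]; simp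

theorem s4lc_Lap_measurable (δ : ℝ) : Measurable (s4lLap α δ) := by
  unfold s4lLap
  exact (s4l_T_continuous (E := E) δ).stronglyMeasurable.integral_prod_right.measurable

theorem s4lc_gk_Lap {δ : ℝ} (hδ : 0 < δ) (ξ : E) :
    gk δ ξ * s4lLap α δ ξ = ∫ y, gk δ (ξ - δ • y) * 1 ∂α := by
  unfold s4lLap
  rw [← integral_const_mul]
  simp only [s4l_gk_mul_T hδ, mul_one]

theorem s4lc_int_Lap {δ : ℝ} (hδ : 0 < δ) :
    Integrable (fun ξ => gk δ ξ * s4lLap α δ ξ) ∧ ∫ ξ, gk δ ξ * s4lLap α δ ξ = 1 := by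
  have h := s4lc_swap α hδ (S := fun y : E => y) measurable_id (ρ := fun _ => (1 : ℝ))
    (integrable_const _)
  simp only [s4lc_gk_Lap α hδ]
  simpa using h

theorem s4lc_T_mul_T (δ : ℝ) (ξ y y' : E) :
    s4lT δ ξ y * s4lT δ ξ y' = s4lT δ ξ (y + y') * Real.exp (δ * inner ℝ y y') := by
  unfold s4lT
  rw [← Real.exp_add, ← Real.exp_add, norm_add_sq_real, inner_add_right]
  congr 1; ring

variable {α}

theorem s4lc_norm_integrable {κ : ℝ} (hκ : 0 < κ)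
    (hα : Integrable (fun y => Real.exp (κ * ‖y‖ ^ 2)) α) : Integrable (fun y : E => ‖y‖ ^ 2) α := by
  refine Integrable.mono' (hα.const_mul κ⁻¹) (by fun_prop) (ae_of_all _ fun y => ?_)
  rw [Real.norm_eq_abs, abs_of_nonneg (by positivity)]
  have h2 : κ * ‖y‖ ^ 2 + 1 ≤ Real.exp (κ * ‖y‖ ^ 2) := Real.add_one_le_exp _
  rw [← div_eq_inv_mul, le_div_iff₀ hκ]; linarith

theorem s4lc_id_integrable {κ : ℝ} (hκ : 0 < κ)
    (hα : Integrable (fun y => Real.exp (κ * ‖y‖ ^ 2)) α) : Integrable (fun y : E => y) α := by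
  refine Integrable.mono' ((integrable_const (1 : ℝ)).add (s4lc_norm_integrable hκ hα))
    (by fun_prop) (ae_of_all _ fun y => ?_)
  simp only [Pi.add_apply]
  nlinarith [sq_nonneg (‖y‖ - 1), norm_nonneg y]

theorem s4lc_expexp_integrable {κ : ℝ}
    (hα : Integrable (fun y => Real.exp (κ * ‖y‖ ^ 2)) α) :
    Integrable (fun z : E × E => Real.exp (κ * ‖z.1‖ ^ 2) * Real.exp (κ * ‖z.2‖ ^ 2)) (α.prod α) :=
  hα.mul_prod hα

theorem s4lc_inner_le (y y' : E) : |inner ℝ y y'| ≤ (‖y‖ ^ 2 + ‖y'‖ ^ 2) / 2 := by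
  have h1 := abs_real_inner_le_norm y y'
  nlinarith [sq_nonneg (‖y‖ - ‖y'‖)]

theorem s4lc_expinner_integrable {κ δ : ℝ} (hδ : 0 < δ) (hδκ : δ ≤ κ)
    (hα : Integrable (fun y => Real.exp (κ * ‖y‖ ^ 2)) α) :
    Integrable (fun z : E × E => Real.exp (δ * inner ℝ z.1 z.2)) (α.prod α) := by
  refine Integrable.mono' (s4lc_expexp_integrable hα) (by fun_prop) (ae_of_all _ fun z => ?_)
  rw [Real.norm_eq_abs, abs_of_pos (Real.exp_pos _), ← Real.exp_add]
  apply Real.exp_le_exp.2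
  have h1 := (le_abs_self _).trans (s4lc_inner_le z.1 z.2)
  have h2 : δ * inner ℝ z.1 z.2 ≤ δ * ((‖z.1‖ ^ 2 + ‖z.2‖ ^ 2) / 2) :=
    mul_le_mul_of_nonneg_left h1 hδ.le
  have h3 : δ * ((‖z.1‖ ^ 2 + ‖z.2‖ ^ 2) / 2) ≤ κ * ((‖z.1‖ ^ 2 + ‖z.2‖ ^ 2) / 2) :=
    mul_le_mul_of_nonneg_right hδκ (by positivity)
  have h4 : 0 ≤ κ * (‖z.1‖ ^ 2 + ‖z.2‖ ^ 2) := by
    have := hδ.trans_le hδκ; positivity
  linarith

/-- second moment of the likelihood ratio. -/
theorem s4lc_int_Lap_sq {κ δ : ℝ} (hδ : 0 < δ) (hδκ : δ ≤ κ)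
    (hα : Integrable (fun y => Real.exp (κ * ‖y‖ ^ 2)) α) :
    Integrable (fun ξ => gk δ ξ * s4lLap α δ ξ ^ 2) ∧
      ∫ ξ, gk δ ξ * s4lLap α δ ξ ^ 2 = ∫ z : E × E, Real.exp (δ * inner ℝ z.1 z.2) ∂(α.prod α) := by
  have h := s4lc_swap (α.prod α) hδ (S := fun z : E × E => z.1 + z.2) (by fun_prop)
    (s4lc_expinner_integrable hδ hδκ hα)
  have e : ∀ ξ, gk δ ξ * s4lLap α δ ξ ^ 2 =
      ∫ z : E × E, gk δ (ξ - δ • (z.1 + z.2)) * Real.exp (δ * inner ℝ z.1 z.2) ∂(α.prod α) := by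
    intro ξ
    unfold s4lLap
    rw [sq, ← integral_prod_mul, ← integral_const_mul]
    congr 1; ext z
    rw [s4lc_T_mul_T, ← mul_assoc, s4l_gk_mul_T hδ]
  simp only [e]
  exact h

/-- the chi-square type bound for a centred law. -/
theorem s4lc_chi {κ δ : ℝ} (hδ : 0 < δ) (hδκ : δ ≤ κ)
    (hα : Integrable (fun y => Real.exp (κ * ‖y‖ ^ 2)) α) (h0 : ∫ y, y ∂α = 0) :
    Integrable (fun ξ => gk δ ξ * (s4lLap α δ ξ - 1) ^ 2) ∧
      ∫ ξ, gk δ ξ * (s4lLap α δ ξ - 1) ^ 2 ≤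
        δ ^ 2 / κ ^ 2 * (∫ y, Real.exp (κ * ‖y‖ ^ 2) ∂α) ^ 2 := by
  have hκ : 0 < κ := hδ.trans_le hδκ
  obtain ⟨a1, a2⟩ := s4lc_int_Lap α hδ
  obtain ⟨b1, b2⟩ := s4lc_int_Lap_sq hδ hδκ hα
  have hg := s4l_gk_integrable (E := E) hδ
  have e : ∀ ξ, gk δ ξ * (s4lLap α δ ξ - 1) ^ 2 =
      gk δ ξ * s4lLap α δ ξ ^ 2 - 2 * (gk δ ξ * s4lLap α δ ξ) + gk δ ξ := fun ξ => by ring
  have c1 : Integrable (fun ξ => gk δ ξ * s4lLap α δ ξ ^ 2 - 2 * (gk δ ξ * s4lLap α δ ξ)) :=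
    b1.sub (a1.const_mul 2)
  refine ⟨by simp only [e]; exact c1.add hg, ?_⟩
  simp only [e]
  rw [integral_add c1 hg, integral_sub b1 (a1.const_mul 2), integral_const_mul, a2, b2,
    gc_gk_integral hδ]
  -- the double integral
  have hid := s4lc_id_integrable hκ hα
  have hin : Integrable (fun z : E × E => inner ℝ z.1 z.2) (α.prod α) := by
    refine Integrable.mono' (hid.norm.mul_prod hid.norm) (by fun_prop) (ae_of_all _ fun z => ?_)
    exact abs_real_inner_le_norm _ _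
  have hin0 : ∫ z : E × E, inner ℝ z.1 z.2 ∂(α.prod α) = 0 := by
    rw [integral_prod _ hin]
    simp only [integral_inner hid, h0, inner_zero_right, integral_zero]
  have hex := s4lc_expinner_integrable hδ hδκ hα
  have hee := s4lc_expexp_integrable hα
  have h1 : ∫ z : E × E, (Real.exp (δ * inner ℝ z.1 z.2) - 1 - δ * inner ℝ z.1 z.2) ∂(α.prod α) =
      (∫ z : E × E, Real.exp (δ * inner ℝ z.1 z.2) ∂(α.prod α)) - 1 := by
    have hex1 : Integrable (fun z : E × E => Real.exp (δ * inner ℝ z.1 z.2) - 1) (α.prod α) :=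
      hex.sub (integrable_const _)
    rw [integral_sub hex1 (hin.const_mul δ),
      integral_sub hex (integrable_const _), integral_const_mul, hin0]
    simp
  have h2 : ∫ z : E × E, (Real.exp (δ * inner ℝ z.1 z.2) - 1 - δ * inner ℝ z.1 z.2) ∂(α.prod α) ≤
      ∫ z : E × E, δ ^ 2 / κ ^ 2 * (Real.exp (κ * ‖z.1‖ ^ 2) * Real.exp (κ * ‖z.2‖ ^ 2))
        ∂(α.prod α) := by
    refine integral_mono ((hex.sub (integrable_const _)).sub (hin.const_mul δ)) (hee.const_mul _)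
      fun z => ?_
    have h3 := s4lc_scalar hδ hδκ (s4lc_inner_le z.1 z.2)
    refine h3.trans (le_of_eq ?_)
    rw [← Real.exp_add]
    congr 2; ring
  rw [integral_const_mul, integral_prod_mul (fun y : E => Real.exp (κ * ‖y‖ ^ 2))
    (fun y : E => Real.exp (κ * ‖y‖ ^ 2)), ← sq] at h2
  linarith

/-- Jensen lower bound for a centred law. -/
theorem s4lc_Lap_ge {κ δ A : ℝ} (hδ : 0 < δ) (hδκ : δ ≤ κ)
    (hα : Integrable (fun y => Real.exp (κ * ‖y‖ ^ 2)) α) (h0 : ∫ y, y ∂α = 0)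
    (hA : ∫ y, Real.exp (κ * ‖y‖ ^ 2) ∂α ≤ A) (ξ : E) : Real.exp (-(A / 2)) ≤ s4lLap α δ ξ := by
  have hκ : 0 < κ := hδ.trans_le hδκ
  have hid := s4lc_id_integrable hκ hα
  have hsq := s4lc_norm_integrable hκ hα
  have hg : Integrable (fun y => inner ℝ ξ y - δ * ‖y‖ ^ 2 / 2) α := by
    refine (hid.const_inner ξ).sub ((hsq.const_mul (δ / 2)).congr (ae_of_all _ fun y => ?_))
    ring
  have hJ := convexOn_exp.map_integral_le (μ := α) (f := fun y => inner ℝ ξ y - δ * ‖y‖ ^ 2 / 2)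
    Real.continuous_exp.continuousOn isClosed_univ (ae_of_all _ fun _ => Set.mem_univ _) hg
    (s4lc_T_integrable α hδ ξ)
  have h1 : ∫ y, (inner ℝ ξ y - δ * ‖y‖ ^ 2 / 2) ∂α = -(δ / 2 * ∫ y, ‖y‖ ^ 2 ∂α) := by
    have e : (fun y : E => δ * ‖y‖ ^ 2 / 2) = fun y => δ / 2 * ‖y‖ ^ 2 := by ext y; ring
    rw [integral_sub (hid.const_inner ξ) (by rw [e]; exact hsq.const_mul _), integral_inner hid, h0, e,
      integral_const_mul]
    simp
  have h2 : δ * ∫ y, ‖y‖ ^ 2 ∂α ≤ A := by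
    rw [← integral_const_mul]
    refine (integral_mono (hsq.const_mul δ) hα fun y => ?_).trans hA
    have h3 : κ * ‖y‖ ^ 2 + 1 ≤ Real.exp (κ * ‖y‖ ^ 2) := Real.add_one_le_exp _
    have h4 : δ * ‖y‖ ^ 2 ≤ κ * ‖y‖ ^ 2 := mul_le_mul_of_nonneg_right hδκ (by positivity)
    linarith
  rw [h1] at hJ
  refine le_trans (Real.exp_le_exp.2 ?_) hJ
  linarith

/-- first moment of the output law. -/
theorem s4lc_int_Lap_first {κ δ : ℝ} (hκ : 0 < κ) (hδ : 0 < δ)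
    (hα : Integrable (fun y => Real.exp (κ * ‖y‖ ^ 2)) α) :
    Integrable (fun ξ => (gk δ ξ * s4lLap α δ ξ) • ξ) ∧
      ∫ ξ, (gk δ ξ * s4lLap α δ ξ) • ξ = δ • ∫ y, y ∂α := by
  have hid := s4lc_id_integrable hκ hα
  have hgc := s4l_gk_continuous (E := E) δ
  have hcont : Continuous (fun z : E × E => gk δ (z.1 - δ • z.2) • z.1) := by fun_prop
  have hI : Integrable (fun z : E × E => gk δ (z.1 - δ • z.2) • z.1) ((volume : Measure E).prod α) := by
    rw [integrable_prod_iff' hcont.aestronglyMeasurable]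
    constructor
    · exact ae_of_all _ fun y => (s4lc_first hδ (δ • y)).1
    · have hn : ∀ (ξ y : E), ‖gk δ (ξ - δ • y) • ξ‖ = gk δ (ξ - δ • y) * ‖ξ‖ := by
        intro ξ y
        rw [norm_smul, Real.norm_eq_abs, abs_of_nonneg (s4l_gk_nonneg hδ _)]
      simp only [hn]
      have hc2 : Continuous (Function.uncurry fun (ξ y : E) => gk δ (ξ - δ • y) * ‖ξ‖) := by
        simp only [Function.uncurry_def]; fun_prop
      refine Integrable.mono' ((integrable_const (∫ ξ : E, gk δ ξ * ‖ξ‖)).add (hid.norm.const_mul δ))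
        hc2.stronglyMeasurable.integral_prod_left.aestronglyMeasurable (ae_of_all _ fun y => ?_)
      rw [Real.norm_eq_abs, abs_of_nonneg (integral_nonneg fun ξ =>
        mul_nonneg (s4l_gk_nonneg hδ _) (norm_nonneg _))]
      refine (s4lc_first hδ (δ • y)).2.2.trans (le_of_eq ?_)
      simp only [Pi.add_apply]
      rw [norm_smul, Real.norm_eq_abs, abs_of_pos hδ]
  have e : ∀ ξ, (gk δ ξ * s4lLap α δ ξ) • ξ = ∫ y, gk δ (ξ - δ • y) • ξ ∂α := by
    intro ξ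
    rw [s4lc_gk_Lap α hδ, integral_smul_const]
    simp
  simp only [e]
  refine ⟨hI.integral_prod_left, ?_⟩
  rw [integral_integral_swap (f := fun (ξ y : E) => gk δ (ξ - δ • y) • ξ) hI]
  simp only [(s4lc_first hδ _).2.1]
  rw [integral_smul]

end lap

/-- the estimate for two centred laws. -/
theorem s4lc_centred {α β : Measure E} [IsProbabilityMeasure α] [IsProbabilityMeasure β]
    {κ δ Aα Aβ : ℝ} (hδ : 0 < δ) (hδκ : δ ≤ κ)
    (hα : Integrable (fun y => Real.exp (κ * ‖y‖ ^ 2)) α)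
    (hβ : Integrable (fun y => Real.exp (κ * ‖y‖ ^ 2)) β)
    (h0α : ∫ y, y ∂α = 0) (h0β : ∫ y, y ∂β = 0)
    (hAα : ∫ y, Real.exp (κ * ‖y‖ ^ 2) ∂α ≤ Aα) (hAβ : ∫ y, Real.exp (κ * ‖y‖ ^ 2) ∂β ≤ Aβ) :
    Integrable (fun ξ => gk δ ξ * (s4lLap α δ ξ * Real.log (s4lLap α δ ξ / s4lLap β δ ξ))) ∧
    ∫ ξ, gk δ ξ * (s4lLap α δ ξ * Real.log (s4lLap α δ ξ / s4lLap β δ ξ)) ≤
      2 * Real.exp (Aβ / 2) * (δ ^ 2 / κ ^ 2) * (Aα ^ 2 + Aβ ^ 2) := by
  have hκ : 0 < κ := hδ.trans_le hδκ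
  set f := s4lLap α δ with hf
  set g := s4lLap β δ with hg
  set c0 := Real.exp (Aβ / 2) with hc0
  have hc0p : 0 < c0 := Real.exp_pos _
  have hfp : ∀ ξ, 0 < f ξ := s4lc_Lap_pos α hδ
  have hgp : ∀ ξ, 0 < g ξ := s4lc_Lap_pos β hδ
  have hgl : ∀ ξ, (g ξ)⁻¹ ≤ c0 := by
    intro ξ
    have h1 := s4lc_Lap_ge hδ hδκ hβ h0β hAβ ξ
    rw [Real.exp_neg] at h1
    rw [inv_le_comm₀ (hgp ξ) hc0p]
    exact h1
  obtain ⟨a1, a2⟩ := s4lc_int_Lap α hδ
  obtain ⟨b1, b2⟩ := s4lc_int_Lap β hδ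
  obtain ⟨x1, x2⟩ := s4lc_chi hδ hδκ hα h0α
  obtain ⟨y1, y2⟩ := s4lc_chi hδ hδκ hβ h0β
  have hup : ∀ ξ, f ξ * Real.log (f ξ / g ξ) ≤
      c0 * (2 * (f ξ - 1) ^ 2 + 2 * (g ξ - 1) ^ 2) + (f ξ - g ξ) := by
    intro ξ
    have h1 : Real.log (f ξ / g ξ) ≤ f ξ / g ξ - 1 :=
      Real.log_le_sub_one_of_pos (div_pos (hfp ξ) (hgp ξ))
    have h2 : f ξ * (f ξ / g ξ - 1) = (f ξ - g ξ) ^ 2 * (g ξ)⁻¹ + (f ξ - g ξ) := by
      have := (hgp ξ).ne'
      field_simp; ring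
    have h3 : (f ξ - g ξ) ^ 2 * (g ξ)⁻¹ ≤ (f ξ - g ξ) ^ 2 * c0 :=
      mul_le_mul_of_nonneg_left (hgl ξ) (by positivity)
    have h4 : (f ξ - g ξ) ^ 2 ≤ 2 * (f ξ - 1) ^ 2 + 2 * (g ξ - 1) ^ 2 := by
      nlinarith [sq_nonneg (f ξ - 1 + (g ξ - 1))]
    have h5 := mul_le_mul_of_nonneg_left h1 (hfp ξ).le
    have h6 := mul_le_mul_of_nonneg_left h4 hc0p.le
    rw [h2] at h5
    linarith
  have hlo : ∀ ξ, f ξ - g ξ ≤ f ξ * Real.log (f ξ / g ξ) := by
    intro ξ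
    have h1 : Real.log (g ξ / f ξ) ≤ g ξ / f ξ - 1 :=
      Real.log_le_sub_one_of_pos (div_pos (hgp ξ) (hfp ξ))
    have h2 : Real.log (f ξ / g ξ) = - Real.log (g ξ / f ξ) := by
      rw [← Real.log_inv, inv_div]
    have h3 := mul_le_mul_of_nonneg_left h1 (hfp ξ).le
    have h4 : f ξ * (g ξ / f ξ - 1) = g ξ - f ξ := by
      have := (hfp ξ).ne'
      field_simp
    rw [h2]; linarith
  have iL : Integrable (fun ξ => gk δ ξ * (f ξ - g ξ)) := by
    refine (a1.sub b1).congr (ae_of_all _ fun ξ => ?_)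
    simp only [Pi.sub_apply]; ring
  have iS : Integrable (fun ξ => c0 * (2 * (gk δ ξ * (f ξ - 1) ^ 2) + 2 * (gk δ ξ * (g ξ - 1) ^ 2))) :=
    ((x1.const_mul 2).add (y1.const_mul 2)).const_mul c0
  have iU : Integrable (fun ξ => gk δ ξ *
      (c0 * (2 * (f ξ - 1) ^ 2 + 2 * (g ξ - 1) ^ 2) + (f ξ - g ξ))) := by
    refine (iS.add iL).congr (ae_of_all _ fun ξ => ?_)
    simp only [Pi.add_apply]; ring
  have hm : Measurable (fun ξ => gk δ ξ * (f ξ * Real.log (f ξ / g ξ))) := by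
    have h1 := (s4l_gk_continuous (E := E) δ).measurable
    have h2 := s4lc_Lap_measurable α δ
    have h3 := s4lc_Lap_measurable β δ
    fun_prop
  have iH : Integrable (fun ξ => gk δ ξ * (f ξ * Real.log (f ξ / g ξ))) := by
    refine Integrable.mono' (iL.norm.add iU.norm) hm.aestronglyMeasurable (ae_of_all _ fun ξ => ?_)
    simp only [Pi.add_apply, Real.norm_eq_abs]
    have hk := s4l_gk_nonneg hδ ξ
    have h1 := mul_le_mul_of_nonneg_left (hup ξ) hk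
    have h2 := mul_le_mul_of_nonneg_left (hlo ξ) hk
    rw [abs_le]
    constructor
    · have := neg_abs_le (gk δ ξ * (f ξ - g ξ))
      have := abs_nonneg (gk δ ξ * (c0 * (2 * (f ξ - 1) ^ 2 + 2 * (g ξ - 1) ^ 2) + (f ξ - g ξ)))
      linarith
    · have := le_abs_self (gk δ ξ * (c0 * (2 * (f ξ - 1) ^ 2 + 2 * (g ξ - 1) ^ 2) + (f ξ - g ξ)))
      have := abs_nonneg (gk δ ξ * (f ξ - g ξ))
      linarith
  refine ⟨iH, ?_⟩
  have h7 : ∫ ξ, gk δ ξ * (f ξ * Real.log (f ξ / g ξ)) ≤ ∫ ξ, gk δ ξ *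
      (c0 * (2 * (f ξ - 1) ^ 2 + 2 * (g ξ - 1) ^ 2) + (f ξ - g ξ)) :=
    integral_mono iH iU fun ξ => mul_le_mul_of_nonneg_left (hup ξ) (s4l_gk_nonneg hδ ξ)
  have h8 : ∫ ξ, gk δ ξ * (c0 * (2 * (f ξ - 1) ^ 2 + 2 * (g ξ - 1) ^ 2) + (f ξ - g ξ)) =
      c0 * (2 * (∫ ξ, gk δ ξ * (f ξ - 1) ^ 2) + 2 * ∫ ξ, gk δ ξ * (g ξ - 1) ^ 2) := by
    have e : ∀ ξ, gk δ ξ * (c0 * (2 * (f ξ - 1) ^ 2 + 2 * (g ξ - 1) ^ 2) + (f ξ - g ξ)) =
        c0 * (2 * (gk δ ξ * (f ξ - 1) ^ 2) + 2 * (gk δ ξ * (g ξ - 1) ^ 2))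
          + (gk δ ξ * f ξ - gk δ ξ * g ξ) := fun ξ => by ring
    simp only [e]
    have iD : Integrable (fun ξ => gk δ ξ * f ξ - gk δ ξ * g ξ) := a1.sub b1
    have ix : Integrable (fun ξ => 2 * (gk δ ξ * (f ξ - 1) ^ 2)) := x1.const_mul 2
    have iy : Integrable (fun ξ => 2 * (gk δ ξ * (g ξ - 1) ^ 2)) := y1.const_mul 2
    rw [integral_add iS iD, integral_sub a1 b1, a2, b2, integral_const_mul,
      integral_add ix iy, integral_const_mul, integral_const_mul]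
    ring
  rw [h8] at h7
  have hα0 : 0 ≤ ∫ y, Real.exp (κ * ‖y‖ ^ 2) ∂α := integral_nonneg fun y => (Real.exp_pos _).le
  have hβ0 : 0 ≤ ∫ y, Real.exp (κ * ‖y‖ ^ 2) ∂β := integral_nonneg fun y => (Real.exp_pos _).le
  have h9 : (∫ y, Real.exp (κ * ‖y‖ ^ 2) ∂α) ^ 2 ≤ Aα ^ 2 := pow_le_pow_left₀ hα0 hAα 2
  have h10 : (∫ y, Real.exp (κ * ‖y‖ ^ 2) ∂β) ^ 2 ≤ Aβ ^ 2 := pow_le_pow_left₀ hβ0 hAβ 2
  have hq : 0 ≤ δ ^ 2 / κ ^ 2 := by positivity
  have h11 := x2.trans (mul_le_mul_of_nonneg_left h9 hq)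
  have h12 := y2.trans (mul_le_mul_of_nonneg_left h10 hq)
  calc ∫ ξ, gk δ ξ * (f ξ * Real.log (f ξ / g ξ))
      ≤ c0 * (2 * (∫ ξ, gk δ ξ * (f ξ - 1) ^ 2) + 2 * ∫ ξ, gk δ ξ * (g ξ - 1) ^ 2) := h7
    _ ≤ c0 * (2 * (δ ^ 2 / κ ^ 2 * Aα ^ 2) + 2 * (δ ^ 2 / κ ^ 2 * Aβ ^ 2)) := by gcongr
    _ = _ := by ring

/-- recentring of a law. -/
theorem s4lc_recentre {α : Measure E} [IsProbabilityMeasure α] {κ : ℝ} (hκ : 0 < κ) (a : E)
    (ha : a = ∫ x, x ∂α) (hα : Integrable (fun y => Real.exp (κ * ‖y - a‖ ^ 2)) α) :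
    IsProbabilityMeasure (α.map fun y => y - a) ∧
    Integrable (fun y => Real.exp (κ * ‖y‖ ^ 2)) (α.map fun y => y - a) ∧
    ∫ y, Real.exp (κ * ‖y‖ ^ 2) ∂(α.map fun y => y - a) = ∫ y, Real.exp (κ * ‖y - a‖ ^ 2) ∂α ∧
    ∫ y, y ∂(α.map fun y => y - a) = 0 ∧
    ∀ (δ : ℝ) (ζ : E), s4lLap α δ ζ = s4lT δ ζ a * s4lLap (α.map fun y => y - a) δ (ζ - δ • a) := by
  have mα : Measurable (fun y : E => y - a) := by fun_prop
  have hP : IsProbabilityMeasure (α.map fun y => y - a) :=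
    Measure.isProbabilityMeasure_map mα.aemeasurable
  have hc : Continuous (fun y : E => Real.exp (κ * ‖y‖ ^ 2)) := by fun_prop
  have h1 : Integrable (fun y => Real.exp (κ * ‖y‖ ^ 2)) (α.map fun y => y - a) :=
    (integrable_map_measure hc.aestronglyMeasurable mα.aemeasurable).2 hα
  have h2 : Integrable (fun y : E => y) (α.map fun y => y - a) := s4lc_id_integrable hκ h1
  have h3 : Integrable (fun y : E => y - a) α :=
    (integrable_map_measure continuous_id.aestronglyMeasurable mα.aemeasurable).1 h2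
  have h4 : Integrable (fun y : E => y) α := by
    refine (h3.add (integrable_const a)).congr (ae_of_all _ fun y => ?_)
    simp
  refine ⟨hP, h1, integral_map mα.aemeasurable hc.aestronglyMeasurable, ?_, ?_⟩
  · rw [integral_map (f := fun y : E => y) mα.aemeasurable continuous_id.aestronglyMeasurable,
      integral_sub h4 (integrable_const a), ← ha]
    simp
  · intro δ ζ
    unfold s4lLap
    rw [integral_map mα.aemeasurable (s4l_T_continuous_right δ _).aestronglyMeasurable,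
      ← integral_const_mul]
    congr 1; ext y
    rw [← s4l_T_shift]
    congr 1; abel

/-- **One-step estimate.** -/
theorem s4l_one_step {α β : Measure E} [IsProbabilityMeasure α] [IsProbabilityMeasure β]
    {κ δ Aα Aβ : ℝ} (hκ : 0 < κ) (hδ : 0 < δ) (hδκ : δ ≤ κ)
    (hα : Integrable (fun y => Real.exp (κ * ‖y - ∫ x, x ∂α‖ ^ 2)) α)
    (hβ : Integrable (fun y => Real.exp (κ * ‖y - ∫ x, x ∂β‖ ^ 2)) β)
    (hAα : ∫ y, Real.exp (κ * ‖y - ∫ x, x ∂α‖ ^ 2) ∂α ≤ Aα)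
    (hAβ : ∫ y, Real.exp (κ * ‖y - ∫ x, x ∂β‖ ^ 2) ∂β ≤ Aβ)
    (D : E) (hD : D = (∫ x, x ∂α) - ∫ x, x ∂β) :
    Integrable (fun ζ => gk δ ζ *
      (s4lLap α δ ζ * Real.log (s4lLap α δ ζ / s4lLap β δ (ζ - δ • D)))) ∧
    ∫ ζ, gk δ ζ * (s4lLap α δ ζ * Real.log (s4lLap α δ ζ / s4lLap β δ (ζ - δ • D))) ≤
      δ * inner ℝ (∫ x, x ∂α) D - δ * ‖D‖ ^ 2 / 2
        + 2 * Real.exp (Aβ / 2) * (δ ^ 2 / κ ^ 2) * (Aα ^ 2 + Aβ ^ 2) := by
  set a := ∫ x, x ∂α with ha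
  set a' := ∫ x, x ∂β with ha'
  obtain ⟨pα, iα, eα, zα, Lα⟩ := s4lc_recentre hκ a ha hα
  obtain ⟨pβ, iβ, eβ, zβ, Lβ⟩ := s4lc_recentre hκ a' ha' hβ
  set α' := α.map fun y => y - a with hα'
  set β' := β.map fun y => y - a' with hβ'
  rw [← eα] at hAα
  rw [← eβ] at hAβ
  obtain ⟨C1, C2⟩ := s4lc_centred hδ hδκ iα iβ zα zβ hAα hAβ
  obtain ⟨F1, F2⟩ := s4lc_int_Lap_first hκ hδ iα
  obtain ⟨A1, A2⟩ := s4lc_int_Lap α' hδ
  set f := s4lLap α' δ with hf
  set g := s4lLap β' δ with hg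
  have hfp : ∀ ξ, 0 < f ξ := s4lc_Lap_pos α' hδ
  have hgp : ∀ ξ, 0 < g ξ := s4lc_Lap_pos β' hδ
  set Ψ : E → ℝ := fun ξ => gk δ ξ * (f ξ * Real.log (f ξ / g ξ))
    + inner ℝ D ((gk δ ξ * f ξ) • ξ)
    + (δ * inner ℝ a D - δ * ‖D‖ ^ 2 / 2) * (gk δ ξ * f ξ) with hΨ
  have ha'D : a' = a - D := by rw [hD]; abel
  have key : ∀ ζ, gk δ ζ * (s4lLap α δ ζ * Real.log (s4lLap α δ ζ / s4lLap β δ (ζ - δ • D))) =
      Ψ (ζ - δ • a) := by
    intro ζ
    have e1 : ζ - δ • D - δ • a' = ζ - δ • a := by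
      rw [ha'D, smul_sub]; abel
    rw [Lα δ ζ, Lβ δ (ζ - δ • D), e1]
    set ξ := ζ - δ • a with hξ
    have hζ : ζ = ξ + δ • a := by rw [hξ]; abel
    have e2 : Real.log (s4lT δ ζ a * f ξ / (s4lT δ (ζ - δ • D) a' * g ξ)) =
        Real.log (f ξ / g ξ) + (inner ℝ D ξ + (δ * inner ℝ a D - δ * ‖D‖ ^ 2 / 2)) := by
      have e3 : s4lT δ ζ a * f ξ / (s4lT δ (ζ - δ • D) a' * g ξ) =
          (f ξ / g ξ) * (s4lT δ ζ a / s4lT δ (ζ - δ • D) a') := by
        have := (s4l_T_pos δ (ζ - δ • D) a').ne'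
        have := (hgp ξ).ne'
        field_simp
      rw [e3, Real.log_mul (div_pos (hfp ξ) (hgp ξ)).ne'
        (div_pos (s4l_T_pos _ _ _) (s4l_T_pos _ _ _)).ne']
      congr 1
      unfold s4lT
      rw [← Real.exp_sub, Real.log_exp, ha'D, hζ]
      simp only [inner_add_left, inner_sub_left, inner_sub_right, inner_smul_left, norm_sub_sq_real,
        real_inner_self_eq_norm_sq, RCLike.conj_to_real, real_inner_comm D ξ, real_inner_comm D a]
      ring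
    rw [e2, ← mul_assoc, ← mul_assoc, s4l_gk_mul_T hδ, ← hξ]
    simp only [hΨ, inner_smul_right]
    ring
  have i2 : Integrable (fun ξ => inner ℝ D ((gk δ ξ * f ξ) • ξ)) := F1.const_inner D
  have i3 : Integrable (fun ξ => (δ * inner ℝ a D - δ * ‖D‖ ^ 2 / 2) * (gk δ ξ * f ξ)) :=
    A1.const_mul _
  have i12 : Integrable (fun ξ => gk δ ξ * (f ξ * Real.log (f ξ / g ξ))
    + inner ℝ D ((gk δ ξ * f ξ) • ξ)) := C1.add i2
  have iΨ : Integrable Ψ := i12.add i3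
  have vΨ : ∫ ξ, Ψ ξ = (∫ ξ, gk δ ξ * (f ξ * Real.log (f ξ / g ξ)))
      + (δ * inner ℝ a D - δ * ‖D‖ ^ 2 / 2) := by
    simp only [hΨ]
    rw [integral_add i12 i3, integral_add C1 i2, integral_inner F1, F2, zα, integral_const_mul, A2]
    simp
  simp only [key]
  refine ⟨iΨ.comp_sub_right (δ • a), ?_⟩
  rw [integral_sub_right_eq_self Ψ, vΨ]
  linarith

end Claimed.Agent.R259
end

/- ===== packed: Claimed.Agent.R259.S4LossMom ===== -/
section
/-
Row 259 (S0499), Lemma 4.2, leaf `L-s4l-mom` (PROVED): exponential-square moments of the centred posteriors.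
Owner of the statements: helper103.

`s4l_p_moment`: three Jensen inequalities (`ConvexOn.map_integral_le`): `|y-a|² ≤ 2|y|²+2|a|²`, `|a|² ≤ ∫|y|²`,
`exp(2κ∫|y|²) ≤ ∫ exp(2κ|y|²)`, `(∫X)⁴ ≤ ∫X⁴`.
`s4l_q_moment`: the law `β = dm (s4lP q t h)` has the density `const · q(y) exp(-t|y-h/t|²/2)`, so it has the curved
Prekopa-Leindler property `PLq β (fun x => t‖x‖²)` (`plsi_PLq_of_strongLC`, `plsi_strongLC_of_logConc`,
`plsi_isQuadEnergy_iso`, `LogConc.const_mul`).  With parameter `1/2`, `u = e^{⟨λ,x⟩}`, `v = e^{-⟨λ,y⟩}`,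
`w = e^{|λ|²/(2t)}`: `∫e^{⟨λ,x⟩}dβ · ∫e^{-⟨λ,x⟩}dβ ≤ e^{|λ|²/t}`; Jensen `∫e^{-⟨λ,x⟩}dβ ≥ e^{-⟨λ,a⟩}`; hence
`∫ e^{⟨λ,x-a⟩} dβ ≤ e^{|λ|²/t}`.  Finally `e^{κ|x|²} = ∫ gk 1 g e^{√(2κ)⟨g,x⟩} dg` (`s4l_gk_T_integral` with `δ = 1`),
Tonelli, and `2κ/t ≤ 1/4`.
-/
set_option autoImplicit false
set_option linter.unusedSectionVars false

open MeasureTheory Filter Topology
open scoped ContDiff ENNReal

namespace Claimed.Agent.R259

variable {E : Type} [NormedAddCommGroup E] [InnerProductSpace ℝ E] [FiniteDimensional ℝ E]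
  [MeasurableSpace E] [BorelSpace E]

theorem s4l_p_moment {α : Measure E} [IsProbabilityMeasure α] {κ : ℝ} (hκ : 0 < κ)
    (h : Integrable (fun y => Real.exp (8 * κ * ‖y‖ ^ 2)) α) :
    Integrable (fun y => Real.exp (κ * ‖y - ∫ x, x ∂α‖ ^ 2)) α ∧
    (∫ y, Real.exp (κ * ‖y - ∫ x, x ∂α‖ ^ 2) ∂α) ^ 2 ≤ ∫ y, Real.exp (8 * κ * ‖y‖ ^ 2) ∂α := by
  set a := ∫ x, x ∂α with ha
  have hX : Integrable (fun y : E => Real.exp (2 * κ * ‖y‖ ^ 2)) α := by
    refine h.mono' (by fun_prop) (ae_of_all _ fun y => ?_)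
    rw [Real.norm_eq_abs, abs_of_pos (Real.exp_pos _)]
    apply Real.exp_le_exp.2
    have : 0 ≤ κ * ‖y‖ ^ 2 := by positivity
    linarith
  have hsq : Integrable (fun y : E => 2 * κ * ‖y‖ ^ 2) α := by
    refine hX.mono' (by fun_prop) (ae_of_all _ fun y => ?_)
    rw [Real.norm_eq_abs, abs_of_nonneg (by positivity)]
    have := Real.add_one_le_exp (2 * κ * ‖y‖ ^ 2)
    linarith
  have hsq' : Integrable (fun y : E => ‖y‖ ^ 2) α := by
    refine (hsq.const_mul (2 * κ)⁻¹).congr (ae_of_all _ fun y => ?_)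
    field_simp
  have hn : Integrable (fun y : E => ‖y‖) α := by
    refine ((integrable_const (1 : ℝ)).add hsq').mono' (by fun_prop) (ae_of_all _ fun y => ?_)
    simp only [Pi.add_apply, norm_norm]
    nlinarith [sq_nonneg (‖y‖ - 1), norm_nonneg y]
  -- |a|² ≤ ∫ |y|²
  have h1 : ‖a‖ ^ 2 ≤ ∫ y, ‖y‖ ^ 2 ∂α := by
    have h2 : ‖a‖ ≤ ∫ y, ‖y‖ ∂α := norm_integral_le_integral_norm _
    have h3 := (even_two.convexOn_pow (𝕜 := ℝ)).map_integral_le (μ := α) (f := fun y : E => ‖y‖)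
      (by fun_prop) isClosed_univ (ae_of_all _ fun _ => Set.mem_univ _) hn hsq'
    exact (pow_le_pow_left₀ (norm_nonneg _) h2 2).trans h3
  -- exp(2κ|a|²) ≤ ∫ X
  have h4 : Real.exp (2 * κ * ‖a‖ ^ 2) ≤ ∫ y, Real.exp (2 * κ * ‖y‖ ^ 2) ∂α := by
    have h5 := plsi_exp_integral_le hsq hX
    rw [integral_const_mul] at h5
    refine le_trans (Real.exp_le_exp.2 ?_) h5
    exact mul_le_mul_of_nonneg_left h1 (by positivity)
  have hpt : ∀ y : E, Real.exp (κ * ‖y - a‖ ^ 2) ≤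
      Real.exp (2 * κ * ‖a‖ ^ 2) * Real.exp (2 * κ * ‖y‖ ^ 2) := by
    intro y
    rw [← Real.exp_add]
    apply Real.exp_le_exp.2
    have h6 : ‖y - a‖ ^ 2 ≤ 2 * ‖a‖ ^ 2 + 2 * ‖y‖ ^ 2 := by
      have h7 := norm_sub_le y a
      have h8 : ‖y - a‖ ^ 2 ≤ (‖y‖ + ‖a‖) ^ 2 := pow_le_pow_left₀ (norm_nonneg _) h7 2
      nlinarith [sq_nonneg (‖y‖ - ‖a‖)]
    nlinarith
  have hi : Integrable (fun y => Real.exp (κ * ‖y - a‖ ^ 2)) α := by
    refine (hX.const_mul (Real.exp (2 * κ * ‖a‖ ^ 2))).mono' (by fun_prop) (ae_of_all _ fun y => ?_)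
    rw [Real.norm_eq_abs, abs_of_pos (Real.exp_pos _)]
    exact hpt y
  refine ⟨hi, ?_⟩
  set M := ∫ y, Real.exp (2 * κ * ‖y‖ ^ 2) ∂α with hM
  have hM0 : 0 ≤ M := integral_nonneg fun y => (Real.exp_pos _).le
  have h9 : ∫ y, Real.exp (κ * ‖y - a‖ ^ 2) ∂α ≤ M ^ 2 := by
    calc ∫ y, Real.exp (κ * ‖y - a‖ ^ 2) ∂α
        ≤ ∫ y, Real.exp (2 * κ * ‖a‖ ^ 2) * Real.exp (2 * κ * ‖y‖ ^ 2) ∂α :=
          integral_mono hi (hX.const_mul _) hpt
      _ = Real.exp (2 * κ * ‖a‖ ^ 2) * M := by rw [integral_const_mul]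
      _ ≤ M * M := mul_le_mul_of_nonneg_right h4 hM0
      _ = M ^ 2 := by ring
  have e4 : ∀ y : E, Real.exp (2 * κ * ‖y‖ ^ 2) ^ 4 = Real.exp (8 * κ * ‖y‖ ^ 2) := by
    intro y
    rw [← Real.exp_nat_mul]; congr 1; push_cast; ring
  have h10 : M ^ 4 ≤ ∫ y, Real.exp (8 * κ * ‖y‖ ^ 2) ∂α := by
    have h11 := ((by decide : Even 4).convexOn_pow (𝕜 := ℝ)).map_integral_le (μ := α)
      (f := fun y : E => Real.exp (2 * κ * ‖y‖ ^ 2))
      (by fun_prop) isClosed_univ (ae_of_all _ fun _ => Set.mem_univ _) hX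
      (by simpa only [Function.comp_def, e4] using h)
    simpa only [e4] using h11
  have h12 : 0 ≤ ∫ y, Real.exp (κ * ‖y - a‖ ^ 2) ∂α := integral_nonneg fun y => (Real.exp_pos _).le
  calc (∫ y, Real.exp (κ * ‖y - a‖ ^ 2) ∂α) ^ 2 ≤ (M ^ 2) ^ 2 := pow_le_pow_left₀ h12 h9 2
    _ = M ^ 4 := by ring
    _ ≤ _ := h10

/-- the tilted law of a log-concave density has the curved Prekopa-Leindler property. -/
theorem s4lm_PLq {q : E → ℝ} (hq : SPD q) (hlc : LogConc q) {t : ℝ} (ht : 0 < t) (h : E) :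
    PLq (dm (s4lP q t h)) (fun x => t * ‖x‖ ^ 2) := by
  have hZ := s4l_Z_pos hq ht h
  set c := (s4lZ q t h)⁻¹ * Real.exp (‖h‖ ^ 2 / (2 * t)) with hc
  have hc0 : 0 ≤ c := by positivity
  have e : s4lP q t h = fun y => (c * q y) * Real.exp (-((t * ‖y - t⁻¹ • h‖ ^ 2) / 2)) := by
    ext y
    unfold s4lP s4lT
    have e1 : inner ℝ h y - t * ‖y‖ ^ 2 / 2 = ‖h‖ ^ 2 / (2 * t) + -((t * ‖y - t⁻¹ • h‖ ^ 2) / 2) := by
      rw [norm_sub_sq_real, norm_smul, inner_smul_right, Real.norm_eq_abs, abs_of_pos (inv_pos.2 ht),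
        real_inner_comm]
      field_simp
      ring
    rw [e1, Real.exp_add, hc]
    ring
  have h1 : StrongLC (fun x : E => t * ‖x‖ ^ 2) (s4lP q t h) := by
    rw [e]
    exact plsi_strongLC_of_logConc (plsi_isQuadEnergy_iso t) (hlc.const_mul hc0) (t⁻¹ • h)
  exact plsi_PLq_of_strongLC (s4l_P_continuous (s4l_spd_continuous hq) t h).measurable
    (fun y => (s4l_P_pos hq ht h y).le) h1

/-- subgaussian moment generating function of the tilted law. -/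
theorem s4lm_subg {q : E → ℝ} (hq : SPD q) (hlc : LogConc q) {t : ℝ} (ht : 0 < t) (h l : E) :
    Integrable (fun y => Real.exp (inner ℝ l (y - s4lA q t h))) (dm (s4lP q t h)) ∧
    ∫ y, Real.exp (inner ℝ l (y - s4lA q t h)) ∂(dm (s4lP q t h)) ≤ Real.exp (‖l‖ ^ 2 / (2 * t)) := by
  have hP := s4l_P_prob hq ht h
  have hPL := s4lm_PLq hq hlc ht h
  have hlip : ∀ e : E, ‖e‖ ≤ 1 → ∀ x y : E, inner ℝ e x - inner ℝ e y ≤ ‖x - y‖ := by
    intro e he x y
    rw [← inner_sub_right]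
    calc inner ℝ e (x - y) ≤ ‖e‖ * ‖x - y‖ := real_inner_le_norm _ _
      _ ≤ 1 * ‖x - y‖ := mul_le_mul_of_nonneg_right he (norm_nonneg _)
      _ = _ := one_mul _
  -- the identity is integrable
  have hid : Integrable (fun y : E => y) (dm (s4lP q t h)) := by
    have h1 : ∀ i, Integrable (fun y : E => inner ℝ (stdOrthonormalBasis ℝ E i) y •
        stdOrthonormalBasis ℝ E i) (dm (s4lP q t h)) := by
      intro i
      refine Integrable.smul_const ?_ _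
      exact plsi_mgf_integrable ht hPL (by fun_prop)
        (hlip _ (by rw [(stdOrthonormalBasis ℝ E).orthonormal.1 i]))
    refine (integrable_finsetSum Finset.univ fun i _ => h1 i).congr (ae_of_all _ fun y => ?_)
    exact (stdOrthonormalBasis ℝ E).sum_repr' y
  have hmean := s4l_P_mean hq ht h
  rcases eq_or_ne l 0 with rfl | hl
  · simp
  have hl0 : 0 < ‖l‖ := norm_pos_iff.2 hl
  set e := ‖l‖⁻¹ • l with he
  have hen : ‖e‖ ≤ 1 := by
    rw [he, norm_smul, norm_inv, norm_norm, inv_mul_cancel₀ hl0.ne']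
  have hle : ‖l‖ • e = l := by
    rw [he, smul_smul, mul_inv_cancel₀ hl0.ne', one_smul]
  obtain ⟨h1, h2⟩ := plsi_mgf_centred (u := fun y => inner ℝ e y) ht hPL (by fun_prop) (hlip e hen) ‖l‖
  have e1 : ∀ y : E, ‖l‖ * (inner ℝ e y - ∫ y, inner ℝ e y ∂(dm (s4lP q t h))) =
      inner ℝ l (y - s4lA q t h) := by
    intro y
    rw [integral_inner hid, hmean, ← inner_sub_right, ← real_inner_smul_left, hle]
  simp only [e1] at h1 h2
  refine ⟨h1, ?_⟩
  exact (Real.log_le_iff_le_exp (integral_exp_pos h1)).1 h2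

theorem s4l_Cq_integrable : Integrable (fun g : E => gk 1 g * Real.exp (‖g‖ ^ 2 / 4)) := by
  have := s4l_gk_exp_integrable (E := E) (s := 1) (a := 1 / 4) one_pos (by norm_num)
  refine this.congr (ae_of_all _ fun g => ?_)
  simp only; congr 2; ring

/-- Gaussian linearisation of the square. -/
theorem s4lm_linearise (v : E) : ∫ g : E, gk 1 g * Real.exp (inner ℝ g v) = Real.exp (‖v‖ ^ 2 / 2) := by
  have h := s4l_gk_T_integral (E := E) one_pos v
  unfold s4lT at h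
  have e : ∀ g : E, gk 1 g * Real.exp (inner ℝ g v) =
      Real.exp (‖v‖ ^ 2 / 2) * (gk 1 g * Real.exp (inner ℝ g v - 1 * ‖v‖ ^ 2 / 2)) := by
    intro g
    rw [mul_left_comm, ← Real.exp_add]
    congr 2; ring
  simp only [e]
  rw [integral_const_mul, h, mul_one]

theorem s4l_q_moment {q : E → ℝ} (hq : SPD q) (hlc : LogConc q) {κ t : ℝ} (hκ : 0 < κ)
    (hκt : 8 * κ ≤ t) (h : E) :
    Integrable (fun y => Real.exp (κ * ‖y - s4lA q t h‖ ^ 2)) (dm (s4lP q t h)) ∧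
    ∫ y, Real.exp (κ * ‖y - s4lA q t h‖ ^ 2) ∂(dm (s4lP q t h)) ≤ s4lCq E := by
  have ht : 0 < t := by linarith
  have hP := s4l_P_prob hq ht h
  set β := dm (s4lP q t h) with hβ
  set a := s4lA q t h with ha
  set s := Real.sqrt (2 * κ) with hs
  have hs2 : s ^ 2 = 2 * κ := Real.sq_sqrt (by positivity)
  have hgc := s4l_gk_continuous (E := E) 1
  have hcont : Continuous (fun z : E × E => gk 1 z.2 * Real.exp (inner ℝ z.2 (s • (z.1 - a)))) := by
    fun_prop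
  have esw : ∀ g y : E, inner ℝ g (s • (y - a)) = inner ℝ (s • g) (y - a) := by
    intro g y; rw [inner_smul_left, inner_smul_right]; simp
  have hbd : ∀ g : E, ∫ y, Real.exp (inner ℝ g (s • (y - a))) ∂β ≤ Real.exp (‖g‖ ^ 2 / 4) := by
    intro g
    simp only [esw]
    refine (s4lm_subg hq hlc ht h (s • g)).2.trans (Real.exp_le_exp.2 ?_)
    rw [norm_smul, mul_pow, Real.norm_eq_abs, sq_abs, hs2, div_le_div_iff₀ (by positivity) (by norm_num)]
    have : 0 ≤ ‖g‖ ^ 2 := by positivity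
    nlinarith
  have hI : Integrable (fun z : E × E => gk 1 z.2 * Real.exp (inner ℝ z.2 (s • (z.1 - a))))
      (β.prod volume) := by
    rw [integrable_prod_iff' hcont.aestronglyMeasurable]
    constructor
    · refine ae_of_all _ fun g => ?_
      simp only [esw]
      exact (s4lm_subg hq hlc ht h (s • g)).1.const_mul _
    · have hn : ∀ (g y : E), ‖gk 1 g * Real.exp (inner ℝ g (s • (y - a)))‖ =
          gk 1 g * Real.exp (inner ℝ g (s • (y - a))) := by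
        intro g y
        rw [Real.norm_eq_abs, abs_of_nonneg (mul_nonneg (s4l_gk_nonneg one_pos _) (Real.exp_pos _).le)]
      simp only [hn]
      have hc2 : Continuous (Function.uncurry fun (y g : E) =>
          gk 1 g * Real.exp (inner ℝ g (s • (y - a)))) := by
        simp only [Function.uncurry_def]; fun_prop
      refine Integrable.mono' s4l_Cq_integrable
        hc2.stronglyMeasurable.integral_prod_left.aestronglyMeasurable (ae_of_all _ fun g => ?_)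
      rw [integral_const_mul, Real.norm_eq_abs, abs_of_nonneg (mul_nonneg (s4l_gk_nonneg one_pos _)
        (integral_nonneg fun y => (Real.exp_pos _).le))]
      exact mul_le_mul_of_nonneg_left (hbd g) (s4l_gk_nonneg one_pos _)
  have e : ∀ y : E, Real.exp (κ * ‖y - a‖ ^ 2) =
      ∫ g : E, gk 1 g * Real.exp (inner ℝ g (s • (y - a))) := by
    intro y
    rw [s4lm_linearise, norm_smul, mul_pow, Real.norm_eq_abs, sq_abs, hs2]
    congr 1; ring
  simp only [e]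
  refine ⟨hI.integral_prod_left, ?_⟩
  rw [integral_integral_swap (f := fun (y g : E) => gk 1 g * Real.exp (inner ℝ g (s • (y - a)))) hI]
  unfold s4lCq
  refine integral_mono hI.integral_prod_right s4l_Cq_integrable fun g => ?_
  simp only
  rw [integral_const_mul]
  exact mul_le_mul_of_nonneg_left (hbd g) (s4l_gk_nonneg one_pos _)

end Claimed.Agent.R259
end

/- ===== packed: Claimed.Agent.R259.S4LossStep ===== -/
section
/-
Row 259 (S0499), Lemma 4.2: the one-step inequality for the state functional `s4lR` (glue from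
`s4l_one_step`, `s4l_p_moment`, `s4l_q_moment`).  Owner: helper103.
-/
set_option autoImplicit false
set_option linter.unusedSectionVars false

open MeasureTheory Filter Topology
open scoped ContDiff ENNReal

namespace Claimed.Agent.R259

variable {E : Type} [NormedAddCommGroup E] [InnerProductSpace ℝ E] [FiniteDimensional ℝ E]
  [MeasurableSpace E] [BorelSpace E]

theorem s4l_Err_continuous (κ δ : ℝ) : Continuous (s4lErr (E := E) κ δ) := by
  unfold s4lErr; fun_prop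

theorem s4l_Cq_nonneg : 0 ≤ s4lCq E := by
  unfold s4lCq
  exact integral_nonneg fun g => mul_nonneg (s4l_gk_nonneg one_pos g) (Real.exp_pos _).le

theorem s4l_Err_nonneg (κ δ : ℝ) (y : E) : 0 ≤ s4lErr κ δ y := by
  unfold s4lErr; positivity

theorem S4LHyp.int_Err {p q : E → ℝ} {w : E → E} {c₀ : ℝ} (H : S4LHyp p q w c₀) {κ : ℝ}
    (hκc : 8 * κ ≤ c₀) (δ : ℝ) : Integrable (fun y => p y • s4lErr κ δ y) := by
  have h1 := (H.int_exp hκc).add ((s4l_spd_integrable H.hp).mul_const (s4lCq E ^ 2))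
  have h2 := h1.const_mul (4 * Real.exp (s4lCq E / 2) * (δ ^ 2 / κ ^ 2))
  refine h2.congr (ae_of_all _ fun y => ?_)
  simp only [Pi.add_apply, smul_eq_mul, s4lErr]
  ring

theorem s4l_N_Err {p q : E → ℝ} {w : E → E} {c₀ : ℝ} (H : S4LHyp p q w c₀) {κ : ℝ}
    (hκc : 8 * κ ≤ c₀) (δ : ℝ) {t : ℝ} (ht : 0 < t) (z : E) :
    s4lN p (s4lErr κ δ) t z = 4 * Real.exp (s4lCq E / 2) * (δ ^ 2 / κ ^ 2) *
      (s4lN p (fun y => Real.exp (8 * κ * ‖y‖ ^ 2)) t z + s4lCq E ^ 2 * s4lZ p t z) := by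
  have h1 : s4lErr (E := E) κ δ = fun y => (4 * Real.exp (s4lCq E / 2) * (δ ^ 2 / κ ^ 2)) *
      (Real.exp (8 * κ * ‖y‖ ^ 2) + s4lCq E ^ 2) := by
    ext y; rfl
  rw [h1, s4l_N_const_mul, s4l_N_add (s4l_tilt_integrable (H.int_exp hκc) ht z), s4l_N_const]
  have h2 : Integrable (fun y => p y • (s4lCq E ^ 2)) := by
    simpa using (s4l_spd_integrable H.hp).mul_const (s4lCq E ^ 2)
  exact s4l_tilt_integrable h2 ht z

/-- **The one-step inequality.** -/
theorem s4l_step {p q : E → ℝ} {w : E → E} {c₀ : ℝ} (H : S4LHyp p q w c₀) {κ δ t : ℝ} (hκ : 0 < κ)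
    (hκc : 8 * κ ≤ c₀) (hκt : 8 * κ ≤ t) (hδ : 0 < δ) (hδκ : δ ≤ κ) (z c : E) :
    Integrable (fun ζ => gk δ ζ * s4lR p q (t + δ) (z + ζ) (c + δ • s4lD p q t z c)) ∧
    2 * s4lR p q t z c ≤ 2 * (∫ ζ, gk δ ζ * s4lR p q (t + δ) (z + ζ) (c + δ • s4lD p q t z c))
       - δ * ‖s4lD p q t z c‖ ^ 2 * s4lZ p t z + s4lN p (s4lErr κ δ) t z := by
  have ht : 0 < t := by linarith
  have htδ : 0 < t + δ := by linarith
  set D := s4lD p q t z c with hD
  set c' := c + δ • D with hc'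
  set Zp := s4lZ p t z with hZp
  set Zq := s4lZ q t (z - c) with hZq
  have hZp0 : 0 < Zp := s4l_Z_pos H.hp ht z
  have hZq0 : 0 < Zq := s4l_Z_pos H.hq ht (z - c)
  have := s4l_P_prob H.hp ht z
  have := s4l_P_prob H.hq ht (z - c)
  have hmα := s4l_P_mean H.hp ht z
  have hmβ := s4l_P_mean H.hq ht (z - c)
  have hexpα : Integrable (fun y => Real.exp (8 * κ * ‖y‖ ^ 2)) (dm (s4lP p t z)) :=
    (s4l_P_integrable H.hp ht z).2 (s4l_tilt_integrable (H.int_exp hκc) ht z)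
  obtain ⟨hα1, hα2⟩ := s4l_p_moment hκ hexpα
  obtain ⟨hβ1, hβ2⟩ := s4l_q_moment H.hq H.lc hκ hκt (z - c)
  rw [← hmβ] at hβ1 hβ2
  have hDD : D = (∫ x, x ∂(dm (s4lP p t z))) - ∫ x, x ∂(dm (s4lP q t (z - c))) := by
    rw [hmα, hmβ, hD]; rfl
  obtain ⟨OS1, OS2⟩ := s4l_one_step hκ hδ hδκ hα1 hβ1 le_rfl hβ2 D hDD
  set Aα := ∫ y, Real.exp (κ * ‖y - ∫ x, x ∂(dm (s4lP p t z))‖ ^ 2) ∂(dm (s4lP p t z)) with hAα
  rw [s4l_P_integral H.hp ht z, smul_eq_mul] at hα2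
  set OSf : E → ℝ := fun ζ => gk δ ζ * (s4lLap (dm (s4lP p t z)) δ ζ *
    Real.log (s4lLap (dm (s4lP p t z)) δ ζ / s4lLap (dm (s4lP q t (z - c))) δ (ζ - δ • D))) with hOSf
  -- the three martingale identities
  obtain ⟨KL1, KL2⟩ := s4l_K_N H.p_continuous H.L_continuous hδ (s4l_tilt_integrable H.int_L ht z)
  obtain ⟨KY1, KY2⟩ := s4l_K_N (f := fun y : E => y) H.p_continuous continuous_id hδ
    (s4l_tilt_integrable H.int_id ht z)
  obtain ⟨KZ1, KZ2⟩ := s4l_K_Z H.hp ht hδ z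
  unfold s4lK at KL2 KY2
  simp only [smul_eq_mul] at KL1 KL2
  -- pointwise decomposition
  have hpt : ∀ ζ, gk δ ζ * s4lR p q (t + δ) (z + ζ) c' =
      gk δ ζ * s4lN p (s4lL p q) (t + δ) (z + ζ)
        + inner ℝ c' (gk δ ζ • s4lN p (fun y => y) (t + δ) (z + ζ))
        - Real.log (Zp / Zq) * (gk δ ζ * s4lZ p (t + δ) (z + ζ)) - Zp * OSf ζ := by
    intro ζ
    have e1 : s4lLap (dm (s4lP p t z)) δ ζ = Zp⁻¹ * s4lZ p (t + δ) (z + ζ) := s4l_Lap_P H.hp ht z δ ζ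
    have e2 : s4lLap (dm (s4lP q t (z - c))) δ (ζ - δ • D) = Zq⁻¹ * s4lZ q (t + δ) (z + ζ - c') := by
      rw [s4l_Lap_P H.hq ht (z - c) δ (ζ - δ • D)]
      congr 2
      rw [hc']; abel
    have hZ1 : 0 < s4lZ p (t + δ) (z + ζ) := s4l_Z_pos H.hp htδ _
    have hZ2 : 0 < s4lZ q (t + δ) (z + ζ - c') := s4l_Z_pos H.hq htδ _
    have e3 : Real.log (s4lZ p (t + δ) (z + ζ) / s4lZ q (t + δ) (z + ζ - c')) =
        Real.log (Zp / Zq) + Real.log ((Zp⁻¹ * s4lZ p (t + δ) (z + ζ)) /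
          (Zq⁻¹ * s4lZ q (t + δ) (z + ζ - c'))) := by
      rw [← Real.log_mul (by positivity) (by positivity)]
      congr 1
      field_simp
    simp only [hOSf, e1, e2]
    unfold s4lR
    rw [e3, inner_smul_right]
    field_simp
    ring
  have hI1 : Integrable (fun ζ => inner ℝ c' (gk δ ζ • s4lN p (fun y => y) (t + δ) (z + ζ))) :=
    KY1.const_inner c'
  have hI2 : Integrable (fun ζ => Real.log (Zp / Zq) * (gk δ ζ * s4lZ p (t + δ) (z + ζ))) :=
    KZ1.const_mul _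
  have hI3 : Integrable (fun ζ => Zp * OSf ζ) := OS1.const_mul _
  have hA : Integrable (fun ζ => gk δ ζ * s4lN p (s4lL p q) (t + δ) (z + ζ)
        + inner ℝ c' (gk δ ζ • s4lN p (fun y => y) (t + δ) (z + ζ))) := KL1.add hI1
  have hB : Integrable (fun ζ => gk δ ζ * s4lN p (s4lL p q) (t + δ) (z + ζ)
        + inner ℝ c' (gk δ ζ • s4lN p (fun y => y) (t + δ) (z + ζ))
        - Real.log (Zp / Zq) * (gk δ ζ * s4lZ p (t + δ) (z + ζ))) := hA.sub hI2
  have hint : Integrable (fun ζ => gk δ ζ * s4lR p q (t + δ) (z + ζ) c') := by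
    simp only [hpt]
    exact hB.sub hI3
  refine ⟨hint, ?_⟩
  have hval : ∫ ζ, gk δ ζ * s4lR p q (t + δ) (z + ζ) c' =
      s4lN p (s4lL p q) t z + inner ℝ c' (s4lN p (fun y => y) t z) - Real.log (Zp / Zq) * Zp
        - Zp * ∫ ζ, OSf ζ := by
    simp only [hpt]
    rw [integral_sub hB hI3, integral_sub hA hI2,
      integral_add KL1 hI1, KL2, integral_inner KY1, KY2, integral_const_mul, KZ2,
      integral_const_mul]
  rw [hval, s4l_N_Err H hκc δ ht z]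
  have hNy : s4lN p (fun y => y) t z = Zp • s4lA p t z := by
    unfold s4lA
    rw [smul_smul, mul_inv_cancel₀ hZp0.ne', one_smul]
  rw [hmα] at OS2
  have hR : s4lR p q t z c = s4lN p (s4lL p q) t z + inner ℝ c (s4lN p (fun y => y) t z)
      - Zp * Real.log (Zp / Zq) := rfl
  rw [hR, hc', inner_add_left, inner_smul_left, hNy, inner_smul_right, inner_smul_right]
  simp only [RCLike.conj_to_real]
  rw [real_inner_comm D (s4lA p t z)] at OS2
  set X := inner ℝ D (s4lA p t z) with hX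
  set Ne := s4lN p (fun y => Real.exp (8 * κ * ‖y‖ ^ 2)) t z with hNe
  set K0 := Real.exp (s4lCq E / 2) * (δ ^ 2 / κ ^ 2) with hK0
  have hK0' : 0 ≤ K0 := by positivity
  have h5 : Zp * Aα ^ 2 ≤ Ne := by
    have := mul_le_mul_of_nonneg_left hα2 hZp0.le
    rwa [← mul_assoc, mul_inv_cancel₀ hZp0.ne', one_mul] at this
  have h6 : Zp * ∫ ζ, OSf ζ ≤ Zp * (δ * X - δ * ‖D‖ ^ 2 / 2 + 2 * K0 * (Aα ^ 2 + s4lCq E ^ 2)) := by
    refine mul_le_mul_of_nonneg_left (OS2.trans (le_of_eq ?_)) hZp0.le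
    rw [hK0]; ring
  nlinarith [mul_le_mul_of_nonneg_left h5 hK0']

end Claimed.Agent.R259
end

/- ===== packed: Claimed.Agent.R259.MetB4 ===== -/
section
/-
Row 259 (S0499), kit MET, block B, part 4: the two remainder estimates for one Metropolis step,
uniform in the starting point, and the facts on `opA`.  Owner: helper236.
-/
set_option autoImplicit false
set_option linter.unusedSectionVars false

open scoped ContDiff BigOperators RealInnerProductSpace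

namespace Claimed.Agent.R259

section pointwise

variable {E : Type} [NormedAddCommGroup E] [InnerProductSpace ℝ E] [FiniteDimensional ℝ E]
variable {V : Type} [NormedAddCommGroup V] [NormedSpace ℝ V]

theorem metb_al_mem {η : E → ℝ} (hpos : ∀ x, 0 < η x) (y ξ : E) :
    0 ≤ min 1 (η (y + ξ) / η y) ∧ min 1 (η (y + ξ) / η y) ≤ 1 :=
  ⟨le_min zero_le_one (div_pos (hpos _) (hpos _)).le, min_le_left _ _⟩

theorem metb_abs_min_zero_le (s : ℝ) : |min 0 s| ≤ |s| := by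
  rcases le_total 0 s with h | h
  · rw [min_eq_left h]; simp
  · rw [min_eq_right h]

/-- vanishing of the field and its derivatives off the support -/
theorem metb_off_support {φ : E → V} {y : E} (hy : y ∉ tsupport φ) :
    φ y = 0 ∧ fderiv ℝ φ y = 0 ∧ fderiv ℝ (fderiv ℝ φ) y = 0 := by
  have h1 : y ∉ tsupport (fderiv ℝ φ) := fun h => hy (tsupport_fderiv_subset ℝ h)
  have h2 : y ∉ tsupport (fderiv ℝ (fderiv ℝ φ)) := fun h => h1 (tsupport_fderiv_subset ℝ h)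
  exact ⟨image_eq_zero_of_notMem_tsupport hy, image_eq_zero_of_notMem_tsupport h1,
    image_eq_zero_of_notMem_tsupport h2⟩

/-- THE remainder estimate for the conditional mean -/
theorem metb_rem_mean {η : E → ℝ} (hη : ContDiff ℝ ∞ η) (hpos : ∀ x, 0 < η x)
    {φ : E → V} (hφ : ContDiff ℝ ∞ φ) (hc : HasCompactSupport φ) :
    ∃ C : ℝ, 0 ≤ C ∧ ∀ y ξ, ‖min 1 (η (y + ξ) / η y) • (φ (y + ξ) - φ y) - fderiv ℝ φ y ξ
      - min 0 ⟪gradient (fun y => Real.log (η y)) y, ξ⟫ • fderiv ℝ φ y ξ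
      - (1 / 2 : ℝ) • fderiv ℝ (fderiv ℝ φ) y ξ ξ‖ ≤ C * ‖ξ‖ ^ 3 := by
  obtain ⟨M, hM0, hD1, hD2, hT1, hT2, hT3⟩ := metb_phi_bounds hφ hc
  obtain ⟨R, hR⟩ := hc.isCompact.isBounded.subset_closedBall (0 : E)
  obtain ⟨C, hC0, hb, hal, -⟩ := metb_eta_bounds hη hpos
    (isCompact_closedBall (0 : E) (R + 2)) (convex_closedBall _ _)
  refine ⟨4 * M + 2 * (C * M), by positivity, fun y ξ => ?_⟩
  obtain ⟨ha0, ha1⟩ := metb_al_mem hpos y ξ
  set a := min 1 (η (y + ξ) / η y) with ha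
  set s := ⟪gradient (fun y => Real.log (η y)) y, ξ⟫ with hs
  have hx0 : 0 ≤ ‖ξ‖ := norm_nonneg _
  have hCM : 0 ≤ C * M := by positivity
  have haT : ‖a • (φ (y + ξ) - φ y)‖ ≤ M * ‖ξ‖ := by
    rw [norm_smul, Real.norm_eq_abs, abs_of_nonneg ha0]
    exact (mul_le_of_le_one_left (norm_nonneg _) ha1).trans (hT1 y ξ)
  by_cases hy : y ∈ Metric.closedBall (0 : E) (R + 1)
  · have hyK : y ∈ Metric.closedBall (0 : E) (R + 2) :=
      Metric.closedBall_subset_closedBall (by linarith) hy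
    have hs' : |min 0 s| ≤ C * ‖ξ‖ := by
      refine (metb_abs_min_zero_le s).trans ?_
      refine (abs_real_inner_le_norm _ _).trans ?_
      exact mul_le_mul_of_nonneg_right (hb y hyK) hx0
    rcases le_total ‖ξ‖ 1 with hξ | hξ
    · -- Taylor regime
      have hyξ : y + ξ ∈ Metric.closedBall (0 : E) (R + 2) := by
        rw [mem_closedBall_zero_iff] at hy ⊢
        have := norm_add_le y ξ
        linarith
      have e : a • (φ (y + ξ) - φ y) - fderiv ℝ φ y ξ - min 0 s • fderiv ℝ φ y ξ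
          - (1 / 2 : ℝ) • fderiv ℝ (fderiv ℝ φ) y ξ ξ
          = (a - 1 - min 0 s) • (φ (y + ξ) - φ y)
            + (φ (y + ξ) - φ y - fderiv ℝ φ y ξ - (1 / 2 : ℝ) • fderiv ℝ (fderiv ℝ φ) y ξ ξ)
            + min 0 s • (φ (y + ξ) - φ y - fderiv ℝ φ y ξ) := by
        simp only [sub_smul, smul_sub, one_smul]
        abel
      rw [e]
      have b1 : ‖(a - 1 - min 0 s) • (φ (y + ξ) - φ y)‖ ≤ (C * ‖ξ‖ ^ 2) * (M * ‖ξ‖) := by
        rw [norm_smul, Real.norm_eq_abs]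
        exact mul_le_mul (hal y hyK ξ hyξ) (hT1 y ξ) (norm_nonneg _) (by positivity)
      have b3 : ‖min 0 s • (φ (y + ξ) - φ y - fderiv ℝ φ y ξ)‖ ≤ (C * ‖ξ‖) * (M * ‖ξ‖ ^ 2) := by
        rw [norm_smul, Real.norm_eq_abs]
        exact mul_le_mul hs' (hT2 y ξ) (norm_nonneg _) (by positivity)
      calc _ ≤ (C * ‖ξ‖ ^ 2) * (M * ‖ξ‖) + M * ‖ξ‖ ^ 3 + (C * ‖ξ‖) * (M * ‖ξ‖ ^ 2) :=
            (norm_add₃_le).trans (add_le_add (add_le_add b1 (hT3 y ξ)) b3)
        _ = (M + 2 * (C * M)) * ‖ξ‖ ^ 3 := by ring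
        _ ≤ _ := mul_le_mul_of_nonneg_right (by linarith) (by positivity)
    · -- crude regime
      have p1 : ‖ξ‖ ≤ ‖ξ‖ ^ 3 := le_self_pow₀ hξ (by norm_num)
      have p2 : ‖ξ‖ ^ 2 ≤ ‖ξ‖ ^ 3 := pow_le_pow_right₀ hξ (by norm_num)
      have b2 : ‖fderiv ℝ φ y ξ‖ ≤ M * ‖ξ‖ :=
        (ContinuousLinearMap.le_opNorm _ _).trans (mul_le_mul_of_nonneg_right (hD1 y) hx0)
      have b3 : ‖min 0 s • fderiv ℝ φ y ξ‖ ≤ (C * ‖ξ‖) * (M * ‖ξ‖) := by
        rw [norm_smul, Real.norm_eq_abs]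
        exact mul_le_mul hs' b2 (norm_nonneg _) (by positivity)
      have b4 : ‖(1 / 2 : ℝ) • fderiv ℝ (fderiv ℝ φ) y ξ ξ‖ ≤ M * ‖ξ‖ ^ 2 := by
        rw [norm_smul]
        have h1 : ‖fderiv ℝ (fderiv ℝ φ) y ξ ξ‖ ≤ M * ‖ξ‖ * ‖ξ‖ :=
          (ContinuousLinearMap.le_opNorm₂ _ _ _).trans
            (mul_le_mul_of_nonneg_right (mul_le_mul_of_nonneg_right (hD2 y) hx0) hx0)
        have h2 : ‖(1 / 2 : ℝ)‖ = 1 / 2 := by norm_num
        rw [h2]
        nlinarith [norm_nonneg (fderiv ℝ (fderiv ℝ φ) y ξ ξ)]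
      calc _ ≤ M * ‖ξ‖ + M * ‖ξ‖ + (C * ‖ξ‖) * (M * ‖ξ‖) + M * ‖ξ‖ ^ 2 := by
            refine (norm_sub_le _ _).trans (add_le_add ?_ b4)
            refine (norm_sub_le _ _).trans (add_le_add ?_ b3)
            exact (norm_sub_le _ _).trans (add_le_add haT b2)
        _ = 2 * M * ‖ξ‖ + (C * M + M) * ‖ξ‖ ^ 2 := by ring
        _ ≤ 2 * M * ‖ξ‖ ^ 3 + (C * M + M) * ‖ξ‖ ^ 3 :=
            add_le_add (mul_le_mul_of_nonneg_left p1 (by positivity))
              (mul_le_mul_of_nonneg_left p2 (by positivity))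
        _ = (3 * M + C * M) * ‖ξ‖ ^ 3 := by ring
        _ ≤ _ := mul_le_mul_of_nonneg_right (by linarith) (by positivity)
  · -- far from the support
    have hy' : R + 1 < ‖y‖ := by
      rw [mem_closedBall_zero_iff] at hy
      exact not_le.1 hy
    have hys : y ∉ tsupport φ := fun h => by
      have := hR h
      rw [mem_closedBall_zero_iff] at this
      linarith
    obtain ⟨z0, z1, z2⟩ := metb_off_support hys
    have e : a • (φ (y + ξ) - φ y) - fderiv ℝ φ y ξ - min 0 s • fderiv ℝ φ y ξ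
        - (1 / 2 : ℝ) • fderiv ℝ (fderiv ℝ φ) y ξ ξ = a • (φ (y + ξ) - φ y) := by
      rw [z1, z2]; simp
    rw [e]
    rcases lt_or_ge ‖ξ‖ 1 with hξ | hξ
    · have hyξ : y + ξ ∉ tsupport φ := fun h => by
        have := hR h
        rw [mem_closedBall_zero_iff] at this
        have h2 := norm_sub_le (y + ξ) ξ
        rw [add_sub_cancel_right] at h2
        linarith
      rw [image_eq_zero_of_notMem_tsupport hyξ, z0]
      simp only [sub_zero, smul_zero, norm_zero]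
      positivity
    · have p1 : ‖ξ‖ ≤ ‖ξ‖ ^ 3 := le_self_pow₀ hξ (by norm_num)
      calc _ ≤ M * ‖ξ‖ := haT
        _ ≤ M * ‖ξ‖ ^ 3 := mul_le_mul_of_nonneg_left p1 hM0
        _ ≤ _ := mul_le_mul_of_nonneg_right (by linarith) (by positivity)

/-- the remainder estimate for the rejection part of the conditional second moment -/
theorem metb_rem_rej {η : E → ℝ} (hη : ContDiff ℝ ∞ η) (hpos : ∀ x, 0 < η x)
    {φ : E → V} (hφ : ContDiff ℝ ∞ φ) (hc : HasCompactSupport φ) :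
    ∃ C : ℝ, 0 ≤ C ∧ ∀ y ξ, (1 - min 1 (η (y + ξ) / η y)) * ‖fderiv ℝ φ y ξ‖ ^ 2
      ≤ C * ‖ξ‖ ^ 3 := by
  obtain ⟨M, hM0, hD1, -, -, -, -⟩ := metb_phi_bounds hφ hc
  obtain ⟨R, hR⟩ := hc.isCompact.isBounded.subset_closedBall (0 : E)
  obtain ⟨C, hC0, -, -, hal⟩ := metb_eta_bounds hη hpos
    (isCompact_closedBall (0 : E) (R + 2)) (convex_closedBall _ _)
  refine ⟨M ^ 2 + C * M ^ 2, by positivity, fun y ξ => ?_⟩
  obtain ⟨ha0, ha1⟩ := metb_al_mem hpos y ξ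
  set a := min 1 (η (y + ξ) / η y) with ha
  have hx0 : 0 ≤ ‖ξ‖ := norm_nonneg _
  have b2 : ‖fderiv ℝ φ y ξ‖ ^ 2 ≤ M ^ 2 * ‖ξ‖ ^ 2 := by
    rw [← mul_pow]
    exact pow_le_pow_left₀ (norm_nonneg _) ((ContinuousLinearMap.le_opNorm _ _).trans
      (mul_le_mul_of_nonneg_right (hD1 y) hx0)) 2
  by_cases hy : y ∈ Metric.closedBall (0 : E) (R + 1)
  · have hyK : y ∈ Metric.closedBall (0 : E) (R + 2) :=
      Metric.closedBall_subset_closedBall (by linarith) hy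
    rcases le_total ‖ξ‖ 1 with hξ | hξ
    · have hyξ : y + ξ ∈ Metric.closedBall (0 : E) (R + 2) := by
        rw [mem_closedBall_zero_iff] at hy ⊢
        have := norm_add_le y ξ
        linarith
      calc _ ≤ (C * ‖ξ‖) * (M ^ 2 * ‖ξ‖ ^ 2) :=
            mul_le_mul (hal y hyK ξ hyξ) b2 (by positivity) (by positivity)
        _ = (C * M ^ 2) * ‖ξ‖ ^ 3 := by ring
        _ ≤ _ := mul_le_mul_of_nonneg_right (by nlinarith) (by positivity)
    · have p2 : ‖ξ‖ ^ 2 ≤ ‖ξ‖ ^ 3 := pow_le_pow_right₀ hξ (by norm_num)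
      calc _ ≤ 1 * (M ^ 2 * ‖ξ‖ ^ 2) :=
            mul_le_mul (by linarith) b2 (by positivity) (by positivity)
        _ ≤ 1 * (M ^ 2 * ‖ξ‖ ^ 3) := by
            refine mul_le_mul_of_nonneg_left (mul_le_mul_of_nonneg_left p2 (by positivity))
              zero_le_one
        _ = M ^ 2 * ‖ξ‖ ^ 3 := by ring
        _ ≤ _ := mul_le_mul_of_nonneg_right (by nlinarith [mul_nonneg hC0 (sq_nonneg M)])
            (by positivity)
  · have hys : y ∉ tsupport φ := fun h => by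
      have := hR h
      rw [mem_closedBall_zero_iff] at this hy
      linarith
    obtain ⟨-, z1, -⟩ := metb_off_support hys
    rw [z1]
    simp only [zero_apply, norm_zero]
    have : (0 : ℝ) ≤ (M ^ 2 + C * M ^ 2) * ‖ξ‖ ^ 3 := by positivity
    simpa using this

/-- `opA` in terms of iterated `fderiv` -/
theorem metb_opA_eq (η : E → ℝ) (φ : E → V) (y : E) :
    opA η φ y = -(∑ i, fderiv ℝ (fderiv ℝ φ) y (stdOrthonormalBasis ℝ E i)
        (stdOrthonormalBasis ℝ E i))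
      - fderiv ℝ φ y (gradient (fun y => Real.log (η y)) y) := by
  unfold opA
  rw [InnerProductSpace.laplacian_eq_iteratedFDeriv_stdOrthonormalBasis]
  simp only [iteratedFDeriv_two_apply, Matrix.cons_val_zero, Matrix.cons_val_one]

theorem metb_opA_cont {η : E → ℝ} (hη : ContDiff ℝ ∞ η) (hpos : ∀ x, 0 < η x)
    {φ : E → V} (hφ : ContDiff ℝ ∞ φ) : Continuous (opA η φ) := by
  have h1 : ContDiff ℝ ∞ (fderiv ℝ φ) := hφ.fderiv_right (by simp)
  have h2 : ContDiff ℝ ∞ (fderiv ℝ (fderiv ℝ φ)) := h1.fderiv_right (by simp)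
  have hb := metb_grad_log_cont hη hpos
  have e : opA η φ = fun y => -(∑ i, fderiv ℝ (fderiv ℝ φ) y (stdOrthonormalBasis ℝ E i)
        (stdOrthonormalBasis ℝ E i))
      - fderiv ℝ φ y (gradient (fun y => Real.log (η y)) y) := funext (metb_opA_eq η φ)
  rw [e]
  refine Continuous.sub (Continuous.neg (continuous_finsetSum _ fun i _ => ?_))
    (h1.continuous.clm_apply hb)
  exact (h2.continuous.clm_apply continuous_const).clm_apply continuous_const

theorem metb_opA_bdd {η : E → ℝ} (hη : ContDiff ℝ ∞ η) (hpos : ∀ x, 0 < η x)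
    {φ : E → V} (hφ : ContDiff ℝ ∞ φ) (hc : HasCompactSupport φ) :
    ∃ C : ℝ, 0 ≤ C ∧ ∀ y, ‖opA η φ y‖ ≤ C := by
  refine metb_bdd_cs (metb_opA_cont hη hpos hφ) (HasCompactSupport.intro hc.isCompact ?_)
  intro y hy
  obtain ⟨-, z1, z2⟩ := metb_off_support hy
  rw [metb_opA_eq, z1, z2]
  simp

end pointwise

end Claimed.Agent.R259
end

/- ===== packed: Claimed.Agent.R259.MetB5 ===== -/
section
/-
Row 259 (S0499), kit MET, block B, part 5: integration over the uniform variable, measurability,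
integrability.  Owner: helper236.
-/
set_option autoImplicit false
set_option linter.unusedSectionVars false

open MeasureTheory ProbabilityTheory
open scoped ContDiff BigOperators RealInnerProductSpace

namespace Claimed.Agent.R259

theorem metb_U_prob : IsProbabilityMeasure metU := by
  refine ⟨?_⟩
  unfold metU
  simp

theorem metb_nu_prob (n : ℕ) : IsProbabilityMeasure (metNu n) := by
  have := metb_U_prob
  unfold metNu
  infer_instance

/-- integration of a two-valued function of the uniform variable -/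
theorem metb_U_ite {W : Type*} [NormedAddCommGroup W] [NormedSpace ℝ W] [CompleteSpace W]
    {c d : ℝ} (hc : 0 < c) (hd : 0 ≤ d) (a b : W) :
    ∫ u, (if u * c ≤ d then a else b) ∂metU = min 1 (d / c) • a + (1 - min 1 (d / c)) • b := by
  unfold metU
  set p := min 1 (d / c) with hp
  have hp0 : 0 ≤ p := le_min zero_le_one (div_nonneg hd hc.le)
  have hp1 : p ≤ 1 := min_le_left _ _
  have hA : ∀ u ∈ Set.Ioc (0 : ℝ) p, (if u * c ≤ d then a else b) = a := by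
    intro u hu
    refine if_pos ?_
    have : u ≤ d / c := hu.2.trans (min_le_right _ _)
    rwa [le_div_iff₀ hc] at this
  have hB : ∀ u ∈ Set.Ioc p (1 : ℝ), (if u * c ≤ d then a else b) = b := by
    intro u hu
    refine if_neg ?_
    intro h
    have h1 : u ≤ d / c := by rwa [le_div_iff₀ hc]
    have : u ≤ p := le_min hu.2 h1
    exact absurd hu.1 (not_lt.2 this)
  have iA : IntegrableOn (fun u : ℝ => if u * c ≤ d then a else b) (Set.Ioc 0 p) :=
    (integrableOn_const (by simp) : IntegrableOn (fun _ : ℝ => a) (Set.Ioc 0 p)).congr_fun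
      (fun u hu => (hA u hu).symm) measurableSet_Ioc
  have iB : IntegrableOn (fun u : ℝ => if u * c ≤ d then a else b) (Set.Ioc p 1) :=
    (integrableOn_const (by simp) : IntegrableOn (fun _ : ℝ => b) (Set.Ioc p 1)).congr_fun
      (fun u hu => (hB u hu).symm) measurableSet_Ioc
  rw [integral_Icc_eq_integral_Ioc, ← Set.Ioc_union_Ioc_eq_Ioc hp0 hp1,
    setIntegral_union (Set.Ioc_disjoint_Ioc_of_le le_rfl) measurableSet_Ioc iA iB,
    setIntegral_congr_fun measurableSet_Ioc hA, setIntegral_congr_fun measurableSet_Ioc hB,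
    setIntegral_const, setIntegral_const, Real.volume_real_Ioc_of_le hp0,
    Real.volume_real_Ioc_of_le hp1, sub_zero]

section B

variable {n : ℕ} {ι : Type} [Fintype ι]

theorem metb_step_measurable {η : EE n → ℝ} (hη : Continuous η) (h : ℝ) :
    Measurable (fun p : EE n × (EE n × ℝ) => metStep η h p.1 p.2) := by
  unfold metStep
  have mg : Measurable (fun p : EE n × (EE n × ℝ) => p.1 + Real.sqrt (2 * h) • p.2.1) := by
    fun_prop
  refine Measurable.ite (measurableSet_le ?_ (hη.measurable.comp mg)) mg measurable_fst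
  exact (measurable_snd.comp measurable_snd).mul (hη.measurable.comp measurable_fst)

theorem metb_err_measurable {η : EE n → ℝ} (hη : ContDiff ℝ ∞ η) (hpos : ∀ x, 0 < η x) (h : ℝ)
    {φ : EE n → EuclideanSpace ℝ ι} (hφ : ContDiff ℝ ∞ φ) :
    Measurable (fun p : EE n × (EE n × ℝ) => metErr η h φ p.1 p.2) := by
  unfold metErr
  have h1 : ContDiff ℝ ∞ (fderiv ℝ φ) := hφ.fderiv_right (by simp)
  have m1 : Measurable (fun p : EE n × (EE n × ℝ) => φ (metStep η h p.1 p.2)) :=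
    hφ.continuous.measurable.comp (metb_step_measurable hη.continuous h)
  have m2 : Measurable (fun p : EE n × (EE n × ℝ) => φ p.1) :=
    hφ.continuous.measurable.comp measurable_fst
  have m3 : Measurable (fun p : EE n × (EE n × ℝ) => fderiv ℝ φ p.1 p.2.1) :=
    ((h1.continuous.comp continuous_fst).clm_apply
      (continuous_fst.comp continuous_snd)).measurable
  have m4 : Measurable (fun p : EE n × (EE n × ℝ) => opA η φ p.1) :=
    (metb_opA_cont hη hpos hφ).measurable.comp measurable_fst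
  exact ((m1.fun_sub m2).fun_sub (m3.fun_const_smul _)).fun_add (m4.fun_const_smul _)

theorem metb_err_memLp {η : EE n → ℝ} (hη : ContDiff ℝ ∞ η) (h : ℝ)
    {φ : EE n → EuclideanSpace ℝ ι} (hφ : ContDiff ℝ ∞ φ) (hc : HasCompactSupport φ) (y : EE n) :
    MemLp (fun z => metErr η h φ y z) 2 (metNu n) := by
  have := metb_U_prob
  have := metb_nu_prob n
  obtain ⟨M, -, hM⟩ := metb_bdd_cs hφ.continuous hc
  have ms : Measurable (fun z : EE n × ℝ => metStep η h y z) :=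
    (metb_step_measurable hη.continuous h).comp measurable_prodMk_left
  have h1 : MemLp (fun z : EE n × ℝ => φ (metStep η h y z)) 2 (metNu n) :=
    MemLp.of_bound (hφ.continuous.measurable.comp ms).aestronglyMeasurable M
      (Filter.Eventually.of_forall fun z => hM _)
  have h2 : MemLp (fun _ : EE n × ℝ => φ y) 2 (metNu n) := memLp_const _
  have h3 : MemLp (fun z : EE n × ℝ => Real.sqrt (2 * h) • fderiv ℝ φ y z.1) 2 (metNu n) := by
    have := ((fderiv ℝ φ y).comp_memLp' (IsGaussian.memLp_two_id (μ := stdGaussian (EE n)))).const_smul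
      (Real.sqrt (2 * h))
    exact this.comp_fst metU
  have h4 : MemLp (fun _ : EE n × ℝ => h • opA η φ y) 2 (metNu n) := memLp_const _
  exact ((h1.sub h2).sub h3).add h4

end B

end Claimed.Agent.R259
end

/- ===== packed: Claimed.Agent.R259.MetB6 ===== -/
section
/-
Row 259 (S0499), kit MET, block B, part 6: conditional mean and second moment of the error as
Gaussian integrals.  Owner: helper236.
-/
set_option autoImplicit false
set_option linter.unusedSectionVars false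

open MeasureTheory ProbabilityTheory
open scoped ContDiff BigOperators RealInnerProductSpace

namespace Claimed.Agent.R259

section B

variable {n : ℕ} {ι : Type} [Fintype ι]

theorem metb_err_ite (η : EE n → ℝ) (h : ℝ) (φ : EE n → EuclideanSpace ℝ ι) (y : EE n)
    (z : EE n × ℝ) :
    metErr η h φ y z = if z.2 * η y ≤ η (y + Real.sqrt (2 * h) • z.1)
      then (φ (y + Real.sqrt (2 * h) • z.1) - φ y - Real.sqrt (2 * h) • fderiv ℝ φ y z.1
        + h • opA η φ y)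
      else (-(Real.sqrt (2 * h) • fderiv ℝ φ y z.1) + h • opA η φ y) := by
  unfold metErr metStep
  split_ifs <;> simp

theorem metb_err_int {η : EE n → ℝ} (hη : ContDiff ℝ ∞ η) (hpos : ∀ x, 0 < η x) (h : ℝ)
    {φ : EE n → EuclideanSpace ℝ ι} (hφ : ContDiff ℝ ∞ φ) (hc : HasCompactSupport φ) (y : EE n) :
    ∫ z, metErr η h φ y z ∂(metNu n)
      = ∫ g, (min 1 (η (y + Real.sqrt (2 * h) • g) / η y) • (φ (y + Real.sqrt (2 * h) • g) - φ y)
          - Real.sqrt (2 * h) • fderiv ℝ φ y g + h • opA η φ y) ∂(stdGaussian (EE n)) := by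
  have := metb_U_prob
  have := metb_nu_prob n
  have hint : Integrable (fun z => metErr η h φ y z) (metNu n) :=
    (metb_err_memLp hη h hφ hc y).integrable (by norm_num)
  unfold metNu at hint ⊢
  rw [integral_prod _ hint]
  refine integral_congr_ae (Filter.Eventually.of_forall fun g => ?_)
  simp only [metb_err_ite]
  rw [metb_U_ite (hpos y) (hpos _).le]
  module

theorem metb_err_sq_int {η : EE n → ℝ} (hη : ContDiff ℝ ∞ η) (hpos : ∀ x, 0 < η x) (h : ℝ)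
    {φ : EE n → EuclideanSpace ℝ ι} (hφ : ContDiff ℝ ∞ φ) (hc : HasCompactSupport φ) (y : EE n) :
    ∫ z, ‖metErr η h φ y z‖ ^ 2 ∂(metNu n)
      = ∫ g, (min 1 (η (y + Real.sqrt (2 * h) • g) / η y)
            * ‖φ (y + Real.sqrt (2 * h) • g) - φ y - Real.sqrt (2 * h) • fderiv ℝ φ y g
              + h • opA η φ y‖ ^ 2
          + (1 - min 1 (η (y + Real.sqrt (2 * h) • g) / η y))
            * ‖-(Real.sqrt (2 * h) • fderiv ℝ φ y g) + h • opA η φ y‖ ^ 2)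
        ∂(stdGaussian (EE n)) := by
  have := metb_U_prob
  have := metb_nu_prob n
  have hint : Integrable (fun z => ‖metErr η h φ y z‖ ^ 2) (metNu n) :=
    (metb_err_memLp hη h hφ hc y).integrable_norm_pow (by norm_num)
  unfold metNu at hint ⊢
  rw [integral_prod _ hint]
  refine integral_congr_ae (Filter.Eventually.of_forall fun g => ?_)
  simp only [metb_err_ite, apply_ite (fun v : EuclideanSpace ℝ ι => ‖v‖ ^ 2)]
  rw [metb_U_ite (hpos y) (hpos _).le]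
  simp only [smul_eq_mul]

end B

end Claimed.Agent.R259
end

/- ===== packed: Claimed.Agent.R259.MetB ===== -/
section
/-
Row 259 (S0499), kit MET, block B: the one-step Taylor estimate for the Metropolis chain, uniform
in the starting point.  Statements of helper115 (`MetLeaves.lean`, block B), proofs: helper236.
-/
set_option autoImplicit false
set_option linter.unusedSectionVars false

open MeasureTheory ProbabilityTheory
open scoped ContDiff BigOperators RealInnerProductSpace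

namespace Claimed.Agent.R259

/-- a quantity of order `√(2h)³` is `o(h)` -/
theorem metb_close {C ε : ℝ} (hC : 0 ≤ C) (hε : 0 < ε) :
    ∃ h0 > 0, ∀ h, 0 < h → h < h0 →
      Real.sqrt (2 * h) ≤ 1 ∧ C * Real.sqrt (2 * h) ^ 3 ≤ ε * h := by
  set δ := min 1 (ε / (2 * C + 1)) with hδ
  have hδ0 : 0 < δ := lt_min one_pos (by positivity)
  refine ⟨δ ^ 2 / 2, by positivity, fun h hh hlt => ?_⟩
  have hs : Real.sqrt (2 * h) < δ := by
    rw [Real.sqrt_lt' hδ0]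
    linarith
  have hs0 : 0 ≤ Real.sqrt (2 * h) := Real.sqrt_nonneg _
  have hsq : Real.sqrt (2 * h) ^ 2 = 2 * h := Real.sq_sqrt (by positivity)
  refine ⟨(hs.le).trans (min_le_left _ _), ?_⟩
  have h1 : Real.sqrt (2 * h) ≤ ε / (2 * C + 1) := hs.le.trans (min_le_right _ _)
  have h2 : (2 * C + 1) * Real.sqrt (2 * h) ≤ ε := by
    rw [le_div_iff₀ (by positivity)] at h1
    linarith
  have h3 : 2 * C * Real.sqrt (2 * h) ≤ ε := by nlinarith
  calc C * Real.sqrt (2 * h) ^ 3 = (2 * C * Real.sqrt (2 * h)) * h := by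
        rw [pow_succ, hsq]; ring
    _ ≤ ε * h := mul_le_mul_of_nonneg_right h3 hh.le

section B

variable {n : ℕ} {ι : Type} [Fintype ι]

theorem metb_mean_bound {η : EE n → ℝ} (hη : ContDiff ℝ ∞ η) (hpos : ∀ x, 0 < η x)
    {φ : EE n → EuclideanSpace ℝ ι} (hφ : ContDiff ℝ ∞ φ) (hc : HasCompactSupport φ) :
    ∃ C : ℝ, 0 ≤ C ∧ ∀ h, 0 < h → ∀ y,
      ‖∫ z, metErr η h φ y z ∂(metNu n)‖ ≤ C * Real.sqrt (2 * h) ^ 3 := by
  obtain ⟨C, hC0, hC⟩ := metb_rem_mean hη hpos hφ hc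
  have hm3 : 0 ≤ ∫ g : EE n, ‖g‖ ^ 3 ∂(stdGaussian (EE n)) :=
    integral_nonneg fun g => by positivity
  refine ⟨C * ∫ g : EE n, ‖g‖ ^ 3 ∂(stdGaussian (EE n)), by positivity, fun h hh y => ?_⟩
  rw [metb_err_int hη hpos h hφ hc y]
  set σ := Real.sqrt (2 * h) with hσ
  have hσ0 : 0 ≤ σ := Real.sqrt_nonneg _
  have hσ2 : σ ^ 2 = 2 * h := Real.sq_sqrt (by positivity)
  set b := gradient (fun y => Real.log (η y)) y with hb
  set D1 := fderiv ℝ φ y with hD1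
  set D2 := fderiv ℝ (fderiv ℝ φ) y with hD2
  have hηc := hη.continuous
  have hφc := hφ.continuous
  -- the remainder
  have hRc : Continuous (fun g : EE n => min 1 (η (y + σ • g) / η y) • (φ (y + σ • g) - φ y)
      - D1 (σ • g) - min 0 ⟪b, σ • g⟫ • D1 (σ • g) - (1 / 2 : ℝ) • D2 (σ • g) (σ • g)) := by
    fun_prop
  have hRb : ∀ g : EE n, ‖min 1 (η (y + σ • g) / η y) • (φ (y + σ • g) - φ y)
      - D1 (σ • g) - min 0 ⟪b, σ • g⟫ • D1 (σ • g) - (1 / 2 : ℝ) • D2 (σ • g) (σ • g)‖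
      ≤ (C * σ ^ 3) * ‖g‖ ^ 3 := by
    intro g
    refine (hC y (σ • g)).trans (le_of_eq ?_)
    rw [norm_smul, Real.norm_eq_abs, abs_of_nonneg hσ0]
    ring
  have hRi := metb_gauss_int_of_bound hRc.aestronglyMeasurable _ 3 hRb
  -- the explicit part
  have hP1 : Integrable (fun g : EE n => σ ^ 2 • (min 0 ⟪b, g⟫ • D1 g)) (stdGaussian (EE n)) :=
    (metb_gauss_int_half b D1).smul (σ ^ 2)
  have hP2 : Integrable (fun g : EE n => (σ ^ 2 / 2) • D2 g g) (stdGaussian (EE n)) :=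
    (metb_gauss_int_quad D2).smul (σ ^ 2 / 2)
  have hP12 : Integrable (fun g : EE n => σ ^ 2 • (min 0 ⟪b, g⟫ • D1 g) + (σ ^ 2 / 2) • D2 g g)
      (stdGaussian (EE n)) := hP1.add hP2
  have hP3 : Integrable (fun _ : EE n => h • opA η φ y) (stdGaussian (EE n)) :=
    integrable_const _
  have hPz : ∫ g : EE n, ((σ ^ 2 • (min 0 ⟪b, g⟫ • D1 g) + (σ ^ 2 / 2) • D2 g g)
      + h • opA η φ y) ∂(stdGaussian (EE n)) = 0 := by
    rw [integral_add hP12 hP3, integral_add hP1 hP2, integral_smul, integral_smul,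
      metb_gauss_half, metb_gauss_quad (stdOrthonormalBasis ℝ (EE n)), integral_const,
      metb_opA_eq, hσ2]
    simp only [probReal_univ, one_smul]
    module
  have hP123 : Integrable (fun g : EE n => (σ ^ 2 • (min 0 ⟪b, g⟫ • D1 g) + (σ ^ 2 / 2) • D2 g g)
      + h • opA η φ y) (stdGaussian (EE n)) := hP12.add hP3
  have hsplit : ∀ g : EE n, min 1 (η (y + σ • g) / η y) • (φ (y + σ • g) - φ y)
      - σ • D1 g + h • opA η φ y
      = (min 1 (η (y + σ • g) / η y) • (φ (y + σ • g) - φ y)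
      - D1 (σ • g) - min 0 ⟪b, σ • g⟫ • D1 (σ • g) - (1 / 2 : ℝ) • D2 (σ • g) (σ • g))
      + ((σ ^ 2 • (min 0 ⟪b, g⟫ • D1 g) + (σ ^ 2 / 2) • D2 g g) + h • opA η φ y) := by
    intro g
    have e1 : min 0 ⟪b, σ • g⟫ = σ * min 0 ⟪b, g⟫ := by
      rw [inner_smul_right, mul_min_of_nonneg _ _ hσ0, mul_zero]
    rw [e1]
    simp only [map_smul, smul_apply]
    module
  rw [integral_congr_ae (Filter.Eventually.of_forall hsplit),
    integral_add hRi hP123, hPz, add_zero]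
  calc _ ≤ ∫ g : EE n, (C * σ ^ 3) * ‖g‖ ^ 3 ∂(stdGaussian (EE n)) :=
        norm_integral_le_of_norm_le ((metb_gauss_int_pow 3).const_mul _)
          (Filter.Eventually.of_forall hRb)
    _ = _ := by rw [integral_const_mul]; ring

theorem metb_sq_add_le {W : Type*} [SeminormedAddCommGroup W] (u v : W) :
    ‖u + v‖ ^ 2 ≤ 2 * ‖u‖ ^ 2 + 2 * ‖v‖ ^ 2 := by
  have h1 := norm_add_le u v
  have h2 : ‖u + v‖ ^ 2 ≤ (‖u‖ + ‖v‖) ^ 2 := pow_le_pow_left₀ (norm_nonneg _) h1 2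
  nlinarith [sq_nonneg (‖u‖ - ‖v‖)]

theorem metb_sq_bound {η : EE n → ℝ} (hη : ContDiff ℝ ∞ η) (hpos : ∀ x, 0 < η x)
    {φ : EE n → EuclideanSpace ℝ ι} (hφ : ContDiff ℝ ∞ φ) (hc : HasCompactSupport φ) :
    ∃ C : ℝ, 0 ≤ C ∧ ∀ h, 0 < h → Real.sqrt (2 * h) ≤ 1 → ∀ y,
      ∫ z, ‖metErr η h φ y z‖ ^ 2 ∂(metNu n) ≤ C * Real.sqrt (2 * h) ^ 3 := by
  obtain ⟨M, hM0, -, -, -, hT2, -⟩ := metb_phi_bounds hφ hc
  obtain ⟨C3, hC30, hC3⟩ := metb_rem_rej hη hpos hφ hc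
  obtain ⟨CA, hCA0, hCA⟩ := metb_opA_bdd hη hpos hφ hc
  have hm3 : 0 ≤ ∫ g : EE n, ‖g‖ ^ 3 ∂(stdGaussian (EE n)) :=
    integral_nonneg fun g => by positivity
  have hm4 : 0 ≤ ∫ g : EE n, ‖g‖ ^ 4 ∂(stdGaussian (EE n)) :=
    integral_nonneg fun g => by positivity
  refine ⟨2 * M ^ 2 * (∫ g : EE n, ‖g‖ ^ 4 ∂(stdGaussian (EE n)))
    + 2 * C3 * (∫ g : EE n, ‖g‖ ^ 3 ∂(stdGaussian (EE n))) + CA ^ 2, by positivity,
    fun h hh hs1 y => ?_⟩
  rw [metb_err_sq_int hη hpos h hφ hc y]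
  set σ := Real.sqrt (2 * h) with hσ
  have hσ0 : 0 ≤ σ := Real.sqrt_nonneg _
  have hσ2 : σ ^ 2 = 2 * h := Real.sq_sqrt (by positivity)
  have hA2 : ‖h • opA η φ y‖ ^ 2 ≤ h ^ 2 * CA ^ 2 := by
    rw [norm_smul, mul_pow, Real.norm_eq_abs, sq_abs]
    exact mul_le_mul_of_nonneg_left (pow_le_pow_left₀ (norm_nonneg _) (hCA y) 2) (sq_nonneg _)
  have hpt : ∀ g : EE n, min 1 (η (y + σ • g) / η y)
            * ‖φ (y + σ • g) - φ y - σ • fderiv ℝ φ y g + h • opA η φ y‖ ^ 2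
          + (1 - min 1 (η (y + σ • g) / η y)) * ‖-(σ • fderiv ℝ φ y g) + h • opA η φ y‖ ^ 2
      ≤ (2 * M ^ 2 * σ ^ 4) * ‖g‖ ^ 4 + (2 * C3 * σ ^ 3) * ‖g‖ ^ 3 + 4 * h ^ 2 * CA ^ 2 := by
    intro g
    obtain ⟨ha0, ha1⟩ := metb_al_mem hpos y (σ • g)
    have hrej := hC3 y (σ • g)
    set a := min 1 (η (y + σ • g) / η y) with ha
    have e1 : σ • fderiv ℝ φ y g = fderiv ℝ φ y (σ • g) := (map_smul _ _ _).symm
    have hn : ‖σ • g‖ = σ * ‖g‖ := by rw [norm_smul, Real.norm_eq_abs, abs_of_nonneg hσ0]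
    rw [e1]
    have t1 : ‖φ (y + σ • g) - φ y - fderiv ℝ φ y (σ • g)‖ ^ 2 ≤ M ^ 2 * σ ^ 4 * ‖g‖ ^ 4 := by
      have := pow_le_pow_left₀ (norm_nonneg _) (hT2 y (σ • g)) 2
      rw [hn] at this
      calc _ ≤ _ := this
        _ = _ := by ring
    have s1 := metb_sq_add_le (φ (y + σ • g) - φ y - fderiv ℝ φ y (σ • g)) (h • opA η φ y)
    have s2 := metb_sq_add_le (-(fderiv ℝ φ y (σ • g))) (h • opA η φ y)
    rw [norm_neg] at s2
    rw [hn] at hrej
    have u1 : a * ‖φ (y + σ • g) - φ y - fderiv ℝ φ y (σ • g) + h • opA η φ y‖ ^ 2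
        ≤ 2 * (M ^ 2 * σ ^ 4 * ‖g‖ ^ 4) + 2 * (h ^ 2 * CA ^ 2) := by
      refine (mul_le_of_le_one_left (by positivity) ha1).trans (s1.trans ?_)
      linarith
    have u2 : (1 - a) * ‖-(fderiv ℝ φ y (σ • g)) + h • opA η φ y‖ ^ 2
        ≤ 2 * (C3 * (σ * ‖g‖) ^ 3) + 2 * (h ^ 2 * CA ^ 2) := by
      have h1a : 0 ≤ 1 - a := by linarith
      refine (mul_le_mul_of_nonneg_left s2 h1a).trans ?_
      have v1 : (1 - a) * ‖h • opA η φ y‖ ^ 2 ≤ h ^ 2 * CA ^ 2 :=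
        (mul_le_of_le_one_left (by positivity) (by linarith)).trans hA2
      nlinarith
    calc _ ≤ (2 * (M ^ 2 * σ ^ 4 * ‖g‖ ^ 4) + 2 * (h ^ 2 * CA ^ 2))
          + (2 * (C3 * (σ * ‖g‖) ^ 3) + 2 * (h ^ 2 * CA ^ 2)) := add_le_add u1 u2
      _ = _ := by ring
  have hI4 : Integrable (fun g : EE n => (2 * M ^ 2 * σ ^ 4) * ‖g‖ ^ 4) (stdGaussian (EE n)) :=
    (metb_gauss_int_pow 4).const_mul _
  have hI3 : Integrable (fun g : EE n => (2 * C3 * σ ^ 3) * ‖g‖ ^ 3) (stdGaussian (EE n)) :=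
    (metb_gauss_int_pow 3).const_mul _
  have hI43 : Integrable (fun g : EE n => (2 * M ^ 2 * σ ^ 4) * ‖g‖ ^ 4
      + (2 * C3 * σ ^ 3) * ‖g‖ ^ 3) (stdGaussian (EE n)) := hI4.add hI3
  have hI0 : Integrable (fun _ : EE n => 4 * h ^ 2 * CA ^ 2) (stdGaussian (EE n)) :=
    integrable_const _
  have hI : Integrable (fun g : EE n => (2 * M ^ 2 * σ ^ 4) * ‖g‖ ^ 4
      + (2 * C3 * σ ^ 3) * ‖g‖ ^ 3 + 4 * h ^ 2 * CA ^ 2) (stdGaussian (EE n)) := hI43.add hI0
  have hσ43 : σ ^ 4 ≤ σ ^ 3 := pow_le_pow_of_le_one hσ0 hs1 (by norm_num)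
  have h4 : 4 * h ^ 2 = σ ^ 4 := by
    have : σ ^ 4 = (σ ^ 2) ^ 2 := by ring
    rw [this, hσ2]; ring
  calc _ ≤ ∫ g : EE n, ((2 * M ^ 2 * σ ^ 4) * ‖g‖ ^ 4 + (2 * C3 * σ ^ 3) * ‖g‖ ^ 3
          + 4 * h ^ 2 * CA ^ 2) ∂(stdGaussian (EE n)) := by
        refine integral_mono_of_nonneg (Filter.Eventually.of_forall fun g => ?_) hI
          (Filter.Eventually.of_forall hpt)
        obtain ⟨ha0, ha1⟩ := metb_al_mem hpos y (σ • g)
        have h1a : 0 ≤ 1 - min 1 (η (y + σ • g) / η y) := by linarith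
        simp only [Pi.zero_apply]
        positivity
    _ = (2 * M ^ 2 * σ ^ 4) * (∫ g : EE n, ‖g‖ ^ 4 ∂(stdGaussian (EE n)))
          + (2 * C3 * σ ^ 3) * (∫ g : EE n, ‖g‖ ^ 3 ∂(stdGaussian (EE n))) + σ ^ 4 * CA ^ 2 := by
        rw [integral_add hI43 hI0, integral_add hI4 hI3, integral_const_mul, integral_const_mul,
          integral_const, h4]
        simp
    _ ≤ (2 * M ^ 2 * σ ^ 3) * (∫ g : EE n, ‖g‖ ^ 4 ∂(stdGaussian (EE n)))
          + (2 * C3 * σ ^ 3) * (∫ g : EE n, ‖g‖ ^ 3 ∂(stdGaussian (EE n))) + σ ^ 3 * CA ^ 2 := by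
        have w1 : (2 * M ^ 2 * σ ^ 4) * (∫ g : EE n, ‖g‖ ^ 4 ∂(stdGaussian (EE n)))
            ≤ (2 * M ^ 2 * σ ^ 3) * (∫ g : EE n, ‖g‖ ^ 4 ∂(stdGaussian (EE n))) :=
          mul_le_mul_of_nonneg_right (mul_le_mul_of_nonneg_left hσ43 (by positivity)) hm4
        have w2 : σ ^ 4 * CA ^ 2 ≤ σ ^ 3 * CA ^ 2 :=
          mul_le_mul_of_nonneg_right hσ43 (by positivity)
        linarith
    _ = _ := by ring

/-! ### The statements of block B -/

theorem met_err_measurable {η : EE n → ℝ} (hη : SPD η) (h : ℝ) {φ : EE n → EuclideanSpace ℝ ι}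
    (hφ : IsTestV φ) :
    Measurable (fun p : EE n × (EE n × ℝ) => metErr η h φ p.1 p.2) :=
  metb_err_measurable hη.1 hη.2.1 h hφ.1

theorem met_err_memLp {η : EE n → ℝ} (hη : SPD η) (h : ℝ) {φ : EE n → EuclideanSpace ℝ ι}
    (hφ : IsTestV φ) (y : EE n) : MemLp (fun z => metErr η h φ y z) 2 (metNu n) :=
  metb_err_memLp hη.1 h hφ.1 hφ.2 y

/-- conditional mean of the error is `o(h)`, uniformly in `y`.  Inside a compact neighbourhood of
the support: `α = min(1, η(y+ξ)/η(y)) = 1 + min(0, b·ξ) + O(|ξ|²)`, `b = ∇ log η(y)`,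
`E[(u·g) min(0, b·g)] = (u·b)/2`, `E[D²φ(g,g)] = Δφ`; outside: Gaussian tail. -/
theorem met_err_mean {η : EE n → ℝ} (hη : SPD η) {φ : EE n → EuclideanSpace ℝ ι}
    (hφ : IsTestV φ) {ε : ℝ} (hε : 0 < ε) :
    ∃ h0 > 0, ∀ h, 0 < h → h < h0 → ∀ y, ‖∫ z, metErr η h φ y z ∂(metNu n)‖ ≤ ε * h := by
  obtain ⟨C, hC0, hC⟩ := metb_mean_bound hη.1 hη.2.1 hφ.1 hφ.2
  obtain ⟨h0, hh0, hcl⟩ := metb_close hC0 hε
  exact ⟨h0, hh0, fun h hh hlt y => (hC h hh y).trans (hcl h hh hlt).2⟩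

/-- conditional second moment of the error is `o(h)`, uniformly in `y` -/
theorem met_err_sq {η : EE n → ℝ} (hη : SPD η) {φ : EE n → EuclideanSpace ℝ ι}
    (hφ : IsTestV φ) {ε : ℝ} (hε : 0 < ε) :
    ∃ h0 > 0, ∀ h, 0 < h → h < h0 → ∀ y, ∫ z, ‖metErr η h φ y z‖ ^ 2 ∂(metNu n) ≤ ε * h := by
  obtain ⟨C, hC0, hC⟩ := metb_sq_bound hη.1 hη.2.1 hφ.1 hφ.2
  obtain ⟨h0, hh0, hcl⟩ := metb_close hC0 hε
  exact ⟨h0, hh0, fun h hh hlt y => (hC h hh (hcl h hh hlt).1 y).trans (hcl h hh hlt).2⟩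

end B

end Claimed.Agent.R259
end
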