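/- Packed by merge_tool.py (helper293): 11 modules of Claimed.Agent.R259 in one file, same declarations.
   Old modules, in this order: S4CurveHerbstA, S4CurveHerbstB, S4CurveHerbst, S7OuA, S7OuB, S7OuC, S7Ou, S7ChainA, S7JacDefs, S7JacLoc, S7JacDec -/
import Claimed.Agent.R259.WS
import Claimed.Agent.R260.GKMehlerS
import Claimed.Agent.R259.Pack027
import Claimed.Agent.R259.Pack048
import Claimed.Agent.R259.Pack030
import Claimed.Agent.R259.Pack001
import Claimed.Agent.R259.Pack008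
import Claimed.Agent.R259.Pack035
import Claimed.Agent.R259.Pack036

/- ===== packed: Claimed.Agent.R259.S4CurveHerbstA ===== -/
section
/-
Row 259 (S0499), section 4, package BP-S4-curve, file HERBST-A (LEAF L-s4c-herbst-a): Herbst's argument for bounded functions.
Statement: helper147.    Inputs: WS.lean (`ws_H1_of_contDiff`, `ws_LSI_H1`), Mathlib.
`Λ(t) = ∫ e^{tF}`; `F` bounded, so `Λ` is differentiable with `Λ' = ∫ F e^{tF}` (`hasDerivAt_integral_of_dominated_loc_of_deriv_le`).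
LSI for `u = e^{tF/2}` (`C¹`, bounded, bounded gradient `(t/2) e^{tF/2} ∇F`; `ws_H1_of_contDiff`, `ws_LSI_H1`):
  `t Λ' - Λ log Λ = ent (e^{tF}) ≤ 2R ∫ (t²/4)|∇F|² e^{tF} ≤ (R t²/2) Λ`.  So `K(t) = log Λ(t) / t` has `K' ≤ R/2` on `(0,∞)`, `K(0+) = ∫ F`
  (slope of `log Λ` at `0`): `t ↦ K(t) - R t/2` is antitone on `(0,∞)` (`antitoneOn_of_deriv_nonpos`) and tends to `∫ F` at `0+`.
-/
set_option autoImplicit false
set_option linter.unusedSectionVars false

open MeasureTheory ProbabilityTheory Filter Topology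
open scoped ENNReal ContDiff

namespace Claimed.Agent.R259

/-- abstract Herbst argument (ODE part) -/
theorem s4ch_abstract {α : Type} [MeasurableSpace α] (P : Measure α) [IsProbabilityMeasure P] {F : α → ℝ}
    (hFm : Measurable F) {B : ℝ} (hB : ∀ x, |F x| ≤ B) {R : ℝ}
    (hE : ∀ t, 0 < t → t * ∫ x, F x * Real.exp (t * F x) ∂P -
      (∫ x, Real.exp (t * F x) ∂P) * Real.log (∫ x, Real.exp (t * F x) ∂P) ≤
        R * t ^ 2 / 2 * ∫ x, Real.exp (t * F x) ∂P) {t : ℝ} (ht : 0 ≤ t) :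
    ∫ x, Real.exp (t * F x) ∂P ≤ Real.exp (t * ∫ x, F x ∂P + R * t ^ 2 / 2) := by
  have hint : ∀ t, Integrable (fun x => Real.exp (t * F x)) P := fun t => by
    refine Integrable.of_bound (Real.measurable_exp.comp (hFm.const_mul t)).aestronglyMeasurable
      (Real.exp (|t| * B)) (Eventually.of_forall fun x => ?_)
    rw [Real.norm_eq_abs, abs_of_pos (Real.exp_pos _)]
    refine Real.exp_le_exp.2 ((le_abs_self _).trans ?_)
    rw [abs_mul]
    exact mul_le_mul_of_nonneg_left (hB x) (abs_nonneg _)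
  have hset : integrableExpSet F P = Set.univ := Set.eq_univ_of_forall fun t => hint t
  have hmem : ∀ t, t ∈ interior (integrableExpSet F P) := fun t => by rw [hset, interior_univ]; trivial
  have hpos : ∀ t, 0 < mgf F P t := fun t => mgf_pos (hint t)
  have hΛ : ∀ t, HasDerivAt (mgf F P) (∫ x, F x * Real.exp (t * F x) ∂P) t := fun t => hasDerivAt_mgf (hmem t)
  have hL : ∀ t, HasDerivAt (cgf F P) ((∫ x, F x * Real.exp (t * F x) ∂P) / mgf F P t) t := fun t =>
    (hΛ t).log (hpos t).ne'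
  rcases ht.eq_or_lt with rfl | ht
  · simp
  set ψ : ℝ → ℝ := fun s => cgf F P s / s - R * s / 2 with hψ
  have hψd : ∀ s, 0 < s → HasDerivAt ψ
      ((((∫ x, F x * Real.exp (s * F x) ∂P) / mgf F P s) * s - cgf F P s * 1) / s ^ 2 - R / 2) s := fun s hs => by
    have h1 := ((hL s).div (hasDerivAt_id s) hs.ne')
    have h2 : HasDerivAt (fun s : ℝ => R * s / 2) (R / 2) s := by
      have := ((hasDerivAt_id s).const_mul R).div_const 2
      simpa using this
    exact h1.sub h2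
  have hanti : AntitoneOn ψ (Set.Ioi 0) := by
    refine antitoneOn_of_deriv_nonpos (convex_Ioi 0)
      (fun s hs => (hψd s hs).continuousAt.continuousWithinAt) ?_ ?_
    · rw [interior_Ioi]
      exact fun s hs => (hψd s hs).differentiableAt.differentiableWithinAt
    · rw [interior_Ioi]
      intro s hs
      have hs' : (0 : ℝ) < s := hs
      rw [(hψd s hs).deriv]
      have h1 := hE s hs
      have hm : ∫ x, Real.exp (s * F x) ∂P = mgf F P s := rfl
      rw [hm] at h1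
      have hp := hpos s
      have h2 : ((∫ x, F x * Real.exp (s * F x) ∂P) / mgf F P s * s - cgf F P s * 1) / s ^ 2 ≤ R / 2 := by
        rw [div_le_iff₀ (by positivity)]
        have h3 : ∀ I M L : ℝ, 0 < M → I / M * s - L * 1 = (s * I - M * L) / M := by
          intro I M L hM
          field_simp
        rw [h3 _ _ _ hp, div_le_iff₀ hp]
        unfold cgf
        linarith
      linarith
  have hlim : Tendsto ψ (𝓝[>] 0) (𝓝 (∫ x, F x ∂P)) := by
    have h0 := hL 0
    have e0 : (∫ x, F x * Real.exp (0 * F x) ∂P) / mgf F P 0 = ∫ x, F x ∂P := by simp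
    rw [e0, hasDerivAt_iff_tendsto_slope_zero] at h0
    have h1 : Tendsto (fun s : ℝ => cgf F P s / s) (𝓝[>] 0) (𝓝 (∫ x, F x ∂P)) := by
      refine (h0.mono_left (nhdsWithin_mono _ fun s (hs : 0 < s) => hs.ne')).congr fun s => ?_
      simp [div_eq_inv_mul]
    have h2 : Tendsto (fun s : ℝ => R * s / 2) (𝓝[>] 0) (𝓝 0) := by
      have : Continuous fun s : ℝ => R * s / 2 := by fun_prop
      have h3 := this.tendsto 0
      simp only [mul_zero, zero_div] at h3
      exact h3.mono_left nhdsWithin_le_nhds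
    simpa using h1.sub h2
  have hle : ψ t ≤ ∫ x, F x ∂P := by
    refine ge_of_tendsto hlim ?_
    filter_upwards [Ioo_mem_nhdsGT ht] with s hs
    exact hanti hs.1 ht hs.2.le
  have h4 : cgf F P t ≤ t * ∫ x, F x ∂P + R * t ^ 2 / 2 := by
    have h5 : cgf F P t / t ≤ ∫ x, F x ∂P + R * t / 2 := by
      simp only [hψ] at hle
      linarith
    rw [div_le_iff₀ ht] at h5
    nlinarith
  have h6 : ∫ x, Real.exp (t * F x) ∂P = Real.exp (cgf F P t) := by
    rw [exp_cgf (hint t)]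
    rfl
  rw [h6]
  exact Real.exp_le_exp.2 h4

variable {E : Type} [NormedAddCommGroup E] [InnerProductSpace ℝ E] [FiniteDimensional ℝ E]
  [MeasurableSpace E] [BorelSpace E]

theorem s4ch_prob {η : E → ℝ} (hη : SPD η) : IsProbabilityMeasure (dm η) := by
  have hi : Integrable η volume := by
    by_contra hn
    have h1 := integral_undef hn
    rw [hη.2.2] at h1
    exact one_ne_zero h1
  constructor
  unfold dm
  rw [withDensity_apply _ MeasurableSet.univ, Measure.restrict_univ,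
    ← ofReal_integral_eq_lintegral_ofReal hi (Eventually.of_forall fun x => (hη.2.1 x).le), hη.2.2,
    ENNReal.ofReal_one]

theorem s4ch_gradient_continuous {F : E → ℝ} (hF : ContDiff ℝ 1 F) : Continuous (gradient F) :=
  (InnerProductSpace.toDual ℝ E).symm.continuous.comp (hF.continuous_fderiv one_ne_zero)

theorem s4ch_gradient_exp {F : E → ℝ} (hF : ContDiff ℝ 1 F) (c : ℝ) (x : E) :
    gradient (fun x => Real.exp (c * F x)) x = (c * Real.exp (c * F x)) • gradient F x := by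
  have h1 : HasFDerivAt F (InnerProductSpace.toDual ℝ E (gradient F x)) x :=
    ((hF.differentiable one_ne_zero) x).hasGradientAt.hasFDerivAt
  have h2 := (h1.const_mul c).exp
  rw [← map_smul, ← map_smul] at h2
  rw [(hasGradientAt_iff_hasFDerivAt.2 h2).gradient, smul_smul, mul_comm]

/-- Herbst's argument for bounded `C¹` functions with `|∇F| ≤ 1`. -/
theorem s4c_herbst_bdd {η : E → ℝ} (hη : SPD η) {R : ℝ} (hR : 0 ≤ R) (hL : LSI (dm η) R) {F : E → ℝ} (hF : ContDiff ℝ 1 F)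
    {B : ℝ} (hB : ∀ x, |F x| ≤ B) (hG : ∀ x, ‖gradient F x‖ ≤ 1) {t : ℝ} (ht : 0 ≤ t) :
    ∫ x, Real.exp (t * F x) ∂(dm η) ≤ Real.exp (t * ∫ x, F x ∂(dm η) + R * t ^ 2 / 2) := by
  have hprob : IsProbabilityMeasure (dm η) := s4ch_prob hη
  refine s4ch_abstract (dm η) hF.continuous.measurable hB (fun s hs => ?_) ht
  have hbd : ∀ (c : ℝ), 0 ≤ c → ∀ x, Real.exp (c * F x) ≤ Real.exp (c * B) := fun c hc x =>
    Real.exp_le_exp.2 (mul_le_mul_of_nonneg_left ((le_abs_self _).trans (hB x)) hc)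
  have hs2 : 0 ≤ s / 2 := by positivity
  have huC : ContDiff ℝ 1 (fun x => Real.exp (s / 2 * F x)) := Real.contDiff_exp.comp (contDiff_const.mul hF)
  have hgr : gradient (fun x => Real.exp (s / 2 * F x)) =
      fun x => (s / 2 * Real.exp (s / 2 * F x)) • gradient F x := funext fun x => s4ch_gradient_exp hF _ x
  have hu2 : MemLp (fun x => Real.exp (s / 2 * F x)) 2 (dm η) :=
    MemLp.of_bound huC.continuous.aestronglyMeasurable (Real.exp (s / 2 * B)) (Eventually.of_forall fun x => by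
      rw [Real.norm_eq_abs, abs_of_pos (Real.exp_pos _)]
      exact hbd _ hs2 x)
  have hnorm : ∀ x, ‖(s / 2 * Real.exp (s / 2 * F x)) • gradient F x‖ ^ 2 ≤ s ^ 2 / 4 * Real.exp (s * F x) := by
    intro x
    rw [norm_smul, Real.norm_eq_abs, abs_of_nonneg (by positivity), mul_pow, mul_pow, ← Real.exp_nat_mul]
    have e : ((2 : ℕ) : ℝ) * (s / 2 * F x) = s * F x := by push_cast; ring
    rw [e]
    have h1 : ‖gradient F x‖ ^ 2 ≤ 1 := pow_le_one₀ (norm_nonneg _) (hG x)
    calc (s / 2) ^ 2 * Real.exp (s * F x) * ‖gradient F x‖ ^ 2 ≤ (s / 2) ^ 2 * Real.exp (s * F x) * 1 :=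
          mul_le_mul_of_nonneg_left h1 (by positivity)
      _ = _ := by ring
  have hg2 : MemLp (gradient fun x => Real.exp (s / 2 * F x)) 2 (dm η) := by
    rw [hgr]
    refine MemLp.of_bound ((continuous_const.mul huC.continuous).smul
      (s4ch_gradient_continuous hF)).aestronglyMeasurable (s / 2 * Real.exp (s / 2 * B))
      (Eventually.of_forall fun x => ?_)
    rw [norm_smul, Real.norm_eq_abs, abs_of_nonneg (by positivity)]
    calc s / 2 * Real.exp (s / 2 * F x) * ‖gradient F x‖ ≤ s / 2 * Real.exp (s / 2 * B) * 1 :=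
          mul_le_mul (mul_le_mul_of_nonneg_left (hbd _ hs2 x) hs2) (hG x) (norm_nonneg _) (by positivity)
      _ = _ := mul_one _
  obtain ⟨-, hent⟩ := ws_LSI_H1 hη.1.continuous hη.2.1 hL (ws_H1_of_contDiff huC hu2 hg2)
  have e1 : ∀ x, Real.exp (s / 2 * F x) ^ 2 = Real.exp (s * F x) := fun x => by
    rw [← Real.exp_nat_mul]
    congr 1
    push_cast
    ring
  have iexp : Integrable (fun x => Real.exp (s * F x)) (dm η) :=
    Integrable.of_bound (Real.continuous_exp.comp (continuous_const.mul hF.continuous)).aestronglyMeasurable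
      (Real.exp (s * B)) (Eventually.of_forall fun x => by
        rw [Real.norm_eq_abs, abs_of_pos (Real.exp_pos _)]
        exact hbd _ hs.le x)
  have hen : ∫ x, ‖gradient (fun x => Real.exp (s / 2 * F x)) x‖ ^ 2 ∂(dm η) ≤
      s ^ 2 / 4 * ∫ x, Real.exp (s * F x) ∂(dm η) := by
    rw [← integral_const_mul, hgr]
    refine integral_mono ?_ (iexp.const_mul _) hnorm
    rw [hgr] at hg2
    exact (memLp_two_iff_integrable_sq_norm hg2.1).1 hg2
  unfold ent at hent
  simp only [e1, Real.log_exp] at hent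
  have e2 : ∫ x, Real.exp (s * F x) * (s * F x) ∂(dm η) = s * ∫ x, F x * Real.exp (s * F x) ∂(dm η) := by
    rw [← integral_const_mul]
    refine integral_congr_ae (Eventually.of_forall fun x => ?_)
    simp only
    ring
  rw [e2] at hent
  refine hent.trans ?_
  calc 2 * R * ∫ x, ‖gradient (fun x => Real.exp (s / 2 * F x)) x‖ ^ 2 ∂(dm η)
      ≤ 2 * R * (s ^ 2 / 4 * ∫ x, Real.exp (s * F x) ∂(dm η)) :=
        mul_le_mul_of_nonneg_left hen (by positivity)
    _ = _ := by ring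

end Claimed.Agent.R259
end

/- ===== packed: Claimed.Agent.R259.S4CurveHerbstB ===== -/
section
/-
Row 259 (S0499), section 4, package BP-S4-curve, file HERBST-B (LEAF L-s4c-herbst-b): Laplace transform of `X = √(1+|x|²)` under a law with LSI.
Statement: helper147.    Input: `s4c_herbst_bdd` (black box).
`X = √(1+|x|²)` is smooth with `|∇X| < 1`; `F_n = X / (1 + X/n)` is `C¹`, `0 ≤ F_n ≤ min(n, X)`, `|∇F_n| ≤ 1`, `F_n → X`;
`∫ e^{tF_n} ≤ exp(t ∫ F_n + R t²/2) ≤ exp(t ∫ X + R t²/2)` (`X` integrable because `X ≤ 1 + |x|²`); Fatou (`lintegral_liminf_le`).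
-/
set_option autoImplicit false
set_option linter.unusedSectionVars false

open MeasureTheory ProbabilityTheory Filter Topology
open scoped ENNReal ContDiff

namespace Claimed.Agent.R259

variable {E : Type} [NormedAddCommGroup E] [InnerProductSpace ℝ E] [FiniteDimensional ℝ E]
  [MeasurableSpace E] [BorelSpace E]

theorem s4cb_one_le (x : E) : 1 ≤ Real.sqrt (1 + ‖x‖ ^ 2) := by
  rw [Real.one_le_sqrt]
  have := sq_nonneg ‖x‖
  linarith

theorem s4cb_norm_le (x : E) : ‖x‖ ≤ Real.sqrt (1 + ‖x‖ ^ 2) := by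
  refine Real.le_sqrt_of_sq_le ?_
  linarith

theorem s4cb_X_contDiff : ContDiff ℝ 1 (fun x : E => Real.sqrt (1 + ‖x‖ ^ 2)) :=
  (contDiff_const.add (contDiff_norm_sq ℝ)).sqrt fun x => by
    have := sq_nonneg ‖x‖
    positivity

theorem s4cb_X_hasFDerivAt (x : E) : HasFDerivAt (fun x : E => Real.sqrt (1 + ‖x‖ ^ 2))
    (InnerProductSpace.toDual ℝ E ((Real.sqrt (1 + ‖x‖ ^ 2))⁻¹ • x)) x := by
  have h1 : HasFDerivAt (fun z : E => 1 + ‖z‖ ^ 2) (2 • innerSL ℝ x) x :=
    (hasStrictFDerivAt_norm_sq x).hasFDerivAt.const_add 1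
  have h0 : (1 + ‖x‖ ^ 2) ≠ 0 := by
    have := sq_nonneg ‖x‖
    positivity
  have h2 := h1.sqrt h0
  have e : InnerProductSpace.toDual ℝ E ((Real.sqrt (1 + ‖x‖ ^ 2))⁻¹ • x) =
      (1 / (2 * Real.sqrt (1 + ‖x‖ ^ 2))) • (2 • innerSL ℝ x) := by
    have e2 : (2 : ℕ) • innerSL ℝ x = (2 : ℝ) • innerSL ℝ x := by rw [two_nsmul, two_smul]
    rw [e2, smul_smul, map_smul]
    congr 1
    field_simp
  rw [e]
  exact h2

/-- the bounded approximations `c X / (c + X) = c - c² / (c + X)` -/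
theorem s4cb_F_contDiff (c : ℝ) (hc : 0 < c) :
    ContDiff ℝ 1 (fun x : E => c - c ^ 2 * (c + Real.sqrt (1 + ‖x‖ ^ 2))⁻¹) :=
  contDiff_const.sub (contDiff_const.mul ((contDiff_const.add s4cb_X_contDiff).inv fun x => by
    have := s4cb_one_le x
    positivity))

theorem s4cb_F_gradient (c : ℝ) (hc : 0 < c) (x : E) :
    gradient (fun x : E => c - c ^ 2 * (c + Real.sqrt (1 + ‖x‖ ^ 2))⁻¹) x =
      (c ^ 2 * ((c + Real.sqrt (1 + ‖x‖ ^ 2)) ^ 2)⁻¹ * (Real.sqrt (1 + ‖x‖ ^ 2))⁻¹) • x := by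
  have hX := s4cb_one_le x
  have h0 : c + Real.sqrt (1 + ‖x‖ ^ 2) ≠ 0 := by positivity
  have h1 := (s4cb_X_hasFDerivAt x).const_add c
  have h2 := (hasDerivAt_inv h0).comp_hasFDerivAt x h1
  have h3 := (h2.const_mul (c ^ 2)).const_sub c
  rw [← map_smul, ← map_smul, ← map_neg] at h3
  have h4 : HasGradientAt (fun x : E => c - c ^ 2 * (c + Real.sqrt (1 + ‖x‖ ^ 2))⁻¹) _ x :=
    hasGradientAt_iff_hasFDerivAt.2 h3
  rw [h4.gradient, smul_smul, smul_smul, ← neg_smul]
  congr 1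
  ring

theorem s4cb_F_gradient_le (c : ℝ) (hc : 0 < c) (x : E) :
    ‖gradient (fun x : E => c - c ^ 2 * (c + Real.sqrt (1 + ‖x‖ ^ 2))⁻¹) x‖ ≤ 1 := by
  have hX := s4cb_one_le x
  have hn := s4cb_norm_le x
  rw [s4cb_F_gradient c hc, norm_smul, Real.norm_eq_abs, abs_of_nonneg (by positivity)]
  set X := Real.sqrt (1 + ‖x‖ ^ 2)
  have h1 : c ^ 2 * ((c + X) ^ 2)⁻¹ ≤ 1 := by
    rw [← div_eq_mul_inv, div_le_one (by positivity)]
    nlinarith
  have h2 : X⁻¹ * ‖x‖ ≤ 1 := by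
    rw [inv_mul_le_iff₀ (by positivity)]
    linarith
  calc c ^ 2 * ((c + X) ^ 2)⁻¹ * X⁻¹ * ‖x‖ = (c ^ 2 * ((c + X) ^ 2)⁻¹) * (X⁻¹ * ‖x‖) := by ring
    _ ≤ 1 * 1 := mul_le_mul h1 h2 (by positivity) zero_le_one
    _ = 1 := one_mul 1

theorem s4cb_F_eq (c : ℝ) (hc : 0 < c) (X : ℝ) (hX : 1 ≤ X) : c - c ^ 2 * (c + X)⁻¹ = X / (1 + X / c) := by
  have h0 : c + X ≠ 0 := by positivity
  field_simp
  ring

theorem s4cb_F_nonneg (c : ℝ) (hc : 0 < c) (X : ℝ) (hX : 1 ≤ X) : 0 ≤ c - c ^ 2 * (c + X)⁻¹ := by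
  rw [s4cb_F_eq c hc X hX]
  positivity

theorem s4cb_F_le_c (c : ℝ) (hc : 0 < c) (X : ℝ) (hX : 1 ≤ X) : c - c ^ 2 * (c + X)⁻¹ ≤ c := by
  have : 0 ≤ c ^ 2 * (c + X)⁻¹ := by positivity
  linarith

theorem s4cb_F_le_X (c : ℝ) (hc : 0 < c) (X : ℝ) (hX : 1 ≤ X) : c - c ^ 2 * (c + X)⁻¹ ≤ X := by
  rw [s4cb_F_eq c hc X hX]
  refine div_le_self (by positivity) ?_
  have : 0 ≤ X / c := by positivity
  linarith

theorem s4cb_F_tendsto (X : ℝ) (hX : 1 ≤ X) :
    Tendsto (fun n : ℕ => ((n : ℝ) + 1) - ((n : ℝ) + 1) ^ 2 * (((n : ℝ) + 1) + X)⁻¹) atTop (𝓝 X) := by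
  have e : ∀ n : ℕ, ((n : ℝ) + 1) - ((n : ℝ) + 1) ^ 2 * (((n : ℝ) + 1) + X)⁻¹ = X / (1 + X / ((n : ℝ) + 1)) :=
    fun n => s4cb_F_eq _ (by positivity) X hX
  simp only [e]
  have h1 : Tendsto (fun n : ℕ => X / ((n : ℝ) + 1)) atTop (𝓝 0) :=
    tendsto_const_div_atTop_nhds_zero_nat X |>.comp (tendsto_add_atTop_nat 1) |>.congr fun n => by
      simp
  have h2 : Tendsto (fun n : ℕ => X / (1 + X / ((n : ℝ) + 1))) atTop (𝓝 (X / (1 + 0))) :=
    tendsto_const_nhds.div (tendsto_const_nhds.add h1) (by norm_num)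
  simpa using h2

theorem s4c_herbst_norm {η : E → ℝ} (hη : SPD η) {R : ℝ} (hR : 0 ≤ R) (hL : LSI (dm η) R)
    (hm : Integrable (fun x => ‖x‖ ^ 2) (dm η)) {t : ℝ} (ht : 0 ≤ t) :
    ∫⁻ x, ENNReal.ofReal (Real.exp (t * Real.sqrt (1 + ‖x‖ ^ 2))) ∂(dm η) ≤
      ENNReal.ofReal (Real.exp (t * ∫ x, Real.sqrt (1 + ‖x‖ ^ 2) ∂(dm η) + R * t ^ 2 / 2)) := by
  have hprob : IsProbabilityMeasure (dm η) := s4ch_prob hη
  have hXc : Continuous fun x : E => Real.sqrt (1 + ‖x‖ ^ 2) := s4cb_X_contDiff.continuous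
  have hXi : Integrable (fun x : E => Real.sqrt (1 + ‖x‖ ^ 2)) (dm η) := by
    refine ((integrable_const (1 : ℝ)).add hm).mono' hXc.aestronglyMeasurable (Eventually.of_forall fun x => ?_)
    rw [Real.norm_eq_abs, abs_of_nonneg (Real.sqrt_nonneg _)]
    have h1 : (1 : ℝ) ≤ 1 + ‖x‖ ^ 2 := by
      have := sq_nonneg ‖x‖
      linarith
    have h2 : Real.sqrt (1 + ‖x‖ ^ 2) ≤ 1 + ‖x‖ ^ 2 := by
      rw [Real.sqrt_le_left (by positivity)]
      nlinarith
    exact h2
  set Fn : ℕ → E → ℝ := fun n x => ((n : ℝ) + 1) - ((n : ℝ) + 1) ^ 2 * (((n : ℝ) + 1) + Real.sqrt (1 + ‖x‖ ^ 2))⁻¹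
    with hFn
  have hcn : ∀ n : ℕ, (0 : ℝ) < (n : ℝ) + 1 := fun n => by positivity
  have hFc : ∀ n, ContDiff ℝ 1 (Fn n) := fun n => s4cb_F_contDiff _ (hcn n)
  have hstep : ∀ n, ∫⁻ x, ENNReal.ofReal (Real.exp (t * Fn n x)) ∂(dm η) ≤
      ENNReal.ofReal (Real.exp (t * ∫ x, Real.sqrt (1 + ‖x‖ ^ 2) ∂(dm η) + R * t ^ 2 / 2)) := by
    intro n
    have hB : ∀ x, |Fn n x| ≤ (n : ℝ) + 1 := fun x => by
      rw [abs_of_nonneg (s4cb_F_nonneg _ (hcn n) _ (s4cb_one_le x))]
      exact s4cb_F_le_c _ (hcn n) _ (s4cb_one_le x)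
    have h1 := s4c_herbst_bdd hη hR hL (hFc n) hB (s4cb_F_gradient_le _ (hcn n)) ht
    have hi : Integrable (fun x => Real.exp (t * Fn n x)) (dm η) := by
      refine Integrable.of_bound
        (Real.continuous_exp.comp (continuous_const.mul (hFc n).continuous)).aestronglyMeasurable
        (Real.exp (t * ((n : ℝ) + 1))) (Eventually.of_forall fun x => ?_)
      rw [Real.norm_eq_abs, abs_of_pos (Real.exp_pos _)]
      exact Real.exp_le_exp.2 (mul_le_mul_of_nonneg_left ((le_abs_self _).trans (hB x)) ht)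
    rw [← ofReal_integral_eq_lintegral_ofReal hi (Eventually.of_forall fun x => (Real.exp_pos _).le)]
    refine ENNReal.ofReal_le_ofReal (h1.trans (Real.exp_le_exp.2 ?_))
    have hFi : Integrable (Fn n) (dm η) :=
      Integrable.of_bound (hFc n).continuous.aestronglyMeasurable ((n : ℝ) + 1) (Eventually.of_forall hB)
    have h2 : ∫ x, Fn n x ∂(dm η) ≤ ∫ x, Real.sqrt (1 + ‖x‖ ^ 2) ∂(dm η) :=
      integral_mono hFi hXi fun x => s4cb_F_le_X _ (hcn n) _ (s4cb_one_le x)
    have := mul_le_mul_of_nonneg_left h2 ht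
    linarith
  have hlim : ∀ x, liminf (fun n => ENNReal.ofReal (Real.exp (t * Fn n x))) atTop =
      ENNReal.ofReal (Real.exp (t * Real.sqrt (1 + ‖x‖ ^ 2))) := fun x => by
    refine Tendsto.liminf_eq ?_
    refine (ENNReal.continuous_ofReal.tendsto _).comp ((Real.continuous_exp.tendsto _).comp ?_)
    exact (s4cb_F_tendsto _ (s4cb_one_le x)).const_mul t
  calc ∫⁻ x, ENNReal.ofReal (Real.exp (t * Real.sqrt (1 + ‖x‖ ^ 2))) ∂(dm η)
      = ∫⁻ x, liminf (fun n => ENNReal.ofReal (Real.exp (t * Fn n x))) atTop ∂(dm η) := by simp only [hlim]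
    _ ≤ liminf (fun n => ∫⁻ x, ENNReal.ofReal (Real.exp (t * Fn n x)) ∂(dm η)) atTop :=
        lintegral_liminf_le fun n =>
          (Real.continuous_exp.comp (continuous_const.mul (hFc n).continuous)).measurable.ennreal_ofReal
    _ ≤ _ := liminf_le_of_frequently_le' (Eventually.of_forall hstep).frequently

end Claimed.Agent.R259
end

/- ===== packed: Claimed.Agent.R259.S4CurveHerbst ===== -/
section
/-
Row 259 (S0499), section 4, package BP-S4-curve, file HERBST: a logarithmic Sobolev inequality implies an exponential square moment.  GLUE PROVED from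
S4CurveHerbstA (`s4c_herbst_bdd`), S4CurveHerbstB (`s4c_herbst_norm`), S4CurveHerbstC (`s4c_expsq_of_mgf`).      Owner: helper147.
-/
set_option autoImplicit false

open MeasureTheory ProbabilityTheory
open scoped ENNReal ContDiff

namespace Claimed.Agent.R259

variable {E : Type} [NormedAddCommGroup E] [InnerProductSpace ℝ E] [FiniteDimensional ℝ E]
  [MeasurableSpace E] [BorelSpace E]

/-- **exponential square moment** -/
theorem s4c_exp_sq {η : E → ℝ} (hη : SPD η) {R : ℝ} (hR : 0 < R) (hL : LSI (dm η) R)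
    (hm : Integrable (fun x => ‖x‖ ^ 2) (dm η)) :
    ∃ c > 0, Integrable (fun y => Real.exp (c * ‖y‖ ^ 2)) (dm η) := by
  have hprob : IsProbabilityMeasure (dm η) := by
    constructor
    have hint : Integrable η := by
      by_contra hc
      have := integral_undef hc
      rw [hη.2.2] at this
      exact one_ne_zero this
    rw [dm, withDensity_apply _ MeasurableSet.univ, Measure.restrict_univ,
      ← ofReal_integral_eq_lintegral_ofReal hint (Filter.Eventually.of_forall fun x => (hη.2.1 x).le), hη.2.2]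
    simp
  have hXc : Continuous fun x : E => Real.sqrt (1 + ‖x‖ ^ 2) := by fun_prop
  have key := s4c_expsq_of_mgf (P := dm η) hXc.measurable (fun _ => Real.sqrt_nonneg _) hR
    (M := ∫ x, Real.sqrt (1 + ‖x‖ ^ 2) ∂(dm η)) (integral_nonneg fun _ => Real.sqrt_nonneg _)
    (fun t ht => s4c_herbst_norm hη hR.le hL hm ht)
  refine ⟨1 / (4 * R), by positivity, ?_⟩
  have hc : Continuous fun y : E => Real.exp (1 / (4 * R) * ‖y‖ ^ 2) := by fun_prop
  refine ⟨hc.aestronglyMeasurable, ?_⟩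
  rw [hasFiniteIntegral_iff_norm]
  refine lt_of_le_of_lt (lintegral_mono fun y => ENNReal.ofReal_le_ofReal ?_) key
  rw [Real.norm_eq_abs, abs_of_pos (Real.exp_pos _), Real.sq_sqrt (by positivity)]
  apply Real.exp_le_exp.2
  have h4 : 0 < 4 * R := by positivity
  rw [div_mul_eq_mul_div, one_mul]
  gcongr
  linarith

end Claimed.Agent.R259
end

/- ===== packed: Claimed.Agent.R259.S7OuA ===== -/
section
/-
Row 259 (S0499), section 7, package L-S7-OU: the one-step inequality.  Owner: helper79.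
-/
set_option autoImplicit false

open MeasureTheory ProbabilityTheory Set Filter Topology
open Claimed.Agent.R260 (mehler BM PG)

namespace Claimed.Agent.R259

variable {n : ℕ}

/-- `|x log x| ≤ 1 + M²` on `[0,M]` -/
theorem s7o_xlogx_bd {x M : ℝ} (h0 : 0 ≤ x) (hM : x ≤ M) : |x * Real.log x| ≤ 1 + M ^ 2 := by
  rcases le_or_gt x 1 with h1 | h1
  · rcases h0.eq_or_lt with rfl | hpos
    · simp; positivity
    · have := Real.abs_log_mul_self_lt x hpos h1
      rw [mul_comm]; nlinarith [sq_nonneg M]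
  · have hl : 0 ≤ Real.log x := Real.log_nonneg h1.le
    have hl2 : Real.log x ≤ x := (Real.log_le_sub_one_of_pos (by linarith)).trans (by linarith)
    rw [abs_of_nonneg (by positivity)]
    nlinarith

theorem s7o_xlogx_meas {α : Type} [MeasurableSpace α] {f : α → ℝ} (hf : Measurable f) :
    Measurable fun x => f x * Real.log (f x) :=
  hf.mul (Real.measurable_log.comp hf)

theorem s7o_xlogx_int {α : Type} [MeasurableSpace α] (μ : Measure α) [IsFiniteMeasure μ]
    {f : α → ℝ} (hf : Measurable f) (h0 : ∀ x, 0 ≤ f x) {M : ℝ} (hM : ∀ x, f x ≤ M) :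
    Integrable (fun x => f x * Real.log (f x)) μ :=
  Integrable.of_bound (s7o_xlogx_meas hf).aestronglyMeasurable (1 + M ^ 2)
    (Eventually.of_forall fun x => by
      rw [Real.norm_eq_abs]; exact s7o_xlogx_bd (h0 x) (hM x))

theorem s7o_bdd_int {α : Type} [MeasurableSpace α] (μ : Measure α) [IsFiniteMeasure μ]
    {f : α → ℝ} (hf : Measurable f) (h0 : ∀ x, 0 ≤ f x) {M : ℝ} (hM : ∀ x, f x ≤ M) :
    Integrable f μ :=
  Integrable.of_bound hf.aestronglyMeasurable M
    (Eventually.of_forall fun x => by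
      rw [Real.norm_eq_abs, abs_of_nonneg (h0 x)]; exact hM x)

theorem s7o_BM {f : EE n → ℝ} (hf : Measurable f) (h0 : ∀ x, 0 ≤ f x) {M : ℝ}
    (hM : ∀ x, f x ≤ M) : BM f :=
  ⟨hf, M, fun x => by rw [abs_of_nonneg (h0 x)]; exact hM x⟩

theorem s7o_mehler_nonneg {f : EE n → ℝ} (h0 : ∀ x, 0 ≤ f x) (c : ℝ) (y : EE n) :
    0 ≤ mehler c f y := integral_nonneg fun _ => h0 _

theorem s7o_mehler_le {f : EE n → ℝ} (h0 : ∀ x, 0 ≤ f x) {M : ℝ}
    (hM : ∀ x, f x ≤ M) (c : ℝ) (y : EE n) : mehler c f y ≤ M :=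
  (le_abs_self _).trans (R260.gk_mehler_abs_le c
    (fun x => by rw [abs_of_nonneg (h0 x)]; exact hM x) y)

/-- conditional entropy decomposition -/
theorem s7o_cond_ent {f : EE n → ℝ} (hf : Measurable f) (h0 : ∀ x, 0 ≤ f x) {M : ℝ}
    (hM : ∀ x, f x ≤ M) {a : ℝ} (ha : a ∈ Icc (0 : ℝ) 1) :
    Integrable (fun y => ent (stdGaussian (EE n))
        (fun g => f (a • y + Real.sqrt (1 - a ^ 2) • g))) (stdGaussian (EE n)) ∧
      ∫ y, ent (stdGaussian (EE n)) (fun g => f (a • y + Real.sqrt (1 - a ^ 2) • g))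
          ∂(stdGaussian (EE n))
        = ∫ x, f x * Real.log (f x) ∂(stdGaussian (EE n))
          - ∫ y, mehler a f y * Real.log (mehler a f y) ∂(stdGaussian (EE n)) := by
  have key : ∀ y, ent (stdGaussian (EE n)) (fun g => f (a • y + Real.sqrt (1 - a ^ 2) • g))
      = mehler a (fun x => f x * Real.log (f x)) y - mehler a f y * Real.log (mehler a f y) :=
    fun y => rfl
  have hi1 : Integrable (fun x => f x * Real.log (f x)) (stdGaussian (EE n)) :=
    s7o_xlogx_int _ hf h0 hM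
  have hi2 : Integrable (mehler a (fun x => f x * Real.log (f x))) (stdGaussian (EE n)) :=
    R260.gk_mehler_integrable_of_integrable ha hi1
  have hi3 : Integrable (fun y => mehler a f y * Real.log (mehler a f y)) (stdGaussian (EE n)) :=
    s7o_xlogx_int _ (R260.gk_mehler_measurable a hf) (s7o_mehler_nonneg h0 a)
      (s7o_mehler_le h0 hM a)
  simp only [key]
  refine ⟨hi2.sub hi3, ?_⟩
  rw [integral_sub hi2 hi3, R260.gk_integral_mehler ha (s7o_xlogx_meas hf) hi1]

/-- Gibbs duality with a linear test -/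
theorem s7o_ent_lower {f : EE n → ℝ} (hf : Measurable f) (h0 : ∀ x, 0 ≤ f x) {M : ℝ}
    (hM : ∀ x, f x ≤ M) (a : ℝ) (y θ : EE n) :
    ∫ g, f (a • y + Real.sqrt (1 - a ^ 2) • g) * inner ℝ θ (Real.sqrt (1 - a ^ 2) • g)
          ∂(stdGaussian (EE n))
        - Real.sqrt (1 - a ^ 2) ^ 2 * ‖θ‖ ^ 2 / 2 * mehler a f y
      ≤ ent (stdGaussian (EE n)) (fun g => f (a • y + Real.sqrt (1 - a ^ 2) • g)) := by
  set b := Real.sqrt (1 - a ^ 2) with hb
  have hm : Measurable fun g : EE n => f (a • y + b • g) := hf.comp (by fun_prop)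
  have hlin : Integrable (fun g : EE n => inner ℝ (b • θ) g) (stdGaussian (EE n)) := by
    have := (IsGaussian.memLp_id (stdGaussian (EE n)) 1 (by simp)).integrable le_rfl
    exact (this.inner_const (b • θ)).congr (Eventually.of_forall fun g => by
      simp [real_inner_comm])
  have h := lsic_ent_dual (m := stdGaussian (EE n)) (g := fun g => f (a • y + b • g))
    (φ := fun g => inner ℝ (b • θ) g) (fun g => h0 _)
    (s7o_bdd_int _ hm (fun g => h0 _) (fun g => hM _))
    (s7o_xlogx_int _ hm (fun g => h0 _) (fun g => hM _))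
    (immker_exp_integrable (b • θ))
    (hlin.bdd_mul hm.aestronglyMeasurable (c := M) (Eventually.of_forall fun g => by
      rw [Real.norm_eq_abs, abs_of_nonneg (h0 _)]; exact hM _))
  rw [imm_mgf, Real.log_exp, norm_smul, mul_pow, Real.norm_eq_abs, sq_abs] at h
  have e1 : ∀ g : EE n, inner ℝ θ (b • g) = inner ℝ (b • θ) g := fun g => by
    rw [real_inner_smul_left, real_inner_smul_right]
  simp only [e1]
  have e2 : (∫ g, f (a • y + b • g) ∂(stdGaussian (EE n))) = mehler a f y := rfl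
  rw [e2] at h
  linarith

end Claimed.Agent.R259
end

/- ===== packed: Claimed.Agent.R259.S7OuB ===== -/
section
/-
Row 259 (S0499), section 7, package L-S7-OU: the one-step inequality `s7o_step`.  Owner: helper79.
-/
set_option autoImplicit false
set_option linter.unusedVariables false

open MeasureTheory ProbabilityTheory Set Filter Topology
open Claimed.Agent.R260 (mehler BM PG)

namespace Claimed.Agent.R259

variable {n : ℕ}

/-- the first moment of a Mehler average through the derivative of the semigroup -/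
theorem s7o_moment {l : EE n → ℝ} (hl : BM l) {a α : ℝ} (ha0 : 0 < a) (ha1 : a < 1)
    (hα : α ∈ Icc (0 : ℝ) 1) (y θ : EE n) :
    a / Real.sqrt (1 - a ^ 2) * ∫ z, mehler α l (a • y + Real.sqrt (1 - a ^ 2) • z) * inner ℝ z θ
        ∂(stdGaussian (EE n))
      = (a * α) / Real.sqrt (1 - (a * α) ^ 2)
        * ∫ z, l ((a * α) • y + Real.sqrt (1 - (a * α) ^ 2) • z) * inner ℝ z θ
          ∂(stdGaussian (EE n)) := by
  have haI : a ∈ Ico (0 : ℝ) 1 := ⟨ha0.le, ha1⟩
  have haα : a * α ∈ Ico (0 : ℝ) 1 :=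
    ⟨mul_nonneg ha0.le hα.1, by nlinarith [hα.1, hα.2]⟩
  obtain ⟨i1, d1⟩ := R260.gks_hasFDerivAt haI (R260.gks_mehler_BM α hl).toPG y
  obtain ⟨i2, d2⟩ := R260.gks_hasFDerivAt haα hl.toPG y
  have hfun : mehler a (mehler α l) = mehler (a * α) l := by
    funext x
    exact R260.gk_mehler_mehler ⟨ha0.le, ha1.le⟩ hα hl.toPG x
  rw [hfun] at d1
  have hu := congrArg (fun L : EE n →L[ℝ] ℝ => L θ) (d1.unique d2)
  beta_reduce at hu
  rw [ContinuousLinearMap.integral_apply i1, ContinuousLinearMap.integral_apply i2] at hu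
  have e1 : ∀ (c w : ℝ) (z : EE n),
      (w • c • (innerSL ℝ) z : EE n →L[ℝ] ℝ) θ = c * (w * inner ℝ z θ) := by
    intro c w z
    simp only [_root_.smul_apply, innerSL_apply_apply, smul_eq_mul]
    ring
  simp only [e1] at hu
  rw [integral_const_mul, integral_const_mul] at hu
  exact hu

theorem s7o_int_lin {w : EE n → ℝ} (hw : Measurable w) (h0 : ∀ x, 0 ≤ w x) {M : ℝ}
    (hM : ∀ x, w x ≤ M) (v : EE n) :
    Integrable (fun z => w z * inner ℝ z v) (stdGaussian (EE n)) := by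
  have h1 := (IsGaussian.memLp_id (stdGaussian (EE n)) 1 (by simp)).integrable le_rfl
  have h2 : Integrable (fun z : EE n => inner ℝ z v) (stdGaussian (EE n)) :=
    (h1.inner_const v).congr (Eventually.of_forall fun g => by simp)
  exact h2.bdd_mul hw.aestronglyMeasurable (c := M) (Eventually.of_forall fun g => by
      rw [Real.norm_eq_abs, abs_of_nonneg (h0 _)]; exact hM _)

/-- the one-step inequality, pointwise in the final point `y` -/
theorem s7o_point {l : EE n → ℝ} (hl : Measurable l) (h0 : ∀ x, 0 ≤ l x) {M : ℝ}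
    (hM : ∀ x, l x ≤ M) {a α : ℝ} (ha0 : 0 < a) (ha1 : a < 1) (hα : α ∈ Icc (0 : ℝ) 1)
    (y v : EE n) :
    (α ^ 2 - (a * α) ^ 2) / (2 * (1 - (a * α) ^ 2) ^ 2)
        * ∫ z, l ((a * α) • y + Real.sqrt (1 - (a * α) ^ 2) • z)
            * (2 * inner ℝ (Real.sqrt (1 - (a * α) ^ 2) • z) v - ‖v‖ ^ 2) ∂(stdGaussian (EE n))
      ≤ ent (stdGaussian (EE n))
          (fun g => mehler α l (a • y + Real.sqrt (1 - a ^ 2) • g)) := by
  have hBM : BM l := s7o_BM hl h0 hM
  set b := Real.sqrt (1 - a ^ 2) with hb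
  set β := Real.sqrt (1 - (a * α) ^ 2) with hβ
  have h1a : 0 < 1 - a ^ 2 := by nlinarith
  have h1α : 0 < 1 - (a * α) ^ 2 := by
    have : a * α < 1 := by nlinarith [hα.1, hα.2]
    have : 0 ≤ a * α := mul_nonneg ha0.le hα.1
    nlinarith
  have hb0 : 0 < b := Real.sqrt_pos.mpr h1a
  have hβ0 : 0 < β := Real.sqrt_pos.mpr h1α
  have hb2 : b ^ 2 = 1 - a ^ 2 := Real.sq_sqrt h1a.le
  have hβ2 : β ^ 2 = 1 - (a * α) ^ 2 := Real.sq_sqrt h1α.le
  set f := mehler α l with hf
  have hfm : Measurable f := R260.gk_mehler_measurable α hl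
  have hf0 : ∀ x, 0 ≤ f x := s7o_mehler_nonneg h0 α
  have hfM : ∀ x, f x ≤ M := s7o_mehler_le h0 hM α
  have hlow := s7o_ent_lower hfm hf0 hfM a y ((α / β ^ 2) • v)
  rw [← hb] at hlow
  refine le_trans (le_of_eq ?_) hlow
  set I1 := ∫ z, f (a • y + b • z) * inner ℝ z v ∂(stdGaussian (EE n)) with hI1
  set I2 := ∫ z, l ((a * α) • y + β • z) * inner ℝ z v ∂(stdGaussian (EE n)) with hI2
  have hmom : a / b * I1 = (a * α) / β * I2 := s7o_moment hBM ha0 ha1 hα y v
  have hI1' : I1 = b * α / β * I2 := by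
    have : I1 = b / a * (a / b * I1) := by field_simp
    rw [this, hmom]; field_simp
  have hsemi : mehler a f y = mehler (a * α) l y :=
    R260.gk_mehler_mehler ⟨ha0.le, ha1.le⟩ hα hBM.toPG y
  have e1 : ∫ g, f (a • y + b • g) * inner ℝ ((α / β ^ 2) • v) (b • g) ∂(stdGaussian (EE n))
      = b * (α / β ^ 2) * I1 := by
    rw [hI1, ← integral_const_mul]
    refine integral_congr_ae (Eventually.of_forall fun g => ?_)
    beta_reduce
    rw [real_inner_smul_left, real_inner_smul_right, real_inner_comm]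
    ring
  have hlm : Measurable fun z : EE n => l ((a * α) • y + β • z) := hl.comp (by fun_prop)
  have e2 : ∫ z, l ((a * α) • y + β • z) * (2 * inner ℝ (β • z) v - ‖v‖ ^ 2)
        ∂(stdGaussian (EE n)) = 2 * β * I2 - ‖v‖ ^ 2 * mehler (a * α) l y := by
    have i1 := (s7o_int_lin hlm (fun _ => h0 _) (fun _ => hM _) v).const_mul (2 * β)
    have i2 := (s7o_bdd_int (stdGaussian (EE n)) hlm (fun _ => h0 _) (fun _ => hM _)).const_mul
      (‖v‖ ^ 2)
    have : (fun z : EE n => l ((a * α) • y + β • z) * (2 * inner ℝ (β • z) v - ‖v‖ ^ 2))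
        = fun z => 2 * β * (l ((a * α) • y + β • z) * inner ℝ z v)
          - ‖v‖ ^ 2 * l ((a * α) • y + β • z) := by
      funext z
      rw [real_inner_smul_left]; ring
    rw [this, integral_sub i1 i2, integral_const_mul, integral_const_mul]
    rfl
  have hn : ‖(α / β ^ 2) • v‖ ^ 2 = (α / β ^ 2) ^ 2 * ‖v‖ ^ 2 := by
    rw [norm_smul, mul_pow, Real.norm_eq_abs, sq_abs]
  rw [e1, e2, hsemi, hI1', hn, ← hβ2]
  have hα2 : α ^ 2 - (a * α) ^ 2 = b ^ 2 * α ^ 2 := by rw [hb2]; ring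
  rw [hα2]
  field_simp

/-- `Φ(c) = ∫ φ(P_c l) dγ` -/
noncomputable def s7oPhi (l : EE n → ℝ) (c : ℝ) : ℝ :=
  ∫ y, mehler c l y * Real.log (mehler c l y) ∂(stdGaussian (EE n))

/-- the integrand of `ouVal` as a function of the pair `(x, x_u)` -/
noncomputable def s7oH (l : EE n → ℝ) (V : EE n → EE n) (c : ℝ) (q : EE n × EE n) : ℝ :=
  l q.1 * (2 * inner ℝ (q.1 - c • q.2) (V q.2) - ‖V q.2‖ ^ 2)

/-- `ouVal` in the parametrisation `c = e^{-u}` -/
noncomputable def s7oVal (l : EE n → ℝ) (V : EE n → EE n) (c : ℝ) : ℝ :=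
  ∫ p : EE n × EE n, s7oH l V c (p.1, c • p.1 + Real.sqrt (1 - c ^ 2) • p.2)
    ∂((stdGaussian (EE n)).prod (stdGaussian (EE n)))

theorem s7oH_meas {l : EE n → ℝ} (hl : Measurable l) {V : EE n → EE n} (hV : Measurable V)
    (c : ℝ) : Measurable (s7oH l V c) := by
  unfold s7oH
  have h1 : Measurable fun q : EE n × EE n => V q.2 := hV.comp measurable_snd
  have h2 : Measurable fun q : EE n × EE n => q.1 - c • q.2 := by fun_prop
  exact (hl.comp measurable_fst).mul (((h2.inner h1).const_mul 2).sub (h1.norm.pow_const 2))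

theorem s7oH_bd {l : EE n → ℝ} (h0 : ∀ x, 0 ≤ l x) {M : ℝ} (hM : ∀ x, l x ≤ M)
    {V : EE n → EE n} {CV : ℝ} (hVb : ∀ y, ‖V y‖ ≤ CV) (c : ℝ) (q : EE n × EE n) :
    |s7oH l V c q| ≤ M * (2 * ‖q.1 - c • q.2‖ * CV + CV ^ 2) := by
  unfold s7oH
  have hCV : 0 ≤ CV := (norm_nonneg _).trans (hVb 0)
  rw [abs_mul, abs_of_nonneg (h0 _)]
  have h1 : |inner ℝ (q.1 - c • q.2) (V q.2)| ≤ ‖q.1 - c • q.2‖ * CV :=
    (abs_real_inner_le_norm _ _).trans (mul_le_mul_of_nonneg_left (hVb _) (norm_nonneg _))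
  have h2 : ‖V q.2‖ ^ 2 ≤ CV ^ 2 := pow_le_pow_left₀ (norm_nonneg _) (hVb _) 2
  have h3 : |2 * inner ℝ (q.1 - c • q.2) (V q.2) - ‖V q.2‖ ^ 2|
      ≤ 2 * ‖q.1 - c • q.2‖ * CV + CV ^ 2 := by
    rw [abs_le] at h1 ⊢
    constructor <;> nlinarith [sq_nonneg ‖V q.2‖]
  have hM0 : 0 ≤ M := (h0 0).trans (hM 0)
  calc l q.1 * _ ≤ M * _ := mul_le_mul_of_nonneg_right (hM _) (abs_nonneg _)
    _ ≤ _ := mul_le_mul_of_nonneg_left h3 hM0

theorem s7o_norm_int : Integrable (fun z : EE n => ‖z‖) (stdGaussian (EE n)) :=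
  ((IsGaussian.memLp_id (stdGaussian (EE n)) 1 (by simp)).integrable le_rfl).norm

theorem s7oVal_swap {l : EE n → ℝ} (hl : Measurable l) {V : EE n → EE n} (hV : Measurable V)
    {c : ℝ} (hc : c ∈ Icc (0 : ℝ) 1) :
    s7oVal l V c = ∫ p : EE n × EE n, s7oH l V c (c • p.1 + Real.sqrt (1 - c ^ 2) • p.2, p.1)
      ∂((stdGaussian (EE n)).prod (stdGaussian (EE n))) := by
  have hH : ∀ μ : Measure (EE n × EE n), AEStronglyMeasurable (s7oH l V c) μ :=
    fun μ => (s7oH_meas hl hV c).aestronglyMeasurable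
  have m1 : Measurable (fun p : EE n × EE n => (p.1, c • p.1 + Real.sqrt (1 - c ^ 2) • p.2)) := by
    fun_prop
  have m2 : Measurable (fun p : EE n × EE n => (c • p.1 + Real.sqrt (1 - c ^ 2) • p.2, p.1)) := by
    fun_prop
  unfold s7oVal
  rw [← integral_map m1.aemeasurable (hH _), ← integral_map m2.aemeasurable (hH _)]
  exact congrArg (fun μ => ∫ q, s7oH l V c q ∂μ) (R260.gk_map_pair_swap hc).symm

theorem s7oH_back_bd {l : EE n → ℝ} (h0 : ∀ x, 0 ≤ l x) {M : ℝ} (hM : ∀ x, l x ≤ M)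
    {V : EE n → EE n} {CV : ℝ} (hVb : ∀ y, ‖V y‖ ≤ CV) {c : ℝ} (hc : c ∈ Icc (0 : ℝ) 1)
    (p : EE n × EE n) :
    |s7oH l V c (c • p.1 + Real.sqrt (1 - c ^ 2) • p.2, p.1)| ≤ M * (2 * ‖p.2‖ * CV + CV ^ 2) := by
  refine (s7oH_bd h0 hM hVb c _).trans ?_
  have hCV : 0 ≤ CV := (norm_nonneg _).trans (hVb 0)
  have hM0 : 0 ≤ M := (h0 0).trans (hM 0)
  have h1 : ‖(c • p.1 + Real.sqrt (1 - c ^ 2) • p.2) - c • p.1‖ ≤ ‖p.2‖ := by
    rw [add_sub_cancel_left, norm_smul, Real.norm_eq_abs, abs_of_nonneg (Real.sqrt_nonneg _)]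
    have : Real.sqrt (1 - c ^ 2) ≤ 1 := by
      rw [Real.sqrt_le_left (by norm_num)]
      nlinarith [sq_nonneg c]
    nlinarith [norm_nonneg p.2]
  apply mul_le_mul_of_nonneg_left _ hM0
  simp only
  nlinarith

theorem s7oH_back_int {l : EE n → ℝ} (hl : Measurable l) (h0 : ∀ x, 0 ≤ l x) {M : ℝ}
    (hM : ∀ x, l x ≤ M) {V : EE n → EE n} (hV : Measurable V) {CV : ℝ} (hVb : ∀ y, ‖V y‖ ≤ CV)
    {c : ℝ} (hc : c ∈ Icc (0 : ℝ) 1) :
    Integrable (fun p : EE n × EE n => s7oH l V c (c • p.1 + Real.sqrt (1 - c ^ 2) • p.2, p.1))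
      ((stdGaussian (EE n)).prod (stdGaussian (EE n))) := by
  have m2 : Measurable (fun p : EE n × EE n => (c • p.1 + Real.sqrt (1 - c ^ 2) • p.2, p.1)) := by
    fun_prop
  have hb : Integrable (fun p : EE n × EE n => M * (2 * ‖p.2‖ * CV + CV ^ 2))
      ((stdGaussian (EE n)).prod (stdGaussian (EE n))) := by
    have h1 : Integrable (fun p : EE n × EE n => ‖p.2‖)
      ((stdGaussian (EE n)).prod (stdGaussian (EE n))) := s7o_norm_int.comp_snd _
    exact ((((h1.const_mul 2).mul_const CV).add (integrable_const _)).const_mul M)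
  exact hb.mono' ((s7oH_meas hl hV c).comp m2).aestronglyMeasurable
    (Eventually.of_forall fun p => by
      rw [Real.norm_eq_abs]; exact s7oH_back_bd h0 hM hVb hc p)

/-- uniform bound of the value -/
theorem s7oVal_bd {l : EE n → ℝ} (hl : Measurable l) (h0 : ∀ x, 0 ≤ l x) {M : ℝ}
    (hM : ∀ x, l x ≤ M) {V : EE n → EE n} (hV : Measurable V) {CV : ℝ} (hVb : ∀ y, ‖V y‖ ≤ CV)
    {c : ℝ} (hc : c ∈ Icc (0 : ℝ) 1) :
    |s7oVal l V c| ≤ M * (2 * (∫ z : EE n, ‖z‖ ∂(stdGaussian (EE n))) * CV + CV ^ 2) := by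
  rw [s7oVal_swap hl hV hc]
  have h1 : Integrable (fun p : EE n × EE n => ‖p.2‖)
      ((stdGaussian (EE n)).prod (stdGaussian (EE n))) := s7o_norm_int.comp_snd _
  have hb : Integrable (fun p : EE n × EE n => M * (2 * ‖p.2‖ * CV + CV ^ 2))
      ((stdGaussian (EE n)).prod (stdGaussian (EE n))) :=
    ((((h1.const_mul 2).mul_const CV).add (integrable_const _)).const_mul M)
  have e : ∫ p : EE n × EE n, M * (2 * ‖p.2‖ * CV + CV ^ 2)
      ∂((stdGaussian (EE n)).prod (stdGaussian (EE n)))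
      = M * (2 * (∫ z : EE n, ‖z‖ ∂(stdGaussian (EE n))) * CV + CV ^ 2) := by
    rw [integral_const_mul, integral_add ((h1.const_mul 2).mul_const CV) (integrable_const _),
      integral_mul_const, integral_const_mul, integral_const]
    have : ∫ p : EE n × EE n, ‖p.2‖ ∂((stdGaussian (EE n)).prod (stdGaussian (EE n)))
        = ∫ z : EE n, ‖z‖ ∂(stdGaussian (EE n)) := by
      rw [integral_prod _ h1]; simp
    rw [this]; simp
  rw [← e]
  refine (abs_integral_le_integral_abs).trans (integral_mono_of_nonneg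
    (Eventually.of_forall fun _ => abs_nonneg _) hb
    (Eventually.of_forall fun p => s7oH_back_bd h0 hM hVb hc p))

/-- THE ONE-STEP INEQUALITY -/
theorem s7o_step {l : EE n → ℝ} (hl : Measurable l) (h0 : ∀ x, 0 ≤ l x) {M : ℝ}
    (hM : ∀ x, l x ≤ M) {V : EE n → EE n} (hV : Measurable V) {CV : ℝ} (hVb : ∀ y, ‖V y‖ ≤ CV)
    {α α' : ℝ} (hα' : 0 < α') (hlt : α' < α) (hα1 : α ≤ 1) :
    (α ^ 2 - α' ^ 2) / (2 * (1 - α' ^ 2) ^ 2) * s7oVal l V α' ≤ s7oPhi l α - s7oPhi l α' := by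
  have hα0 : 0 < α := hα'.trans hlt
  set a := α' / α with ha
  have ha0 : 0 < a := div_pos hα' hα0
  have ha1 : a < 1 := (div_lt_one hα0).mpr hlt
  have haα : a * α = α' := by rw [ha]; field_simp
  have hαI : α ∈ Icc (0 : ℝ) 1 := ⟨hα0.le, hα1⟩
  have hα'I : α' ∈ Icc (0 : ℝ) 1 := ⟨hα'.le, (hlt.trans_le hα1).le⟩
  have hBM : BM l := s7o_BM hl h0 hM
  obtain ⟨hi, he⟩ := s7o_cond_ent (R260.gk_mehler_measurable α hl) (s7o_mehler_nonneg h0 α)
    (s7o_mehler_le h0 hM α) (a := a) ⟨ha0.le, ha1.le⟩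
  have hsemi : mehler a (mehler α l) = mehler α' l := by
    funext x
    rw [← haα]
    exact R260.gk_mehler_mehler ⟨ha0.le, ha1.le⟩ hαI hBM.toPG x
  rw [hsemi] at he
  have hpt := fun y => s7o_point hl h0 hM ha0 ha1 hαI y (V y)
  rw [haα] at hpt
  have hint := s7oH_back_int hl h0 hM hV hVb hα'I
  have hval : s7oVal l V α' = ∫ y, ∫ z, l (α' • y + Real.sqrt (1 - α' ^ 2) • z)
      * (2 * inner ℝ (Real.sqrt (1 - α' ^ 2) • z) (V y) - ‖V y‖ ^ 2) ∂(stdGaussian (EE n))
      ∂(stdGaussian (EE n)) := by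
    rw [s7oVal_swap hl hV hα'I, integral_prod _ hint]
    refine integral_congr_ae (Eventually.of_forall fun y => ?_)
    refine integral_congr_ae (Eventually.of_forall fun z => ?_)
    simp only [s7oH, add_sub_cancel_left]
  have hint2 : Integrable (fun y => ∫ z, l (α' • y + Real.sqrt (1 - α' ^ 2) • z)
      * (2 * inner ℝ (Real.sqrt (1 - α' ^ 2) • z) (V y) - ‖V y‖ ^ 2) ∂(stdGaussian (EE n)))
      (stdGaussian (EE n)) := by
    refine hint.integral_prod_left.congr (Eventually.of_forall fun y => ?_)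
    refine integral_congr_ae (Eventually.of_forall fun z => ?_)
    simp only [s7oH, add_sub_cancel_left]
  unfold s7oPhi
  rw [← he, hval, ← integral_const_mul]
  exact integral_mono (hint2.const_mul _) hi hpt

/-- generates the equation lemmas of the definitions above in this file (rule 6: unique names) -/
theorem s7oub_eqns_cite : True := by
  have := @s7oPhi.eq_1
  have := @s7oH.eq_1
  have := @s7oVal.eq_1
  trivial

end Claimed.Agent.R259
end

/- ===== packed: Claimed.Agent.R259.S7OuC ===== -/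
section
/-
Row 259 (S0499), section 7, package L-S7-OU: derivative inequality and integration.  Owner: helper79.
-/
set_option autoImplicit false

open MeasureTheory ProbabilityTheory Set Filter Topology
open Claimed.Agent.R260 (mehler BM PG)

namespace Claimed.Agent.R259

variable {n : ℕ}

theorem s7oVal_zero (l : EE n → ℝ) (c : ℝ) : s7oVal l (fun _ => 0) c = 0 := by
  simp [s7oVal, s7oH]

theorem s7oPhi_anti {l : EE n → ℝ} (hl : Measurable l) (h0 : ∀ x, 0 ≤ l x) {M : ℝ}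
    (hM : ∀ x, l x ≤ M) {α α' : ℝ} (hα' : 0 < α') (hle : α' ≤ α) (hα1 : α ≤ 1) :
    s7oPhi l α' ≤ s7oPhi l α := by
  rcases hle.eq_or_lt with rfl | hlt
  · exact le_rfl
  have h := s7o_step hl h0 hM (V := fun _ => 0) measurable_const (CV := 0) (by simp) hα' hlt hα1
  rw [s7oVal_zero, mul_zero] at h
  linarith

theorem s7oPhi_one (l : EE n → ℝ) :
    s7oPhi l 1 = ∫ x, l x * Real.log (l x) ∂(stdGaussian (EE n)) := by
  unfold s7oPhi
  rw [R260.gk_mehler_one]

theorem s7oPhi_ge {l : EE n → ℝ} (hl : Measurable l) (h0 : ∀ x, 0 ≤ l x) {M : ℝ}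
    (hM : ∀ x, l x ≤ M) {c : ℝ} (hc : c ∈ Icc (0 : ℝ) 1) :
    (∫ x, l x ∂(stdGaussian (EE n))) * Real.log (∫ x, l x ∂(stdGaussian (EE n))) ≤ s7oPhi l c := by
  have hm := R260.gk_mehler_measurable c hl
  have h := lsic_ent_nonneg' (m := stdGaussian (EE n)) (g := mehler c l) (s7o_mehler_nonneg h0 c)
    (s7o_bdd_int _ hm (s7o_mehler_nonneg h0 c) (s7o_mehler_le h0 hM c))
    (s7o_xlogx_int _ hm (s7o_mehler_nonneg h0 c) (s7o_mehler_le h0 hM c))
  unfold ent at h
  rw [R260.gk_integral_mehler hc hl (s7o_bdd_int _ hl h0 hM)] at h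
  unfold s7oPhi
  linarith

/-- a function with a one-sided minimum from the left has nonpositive derivative -/
theorem s7o_deriv_nonpos {G : ℝ → ℝ} {g u w : ℝ} (hw : w < u) (hG : HasDerivAt G g u)
    (hmin : ∀ s ∈ Ioo w u, G u ≤ G s) : g ≤ 0 := by
  have h1 : Tendsto (slope G u) (𝓝[<] u) (𝓝 g) :=
    (hasDerivAt_iff_tendsto_slope.mp hG).mono_left
      (nhdsWithin_mono _ fun x (hx : x < u) => ne_of_lt hx)
  refine le_of_tendsto h1 ?_
  filter_upwards [Ioo_mem_nhdsLT hw] with s hs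
  rw [slope_def_field]
  exact div_nonpos_of_nonneg_of_nonpos (by linarith [hmin s hs]) (by linarith [hs.2])

/-- the derivative inequality -/
theorem s7o_deriv_le {l : EE n → ℝ} (hl : Measurable l) (h0 : ∀ x, 0 ≤ l x) {M : ℝ}
    (hM : ∀ x, l x ≤ M) {V : EE n → EE n} (hV : Measurable V) {CV : ℝ} (hVb : ∀ y, ‖V y‖ ≤ CV)
    {u d : ℝ} (hu : 0 < u) (hd : HasDerivAt (fun s => s7oPhi l (Real.exp (-s))) d u) :
    d ≤ -(kap u * s7oVal l V (Real.exp (-u))) := by
  set v := s7oVal l V (Real.exp (-u)) with hv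
  set D := 2 * (1 - Real.exp (-u) ^ 2) ^ 2 with hD
  have he1 : Real.exp (-u) < 1 := by rw [Real.exp_lt_one_iff]; linarith
  have he0 : 0 < Real.exp (-u) := Real.exp_pos _
  have h1 : 0 < 1 - Real.exp (-u) ^ 2 := by nlinarith
  have hD0 : 0 < D := by positivity
  have hc : HasDerivAt (fun s : ℝ => (Real.exp (-s) ^ 2 - Real.exp (-u) ^ 2) / D * v)
      ((2 * Real.exp (-u) * (Real.exp (-u) * (-1))) / D * v) u := by
    have e1 : HasDerivAt (fun s : ℝ => Real.exp (-s)) (Real.exp (-u) * (-1)) u :=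
      (hasDerivAt_neg u).exp
    have e2 := (((e1.pow 2).sub_const (Real.exp (-u) ^ 2)).div_const D).mul_const v
    simpa using e2
  have hG := (hd.sub_const (s7oPhi l (Real.exp (-u)))).sub hc
  have hle := s7o_deriv_nonpos hu hG (fun s hs => by
    have hs1 : Real.exp (-u) < Real.exp (-s) := Real.exp_lt_exp.mpr (by linarith [hs.2])
    have hs2 : Real.exp (-s) ≤ 1 := by rw [Real.exp_le_one_iff]; linarith [hs.1]
    have := s7o_step hl h0 hM hV hVb he0 hs1 hs2
    simp only [Pi.sub_apply, sub_self, zero_div, zero_mul]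
    linarith)
  have hk : kap u = 2 * Real.exp (-u) ^ 2 / D := by
    unfold kap
    rw [hD]; field_simp
  rw [hk]
  have : 2 * Real.exp (-u) * (Real.exp (-u) * -1) / D * v = -(2 * Real.exp (-u) ^ 2 / D * v) := by
    ring
  rw [this] at hle
  linarith

theorem s7o_ouVal_eq (l : EE n → ℝ) (V : EE n → EE n) (u : ℝ) :
    ouVal l V u = s7oVal l V (Real.exp (-u)) := by
  unfold ouVal s7oVal s7oH ouV
  rw [s7_gam_eq]

theorem s7o_ouVal_meas {l : EE n → ℝ} (hl : Measurable l) {V : ℝ → EE n → EE n}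
    (hV : Measurable fun p : ℝ × EE n => V p.1 p.2) :
    Measurable fun u => ouVal l (V u) u := by
  unfold ouVal
  have hx : Measurable fun q : ℝ × (EE n × EE n) => ouV q.1 q.2.1 q.2.2 := by
    unfold ouV
    fun_prop
  have h1 : Measurable fun q : ℝ × (EE n × EE n) => V q.1 (ouV q.1 q.2.1 q.2.2) :=
    hV.comp (measurable_fst.prodMk hx)
  have h2 : Measurable fun q : ℝ × (EE n × EE n) =>
      q.2.1 - Real.exp (-q.1) • ouV q.1 q.2.1 q.2.2 := by
    have : Measurable fun q : ℝ × (EE n × EE n) => Real.exp (-q.1) := by fun_prop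
    exact (measurable_fst.comp measurable_snd).sub (this.smul hx)
  have h3 : Measurable fun q : ℝ × (EE n × EE n) =>
      l q.2.1 * (2 * inner ℝ (q.2.1 - Real.exp (-q.1) • ouV q.1 q.2.1 q.2.2)
        (V q.1 (ouV q.1 q.2.1 q.2.2)) - ‖V q.1 (ouV q.1 q.2.1 q.2.2)‖ ^ 2) :=
    (hl.comp (measurable_fst.comp measurable_snd)).mul
      (((h2.inner h1).const_mul 2).sub (h1.norm.pow_const 2))
  exact h3.stronglyMeasurable.integral_prod_right'.measurable

theorem s7o_main {l : EE n → ℝ} (hl : Measurable l) (hl0 : ∀ x, 0 ≤ l x) {M : ℝ}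
    (hlM : ∀ x, l x ≤ M) {u0 u1 : ℝ} (hu0 : 0 < u0) (hu : u0 < u1) {V : ℝ → EE n → EE n}
    (hV : Measurable fun p : ℝ × EE n => V p.1 p.2) {CV : ℝ}
    (hVb : ∀ u ∈ Set.Icc u0 u1, ∀ y, ‖V u y‖ ≤ CV) :
    ∫ u in Set.Icc u0 u1, kap u * ouVal l (V u) u ≤ ent (gam n) l := by
  set Ψ : ℝ → ℝ := fun s => s7oPhi l (Real.exp (-s)) with hΨ
  have hVu : ∀ u, Measurable (V u) := fun u => hV.comp measurable_prodMk_left
  have hexpI : ∀ s, 0 ≤ s → Real.exp (-s) ∈ Icc (0 : ℝ) 1 := fun s hs =>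
    ⟨(Real.exp_pos _).le, by rw [Real.exp_le_one_iff]; linarith⟩
  -- monotonicity
  have hanti : ∀ s s', 0 ≤ s → s ≤ s' → Ψ s' ≤ Ψ s := fun s s' hs hss' =>
    s7oPhi_anti hl hl0 hlM (Real.exp_pos _) (Real.exp_le_exp.mpr (by linarith)) (hexpI s hs).2
  have hmono : MonotoneOn (fun s => -Ψ s) (uIcc u0 u1) := by
    rw [uIcc_of_le hu.le]
    intro s hs s' _ hss'
    exact neg_le_neg (hanti s s' (hu0.le.trans hs.1) hss')
  have hI1 := hmono.intervalIntegral_deriv_mem_uIcc
  have hI2 := hmono.intervalIntegrable_deriv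
  have hle1 : ∫ x in u0..u1, deriv (fun s => -Ψ s) x ≤ Ψ u0 - Ψ u1 := by
    have hb : 0 ≤ -Ψ u1 - -Ψ u0 := by linarith [hanti u0 u1 hu0.le hu.le]
    rw [uIcc_of_le hb] at hI1
    linarith [hI1.2]
  -- end points
  have hend0 : Ψ u0 ≤ ∫ x, l x * Real.log (l x) ∂(stdGaussian (EE n)) := by
    have := hanti 0 u0 le_rfl hu0.le
    simp only [hΨ, neg_zero, Real.exp_zero, s7oPhi_one] at this
    exact this
  have hend1 := s7oPhi_ge hl hl0 hlM (hexpI u1 (hu0.le.trans hu.le))
  have hent : Ψ u0 - Ψ u1 ≤ ent (gam n) l := by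
    rw [s7_gam_eq]
    unfold ent
    simp only [hΨ] at hend0 ⊢
    linarith
  -- integrability of the left side
  set K := M * (2 * (∫ z : EE n, ‖z‖ ∂(stdGaussian (EE n))) * CV + CV ^ 2) with hK
  have hbd : ∀ u ∈ Icc u0 u1, |ouVal l (V u) u| ≤ K := fun u hu' => by
    rw [s7o_ouVal_eq]
    exact s7oVal_bd hl hl0 hlM (hVu u) (hVb u hu') (hexpI u (hu0.le.trans hu'.1))
  have hkc : ContinuousOn kap (Icc u0 u1) := by
    unfold kap
    refine ContinuousOn.div (by fun_prop) (by fun_prop) fun u hu' => ?_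
    have he1 : Real.exp (-u) < 1 := by rw [Real.exp_lt_one_iff]; linarith [hu'.1]
    have he0 : 0 < Real.exp (-u) := Real.exp_pos _
    have : 0 < 1 - Real.exp (-u) ^ 2 := by nlinarith
    positivity
  have hFint : IntegrableOn (fun u => kap u * ouVal l (V u) u) (Icc u0 u1) := by
    have h1 : IntegrableOn kap (Icc u0 u1) := hkc.integrableOn_Icc
    refine Integrable.mul_bdd (c := K) h1 (s7o_ouVal_meas hl hV).aestronglyMeasurable ?_
    rw [ae_restrict_iff' measurableSet_Icc]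
    exact Eventually.of_forall fun u hu' => by rw [Real.norm_eq_abs]; exact hbd u hu'
  have hFint' : IntervalIntegrable (fun u => kap u * ouVal l (V u) u) volume u0 u1 :=
    (intervalIntegrable_iff_integrableOn_Icc_of_le hu.le).mpr hFint
  -- the a.e. inequality
  have hae : (fun u => kap u * ouVal l (V u) u) ≤ᵐ[volume.restrict (Icc u0 u1)]
      deriv (fun s => -Ψ s) := by
    rw [Filter.EventuallyLE, ← restrict_Ioo_eq_restrict_Icc, ae_restrict_iff' measurableSet_Ioo]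
    rw [uIcc_of_le hu.le] at hmono
    filter_upwards [hmono.ae_differentiableWithinAt_of_mem] with u hdu hu'
    have hd1 : DifferentiableAt ℝ (fun s => -Ψ s) u :=
      (hdu (Ioo_subset_Icc_self hu')).differentiableAt (Icc_mem_nhds hu'.1 hu'.2)
    have hd2 : HasDerivAt Ψ (-(deriv (fun s => -Ψ s) u)) u := by
      have h := hd1.hasDerivAt.neg
      have e : (-fun s => -Ψ s) = Ψ := by funext s; simp
      rwa [e] at h
    have := s7o_deriv_le hl hl0 hlM (hVu u) (hVb u (Ioo_subset_Icc_self hu'))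
      (hu0.trans hu'.1) hd2
    rw [s7o_ouVal_eq]
    linarith
  calc ∫ u in Set.Icc u0 u1, kap u * ouVal l (V u) u
      = ∫ u in u0..u1, kap u * ouVal l (V u) u := by
        rw [intervalIntegral.integral_of_le hu.le, integral_Icc_eq_integral_Ioc]
    _ ≤ ∫ x in u0..u1, deriv (fun s => -Ψ s) x :=
        intervalIntegral.integral_mono_ae_restrict hu.le hFint' hI2 hae
    _ ≤ Ψ u0 - Ψ u1 := hle1
    _ ≤ ent (gam n) l := hent

end Claimed.Agent.R259
end

/- ===== packed: Claimed.Agent.R259.S7Ou ===== -/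
section
/-
Row 259 (S0499), section 7: the ORNSTEIN-UHLENBECK LEMMA (L7.4 of the paper, variational form).
EXPORT FILE of package L-S7-OU (PROVED, helper79; helper files `S7OuA/B/C.lean`, prefix `s7o`).
(RT) is done through the kernel formula for the derivative of the Mehler semigroup (`R260.gks_hasFDerivAt`).

NO semigroup calculus, NO de Bruijn identity, NO regularity.  PROOF (hand-checked).
`φ(x) = x log x`, `P_c = R260.mehler c`, `Φ(u) = ∫ φ(P_{e^{-u}} l) dγ`; `gam n = R260.gam n` by `s7_gam_eq`.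
 (OS) ONE STEP.  `f` bounded measurable `≥ 0`, `a ∈ [0,1]`, `b = √(1-a²)`, `θ` bounded measurable field:
      `∫ φ(f) dγ - ∫ φ(P_a f) dγ ≥ ∫∫ f(a y + b g) (⟨θ(y), b g⟩ - b²|θ(y)|²/2) γ(dg) γ(dy)`.
      For fixed `y`: `lsic_ent_dual` (PlsiMgf.lean, proved) for `g ↦ f(a y + b g)` and the linear function
      `g ↦ ⟨θ(y), b g⟩`, whose exponential moment is `exp(b²|θ|²/2)`; integrate in `y`;
      `∫∫ φ(f(a y + b g)) = ∫ φ(f) dγ` (`R260.gk_map_comb`).
 (RT) ROTATION.  `f = P_α l`, `α = e^{-u}`, `β = √(1-α²)`, `a = e^{-h}`, `α' = aα`, `β' = √(1-α'²)`, `c = αb/β'`: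
      `P_a P_α l = P_{α'} l` (`R260.gk_mehler_mehler`), and by `R260.gk_rot_map` in `(g,g')`
      (`αb g + β g' = β' g₁`, `g = c g₁ + √(1-c²) g₂`, `∫ g₂ = 0`)
      `∫∫ l(α(ay+bg)+βg') ⟨θ, b g⟩ γ(dg)γ(dg') = (αb²/β'²) ∫ l(α'y+β'g₁) ⟨θ, β' g₁⟩ γ(dg₁)`.
      With `θ = (α/β'²) V` and `R260.gk_map_pair_swap`:
      `Φ(u) - Φ(u+h) ≥ ½ (1-e^{-2h}) e^{-2u} (1-e^{-2(u+h)})⁻² ouVal l V (u+h)`   for all `u ≥ 0`, `h ≥ 0`, `u+h > 0`.
 (MO) `V = 0`: `Φ` is antitone on `[0,∞)`; `Φ(0) = ∫ φ(l)`; (OS) with `a = 0`: `Φ(u) ≥ φ(∫ l)`.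
 (DE) at every `u ∈ (u0,u1)` where `Φ` is differentiable: `-Φ'(u) ≥ κ(u) ouVal l (V u) u`
      (left difference quotients, `(1-e^{-2h})/(2h) → 1`; the field `V u` is FIXED in this limit).
 (IN) `MonotoneOn.ae_differentiableWithinAt`, `MonotoneOn.intervalIntegral_deriv_mem_uIcc` for `-Φ`:
      `∫_{u0}^{u1} κ ouVal ≤ ∫ (-Φ)' ≤ Φ(u0) - Φ(u1) ≤ ∫ φ(l) - φ(∫ l) = ent γ l`.
      `u ↦ κ(u) ouVal l (V u) u` is measurable and bounded on `[u0,u1]`.
-/
set_option autoImplicit false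

open MeasureTheory ProbabilityTheory
open scoped BigOperators Matrix

namespace Claimed.Agent.R259

variable {n : ℕ}

theorem s7_ou {l : EE n → ℝ} (hl : Measurable l) (hl0 : ∀ x, 0 ≤ l x) {M : ℝ} (hlM : ∀ x, l x ≤ M)
    {u0 u1 : ℝ} (hu0 : 0 < u0) (hu : u0 < u1) {V : ℝ → EE n → EE n}
    (hV : Measurable fun p : ℝ × EE n => V p.1 p.2) {CV : ℝ}
    (hVb : ∀ u ∈ Set.Icc u0 u1, ∀ y, ‖V u y‖ ≤ CV) :
    ∫ u in Set.Icc u0 u1, kap u * ouVal l (V u) u ≤ ent (gam n) l :=
  s7o_main hl hl0 hlM hu0 hu hV hVb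

end Claimed.Agent.R259
end

/- ===== packed: Claimed.Agent.R259.S7ChainA ===== -/
section
/-
Row 259 (S0499), section 7: proof of the ENTROPY CHAIN `s7_chain` (helper file of package L-S7-CHAIN, helper211).
No sorry of its own (cites the export `s7_ou`).

* `s7h_exists_dens`: conditional density `l` of `f dP` given `X` (Radon-Nikodym), as an identity of measures;
  `s7h_dens`, `s7h_dens_prod`: the resulting integral identities (no integrability needed);
  `s7h_jensen`: conditional Jensen for `x log x` (Gibbs inequality with `log (l + ε)`, no limit).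
* `s7hPsi`, bounds, measurability, `s7h_int_lin` (functions of linear growth are integrable for `μ0 ⊗ γ ⊗ γ`).
* `s7h_chain`: the statement of `s7_chain`.
-/
set_option autoImplicit false
set_option linter.unusedSectionVars false

open MeasureTheory ProbabilityTheory
open scoped BigOperators Matrix ENNReal

namespace Claimed.Agent.R259

section cond

variable {Ω S T : Type} [MeasurableSpace Ω] [MeasurableSpace S] [MeasurableSpace T]
  {P : Measure Ω} [IsProbabilityMeasure P]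

/-- conditional density of `f dP` given `X`, as an identity of measures -/
theorem s7h_exists_dens {X : Ω → S} (hX : Measurable X) {f : Ω → ℝ} (hf : Measurable f)
    (hf0 : ∀ o, 0 ≤ f o) {M : ℝ} (hfM : ∀ o, f o ≤ M) :
    ∃ l : S → ℝ, Measurable l ∧ (∀ p, 0 ≤ l p) ∧ (∀ p, l p ≤ M) ∧
      (P.withDensity (fun o => ENNReal.ofReal (f o))).map X
        = (P.map X).withDensity (fun p => ENNReal.ofReal (l p)) := by
  have hM0 : 0 ≤ M := by
    obtain ⟨o⟩ : Nonempty Ω := nonempty_of_isProbabilityMeasure P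
    exact (hf0 o).trans (hfM o)
  set fE : Ω → ℝ≥0∞ := fun o => ENNReal.ofReal (f o) with hfE
  have hfEm : Measurable fE := hf.ennreal_ofReal
  set ν : Measure S := (P.withDensity fE).map X with hν
  set Pm : Measure S := P.map X with hPm
  have : IsProbabilityMeasure Pm := Measure.isProbabilityMeasure_map hX.aemeasurable
  have hle : ∀ s, MeasurableSet s → ν s ≤ ENNReal.ofReal M * Pm s := by
    intro s hs
    rw [hν, hPm, Measure.map_apply hX hs, Measure.map_apply hX hs, withDensity_apply _ (hX hs)]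
    calc ∫⁻ a in X ⁻¹' s, fE a ∂P ≤ ∫⁻ _ in X ⁻¹' s, ENNReal.ofReal M ∂P :=
          lintegral_mono fun a => ENNReal.ofReal_le_ofReal (hfM a)
      _ = ENNReal.ofReal M * P (X ⁻¹' s) := by rw [setLIntegral_const]
  have hfin : IsFiniteMeasure ν := by
    refine ⟨?_⟩
    refine lt_of_le_of_lt (hle _ MeasurableSet.univ) ?_
    rw [measure_univ, mul_one]
    exact ENNReal.ofReal_lt_top
  have hac : ν ≪ Pm := by
    refine Measure.AbsolutelyContinuous.mk fun s hs h0 => ?_
    have := hle s hs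
    rw [h0, mul_zero] at this
    exact le_antisymm this zero_le
  have hrn : ν.rnDeriv Pm ≤ᵐ[Pm] fun _ => ENNReal.ofReal M := by
    refine ae_le_of_forall_setLIntegral_le_of_sigmaFinite (Measure.measurable_rnDeriv _ _) ?_
    intro s hs _
    rw [Measure.setLIntegral_rnDeriv hac, setLIntegral_const]
    exact hle s hs
  refine ⟨fun p => min (ν.rnDeriv Pm p).toReal M, ?_, ?_, ?_, ?_⟩
  · exact (Measure.measurable_rnDeriv _ _).ennreal_toReal.min measurable_const
  · intro p; exact le_min ENNReal.toReal_nonneg hM0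
  · intro p; exact min_le_right _ _
  · refine (Measure.withDensity_rnDeriv_eq ν Pm hac).symm.trans ?_
    refine withDensity_congr_ae ?_
    filter_upwards [hrn] with p hp
    have h1 : (ν.rnDeriv Pm p).toReal ≤ M := ENNReal.toReal_le_of_le_ofReal hM0 hp
    rw [min_eq_left h1, ENNReal.ofReal_toReal (ne_top_of_le_ne_top ENNReal.ofReal_ne_top hp)]

/-- consequence for integrals, with an independent extra variable -/
theorem s7h_dens_prod {X : Ω → S} (hX : Measurable X) {f : Ω → ℝ} (hf : Measurable f)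
    {l : S → ℝ} (hl : Measurable l) (hf0 : ∀ o, 0 ≤ f o) (hl0 : ∀ p, 0 ≤ l p)
    (h : (P.withDensity (fun o => ENNReal.ofReal (f o))).map X
        = (P.map X).withDensity (fun p => ENNReal.ofReal (l p)))
    (τ : Measure T) [SFinite τ] {G : S × T → ℝ} (hG : Measurable G) :
    ∫ ω : Ω × T, f ω.1 * G (X ω.1, ω.2) ∂(P.prod τ) = ∫ q : S × T, l q.1 * G q ∂((P.map X).prod τ) := by
  have h1 : ∫ ω : Ω × T, f ω.1 * G (X ω.1, ω.2) ∂(P.prod τ)
      = ∫ ω : Ω × T, G (X ω.1, ω.2) ∂((P.withDensity (fun o => ENNReal.ofReal (f o))).prod τ) := by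
    rw [prod_withDensity_left hf.ennreal_ofReal,
      integral_withDensity_eq_integral_toReal_smul
        (show Measurable fun z : Ω × T => ENNReal.ofReal (f z.1) from hf.ennreal_ofReal.comp measurable_fst)
        (Filter.Eventually.of_forall fun _ => ENNReal.ofReal_lt_top)]
    refine integral_congr_ae (Filter.Eventually.of_forall fun ω => ?_)
    simp only [smul_eq_mul, ENNReal.toReal_ofReal (hf0 ω.1)]
  have h2 : ∫ q : S × T, l q.1 * G q ∂((P.map X).prod τ)
      = ∫ q : S × T, G q ∂(((P.map X).withDensity (fun p => ENNReal.ofReal (l p))).prod τ) := by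
    rw [prod_withDensity_left hl.ennreal_ofReal,
      integral_withDensity_eq_integral_toReal_smul
        (show Measurable fun z : S × T => ENNReal.ofReal (l z.1) from hl.ennreal_ofReal.comp measurable_fst)
        (Filter.Eventually.of_forall fun _ => ENNReal.ofReal_lt_top)]
    refine integral_congr_ae (Filter.Eventually.of_forall fun q => ?_)
    simp only [smul_eq_mul, ENNReal.toReal_ofReal (hl0 q.1)]
  rw [h1, h2, ← h]
  have h3 : ((P.withDensity (fun o => ENNReal.ofReal (f o))).map X).prod τ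
      = ((P.withDensity (fun o => ENNReal.ofReal (f o))).prod τ).map (Prod.map X id) := by
    have := Measure.map_prod_map (P.withDensity (fun o => ENNReal.ofReal (f o))) τ hX measurable_id
    rwa [Measure.map_id] at this
  rw [h3, integral_map (hX.prodMap measurable_id).aemeasurable hG.aestronglyMeasurable]
  rfl

/-- consequence for integrals -/
theorem s7h_dens {X : Ω → S} (hX : Measurable X) {f : Ω → ℝ} (hf : Measurable f)
    {l : S → ℝ} (hl : Measurable l) (hf0 : ∀ o, 0 ≤ f o) (hl0 : ∀ p, 0 ≤ l p)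
    (h : (P.withDensity (fun o => ENNReal.ofReal (f o))).map X
        = (P.map X).withDensity (fun p => ENNReal.ofReal (l p)))
    {ψ : S → ℝ} (hψ : Measurable ψ) :
    ∫ ω, f ω * ψ (X ω) ∂P = ∫ ω, l (X ω) * ψ (X ω) ∂P := by
  have h1 : ∫ ω, f ω * ψ (X ω) ∂P = ∫ ω, ψ (X ω) ∂(P.withDensity (fun o => ENNReal.ofReal (f o))) := by
    rw [integral_withDensity_eq_integral_toReal_smul hf.ennreal_ofReal
        (Filter.Eventually.of_forall fun _ => ENNReal.ofReal_lt_top)]
    refine integral_congr_ae (Filter.Eventually.of_forall fun ω => ?_)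
    simp only [smul_eq_mul, ENNReal.toReal_ofReal (hf0 ω)]
  have h2 : ∫ ω, l (X ω) * ψ (X ω) ∂P = ∫ q, ψ q ∂((P.map X).withDensity (fun p => ENNReal.ofReal (l p))) := by
    rw [integral_withDensity_eq_integral_toReal_smul hl.ennreal_ofReal
        (Filter.Eventually.of_forall fun _ => ENNReal.ofReal_lt_top),
      integral_map hX.aemeasurable (by fun_prop)]
    refine integral_congr_ae (Filter.Eventually.of_forall fun ω => ?_)
    simp only [smul_eq_mul, ENNReal.toReal_ofReal (hl0 (X ω))]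
  rw [h1, h2, ← h, integral_map hX.aemeasurable hψ.aestronglyMeasurable]

theorem s7h_int_bdd {α : Type} [MeasurableSpace α] {μ : Measure α} [IsFiniteMeasure μ] {g : α → ℝ}
    (hg : Measurable g) (C : ℝ) (h : ∀ x, |g x| ≤ C) : Integrable g μ :=
  Integrable.of_bound hg.aestronglyMeasurable C (Filter.Eventually.of_forall h)

theorem s7h_mulLog_bound (M : ℝ) : ∃ C, ∀ x ∈ Set.Icc 0 M, |x * Real.log x| ≤ C := by
  obtain ⟨C, hC⟩ := isCompact_Icc.exists_bound_of_continuousOn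
    (Real.continuous_mul_log.continuousOn (s := Set.Icc 0 M))
  exact ⟨C, fun x hx => hC x hx⟩

theorem s7h_measurable_mulLog : Measurable fun x : ℝ => x * Real.log x :=
  Real.continuous_mul_log.measurable

theorem s7h_gibbs {a b : ℝ} (ha : 0 ≤ a) (hb : 0 < b) : a * Real.log b + a - b ≤ a * Real.log a := by
  rcases ha.eq_or_lt with rfl | ha
  · simp only [zero_mul, zero_add, zero_sub]; linarith
  · have h1 := Real.log_le_sub_one_of_pos (div_pos hb ha)
    rw [Real.log_div hb.ne' ha.ne'] at h1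
    have h2 := mul_le_mul_of_nonneg_left h1 ha.le
    have h3 : a * (b / a - 1) = b - a := by field_simp
    rw [h3] at h2
    linarith

/-- conditional Jensen inequality for `x log x` -/
theorem s7h_jensen {X : Ω → S} (hX : Measurable X) {f : Ω → ℝ} (hf : Measurable f)
    {l : S → ℝ} (hl : Measurable l) (hf0 : ∀ o, 0 ≤ f o) (hl0 : ∀ p, 0 ≤ l p) {M : ℝ}
    (hfM : ∀ o, f o ≤ M) (hlM : ∀ p, l p ≤ M)
    (h : (P.withDensity (fun o => ENNReal.ofReal (f o))).map X
        = (P.map X).withDensity (fun p => ENNReal.ofReal (l p))) :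
    ∫ ω, l (X ω) * Real.log (l (X ω)) ∂P ≤ ∫ ω, f ω * Real.log (f ω) ∂P := by
  refine le_of_forall_pos_le_add fun ε hε => ?_
  set ψ : S → ℝ := fun p => Real.log (l p + ε) with hψ
  have hψm : Measurable ψ := (hl.add_const ε).log
  have e1 := s7h_dens hX hf hl hf0 hl0 h hψm
  have e2 := s7h_dens hX hf hl hf0 hl0 h (measurable_const (a := (1 : ℝ)))
  obtain ⟨C, hC⟩ := s7h_mulLog_bound M
  have hψb : ∀ p, |ψ p| ≤ max |Real.log ε| |Real.log (M + ε)| := by
    intro p
    refine abs_le_max_abs_abs ?_ ?_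
    · exact Real.log_le_log hε (by linarith [hl0 p])
    · exact Real.log_le_log (by linarith [hl0 p]) (by linarith [hlM p])
  set B := max |Real.log ε| |Real.log (M + ε)| with hB
  have hB0 : 0 ≤ B := (abs_nonneg _).trans (hψb (X (Classical.choice (nonempty_of_isProbabilityMeasure P))))
  have hlX : Measurable fun ω => l (X ω) := hl.comp hX
  have hψX : Measurable fun ω => ψ (X ω) := hψm.comp hX
  have i1 : Integrable (fun ω => f ω * Real.log (f ω)) P :=
    s7h_int_bdd (s7h_measurable_mulLog.comp hf) C fun ω => hC _ ⟨hf0 ω, hfM ω⟩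
  have i2 : Integrable (fun ω => l (X ω) * Real.log (l (X ω))) P :=
    s7h_int_bdd (s7h_measurable_mulLog.comp hlX) C fun ω => hC _ ⟨hl0 _, hlM _⟩
  have i3 : Integrable (fun ω => f ω * ψ (X ω)) P :=
    s7h_int_bdd (hf.mul hψX) (M * B) fun ω => by
      rw [abs_mul, abs_of_nonneg (hf0 ω)]
      exact mul_le_mul (hfM ω) (hψb _) (abs_nonneg _) ((hf0 ω).trans (hfM ω))
  have i4 : Integrable (fun ω => l (X ω) * ψ (X ω)) P :=
    s7h_int_bdd (hlX.mul hψX) (M * B) fun ω => by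
      rw [abs_mul, abs_of_nonneg (hl0 _)]
      exact mul_le_mul (hlM _) (hψb _) (abs_nonneg _) ((hl0 (X ω)).trans (hlM _))
  have i5 : Integrable (fun ω => f ω * 1) P :=
    s7h_int_bdd (hf.mul_const 1) M fun ω => by rw [mul_one, abs_of_nonneg (hf0 ω)]; exact hfM ω
  have i6 : Integrable (fun ω => l (X ω) * 1) P :=
    s7h_int_bdd (hlX.mul_const 1) M fun ω => by rw [mul_one, abs_of_nonneg (hl0 _)]; exact hlM _
  have hpt : ∀ ω, l (X ω) * Real.log (l (X ω)) ≤
      ((f ω * Real.log (f ω) + ε) + (l (X ω) * ψ (X ω) - f ω * ψ (X ω))) + (l (X ω) * 1 - f ω * 1) := by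
    intro ω
    have g1 := s7h_gibbs (hf0 ω) (show 0 < l (X ω) + ε by linarith [hl0 (X ω)])
    have g2 : l (X ω) * Real.log (l (X ω)) ≤ l (X ω) * ψ (X ω) := by
      rcases (hl0 (X ω)).eq_or_lt with h0 | h0
      · rw [← h0, zero_mul, zero_mul]
      · exact mul_le_mul_of_nonneg_left (Real.log_le_log h0 (by linarith)) h0.le
    simp only [hψ] at g2 ⊢
    linarith
  have j1 : Integrable (fun ω => f ω * Real.log (f ω) + ε) P := i1.add (integrable_const ε)
  have j2 : Integrable (fun ω => l (X ω) * ψ (X ω) - f ω * ψ (X ω)) P := i4.sub i3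
  have j3 : Integrable (fun ω => l (X ω) * 1 - f ω * 1) P := i6.sub i5
  have j4 : Integrable (fun ω => (f ω * Real.log (f ω) + ε) + (l (X ω) * ψ (X ω) - f ω * ψ (X ω))) P :=
    j1.add j2
  calc ∫ ω, l (X ω) * Real.log (l (X ω)) ∂P
      ≤ ∫ ω, (((f ω * Real.log (f ω) + ε) + (l (X ω) * ψ (X ω) - f ω * ψ (X ω)))
          + (l (X ω) * 1 - f ω * 1)) ∂P := integral_mono i2 (j4.add j3) hpt
    _ = ∫ ω, f ω * Real.log (f ω) ∂P + ε := by
        rw [integral_add j4 j3, integral_add j1 j2, integral_add i1 (integrable_const ε),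
          integral_sub i4 i3, integral_sub i6 i5, e1, e2, integral_const]
        simp

end cond

section gauss

variable {n : ℕ} {D : Type} [MeasurableSpace D]

/-- the integrand of the chain inequality -/
noncomputable def s7hPsi (V : ℝ → D → EE n → EE n) (u : ℝ) (d : D) (x g : EE n) : ℝ :=
  2 * inner ℝ (x - Real.exp (-u) • ouV u x g) (V u d (ouV u x g)) - ‖V u d (ouV u x g)‖ ^ 2

/-- generates the equation lemmas of the definition above in this file (rule 6: unique names) -/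
theorem s7h_eqns_cite : True := by
  have := @s7hPsi.eq_1
  trivial

theorem s7h_measurable_ouV {α : Type} [MeasurableSpace α] {u : α → ℝ} {x g : α → EE n}
    (hu : Measurable u) (hx : Measurable x) (hg : Measurable g) :
    Measurable fun a => ouV (u a) (x a) (g a) := by
  unfold ouV
  fun_prop

theorem s7h_measurable_Psi {V : ℝ → D → EE n → EE n}
    (hV : Measurable fun p : ℝ × D × EE n => V p.1 p.2.1 p.2.2)
    {α : Type} [MeasurableSpace α] {u : α → ℝ} {d : α → D} {x g : α → EE n}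
    (hu : Measurable u) (hd : Measurable d) (hx : Measurable x) (hg : Measurable g) :
    Measurable fun a => s7hPsi V (u a) (d a) (x a) (g a) := by
  have ho := s7h_measurable_ouV hu hx hg
  have hVo : Measurable fun a => V (u a) (d a) (ouV (u a) (x a) (g a)) :=
    hV.comp (hu.prodMk (hd.prodMk ho))
  unfold s7hPsi
  have h1 : Measurable fun a => x a - Real.exp (-u a) • ouV (u a) (x a) (g a) := by fun_prop
  exact ((h1.inner hVo).const_mul 2).sub (hVo.norm.pow_const 2)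

theorem s7h_Psi_bound {V : ℝ → D → EE n → EE n} {u : ℝ} (hu : 0 ≤ u) {CV : ℝ}
    (hVb : ∀ d y, ‖V u d y‖ ≤ CV) (d : D) (x g : EE n) :
    |s7hPsi V u d x g| ≤ (4 * CV + CV ^ 2) * (1 + ‖x‖ + ‖g‖) := by
  have hCV : 0 ≤ CV := (norm_nonneg _).trans (hVb d x)
  have ha0 : 0 ≤ Real.exp (-u) := (Real.exp_pos _).le
  have ha1 : Real.exp (-u) ≤ 1 := Real.exp_le_one_iff.2 (by linarith)
  have hb0 : 0 ≤ Real.sqrt (1 - Real.exp (-u) ^ 2) := Real.sqrt_nonneg _
  have hb1 : Real.sqrt (1 - Real.exp (-u) ^ 2) ≤ 1 := by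
    rw [Real.sqrt_le_one]
    nlinarith
  have ho : ‖ouV u x g‖ ≤ ‖x‖ + ‖g‖ := by
    unfold ouV
    refine (norm_add_le _ _).trans ?_
    rw [norm_smul, norm_smul, Real.norm_of_nonneg ha0, Real.norm_of_nonneg hb0]
    have := norm_nonneg x
    have := norm_nonneg g
    nlinarith
  have h1 : ‖x - Real.exp (-u) • ouV u x g‖ ≤ 2 * ‖x‖ + ‖g‖ := by
    refine (norm_sub_le _ _).trans ?_
    rw [norm_smul, Real.norm_of_nonneg ha0]
    have := norm_nonneg (ouV u x g)
    nlinarith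
  set v := V u d (ouV u x g) with hv
  have hvb : ‖v‖ ≤ CV := hVb _ _
  have h2 : |inner ℝ (x - Real.exp (-u) • ouV u x g) v| ≤ (2 * ‖x‖ + ‖g‖) * CV :=
    (abs_real_inner_le_norm _ _).trans (mul_le_mul h1 hvb (norm_nonneg _) (by positivity))
  have h3 : ‖v‖ ^ 2 ≤ CV ^ 2 := pow_le_pow_left₀ (norm_nonneg _) hvb 2
  unfold s7hPsi
  rw [← hv]
  have hx := norm_nonneg x
  have hg := norm_nonneg g
  have h4 := abs_le.1 h2
  have h5 : 0 ≤ ‖v‖ ^ 2 := by positivity
  have h6 : 0 ≤ CV * ‖x‖ := by positivity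
  have h7 : 0 ≤ CV * ‖g‖ := by positivity
  have h8 : 0 ≤ CV ^ 2 * ‖x‖ := by positivity
  have h9 : 0 ≤ CV ^ 2 * ‖g‖ := by positivity
  rw [abs_le]
  constructor <;> nlinarith

theorem s7h_measurable_kap : Measurable kap := by
  unfold kap
  fun_prop

theorem s7h_kap_bound {u0 : ℝ} (u1 : ℝ) (hu0 : 0 < u0) : ∃ K, ∀ u ∈ Set.Icc u0 u1, |kap u| ≤ K := by
  have hc : ContinuousOn kap (Set.Icc u0 u1) := by
    unfold kap
    refine ContinuousOn.div (by fun_prop) (by fun_prop) ?_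
    intro u hu
    have h1 : Real.exp (-u) < 1 := Real.exp_lt_one_iff.2 (by linarith [hu.1])
    have h2 : 0 < Real.exp (-u) := Real.exp_pos _
    have : 0 < 1 - Real.exp (-u) ^ 2 := by nlinarith
    positivity
  obtain ⟨K, hK⟩ := isCompact_Icc.exists_bound_of_continuousOn hc
  exact ⟨K, hK⟩

theorem s7h_int_norm : Integrable (fun x : EE n => ‖x‖) (gam n) := by
  rw [s7_gam_eq]
  exact IsGaussian.integrable_id.norm

theorem s7h_int_lin {T : Type} [MeasurableSpace T] (μ0 : Measure T) [IsFiniteMeasure μ0]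
    {G : T × (EE n × EE n) → ℝ} (hG : Measurable G) (C : ℝ)
    (hb : ∀ᵐ z ∂(μ0.prod ((gam n).prod (gam n))), |G z| ≤ C * (1 + ‖z.2.1‖ + ‖z.2.2‖)) :
    Integrable G (μ0.prod ((gam n).prod (gam n))) := by
  have hn := s7h_int_norm (n := n)
  have h1 : Integrable (fun p : EE n × EE n => C * (1 + ‖p.1‖ + ‖p.2‖)) ((gam n).prod (gam n)) :=
    (((integrable_const 1).add (hn.comp_fst _)).add (hn.comp_snd _)).const_mul C
  exact (h1.comp_snd μ0).mono' hG.aestronglyMeasurable hb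

end gauss

theorem s7h_chain {n : ℕ} {Ω : Type} [MeasurableSpace Ω] {P : Measure Ω} [IsProbabilityMeasure P]
    {D : Type} [MeasurableSpace D] {Dt : Ω → D} {N : Ω → EE n} (hDt : Measurable Dt)
    (hN : Measurable N) (hlaw : P.map N = gam n) (hind : IndepFun Dt N P)
    {f : Ω → ℝ} (hf : Measurable f) (hf0 : ∀ o, 0 ≤ f o) {M : ℝ} (hfM : ∀ o, f o ≤ M)
    {u0 u1 : ℝ} (hu0 : 0 < u0) (hu : u0 < u1) {V : ℝ → D → EE n → EE n}
    (hV : Measurable fun p : ℝ × D × EE n => V p.1 p.2.1 p.2.2) {CV : ℝ}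
    (hVb : ∀ u ∈ Set.Icc u0 u1, ∀ d y, ‖V u d y‖ ≤ CV) :
    ∫ u in Set.Icc u0 u1, kap u * ∫ ω : Ω × EE n,
        f ω.1 * (2 * inner ℝ (N ω.1 - Real.exp (-u) • ouV u (N ω.1) ω.2)
              (V u (Dt ω.1) (ouV u (N ω.1) ω.2))
            - ‖V u (Dt ω.1) (ouV u (N ω.1) ω.2)‖ ^ 2) ∂(P.prod (gam n))
      ≤ ent P f := by
  obtain ⟨o0⟩ : Nonempty Ω := nonempty_of_isProbabilityMeasure P
  have hM0 : 0 ≤ M := (hf0 o0).trans (hfM o0)
  set X : Ω → D × EE n := fun ω => (Dt ω, N ω) with hXdef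
  have hX : Measurable X := hDt.prodMk hN
  obtain ⟨l, hl, hl0, hlM, hdens⟩ := s7h_exists_dens (P := P) hX hf hf0 hfM
  set Q : Measure D := P.map Dt with hQ
  have hQp : IsProbabilityMeasure Q := Measure.isProbabilityMeasure_map hDt.aemeasurable
  have hPm : P.map X = Q.prod (gam n) := by
    rw [← hlaw]
    exact (indepFun_iff_map_prod_eq_prod_map_map hDt.aemeasurable hN.aemeasurable).1 hind
  set A : ℝ → D → ℝ := fun u d => ouVal (fun x => l (d, x)) (V u d) u with hA
  have hlabs : ∀ p, |l p| ≤ M := fun p => by rw [abs_of_nonneg (hl0 p)]; exact hlM p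
  -- the inner integral
  have hAB : ∀ u ∈ Set.Icc u0 u1, (∫ ω : Ω × EE n,
        f ω.1 * (2 * inner ℝ (N ω.1 - Real.exp (-u) • ouV u (N ω.1) ω.2)
              (V u (Dt ω.1) (ouV u (N ω.1) ω.2))
            - ‖V u (Dt ω.1) (ouV u (N ω.1) ω.2)‖ ^ 2) ∂(P.prod (gam n))) = ∫ d, A u d ∂Q := by
    intro u hu'
    have h1 := s7h_dens_prod hX hf hl hf0 hl0 hdens (gam n)
      (G := fun q : (D × EE n) × EE n => s7hPsi V u q.1.1 q.1.2 q.2)
      (s7h_measurable_Psi hV measurable_const (by fun_prop) (by fun_prop) (by fun_prop))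
    rw [hPm] at h1
    refine h1.trans ?_
    have h2 := (measurePreserving_prodAssoc Q (gam n) (gam n)).integral_comp'
      (fun r : D × (EE n × EE n) => l (r.1, r.2.1) * s7hPsi V u r.1 r.2.1 r.2.2)
    refine h2.trans ?_
    rw [integral_prod]
    · rfl
    · refine s7h_int_lin Q ?_ (M * (4 * CV + CV ^ 2)) (Filter.Eventually.of_forall fun z => ?_)
      · exact (hl.comp (by fun_prop)).mul
          (s7h_measurable_Psi hV measurable_const (by fun_prop) (by fun_prop) (by fun_prop))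
      · rw [abs_mul, mul_assoc]
        exact mul_le_mul (hlabs _) (s7h_Psi_bound (hu0.le.trans hu'.1) (hVb u hu') _ _ _) (abs_nonneg _) hM0
  -- Fubini in `(u, d)`
  obtain ⟨K, hK⟩ := s7h_kap_bound u1 hu0
  have hK0 : 0 ≤ K := (abs_nonneg _).trans (hK u0 ⟨le_rfl, hu.le⟩)
  have hH : Integrable (fun z : (ℝ × D) × (EE n × EE n) =>
      kap z.1.1 * (l (z.1.2, z.2.1) * s7hPsi V z.1.1 z.1.2 z.2.1 z.2.2))
      (((volume.restrict (Set.Icc u0 u1)).prod Q).prod ((gam n).prod (gam n))) := by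
    refine s7h_int_lin _ ?_ (K * (M * (4 * CV + CV ^ 2))) ?_
    · exact (s7h_measurable_kap.comp (by fun_prop)).mul ((hl.comp (by fun_prop)).mul
          (s7h_measurable_Psi hV (by fun_prop) (by fun_prop) (by fun_prop) (by fun_prop)))
    · have h1 : ∀ᵐ u ∂(volume.restrict (Set.Icc u0 u1)), u ∈ Set.Icc u0 u1 :=
        ae_restrict_mem measurableSet_Icc
      have h2 : ∀ᵐ w ∂((volume.restrict (Set.Icc u0 u1)).prod Q), w.1 ∈ Set.Icc u0 u1 :=
        Measure.quasiMeasurePreserving_fst.ae h1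
      have h3 : ∀ᵐ z ∂(((volume.restrict (Set.Icc u0 u1)).prod Q).prod ((gam n).prod (gam n))),
          z.1.1 ∈ Set.Icc u0 u1 := Measure.quasiMeasurePreserving_fst.ae h2
      filter_upwards [h3] with z hz
      rw [abs_mul, abs_mul, mul_assoc, mul_assoc]
      refine mul_le_mul (hK _ hz) ?_ (by positivity) hK0
      exact mul_le_mul (hlabs _) (s7h_Psi_bound (hu0.le.trans hz.1) (hVb _ hz) _ _ _) (abs_nonneg _) hM0
  have hKA : Integrable (Function.uncurry fun u d => kap u * A u d)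
      ((volume.restrict (Set.Icc u0 u1)).prod Q) := by
    refine hH.integral_prod_left.congr (Filter.Eventually.of_forall fun z => ?_)
    show ∫ y : EE n × EE n, kap z.1 * (l (z.2, y.1) * s7hPsi V z.1 z.2 y.1 y.2) ∂((gam n).prod (gam n))
      = kap z.1 * A z.1 z.2
    rw [integral_const_mul]
    rfl
  -- entropy side
  obtain ⟨C, hC⟩ := s7h_mulLog_bound M
  set m : D → ℝ := fun d => ∫ x, l (d, x) ∂(gam n) with hm
  have hmm : Measurable m := hl.stronglyMeasurable.integral_prod_right'.measurable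
  have hli : ∀ d, Integrable (fun x => l (d, x)) (gam n) := fun d =>
    s7h_int_bdd (hl.comp measurable_prodMk_left) M fun x => hlabs _
  have hm0 : ∀ d, 0 ≤ m d := fun d => integral_nonneg fun x => hl0 _
  have hmM : ∀ d, m d ≤ M := fun d => by
    have := integral_mono (hli d) (integrable_const M) fun x => hlM (d, x)
    simpa using this
  have hφl : Integrable (fun p : D × EE n => l p * Real.log (l p)) (Q.prod (gam n)) :=
    s7h_int_bdd (s7h_measurable_mulLog.comp hl) C fun p => hC _ ⟨hl0 p, hlM p⟩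
  have hlI : Integrable l (Q.prod (gam n)) := s7h_int_bdd hl M hlabs
  have hφm : Integrable (fun d => m d * Real.log (m d)) Q :=
    s7h_int_bdd (s7h_measurable_mulLog.comp hmm) C fun d => hC _ ⟨hm0 d, hmM d⟩
  have hmI : Integrable m Q := hlI.integral_prod_left
  have hentI : Integrable (fun d => ent (gam n) fun x => l (d, x)) Q := hφl.integral_prod_left.sub hφm
  have e1 : ∫ d, (ent (gam n) fun x => l (d, x)) ∂Q
      = ∫ ω, l (X ω) * Real.log (l (X ω)) ∂P - ∫ d, m d * Real.log (m d) ∂Q := by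
    have : ∫ d, (ent (gam n) fun x => l (d, x)) ∂Q
        = ∫ d, ((∫ x, l (d, x) * Real.log (l (d, x)) ∂(gam n)) - m d * Real.log (m d)) ∂Q := rfl
    rw [this, integral_sub hφl.integral_prod_left hφm, ← integral_prod _ hφl, ← hPm,
      integral_map (f := fun z => l z * Real.log (l z)) hX.aemeasurable
        (s7h_measurable_mulLog.comp hl).aestronglyMeasurable]
  have e2 : ∫ d, m d ∂Q = ∫ ω, f ω ∂P := by
    have h1 := s7h_dens hX hf hl hf0 hl0 hdens (measurable_const (a := (1 : ℝ)))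
    simp only [mul_one] at h1
    rw [h1, hm, ← integral_prod _ hlI, ← hPm, integral_map hX.aemeasurable hl.aestronglyMeasurable]
  have e3 : (∫ d, m d ∂Q) * Real.log (∫ d, m d ∂Q) ≤ ∫ d, m d * Real.log (m d) ∂Q :=
    Real.convexOn_mul_log.map_integral_le Real.continuous_mul_log.continuousOn isClosed_Ici
      (Filter.Eventually.of_forall hm0) hmI hφm
  have e4 := s7h_jensen hX hf hl hf0 hl0 hfM hlM hdens
  calc ∫ u in Set.Icc u0 u1, kap u * ∫ ω : Ω × EE n,
        f ω.1 * (2 * inner ℝ (N ω.1 - Real.exp (-u) • ouV u (N ω.1) ω.2)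
              (V u (Dt ω.1) (ouV u (N ω.1) ω.2))
            - ‖V u (Dt ω.1) (ouV u (N ω.1) ω.2)‖ ^ 2) ∂(P.prod (gam n))
      = ∫ u in Set.Icc u0 u1, ∫ d, kap u * A u d ∂Q :=
        setIntegral_congr_fun measurableSet_Icc fun u hu' => by
          show kap u * _ = _
          rw [hAB u hu', integral_const_mul]
    _ = ∫ d, (∫ u in Set.Icc u0 u1, kap u * A u d) ∂Q := integral_integral_swap hKA
    _ ≤ ∫ d, (ent (gam n) fun x => l (d, x)) ∂Q := by
        refine integral_mono hKA.integral_prod_right hentI fun d => ?_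
        exact s7_ou (hl.comp measurable_prodMk_left) (fun x => hl0 _) (fun x => hlM _) hu0 hu
          (V := fun u y => V u d y)
          (hV.comp (show Measurable fun p : ℝ × EE n => ((p.1, d, p.2) : ℝ × D × EE n) by fun_prop))
          (fun u hu' y => hVb u hu' d y)
    _ ≤ ent P f := by
        rw [e1]
        unfold ent
        rw [← e2]
        linarith

end Claimed.Agent.R259
end

/- ===== packed: Claimed.Agent.R259.S7JacDefs ===== -/
section
/-
Row 259 (S0499), section 7, package BP-S7-JAC (scale Jacobian): definitions.  Owner: helper121.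

* `B.s7jF t L P u T d w` : integrand of `valF` at scale `T`, `w = (N, G', G)`;
* `B.s7jG t L P u x d w` : integrand of `mInt` at `x`;
* `s7jP b R`  : spectral projection of the symmetric matrix `R` for the eigenvalue `b`;
* `s7jp R i`  : rank one projection on the `i`-th eigenvector of `R`;
* `B.s7jPhi t L P u d w i x` : contribution of the `i`-th eigenvector:
  `φ_i(x) = 2 Re tr(H[v] p_i Q^x) - 4 |p_i Q^x|²`.
KEY IDENTITIES: `s7jF(T) = ∑_i φ_i(T r_i²)`, `s7jG(x) = ∑_i r_i² φ_i(x)`.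
-/
set_option autoImplicit false

open MeasureTheory ProbabilityTheory
open scoped BigOperators Matrix
open Claimed.Agent.R260 (Mx mxFun mxSchur mxSq mxIP mxEig mxU mxRot)

namespace Claimed.Agent.R259

noncomputable section

variable {n : ℕ}

/-- spectral projection of the symmetric matrix `R` for the eigenvalue `b` -/
def s7jP (b : ℝ) (R : Mx n) : Mx n := mxFun (fun v => if v = b then 1 else 0) R

/-- rank one projection on the `i`-th eigenvector of `R` -/
def s7jp (R : Mx n) (i : Fin n) : Mx n :=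
  mxU R * Matrix.diagonal (fun j => if j = i then (1 : ℝ) else 0) * (mxU R)ᵀ

namespace BlockModel

variable {D : Type} [MeasurableSpace D] {Q : Measure D} (B : BlockModel n Q)

/-- integrand of `valF` at scale `T`, `w = (N, G', G)` -/
def s7jF (t L : ℝ) (P : Tst) (u T : ℝ) (d : D) (w : EE n × EE n × EE n) : ℝ :=
  B.pay d (w.1 - Real.exp (-u) • ouV u w.1 w.2.1)
    (B.tQ P u T d (ouV u w.1 w.2.1) (mv (mxFun (hT L T) (B.sigHalf t d w.1)) w.2.2))

/-- integrand of `mInt` at `x`, `w = (N, G', G)` -/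
def s7jG (t L : ℝ) (P : Tst) (u x : ℝ) (d : D) (w : EE n × EE n × EE n) : ℝ :=
  2 * (Matrix.trace (toC (B.Rs d * B.Rs d
        * colAt (B.H d) (w.1 - Real.exp (-u) • ouV u w.1 w.2.1)) * B.xQ t L P u x d w)).re
    - 4 * cSq (B.xQ t L P u x d w * toC (B.Rs d))

/-- contribution of the `i`-th eigenvector of `R_*(d)` -/
def s7jPhi (t L : ℝ) (P : Tst) (u : ℝ) (d : D) (w : EE n × EE n × EE n) (i : Fin n) (x : ℝ) : ℝ :=
  2 * (Matrix.trace (toC (colAt (B.H d) (w.1 - Real.exp (-u) • ouV u w.1 w.2.1))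
        * (toC (s7jp (B.Rs d) i) * B.xQ t L P u x d w))).re
    - 4 * cSq (toC (s7jp (B.Rs d) i) * B.xQ t L P u x d w)

end BlockModel

end

/-- generates the equation lemmas of the definitions above in this file (rule 6: unique names) -/
theorem s7jacdefs_eqns_cite : True := by
  have := @s7jP.eq_1
  have := @s7jp.eq_1
  have := @BlockModel.s7jF.eq_1
  have := @BlockModel.s7jG.eq_1
  have := @BlockModel.s7jPhi.eq_1
  trivial

end Claimed.Agent.R259
end

/- ===== packed: Claimed.Agent.R259.S7JacLoc ===== -/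
section
/-
Row 259 (S0499), section 7, package BP-S7-JAC: BLOCK LOCALISATION.
LEAF L-s7j-loc: PROVED (helper121).
Pure linear algebra, no paper reading.  Tools: S7Cx.lean (`mxFunC_mul`, `mxFunC_ofReal`, `mxFunC_congr`,
`mxFunC_smul`, `mxFun_commute_of`, `mxFunC_commute`, `mxFun_local`, `mxFunC_local`), R260/MxFun, MxFunB
(`mxFun_mul`, `mxFun_id`, `mxFun_smul`, `mxFun_comp`, `mxFun_isSymm`, `mxFun_congr`), S7ValAlg.lean.

NOTATION. `R = B.Rs d`, `Pb = s7jP b R` (spectral projection), `A = H[N] = colAt (B.H d) N`,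
`E = mxFun (fun x => exp(√(2t) x - 2t)) A`, `σ = B.sigHalf t d N = R * E`.

PLAN.
* `s7j_P_mul_R`: `R = mxFun id R` (`mxFun_id`), `mxFun_mul`, `mxFun_congr` (`1_{v=b} v = b 1_{v=b}`), `mxFun_smul`.
* `s7j_P_mul_funC`: `toC Pb = mxFunC (fun v => ((if v = b then 1 else 0 : ℝ) : ℂ)) R` (`mxFunC_ofReal`),
  `← mxFunC_mul`, `mxFunC_congr`, `mxFunC_smul`.
* `s7j_P_comm_colAt`: `s7v_colAt_fun_comm`.
* `s7j_P_sigHalf`: `Pb * (R * E) = (Pb * R) * E = b • Pb * E`.
* `s7j_P_hT`: `mxFun_local (hT L T)` with `M = Pb`, `A := σ` (symmetric: `s7v_sigHalf_symm`),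
  `B := b • E` (symmetric); `Pb` commutes with `E` (`s7v_fun_comm`), with `R`, hence with `σ`.
  Then `b • E = mxFun (fun x => b * exp(..)) A` (`mxFun_smul`), `mxFun_comp`, and `s7v_hT_gx`.
* `s7j_P_obs`: `Pb * H[z] = H[mv Pb z]` (`s7v_outer_fun`, read from right to left), `mv Pb (mv M G) = mv (Pb * M) G`
  (`s7v_mv_mul`), `s7j_P_hT`.
* `s7j_P_cE`: `mxFunC_local` with `M = Pb`, using `s7j_P_obs`, `s7j_P_comm_colAt`, `s7v_colAt_symm`.
* `s7j_P_comm_cE`: `mxFunC_commute` with `M = toC Pb` (`toC_mul`, `s7j_P_comm_colAt`).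
* `s7j_local`: unfold `tQ`, `xQ`; `Finset.mul_sum`; for each `k`:
  `Pb * (c_k(u,T R²) * E1 * E2) = c_k(u,T b²) • (Pb * E1 * E2) = c • (E1 * Pb * E2) = c • (E1 * Pb * E2') = c • Pb * (E1 * E2')`.
-/
set_option autoImplicit false

open MeasureTheory ProbabilityTheory
open scoped BigOperators Matrix
open Claimed.Agent.R260 (Mx mxFun mxSchur mxSq mxIP mxEig mxU mxRot)

namespace Claimed.Agent.R259

variable {n : ℕ}

theorem s7j_P_symm (b : ℝ) (R : Mx n) : (s7jP b R).IsSymm :=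
  Claimed.Agent.R260.mxFun_isSymm _ _

theorem s7j_P_mul_R {R : Mx n} (hR : R.IsSymm) (b : ℝ) : s7jP b R * R = b • s7jP b R := by
  unfold s7jP
  have h0 : mxFun (fun v => if v = b then (1 : ℝ) else 0) R * R
      = mxFun (fun v => if v = b then (1 : ℝ) else 0) R * mxFun (fun a => a) R := by
    rw [Claimed.Agent.R260.mxFun_id hR]
  rw [h0, ← Claimed.Agent.R260.mxFun_mul, ← Claimed.Agent.R260.mxFun_smul]
  refine Claimed.Agent.R260.mxFun_congr fun i => ?_
  by_cases h : mxEig R i = b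
  · simp [h]
  · simp [h]

theorem s7j_P_mul_funC (f : ℝ → ℂ) (b : ℝ) (R : Mx n) :
    toC (s7jP b R) * mxFunC f R = f b • toC (s7jP b R) := by
  unfold s7jP
  rw [← mxFunC_ofReal, ← mxFunC_mul, ← mxFunC_smul]
  refine mxFunC_congr fun i => ?_
  by_cases h : mxEig R i = b
  · simp [h]
  · simp [h]

variable {D : Type} [MeasurableSpace D] {Q : Measure D} (B : BlockModel n Q)

theorem s7j_P_comm_colAt (b : ℝ) (d : D) (v : EE n) :
    s7jP b (B.Rs d) * colAt (B.H d) v = colAt (B.H d) v * s7jP b (B.Rs d) :=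
  (s7v_colAt_fun_comm B _ d v).symm

theorem s7j_P_sigHalf (t b : ℝ) (d : D) (N : EE n) :
    s7jP b (B.Rs d) * B.sigHalf t d N
      = s7jP b (B.Rs d)
        * (b • mxFun (fun x => Real.exp (Real.sqrt (2 * t) * x - 2 * t)) (colAt (B.H d) N)) := by
  unfold BlockModel.sigHalf
  rw [← mul_assoc, s7j_P_mul_R (s7v_Rs_symm B d), Matrix.smul_mul, Matrix.mul_smul]

theorem s7j_P_hT (t L T b : ℝ) (d : D) (N : EE n) :
    s7jP b (B.Rs d) * mxFun (hT L T) (B.sigHalf t d N)
      = s7jP b (B.Rs d) * mxFun (gx t L (T * b ^ 2)) (colAt (B.H d) N) := by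
  set E := mxFun (fun x => Real.exp (Real.sqrt (2 * t) * x - 2 * t)) (colAt (B.H d) N) with hE
  have hPE : s7jP b (B.Rs d) * E = E * s7jP b (B.Rs d) := (s7v_fun_comm B _ _ d N).symm
  have hPR : s7jP b (B.Rs d) * B.Rs d = B.Rs d * s7jP b (B.Rs d) := by
    unfold s7jP
    exact (mxFun_commute_of (s7v_Rs_symm B d) rfl).symm
  have hbE : (b • E).IsSymm := by
    unfold Matrix.IsSymm
    rw [Matrix.transpose_smul, hE, Claimed.Agent.R260.mxFun_isSymm]
  have h1 : s7jP b (B.Rs d) * B.sigHalf t d N = B.sigHalf t d N * s7jP b (B.Rs d) := by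
    show s7jP b (B.Rs d) * (B.Rs d * E) = (B.Rs d * E) * s7jP b (B.Rs d)
    rw [← mul_assoc, hPR, mul_assoc, hPE, mul_assoc]
  have h2 : s7jP b (B.Rs d) * (b • E) = (b • E) * s7jP b (B.Rs d) := by
    rw [Matrix.mul_smul, Matrix.smul_mul, hPE]
  rw [mxFun_local (hT L T) (s7v_sigHalf_symm B t d N) hbE h1 h2 (s7j_P_sigHalf B t b d N)]
  congr 1
  rw [hE, ← Claimed.Agent.R260.mxFun_smul, Claimed.Agent.R260.mxFun_comp]
  refine Claimed.Agent.R260.mxFun_congr fun i => ?_
  exact s7v_hT_gx t L T b _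

theorem s7j_P_obs (t L T b : ℝ) (d : D) (N G : EE n) :
    s7jP b (B.Rs d) * colAt (B.H d) (mv (mxFun (hT L T) (B.sigHalf t d N)) G)
      = s7jP b (B.Rs d)
        * colAt (B.H d) (mv (mxFun (gx t L (T * b ^ 2)) (colAt (B.H d) N)) G) := by
  unfold s7jP
  rw [← s7v_outer_fun, ← s7v_outer_fun, ← s7v_mv_mul, ← s7v_mv_mul]
  have := s7j_P_hT B t L T b d N
  unfold s7jP at this
  rw [this]

theorem s7j_P_cE (t L T b r : ℝ) (d : D) (N G : EE n) :
    toC (s7jP b (B.Rs d)) * cE r (colAt (B.H d) (mv (mxFun (hT L T) (B.sigHalf t d N)) G))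
      = toC (s7jP b (B.Rs d))
        * cE r (colAt (B.H d) (mv (mxFun (gx t L (T * b ^ 2)) (colAt (B.H d) N)) G)) := by
  unfold cE
  exact mxFunC_local _ (s7v_colAt_symm B d _) (s7v_colAt_symm B d _) (s7j_P_comm_colAt B b d _)
    (s7j_P_comm_colAt B b d _) (s7j_P_obs B t L T b d N G)

theorem s7j_P_comm_cE (s b : ℝ) (d : D) (y : EE n) :
    toC (s7jP b (B.Rs d)) * cE s (colAt (B.H d) y)
      = cE s (colAt (B.H d) y) * toC (s7jP b (B.Rs d)) := by
  unfold cE
  exact mxFunC_commute _ (s7v_colAt_symm B d y)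
    (by rw [← toC_mul, ← toC_mul, s7j_P_comm_colAt])

/-- MAIN: on the block of the eigenvalue `b` the test at scale `T` with the frozen observation is the
test at `x = T b²`. -/
theorem s7j_local (t L : ℝ) (P : Tst) (u T b : ℝ) (d : D) (w : EE n × EE n × EE n) :
    toC (s7jP b (B.Rs d))
        * B.tQ P u T d (ouV u w.1 w.2.1) (mv (mxFun (hT L T) (B.sigHalf t d w.1)) w.2.2)
      = toC (s7jP b (B.Rs d)) * B.xQ t L P u (T * b ^ 2) d w := by
  unfold BlockModel.tQ BlockModel.xQ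
  rw [Finset.mul_sum, Finset.mul_sum]
  refine Finset.sum_congr rfl fun k _ => ?_
  rw [← mul_assoc, ← mul_assoc, s7j_P_mul_funC, Matrix.smul_mul, Matrix.smul_mul, Matrix.mul_smul]
  congr 1
  rw [s7j_P_comm_cE, mul_assoc, s7j_P_cE, ← mul_assoc, ← s7j_P_comm_cE, mul_assoc]

end Claimed.Agent.R259
end

/- ===== packed: Claimed.Agent.R259.S7JacDec ===== -/
section
/-
Row 259 (S0499), section 7, package BP-S7-JAC: DECOMPOSITION along the eigenvectors of `R_*`.
LEAF L-s7j-dec: PROVED (helper121).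
Pure linear algebra, no paper reading.  Uses `s7j_local` (S7JacLoc.lean) as a black box.

NOTATION. `R = B.Rs d`, `U = mxU R`, `r_i = mxEig R i`, `p_i = s7jp R i = U diag(e_i) Uᵀ`,
`P_b = s7jP b R = U diag(1_{r_j = b}) Uᵀ`, `v = N - α N_u`, `Q^x = B.xQ t L P u x d w`.

PLAN.
* facts on `p_i`: everything is `U * diag * Uᵀ`; `mxU_transpose_mul`, `mxU_mul_transpose` (R260/MxFun),
  `Matrix.diagonal_mul_diagonal`, `mx_spectral` (`R = U diag(r) Uᵀ`).  A convenient lemma:
  `(U * diag a * Uᵀ) * (U * diag b * Uᵀ) = U * diag (a*b) * Uᵀ`.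
* `s7j_cSq_split`: `cSq Q = Re tr(Qᴴ Q)` (`cSq_eq_trace`), `Qᴴ Q = ∑_i Qᴴ p_i Q = ∑_i (p_i Q)ᴴ (p_i Q)`
  (`p_i` real symmetric idempotent, `toC_conjTranspose`, `∑ p_i = 1`).
* `s7j_cSq_p_mul_unitary`: `cSq_mul_unitary`, `cSq_toC`, `mxSq p_i = tr(p_i) = 1`.
* `s7j_xQ_comm`: each `cE s (H[y])` commutes with `toC R` (`mxFunC_commute` with `M = toC R`,
  `s7v_colAt_comm`, `s7v_colAt_symm`).
* `s7j_F_eq`: `pay d v Q = 2 Re tr(H[v] Q) - 4 cSq Q`, `Q = ∑_i p_i Q`, `cSq Q = ∑_i cSq (p_i Q)`,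
  `p_i Q = p_i P_{r_i} Q = p_i P_{r_i} Q^{T r_i²} = p_i Q^{T r_i²}` (`s7j_p_mul_P`, `s7j_local` with `b = r_i`).
* `s7j_G_eq`: `R R H[v] = H[v] R R` (`s7v_colAt_comm`), `R R = ∑ r_i² p_i`;
  `cSq (Q^x R) = cSq (R Q^x) = ∑_i cSq (p_i R Q^x) = ∑_i r_i² cSq (p_i Q^x)` (`cSq_smul`).
-/
set_option autoImplicit false

open MeasureTheory ProbabilityTheory
open scoped BigOperators Matrix
open Claimed.Agent.R260 (Mx mxFun mxSchur mxSq mxIP mxEig mxU mxRot)

namespace Claimed.Agent.R259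

variable {n : ℕ}

theorem s7j_conj_mul (R : Mx n) (a b : Fin n → ℝ) :
    (mxU R * Matrix.diagonal a * (mxU R)ᵀ) * (mxU R * Matrix.diagonal b * (mxU R)ᵀ)
      = mxU R * Matrix.diagonal (fun j => a j * b j) * (mxU R)ᵀ := by
  have h := Claimed.Agent.R260.mxU_transpose_mul R
  calc (mxU R * Matrix.diagonal a * (mxU R)ᵀ) * (mxU R * Matrix.diagonal b * (mxU R)ᵀ)
      = mxU R * Matrix.diagonal a * ((mxU R)ᵀ * mxU R) * Matrix.diagonal b * (mxU R)ᵀ := by
        simp only [mul_assoc]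
    _ = mxU R * Matrix.diagonal (fun j => a j * b j) * (mxU R)ᵀ := by
        rw [h, mul_one, mul_assoc (mxU R), Matrix.diagonal_mul_diagonal]

theorem s7j_p_symm (R : Mx n) (i : Fin n) : (s7jp R i).IsSymm :=
  Claimed.Agent.R260.mx_diag_conj_isSymm _ _

theorem s7j_p_mul_p (R : Mx n) (i : Fin n) : s7jp R i * s7jp R i = s7jp R i := by
  unfold s7jp
  rw [s7j_conj_mul]
  congr 3
  funext j
  by_cases h : j = i <;> simp [h]

theorem s7j_p_sum (R : Mx n) : ∑ i, s7jp R i = 1 := by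
  unfold s7jp
  rw [← Finset.sum_mul, ← Finset.mul_sum]
  have h : ∑ i : Fin n, Matrix.diagonal (fun j => if j = i then (1 : ℝ) else 0) = 1 := by
    ext a b
    rw [Matrix.sum_apply]
    by_cases hab : a = b
    · subst hab
      simp
    · simp [hab]
  rw [h, mul_one, Claimed.Agent.R260.mxU_mul_transpose]

theorem s7j_p_mul_P (R : Mx n) (i : Fin n) : s7jp R i * s7jP (mxEig R i) R = s7jp R i := by
  unfold s7jp s7jP Claimed.Agent.R260.mxFun
  rw [s7j_conj_mul]
  congr 3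
  funext j
  by_cases h : j = i
  · subst h; simp
  · simp [h]

theorem s7j_p_mul_R {R : Mx n} (hR : R.IsSymm) (i : Fin n) :
    s7jp R i * R = mxEig R i • s7jp R i := by
  have h0 : s7jp R i * R = s7jp R i * (mxU R * Matrix.diagonal (mxEig R) * (mxU R)ᵀ) := by
    rw [← Claimed.Agent.R260.mx_spectral hR]
  rw [h0]
  unfold s7jp
  rw [s7j_conj_mul, ← Matrix.smul_mul, ← Matrix.mul_smul]
  congr 2
  ext a b
  by_cases hab : a = b
  · subst hab
    by_cases h : a = i
    · subst h; simp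
    · simp [h]
  · simp [hab]

theorem s7j_sum_sq_p {R : Mx n} (hR : R.IsSymm) : ∑ i, mxEig R i ^ 2 • s7jp R i = R * R := by
  have h1 : R * R = (∑ i, s7jp R i) * R * R := by rw [s7j_p_sum, one_mul]
  rw [h1, Finset.sum_mul, Finset.sum_mul]
  refine Finset.sum_congr rfl fun i _ => ?_
  rw [s7j_p_mul_R hR, Matrix.smul_mul, s7j_p_mul_R hR, smul_smul, pow_two]

theorem s7j_toC_p_conj (R : Mx n) (i : Fin n) : (toC (s7jp R i))ᴴ = toC (s7jp R i) := by
  rw [toC_conjTranspose, s7j_p_symm]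

theorem s7j_toC_p_sum (R : Mx n) : ∑ i, toC (s7jp R i) = 1 := by
  rw [← toC_sum, s7j_p_sum, toC_one]

theorem s7j_cSq_split (R : Mx n) (Qm : CMx n) : cSq Qm = ∑ i, cSq (toC (s7jp R i) * Qm) := by
  have h1 : ∀ i, cSq (toC (s7jp R i) * Qm)
      = (Matrix.trace (Qmᴴ * (toC (s7jp R i) * Qm))).re := by
    intro i
    rw [cSq_eq_trace, Matrix.conjTranspose_mul, s7j_toC_p_conj, mul_assoc,
      ← mul_assoc (toC (s7jp R i)) (toC (s7jp R i)), ← toC_mul, s7j_p_mul_p]
  simp only [h1]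
  rw [← Complex.re_sum, ← Matrix.trace_sum, ← Finset.mul_sum, ← Finset.sum_mul, s7j_toC_p_sum,
    one_mul, cSq_eq_trace]

theorem s7j_mxSq_p (R : Mx n) (i : Fin n) : mxSq (s7jp R i) = 1 := by
  unfold Claimed.Agent.R260.mxSq
  rw [s7j_p_symm, s7j_p_mul_p]
  unfold s7jp
  rw [Matrix.trace_mul_comm, ← mul_assoc, Claimed.Agent.R260.mxU_transpose_mul, one_mul,
    Matrix.trace_diagonal]
  simp

theorem s7j_cSq_p_mul_unitary (R : Mx n) (i : Fin n) {U : CMx n} (hU : U * Uᴴ = 1) :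
    cSq (toC (s7jp R i) * U) = 1 := by
  rw [cSq_mul_unitary _ hU, cSq_toC, s7j_mxSq_p]

variable {D : Type} [MeasurableSpace D] {Q : Measure D} (B : BlockModel n Q)

theorem s7j_Rs_comm_cE (s : ℝ) (d : D) (y : EE n) :
    toC (B.Rs d) * cE s (colAt (B.H d) y) = cE s (colAt (B.H d) y) * toC (B.Rs d) := by
  unfold cE
  exact mxFunC_commute _ (s7v_colAt_symm B d y)
    (by rw [← toC_mul, ← toC_mul, s7v_colAt_comm])

theorem s7j_xQ_comm (t L : ℝ) (P : Tst) (u x : ℝ) (d : D) (w : EE n × EE n × EE n) :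
    B.xQ t L P u x d w * toC (B.Rs d) = toC (B.Rs d) * B.xQ t L P u x d w := by
  unfold BlockModel.xQ
  rw [Finset.sum_mul, Finset.mul_sum]
  refine Finset.sum_congr rfl fun k _ => ?_
  rw [Matrix.smul_mul, Matrix.mul_smul, mul_assoc, ← s7j_Rs_comm_cE, ← mul_assoc,
    ← s7j_Rs_comm_cE, mul_assoc]

/-- the pay-off splits along the eigenvectors -/
theorem s7j_pay_split (d : D) (v : EE n) (Qm : CMx n) :
    B.pay d v Qm = ∑ i, (2 * (Matrix.trace (toC (colAt (B.H d) v)
        * (toC (s7jp (B.Rs d) i) * Qm))).re - 4 * cSq (toC (s7jp (B.Rs d) i) * Qm)) := by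
  unfold BlockModel.pay
  rw [Finset.sum_sub_distrib, ← Finset.mul_sum, ← Finset.mul_sum, ← s7j_cSq_split,
    ← Complex.re_sum, ← Matrix.trace_sum, ← Finset.mul_sum, ← Finset.sum_mul, s7j_toC_p_sum,
    one_mul]

/-- J1 -/
theorem s7j_F_eq (t L : ℝ) (P : Tst) (u T : ℝ) (d : D) (w : EE n × EE n × EE n) :
    B.s7jF t L P u T d w = ∑ i, B.s7jPhi t L P u d w i (T * mxEig (B.Rs d) i ^ 2) := by
  unfold BlockModel.s7jF BlockModel.s7jPhi
  rw [s7j_pay_split]
  refine Finset.sum_congr rfl fun i _ => ?_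
  have h : toC (s7jp (B.Rs d) i)
        * B.tQ P u T d (ouV u w.1 w.2.1) (mv (mxFun (hT L T) (B.sigHalf t d w.1)) w.2.2)
      = toC (s7jp (B.Rs d) i) * B.xQ t L P u (T * mxEig (B.Rs d) i ^ 2) d w := by
    rw [← s7j_p_mul_P (B.Rs d) i, toC_mul, mul_assoc, s7j_local, ← mul_assoc]
  rw [h]

/-- J2 -/
theorem s7j_G_eq (t L : ℝ) (P : Tst) (u x : ℝ) (d : D) (w : EE n × EE n × EE n) :
    B.s7jG t L P u x d w = ∑ i, mxEig (B.Rs d) i ^ 2 * B.s7jPhi t L P u d w i x := by
  unfold BlockModel.s7jG BlockModel.s7jPhi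
  set v := w.1 - Real.exp (-u) • ouV u w.1 w.2.1 with hv
  set Qx := B.xQ t L P u x d w with hQx
  have hR := s7v_Rs_symm B d
  -- the trace term
  have h1 : toC (B.Rs d * B.Rs d * colAt (B.H d) v) * Qx
      = ∑ i, ((mxEig (B.Rs d) i ^ 2 : ℝ) : ℂ) • (toC (colAt (B.H d) v)
          * (toC (s7jp (B.Rs d) i) * Qx)) := by
    have e : B.Rs d * B.Rs d * colAt (B.H d) v = colAt (B.H d) v * (B.Rs d * B.Rs d) := by
      rw [mul_assoc, ← s7v_colAt_comm, ← mul_assoc, ← s7v_colAt_comm, mul_assoc]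
    rw [e, ← s7j_sum_sq_p hR, toC_mul, toC_sum, mul_assoc, Finset.sum_mul, Finset.mul_sum]
    refine Finset.sum_congr rfl fun i _ => ?_
    rw [toC_smul, Matrix.smul_mul, Matrix.mul_smul]
  -- the square term
  have h2 : cSq (Qx * toC (B.Rs d))
      = ∑ i, mxEig (B.Rs d) i ^ 2 * cSq (toC (s7jp (B.Rs d) i) * Qx) := by
    rw [hQx, s7j_xQ_comm, ← hQx, s7j_cSq_split (B.Rs d)]
    refine Finset.sum_congr rfl fun i _ => ?_
    rw [← mul_assoc, ← toC_mul, s7j_p_mul_R hR, toC_smul, Matrix.smul_mul, cSq_smul,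
      Complex.norm_real, Real.norm_eq_abs, sq_abs]
  rw [h1, h2, Matrix.trace_sum, Complex.re_sum, Finset.mul_sum, Finset.mul_sum,
    ← Finset.sum_sub_distrib]
  refine Finset.sum_congr rfl fun i _ => ?_
  rw [Matrix.trace_smul, smul_eq_mul, Complex.re_ofReal_mul]
  ring

end Claimed.Agent.R259
end
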