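/- Packed by merge_tool.py (helper293): 7 modules of Claimed.Agent.R259 in one file, same declarations.
   Old modules, in this order: S4CurveUp, S4LossDP, S4Loss, S4CurveLow, S4CurveLin, S4CurveGap, S4Curve -/
import Claimed.Agent.R259.Pack010
import Claimed.Agent.R259.Pack012
import Claimed.Agent.R259.Pack011
import Claimed.Agent.R259.Pack022
import Claimed.Agent.R259.Pack033

/- ===== packed: Claimed.Agent.R259.S4CurveUp ===== -/
section
/-
Row 259 (S0499), section 4, package BP-S4-curve, file UP: strict branch, upper bound (`s4c_upper` = `s4_upper` of S4Curve.lean).  GLUE PROVED.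
Owner: helper147.
 (1) I-MMSE per posterior `hpm m r u`:  `(T-v)/2 lcPE(post) v ≤ lcD(post) T`                 [`lc_D_inc`, `lc_D_nonneg`]
 (2) chain rule (HEAT)                                                                      [`s4c_chain_heat`]
 (3) contraction per label `l`, `σ_l = lcPm m w T l`                                         [`db_contract`]
 (4) chain rule (LABEL) with `ν = μ_s`, `k = f²`                                             [`s4c_chain_label`]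
 (5) `H(η | μ_s) = I/2`                                                                     [`StrictBranch.I_eq`]
-/
set_option autoImplicit false

open MeasureTheory ProbabilityTheory InformationTheory
open scoped ENNReal

namespace Claimed.Agent.R259

variable {E : Type} [NormedAddCommGroup E] [InnerProductSpace ℝ E] [FiniteDimensional ℝ E]
  [MeasurableSpace E] [BorelSpace E]

/-- step (1), integrated in `u` -/
theorem s4c_step1 {m : Measure E} [IsProbabilityMeasure m] {w : E → E} (hw : Measurable w) (hw2 : MemLp w 2 m)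
    {r v T : ℝ} (hr : 0 < r) (hv : 0 ≤ v) (hvT : v ≤ T) :
    ENNReal.ofReal ((T - v) / 2 * s4P m w r v) ≤
      ∫⁻ u, ENNReal.ofReal (lcD (hpm m r u) w T) ∂(dm (gconv m r)) := by
  unfold s4P
  rw [← integral_const_mul]
  have hc : 0 ≤ (T - v) / 2 := by linarith
  refine (s4c_ofReal_integral_le fun u => ?_).trans (lintegral_mono fun u => ENNReal.ofReal_le_ofReal ?_)
  · haveI := db_hpm_prob (ν := m) hr u
    exact mul_nonneg hc (lc_PE_nonneg hw.aemeasurable hv w)
  · haveI := db_hpm_prob (ν := m) hr u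
    have h2 := s4c_memLp_hpm hw hw2 hr u
    have h3 := (lc_D_inc h2 hv hvT).1
    have h4 := lc_D_nonneg h2 hv
    linarith

/-- the general inequality behind `s4_upper` -/
theorem s4c_upper_gen {ρ0 : E → ℝ} (h0 : LogConc ρ0) [IsProbabilityMeasure (dm ρ0)] {R r : ℝ} (hR : 0 < R) (hr : 0 < r)
    (hL : ∀ t, 0 < t → t ≤ r → LSI (dm (gconv (dm ρ0) t)) R)
    {m : Measure E} [IsProbabilityMeasure m] {k : E → ℝ} (hk : Measurable k) (hk0 : ∀ y, 0 ≤ k y)
    (hm : m = (dm ρ0).withDensity fun y => ENNReal.ofReal (k y))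
    {w : E → E} (hw : Measurable w) (hw2 : MemLp w 2 m) {v T : ℝ} (hv : 0 ≤ v) (hvT : v ≤ T) :
    ENNReal.ofReal ((T - v) / 2 * s4P m w r v) ≤
      ENNReal.ofReal (lcD m w T) + ENNReal.ofReal (Real.exp (-r / R)) *
        (entF (dm ρ0) k + ENNReal.ofReal (T / 2 * ∫ y, ‖w y‖ ^ 2 ∂m)) := by
  have hT : 0 ≤ T := hv.trans hvT
  haveI : IsProbabilityMeasure (dm (gconv (dm ρ0) r)) := gc_isProb hr
  have hq := db_gconv_spd (ν := dm ρ0) hr
  refine (s4c_step1 hw hw2 hr hv hvT).trans ?_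
  refine (s4c_chain_heat hw hw2 hq.1.continuous.measurable hq.2.1 hr hT).trans ?_
  gcongr
  calc ∫⁻ l, ENNReal.ofReal (lcZ m w T l) *
        klDiv (dm (gconv (lcPm m w T l) r)) (dm (gconv (dm ρ0) r)) ∂(stdGaussian E)
      ≤ ∫⁻ l, ENNReal.ofReal (Real.exp (-r / R)) *
          (ENNReal.ofReal (lcZ m w T l) * klDiv (lcPm m w T l) (dm ρ0)) ∂(stdGaussian E) := by
        refine lintegral_mono fun l => ?_
        haveI := lc_Pm_prob (m := m) hw.aemeasurable hT l
        have := db_contract h0 hR hr hL (lcPm m w T l)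
        calc ENNReal.ofReal (lcZ m w T l) * klDiv (dm (gconv (lcPm m w T l) r)) (dm (gconv (dm ρ0) r))
            ≤ ENNReal.ofReal (lcZ m w T l) *
                (ENNReal.ofReal (Real.exp (-r / R)) * klDiv (lcPm m w T l) (dm ρ0)) := by gcongr
          _ = _ := by ring
    _ = ENNReal.ofReal (Real.exp (-r / R)) *
          ∫⁻ l, ENNReal.ofReal (lcZ m w T l) * klDiv (lcPm m w T l) (dm ρ0) ∂(stdGaussian E) :=
        lintegral_const_mul' _ _ ENNReal.ofReal_ne_top
    _ ≤ _ := by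
        gcongr
        exact s4c_chain_label hk hk0 hm hw hw2 hT

/-! ### the strict branch -/

section strict

variable {μ : Measure E} {a δ : ℝ} {η : E → ℝ} {w : E → E} {f : E → ℝ}

theorem s4c_base_prob (hC : Crit μ a δ η w) : IsProbabilityMeasure μ := hC.base.prob

theorem s4c_s0_pos : 0 < s0 := by unfold s0; norm_num

theorem s4c_strict_dm (hC : Crit μ a δ η w) (hS : StrictBranch μ s0 1 η w f) :
    dm η = (dm (gconv μ s0)).withDensity fun y => ENNReal.ofReal (f y ^ 2) := by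
  haveI := hC.base.prob
  have hq := db_gconv_spd (ν := μ) s4c_s0_pos
  rw [← dfk_dm_mul hq.1.continuous.measurable (hS.f_smooth.continuous.measurable.pow_const 2)
    fun x => (hq.2.1 x).le]
  congr 1
  funext x
  rw [hS.η_eq x, mul_comm]

theorem s4c_strict_entF (hC : Crit μ a δ η w) (hS : StrictBranch μ s0 1 η w f) :
    entF (dm (gconv μ s0)) (fun y => f y ^ 2) = ENNReal.ofReal (1 / 2 * ∫ x, ‖w x‖ ^ 2 ∂(dm η)) := by
  haveI := hC.base.prob
  haveI : IsProbabilityMeasure (dm (gconv μ s0)) := gc_isProb s4c_s0_pos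
  rw [s4c_entF_real (fun y => sq_nonneg _)
    ((memLp_two_iff_integrable_sq hS.f_L2.1).1 hS.f_L2) hS.f_norm hS.ent_int, hS.I_eq]
  congr 1
  ring

theorem s4c_heat_lsi (hC : Crit μ a δ η w) {r : ℝ} (hr' : r ≤ 1 / 4) :
    ∀ t, 0 < t → t ≤ r → LSI (dm (gconv (dm (gconv μ s0)) t)) (1 + δ) := by
  intro t ht htr
  haveI := hC.base.prob
  rw [gc_semigroup s4c_s0_pos ht]
  exact hC.lsi_heat t ht.le (htr.trans hr')

theorem s4c_upper (hδ : 0 ≤ δ) (hC : Crit μ a δ η w) (hS : StrictBranch μ s0 1 η w f) {r v T : ℝ} (hr : 0 < r)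
    (hr' : r ≤ 1 / 4) (hv : 0 ≤ v) (hvT : v < T) :
    (T - v) / 2 * s4P (dm η) w r v ≤
      Real.exp (-r / (1 + δ)) * ((1 + T) / 2 * ∫ x, ‖w x‖ ^ 2 ∂(dm η)) + lcD (dm η) w T := by
  haveI := hC.base.prob
  haveI : IsProbabilityMeasure (dm (gconv μ s0)) := gc_isProb s4c_s0_pos
  haveI : IsProbabilityMeasure (dm η) := lc_spd_prob hC.field.spd
  have hT : 0 ≤ T := hv.trans hvT.le
  have hw : Measurable w := hC.field.w_smooth.continuous.measurable
  have hw2 := hC.field.w_L2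
  set I := ∫ x, ‖w x‖ ^ 2 ∂(dm η) with hI
  have hI0 : 0 ≤ I := integral_nonneg fun _ => by positivity
  have hD0 : 0 ≤ lcD (dm η) w T := lc_D_nonneg hw2 hT
  have key := s4c_upper_gen (gc_logConc hC.base.dens s4c_s0_pos) (R := 1 + δ) (by linarith) hr
    (s4c_heat_lsi hC hr') (hS.f_smooth.continuous.measurable.pow_const 2) (fun y => sq_nonneg _)
    (s4c_strict_dm hC hS) hw hw2 hv hvT.le
  rw [s4c_strict_entF hC hS, ← hI, ← ENNReal.ofReal_add (by positivity) (by positivity),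
    ← ENNReal.ofReal_mul (Real.exp_pos _).le, ← ENNReal.ofReal_add hD0 (by positivity),
    ENNReal.ofReal_le_ofReal_iff (by positivity)] at key
  calc (T - v) / 2 * s4P (dm η) w r v ≤ _ := key
    _ = _ := by ring

end strict

end Claimed.Agent.R259
end

/- ===== packed: Claimed.Agent.R259.S4LossDP ===== -/
section
/-
Row 259 (S0499), Lemma 4.2: the backward induction (dynamic programming), pointwise in the state `(z,c)`.
Owner: helper103.
-/
set_option autoImplicit false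
set_option linter.unusedSectionVars false

open MeasureTheory Filter Topology
open scoped ContDiff ENNReal

namespace Claimed.Agent.R259

variable {E : Type} [NormedAddCommGroup E] [InnerProductSpace ℝ E] [FiniteDimensional ℝ E]
  [MeasurableSpace E] [BorelSpace E]

/-- the pointwise algebraic inequality behind the induction. -/
theorem s4l_alg {t δ : ℝ} (ht : 0 < t) (hδ : 0 < δ) (a D : E) :
    ‖a + δ • D‖ ^ 2 / (t + δ) - δ * ‖D‖ ^ 2 ≤ ‖a‖ ^ 2 / t := by
  have h1 : 0 ≤ ‖a - t • D‖ ^ 2 := by positivity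
  rw [norm_sub_sq_real, norm_smul, inner_smul_right, Real.norm_eq_abs, abs_of_pos ht] at h1
  rw [norm_add_sq_real, norm_smul, inner_smul_right, Real.norm_eq_abs, abs_of_pos hδ,
    sub_le_iff_le_add, div_le_iff₀ (by positivity)]
  have h2 : (‖a‖ ^ 2 / t + δ * ‖D‖ ^ 2) * (t + δ) =
      ‖a‖ ^ 2 + δ * (‖a‖ ^ 2 / t) + δ * ‖D‖ ^ 2 * (t + δ) := by
    field_simp
  rw [h2]
  have h3 : 2 * inner ℝ a D - t * ‖D‖ ^ 2 ≤ ‖a‖ ^ 2 / t := by
    rw [le_div_iff₀ ht]; nlinarith
  nlinarith [mul_le_mul_of_nonneg_left h3 hδ.le]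

theorem s4l_alg' {t δ Z : ℝ} (ht : 0 < t) (hδ : 0 < δ) (hZ : 0 < Z) (N c D : E) :
    ‖N + Z • (c + δ • D)‖ ^ 2 / Z / (t + δ) - δ * ‖D‖ ^ 2 * Z ≤ ‖N + Z • c‖ ^ 2 / (t * Z) := by
  have h := s4l_alg ht hδ (N + Z • c) (Z • D)
  have e1 : N + Z • c + δ • Z • D = N + Z • (c + δ • D) := by
    rw [smul_add, smul_comm, add_assoc]
  rw [e1, norm_smul Z D, Real.norm_eq_abs, abs_of_pos hZ] at h
  have h2 := div_le_div_of_nonneg_right h hZ.le
  have e2 : (‖N + Z • (c + δ • D)‖ ^ 2 / (t + δ) - δ * (Z * ‖D‖) ^ 2) / Z =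
      ‖N + Z • (c + δ • D)‖ ^ 2 / Z / (t + δ) - δ * ‖D‖ ^ 2 * Z := by
    have : t + δ ≠ 0 := by positivity
    field_simp
  have e3 : ‖N + Z • c‖ ^ 2 / t / Z = ‖N + Z • c‖ ^ 2 / (t * Z) := by
    rw [div_div]
  rwa [e2, e3] at h2

section

variable {p q : E → ℝ} {w : E → E} {c₀ : ℝ}

theorem S4LHyp.prob (H : S4LHyp p q w c₀) : IsProbabilityMeasure (dm p) := by
  constructor
  unfold dm
  rw [withDensity_apply _ MeasurableSet.univ, Measure.restrict_univ,
    ← ofReal_integral_eq_lintegral_ofReal (s4l_spd_integrable H.hp)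
      (ae_of_all _ fun y => s4l_spd_nonneg H.hp y), H.hp.2.2]
  simp

theorem S4LHyp.memLp_w (H : S4LHyp p q w c₀) : MemLp w 2 (dm p) := by
  rw [memLp_two_iff_integrable_sq_norm H.w_continuous.aestronglyMeasurable,
    s4l_integrable_dm H.p_continuous.measurable (s4l_spd_nonneg H.hp)]
  exact H.int_w2

theorem s4l_hpe_antitoneOn (H : S4LHyp p q w c₀) :
    AntitoneOn (fun r => hpe (dm p) r w) (Set.Ioi 0) := by
  have := H.prob
  intro r₁ h₁ r₂ _ h₁₂
  exact hc_pe_anti H.memLp_w h₁ h₁₂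

theorem s4l_hpe_intervalIntegrable (H : S4LHyp p q w c₀) {a b : ℝ} (ha : 0 < a) (hb : 0 < b) :
    IntervalIntegrable (fun r => hpe (dm p) r w) volume a b := by
  apply AntitoneOn.intervalIntegrable
  refine (s4l_hpe_antitoneOn H).mono fun x hx => ?_
  exact lt_of_lt_of_le (lt_min ha hb) hx.1

theorem s4l_hpe_rect (H : S4LHyp p q w c₀) {a b : ℝ} (ha : 0 < a) (hab : a ≤ b) :
    hpe (dm p) b w * (b - a) ≤ ∫ r in a..b, hpe (dm p) r w := by
  have h1 : ∫ _r in a..b, hpe (dm p) b w = hpe (dm p) b w * (b - a) := by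
    rw [intervalIntegral.integral_const, smul_eq_mul, mul_comm]
  rw [← h1]
  refine intervalIntegral.integral_mono_on hab intervalIntegrable_const
    (s4l_hpe_intervalIntegrable H ha (ha.trans_le hab)) fun x hx => ?_
  exact s4l_hpe_antitoneOn H (ha.trans_le hx.1) (ha.trans_le hab) hx.2

/-- **Backward induction.** -/
theorem s4l_dp (H : S4LHyp p q w c₀) {κ δ b : ℝ} (hκ : 0 < κ) (hκc : 8 * κ ≤ c₀) (hκb : 8 * κ ≤ b)
    (hδ : 0 < δ) (hδκ : δ ≤ κ) (n : ℕ) :
    ∀ t, b ≤ t → ∃ G Φ : E → ℝ, Measurable G ∧ Continuous Φ ∧ (∀ y, 0 ≤ Φ y) ∧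
      Integrable (fun y => p y • Φ y) ∧ (∀ z, |G z| ≤ s4lN p Φ t z) ∧
      (∀ z c, 2 * s4lR p q t z c ≤
        ‖s4lN p w t z + s4lZ p t z • c‖ ^ 2 / (t * s4lZ p t z) + G z) ∧
      hpe (dm p) t⁻¹ w / t + ∫ z, gk t z * G z ≤
        (∫ y, p y * ‖w y‖ ^ 2) / (t + n * δ) + (∫ r in (t + n * δ)⁻¹..t⁻¹, hpe (dm p) r w)
          + n * ∫ y, p y * s4lErr κ δ y := by
  have hb : 0 < b := by linarith
  have hwc := H.w_continuous
  have hW2c : Continuous (fun y => ‖w y‖ ^ 2) := by fun_prop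
  induction n with
  | zero =>
    intro t hbt
    have ht : 0 < t := hb.trans_le hbt
    obtain ⟨L1, L2⟩ := s4l_L_N H.p_continuous hW2c ht H.int_w2
    simp only [smul_eq_mul] at L1 L2
    have hVdom : ∀ z', |s4lV p w t z'| ≤ s4lN p (fun y => ‖w y‖ ^ 2) t z' := fun z' => by
      rw [abs_of_nonneg (s4l_V_nonneg H ht z')]; exact s4l_V_le H ht z'
    have LV := s4l_dom0 H.hp hW2c (s4l_V_measurable H t) ht H.int_w2 hVdom
    refine ⟨fun z => (s4lN p (fun y => ‖w y‖ ^ 2) t z - s4lV p w t z) / t,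
      fun y => (2 / t) * ‖w y‖ ^ 2, ?_, by fun_prop, fun y => by positivity, ?_, ?_, ?_, ?_⟩
    · exact (((s4l_N_stronglyMeasurable H.p_continuous hW2c t).measurable).sub
        (s4l_V_measurable H t)).div_const t
    · refine (H.int_w2.const_mul (2 / t)).congr (ae_of_all _ fun y => ?_)
      simp only [smul_eq_mul]; ring
    · intro z
      rw [s4l_N_const_mul]
      have h1 := s4l_V_nonneg H ht z
      have h2 := s4l_V_le H ht z
      rw [abs_of_nonneg (div_nonneg (by linarith) ht.le), div_le_iff₀ ht]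
      have : 2 / t * s4lN p (fun y => ‖w y‖ ^ 2) t z * t = 2 * s4lN p (fun y => ‖w y‖ ^ 2) t z := by
        field_simp
      rw [this]; linarith
    · intro z c
      have h1 := s4l_final H ht z c
      rw [s4l_N_sq_add H ht z c] at h1
      have h2 := s4l_sq_div H ht z c
      have h3 : ‖s4lN p w t z + s4lZ p t z • c‖ ^ 2 / (t * s4lZ p t z) =
          ‖s4lN p w t z + s4lZ p t z • c‖ ^ 2 / s4lZ p t z / t := by
        rw [div_div, mul_comm]
      rw [h3, h2, ← add_div]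
      refine h1.trans (le_of_eq ?_)
      congr 1; ring
    · have h1 : ∫ z, gk t z * ((s4lN p (fun y => ‖w y‖ ^ 2) t z - s4lV p w t z) / t) =
          ((∫ y, p y * ‖w y‖ ^ 2) - hpe (dm p) t⁻¹ w) / t := by
        rw [← L2, ← s4l_mu_eq H ht, ← integral_sub L1 LV, ← integral_div]
        congr 1; ext z; ring
      rw [h1]
      simp only [CharP.cast_eq_zero, zero_mul, add_zero, intervalIntegral.integral_same]
      rw [← add_div]
      apply le_of_eq; congr 1; ring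
  | succ n ih =>
    intro t hbt
    have ht : 0 < t := hb.trans_le hbt
    have htδ : 0 < t + δ := by linarith
    obtain ⟨G', Φ', hGm, hΦc, hΦ0, hΦi, hdom, hmain, hintg⟩ := ih (t + δ) (by linarith)
    have hErc : Continuous (s4lErr (E := E) κ δ) := s4l_Err_continuous κ δ
    have hEri : Integrable (fun y => p y • s4lErr κ δ y) := H.int_Err hκc δ
    set KG : E → ℝ := fun z => ∫ ζ, gk δ ζ * G' (z + ζ) with hKG
    set KV : E → ℝ := fun z => ∫ ζ, gk δ ζ * s4lV p w (t + δ) (z + ζ) with hKV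
    have hVdom' : ∀ z', |s4lV p w (t + δ) z'| ≤ s4lN p (fun y => ‖w y‖ ^ 2) (t + δ) z' := fun z' => by
      rw [abs_of_nonneg (s4l_V_nonneg H htδ z')]; exact s4l_V_le H htδ z'
    have hVdom : ∀ z', |s4lV p w t z'| ≤ s4lN p (fun y => ‖w y‖ ^ 2) t z' := fun z' => by
      rw [abs_of_nonneg (s4l_V_nonneg H ht z')]; exact s4l_V_le H ht z'
    have dG : ∀ z, Integrable (fun ζ => gk δ ζ * G' (z + ζ)) ∧ |KG z| ≤ s4lN p Φ' t z := fun z =>
      s4l_dom H.hp hΦc hGm hδ (s4l_tilt_integrable hΦi ht z) hdom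
    have dV : ∀ z, Integrable (fun ζ => gk δ ζ * s4lV p w (t + δ) (z + ζ)) ∧
        |KV z| ≤ s4lN p (fun y => ‖w y‖ ^ 2) t z := fun z =>
      s4l_dom H.hp hW2c (s4l_V_measurable H (t + δ)) hδ (s4l_tilt_integrable H.int_w2 ht z) hVdom'
    have hKGm : Measurable KG := s4l_K_measurable hGm δ
    have hKVm : Measurable KV := s4l_K_measurable (s4l_V_measurable H (t + δ)) δ
    have hW2i' : Integrable (fun y => p y • ((2 / (t + δ)) * ‖w y‖ ^ 2)) := by
      refine (H.int_w2.const_mul (2 / (t + δ))).congr (ae_of_all _ fun y => ?_)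
      simp only [smul_eq_mul]; ring
    have hΦW : Integrable (fun y => p y • (Φ' y + (2 / (t + δ)) * ‖w y‖ ^ 2)) := by
      refine (hΦi.add hW2i').congr (ae_of_all _ fun y => ?_)
      simp only [Pi.add_apply, smul_add]
    have hNΦ : ∀ z, s4lN p (fun y => Φ' y + (2 / (t + δ)) * ‖w y‖ ^ 2 + s4lErr κ δ y) t z =
        s4lN p Φ' t z + (2 / (t + δ)) * s4lN p (fun y => ‖w y‖ ^ 2) t z + s4lN p (s4lErr κ δ) t z := by
      intro z
      rw [s4l_N_add (s4l_tilt_integrable hΦW ht z) (s4l_tilt_integrable hEri ht z),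
        s4l_N_add (s4l_tilt_integrable hΦi ht z) (s4l_tilt_integrable hW2i' ht z), s4l_N_const_mul]
    refine ⟨fun z => KG z + (KV z - s4lV p w t z) / (t + δ) + s4lN p (s4lErr κ δ) t z,
      fun y => Φ' y + (2 / (t + δ)) * ‖w y‖ ^ 2 + s4lErr κ δ y, ?_, by fun_prop, ?_, ?_, ?_, ?_, ?_⟩
    · exact (hKGm.add ((hKVm.sub (s4l_V_measurable H t)).div_const _)).add
        (s4l_N_stronglyMeasurable H.p_continuous hErc t).measurable
    · intro y
      have := hΦ0 y
      have := s4l_Err_nonneg κ δ y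
      positivity
    · refine (hΦW.add hEri).congr (ae_of_all _ fun y => ?_)
      simp only [Pi.add_apply, smul_add]
    · intro z
      rw [hNΦ]
      have h1 := (dG z).2
      have h2 := (dV z).2
      have h3 := hVdom z
      have h4 : 0 ≤ s4lN p (s4lErr κ δ) t z :=
        s4l_N_nonneg (s4l_spd_nonneg H.hp) (s4l_Err_nonneg κ δ) t z
      have h5 : |(KV z - s4lV p w t z) / (t + δ)| ≤
          (2 / (t + δ)) * s4lN p (fun y => ‖w y‖ ^ 2) t z := by
        rw [abs_div, abs_of_pos htδ, div_le_iff₀ htδ]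
        have : 2 / (t + δ) * s4lN p (fun y => ‖w y‖ ^ 2) t z * (t + δ) =
            2 * s4lN p (fun y => ‖w y‖ ^ 2) t z := by field_simp
        rw [this]
        exact (abs_sub _ _).trans (by linarith)
      calc |KG z + (KV z - s4lV p w t z) / (t + δ) + s4lN p (s4lErr κ δ) t z|
          ≤ |KG z| + |(KV z - s4lV p w t z) / (t + δ)| + |s4lN p (s4lErr κ δ) t z| := abs_add_three _ _ _
        _ ≤ _ := by rw [abs_of_nonneg h4]; linarith
    · intro z c
      obtain ⟨S1, S2⟩ := s4l_step H hκ hκc (hκb.trans hbt) hδ hδκ z c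
      set D := s4lD p q t z c with hD
      set c' := c + δ • D with hc'
      obtain ⟨KW1, KW2⟩ := s4l_K_N H.p_continuous hwc hδ (s4l_tilt_integrable H.int_w ht z)
      obtain ⟨KZ1, KZ2⟩ := s4l_K_Z H.hp ht hδ z
      unfold s4lK at KW2
      have hZ := s4l_Z_pos H.hp ht z
      set RH : E → ℝ := fun ζ => (t + δ)⁻¹ * (gk δ ζ * s4lV p w (t + δ) (z + ζ))
        + (2 / (t + δ)) * inner ℝ c' (gk δ ζ • s4lN p w (t + δ) (z + ζ))
        + (‖c'‖ ^ 2 / (t + δ)) * (gk δ ζ * s4lZ p (t + δ) (z + ζ)) + gk δ ζ * G' (z + ζ) with hRH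
      have hA1 : Integrable (fun ζ => (t + δ)⁻¹ * (gk δ ζ * s4lV p w (t + δ) (z + ζ))) :=
        (dV z).1.const_mul _
      have hA2 : Integrable (fun ζ => (2 / (t + δ)) *
          inner ℝ c' (gk δ ζ • s4lN p w (t + δ) (z + ζ))) := (KW1.const_inner c').const_mul _
      have hA3 : Integrable (fun ζ => (‖c'‖ ^ 2 / (t + δ)) * (gk δ ζ * s4lZ p (t + δ) (z + ζ))) :=
        KZ1.const_mul _
      have hA12 : Integrable (fun ζ => (t + δ)⁻¹ * (gk δ ζ * s4lV p w (t + δ) (z + ζ))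
        + (2 / (t + δ)) * inner ℝ c' (gk δ ζ • s4lN p w (t + δ) (z + ζ))) := hA1.add hA2
      have hA123 : Integrable (fun ζ => (t + δ)⁻¹ * (gk δ ζ * s4lV p w (t + δ) (z + ζ))
        + (2 / (t + δ)) * inner ℝ c' (gk δ ζ • s4lN p w (t + δ) (z + ζ))
        + (‖c'‖ ^ 2 / (t + δ)) * (gk δ ζ * s4lZ p (t + δ) (z + ζ))) := hA12.add hA3
      have hRHi : Integrable RH := hA123.add (dG z).1
      have hRHv : ∫ ζ, RH ζ = (t + δ)⁻¹ * KV z + (2 / (t + δ)) * inner ℝ c' (s4lN p w t z)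
          + (‖c'‖ ^ 2 / (t + δ)) * s4lZ p t z + KG z := by
        simp only [hRH]
        rw [integral_add hA123 (dG z).1, integral_add hA12 hA3, integral_add hA1 hA2,
          integral_const_mul, integral_const_mul, integral_const_mul, integral_inner KW1, KW2, KZ2]
      have hle : ∀ ζ, 2 * (gk δ ζ * s4lR p q (t + δ) (z + ζ) c') ≤ RH ζ := by
        intro ζ
        have h1 := hmain (z + ζ) c'
        have h2 := s4l_sq_div H htδ (z + ζ) c'
        have h3 : ‖s4lN p w (t + δ) (z + ζ) + s4lZ p (t + δ) (z + ζ) • c'‖ ^ 2 /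
            ((t + δ) * s4lZ p (t + δ) (z + ζ)) =
            ‖s4lN p w (t + δ) (z + ζ) + s4lZ p (t + δ) (z + ζ) • c'‖ ^ 2 /
              s4lZ p (t + δ) (z + ζ) / (t + δ) := by
          rw [div_div, mul_comm]
        rw [h3, h2] at h1
        have h4 := mul_le_mul_of_nonneg_left h1 (s4l_gk_nonneg hδ ζ)
        refine (le_of_eq (by ring)).trans (h4.trans (le_of_eq ?_))
        simp only [hRH, inner_smul_right]
        field_simp
      have hle2 : 2 * ∫ ζ, gk δ ζ * s4lR p q (t + δ) (z + ζ) c' ≤ ∫ ζ, RH ζ := by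
        rw [← integral_const_mul]
        exact integral_mono (S1.const_mul 2) hRHi hle
      have h5 := s4l_sq_div H ht z c'
      have h6 := s4l_alg' ht hδ hZ (s4lN p w t z) c D
      rw [← hc', h5] at h6
      rw [hRHv] at hle2
      have e7 : (s4lV p w t z + 2 * inner ℝ c' (s4lN p w t z) + ‖c'‖ ^ 2 * s4lZ p t z) / (t + δ) =
          (t + δ)⁻¹ * s4lV p w t z + (2 / (t + δ)) * inner ℝ c' (s4lN p w t z)
            + (‖c'‖ ^ 2 / (t + δ)) * s4lZ p t z := by
        field_simp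
      have e8 : (KV z - s4lV p w t z) / (t + δ) = (t + δ)⁻¹ * KV z - (t + δ)⁻¹ * s4lV p w t z := by
        field_simp
      rw [e7] at h6
      beta_reduce
      rw [e8]
      linarith
    · have hG0 : Integrable (fun ζ => gk (t + δ) ζ * G' (0 + ζ)) := by
        simpa using s4l_dom0 H.hp hΦc hGm htδ hΦi hdom
      have hV0 : Integrable (fun ζ => gk (t + δ) ζ * s4lV p w (t + δ) (0 + ζ)) := by
        simpa using s4l_dom0 H.hp hW2c (s4l_V_measurable H (t + δ)) htδ H.int_w2 hVdom'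
      obtain ⟨J1, J2⟩ := s4l_K_K hGm ht hδ 0 hG0
      obtain ⟨J3, J4⟩ := s4l_K_K (s4l_V_measurable H (t + δ)) ht hδ 0 hV0
      simp only [zero_add] at J1 J2 J3 J4
      obtain ⟨J5, J6⟩ := s4l_L_N H.p_continuous hErc ht hEri
      simp only [smul_eq_mul] at J5 J6
      have LV := s4l_dom0 H.hp hW2c (s4l_V_measurable H t) ht H.int_w2 hVdom
      rw [s4l_mu_eq H htδ] at J4
      have hB1 : Integrable (fun z => gk t z * ((KV z - s4lV p w t z) / (t + δ))) := by
        refine ((J3.sub LV).div_const (t + δ)).congr (ae_of_all _ fun z => ?_)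
        simp only [Pi.sub_apply, hKV]; ring
      have hB2 : Integrable (fun z => gk t z * KG z + gk t z * ((KV z - s4lV p w t z) / (t + δ))) :=
        J1.add hB1
      have hval : ∫ z, gk t z * (KG z + (KV z - s4lV p w t z) / (t + δ) + s4lN p (s4lErr κ δ) t z) =
          (∫ ζ, gk (t + δ) ζ * G' ζ) + (hpe (dm p) (t + δ)⁻¹ w - hpe (dm p) t⁻¹ w) / (t + δ)
            + ∫ y, p y * s4lErr κ δ y := by
        simp only [mul_add]
        rw [integral_add hB2 J5, integral_add J1 hB1, J6, J2]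
        congr 2
        rw [← J4, ← s4l_mu_eq H ht, ← integral_sub J3 LV, ← integral_div]
        congr 1; ext z; simp only [hKV]; ring
      rw [hval]
      have hrect := s4l_hpe_rect H (a := (t + δ)⁻¹) (b := t⁻¹) (inv_pos.2 htδ)
        (inv_anti₀ ht (by linarith))
      have hadj := intervalIntegral.integral_add_adjacent_intervals
        (s4l_hpe_intervalIntegrable H (a := (t + δ + n * δ)⁻¹) (b := (t + δ)⁻¹)
          (inv_pos.2 (by positivity)) (inv_pos.2 htδ))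
        (s4l_hpe_intervalIntegrable H (a := (t + δ)⁻¹) (b := t⁻¹) (inv_pos.2 htδ) (inv_pos.2 ht))
      have e9 : t + ((n + 1 : ℕ) : ℝ) * δ = t + δ + n * δ := by push_cast; ring
      rw [e9, ← hadj]
      push_cast
      have e10 : hpe (dm p) t⁻¹ w / t + (hpe (dm p) (t + δ)⁻¹ w - hpe (dm p) t⁻¹ w) / (t + δ) =
          hpe (dm p) (t + δ)⁻¹ w / (t + δ) + hpe (dm p) t⁻¹ w * (t⁻¹ - (t + δ)⁻¹) := by
        field_simp; ring
      linarith

end

end Claimed.Agent.R259
end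

/- ===== packed: Claimed.Agent.R259.S4Loss ===== -/
section
/-
Row 259 (S0499), LEMMA 4.2 (entropy loss under a Gaussian observation): EXPORTS `s4l_main` (explicit integrals) and
`s4_loss` (Mathlib `klDiv`).  Owner: helper103.  Proof: see the header of `S4LossDefs.lean`.
-/
set_option autoImplicit false
set_option linter.unusedSectionVars false

open MeasureTheory Filter Topology InformationTheory
open scoped ContDiff ENNReal

namespace Claimed.Agent.R259

variable {E : Type} [NormedAddCommGroup E] [InnerProductSpace ℝ E] [FiniteDimensional ℝ E]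
  [MeasurableSpace E] [BorelSpace E]

section

variable {p q : E → ℝ} {w : E → E} {c₀ : ℝ}

theorem s4l_hpe_le (H : S4LHyp p q w c₀) {r : ℝ} (hr : 0 < r) :
    hpe (dm p) r w ≤ ∫ y, p y * ‖w y‖ ^ 2 := by
  have := H.prob
  have h := hc_pe_le hr H.memLp_w
  rwa [s4l_integral_dm H.p_continuous.measurable (s4l_spd_nonneg H.hp)] at h

/-- the prediction energy is integrable near `0`. -/
theorem s4l_hpe_intervalIntegrable0 (H : S4LHyp p q w c₀) (z : ℝ) (hz : 0 ≤ z) :
    IntervalIntegrable (fun r => hpe (dm p) r w) volume 0 z := by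
  rw [intervalIntegrable_iff_integrableOn_Ioc_of_le hz]
  have hanti : AntitoneOn (fun r => hpe (dm p) r w) (Set.Ioc 0 z) :=
    (s4l_hpe_antitoneOn H).mono fun x hx => hx.1
  refine ⟨(aemeasurable_restrict_of_antitoneOn measurableSet_Ioc hanti).aestronglyMeasurable,
    .restrict_of_bounded (C := ∫ y, p y * ‖w y‖ ^ 2) (by simp) ?_⟩
  rw [ae_restrict_iff' measurableSet_Ioc]
  refine ae_of_all _ fun r hr => ?_
  rw [Real.norm_eq_abs, abs_of_nonneg (hc_pe_nonneg _ _ _)]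
  exact s4l_hpe_le H hr.1

theorem s4l_hpe_tail (H : S4LHyp p q w c₀) {a z : ℝ} (ha : 0 < a) (hz : 0 < z) :
    ∫ r in a..z, hpe (dm p) r w ≤ ∫ r in (0 : ℝ)..z, hpe (dm p) r w := by
  rw [← intervalIntegral.integral_add_adjacent_intervals (s4l_hpe_intervalIntegrable0 H a ha.le)
    (s4l_hpe_intervalIntegrable H ha hz)]
  have : 0 ≤ ∫ r in (0 : ℝ)..a, hpe (dm p) r w :=
    intervalIntegral.integral_nonneg ha.le fun r _ => hc_pe_nonneg _ _ _
  linarith

/-- the finite-mesh inequality. -/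
theorem s4l_mesh (H : S4LHyp p q w c₀) {κ δ b : ℝ} (hκ : 0 < κ) (hκc : 8 * κ ≤ c₀) (hκb : 8 * κ ≤ b)
    (hδ : 0 < δ) (hδκ : δ ≤ κ) (n : ℕ) :
    2 * ∫ z, gk b z * s4lR p q b z 0 ≤
      (∫ y, p y * ‖w y‖ ^ 2) / (b + n * δ) + (∫ r in (0 : ℝ)..b⁻¹, hpe (dm p) r w)
          + n * ∫ y, p y * s4lErr κ δ y := by
  have hb : 0 < b := by linarith
  obtain ⟨G, Φ, hGm, hΦc, hΦ0, hΦi, hdom, hmain, hintg⟩ := s4l_dp H hκ hκc hκb hδ hδκ n b le_rfl
  have hwc := H.w_continuous
  have hW2c : Continuous (fun y => ‖w y‖ ^ 2) := by fun_prop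
  have hVdom : ∀ z', |s4lV p w b z'| ≤ s4lN p (fun y => ‖w y‖ ^ 2) b z' := fun z' => by
    rw [abs_of_nonneg (s4l_V_nonneg H hb z')]; exact s4l_V_le H hb z'
  have LV := s4l_dom0 H.hp hW2c (s4l_V_measurable H b) hb H.int_w2 hVdom
  have LG := s4l_dom0 H.hp hΦc hGm hb hΦi hdom
  have LR := (s4l_start H hb).1
  have h1 : ∀ z, 2 * (gk b z * s4lR p q b z 0) ≤ b⁻¹ * (gk b z * s4lV p w b z) + gk b z * G z := by
    intro z
    have h2 := hmain z 0
    rw [smul_zero, add_zero] at h2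
    have h3 : ‖s4lN p w b z‖ ^ 2 / (b * s4lZ p b z) = b⁻¹ * s4lV p w b z := by
      unfold s4lV; rw [mul_comm b, ← div_div, div_eq_inv_mul]
    rw [h3] at h2
    have h4 := mul_le_mul_of_nonneg_left h2 (s4l_gk_nonneg hb z)
    linarith
  have h5 : 2 * ∫ z, gk b z * s4lR p q b z 0 ≤ hpe (dm p) b⁻¹ w / b + ∫ z, gk b z * G z := by
    rw [← integral_const_mul, ← s4l_mu_eq H hb, div_eq_inv_mul, ← integral_const_mul,
      ← integral_add (LV.const_mul _) LG]
    exact integral_mono (LR.const_mul 2) ((LV.const_mul _).add LG) h1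
  have h6 := s4l_hpe_tail H (a := (b + n * δ)⁻¹) (z := b⁻¹) (inv_pos.2 (by positivity)) (inv_pos.2 hb)
  linarith

/-- **Lemma 4.2**, explicit integrals. -/
theorem s4l_main (H : S4LHyp p q w c₀) {z : ℝ} (hz : 0 < z) :
    2 * ((∫ y, p y * s4lL p q y) -
        ∫ u, Real.log (gconv (dm p) z u / gconv (dm q) z u) ∂(dm (gconv (dm p) z))) ≤
      ∫ r in (0 : ℝ)..z, hpe (dm p) r w := by
  set b := z⁻¹ with hb
  have hb0 : 0 < b := inv_pos.2 hz
  have hbz : b⁻¹ = z := inv_inv z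
  have hst := (s4l_start H hb0).2.2
  rw [hbz] at hst
  rw [← hst]
  set κ := min c₀ b / 8 with hκ
  have hκ0 : 0 < κ := by
    have := lt_min H.hc hb0
    positivity
  have hκc : 8 * κ ≤ c₀ := by
    rw [hκ]; have := min_le_left c₀ b; linarith
  have hκb : 8 * κ ≤ b := by
    rw [hκ]; have := min_le_right c₀ b; linarith
  set I := ∫ y, p y * ‖w y‖ ^ 2 with hI
  set J := ∫ r in (0 : ℝ)..z, hpe (dm p) r w with hJ
  set M := ∫ y, p y * (Real.exp (8 * κ * ‖y‖ ^ 2) + s4lCq E ^ 2) with hM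
  set C := 4 * Real.exp (s4lCq E / 2) / κ ^ 2 * M with hC
  have hErr : ∀ δ : ℝ, ∫ y, p y * s4lErr κ δ y = C * δ ^ 2 := by
    intro δ
    rw [hC, hM, mul_assoc, mul_comm _ (δ ^ 2), ← mul_assoc, ← integral_const_mul]
    congr 1; ext y
    unfold s4lErr; ring
  have hlim : Tendsto (fun k : ℕ => I / (b + k) + J + C / k) atTop (𝓝 (0 + J + 0)) := by
    refine (Tendsto.add ?_ tendsto_const_nhds).add ?_
    · exact tendsto_const_nhds.div_atTop
        (tendsto_atTop_add_const_left _ _ tendsto_natCast_atTop_atTop)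
    · exact tendsto_const_nhds.div_atTop tendsto_natCast_atTop_atTop
  simp only [zero_add, add_zero] at hlim
  refine ge_of_tendsto hlim ?_
  have hev : ∀ᶠ k : ℕ in atTop, 1 / (k : ℝ) ^ 2 ≤ κ := by
    have h1 : Tendsto (fun k : ℕ => 1 / (k : ℝ) ^ 2) atTop (𝓝 0) :=
      tendsto_const_nhds.div_atTop
        ((tendsto_pow_atTop (by norm_num)).comp tendsto_natCast_atTop_atTop)
    exact h1.eventually (ge_mem_nhds hκ0)
  filter_upwards [hev, eventually_ge_atTop 1] with k hk hk1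
  have hk0 : (0 : ℝ) < k := by exact_mod_cast hk1
  have hm := s4l_mesh H hκ0 hκc hκb (δ := 1 / (k : ℝ) ^ 2) (by positivity) hk (k ^ 3)
  rw [hbz, hErr] at hm
  have e1 : ((k ^ 3 : ℕ) : ℝ) * (1 / (k : ℝ) ^ 2) = k := by
    push_cast; field_simp
  have e2 : ((k ^ 3 : ℕ) : ℝ) * (C * (1 / (k : ℝ) ^ 2) ^ 2) = C / k := by
    push_cast; field_simp
  rwa [e1, e2] at hm

end

/-! ### the `klDiv` form -/

theorem s4l_gconv_integrable (μ : Measure E) [IsProbabilityMeasure μ] {s : ℝ} (hs : 0 < s) (y : E) :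
    Integrable (fun x => gk s (y - x)) μ := by
  refine Integrable.mono' (integrable_const (gk s (0 : E)))
    ((s4l_gk_continuous (E := E) s).comp (by fun_prop)).aestronglyMeasurable (ae_of_all _ fun x => ?_)
  rw [Real.norm_eq_abs, abs_of_nonneg (s4l_gk_nonneg hs _)]
  exact s4l_gk_le hs _

theorem s4l_gconv_pos (μ : Measure E) [IsProbabilityMeasure μ] {s : ℝ} (hs : 0 < s) (y : E) :
    0 < gconv μ s y := by
  unfold gconv
  rw [integral_pos_iff_support_of_nonneg (fun x => s4l_gk_nonneg hs _) (s4l_gconv_integrable μ hs y)]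
  have : Function.support (fun x => gk s (y - x)) = Set.univ := by
    ext x
    simp only [Function.mem_support, ne_eq, Set.mem_univ, iff_true]
    exact (gc_gk_pos hs _).ne'
  rw [this]; simp

theorem s4l_gconv_measurable (μ : Measure E) [IsProbabilityMeasure μ] (s : ℝ) :
    Measurable (gconv μ s) := by
  unfold gconv
  have h1 : Continuous (fun x : E × E => gk s (x.1 - x.2)) :=
    (s4l_gk_continuous (E := E) s).comp (by fun_prop)
  exact h1.stronglyMeasurable.integral_prod_right.measurable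

/-- **Lemma 4.2**, in the form requested by section 4 (helper220). -/
theorem s4_loss {p q : E → ℝ} (hp : SPD p) (hq : SPD q) (hlc : LogConc q) {w : E → E}
    (hw : ∀ x, w x = gradient (fun y => Real.log (p y / q y)) x)
    (hH : klDiv (dm p) (dm q) ≠ ⊤) (hI : Integrable (fun x => ‖w x‖ ^ 2) (dm p))
    (hc : ∃ c > 0, Integrable (fun y => Real.exp (c * ‖y‖ ^ 2)) (dm p)) {z : ℝ} (hz : 0 < z) :
    2 * ((klDiv (dm p) (dm q)).toReal -
        (klDiv (dm (gconv (dm p) z)) (dm (gconv (dm q) z))).toReal) ≤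
      ∫ r in (0 : ℝ)..z, hpe (dm p) r w := by
  obtain ⟨c₀, hc0, hexp⟩ := hc
  have hpm := (s4l_spd_continuous hp).measurable
  have hqm := (s4l_spd_continuous hq).measurable
  have hprob : ∀ {ρ : E → ℝ}, SPD ρ → IsProbabilityMeasure (dm ρ) := by
    intro ρ hρ
    constructor
    unfold dm
    rw [withDensity_apply _ MeasurableSet.univ, Measure.restrict_univ,
      ← ofReal_integral_eq_lintegral_ofReal (s4l_spd_integrable hρ)
        (ae_of_all _ fun y => s4l_spd_nonneg hρ y), hρ.2.2]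
    simp
  have := hprob hp
  have := hprob hq
  obtain ⟨k1, k2⟩ := s4l_klDiv hpm hqm hp.2.1 hq.2.1
  have hL := k1.1 hH
  have H : S4LHyp p q w c₀ :=
    { hp := hp, hq := hq, lc := hlc, hw := hw
      hH := by simpa [s4lL] using (s4l_integrable_dm hpm (s4l_spd_nonneg hp)).1 hL
      hI := by simpa using (s4l_integrable_dm hpm (s4l_spd_nonneg hp)).1 hI
      hc := hc0
      hexp := by simpa using (s4l_integrable_dm hpm (s4l_spd_nonneg hp)).1 hexp }
  have := gc_isProb (μ := dm p) hz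
  have := gc_isProb (μ := dm q) hz
  obtain ⟨_, k4⟩ := s4l_klDiv (s4l_gconv_measurable (dm p) z) (s4l_gconv_measurable (dm q) z)
    (s4l_gconv_pos (dm p) hz) (s4l_gconv_pos (dm q) hz)
  rw [k2, k4, s4l_integral_dm hpm (s4l_spd_nonneg hp)]
  exact s4l_main H hz

end Claimed.Agent.R259
end

/- ===== packed: Claimed.Agent.R259.S4CurveLow ===== -/
section
/-
Row 259 (S0499), section 4, package BP-S4-curve, file LOW: strict branch, lower bound (`s4c_lower` = `s4_lower` of S4Curve.lean).  GLUE PROVED from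
`s4_loss` (Lemma 4.2, helper103), `db_contract` (kit DB), `s4c_exp_sq` (Herbst), `H(η | μ_s) = I/2`.
Owner: helper147.
-/
set_option autoImplicit false

open MeasureTheory ProbabilityTheory InformationTheory
open scoped ENNReal

namespace Claimed.Agent.R259

variable {E : Type} [NormedAddCommGroup E] [InnerProductSpace ℝ E] [FiniteDimensional ℝ E]
  [MeasurableSpace E] [BorelSpace E]

variable {μ : Measure E} {a δ : ℝ} {η : E → ℝ} {w : E → E} {f : E → ℝ}

theorem s4c_strict_kl (hC : Crit μ a δ η w) (hS : StrictBranch μ s0 1 η w f) :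
    klDiv (dm η) (dm (gconv μ s0)) = ENNReal.ofReal (1 / 2 * ∫ x, ‖w x‖ ^ 2 ∂(dm η)) := by
  haveI := hC.base.prob
  haveI : IsProbabilityMeasure (dm (gconv μ s0)) := gc_isProb s4c_s0_pos
  rw [← s4c_strict_entF hC hS, ← s4c_kl_withDensity (hS.f_smooth.continuous.measurable.pow_const 2)
    (fun y => sq_nonneg _) ((memLp_two_iff_integrable_sq hS.f_L2.1).1 hS.f_L2), ← s4c_strict_dm hC hS]

theorem s4c_strict_w (hC : Crit μ a δ η w) (hS : StrictBranch μ s0 1 η w f) (x : E) :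
    w x = gradient (fun y => Real.log (η y / gconv μ s0 y)) x := by
  haveI := hC.base.prob
  have hq := db_gconv_spd (ν := μ) s4c_s0_pos
  rw [hS.w_eq x]
  congr 1
  funext y
  rw [hS.η_eq y, mul_div_assoc, div_self (hq.2.1 y).ne', mul_one]

theorem s4c_lower (hδ : 0 ≤ δ) (hC : Crit μ a δ η w) (hS : StrictBranch μ s0 1 η w f) {z : ℝ} (hz : 0 < z)
    (hz' : z ≤ 1 / 4) :
    (1 - Real.exp (-z / (1 + δ))) * ∫ x, ‖w x‖ ^ 2 ∂(dm η) ≤ ∫ r in (0 : ℝ)..z, hpe (dm η) r w := by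
  haveI := hC.base.prob
  haveI : IsProbabilityMeasure (dm (gconv μ s0)) := gc_isProb s4c_s0_pos
  haveI : IsProbabilityMeasure (dm η) := lc_spd_prob hC.field.spd
  have hq := db_gconv_spd (ν := μ) s4c_s0_pos
  have hlc := gc_logConc hC.base.dens s4c_s0_pos
  have hw2 := hC.field.w_L2
  set I := ∫ x, ‖w x‖ ^ 2 ∂(dm η) with hI
  have hI0 : 0 ≤ I := integral_nonneg fun _ => by positivity
  have hkl := s4c_strict_kl hC hS
  rw [← hI] at hkl
  have hlsi : LSI (dm η) 1 := by simpa using hC.field.lsi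
  have hloss := s4_loss hC.field.spd hq hlc (s4c_strict_w hC hS) (by rw [hkl]; exact ENNReal.ofReal_ne_top)
    ((memLp_two_iff_integrable_sq_norm hw2.1).1 hw2) (s4c_exp_sq hC.field.spd one_pos hlsi hC.field.mom2) hz
  have hcon := db_contract hlc (R := 1 + δ) (by linarith) hz (s4c_heat_lsi hC hz') (dm η)
  rw [hkl, ← ENNReal.ofReal_mul (Real.exp_pos _).le] at hcon
  have h2 : (klDiv (dm (gconv (dm η) z)) (dm (gconv (dm (gconv μ s0)) z))).toReal ≤
      Real.exp (-z / (1 + δ)) * (1 / 2 * I) :=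
    ENNReal.toReal_le_of_le_ofReal (by positivity) hcon
  rw [hkl, ENNReal.toReal_ofReal (by positivity)] at hloss
  linarith

end Claimed.Agent.R259
end

/- ===== packed: Claimed.Agent.R259.S4CurveLin ===== -/
section
/-
Row 259 (S0499), section 4, package BP-S4-curve, file LIN (GLUE, no sorry): LINEARISED Lemma 4.2 (paper (4.prediction-linearized-loss)):
   `‖φ‖² - ‖E[φ | U_z]‖² ≤ ∫_0^z ‖E[∇φ | U_r]‖² dr`   under a log-concave base law `ν = dm ρ`.
Owner: helper147.     `ḡ_r = hpost ν r g`,  `ν_r = dm (gconv ν r)`.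

LEVEL 1 (`s4c_lin_eps`, PROVED here from (c1)-(c7) and `s4_loss`): `g` smooth, `|g| ≤ B`, `|∇g| ≤ B`, `∫ g dν = 0`, `0 < ε`, `ε B ≤ 1/2`, `p = (1 + ε g) ρ`:
 (c1) `p` is SPD;   (c2) `∇ log (p/ρ) = (ε / (1 + ε g)) ∇g =: w_ε`;   (c7) exponential square moment (`p ≤ 2ρ`), `w_ε` bounded.
 (c3) `H(p | ρ) = ∫ klFun (1 + ε g) dν ≥ ε²/2 ∫ g² - ε³ B³`           [`|klFun (1 + x) - x²/2| ≤ |x|³` for `x ≥ -1/2`: `s4c_klFun_taylor`]
 (c4) `gconv (dm p) z = (1 + ε ḡ_z) gconv ν z`, `|ḡ_z| ≤ B`, so `H(p_z | ρ_z) = ∫ klFun (1 + ε ḡ_z) dν_z ≤ ε²/2 hpe ν z g + ε³ B³`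
 (c5) `hpost (dm p) r w_ε = (ε / (1 + ε ḡ_r)) hpost ν r ∇g`, so `hpe (dm p) r w_ε = ε² ∫ |hpost ν r ∇g|² / (1 + ε ḡ_r) dν_r ≤ ε²/(1 - εB) hpe ν r ∇g`
 (c6) `r ↦ hpe ν r G` is interval integrable on `[0,z]` (antitone on `(0,z]`, bounded: `hc_pe_anti`, `hc_pe_le`).
LEVEL 2 (`s4c_lin_bdd`, PROVED): `ε → 0`.
LEVEL 3 (`s4c_lin_H1`): `ws_dense` gives tests `ψ_k → φ` in `H¹(ν)`; `g_k = ψ_k - ∫ ψ_k dν`; YOUNG FORM of continuity (no square roots):
   `hpe ν r a ≤ (1+θ) hpe ν r b + (1+1/θ) ∫ |a - b|² dν`  (`s4c_hpe_young`), `∫ φ² ≤ (1+θ) ∫ g_k² + (1+1/θ) ∫ (φ - g_k)²`;  `k → ∞`, then `θ → 0`.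
-/
set_option autoImplicit false

open MeasureTheory ProbabilityTheory InformationTheory Filter Topology
open scoped ENNReal ContDiff

namespace Claimed.Agent.R259

variable {E : Type} [NormedAddCommGroup E] [InnerProductSpace ℝ E] [FiniteDimensional ℝ E]
  [MeasurableSpace E] [BorelSpace E]

section pert

variable {ρ : E → ℝ} {g : E → ℝ} {B ε : ℝ}

theorem s4c_bdd_memLp {F : Type} [NormedAddCommGroup F] {m : Measure E} [IsFiniteMeasure m] {G : E → F}
    (hG : AEStronglyMeasurable G m) {B : ℝ} (hB : ∀ x, ‖G x‖ ≤ B) : MemLp G 2 m :=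
  MemLp.of_bound hG B (Eventually.of_forall hB)

theorem s4c_spd_prob {η : E → ℝ} (h : SPD η) : IsProbabilityMeasure (dm η) := by
  constructor
  have hint : Integrable η := by
    by_contra hc
    have := integral_undef hc
    rw [h.2.2] at this
    exact one_ne_zero this
  rw [dm, withDensity_apply _ MeasurableSet.univ, Measure.restrict_univ,
    ← ofReal_integral_eq_lintegral_ofReal hint (Eventually.of_forall fun x => (h.2.1 x).le), h.2.2]
  simp

theorem s4c_gradient_continuous {g : E → ℝ} (hg : ContDiff ℝ ∞ g) : Continuous (gradient g) := by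
  have h1 : Continuous (fderiv ℝ g) := hg.continuous_fderiv (by simp)
  unfold gradient
  exact (InnerProductSpace.toDual ℝ E).symm.continuous.comp h1

/-- LEVEL 1 -/
theorem s4c_lin_eps (hρ : SPD ρ) (hlc : LogConc ρ)
    (hexp : ∃ c > 0, Integrable (fun y => Real.exp (c * ‖y‖ ^ 2)) (dm ρ))
    (hg : ContDiff ℝ ∞ g) (hB : ∀ x, |g x| ≤ B) (hB' : ∀ x, ‖gradient g x‖ ≤ B)
    (h0 : ∫ x, g x ∂(dm ρ) = 0) (hε : 0 < ε) (hεB : ε * B ≤ 1 / 2) {z : ℝ} (hz : 0 < z) :
    ε ^ 2 * (∫ x, g x ^ 2 ∂(dm ρ) - hpe (dm ρ) z g) - 4 * (ε ^ 3 * B ^ 3) ≤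
      ε ^ 2 / (1 - ε * B) * ∫ r in (0 : ℝ)..z, hpe (dm ρ) r (gradient g) := by
  haveI := s4c_spd_prob hρ
  have hp := s4c_pert_spd hρ hg hB h0 hε hεB
  haveI := s4c_spd_prob hp
  obtain ⟨k1, k2⟩ := s4c_pert_kl0 hρ hg hB h0 hε hεB
  have k3 := s4c_pert_klz hρ hg hB h0 hε hεB hz
  have hsi := s4c_pert_score_int hρ hg hB hB' h0 hε hεB
  have hloss := s4_loss hp hρ hlc (w := fun x => (ε / (1 + ε * g x)) • gradient g x)
    (s4c_pert_score hρ hg hB hε hεB) k1 hsi (s4c_pert_expsq hρ hg hB hε hεB hexp) hz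
  have hG2 : MemLp (gradient g) 2 (dm ρ) :=
    s4c_bdd_memLp (s4c_gradient_continuous hg).aestronglyMeasurable hB'
  have hwc : Continuous fun x => (ε / (1 + ε * g x)) • gradient g x := by
    refine Continuous.smul (continuous_const.div (by fun_prop (disch := exact hg.continuous)) fun x => ?_)
      (s4c_gradient_continuous hg)
    have := (abs_le.1 (hB x)).1
    nlinarith
  have hw2 : MemLp (fun x => (ε / (1 + ε * g x)) • gradient g x) 2 (dm fun x => (1 + ε * g x) * ρ x) :=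
    (memLp_two_iff_integrable_sq_norm hwc.aestronglyMeasurable).2 hsi
  have hmono : ∫ r in (0 : ℝ)..z, hpe (dm fun x => (1 + ε * g x) * ρ x) r
        (fun x => (ε / (1 + ε * g x)) • gradient g x) ≤
      ∫ r in (0 : ℝ)..z, ε ^ 2 / (1 - ε * B) * hpe (dm ρ) r (gradient g) := by
    refine intervalIntegral.integral_mono_on_of_le_Ioo hz.le (s4c_hpe_intervalIntegrable hw2 hz.le)
      ((s4c_hpe_intervalIntegrable hG2 hz.le).const_mul _) fun r hr => ?_
    exact s4c_pert_hpe hρ hg hB hB' h0 hε hεB hr.1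
  rw [intervalIntegral.integral_const_mul] at hmono
  linarith

/-- LEVEL 2: `ε → 0` -/
theorem s4c_lin_bdd (hρ : SPD ρ) (hlc : LogConc ρ)
    (hexp : ∃ c > 0, Integrable (fun y => Real.exp (c * ‖y‖ ^ 2)) (dm ρ))
    (hg : ContDiff ℝ ∞ g) (hB : ∀ x, |g x| ≤ B) (hB' : ∀ x, ‖gradient g x‖ ≤ B)
    (h0 : ∫ x, g x ∂(dm ρ) = 0) {z : ℝ} (hz : 0 < z) :
    ∫ x, g x ^ 2 ∂(dm ρ) - hpe (dm ρ) z g ≤ ∫ r in (0 : ℝ)..z, hpe (dm ρ) r (gradient g) := by
  set A := ∫ x, g x ^ 2 ∂(dm ρ) - hpe (dm ρ) z g with hA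
  set J := ∫ r in (0 : ℝ)..z, hpe (dm ρ) r (gradient g) with hJ
  have key : ∀ ε : ℝ, 0 < ε → ε * B ≤ 1 / 2 → A ≤ J / (1 - ε * B) + 4 * ε * B ^ 3 := by
    intro ε hε hεB
    have h := s4c_lin_eps hρ hlc hexp hg hB hB' h0 hε hεB hz
    rw [← hA, ← hJ] at h
    have h2 : ε ^ 2 * A ≤ ε ^ 2 * (J / (1 - ε * B) + 4 * ε * B ^ 3) := by
      have e : ε ^ 2 * (J / (1 - ε * B) + 4 * ε * B ^ 3) = ε ^ 2 / (1 - ε * B) * J + 4 * (ε ^ 3 * B ^ 3) := by ring
      rw [e]; linarith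
    exact le_of_mul_le_mul_left h2 (by positivity)
  have hlim : Tendsto (fun ε : ℝ => J / (1 - ε * B) + 4 * ε * B ^ 3) (𝓝[>] 0) (𝓝 (J / (1 - 0 * B) + 4 * 0 * B ^ 3)) := by
    have hc : ContinuousAt (fun ε : ℝ => J / (1 - ε * B) + 4 * ε * B ^ 3) 0 := by
      refine ContinuousAt.add (ContinuousAt.div continuousAt_const (by fun_prop) (by simp)) (by fun_prop)
    exact hc.tendsto.mono_left nhdsWithin_le_nhds
  have hev : ∀ᶠ ε : ℝ in 𝓝[>] 0, A ≤ J / (1 - ε * B) + 4 * ε * B ^ 3 := by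
    have h1 : ∀ᶠ ε : ℝ in 𝓝 0, ε * B < 1 / 2 := by
      have hc : ContinuousAt (fun ε : ℝ => ε * B) 0 := by fun_prop
      have : (fun ε : ℝ => ε * B) 0 < 1 / 2 := by simp
      exact hc.eventually_lt continuousAt_const this
    filter_upwards [nhdsWithin_le_nhds h1, self_mem_nhdsWithin] with ε h2 h3
    exact key ε h3 h2.le
  have := ge_of_tendsto hlim hev
  simpa using this

end pert

/-! ### LEVEL 3: approximation in `H¹(ν)` -/

section approx

variable {ρ : E → ℝ}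

theorem s4c_lin_H1 (hρ : SPD ρ) (hlc : LogConc ρ)
    (hexp : ∃ c > 0, Integrable (fun y => Real.exp (c * ‖y‖ ^ 2)) (dm ρ))
    {φ : E → ℝ} (hφ : ContDiff ℝ 1 φ) (h2 : MemLp φ 2 (dm ρ)) (hg2 : MemLp (gradient φ) 2 (dm ρ))
    (h0 : ∫ x, φ x ∂(dm ρ) = 0) {z : ℝ} (hz : 0 < z) :
    ∫ x, φ x ^ 2 ∂(dm ρ) - hpe (dm ρ) z φ ≤ ∫ r in (0 : ℝ)..z, hpe (dm ρ) r (gradient φ) := by
  haveI := s4c_spd_prob hρ
  obtain ⟨ψ, hψ, he, he'⟩ := ws_dense hρ.1.continuous hρ.2.1 (ws_H1_of_contDiff hφ h2 hg2)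
  set Φ := ∫ x, φ x ^ 2 ∂(dm ρ) with hΦ
  set P := hpe (dm ρ) z φ with hP
  set J := ∫ r in (0 : ℝ)..z, hpe (dm ρ) r (gradient φ) with hJ
  set e : ℕ → ℝ := fun k => ∫ x, (ψ k x - φ x) ^ 2 ∂(dm ρ) with hedef
  set e' : ℕ → ℝ := fun k => ∫ x, ‖gradient (ψ k) x - gradient φ x‖ ^ 2 ∂(dm ρ) with he'def
  have step : ∀ θ : ℝ, 0 < θ → ∀ k : ℕ, Φ ≤ (1 + θ) * ((1 + θ) * P + (1 + 1 / θ) * e k + ((1 + θ) * J
      + (1 + 1 / θ) * e' k * z)) + (1 + 1 / θ) * e k := by
    intro θ hθ k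
    set c := ∫ y, ψ k y ∂(dm ρ) with hc
    obtain ⟨hs, hgr, B, hB, hB'⟩ := s4c_test_center (hψ k) c
    have hψ2 : MemLp (ψ k) 2 (dm ρ) := by
      obtain ⟨-, -, B0, hB0, -⟩ := s4c_test_center (hψ k) 0
      exact s4c_bdd_memLp (hψ k).1.continuous.aestronglyMeasurable (B := B0) fun x => by simpa using hB0 x
    have hgk2 : MemLp (fun x => ψ k x - c) 2 (dm ρ) :=
      s4c_bdd_memLp hs.continuous.aestronglyMeasurable (B := B) fun x => by simpa using hB x
    have hGk2 : MemLp (gradient (ψ k)) 2 (dm ρ) :=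
      s4c_bdd_memLp (s4c_gradient_continuous (hψ k).1).aestronglyMeasurable hB'
    have hmean : ∫ x, (ψ k x - c) ∂(dm ρ) = 0 := by
      rw [integral_sub (hψ2.integrable (by norm_num)) (integrable_const _)]
      simp [hc]
    have hlin := s4c_lin_bdd hρ hlc hexp hs hB (by rw [hgr]; exact hB') hmean hz
    rw [hgr] at hlin
    have hd : ∫ x, (ψ k x - c - φ x) ^ 2 ∂(dm ρ) ≤ e k := s4c_center_dist hψ2 h2 h0
    have y1 := s4c_sq_young h2 hgk2 hθ
    have y2 := s4c_hpe_young hgk2 h2 hz hθ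
    have y2' : ∫ x, ‖(ψ k x - c) - φ x‖ ^ 2 ∂(dm ρ) = ∫ x, (ψ k x - c - φ x) ^ 2 ∂(dm ρ) := by
      congr 1; funext x; rw [Real.norm_eq_abs, sq_abs]
    rw [y2'] at y2
    have y3 : ∫ r in (0 : ℝ)..z, hpe (dm ρ) r (gradient (ψ k)) ≤ (1 + θ) * J + (1 + 1 / θ) * e' k * z := by
      have h1 : ∫ r in (0 : ℝ)..z, hpe (dm ρ) r (gradient (ψ k)) ≤
          ∫ r in (0 : ℝ)..z, ((1 + θ) * hpe (dm ρ) r (gradient φ) + (1 + 1 / θ) * e' k) := by
        refine intervalIntegral.integral_mono_on_of_le_Ioo hz.le (s4c_hpe_intervalIntegrable hGk2 hz.le)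
          (((s4c_hpe_intervalIntegrable hg2 hz.le).const_mul _).add intervalIntegrable_const) fun r hr => ?_
        exact s4c_hpe_young hGk2 hg2 hr.1 hθ
      rw [intervalIntegral.integral_add ((s4c_hpe_intervalIntegrable hg2 hz.le).const_mul _)
        intervalIntegrable_const, intervalIntegral.integral_const_mul, intervalIntegral.integral_const] at h1
      simp only [sub_zero, smul_eq_mul] at h1
      linarith
    have hθ1 : 0 < 1 + θ := by linarith
    have hθ2 : 0 < 1 + 1 / θ := by positivity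
    have a1 : ∫ x, (ψ k x - c) ^ 2 ∂(dm ρ) ≤
        (1 + θ) * P + (1 + 1 / θ) * e k + ((1 + θ) * J + (1 + 1 / θ) * e' k * z) := by
      have : (1 + 1 / θ) * ∫ x, (ψ k x - c - φ x) ^ 2 ∂(dm ρ) ≤ (1 + 1 / θ) * e k :=
        mul_le_mul_of_nonneg_left hd hθ2.le
      linarith
    calc Φ ≤ (1 + θ) * ∫ x, (ψ k x - c) ^ 2 ∂(dm ρ) + (1 + 1 / θ) * ∫ x, (ψ k x - c - φ x) ^ 2 ∂(dm ρ) := y1
      _ ≤ _ := add_le_add (mul_le_mul_of_nonneg_left a1 hθ1.le) (mul_le_mul_of_nonneg_left hd hθ2.le)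
  have step2 : ∀ θ : ℝ, 0 < θ → Φ ≤ (1 + θ) * ((1 + θ) * P + (1 + θ) * J) := by
    intro θ hθ
    have hlim : Tendsto (fun k : ℕ => (1 + θ) * ((1 + θ) * P + (1 + 1 / θ) * e k + ((1 + θ) * J
        + (1 + 1 / θ) * e' k * z)) + (1 + 1 / θ) * e k) atTop
        (𝓝 ((1 + θ) * ((1 + θ) * P + (1 + 1 / θ) * 0 + ((1 + θ) * J + (1 + 1 / θ) * 0 * z)) + (1 + 1 / θ) * 0)) := by
      refine Tendsto.add (Tendsto.const_mul _ (Tendsto.add (Tendsto.add tendsto_const_nhds (he.const_mul _))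
        (Tendsto.add tendsto_const_nhds ((he'.const_mul _).mul_const _)))) (he.const_mul _)
    have := ge_of_tendsto' hlim (step θ hθ)
    simpa using this
  have hlim : Tendsto (fun θ : ℝ => (1 + θ) * ((1 + θ) * P + (1 + θ) * J)) (𝓝[>] 0)
      (𝓝 ((1 + 0) * ((1 + 0) * P + (1 + 0) * J))) := by
    have hc : ContinuousAt (fun θ : ℝ => (1 + θ) * ((1 + θ) * P + (1 + θ) * J)) 0 := by fun_prop
    exact hc.tendsto.mono_left nhdsWithin_le_nhds
  have hfin := ge_of_tendsto hlim (by filter_upwards [self_mem_nhdsWithin] with θ hθ using step2 θ hθ)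
  simp only [add_zero, one_mul] at hfin
  linarith

end approx

end Claimed.Agent.R259
end

/- ===== packed: Claimed.Agent.R259.S4CurveGap ===== -/
section
/-
Row 259 (S0499), section 4, package BP-S4-curve, file GAP: the gap branch (`s4c_gap_upper`, `s4c_gap_lower` = exports of S4Curve.lean).  GLUE PROVED from
`db_var_contract` (kit DB), `lc_pi` (LSI implies Poincare), `s4c_lin_H1` (linearised Lemma 4.2), `gc_exp_sq`.
Owner: helper147.
-/
set_option autoImplicit false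

open MeasureTheory ProbabilityTheory InformationTheory
open scoped ENNReal

namespace Claimed.Agent.R259

variable {E : Type} [NormedAddCommGroup E] [InnerProductSpace ℝ E] [FiniteDimensional ℝ E]
  [MeasurableSpace E] [BorelSpace E]

variable {μ : Measure E} {a δ : ℝ} {η : E → ℝ} {w : E → E} {φ : E → ℝ}

theorem s4c_heat_pi (hC : Crit μ a δ η w) {r : ℝ} (hr' : r ≤ 1 / 4) :
    ∀ t, 0 < t → t ≤ r → PI (dm (gconv (dm (gconv μ s0)) t)) (1 + δ) := by
  intro t ht htr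
  haveI := hC.base.prob
  haveI : IsProbabilityMeasure (dm (gconv μ s0)) := gc_isProb s4c_s0_pos
  exact lc_pi (db_gconv_spd ht) (s4c_heat_lsi hC hr' t ht htr)

theorem s4c_gap_upper (hδ : 0 ≤ δ) (hC : Crit μ a δ η w) (hG : GapBranch μ s0 1 η w φ) {r : ℝ} (hr : 0 < r)
    (hr' : r ≤ 1 / 4) :
    hpe (dm η) r w ≤ (Real.exp (-r / (1 + δ)) + δ) * ∫ x, ‖w x‖ ^ 2 ∂(dm η) := by
  haveI := hC.base.prob
  haveI : IsProbabilityMeasure (dm (gconv μ s0)) := gc_isProb s4c_s0_pos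
  have hη : η = gconv μ s0 := funext hG.η_eq
  have hlc := gc_logConc hC.base.dens s4c_s0_pos
  have hw2 := hC.field.w_L2
  have hms := hC.mean_small
  rw [hη] at hw2 hms ⊢
  set I := ∫ x, ‖w x‖ ^ 2 ∂(dm (gconv μ s0)) with hI
  set c := ∫ y, w y ∂(dm (gconv μ s0)) with hc
  have hwc2 : MemLp (fun x => w x - c) 2 (dm (gconv μ s0)) := hw2.sub (memLp_const c)
  have hmean : ∫ x, (w x - c) ∂(dm (gconv μ s0)) = 0 := by
    rw [integral_sub (hw2.integrable (by norm_num)) (integrable_const _)]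
    simp [hc]
  have h1 := db_var_contract hlc (R := 1 + δ) (by linarith) hr (s4c_heat_pi hC hr') hwc2 hmean
  have h2 := s4c_hpe_center hw2 hr
  have h3 := s4c_center_sq_le hw2
  rw [← hc] at h2 h3
  have h4 : Real.exp (-r / (1 + δ)) * ∫ x, ‖w x - c‖ ^ 2 ∂(dm (gconv μ s0)) ≤ Real.exp (-r / (1 + δ)) * I :=
    mul_le_mul_of_nonneg_left h3 (Real.exp_pos _).le
  rw [h2]
  linarith

theorem s4c_gap_lower (hδ : 0 ≤ δ) (hC : Crit μ a δ η w) (hG : GapBranch μ s0 1 η w φ) {z : ℝ} (hz : 0 < z)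
    (hz' : z ≤ 1 / 4) :
    (1 - Real.exp (-z / (1 + δ))) * ∫ x, ‖w x‖ ^ 2 ∂(dm η) ≤ ∫ r in (0 : ℝ)..z, hpe (dm η) r w := by
  haveI := hC.base.prob
  haveI : IsProbabilityMeasure (dm (gconv μ s0)) := gc_isProb s4c_s0_pos
  have hη : η = gconv μ s0 := funext hG.η_eq
  have hw : w = gradient φ := funext hG.w_eq
  have hlc := gc_logConc hC.base.dens s4c_s0_pos
  have hq := db_gconv_spd (ν := μ) s4c_s0_pos
  have hw2 := hC.field.w_L2
  have hIeq := hG.I_eq
  rw [hη] at hw2 hIeq ⊢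
  rw [hIeq, one_mul]
  rw [hw] at hw2 ⊢
  have hlin := s4c_lin_H1 hq hlc (gc_exp_sq hC.base.bdd s4c_s0_pos) (hG.φ_smooth.of_le (by simp)) hG.φ_L2 hw2
    hG.φ_mean hz
  have h1 := db_var_contract hlc (R := 1 + δ) (by linarith) hz (s4c_heat_pi hC hz') hG.φ_L2 hG.φ_mean
  have e : ∫ x, ‖φ x‖ ^ 2 ∂(dm (gconv μ s0)) = ∫ x, φ x ^ 2 ∂(dm (gconv μ s0)) := by
    congr 1; funext x; rw [Real.norm_eq_abs, sq_abs]
  rw [e] at h1
  linarith

end Claimed.Agent.R259
end

/- ===== packed: Claimed.Agent.R259.S4Curve ===== -/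
section
/-
Row 259 (S0499), section 4: package BP-S4-curve (Proposition 4.3: one-sided bounds for the prediction curve, both branches).
Sub-captain: helper220.  Package owner: helper147.  EXPORT FILE of the package (names and statements fixed by helper220): every export is a CITATION of
  S4CurveUp.lean (`s4c_upper`), S4CurveLow.lean (`s4c_lower`), S4CurveGap.lean (`s4c_gap_upper`, `s4c_gap_lower`),
whose glue is PROVED from the leaf files S4CurveEnt, S4CurveJoint, S4CurveHerbst, S4CurveLin and the kits IMMSE, DB, `s4_loss`.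
-/
set_option autoImplicit false

open MeasureTheory Filter Topology ProbabilityTheory InformationTheory
open scoped ContDiff ENNReal

namespace Claimed.Agent.R259

variable {E : Type} [NormedAddCommGroup E] [InnerProductSpace ℝ E] [FiniteDimensional ℝ E]
  [MeasurableSpace E] [BorelSpace E]

/-! ### BP-S4-curve: Proposition 4.3 -/

/-- strict branch, upper bound: I-MMSE (lower difference inequality, conditionally on `U_r`), chain rule,
entropy contraction along the common heat flow (conditionally on the label), `MI(Y;L_T) = T I/2 - d(T)`. -/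
theorem s4_upper {μ : Measure E} {a δ : ℝ} {η : E → ℝ} {w : E → E} {f : E → ℝ} (hδ : 0 ≤ δ)
    (hC : Crit μ a δ η w) (hS : StrictBranch μ s0 1 η w f) {r v T : ℝ} (hr : 0 < r)
    (hr' : r ≤ 1 / 4) (hv : 0 ≤ v) (hvT : v < T) :
    (T - v) / 2 * s4P (dm η) w r v ≤
      Real.exp (-r / (1 + δ)) * ((1 + T) / 2 * ∫ x, ‖w x‖ ^ 2 ∂(dm η)) + lcD (dm η) w T :=
  s4c_upper hδ hC hS hr hr' hv hvT

/-- strict branch, lower bound: Lemma 4.2 for `(p, q) = (η, μ_s)` and `H_z ≤ θ(z) H_0`, `H_0 = I/2`. -/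
theorem s4_lower {μ : Measure E} {a δ : ℝ} {η : E → ℝ} {w : E → E} {f : E → ℝ} (hδ : 0 ≤ δ)
    (hC : Crit μ a δ η w) (hS : StrictBranch μ s0 1 η w f) {z : ℝ} (hz : 0 < z) (hz' : z ≤ 1 / 4) :
    (1 - Real.exp (-z / (1 + δ))) * ∫ x, ‖w x‖ ^ 2 ∂(dm η) ≤ ∫ r in (0 : ℝ)..z, hpe (dm η) r w :=
  s4c_lower hδ hC hS hz hz'

/-- gap branch, upper bound: variance contraction along the heat flow for `w - E w`. -/
theorem s4_gap_upper {μ : Measure E} {a δ : ℝ} {η : E → ℝ} {w : E → E} {φ : E → ℝ} (hδ : 0 ≤ δ)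
    (hC : Crit μ a δ η w) (hG : GapBranch μ s0 1 η w φ) {r : ℝ} (hr : 0 < r) (hr' : r ≤ 1 / 4) :
    hpe (dm η) r w ≤ (Real.exp (-r / (1 + δ)) + δ) * ∫ x, ‖w x‖ ^ 2 ∂(dm η) :=
  s4c_gap_upper hδ hC hG hr hr'

/-- gap branch, lower bound: linearised Lemma 4.2 for `φ` and variance contraction for `φ`. -/
theorem s4_gap_lower {μ : Measure E} {a δ : ℝ} {η : E → ℝ} {w : E → E} {φ : E → ℝ} (hδ : 0 ≤ δ)
    (hC : Crit μ a δ η w) (hG : GapBranch μ s0 1 η w φ) {z : ℝ} (hz : 0 < z) (hz' : z ≤ 1 / 4) :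
    (1 - Real.exp (-z / (1 + δ))) * ∫ x, ‖w x‖ ^ 2 ∂(dm η) ≤ ∫ r in (0 : ℝ)..z, hpe (dm η) r w :=
  s4c_gap_lower hδ hC hG hz hz'

end Claimed.Agent.R259
end
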