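/- Packed by merge_tool.py (helper293): 11 modules of Claimed.Agent.R259 in one file, same declarations.
   Old modules, in this order: NormalBridge, S5Met, S5TailDefs, S5TailKit, S5TailMx, S5TailTDefs, S6RootBand, S6RootPt, S6RootInt, S6RootNorm, S6RootCenter -/
import Claimed.Prelude.Def_0427
import Claimed.Agent.R259.Pack021
import Claimed.Agent.R259.Pack035
import Claimed.Agent.R259.Pack048
import Claimed.Agent.R259.Pack029
import Claimed.Agent.R259.Pack020
import Claimed.Agent.R259.Pack030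

/- ===== packed: Claimed.Agent.R259.NormalBridge ===== -/
section
/-
R259 / NormalBridge.lean  (owner: helper26).  Kit NORMAL, package L-NORM-bridge.
Bridge between the frozen definitions of Def_0427 and the names of S3Defs.
-/
set_option autoImplicit false
set_option linter.unusedSectionVars false

namespace Claimed.Agent.R259

open MeasureTheory Filter Topology
open scoped ENNReal ContDiff NNReal

/-! ### NB: bridge to the frozen definitions -/

section Bridge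

variable {n : ℕ} {ρ : EE n → ℝ}

theorem nb_logConc (h : Claims.C0427.IsLogConcaveProbDensity ρ) : LogConc ρ := by
  obtain ⟨hm, h0, -, hconv, hconc⟩ := h
  refine ⟨hm, h0, fun x y t ht0 ht1 => ?_⟩
  have h1t : 0 < 1 - t := by linarith
  rcases (h0 x).eq_or_lt with hx | hx
  · rw [← hx, Real.zero_rpow h1t.ne', zero_mul]; exact h0 _
  rcases (h0 y).eq_or_lt with hy | hy
  · rw [← hy, Real.zero_rpow ht0.ne', mul_zero]; exact h0 _
  have hz : 0 < ρ ((1 - t) • x + t • y) := hconv hx hy h1t.le ht0.le (by ring)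
  have h1 := hconc.2 hx hy h1t.le ht0.le (by ring)
  simp only [smul_eq_mul] at h1
  rw [Real.rpow_def_of_pos hx, Real.rpow_def_of_pos hy, ← Real.exp_add]
  calc Real.exp (Real.log (ρ x) * (1 - t) + Real.log (ρ y) * t)
      ≤ Real.exp (Real.log (ρ ((1 - t) • x + t • y))) := Real.exp_le_exp.2 (by linarith)
    _ = _ := Real.exp_log hz

theorem nb_prob (h : Claims.C0427.IsLogConcaveProbDensity ρ) : IsProbabilityMeasure (dm ρ) := by
  obtain ⟨hm, h0, h1, -, -⟩ := h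
  have hi : Integrable ρ volume := by
    by_contra hcon
    rw [integral_undef hcon] at h1
    norm_num at h1
  refine ⟨?_⟩
  unfold dm
  rw [withDensity_apply _ MeasurableSet.univ, Measure.restrict_univ,
    ← ofReal_integral_eq_lintegral_ofReal hi (Eventually.of_forall h0), h1]
  simp

theorem nb_integral (hm : Measurable ρ) (h0 : ∀ x, 0 ≤ ρ x) (F : EE n → ℝ) :
    ∫ x, F x ∂(dm ρ) = ∫ x, F x * ρ x := by
  unfold dm
  rw [integral_withDensity_eq_integral_toReal_smul hm.ennreal_ofReal (Eventually.of_forall fun x => ENNReal.ofReal_lt_top)]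
  refine integral_congr_ae (Eventually.of_forall fun x => ?_)
  simp only [ENNReal.toReal_ofReal (h0 x), smul_eq_mul]
  ring

theorem nb_ent (hm : Measurable ρ) (h0 : ∀ x, 0 ≤ ρ x) (g : EE n → ℝ) :
    Claims.C0427.entropyWrt ρ g = ent (dm ρ) g := by
  unfold Claims.C0427.entropyWrt ent
  rw [nb_integral hm h0, nb_integral hm h0]

theorem nb_nrg (hm : Measurable ρ) (h0 : ∀ x, 0 ≤ ρ x) (f : EE n → ℝ) :
    ∫ x, ‖fderiv ℝ f x‖ ^ 2 * ρ x = nrg (dm ρ) f := by
  unfold nrg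
  rw [nb_integral hm h0]
  simp only [lsic_norm_gradient]

theorem nb_psi2 (hm : Measurable ρ) (h0 : ∀ x, 0 ≤ ρ x) {a : ℝ} {θ : EE n}
    (h : ∫⁻ x, ENNReal.ofReal (Real.exp ((inner ℝ x θ) ^ 2 / a ^ 2) * ρ x) ≤ 2) :
    Integrable (fun x => Real.exp (inner ℝ x θ ^ 2 / a ^ 2)) (dm ρ) ∧
      ∫ x, Real.exp (inner ℝ x θ ^ 2 / a ^ 2) ∂(dm ρ) ≤ 2 := by
  have hc : Continuous fun x : EE n => Real.exp (inner ℝ x θ ^ 2 / a ^ 2) := by fun_prop
  have hl : ∫⁻ x, ENNReal.ofReal (Real.exp (inner ℝ x θ ^ 2 / a ^ 2)) ∂(dm ρ) ≤ 2 := by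
    unfold dm
    rw [lintegral_withDensity_eq_lintegral_mul _ hm.ennreal_ofReal hc.measurable.ennreal_ofReal]
    refine le_trans (le_of_eq ?_) h
    refine lintegral_congr fun x => ?_
    simp only [Pi.mul_apply]
    rw [mul_comm, ENNReal.ofReal_mul (Real.exp_pos _).le]
  have hi : Integrable (fun x => Real.exp (inner ℝ x θ ^ 2 / a ^ 2)) (dm ρ) := by
    refine ⟨hc.aestronglyMeasurable, ?_⟩
    rw [hasFiniteIntegral_iff_ofReal (Eventually.of_forall fun x => (Real.exp_pos _).le)]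
    exact lt_of_le_of_lt hl (by simp)
  refine ⟨hi, ?_⟩
  rw [← ofReal_integral_eq_lintegral_ofReal hi (Eventually.of_forall fun x => (Real.exp_pos _).le)] at hl
  have : ENNReal.ofReal (∫ x, Real.exp (inner ℝ x θ ^ 2 / a ^ 2) ∂(dm ρ)) ≤ ENNReal.ofReal 2 := by simpa using hl
  exact (ENNReal.ofReal_le_ofReal_iff (by norm_num)).1 this

end Bridge

end Claimed.Agent.R259
end

/- ===== packed: Claimed.Agent.R259.S5Met ===== -/
section
/-
Row 259 (S0499), Lemma 5.5 of the paper in coupling form: the GOAL of kit MET, as a `Prop`.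
Owner: helper88.  Users take `hmet : MetGoal` as a hypothesis.
-/
set_option autoImplicit false

open MeasureTheory ProbabilityTheory
open scoped ContDiff BigOperators Matrix
open Claimed.Agent.R260 (Mx mxFun mxSchur mxSq mxIP mxEig mxU mxRot)

namespace Claimed.Agent.R259

variable {n : ℕ}

/-! ### The coupling (Lemma 5.5), to be provided by kit MET -/

/-- contraction of the tensor part of a coefficient vector -/
noncomputable def ctrI {ι : Type} [Fintype ι] {j : ℕ} (F : EuclideanSpace ℝ (ι × Idx n j))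
    (h : TT n j) : EuclideanSpace ℝ ι :=
  WithLp.toLp 2 (fun a => ∑ β, F (a, β) * h β)

/-- `‖D F_j - F_{j+1}‖₂²` for fields with an extra coefficient index -/
noncomputable def metB {ι : Type} [Fintype ι] (η : EE n → ℝ)
    (F : (j : ℕ) → EE n → EuclideanSpace ℝ (ι × Idx n j)) (j : ℕ) : ℝ :=
  ∫ y, ∑ a, ∑ β : Idx n j, ∑ i, (dI i (F j) y (a, β) - F (j + 1) y (a, Fin.snoc β i)) ^ 2 ∂(dm η)

/-- Lemma 5.5 (Hermite expansion of the stationary evolution) in coupling form: the GOAL of kit MET.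
One coupling `(Y_0, N, Y_t)` for a whole direct sum of levels (`ι` = sigma type over the band). -/
def MetGoal : Prop :=
  ∀ (m : ℕ) (t : ℝ), 0 < t → ∃ C : ℝ, ∀ (n : ℕ) (ι : Type) [Fintype ι] (η : EE n → ℝ), SPD η →
    ∀ F : (j : ℕ) → EE n → EuclideanSpace ℝ (ι × Idx n j), (∀ j, IsTestV (F j)) →
      (∀ j y a (σ : Equiv.Perm (Fin j)) (β : Idx n j), F j y (a, β ∘ σ) = F j y (a, β)) →
      ∀ ε' : ℝ, 0 < ε' →
      ∃ (Ω : Type) (_ : MeasurableSpace Ω) (P : Measure Ω) (Y0 N Yt : Ω → EE n),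
        IsProbabilityMeasure P ∧ Measurable Y0 ∧ Measurable N ∧ Measurable Yt ∧
        P.map Y0 = dm η ∧ P.map Yt = dm η ∧ P.map N = gam n ∧ IndepFun Y0 N P ∧
        Real.sqrt (∫ o, ‖ctrI (F 0 (Yt o)) (hm 0 (N o))
            - Real.exp (-t) • ∑ j ∈ Finset.range (m + 1),
                (Real.sqrt (2 * t) ^ j / (j.factorial : ℝ)) • ctrI (F j (Y0 o)) (hm j (N o))‖ ^ 2 ∂P)
          ≤ C * ∑ j ∈ Finset.range (m + 1),
                (Real.sqrt (nSq η (fun y => opA η (F j) y - F j y)) + Real.sqrt (metB η F j))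
            + Real.sqrt ((2 * t) ^ (m + 1) / ((m + 1).factorial : ℝ)) * Real.sqrt (nSq η (F (m + 1)))
            + ε'


/-- generates the equation lemmas of the definitions above in this file (rule 6: unique names) -/
theorem s5met_eqns_cite : True := by
  have := @ctrI.eq_1
  have := @metB.eq_1
  have := @MetGoal.eq_1
  trivial

end Claimed.Agent.R259
end

/- ===== packed: Claimed.Agent.R259.S5TailDefs ===== -/
section
/-
Row 259 (S0499), Lemma 5.6 of the paper (operator tails in the strict branch): DEFINITIONS of package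
BP-S5-tails.  Owner: helper125.   Proof design of TAILQ: helper115 (msg 8404), an `L²` computation.

ONE sample space `S5tOm n = EE n × EE n × EE n` of points `o = (Y, G₀, G₁)` with the law
`s5tPr η = dm η ⊗ gam n ⊗ gam n`.  For a step `d > 0`:
  `U₁ = Y + √d G₀`  (time `d`),      `U₂ = Y + √d G₀ + √d G₁`  (time `2 d`),
  `W = w(Y)`,  `A = h_d(U₁)`,  `B = h_{2d}(U₂)`  with `h_v = postE (dm η) v w = E[w(Y) | U_v = ·]`,
  `C₀ = √d Q(Y) G₀`,  `C₁ = √d Q(Y) G₁`  for a matrix field `Q` (in the application `Q = Dw`).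
`s5tJ η r` is the joint law of `(Y, U_r)`.
`s5tX h r u = r^{-1/2} E[h(u + √r G) Gᵀ]` (the derivative of the heat flow of `h`, WITHOUT derivatives).
-/
set_option autoImplicit false

open MeasureTheory
open scoped ContDiff BigOperators Matrix
open Claimed.Agent.R260 (Mx mxFun mxSchur mxSq mxIP mxEig mxU mxRot)

namespace Claimed.Agent.R259

noncomputable section

variable {n : ℕ}

/-- the Jacobian matrix `Q = Dw`, `Q_{ab} = ∂_b w_a` -/
def s5tQ (w : EE n → EE n) (y : EE n) : Mx n := Matrix.of fun a b => dI b w y a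

/-- the sample space of `(Y, G₀, G₁)` -/
abbrev S5tOm (n : ℕ) := EE n × EE n × EE n

/-- the law of `(Y, G₀, G₁)` -/
def s5tPr (η : EE n → ℝ) : Measure (S5tOm n) := (dm η).prod ((gam n).prod (gam n))

/-- `U₁ = Y + √d G₀` -/
def s5tU1 (d : ℝ) (o : S5tOm n) : EE n := o.1 + Real.sqrt d • o.2.1

/-- `U₂ = Y + √d G₀ + √d G₁` -/
def s5tU2 (d : ℝ) (o : S5tOm n) : EE n := o.1 + Real.sqrt d • o.2.1 + Real.sqrt d • o.2.2

/-- the joint law of `(Y, U_r)`, `U_r = Y + √r G` -/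
def s5tJ (η : EE n → ℝ) (r : ℝ) : Measure (EE n × EE n) :=
  ((dm η).prod (gam n)).map (fun p => (p.1, p.1 + Real.sqrt r • p.2))

/-- `X(u) = r^{-1/2} E[h(u + √r G) Gᵀ]` -/
def s5tX (h : EE n → EE n) (r : ℝ) (u : EE n) : Mx n :=
  Matrix.of fun a b => (Real.sqrt r)⁻¹ * ∫ g, h (u + Real.sqrt r • g) a * g b ∂(gam n)

/-- `W = w(Y)` -/
def s5tW (w : EE n → EE n) (o : S5tOm n) : EE n := w o.1

/-- `A = h_d(U₁)` -/
def s5tA (η : EE n → ℝ) (w : EE n → EE n) (d : ℝ) (o : S5tOm n) : EE n :=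
  postE (dm η) d w (s5tU1 d o)

/-- `B = h_{2d}(U₂)` -/
def s5tB (η : EE n → ℝ) (w : EE n → EE n) (d : ℝ) (o : S5tOm n) : EE n :=
  postE (dm η) (2 * d) w (s5tU2 d o)

/-- `C₀ = √d Q(Y) G₀` -/
def s5tC0 (Q : EE n → Mx n) (d : ℝ) (o : S5tOm n) : EE n := Real.sqrt d • mv (Q o.1) o.2.1

/-- `C₁ = √d Q(Y) G₁` -/
def s5tC1 (Q : EE n → Mx n) (d : ℝ) (o : S5tOm n) : EE n := Real.sqrt d • mv (Q o.1) o.2.2

/-- prediction energy `E|h_v(U_v)|² = m(v) I` -/
def s5tE (η : EE n → ℝ) (w : EE n → EE n) (v : ℝ) : ℝ :=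
  nSq (gconv (dm η) v) (postE (dm η) v w)

/-- `‖Q‖₂² = E|Q(Y)|²_HS` -/
def s5tN (η : EE n → ℝ) (Q : EE n → Mx n) : ℝ := ∫ y, hs2 (Q y) ∂(dm η)

/-- `κ(v) = E⟨Q(Y), Dg_v(Y)⟩_HS`, `Dg_v = s5tX h_v v` -/
def s5tK (η : EE n → ℝ) (w : EE n → EE n) (Q : EE n → Mx n) (v : ℝ) : ℝ :=
  ∫ y, hsI (Q y) (s5tX (postE (dm η) v w) v y) ∂(dm η)

/-- first increment defect `E|W - A + C₀|²` -/
def s5tK0 (η : EE n → ℝ) (w : EE n → EE n) (Q : EE n → Mx n) (d : ℝ) : ℝ :=
  ∫ o, ‖s5tW w o - s5tA η w d o + s5tC0 Q d o‖ ^ 2 ∂(s5tPr η)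

/-- second increment defect `E|A - B + C₁|²` -/
def s5tK1 (η : EE n → ℝ) (w : EE n → EE n) (Q : EE n → Mx n) (d : ℝ) : ℝ :=
  ∫ o, ‖s5tA η w d o - s5tB η w d o + s5tC1 Q d o‖ ^ 2 ∂(s5tPr η)

/-- spectral projection `1_{(t,∞)}(A)` of a symmetric matrix -/
def s5tP (t : ℝ) (A : Mx n) : Mx n := mxFun (fun x => if t < x then 1 else 0) A

/-- a symmetric idempotent matrix -/
def S5tPrj (P : Mx n) : Prop := P.IsSymm ∧ P * P = P

/-- the standing hypotheses of the probabilistic leaves: `η` a smooth positive density, `w ∈ L²(η)`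
continuous, `Q ∈ L²(η)` a measurable matrix field (NO relation between `w` and `Q` is assumed) -/
structure S5tData (η : EE n → ℝ) (w : EE n → EE n) (Q : EE n → Mx n) : Prop where
  spd : SPD η
  w_cont : Continuous w
  w_L2 : MemLp w 2 (dm η)
  Q_meas : RM Q
  Q_L2 : RL2 (dm η) Q

end

/-- generates the equation lemmas of the definitions above in this file (rule 6: unique names) -/
theorem s5taildefs_eqns_cite : True := by
  have := @s5tQ.eq_1
  have := @s5tPr.eq_1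
  have := @s5tU1.eq_1
  have := @s5tU2.eq_1
  have := @s5tJ.eq_1
  have := @s5tX.eq_1
  have := @s5tW.eq_1
  have := @s5tA.eq_1
  have := @s5tB.eq_1
  have := @s5tC0.eq_1
  have := @s5tC1.eq_1
  have := @s5tE.eq_1
  have := @s5tN.eq_1
  have := @s5tK.eq_1
  have := @s5tK0.eq_1
  have := @s5tK1.eq_1
  have := @s5tP.eq_1
  have := @S5tPrj.eq_1
  trivial

end Claimed.Agent.R259
end

/- ===== packed: Claimed.Agent.R259.S5TailKit ===== -/
section
/-
Row 259 (S0499), package BP-S5-tails: small general tools (`L²` algebra over an arbitrary measure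
space, linearity and measurability of `mv`).   Owner: helper125.
-/
set_option autoImplicit false

open MeasureTheory
open scoped ContDiff BigOperators Matrix
open Claimed.Agent.R260 (Mx mxFun mxSchur mxSq mxIP mxEig mxU mxRot)

namespace Claimed.Agent.R259

variable {n : ℕ}

/-! ### `L²` algebra -/

section L2

variable {Ω : Type} [MeasurableSpace Ω] {ν : Measure Ω}
  {V : Type} [NormedAddCommGroup V] [InnerProductSpace ℝ V]

theorem s5t_int_sq {F : Ω → V} (hF : MemLp F 2 ν) : Integrable (fun o => ‖F o‖ ^ 2) ν :=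
  (memLp_two_iff_integrable_sq_norm hF.1).mp hF

theorem s5t_int_inner {F G : Ω → V} (hF : MemLp F 2 ν) (hG : MemLp G 2 ν) :
    Integrable (fun o => inner ℝ (F o) (G o)) ν := by
  have h := L2.integrable_inner (𝕜 := ℝ) (hF.toLp F) (hG.toLp G)
  refine h.congr ?_
  filter_upwards [hF.coeFn_toLp, hG.coeFn_toLp] with y h1 h2
  rw [h1, h2]

/-- expansion of `‖A - B + C‖²` -/
theorem s5t_expand {A B C : Ω → V} (hA : MemLp A 2 ν) (hB : MemLp B 2 ν) (hC : MemLp C 2 ν) :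
    ∫ o, ‖A o - B o + C o‖ ^ 2 ∂ν =
      ∫ o, ‖A o‖ ^ 2 ∂ν + ∫ o, ‖B o‖ ^ 2 ∂ν + ∫ o, ‖C o‖ ^ 2 ∂ν
        - 2 * ∫ o, inner ℝ (A o) (B o) ∂ν + 2 * ∫ o, inner ℝ (A o) (C o) ∂ν
        - 2 * ∫ o, inner ℝ (B o) (C o) ∂ν := by
  have e : ∀ o, ‖A o - B o + C o‖ ^ 2 = ‖A o‖ ^ 2 + ‖B o‖ ^ 2 + ‖C o‖ ^ 2
      - 2 * inner ℝ (A o) (B o) + 2 * inner ℝ (A o) (C o) - 2 * inner ℝ (B o) (C o) := by
    intro o
    rw [norm_add_sq_real, norm_sub_sq_real, inner_sub_left]
    ring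
  simp_rw [e]
  have iA := s5t_int_sq hA
  have iB := s5t_int_sq hB
  have iC := s5t_int_sq hC
  have iAB := (s5t_int_inner hA hB).const_mul 2
  have iAC := (s5t_int_inner hA hC).const_mul 2
  have iBC := (s5t_int_inner hB hC).const_mul 2
  have e1 := integral_sub (((((iA.add iB).add iC).sub iAB)).add iAC) iBC
  have e2 := integral_add (((iA.add iB).add iC).sub iAB) iAC
  have e3 := integral_sub ((iA.add iB).add iC) iAB
  have e4 := integral_add (iA.add iB) iC
  have e5 := integral_add iA iB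
  simp only [Pi.add_apply, Pi.sub_apply] at e1 e2 e3 e4 e5
  rw [e1, e2, e3, e4, e5, integral_const_mul, integral_const_mul, integral_const_mul]

/-- `∫ ⟨F - G, H⟩ = 0` rewritten -/
theorem s5t_inner_eq_of_sub {F G H : Ω → V} (hF : MemLp F 2 ν) (hG : MemLp G 2 ν)
    (hH : MemLp H 2 ν) (h : ∫ o, inner ℝ (F o - G o) (H o) ∂ν = 0) :
    ∫ o, inner ℝ (F o) (H o) ∂ν = ∫ o, inner ℝ (G o) (H o) ∂ν := by
  simp_rw [inner_sub_left] at h
  rw [integral_sub (s5t_int_inner hF hH) (s5t_int_inner hG hH)] at h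
  linarith

end L2

/-! ### `mv` -/

theorem s5t_mv_apply (A : Mx n) (v : EE n) (i : Fin n) : mv A v i = ∑ j, A i j * v j := rfl

theorem s5t_mv_add (A : Mx n) (u v : EE n) : mv A (u + v) = mv A u + mv A v := by
  ext i
  simp [s5t_mv_apply, mul_add, Finset.sum_add_distrib]

theorem s5t_mv_sub (A : Mx n) (u v : EE n) : mv A (u - v) = mv A u - mv A v := by
  ext i
  simp [s5t_mv_apply, mul_sub, Finset.sum_sub_distrib]

theorem s5t_mv_smul (A : Mx n) (c : ℝ) (v : EE n) : mv A (c • v) = c • mv A v := by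
  ext i
  simp only [s5t_mv_apply, PiLp.smul_apply, smul_eq_mul, Finset.mul_sum]
  exact Finset.sum_congr rfl fun j _ => by ring

theorem s5t_mv_mul (A B : Mx n) (v : EE n) : mv (A * B) v = mv A (mv B v) := by
  ext i
  simp only [s5t_mv_apply, Matrix.mul_apply, Finset.sum_mul, Finset.mul_sum]
  rw [Finset.sum_comm]
  exact Finset.sum_congr rfl fun j _ => Finset.sum_congr rfl fun k _ => by ring

theorem s5t_inner_mv (A : Mx n) (u v : EE n) : inner ℝ u (mv A v) = ∑ a, ∑ b, A a b * (u a * v b) := by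
  rw [PiLp.inner_apply]
  refine Finset.sum_congr rfl fun a _ => ?_
  simp only [s5t_mv_apply, RCLike.inner_apply, conj_trivial, Finset.sum_mul]
  exact Finset.sum_congr rfl fun b _ => by ring

theorem s5t_inner_mv_left (A : Mx n) (u v : EE n) : inner ℝ (mv A u) v = inner ℝ u (mv Aᵀ v) := by
  rw [real_inner_comm, s5t_inner_mv, s5t_inner_mv, Finset.sum_comm]
  exact Finset.sum_congr rfl fun a _ => Finset.sum_congr rfl fun b _ => by
    rw [Matrix.transpose_apply]; ring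

theorem s5t_prj_inner {P : Mx n} (hP : S5tPrj P) (u v : EE n) :
    inner ℝ (mv P u) (mv P v) = inner ℝ u (mv P v) := by
  rw [s5t_inner_mv_left, hP.1, ← s5t_mv_mul, hP.2]

theorem s5t_prj_mv_le {P : Mx n} (hP : S5tPrj P) (v : EE n) : ‖mv P v‖ ≤ ‖v‖ := by
  have h1 : ‖mv P v‖ ^ 2 = inner ℝ v (mv P v) := by
    rw [← real_inner_self_eq_norm_sq, s5t_prj_inner hP]
  have h2 : inner ℝ v (mv P v) ≤ ‖v‖ * ‖mv P v‖ := real_inner_le_norm _ _
  by_contra hlt
  push_neg at hlt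
  have h0 : 0 ≤ ‖v‖ := norm_nonneg _
  nlinarith

section meas

variable {Ω : Type} [MeasurableSpace Ω]

theorem s5t_mv_meas {P : Ω → Mx n} (hP : RM P) {F : Ω → EE n} (hF : Measurable F) :
    Measurable fun o => mv (P o) (F o) := by
  have h : Measurable fun o => (fun i => ∑ j, P o i j * F o j : Fin n → ℝ) := by
    refine measurable_pi_lambda _ fun i => ?_
    refine Finset.measurable_sum _ fun j _ => (hP i j).mul ?_
    exact (EuclideanSpace.proj (𝕜 := ℝ) j).continuous.measurable.comp hF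
  exact (PiLp.continuous_toLp 2 (fun _ : Fin n => ℝ)).measurable.comp h

theorem s5t_mv_memLp {ν : Measure Ω} {P : Ω → Mx n} (hP : RM P) (hc : ∀ o, S5tPrj (P o))
    {F : Ω → EE n} (hF : MemLp F 2 ν) : MemLp (fun o => mv (P o) (F o)) 2 ν := by
  have hm : AEStronglyMeasurable (fun o => mv (P o) (F o)) ν := by
    have h1 : Measurable fun o => mv (P o) (hF.1.mk F o) :=
      s5t_mv_meas hP hF.1.stronglyMeasurable_mk.measurable
    refine h1.aestronglyMeasurable.congr ?_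
    filter_upwards [hF.1.ae_eq_mk] with o ho
    rw [ho]
  exact hF.mono hm (Filter.Eventually.of_forall fun o => s5t_prj_mv_le (hc o) _)

end meas

end Claimed.Agent.R259
end

/- ===== packed: Claimed.Agent.R259.S5TailMx ===== -/
section
/-
Row 259 (S0499), package BP-S5-tails: POINTWISE MATRIX LEMMAS (leaf L-s5t-mx).  Blueprint: helper125.
PROVED (helper57).  PURE LINEAR ALGEBRA, no paper.

Tools: `R260/MxFun.lean`, `R260/MxFunB.lean` (`mxFun_mul`, `mxFun_trace`, `mxFun_isSymm`, `mx_spectral`,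
`mxFun_id`, `mxFun_congr`, ...), `MkPSD.lean` (`mk_psd_gram`, `mk_eig_nonneg`, `mk_trace_mul_mono`,
`mk_trace_mul_le`, `mk_mxFun_le`, `mk_mxFun_le_const`, `mk_trace_mul_nonneg`), `MkHS.lean` (`hs2_eq_trace`,
`hs2_mul_eq_trace`, `sqrt_hs2_sub_le`, `hs2_mul_le_left`), `MkBorel.lean` (`RM.of_mxFun`), `MkMeas.lean`.

NOTATION.  `S = X Xᵀ` (PSD, `mk_psd_gram`), `P = s5tP t S = 1_{(t,∞)}(S)`, `f_t(x) = x 1_{x > t}`,
`tailTr t S = tr f_t(S)`.  `P S = f_t(S)` (`mxFun_mul` + `mxFun_id`), `hs2 (P X) = tr(P S Pᵀ) = tr f_t(S)`.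
* `s5t_rank_le`:  `tr f_t(S) = ∑_{λ_i > t} λ_i ≥ t #{λ_i > t} = t tr P`  (`mxFun_trace`).
* `s5t_clip_le`:  `(1-P) S (1-P) = g(S)`, `g(x) = x 1_{x ≤ t} ≤ t`.
* `s5t_tr_le`:    `C = f_a(C) + g_a(C)`; `tr(P f_a(C)) ≤ tr f_a(C)` (`1 - P ≥ 0`, `f_a(C) ≥ 0`),
                  `tr(P g_a(C)) ≤ a tr P` (`g_a(C) ≤ a`, `P ≥ 0`).
* `s5t_transfer`: `P' = 1_{(4κ²,∞)}(A Aᵀ)`, `x = √(hs2 (P'A))`.  `√(hs2 (A-B)) ≥ √(hs2 (P'(A-B))) ≥ x - √(hs2 (P'B))`,
                  `hs2 (P'B) = tr(P' B Bᵀ) ≤ κ² tr P' ≤ x²/4` (`s5t_rank_le`).  So `√(hs2 (A-B)) ≥ x/2`.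
* `s5t_prj_split`: `P' = 1_{(t,∞)}(M Mᵀ)`, `M = (1-P')M + P'M`, `hs2 (P M) ≤ 2 hs2 (P (1-P') M) + 2 hs2 (P' M)`,
                  `hs2 (P (1-P') M) = tr(P g(M Mᵀ)) ≤ t tr P`.
-/
set_option autoImplicit false

open MeasureTheory
open scoped ContDiff BigOperators Matrix
open Claimed.Agent.R260 (Mx mxFun mxSchur mxSq mxIP mxEig mxU mxRot)

namespace Claimed.Agent.R259

variable {n : ℕ} {β : Type} [Fintype β]

/-- the reindexing `EE n ≃ TT n 1` -/
noncomputable def s5t_mx_L (n : ℕ) : EE n ≃L[ℝ] TT n 1 :=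
  (LinearIsometryEquiv.piLpCongrLeft 2 ℝ ℝ
    (Equiv.funUnique (Fin 1) (Fin n)).symm).toContinuousLinearEquiv

theorem s5t_mx_L_apply (x : EE n) (γ : Idx n 1) : s5t_mx_L n x γ = x (γ 0) := by
  unfold s5t_mx_L
  simp [LinearIsometryEquiv.piLpCongrLeft_apply]

theorem s5t_mx_vecT (w : EE n → EE n) : vecT w = fun y => s5t_mx_L n (w y) := by
  funext y
  ext γ
  rw [s5t_mx_L_apply]
  rfl

theorem s5t_mx_dI_vecT (w : EE n → EE n) (y : EE n) (b : Fin n) (γ : Idx n 1) :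
    dI b (vecT w) y γ = dI b w y (γ 0) := by
  unfold dI
  rw [s5t_mx_vecT]
  have h := (s5t_mx_L n).comp_fderiv (f := w) (x := y)
  have h' : fderiv ℝ (fun y => s5t_mx_L n (w y)) y
      = ((s5t_mx_L n : EE n ≃L[ℝ] TT n 1) : EE n →L[ℝ] TT n 1).comp (fderiv ℝ w y) := h
  rw [h']
  exact s5t_mx_L_apply _ γ

/-- the one-slot reduction of `D(vecT w)` is `Q Qᵀ` -/
theorem s5t_red_Q (w : EE n → EE n) (y : EE n) :
    red (tD (vecT w) y) = s5tQ w y * (s5tQ w y)ᵀ := by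
  ext a b
  unfold red
  rw [Matrix.mul_apply, Matrix.mul_apply]
  have e : ∀ (c : Fin n) (γ : Idx n 1), flat (tD (vecT w) y) c γ = s5tQ w y c (γ 0) := by
    intro c γ
    have h1 : flat (tD (vecT w) y) c γ
        = dI ((Fin.cons c γ : Idx n 2) (Fin.last 1)) (vecT w) y (Fin.init (Fin.cons c γ : Idx n 2)) := rfl
    rw [h1, s5t_mx_dI_vecT]
    rfl
  simp only [Matrix.transpose_apply, e]
  exact Fintype.sum_equiv (Equiv.funUnique (Fin 1) (Fin n)) _ _ fun γ => rfl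

theorem s5t_P_prj (t : ℝ) (A : Mx n) : S5tPrj (s5tP t A) := by
  refine ⟨Claimed.Agent.R260.mxFun_isSymm _ _, ?_⟩
  unfold s5tP
  rw [← Claimed.Agent.R260.mxFun_mul]
  refine Claimed.Agent.R260.mxFun_congr fun i => ?_
  split_ifs <;> simp

theorem s5t_prj_one_sub {P : Mx n} (hP : S5tPrj P) : S5tPrj (1 - P) := by
  refine ⟨?_, ?_⟩
  · unfold Matrix.IsSymm
    rw [Matrix.transpose_sub, Matrix.transpose_one, hP.1.eq]
  · rw [Matrix.mul_sub, Matrix.sub_mul, Matrix.sub_mul, Matrix.one_mul, Matrix.one_mul,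
      Matrix.mul_one, hP.2]
    abel

theorem s5t_prj_psd {P : Mx n} (hP : S5tPrj P) : P.PosSemidef := by
  have h := mk_psd_gram P
  rwa [hP.1.eq, hP.2] at h

theorem s5t_prj_trace_nonneg {P : Mx n} (hP : S5tPrj P) : 0 ≤ Matrix.trace P :=
  mk_trace_nonneg (s5t_prj_psd hP)

theorem s5t_prj_hs2_le {P : Mx n} (hP : S5tPrj P) (X : Matrix (Fin n) β ℝ) :
    hs2 (P * X) ≤ hs2 X := by
  have h : ((1 : ℝ) • (1 : Mx n) - Pᵀ * P).PosSemidef := by
    rw [hP.1.eq, hP.2, one_smul]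
    exact s5t_prj_psd (s5t_prj_one_sub hP)
  have := hs2_mul_le_left h X
  linarith

/-- `hs2 (P X) = tr (P (X Xᵀ))` for a projection -/
theorem s5t_mx_hs2_prj {P : Mx n} (hP : S5tPrj P) (X : Matrix (Fin n) β ℝ) :
    hs2 (P * X) = Matrix.trace (P * (X * Xᵀ)) := by
  rw [hs2_mul_eq_trace, hP.1.eq, Matrix.trace_mul_comm, ← Matrix.mul_assoc, hP.2]

/-- `P_t(S) S = f_t(S)` -/
theorem s5t_mx_P_mul (t : ℝ) {S : Mx n} (hS : S.IsSymm) :
    s5tP t S * S = mxFun (fun x => if t < x then x else 0) S := by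
  unfold s5tP
  have e : mxFun (fun x => if t < x then 1 else 0) S * S
      = mxFun (fun x => if t < x then 1 else 0) S * mxFun (fun a => a) S := by
    rw [Claimed.Agent.R260.mxFun_id hS]
  rw [e, ← Claimed.Agent.R260.mxFun_mul]
  refine Claimed.Agent.R260.mxFun_congr fun i => ?_
  split_ifs <;> simp

theorem s5t_tailTr_eq (t : ℝ) (X : Matrix (Fin n) β ℝ) :
    tailTr t (X * Xᵀ) = hs2 (s5tP t (X * Xᵀ) * X) := by
  rw [s5t_mx_hs2_prj (s5t_P_prj _ _), s5t_mx_P_mul t (mk_isSymm_of_psd (mk_psd_gram X))]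
  rfl

theorem s5t_rank_le (t : ℝ) (X : Matrix (Fin n) β ℝ) :
    t * Matrix.trace (s5tP t (X * Xᵀ)) ≤ hs2 (s5tP t (X * Xᵀ) * X) := by
  rw [← s5t_tailTr_eq]
  unfold tailTr s5tP
  rw [Claimed.Agent.R260.mxFun_trace, Claimed.Agent.R260.mxFun_trace, Finset.mul_sum]
  refine Finset.sum_le_sum fun i _ => ?_
  split_ifs with h
  · linarith
  · simp

/-- `(1 - P_t(S)) S (1 - P_t(S)) = g_t(S)` -/
theorem s5t_mx_clip (t : ℝ) {S : Mx n} (hS : S.IsSymm) :
    (1 - s5tP t S) * S * (1 - s5tP t S) = mxFun (fun x => if t < x then 0 else x) S := by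
  have e1 : (1 : Mx n) - s5tP t S = mxFun (fun x => if t < x then 0 else 1) S := by
    unfold s5tP
    have h1 : (1 : Mx n) = mxFun (fun _ => (1 : ℝ)) S := by
      rw [Claimed.Agent.R260.mxFun_const, one_smul]
    rw [h1, ← Claimed.Agent.R260.mxFun_sub]
    refine Claimed.Agent.R260.mxFun_congr fun i => ?_
    split_ifs <;> simp
  have e2 : mxFun (fun x => if t < x then 0 else 1) S * S * mxFun (fun x => if t < x then 0 else 1) S
      = mxFun (fun x => if t < x then 0 else 1) S * mxFun (fun a => a) S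
        * mxFun (fun x => if t < x then 0 else 1) S := by
    rw [Claimed.Agent.R260.mxFun_id hS]
  rw [e1, e2, ← Claimed.Agent.R260.mxFun_mul, ← Claimed.Agent.R260.mxFun_mul]
  refine Claimed.Agent.R260.mxFun_congr fun i => ?_
  split_ifs <;> simp

theorem s5t_clip_le {t : ℝ} (ht : 0 ≤ t) (X : Matrix (Fin n) β ℝ) :
    (t • (1 : Mx n) - ((1 - s5tP t (X * Xᵀ)) * X) * ((1 - s5tP t (X * Xᵀ)) * X)ᵀ).PosSemidef := by
  have hs := mk_isSymm_of_psd (mk_psd_gram X)
  have e : ((1 - s5tP t (X * Xᵀ)) * X) * ((1 - s5tP t (X * Xᵀ)) * X)ᵀ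
      = (1 - s5tP t (X * Xᵀ)) * (X * Xᵀ) * (1 - s5tP t (X * Xᵀ)) := by
    rw [Matrix.transpose_mul, (s5t_prj_one_sub (s5t_P_prj t (X * Xᵀ))).1.eq]
    simp only [Matrix.mul_assoc]
  rw [e, s5t_mx_clip t hs]
  refine mk_mxFun_le_const fun i => ?_
  split_ifs with h
  · exact ht
  · exact not_lt.1 h

theorem s5t_tailTr_nonneg {a : ℝ} (ha : 0 ≤ a) (C : Mx n) : 0 ≤ tailTr a C := by
  unfold tailTr
  rw [Claimed.Agent.R260.mxFun_trace]
  refine Finset.sum_nonneg fun i _ => ?_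
  split_ifs with h
  · linarith
  · exact le_rfl

theorem s5t_tailTr_le_trace {a : ℝ} (ha : 0 ≤ a) {C : Mx n} (hC : C.PosSemidef) :
    tailTr a C ≤ Matrix.trace C := by
  unfold tailTr
  conv_rhs => rw [← Claimed.Agent.R260.mxFun_id (mk_isSymm_of_psd hC)]
  rw [Claimed.Agent.R260.mxFun_trace, Claimed.Agent.R260.mxFun_trace]
  refine Finset.sum_le_sum fun i _ => ?_
  split_ifs with h
  · exact le_rfl
  · exact mk_eig_nonneg hC i

/-- `tr(P C) ≤ a rank P + tr(C 1_{C > a})` -/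
theorem s5t_tr_le {C P : Mx n} (hC : C.PosSemidef) (hP : S5tPrj P) {a : ℝ} (ha : 0 ≤ a) :
    Matrix.trace (P * C) ≤ a * Matrix.trace P + tailTr a C := by
  have hs := mk_isSymm_of_psd hC
  have e : C = mxFun (fun x => if a < x then x else 0) C + mxFun (fun x => if a < x then 0 else x) C := by
    rw [← Claimed.Agent.R260.mxFun_add]
    conv_lhs => rw [← Claimed.Agent.R260.mxFun_id hs]
    refine Claimed.Agent.R260.mxFun_congr fun i => ?_
    split_ifs <;> simp
  have hf : (mxFun (fun x => if a < x then x else 0) C).PosSemidef := by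
    refine Claimed.Agent.R260.mxFun_posSemidef fun i => ?_
    split_ifs with h
    · linarith
    · exact le_rfl
  have h1 : Matrix.trace (P * mxFun (fun x => if a < x then x else 0) C) ≤ tailTr a C := by
    have hP1 : ((1 : ℝ) • (1 : Mx n) - P).PosSemidef := by
      rw [one_smul]; exact s5t_prj_psd (s5t_prj_one_sub hP)
    have := mk_trace_mul_le hf hP1
    rw [Matrix.trace_mul_comm, one_mul] at this
    exact this
  have h2 : Matrix.trace (P * mxFun (fun x => if a < x then 0 else x) C) ≤ a * Matrix.trace P := by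
    refine mk_trace_mul_le (s5t_prj_psd hP) (mk_mxFun_le_const fun i => ?_)
    split_ifs with h
    · exact ha
    · exact not_lt.1 h
  calc Matrix.trace (P * C)
      = Matrix.trace (P * mxFun (fun x => if a < x then x else 0) C)
        + Matrix.trace (P * mxFun (fun x => if a < x then 0 else x) C) := by
        rw [← Matrix.trace_add, ← Matrix.mul_add, ← e]
    _ ≤ a * Matrix.trace P + tailTr a C := by linarith

/-- TRANSFER OF TAILS: if `‖B‖_op ≤ κ` then `tr(A Aᵀ 1_{A Aᵀ > 4κ²}) ≤ 4 |A - B|²_HS` -/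
theorem s5t_transfer {κ : ℝ} (hκ : 0 ≤ κ) (A B : Matrix (Fin n) β ℝ)
    (hB : ((κ ^ 2) • (1 : Mx n) - B * Bᵀ).PosSemidef) :
    tailTr (4 * κ ^ 2) (A * Aᵀ) ≤ 4 * hs2 (A - B) := by
  obtain ⟨P, hPdef⟩ : ∃ P, P = s5tP (4 * κ ^ 2) (A * Aᵀ) := ⟨_, rfl⟩
  have hP : S5tPrj P := hPdef ▸ s5t_P_prj _ _
  have h1 : tailTr (4 * κ ^ 2) (A * Aᵀ) = hs2 (P * A) := by rw [hPdef, s5t_tailTr_eq]
  have h2 : 4 * κ ^ 2 * Matrix.trace P ≤ hs2 (P * A) := by rw [hPdef]; exact s5t_rank_le _ _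
  have h3 : hs2 (P * B) ≤ κ ^ 2 * Matrix.trace P := by
    rw [s5t_mx_hs2_prj hP]
    exact mk_trace_mul_le (s5t_prj_psd hP) hB
  have h4 : hs2 (P * (A - B)) ≤ hs2 (A - B) := s5t_prj_hs2_le hP _
  have h5 : Real.sqrt (hs2 (P * A)) ≤ Real.sqrt (hs2 (P * (A - B))) + Real.sqrt (hs2 (P * B)) := by
    have := sqrt_hs2_add_le (P * (A - B)) (P * B)
    rwa [← Matrix.mul_add, sub_add_cancel] at this
  have h6 : Real.sqrt (hs2 (P * B)) ≤ Real.sqrt (hs2 (P * A)) / 2 := by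
    have : hs2 (P * B) ≤ hs2 (P * A) / 4 := by linarith
    calc Real.sqrt (hs2 (P * B)) ≤ Real.sqrt (hs2 (P * A) / 4) := Real.sqrt_le_sqrt this
      _ = Real.sqrt (hs2 (P * A)) / 2 := by
        rw [Real.sqrt_div (hs2_nonneg _)]
        congr 1
        rw [show (4 : ℝ) = 2 ^ 2 by norm_num]
        exact Real.sqrt_sq (by norm_num)
  have h7 : Real.sqrt (hs2 (P * A)) / 2 ≤ Real.sqrt (hs2 (P * (A - B))) := by linarith
  have h8 := Real.sq_sqrt (hs2_nonneg (P * A))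
  have h9 := Real.sq_sqrt (hs2_nonneg (P * (A - B)))
  have h10 := Real.sqrt_nonneg (hs2 (P * A))
  rw [h1]
  nlinarith

/-- `|P M|² ≤ 2 t rank P + 2 tr(M Mᵀ 1_{M Mᵀ > t})` -/
theorem s5t_prj_split {P : Mx n} (hP : S5tPrj P) {t : ℝ} (ht : 0 ≤ t) (M : Matrix (Fin n) β ℝ) :
    hs2 (P * M) ≤ 2 * t * Matrix.trace P + 2 * tailTr t (M * Mᵀ) := by
  obtain ⟨P', hPdef⟩ : ∃ P', P' = s5tP t (M * Mᵀ) := ⟨_, rfl⟩
  have hP' : S5tPrj P' := hPdef ▸ s5t_P_prj _ _
  have e : P * M = P * ((1 - P') * M) + P * (P' * M) := by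
    rw [← Matrix.mul_add, ← Matrix.add_mul, sub_add_cancel, Matrix.one_mul]
  have h1 : hs2 (P * ((1 - P') * M)) ≤ t * Matrix.trace P := by
    rw [s5t_mx_hs2_prj hP]
    refine mk_trace_mul_le (s5t_prj_psd hP) ?_
    rw [hPdef]
    exact s5t_clip_le ht M
  have h2 : hs2 (P * (P' * M)) ≤ tailTr t (M * Mᵀ) := by
    rw [s5t_tailTr_eq, ← hPdef]
    exact s5t_prj_hs2_le hP _
  have h3 := hs2_add_le (P * ((1 - P') * M)) (P * (P' * M))
  rw [← e] at h3
  linarith

/-! ### measurability -/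

section meas

variable {Ω : Type} [MeasurableSpace Ω]

theorem s5t_P_RM (t : ℝ) {C : Ω → Mx n} (hC : RM C) (hs : ∀ o, (C o).IsSymm) :
    RM fun o => s5tP t (C o) := by
  unfold s5tP
  exact RM.of_mxFun (Measurable.ite (measurableSet_lt measurable_const measurable_id)
    measurable_const measurable_const) hC hs

theorem s5t_tailTr_meas (a : ℝ) {C : Ω → Mx n} (hC : RM C) (hs : ∀ o, (C o).IsSymm) :
    Measurable fun o => tailTr a (C o) := by
  unfold tailTr
  exact (RM.of_mxFun (Measurable.ite (measurableSet_lt measurable_const measurable_id)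
    measurable_id measurable_const) hC hs).meas_trace

end meas

end Claimed.Agent.R259
end

/- ===== packed: Claimed.Agent.R259.S5TailTDefs ===== -/
section
/-
Row 259 (S0499), Lemma 5.6 of the paper, second half (TAILT: propagation of the operator tails to the higher levels
through the coupling of Lemma 5.5): DEFINITIONS.  Owner: helper125.

The coupling `MetGoal` is applied to the coefficient family `F_j = T_{j+1}`, whose output index is
`ι = Fin n × Fin n` (the first two slots) and whose `j` tensor slots are the remaining slots: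
  `F_j y ((a, b), β) = T (j+1) y (Fin.cons a (Fin.cons b β))`   (and `F_j = 0` above the top level `L`).
A matrix `M` acts on the FIRST index `a` (`s5vAct`, `s5vAct0`) = slot `0` of the tensor.
-/
set_option autoImplicit false

open MeasureTheory
open scoped ContDiff BigOperators Matrix
open Claimed.Agent.R260 (Mx mxFun mxSchur mxSq mxIP mxEig mxU mxRot)

namespace Claimed.Agent.R259

noncomputable section

variable {n : ℕ}

/-- splitting off the first two slots of an index tuple -/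
def s5vE (n j : ℕ) : Idx n (j + 1 + 1) ≃ (Fin n × Fin n) × Idx n j where
  toFun α := ((α 0, α 1), fun r => α r.succ.succ)
  invFun p := Fin.cons p.1.1 (Fin.cons p.1.2 p.2)
  left_inv α := by
    funext r
    refine Fin.cases ?_ (fun r => ?_) r
    · rfl
    · refine Fin.cases ?_ (fun r => ?_) r
      · rfl
      · rfl
  right_inv p := by
    rfl

/-- tensors of order `j + 2` as coefficient vectors with output index `Fin n × Fin n` -/
def s5vL (j : ℕ) : TT n (j + 1 + 1) ≃ₗᵢ[ℝ] EuclideanSpace ℝ ((Fin n × Fin n) × Idx n j) :=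
  LinearIsometryEquiv.piLpCongrLeft 2 ℝ ℝ (s5vE n j)

/-- the coefficient family `F_j = T_{j+1}`, cut off above the level `L` -/
def s5vF (L : ℕ) (T : (l : ℕ) → EE n → TT n (l + 1)) (j : ℕ) (y : EE n) :
    EuclideanSpace ℝ ((Fin n × Fin n) × Idx n j) :=
  if j + 1 ≤ L then s5vL j (T (j + 1) y) else 0

/-- action of a matrix on the first output index of a coefficient vector -/
def s5vAct {κ : Type} [Fintype κ] (M : Mx n) (c : EuclideanSpace ℝ ((Fin n × Fin n) × κ)) :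
    EuclideanSpace ℝ ((Fin n × Fin n) × κ) :=
  WithLp.toLp 2 fun p => ∑ a', M p.1.1 a' * c ((a', p.1.2), p.2)

/-- action of a matrix on the first index of an output vector -/
def s5vAct0 (M : Mx n) (v : EuclideanSpace ℝ (Fin n × Fin n)) :
    EuclideanSpace ℝ (Fin n × Fin n) :=
  WithLp.toLp 2 fun p => ∑ a', M p.1 a' * v (a', p.2)

end

/-- generates the equation lemmas of the definitions above in this file (rule 6: unique names) -/
theorem s5tailtdefs_eqns_cite : True := by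
  have := @s5vE.eq_1
  have := @s5vL.eq_1
  have := @s5vF.eq_1
  have := @s5vAct.eq_1
  have := @s5vAct0.eq_1
  trivial

end Claimed.Agent.R259
end

/- ===== packed: Claimed.Agent.R259.S6RootBand ===== -/
section
/-
Row 259 (S0499), Lemmas 6.1-6.3 of the paper, package BP-S6-root.  Owner: helper57.  Prefix `s6r_`.

PART 1 (pointwise algebra): the band `Ψ(y) = ⊕_{k ≤ l < 2k} T_l(y)/√(kI)` as ONE rectangular matrix `X.bP k y`
(rows: first slot; columns: direct sum label and the remaining slots), its derivative `X.bQ k i y`, and the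
dictionary between the objects of `S6Defs.lean` and the Sylvester kit `MkSyl.lean`:
  `ρ = bP bPᵀ`, `D_iρ = dgram bP bQ`, `X.R = rootG bP`, `X.DR = sylX bP bQ`, `X.Hhat = sylH bP bQ`.
-/
set_option autoImplicit false

open scoped BigOperators Matrix
open Claimed.Agent.R260 (Mx mxFun mxSchur mxSq mxIP mxEig mxU mxRot)

namespace Claimed.Agent.R259

noncomputable section

variable {n : ℕ}

/-! ### block rows -/

section blk

variable {ι : Type} [Fintype ι] {β : ι → Type} [∀ j, Fintype (β j)]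

/-- the block row `c (F_1 | F_2 | ... )` -/
def blk (c : ℝ) (F : ∀ j, Matrix (Fin n) (β j) ℝ) : Matrix (Fin n) (Σ j, β j) ℝ :=
  Matrix.of fun a p => c * F p.1 a p.2

theorem s6r_blk_eqns_cite : True := by
  have := @blk.eq_1
  trivial

theorem blk_apply (c : ℝ) (F : ∀ j, Matrix (Fin n) (β j) ℝ) (a : Fin n) (p : Σ j, β j) :
    blk c F a p = c * F p.1 a p.2 := rfl

theorem blk_mul_transpose (c : ℝ) (F G : ∀ j, Matrix (Fin n) (β j) ℝ) :
    blk c F * (blk c G)ᵀ = c ^ 2 • ∑ j, F j * (G j)ᵀ := by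
  ext a b
  simp only [Matrix.mul_apply, Matrix.transpose_apply, blk_apply, Fintype.sum_sigma,
    Matrix.smul_apply, Matrix.sum_apply, smul_eq_mul, Finset.mul_sum]
  refine Finset.sum_congr rfl fun j _ => Finset.sum_congr rfl fun x _ => ?_
  ring

theorem hsI_blk (c : ℝ) (F G : ∀ j, Matrix (Fin n) (β j) ℝ) :
    hsI (blk c F) (blk c G) = c ^ 2 * ∑ j, hsI (F j) (G j) := by
  simp only [hsI, blk_apply, Fintype.sum_sigma, Finset.mul_sum]
  rw [Finset.sum_comm]
  refine Finset.sum_congr rfl fun j _ => Finset.sum_congr rfl fun a _ =>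
    Finset.sum_congr rfl fun x _ => ?_
  ring

theorem hs2_blk (c : ℝ) (F : ∀ j, Matrix (Fin n) (β j) ℝ) :
    hs2 (blk c F) = c ^ 2 * ∑ j, hs2 (F j) := by
  simp only [← hsI_self, hsI_blk]

theorem mul_blk (M : Mx n) (c : ℝ) (F : ∀ j, Matrix (Fin n) (β j) ℝ) :
    M * blk c F = blk c fun j => M * F j := by
  ext a p
  simp only [Matrix.mul_apply, blk_apply, Finset.mul_sum]
  refine Finset.sum_congr rfl fun x _ => ?_
  ring

theorem blk_sub (c : ℝ) (F G : ∀ j, Matrix (Fin n) (β j) ℝ) :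
    blk c F - blk c G = blk c fun j => F j - G j := by
  ext a p
  simp only [Matrix.sub_apply, blk_apply]
  ring

end blk

/-- the band as a sum over `Fin k` -/
theorem s6r_sum_Ico {M : Type} [AddCommMonoid M] (k : ℕ) (f : ℕ → M) :
    ∑ l ∈ Finset.Ico k (2 * k), f l = ∑ j : Fin k, f (k + j) := by
  rw [Finset.sum_Ico_eq_sum_range, ← Fin.sum_univ_eq_sum_range (fun j => f (k + j))]
  have h : 2 * k - k = k := by omega
  rw [h]

namespace HierData

variable (X : HierData n) (k : ℕ)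

/-- the band `Ψ(y)` as a rectangular matrix -/
def bP (y : EE n) : Matrix (Fin n) (Σ j : Fin k, Idx n (k + j)) ℝ :=
  blk (Real.sqrt (X.nrm k)) fun j : Fin k => flat (X.T (k + j) y)

/-- the derivative `D_iΨ(y)` as a rectangular matrix -/
def bQ (i : Fin n) (y : EE n) : Matrix (Fin n) (Σ j : Fin k, Idx n (k + j)) ℝ :=
  blk (Real.sqrt (X.nrm k)) fun j : Fin k => flat (dI i (X.T (k + j)) y)

end HierData

theorem s6r_band_eqns_cite : True := by
  have := @HierData.bP.eq_1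
  have := @HierData.bQ.eq_1
  trivial

variable (X : HierData n) (k : ℕ) (i : Fin n) (y : EE n)

theorem s6r_nrm_nonneg : 0 ≤ X.nrm k := by
  unfold HierData.nrm
  have := X.I_pos
  positivity

theorem s6r_nrm_pos (hk : 1 ≤ k) : 0 < X.nrm k := by
  unfold HierData.nrm
  have := X.I_pos
  have hk' : (0 : ℝ) < k := by exact_mod_cast hk
  positivity

theorem s6r_sq_sqrt_nrm : Real.sqrt (X.nrm k) ^ 2 = X.nrm k := Real.sq_sqrt (s6r_nrm_nonneg X k)

/-! ### the dictionary -/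

theorem s6r_gram : X.bP k y * (X.bP k y)ᵀ = X.rho k y := by
  rw [HierData.bP, blk_mul_transpose, s6r_sq_sqrt_nrm, HierData.rho, s6r_sum_Ico]
  rfl

theorem s6r_dgram : dgram (X.bP k y) (X.bQ k i y) = X.Drho k i y := by
  rw [dgram, HierData.bP, HierData.bQ, blk_mul_transpose, blk_mul_transpose, s6r_sq_sqrt_nrm,
    HierData.Drho, s6r_sum_Ico, ← smul_add, ← Finset.sum_add_distrib]

theorem s6r_R : X.R k y = rootG (X.bP k y) := by
  rw [HierData.R, rootG, s6r_gram]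

theorem s6r_DR : X.DR k i y = sylX (X.bP k y) (X.bQ k i y) := by
  rw [HierData.DR, sylX, s6r_gram, s6r_dgram, HierData.R, Claimed.Agent.R260.mxSchur_mxFun]
  refine Claimed.Agent.R260.mxSchur_congr (fun a b => ?_) _
  unfold sylW
  split_ifs with h
  · rw [h, inv_zero]
  · rfl

theorem s6r_Hhat : X.Hhat k y i = sylH (X.bP k y) (X.bQ k i y) := by
  rw [HierData.Hhat, sylH, s6r_gram, s6r_dgram, HierData.R, Claimed.Agent.R260.mxSchur_mxFun]
  refine Claimed.Agent.R260.mxSchur_congr (fun a b => ?_) _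
  unfold sylW
  split_ifs with h
  · rw [h, inv_zero]; simp
  · rw [inv_pow]

theorem s6r_hs2_bP :
    hs2 (X.bP k y) = X.nrm k * ∑ l ∈ Finset.Ico k (2 * k), ‖X.T l y‖ ^ 2 := by
  rw [HierData.bP, hs2_blk, s6r_sq_sqrt_nrm, s6r_sum_Ico]
  simp only [hs2_flat]

theorem s6r_hs2_bQ :
    hs2 (X.bQ k i y) = X.nrm k * ∑ l ∈ Finset.Ico k (2 * k), ‖dI i (X.T l) y‖ ^ 2 := by
  rw [HierData.bQ, hs2_blk, s6r_sq_sqrt_nrm, s6r_sum_Ico]
  simp only [hs2_flat]

/-- the derivative action error of a matrix `H` -/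
theorem s6r_hs2_act (H : Mx n) :
    hs2 (X.bQ k i y - H * X.bP k y)
      = X.nrm k * ∑ l ∈ Finset.Ico k (2 * k), ‖dI i (X.T l) y - slot 0 H (X.T l y)‖ ^ 2 := by
  rw [HierData.bQ, HierData.bP, mul_blk, blk_sub, hs2_blk, s6r_sq_sqrt_nrm, s6r_sum_Ico]
  simp only [← flat_slot_zero, ← flat_sub, hs2_flat]

theorem s6r_hsI_act (H : Mx n) :
    hsI (X.bQ k i y) (H * X.bP k y)
      = X.nrm k * ∑ j : Fin k, inner ℝ (dI i (X.T (k + j)) y) (slot 0 H (X.T (k + j) y)) := by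
  rw [HierData.bQ, HierData.bP, mul_blk, hsI_blk, s6r_sq_sqrt_nrm]
  simp only [← flat_slot_zero, hsI_flat]

/-- `tr(M ρ) = ⟨Ψ, M_(1) Ψ⟩` -/
theorem s6r_trace_mul_rho (M : Mx n) :
    Matrix.trace (M * X.rho k y)
      = X.nrm k * ∑ l ∈ Finset.Ico k (2 * k), inner ℝ (X.T l y) (slot 0 M (X.T l y)) := by
  rw [HierData.rho, Matrix.mul_smul, Matrix.trace_smul, Matrix.mul_sum, Matrix.trace_sum,
    smul_eq_mul]
  simp only [inner_slot_zero]

theorem s6r_rho_psd : (X.rho k y).PosSemidef := by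
  rw [← s6r_gram]
  exact mk_psd_gram _

theorem s6r_rho_isSymm : (X.rho k y).IsSymm := mk_isSymm_of_psd (s6r_rho_psd X k y)

theorem s6r_R_isSymm : (X.R k y).IsSymm := Claimed.Agent.R260.mxFun_isSymm _ _

theorem s6r_R_psd : (X.R k y).PosSemidef := mk_sqrt_psd _

theorem s6r_R_mul_R : X.R k y * X.R k y = X.rho k y := mk_sqrt_mul_self (s6r_rho_psd X k y)

theorem s6r_hs2_R : hs2 (X.R k y) = hs2 (X.bP k y) := by
  rw [s6r_R, hs2_rootG]

theorem s6r_Hhat_isSymm : (X.Hhat k y i).IsSymm := by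
  rw [s6r_Hhat]
  exact sylH_isSymm _ _

theorem s6r_DR_isSymm : (X.DR k i y).IsSymm := by
  rw [s6r_DR]
  exact sylX_isSymm _ _

theorem s6r_Drho_isSymm : (X.Drho k i y).IsSymm := by
  rw [← s6r_dgram]
  exact dgram_isSymm _ _

end

end Claimed.Agent.R259
end

/- ===== packed: Claimed.Agent.R259.S6RootPt ===== -/
section
/-
Row 259 (S0499), Lemmas 6.2-6.3 of the paper, package BP-S6-root.  Owner: helper57.  Prefix `s6r_`.

PART 2 (pointwise): with `u = |D_iR|²`, `a = |Ĥ_i R|²`, `c = |[Ĥ_i,R]|²`, `q = |D_iΨ|²` at a point `y`: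
  `a = u + c/4`,   `|D_iΨ - (Ĥ_i)_(1)Ψ|² = q + a - 2u`,   `u ≤ 2q`,  `a ≤ 4u`,   and the POINTWISE SATURATION
  `(1 - 2/k) a ≤ q`
(Lemma 6.2 gives `u² ≤ q (u - c/4 + 2a/k)`; Young's inequality `2u ≤ q + (u - c/4 + 2a/k)` and `a = u + c/4`).
-/
set_option autoImplicit false

open scoped BigOperators Matrix
open Claimed.Agent.R260 (Mx mxFun mxSchur mxSq mxIP mxEig mxU mxRot)

namespace Claimed.Agent.R259

variable {n : ℕ} (X : HierData n) (k : ℕ) (i : Fin n) (y : EE n)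

theorem s6r_cmm_eq :
    cmm (X.Hhat k y i) (X.R k y)
      = sylH (X.bP k y) (X.bQ k i y) * rootG (X.bP k y)
        - rootG (X.bP k y) * sylH (X.bP k y) (X.bQ k i y) := by
  rw [cmm, s6r_Hhat, s6r_R]

/-- `a = u + c/4` -/
theorem s6r_pt_id :
    mxSq (X.Hhat k y i * X.R k y)
      = mxSq (X.DR k i y) + mxSq (cmm (X.Hhat k y i) (X.R k y)) / 4 := by
  rw [mxSq_eq_hs2, mxSq_eq_hs2, mxSq_eq_hs2, s6r_cmm_eq, s6r_DR, s6r_Hhat, s6r_R,
    hs2_sylX_eq_sub]
  ring

/-- `|D_iΨ - (Ĥ_i)_(1)Ψ|² = q + a - 2u` -/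
theorem s6r_pt_act :
    X.nrm k * ∑ l ∈ Finset.Ico k (2 * k),
        ‖dI i (X.T l) y - slot 0 (X.Hhat k y i) (X.T l y)‖ ^ 2
      = hs2 (X.bQ k i y) + mxSq (X.Hhat k y i * X.R k y) - 2 * mxSq (X.DR k i y) := by
  rw [← s6r_hs2_act, mxSq_eq_hs2, mxSq_eq_hs2, s6r_DR, s6r_Hhat, s6r_R, hs2_sub_sylH_mul]

/-- `u ≤ 2q` -/
theorem s6r_pt_DR_le : mxSq (X.DR k i y) ≤ 2 * hs2 (X.bQ k i y) := by
  rw [mxSq_eq_hs2, s6r_DR]
  exact hs2_sylX_le _ _

/-- `a ≤ 4u` -/
theorem s6r_pt_HR_le : mxSq (X.Hhat k y i * X.R k y) ≤ 4 * mxSq (X.DR k i y) := by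
  rw [mxSq_eq_hs2, mxSq_eq_hs2, s6r_DR, s6r_Hhat, s6r_R]
  exact hs2_sylH_mul_le _ _

/-- `tr(R H R H) ≥ 0` -/
theorem s6r_trace_rhrh_nonneg {R H : Mx n} (hR : R.PosSemidef) (hH : H.IsSymm) :
    0 ≤ Matrix.trace (R * H * R * H) := by
  have h1 : (H * R * Hᵀ).PosSemidef := mk_psd_conj hR H
  have h2 := mk_trace_mul_nonneg hR h1
  rw [hH] at h2
  have e : R * (H * R * H) = R * H * R * H := by simp only [Matrix.mul_assoc]
  rwa [e] at h2

/-- `tr(ρ H H) = |H R|²` -/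
theorem s6r_trace_rho_HH (H : Mx n) (hH : H.IsSymm) :
    Matrix.trace (X.rho k y * H * H) = hs2 (H * X.R k y) := by
  rw [hs2_eq_trace, Matrix.transpose_mul, hH, s6r_R_isSymm, ← s6r_R_mul_R,
    Matrix.trace_mul_comm (X.R k y * X.R k y * H) H]
  simp only [Matrix.mul_assoc]

/-- Lemma 6.2 for the band: `⟨D_iΨ, H_(1)Ψ⟩² ≤ |D_iΨ|² (tr(RHRH) + (2/k) tr(ρH²))` -/
theorem s6r_slots (hk : 1 ≤ k) {H : Mx n} (hH : H.IsSymm) :
    hsI (X.bQ k i y) (H * X.bP k y) ^ 2
      ≤ hs2 (X.bQ k i y) * (Matrix.trace (X.R k y * H * X.R k y * H)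
          + 2 / k * hs2 (H * X.R k y)) := by
  have key := s6t_slots_le (n := n) (m := k) (k := k) hk (fun j : Fin k => k + j)
    (fun j => Nat.le_add_right k j)
    (fun j => Real.sqrt (X.nrm k) • X.T (k + j) y)
    (fun j => Real.sqrt (X.nrm k) • dI i (X.T (k + j)) y)
    (fun j => (X.T_symm (k + j) y).smul _)
    (fun j => (tsym_dI (X.T_symm (k + j)) i y).smul _) hH
  have e1 : ∑ j : Fin k, red (Real.sqrt (X.nrm k) • X.T (k + j) y) = X.rho k y := by
    simp only [red_smul, s6r_sq_sqrt_nrm]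
    rw [← Finset.smul_sum, HierData.rho, s6r_sum_Ico]
  have e2 : ∑ j : Fin k, inner ℝ (Real.sqrt (X.nrm k) • dI i (X.T (k + j)) y)
      (slot 0 H (Real.sqrt (X.nrm k) • X.T (k + j) y)) = hsI (X.bQ k i y) (H * X.bP k y) := by
    rw [s6r_hsI_act, Finset.mul_sum]
    refine Finset.sum_congr rfl fun j _ => ?_
    rw [slot_smul, inner_smul_left, inner_smul_right, ← mul_assoc]
    congr 1
    have := s6r_sq_sqrt_nrm X k
    simpa [sq] using this
  have e3 : ∑ j : Fin k, ‖Real.sqrt (X.nrm k) • dI i (X.T (k + j)) y‖ ^ 2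
      = hs2 (X.bQ k i y) := by
    rw [s6r_hs2_bQ, s6r_sum_Ico, Finset.mul_sum]
    refine Finset.sum_congr rfl fun j _ => ?_
    rw [norm_smul, mul_pow, Real.norm_eq_abs, sq_abs, s6r_sq_sqrt_nrm]
  rw [e1, e2, e3, s6r_trace_rho_HH X k y H hH] at key
  exact key

/-- the real arithmetic of the pointwise saturation -/
theorem s6r_arith_sat {u a c q κ : ℝ} (ha : 0 ≤ a) (hq : 0 ≤ q) (hκ : 0 ≤ κ)
    (h5 : a = u + c / 4) (h4 : 0 ≤ u - c / 4) (h1 : u ^ 2 ≤ q * (u - c / 4 + κ * a)) :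
    (1 - κ) * a ≤ q := by
  have hka : 0 ≤ κ * a := mul_nonneg hκ ha
  obtain ⟨g, hg⟩ : ∃ g, g = u - c / 4 + κ * a := ⟨_, rfl⟩
  rw [← hg] at h1
  have hg0 : 0 ≤ g := by linarith
  have h6 : 2 * u ≤ q + g := by
    by_contra hcon
    have hcon := not_le.mp hcon
    nlinarith [sq_nonneg (q - g)]
  have : (1 - κ) * a = 2 * u - g := by
    rw [hg, h5]; ring
  linarith

/-- **pointwise saturation**: `(1 - 2/k) |Ĥ_i R|² ≤ |D_iΨ|²` -/
theorem s6r_pt_sat (hk : 1 ≤ k) :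
    (1 - 2 / (k : ℝ)) * mxSq (X.Hhat k y i * X.R k y) ≤ hs2 (X.bQ k i y) := by
  have hH := s6r_Hhat_isSymm X k i y
  have h1 := s6r_slots X k i y hk hH
  have h2 : hsI (X.bQ k i y) (X.Hhat k y i * X.bP k y) = mxSq (X.DR k i y) := by
    rw [mxSq_eq_hs2, s6r_DR, s6r_Hhat, hs2_sylX_eq]
  have h3 : Matrix.trace (X.R k y * X.Hhat k y i * X.R k y * X.Hhat k y i)
      = mxSq (X.DR k i y) - mxSq (cmm (X.Hhat k y i) (X.R k y)) / 4 := by
    rw [mxSq_eq_hs2, mxSq_eq_hs2, s6r_cmm_eq, s6r_DR, s6r_Hhat, s6r_R, trace_rhrh_eq]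
  have h4 := s6r_trace_rhrh_nonneg (s6r_R_psd X k y) hH
  have h5 := s6r_pt_id X k i y
  rw [h2, ← mxSq_eq_hs2 (X.Hhat k y i * X.R k y)] at h1
  rw [h3] at h1 h4
  have hk' : (0 : ℝ) < k := by exact_mod_cast hk
  exact s6r_arith_sat (Claimed.Agent.R260.mxSq_nonneg _) (hs2_nonneg _) (by positivity) h5 h4 h1

end Claimed.Agent.R259
end

/- ===== packed: Claimed.Agent.R259.S6RootInt ===== -/
section
/-
Row 259 (S0499), Lemmas 6.1-6.3 of the paper, package BP-S6-root.  Owner: helper57.  Prefix `s6r_`.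

PART 3 (measurability, integrability, integrated identities).  All fields are bounded and measurable:
`bP`, `bQ` are continuous with compact support; `R`, `D_iR`, `Ĥ_i` are Borel functions of them (kit `MkBorel`, `MkSyl`);
`|D_iR|² ≤ 2|D_iΨ|²`, `|Ĥ_iR|² ≤ 8|D_iΨ|²`.  Integrating the pointwise statements of `S6RootPt.lean`:
  `a = e + c/4`,  `(1 - 2/k) a ≤ d`,  `act = d + a - 2e`.
-/
set_option autoImplicit false

open MeasureTheory
open scoped BigOperators Matrix ContDiff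
open Claimed.Agent.R260 (Mx mxFun mxSchur mxSq mxIP mxEig mxU mxRot)

namespace Claimed.Agent.R259

variable {n : ℕ}

theorem s6r_prob (X : HierData n) : IsProbabilityMeasure (dm X.η) := by
  have h := X.spd
  constructor
  have hint : Integrable X.η := by
    by_contra hc
    have := integral_undef hc
    rw [h.2.2] at this
    exact one_ne_zero this
  rw [dm, withDensity_apply _ MeasurableSet.univ, Measure.restrict_univ,
    ← ofReal_integral_eq_lintegral_ofReal hint (Filter.Eventually.of_forall fun x => (h.2.1 x).le),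
    h.2.2]
  simp

theorem s6r_dI_test {V : Type} [NormedAddCommGroup V] [NormedSpace ℝ V] {T : EE n → V}
    (hT : IsTestV T) (i : Fin n) : IsTestV (dI i T) := by
  refine ⟨?_, ?_⟩
  · have h1 : ContDiff ℝ ∞ (fderiv ℝ T) := hT.1.fderiv_right (by simp)
    exact h1.clm_apply contDiff_const
  · have h1 : HasCompactSupport (fderiv ℝ T) := hT.2.fderiv ℝ
    exact h1.comp_left (g := fun L : EE n →L[ℝ] V => L (eb i)) rfl

theorem s6r_test_entry {d : ℕ} {T : EE n → TT n d} (hT : IsTestV T) (α : Idx n d) :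
    Measurable (fun y => T y α) ∧ ∃ C : ℝ, ∀ y, |T y α| ≤ C := by
  refine ⟨?_, ?_⟩
  · have h1 : Continuous fun y => T y α :=
      (EuclideanSpace.proj (𝕜 := ℝ) α).continuous.comp hT.1.continuous
    exact h1.measurable
  · obtain ⟨C, hC⟩ := hT.2.exists_bound_of_continuous hT.1.continuous
    refine ⟨C, fun y => ?_⟩
    have := PiLp.norm_apply_le (T y) α
    rw [Real.norm_eq_abs] at this
    exact this.trans (hC y)

theorem RB.of_entries {Ω α β : Type} [MeasurableSpace Ω] [Fintype α] [Fintype β]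
    {F : Ω → Matrix α β ℝ}
    (h : ∀ i j, Measurable (fun w => F w i j) ∧ ∃ C : ℝ, ∀ w, |F w i j| ≤ C) : RB F := by
  refine ⟨fun i j => (h i j).1, ?_⟩
  choose C hC using fun i j => (h i j).2
  refine ⟨∑ i, ∑ j, |C i j|, fun w i j => ?_⟩
  calc |F w i j| ≤ |C i j| := (hC i j w).trans (le_abs_self _)
    _ ≤ ∑ j, |C i j| := Finset.single_le_sum (f := fun j => |C i j|) (fun _ _ => abs_nonneg _)
        (Finset.mem_univ j)
    _ ≤ ∑ i, ∑ j, |C i j| := Finset.single_le_sum (f := fun i => ∑ j, |C i j|)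
        (fun _ _ => Finset.sum_nonneg fun _ _ => abs_nonneg _) (Finset.mem_univ i)

theorem s6r_RB_flat {d : ℕ} {T : EE n → TT n (d + 1)} (hT : IsTestV T) :
    RB fun y => flat (T y) :=
  RB.of_entries fun a β => s6r_test_entry hT (Fin.cons a β)

theorem s6r_RB_blk {Ω ι : Type} [MeasurableSpace Ω] [Fintype ι] {β : ι → Type}
    [∀ j, Fintype (β j)] (c : ℝ) {F : ∀ j, Ω → Matrix (Fin n) (β j) ℝ} (hF : ∀ j, RB (F j)) :
    RB fun w => blk c fun j => F j w := by
  refine RB.of_entries fun a p => ⟨((hF p.1).1 a p.2).const_mul c, ?_⟩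
  obtain ⟨C, hC⟩ := (hF p.1).2
  refine ⟨|c| * C, fun w => ?_⟩
  rw [blk_apply, abs_mul]
  exact mul_le_mul_of_nonneg_left (hC w a p.2) (abs_nonneg c)

variable (X : HierData n) (k : ℕ) (i : Fin n)

theorem s6r_RB_bP : RB fun y => X.bP k y :=
  s6r_RB_blk _ fun j : Fin k => s6r_RB_flat (X.T_test (k + j))

theorem s6r_RB_bQ : RB fun y => X.bQ k i y :=
  s6r_RB_blk _ fun j : Fin k => s6r_RB_flat (s6r_dI_test (X.T_test (k + j)) i)

theorem s6r_RM_R : RM fun y => X.R k y := by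
  simp only [s6r_R]
  exact RM.of_rootG (s6r_RB_bP X k).rm

theorem s6r_RM_DR : RM fun y => X.DR k i y := by
  simp only [s6r_DR]
  exact RM.of_sylX (s6r_RB_bP X k).rm (s6r_RB_bQ X k i).rm

theorem s6r_RM_Hhat : RM fun y => X.Hhat k y i := by
  simp only [s6r_Hhat]
  exact RM.of_sylH (s6r_RB_bP X k).rm (s6r_RB_bQ X k i).rm

theorem s6r_RB_R : RB fun y => X.R k y := by
  obtain ⟨C, hC⟩ := (s6r_RB_bP X k).hs2_le
  exact RB.of_hs2_le (s6r_RM_R X k) (C := C) fun y => by rw [s6r_hs2_R]; exact hC y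

theorem s6r_RB_DR : RB fun y => X.DR k i y := by
  obtain ⟨C, hC⟩ := (s6r_RB_bQ X k i).hs2_le
  refine RB.of_hs2_le (s6r_RM_DR X k i) (C := 2 * C) fun y => ?_
  have := s6r_pt_DR_le X k i y
  rw [mxSq_eq_hs2] at this
  linarith [hC y]

theorem s6r_RB_HR : RB fun y => X.Hhat k y i * X.R k y := by
  obtain ⟨C, hC⟩ := (s6r_RB_bQ X k i).hs2_le
  refine RB.of_hs2_le ((s6r_RM_Hhat X k i).mul (s6r_RM_R X k)) (C := 8 * C) fun y => ?_
  have h1 := s6r_pt_DR_le X k i y
  have h2 := s6r_pt_HR_le X k i y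
  rw [mxSq_eq_hs2] at h2
  linarith [hC y]

theorem s6r_cmm_eq_sub (y : EE n) : cmm (X.Hhat k y i) (X.R k y)
    = X.Hhat k y i * X.R k y - (X.Hhat k y i * X.R k y)ᵀ := by
  rw [cmm, Matrix.transpose_mul, s6r_Hhat_isSymm, s6r_R_isSymm]

theorem s6r_RB_cmm : RB fun y => cmm (X.Hhat k y i) (X.R k y) := by
  simp only [s6r_cmm_eq_sub]
  exact (s6r_RB_HR X k i).sub (s6r_RB_HR X k i).transpose


/-! ### integrability -/

theorem s6r_integrable_bP : Integrable (fun y => hs2 (X.bP k y)) (dm X.η) := by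
  have := s6r_prob X
  exact (s6r_RB_bP X k).toL2.integrable_hs2

theorem s6r_integrable_bQ : Integrable (fun y => hs2 (X.bQ k i y)) (dm X.η) := by
  have := s6r_prob X
  exact (s6r_RB_bQ X k i).toL2.integrable_hs2

theorem s6r_integrable_DR : Integrable (fun y => mxSq (X.DR k i y)) (dm X.η) := by
  have := s6r_prob X
  simp only [mxSq_eq_hs2]
  exact (s6r_RB_DR X k i).toL2.integrable_hs2

theorem s6r_integrable_HR : Integrable (fun y => mxSq (X.Hhat k y i * X.R k y)) (dm X.η) := by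
  have := s6r_prob X
  simp only [mxSq_eq_hs2]
  exact (s6r_RB_HR X k i).toL2.integrable_hs2

theorem s6r_integrable_cmm :
    Integrable (fun y => mxSq (cmm (X.Hhat k y i) (X.R k y))) (dm X.η) := by
  have := s6r_prob X
  simp only [mxSq_eq_hs2]
  exact (s6r_RB_cmm X k i).toL2.integrable_hs2

/-- each term of the derivative action error is integrable -/
theorem s6r_integrable_act (hk : 1 ≤ k) {l : ℕ} (hl : l ∈ Finset.Ico k (2 * k)) :
    Integrable (fun y => ‖dI i (X.T l) y - slot 0 (X.Hhat k y i) (X.T l y)‖ ^ 2) (dm X.η) := by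
  have := s6r_prob X
  have e : ∀ y, ‖dI i (X.T l) y - slot 0 (X.Hhat k y i) (X.T l y)‖ ^ 2
      = hs2 (flat (dI i (X.T l) y) - X.Hhat k y i * flat (X.T l y)) := by
    intro y
    rw [← flat_slot_zero, ← flat_sub, hs2_flat]
  have hRM : RM fun y => flat (dI i (X.T l) y) - X.Hhat k y i * flat (X.T l y) :=
    (s6r_RB_flat (s6r_dI_test (X.T_test l) i)).rm.sub
      ((s6r_RM_Hhat X k i).mul (s6r_RB_flat (X.T_test l)).rm)
  obtain ⟨C, hC⟩ := (s6r_RB_bQ X k i).hs2_le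
  have hpos := s6r_nrm_pos X k hk
  have hRB : RB fun y => flat (dI i (X.T l) y) - X.Hhat k y i * flat (X.T l y) := by
    refine RB.of_hs2_le hRM (C := (X.nrm k)⁻¹ * (9 * C)) fun y => ?_
    rw [← e y, le_inv_mul_iff₀ hpos]
    have h1 := s6r_pt_act X k i y
    have h2 := s6r_pt_DR_le X k i y
    have h3 := s6r_pt_HR_le X k i y
    have h4 : 0 ≤ mxSq (X.DR k i y) := Claimed.Agent.R260.mxSq_nonneg _
    have h5 : ‖dI i (X.T l) y - slot 0 (X.Hhat k y i) (X.T l y)‖ ^ 2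
        ≤ ∑ l ∈ Finset.Ico k (2 * k), ‖dI i (X.T l) y - slot 0 (X.Hhat k y i) (X.T l y)‖ ^ 2 :=
      Finset.single_le_sum
        (f := fun l => ‖dI i (X.T l) y - slot 0 (X.Hhat k y i) (X.T l y)‖ ^ 2)
        (fun _ _ => sq_nonneg _) hl
    have h6 := mul_le_mul_of_nonneg_left h5 hpos.le
    linarith [hC y]
  simp only [e]
  exact hRB.toL2.integrable_hs2

/-! ### integrated identities -/

/-- `d = ‖DΨ‖₂²` -/
noncomputable def HierData.dPsi (X : HierData n) (k : ℕ) : ℝ :=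
  ∑ i, ∫ y, hs2 (X.bQ k i y) ∂(dm X.η)

theorem s6r_int_eqns_cite : True := by
  have := @HierData.dPsi.eq_1
  trivial

theorem s6r_eD_nonneg : 0 ≤ X.eD k :=
  Finset.sum_nonneg fun _ _ => integral_nonneg fun _ => Claimed.Agent.R260.mxSq_nonneg _

theorem s6r_cHat_nonneg : 0 ≤ X.cHat k :=
  Finset.sum_nonneg fun _ _ => integral_nonneg fun _ => Claimed.Agent.R260.mxSq_nonneg _

/-- `a = e + c/4` -/
theorem s6r_int_id : X.aHat k = X.eD k + X.cHat k / 4 := by
  unfold HierData.aHat HierData.eD HierData.cHat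
  rw [Finset.sum_div, ← Finset.sum_add_distrib]
  refine Finset.sum_congr rfl fun i _ => ?_
  rw [← integral_div, ← integral_add (s6r_integrable_DR X k i)
    ((s6r_integrable_cmm X k i).div_const 4)]
  exact integral_congr_ae (Filter.Eventually.of_forall fun y => s6r_pt_id X k i y)

/-- `(1 - 2/k) a ≤ d` -/
theorem s6r_int_sat (hk : 1 ≤ k) : (1 - 2 / (k : ℝ)) * X.aHat k ≤ X.dPsi k := by
  unfold HierData.aHat HierData.dPsi
  rw [Finset.mul_sum]
  refine Finset.sum_le_sum fun i _ => ?_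
  rw [← integral_const_mul]
  exact integral_mono ((s6r_integrable_HR X k i).const_mul _) (s6r_integrable_bQ X k i)
    fun y => s6r_pt_sat X k i y hk

/-- `act = d + a - 2e` -/
theorem s6r_int_act (hk : 1 ≤ k) : X.actHat k = X.dPsi k + X.aHat k - 2 * X.eD k := by
  unfold HierData.actHat HierData.dPsi HierData.aHat HierData.eD
  rw [Finset.sum_comm, Finset.mul_sum, Finset.mul_sum, ← Finset.sum_add_distrib,
    ← Finset.sum_sub_distrib]
  refine Finset.sum_congr rfl fun i _ => ?_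
  rw [← integral_finsetSum _ fun l hl => s6r_integrable_act X k i hk hl, ← integral_const_mul,
    ← integral_const_mul, ← integral_add (s6r_integrable_bQ X k i) (s6r_integrable_HR X k i),
    ← integral_sub (f := fun y => hs2 (X.bQ k i y) + mxSq (X.Hhat k y i * X.R k y))
      ((s6r_integrable_bQ X k i).add (s6r_integrable_HR X k i))
      ((s6r_integrable_DR X k i).const_mul 2)]
  exact integral_congr_ae (Filter.Eventually.of_forall fun y => s6r_pt_act X k i y)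

end Claimed.Agent.R259
end

/- ===== packed: Claimed.Agent.R259.S6RootNorm ===== -/
section
/-
Row 259 (S0499), Lemma 6.1 of the paper, package BP-S6-root.  Owner: helper57.  Prefix `s6r_`.

PART 4 (normalisations): what `X.Small (3k) δ` says about the band:
  `|E tr ρ - 1| ≤ δ`,  `d = ‖DΨ‖₂² ≤ 1 + 5√δ`,  `E tr((1-M)ρ) ≤ δ`,  `tr((E M)(E ρ)) ≤ δ`.
-/
set_option autoImplicit false

open MeasureTheory
open scoped BigOperators Matrix
open Claimed.Agent.R260 (Mx mxFun mxSchur mxSq mxIP mxEig mxU mxRot)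

namespace Claimed.Agent.R259

variable {n : ℕ} (X : HierData n) (k : ℕ)

/-! ### averages over the band -/

theorem s6r_nrm_mul (hk : 1 ≤ k) : X.nrm k * ((k : ℝ) * X.I) = 1 := by
  unfold HierData.nrm
  have := X.I_pos
  have hk' : (0 : ℝ) < k := by exact_mod_cast hk
  exact inv_mul_cancel₀ (by positivity)

theorem s6r_band_le (hk : 1 ≤ k) {x : ℕ → ℝ} {c : ℝ}
    (h : ∀ l ∈ Finset.Ico k (2 * k), x l ≤ c * X.I) :
    X.nrm k * ∑ l ∈ Finset.Ico k (2 * k), x l ≤ c := by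
  have h1 : ∑ l ∈ Finset.Ico k (2 * k), x l ≤ (Finset.Ico k (2 * k)).card • (c * X.I) :=
    Finset.sum_le_card_nsmul _ _ _ h
  have h2 : (Finset.Ico k (2 * k)).card = k := by rw [Nat.card_Ico]; omega
  rw [h2, nsmul_eq_mul] at h1
  calc X.nrm k * ∑ l ∈ Finset.Ico k (2 * k), x l ≤ X.nrm k * ((k : ℝ) * (c * X.I)) :=
        mul_le_mul_of_nonneg_left h1 (s6r_nrm_nonneg X k)
    _ = c * (X.nrm k * ((k : ℝ) * X.I)) := by ring
    _ = c := by rw [s6r_nrm_mul X k hk, mul_one]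

theorem s6r_le_band (hk : 1 ≤ k) {x : ℕ → ℝ} {c : ℝ}
    (h : ∀ l ∈ Finset.Ico k (2 * k), c * X.I ≤ x l) :
    c ≤ X.nrm k * ∑ l ∈ Finset.Ico k (2 * k), x l := by
  have h1 := s6r_band_le X k hk (x := fun l => -x l) (c := -c) fun l hl => by
    have := h l hl
    linarith
  rw [Finset.sum_neg_distrib] at h1
  linarith

theorem s6r_mem_band {l : ℕ} (hl : l ∈ Finset.Ico k (2 * k)) : l ≤ 3 * k ∧ l + 1 ≤ 3 * k := by
  rw [Finset.mem_Ico] at hl
  omega

/-! ### integrability of tensor fields -/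

theorem s6r_integrable_norm_sq {d : ℕ} {F : EE n → TT n d}
    (h : ∀ α, Measurable (fun y => F y α) ∧ ∃ C : ℝ, ∀ y, |F y α| ≤ C) :
    Integrable (fun y => ‖F y‖ ^ 2) (dm X.η) := by
  have := s6r_prob X
  simp only [s6t_norm_sq]
  refine integrable_finsetSum _ fun α _ => ?_
  obtain ⟨C, hC⟩ := (h α).2
  refine Integrable.of_bound ((h α).1.pow_const 2).aestronglyMeasurable (C ^ 2)
    (Filter.Eventually.of_forall fun y => ?_)
  rw [Real.norm_eq_abs, abs_of_nonneg (sq_nonneg _), ← sq_abs]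
  exact pow_le_pow_left₀ (abs_nonneg _) (hC y) 2

theorem s6r_tD_entry {d : ℕ} {T : EE n → TT n d} (hT : IsTestV T) (α : Idx n (d + 1)) :
    Measurable (fun y => tD T y α) ∧ ∃ C : ℝ, ∀ y, |tD T y α| ≤ C :=
  s6r_test_entry (s6r_dI_test hT (α (Fin.last d))) (Fin.init α)

theorem s6r_sub_entry {d : ℕ} {F G : EE n → TT n d}
    (hF : ∀ α, Measurable (fun y => F y α) ∧ ∃ C : ℝ, ∀ y, |F y α| ≤ C)
    (hG : ∀ α, Measurable (fun y => G y α) ∧ ∃ C : ℝ, ∀ y, |G y α| ≤ C) (α : Idx n d) :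
    Measurable (fun y => (F y - G y) α) ∧ ∃ C : ℝ, ∀ y, |(F y - G y) α| ≤ C := by
  obtain ⟨C, hC⟩ := (hF α).2
  obtain ⟨C', hC'⟩ := (hG α).2
  refine ⟨(hF α).1.sub (hG α).1, C + C', fun y => ?_⟩
  have : (F y - G y) α = F y α - G y α := rfl
  rw [this]
  exact (abs_sub _ _).trans (add_le_add (hC y) (hC' y))

/-! ### mass -/

theorem s6r_int_bP :
    ∫ y, hs2 (X.bP k y) ∂(dm X.η) = X.nrm k * ∑ l ∈ Finset.Ico k (2 * k), nSq X.η (X.T l) := by
  simp only [s6r_hs2_bP, nSq]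
  rw [integral_const_mul, integral_finsetSum _ fun l _ =>
    s6r_integrable_norm_sq X (s6r_test_entry (X.T_test l))]

theorem s6r_mass (hk : 1 ≤ k) {δ : ℝ} (hX : X.Small (3 * k) δ) :
    |∫ y, hs2 (X.bP k y) ∂(dm X.η) - 1| ≤ δ := by
  rw [s6r_int_bP, abs_le]
  constructor
  · have := s6r_le_band X k hk (x := fun l => nSq X.η (X.T l)) (c := 1 - δ) fun l hl => by
      have := abs_le.1 (hX.norm l (s6r_mem_band k hl).1)
      linarith [this.1]
    linarith
  · have := s6r_band_le X k hk (x := fun l => nSq X.η (X.T l)) (c := 1 + δ) fun l hl => by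
      have := abs_le.1 (hX.norm l (s6r_mem_band k hl).1)
      linarith [this.2]
    linarith

/-! ### the energy of the band -/

theorem s6r_dD_eq :
    X.dPsi k = X.nrm k * ∑ l ∈ Finset.Ico k (2 * k), nSq X.η (tD (X.T l)) := by
  unfold HierData.dPsi
  simp only [s6r_hs2_bQ, nSq, norm_tD_sq]
  have hi : ∀ (l : ℕ) (i : Fin n), Integrable (fun y => ‖dI i (X.T l) y‖ ^ 2) (dm X.η) :=
    fun l i => s6r_integrable_norm_sq X (s6r_test_entry (s6r_dI_test (X.T_test l) i))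
  simp only [integral_const_mul]
  rw [← Finset.mul_sum]
  congr 1
  simp only [integral_finsetSum _ fun l _ => hi l _, integral_finsetSum _ fun i _ => hi _ i]
  exact Finset.sum_comm

/-- Young: `|a|² ≤ (1+θ)|b|² + (1+θ⁻¹)|a-b|²` -/
theorem s6r_norm_sq_young {V : Type} [NormedAddCommGroup V] (a b : V) {θ : ℝ} (hθ : 0 < θ) :
    ‖a‖ ^ 2 ≤ (1 + θ) * ‖b‖ ^ 2 + (1 + θ⁻¹) * ‖a - b‖ ^ 2 := by
  have h1 : ‖a‖ ≤ ‖b‖ + ‖a - b‖ := by
    have := norm_add_le b (a - b)
    simpa using this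
  have h2 : ‖a‖ ^ 2 ≤ (‖b‖ + ‖a - b‖) ^ 2 := pow_le_pow_left₀ (norm_nonneg _) h1 2
  have h3 : 2 * ‖b‖ * ‖a - b‖ ≤ θ * ‖b‖ ^ 2 + θ⁻¹ * ‖a - b‖ ^ 2 := by
    have h4 : 0 ≤ θ⁻¹ * (θ * ‖b‖ - ‖a - b‖) ^ 2 := by positivity
    have h5 : θ⁻¹ * (θ * ‖b‖ - ‖a - b‖) ^ 2
        = θ * ‖b‖ ^ 2 - 2 * ‖b‖ * ‖a - b‖ + θ⁻¹ * ‖a - b‖ ^ 2 := by
      field_simp
      ring
    linarith
  nlinarith

theorem s6r_nSq_tD_le {l : ℕ} {δ θ : ℝ} (hθ : 0 < θ) (hl : l + 1 ≤ 3 * k)
    (hX : X.Small (3 * k) δ) :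
    nSq X.η (tD (X.T l)) ≤ ((1 + θ) * (1 + δ) + (1 + θ⁻¹) * δ) * X.I := by
  have h1 := hX.deriv l (by omega)
  have h2 := (abs_le.1 (hX.norm (l + 1) hl)).2
  have i1 : Integrable (fun y => ‖X.T (l + 1) y‖ ^ 2) (dm X.η) :=
    s6r_integrable_norm_sq X (s6r_test_entry (X.T_test (l + 1)))
  have i2 : Integrable (fun y => ‖tD (X.T l) y - X.T (l + 1) y‖ ^ 2) (dm X.η) :=
    s6r_integrable_norm_sq X
      (s6r_sub_entry (s6r_tD_entry (X.T_test l)) (s6r_test_entry (X.T_test (l + 1))))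
  have i0 : Integrable (fun y => ‖tD (X.T l) y‖ ^ 2) (dm X.η) :=
    s6r_integrable_norm_sq X (s6r_tD_entry (X.T_test l))
  have h3 : nSq X.η (tD (X.T l)) ≤ (1 + θ) * nSq X.η (X.T (l + 1))
      + (1 + θ⁻¹) * nSq X.η (fun y => tD (X.T l) y - X.T (l + 1) y) := by
    unfold nSq
    rw [← integral_const_mul, ← integral_const_mul,
      ← integral_add (i1.const_mul _) (i2.const_mul _)]
    exact integral_mono i0 ((i1.const_mul _).add (i2.const_mul _)) fun y =>
      s6r_norm_sq_young _ _ hθ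
  have hθ' : 0 < θ⁻¹ := inv_pos.2 hθ
  have h4 : (1 + θ) * nSq X.η (X.T (l + 1)) ≤ (1 + θ) * ((1 + δ) * X.I) :=
    mul_le_mul_of_nonneg_left (by linarith) (by linarith)
  have h5 : (1 + θ⁻¹) * nSq X.η (fun y => tD (X.T l) y - X.T (l + 1) y)
      ≤ (1 + θ⁻¹) * (δ * X.I) := mul_le_mul_of_nonneg_left h1 (by linarith)
  calc nSq X.η (tD (X.T l)) ≤ (1 + θ) * ((1 + δ) * X.I) + (1 + θ⁻¹) * (δ * X.I) := by linarith
    _ = ((1 + θ) * (1 + δ) + (1 + θ⁻¹) * δ) * X.I := by ring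

theorem s6r_dD_le (hk : 1 ≤ k) {δ : ℝ} (hδ : 0 < δ) (hδ1 : δ ≤ 1) (hX : X.Small (3 * k) δ) :
    X.dPsi k ≤ 1 + 5 * Real.sqrt δ := by
  have hs : 0 < Real.sqrt δ := Real.sqrt_pos.2 hδ
  have h1 := s6r_band_le X k hk (x := fun l => nSq X.η (tD (X.T l)))
    (c := (1 + Real.sqrt δ) * (1 + δ) + (1 + (Real.sqrt δ)⁻¹) * δ) fun l hl =>
      s6r_nSq_tD_le X k hs (s6r_mem_band k hl).2 hX
  rw [← s6r_dD_eq] at h1
  have h2 : Real.sqrt δ * Real.sqrt δ = δ := Real.mul_self_sqrt hδ.le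
  have h3 : (Real.sqrt δ)⁻¹ * δ = Real.sqrt δ := by
    rw [inv_mul_eq_div, div_eq_iff hs.ne', h2]
  have h4 : Real.sqrt δ ≤ 1 := Real.sqrt_le_one.2 hδ1 |>.trans le_rfl
  have h5 : δ ≤ Real.sqrt δ := by nlinarith
  have h6 : Real.sqrt δ * δ ≤ Real.sqrt δ := by nlinarith
  calc X.dPsi k ≤ (1 + Real.sqrt δ) * (1 + δ) + (1 + (Real.sqrt δ)⁻¹) * δ := h1
    _ = 1 + Real.sqrt δ + 2 * δ + Real.sqrt δ * δ + (Real.sqrt δ)⁻¹ * δ := by ring
    _ ≤ 1 + 5 * Real.sqrt δ := by rw [h3]; linarith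

/-! ### curvature and the mean of `M` -/

theorem s6r_RB_M : RB X.M := by
  refine RB.of_hs2_le X.M_meas (C := n) fun y => ?_
  have h1 : ((1 : ℝ) • (1 : Mx n) - X.M y).PosSemidef := by
    rw [one_smul]; exact X.M_le_one y
  have h2 := mk_trace_nonneg (mk_sq_le_smul (X.M_nonneg y) h1)
  have h3 := mk_trace_nonneg (X.M_le_one y)
  rw [Matrix.trace_sub, one_smul] at h2
  rw [Matrix.trace_sub, Matrix.trace_one, Fintype.card_fin] at h3
  rw [hs2_eq_trace, X.M_symm y]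
  linarith

theorem s6r_RB_red (l : ℕ) : RB fun y => red (X.T l y) :=
  (s6r_RB_flat (X.T_test l)).mul (s6r_RB_flat (X.T_test l)).transpose

theorem s6r_RB_rho : RB fun y => X.rho k y :=
  (RB.sum _ fun l _ => s6r_RB_red X l).smul _

theorem s6r_int_trace_rho {N : EE n → Mx n} (hN : RB N) :
    ∫ y, Matrix.trace (N y * X.rho k y) ∂(dm X.η)
      = X.nrm k * ∑ l ∈ Finset.Ico k (2 * k),
          ipF X.η (X.T l) (fun y => slot 0 (N y) (X.T l y)) := by
  have := s6r_prob X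
  simp only [s6r_trace_mul_rho, ipF]
  rw [integral_const_mul, integral_finsetSum _ fun l _ => ?_]
  simp only [inner_slot_zero]
  exact hN.toL2.integrable_trace_mul (s6r_RB_red X l).toL2

theorem s6r_curv (hk : 1 ≤ k) {δ : ℝ} (hX : X.Small (3 * k) δ) :
    ∫ y, Matrix.trace ((1 - X.M y) * X.rho k y) ∂(dm X.η) ≤ δ := by
  rw [s6r_int_trace_rho X k ((RB.const 1).sub (s6r_RB_M X))]
  exact s6r_band_le X k hk fun l hl => hX.curv l (s6r_mem_band k hl).1

theorem s6r_meanM (hk : 1 ≤ k) {δ : ℝ} (hX : X.Small (3 * k) δ) :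
    Matrix.trace (rMean (dm X.η) X.M * rMean (dm X.η) (X.rho k)) ≤ δ := by
  have := s6r_prob X
  have h1 := s6r_int_trace_rho X k (RB.const (Ω := EE n) (meanMx X.η X.M))
  have h2 := mk_integral_trace_mul_const (μ := dm X.η) (s6r_RB_rho X k).toL2 (meanMx X.η X.M)
  have h3 : meanMx X.η X.M = rMean (dm X.η) X.M := rfl
  simp only [Matrix.trace_mul_comm (meanMx X.η X.M)] at h1
  rw [Matrix.trace_mul_comm, ← h3, ← h2, h1]
  exact s6r_band_le X k hk fun l hl => hX.meanM l (s6r_mem_band k hl).1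

end Claimed.Agent.R259
end

/- ===== packed: Claimed.Agent.R259.S6RootCenter ===== -/
section
/-
Row 259 (S0499), Lemma 6.1 of the paper (centering), package BP-S6-root.  Owner: helper57.  Prefix `s6r_`.

PART 5: `‖E R‖²_HS ≤ 3√δ`.
Proof (no independent copy, no square root of `M`, no Cauchy-Schwarz for integrals).  With `R̄ = E R`:
`‖R̄‖² = E tr(R R̄) = E tr(R (1-M) R̄) + E tr(R M R̄)`, and Young's inequality for the positive forms `1-M`, `M`:
`2 tr(R(1-M)R̄) ≤ θ⁻¹ tr((1-M)ρ) + θ tr(R̄²)`,  `2 tr(R M R̄) ≤ θ tr ρ + θ⁻¹ tr(M R̄²)`,  `E tr(M R̄²) = tr((E M) R̄²) ≤ tr((E M)(E ρ))`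
because `R̄² ≤ E R²` (Kadison).
-/
set_option autoImplicit false

open MeasureTheory
open scoped BigOperators Matrix
open Claimed.Agent.R260 (Mx mxFun mxSchur mxSq mxIP mxEig mxU mxRot)

namespace Claimed.Agent.R259

variable {n : ℕ}

/-- Young's inequality for a positive semidefinite form -/
theorem mk_trace_young {N : Mx n} (hN : N.PosSemidef) (A B : Mx n) {θ : ℝ} (hθ : 0 < θ) :
    2 * Matrix.trace (A * N * B)
      ≤ θ⁻¹ * Matrix.trace (A * N * Aᵀ) + θ * Matrix.trace (Bᵀ * N * B) := by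
  have hs : Nᵀ = N := mk_isSymm_of_psd hN
  have h1 := mk_trace_nonneg (mk_psd_conj hN (A - θ • Bᵀ))
  have h2 : Matrix.trace (Bᵀ * N * Aᵀ) = Matrix.trace (A * N * B) := by
    rw [← Matrix.trace_transpose (A * N * B)]
    simp only [Matrix.transpose_mul, hs, Matrix.mul_assoc]
  have h3 : (A - θ • Bᵀ) * N * (A - θ • Bᵀ)ᵀ
      = A * N * Aᵀ - θ • (A * N * B) - θ • (Bᵀ * N * Aᵀ) + (θ * θ) • (Bᵀ * N * B) := by
    simp only [Matrix.transpose_sub, Matrix.transpose_smul, Matrix.transpose_transpose,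
      Matrix.sub_mul, Matrix.mul_sub, Matrix.smul_mul, Matrix.mul_smul, smul_sub, smul_smul]
    abel
  rw [h3] at h1
  simp only [Matrix.trace_add, Matrix.trace_sub, Matrix.trace_smul, smul_eq_mul, h2] at h1
  have h4 : θ * (2 * Matrix.trace (A * N * B))
      ≤ θ * (θ⁻¹ * Matrix.trace (A * N * Aᵀ) + θ * Matrix.trace (Bᵀ * N * B)) := by
    rw [mul_add, mul_inv_cancel_left₀ hθ.ne']
    linarith
  exact le_of_mul_le_mul_left h4 hθ

section abstract_center

variable {Ω : Type} [MeasurableSpace Ω] {μ : Measure Ω}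

theorem mk_rMean_isSymm {R : Ω → Mx n} (hs : ∀ w, (R w).IsSymm) : (rMean μ R).IsSymm := by
  ext a b
  simp only [Matrix.transpose_apply, rMean, Matrix.of_apply]
  refine integral_congr_ae (Filter.Eventually.of_forall fun w => ?_)
  exact (hs w).apply a b

/-- the pointwise inequality behind the centering estimate -/
theorem mk_center_pt {R M Rb : Mx n} (hR : R.IsSymm) (hRb : Rb.IsSymm) (hM0 : M.PosSemidef)
    (hM1 : (1 - M).PosSemidef) {θ : ℝ} (hθ : 0 < θ) :
    2 * Matrix.trace (R * Rb)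
      ≤ θ⁻¹ * Matrix.trace ((1 - M) * (R * R)) + θ * hs2 Rb + θ * hs2 R
        + θ⁻¹ * Matrix.trace (M * (Rb * Rb)) := by
  have h1 := mk_trace_young hM1 R Rb hθ
  have h2 := mk_trace_young hM0 R Rb (inv_pos.2 hθ)
  rw [inv_inv] at h2
  rw [hR, hRb] at h1 h2
  have e0 : R * Rb = R * (1 - M) * Rb + R * M * Rb := by
    rw [← Matrix.add_mul, ← Matrix.mul_add, sub_add_cancel, Matrix.mul_one]
  have e1 : Matrix.trace (R * (1 - M) * R) = Matrix.trace ((1 - M) * (R * R)) := by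
    rw [Matrix.trace_mul_cycle, Matrix.trace_mul_comm]
  have e2 : Matrix.trace (Rb * M * Rb) = Matrix.trace (M * (Rb * Rb)) := by
    rw [Matrix.trace_mul_cycle, Matrix.trace_mul_comm]
  have e3 : Matrix.trace (Rb * (1 - M) * Rb) ≤ hs2 Rb := by
    have h := mk_trace_nonneg (mk_psd_conj hM0 Rb)
    rw [hRb] at h
    rw [hs2_eq_trace, hRb, Matrix.mul_sub, Matrix.sub_mul, Matrix.mul_one, Matrix.trace_sub]
    linarith
  have e4 : Matrix.trace (R * M * R) ≤ hs2 R := by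
    have h := mk_trace_nonneg (mk_psd_conj hM1 R)
    rw [hR, Matrix.mul_sub, Matrix.sub_mul, Matrix.mul_one, Matrix.trace_sub] at h
    rw [hs2_eq_trace, hR]
    linarith
  rw [e0, Matrix.trace_add, ← e1, ← e2]
  have h3 := mul_le_mul_of_nonneg_left e3 hθ.le
  have h4 := mul_le_mul_of_nonneg_left e4 hθ.le
  linarith

/-- **centering**, abstract form -/
theorem mk_center [IsProbabilityMeasure μ] {R M : Ω → Mx n} (hR : RB R)
    (hRs : ∀ w, (R w).IsSymm) (hM : RB M) (hM0 : ∀ w, (M w).PosSemidef)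
    (hM1 : ∀ w, (1 - M w).PosSemidef) {t δ₁ δ₂ θ : ℝ} (hθ : 0 < θ)
    (ht : ∫ w, hs2 (R w) ∂μ ≤ t)
    (h1 : ∫ w, Matrix.trace ((1 - M w) * (R w * R w)) ∂μ ≤ δ₁)
    (h2 : Matrix.trace (rMean μ M * rMean μ (fun w => R w * R w)) ≤ δ₂) :
    hs2 (rMean μ R) ≤ θ⁻¹ * ((δ₁ + δ₂) / 2) + θ * t := by
  have hRb : (rMean μ R).IsSymm := mk_rMean_isSymm hRs
  have hRR : RB fun w => R w * R w := hR.mul hR
  -- the four integrals
  have i0 : Integrable (fun w => Matrix.trace (R w * rMean μ R)) μ :=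
    hR.toL2.integrable_trace_mul (RB.const _).toL2
  have i1 : Integrable (fun w => Matrix.trace ((1 - M w) * (R w * R w))) μ :=
    ((RB.const 1).sub hM).toL2.integrable_trace_mul hRR.toL2
  have i2 : Integrable (fun w => hs2 (R w)) μ := hR.toL2.integrable_hs2
  have i3 : Integrable (fun w => Matrix.trace (M w * (rMean μ R * rMean μ R))) μ :=
    hM.toL2.integrable_trace_mul (RB.const _).toL2
  have e0 : ∫ w, Matrix.trace (R w * rMean μ R) ∂μ = hs2 (rMean μ R) := by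
    rw [mk_integral_trace_mul_const hR.toL2, hs2_eq_trace, hRb]
  have e3 : ∫ w, Matrix.trace (M w * (rMean μ R * rMean μ R)) ∂μ ≤ δ₂ := by
    rw [mk_integral_trace_mul_const hM.toL2]
    refine le_trans ?_ h2
    exact mk_trace_mul_mono (mk_rMean_psd (fun a b => hM.toL2.integrable_apply a b) hM0)
      (mk_rMean_sq_le hR.toL2 hRs)
  have hle : hs2 (rMean μ R) ≤ t := (mk_hs2_rMean_le hR.toL2).trans ht
  have key : ∫ w, 2 * Matrix.trace (R w * rMean μ R) ∂μ
      ≤ ∫ w, (θ⁻¹ * Matrix.trace ((1 - M w) * (R w * R w)) + θ * hs2 (rMean μ R) + θ * hs2 (R w)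
        + θ⁻¹ * Matrix.trace (M w * (rMean μ R * rMean μ R))) ∂μ :=
    integral_mono (i0.const_mul 2)
      ((((i1.const_mul _).add (integrable_const _)).add (i2.const_mul _)).add (i3.const_mul _))
      fun w => mk_center_pt (hRs w) hRb (hM0 w) (hM1 w) hθ
  rw [integral_const_mul, e0,
    integral_add (f := fun w => θ⁻¹ * Matrix.trace ((1 - M w) * (R w * R w))
        + θ * hs2 (rMean μ R) + θ * hs2 (R w))
      (((i1.const_mul _).add (integrable_const _)).add (i2.const_mul _)) (i3.const_mul _),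
    integral_add (f := fun w => θ⁻¹ * Matrix.trace ((1 - M w) * (R w * R w))
        + θ * hs2 (rMean μ R))
      ((i1.const_mul _).add (integrable_const _)) (i2.const_mul _),
    integral_add (i1.const_mul _) (integrable_const _), integral_const_mul, integral_const_mul,
    integral_const_mul, integral_const_mul, integral_const] at key
  simp only [probReal_univ, one_smul] at key
  have hθ' : 0 < θ⁻¹ := inv_pos.2 hθ
  have k1 := mul_le_mul_of_nonneg_left h1 hθ'.le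
  have k2 := mul_le_mul_of_nonneg_left e3 hθ'.le
  have k3 := mul_le_mul_of_nonneg_left ht hθ.le
  have k4 := mul_le_mul_of_nonneg_left hle hθ.le
  have : θ⁻¹ * ((δ₁ + δ₂) / 2) = (θ⁻¹ * δ₁ + θ⁻¹ * δ₂) / 2 := by ring
  rw [this]
  linarith

end abstract_center

/-- **Lemma 6.1, centering**: `‖E R‖² ≤ 3√δ` -/
theorem s6r_center (X : HierData n) (k : ℕ) (hk : 1 ≤ k) {δ : ℝ} (hδ : 0 < δ) (hδ1 : δ ≤ 1)
    (hX : X.Small (3 * k) δ) : hs2 (rMean (dm X.η) (X.R k)) ≤ 3 * Real.sqrt δ := by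
  have := s6r_prob X
  have hs : 0 < Real.sqrt δ := Real.sqrt_pos.2 hδ
  have ht : ∫ y, hs2 (X.R k y) ∂(dm X.η) ≤ 1 + δ := by
    simp only [s6r_hs2_R]
    have := (abs_le.1 (s6r_mass X k hk hX)).2
    linarith
  have h1 : ∫ y, Matrix.trace ((1 - X.M y) * (X.R k y * X.R k y)) ∂(dm X.η) ≤ δ := by
    simp only [s6r_R_mul_R]
    exact s6r_curv X k hk hX
  have h2 : Matrix.trace (rMean (dm X.η) X.M * rMean (dm X.η) (fun y => X.R k y * X.R k y))
      ≤ δ := by
    simp only [s6r_R_mul_R]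
    exact s6r_meanM X k hk hX
  have key := mk_center (μ := dm X.η) (s6r_RB_R X k) (s6r_R_isSymm X k) (s6r_RB_M X) X.M_nonneg
    X.M_le_one hs ht h1 h2
  have e2 : Real.sqrt δ * Real.sqrt δ = δ := Real.mul_self_sqrt hδ.le
  have e3 : (Real.sqrt δ)⁻¹ * δ = Real.sqrt δ := by
    rw [inv_mul_eq_div, div_eq_iff hs.ne', e2]
  have e4 : (Real.sqrt δ)⁻¹ * ((δ + δ) / 2) = Real.sqrt δ := by
    have : (δ + δ) / 2 = δ := by ring
    rw [this, e3]
  rw [e4] at key
  have e5 : Real.sqrt δ * δ ≤ Real.sqrt δ := by nlinarith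
  calc hs2 (rMean (dm X.η) (X.R k)) ≤ Real.sqrt δ + Real.sqrt δ * (1 + δ) := key
    _ ≤ 3 * Real.sqrt δ := by linarith

end Claimed.Agent.R259
end
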