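/- Packed by merge_tool.py (helper293): 6 modules of Claimed.Agent.R259 in one file, same declarations.
   Old modules, in this order: MetE, S7UpSc, S7UpMx, S7StabSc, S7UpKer, S7LawKit -/
import Mathlib
import Claimed.Agent.R260.MxFun
import Claimed.Agent.R260.MxFunB
import Claimed.Agent.R259.Pack048
import Claimed.Agent.R259.Pack035
import Claimed.Agent.R259.Pack036

/- ===== packed: Claimed.Agent.R259.MetE ===== -/
section
/-
Row 259 (S0499), kit MET, block E: the scalar recursion (pure real analysis).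
Blueprint: helper115, proof: helper219.
-/
set_option autoImplicit false

open scoped BigOperators

namespace Claimed.Agent.R259

/-- weighted Minkowski inequality in the plane -/
theorem metE_mink {a b c d w y : ℝ} (ha : 0 ≤ a) (hb : 0 ≤ b) (hc : 0 ≤ c) (hd : 0 ≤ d) (hw : 0 ≤ w)
    (hy : y ^ 2 ≤ (a + c) ^ 2 + w * (b + d) ^ 2) :
    y ≤ Real.sqrt (a ^ 2 + w * b ^ 2) + Real.sqrt (c ^ 2 + w * d ^ 2) := by
  set P := Real.sqrt (a ^ 2 + w * b ^ 2) with hP
  set Q := Real.sqrt (c ^ 2 + w * d ^ 2) with hQ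
  have hP0 : 0 ≤ P := Real.sqrt_nonneg _
  have hQ0 : 0 ≤ Q := Real.sqrt_nonneg _
  have hP2 : P ^ 2 = a ^ 2 + w * b ^ 2 := Real.sq_sqrt (by positivity)
  have hQ2 : Q ^ 2 = c ^ 2 + w * d ^ 2 := Real.sq_sqrt (by positivity)
  have hCS : a * c + w * (b * d) ≤ P * Q := by
    have h1 : (a * c + w * (b * d)) ^ 2 ≤ (P * Q) ^ 2 := by
      rw [mul_pow, hP2, hQ2]
      nlinarith [mul_nonneg hw (sq_nonneg (a * d - b * c))]
    exact (pow_le_pow_iff_left₀ (by positivity) (by positivity) (two_ne_zero)).1 h1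
  have h2 : y ^ 2 ≤ (P + Q) ^ 2 := by nlinarith
  by_contra hno
  have h3 : P + Q < y := not_le.1 hno
  nlinarith

/-- `k^(M+1) + (M+1) k^M ≤ (k+1)^(M+1)` -/
theorem metE_bern (M : ℕ) {k : ℝ} (hk : 0 ≤ k) :
    k ^ (M + 1) + (M + 1) * k ^ M ≤ (k + 1) ^ (M + 1) := by
  induction M with
  | zero => simp
  | succ M ih =>
    have h1 : (k + 1) * (k ^ (M + 1) + (M + 1) * k ^ M) ≤ (k + 1) * (k + 1) ^ (M + 1) :=
      mul_le_mul_of_nonneg_left ih (by linarith)
    have h2 : 0 ≤ k ^ M := pow_nonneg hk M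
    have h3 : (0 : ℝ) ≤ M := Nat.cast_nonneg M
    have e1 : (k + 1) ^ (M + 1 + 1) = (k + 1) * (k + 1) ^ (M + 1) := by ring
    rw [e1]
    refine le_trans ?_ h1
    push_cast
    have e2 : (k + 1) * (k ^ (M + 1) + (M + 1) * k ^ M) =
        k ^ (M + 1 + 1) + ((M : ℝ) + 1 + 1) * k ^ (M + 1) + (M + 1) * k ^ M := by ring
    rw [e2]
    have : 0 ≤ ((M : ℝ) + 1) * k ^ M := by positivity
    linarith

/-- `∑_{i<k} i^M ≤ k^(M+1)/(M+1)` -/
theorem metE_sum_pow (M k : ℕ) :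
    ∑ i ∈ Finset.range k, (i : ℝ) ^ M ≤ (k : ℝ) ^ (M + 1) / (M + 1) := by
  induction k with
  | zero => simp
  | succ k ih =>
    rw [Finset.sum_range_succ]
    have h1 := metE_bern M (Nat.cast_nonneg k : (0 : ℝ) ≤ k)
    have h2 : (0 : ℝ) < (M : ℝ) + 1 := by positivity
    push_cast
    rw [le_div_iff₀ h2]
    rw [le_div_iff₀ h2] at ih
    nlinarith

/-- one step of the error recursion -/
theorem metE_step {h q T : ℝ} (hh : 0 ≤ h) (hh1 : h ≤ 1) (hq2 : q ^ 2 = T) (a b : ℝ) :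
    (q + h * a) ^ 2 + 2 * h * b ^ 2 ≤ (1 + h) * T + 2 * h * (a ^ 2 + b ^ 2) := by
  have e5 : 2 * q * a ≤ T + a ^ 2 := by
    nlinarith [sq_nonneg (q - a)]
  have e6 : h ^ 2 * a ^ 2 ≤ h * a ^ 2 := by
    apply mul_le_mul_of_nonneg_right _ (by positivity)
    nlinarith
  have e7 : h * (2 * q * a) ≤ h * (T + a ^ 2) := mul_le_mul_of_nonneg_left e5 hh
  have e8 : (q + h * a) ^ 2 = T + h * (2 * q * a) + h ^ 2 * a ^ 2 := by
    rw [← hq2]
    ring
  rw [e8]
  linarith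

theorem met_scalar {t h : ℝ} (ht : 0 < t) (hh : 0 < h) (hh1 : h ≤ 1) (M : ℕ)
    {X s' σa σb : ℝ} (hX : 0 ≤ X) (hs' : 0 ≤ s') (hσa : 0 ≤ σa) (hσb : 0 ≤ σb)
    (x x' : ℕ → ℝ) (hx0 : x 0 = 0) (hx : ∀ k, 0 ≤ x k) (hx'0 : ∀ k, 0 ≤ x' k)
    (hx' : ∀ k : ℕ, (k : ℝ) * h ≤ t →
      x' k ≤ Real.sqrt ((2 * h * k) ^ M / (M.factorial : ℝ)) * X + s')
    (hrec : ∀ k : ℕ, ((k : ℝ) + 1) * h ≤ t →
      x (k + 1) ^ 2 ≤ (x k + h * σa) ^ 2 + 2 * h * (x' k + σb) ^ 2) :
    ∀ k : ℕ, (k : ℝ) * h ≤ t →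
      x k ≤ Real.sqrt ((2 * h * k) ^ (M + 1) / ((M + 1).factorial : ℝ)) * X
        + metC t * (σa + σb + s') := by
  set B : ℝ := σa ^ 2 + (s' + σb) ^ 2 with hB
  have hB0 : 0 ≤ B := by positivity
  set ρ : ℕ → ℝ := fun k => ∑ i ∈ Finset.range k, 2 * h * ((2 * h * i) ^ M / (M.factorial : ℝ)) with hρ
  set τ : ℕ → ℝ := fun k => 2 * B * ((1 + h) ^ k - 1) with hτ
  have hfac : (0 : ℝ) < (M.factorial : ℝ) := by exact_mod_cast M.factorial_pos
  have hρ0 : ∀ k, 0 ≤ ρ k := fun k => Finset.sum_nonneg fun i _ => by positivity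
  have hτ0 : ∀ k, 0 ≤ τ k := fun k => by
    have : 1 ≤ (1 + h) ^ k := one_le_pow₀ (by linarith)
    have : 0 ≤ (1 + h) ^ k - 1 := by linarith
    positivity
  -- the main induction
  have main : ∀ k : ℕ, (k : ℝ) * h ≤ t → x k ≤ Real.sqrt (ρ k) * X + Real.sqrt (τ k) := by
    intro k
    induction k with
    | zero =>
      intro _
      rw [hx0]
      positivity
    | succ k ih =>
      intro hk
      push_cast at hk
      have hk' : (k : ℝ) * h ≤ t := by nlinarith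
      have ih' := ih hk'
      have h1 := hrec k hk
      have h2 := hx' k hk'
      set ak : ℝ := Real.sqrt ((2 * h * k) ^ M / (M.factorial : ℝ)) with hak
      have hak0 : 0 ≤ ak := Real.sqrt_nonneg _
      have hak2 : ak ^ 2 = (2 * h * k) ^ M / (M.factorial : ℝ) := Real.sq_sqrt (by positivity)
      have hsτ : 0 ≤ Real.sqrt (τ k) := Real.sqrt_nonneg _
      have hsτ2 : Real.sqrt (τ k) ^ 2 = τ k := Real.sq_sqrt (hτ0 k)
      have hsρ : 0 ≤ Real.sqrt (ρ k) := Real.sqrt_nonneg _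
      have hsρ2 : Real.sqrt (ρ k) ^ 2 = ρ k := Real.sq_sqrt (hρ0 k)
      have h3 : x (k + 1) ^ 2 ≤ (Real.sqrt (ρ k) * X + (Real.sqrt (τ k) + h * σa)) ^ 2
          + 2 * h * (ak * X + (s' + σb)) ^ 2 := by
        refine h1.trans (add_le_add ?_ ?_)
        · apply pow_le_pow_left₀ (by have := hx k; positivity)
          linarith
        · apply mul_le_mul_of_nonneg_left _ (by positivity)
          apply pow_le_pow_left₀ (by have := hx'0 k; positivity)
          linarith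
      have h4 := metE_mink (a := Real.sqrt (ρ k) * X) (b := ak * X) (c := Real.sqrt (τ k) + h * σa)
        (d := s' + σb) (w := 2 * h) (by positivity) (by positivity) (by positivity) (by positivity)
        (by positivity) h3
      have e1 : (Real.sqrt (ρ k) * X) ^ 2 + 2 * h * (ak * X) ^ 2 = ρ (k + 1) * X ^ 2 := by
        rw [mul_pow, mul_pow, hsρ2, hak2]
        simp only [hρ]
        rw [Finset.sum_range_succ]
        ring
      have e2 : Real.sqrt (ρ (k + 1) * X ^ 2) = Real.sqrt (ρ (k + 1)) * X := by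
        rw [Real.sqrt_mul (hρ0 _), Real.sqrt_sq hX]
      have e3 : (Real.sqrt (τ k) + h * σa) ^ 2 + 2 * h * (s' + σb) ^ 2 ≤ τ (k + 1) := by
        have e4 : τ (k + 1) = (1 + h) * τ k + 2 * h * B := by
          simp only [hτ]
          ring
        rw [e4, hB]
        exact metE_step hh.le hh1 hsτ2 σa (s' + σb)
      rw [e1, e2] at h4
      exact h4.trans (add_le_add le_rfl (Real.sqrt_le_sqrt e3))
  intro k hk
  refine (main k hk).trans (add_le_add ?_ ?_)
  · apply mul_le_mul_of_nonneg_right _ hX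
    apply Real.sqrt_le_sqrt
    have e1 : ρ k = (2 * h) ^ (M + 1) / (M.factorial : ℝ) * ∑ i ∈ Finset.range k, (i : ℝ) ^ M := by
      simp only [hρ]
      rw [Finset.mul_sum]
      refine Finset.sum_congr rfl fun i _ => ?_
      rw [mul_pow]
      ring
    have e2 : (2 * h * k) ^ (M + 1) / ((M + 1).factorial : ℝ) =
        (2 * h) ^ (M + 1) / (M.factorial : ℝ) * ((k : ℝ) ^ (M + 1) / (M + 1)) := by
      rw [Nat.factorial_succ]
      push_cast
      rw [mul_pow]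
      field_simp
    rw [e1, e2]
    exact mul_le_mul_of_nonneg_left (metE_sum_pow M k) (by positivity)
  · have hS : 0 ≤ σa + σb + s' := by positivity
    have h1 : (1 + h) ^ k ≤ Real.exp t := by
      calc (1 + h) ^ k ≤ Real.exp h ^ k :=
            pow_le_pow_left₀ (by linarith) (by linarith [Real.add_one_le_exp h]) k
        _ = Real.exp (k * h) := by rw [Real.exp_nat_mul]
        _ ≤ Real.exp t := Real.exp_le_exp.2 hk
    have h2 : B ≤ (σa + σb + s') ^ 2 := by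
      rw [hB]
      nlinarith [mul_nonneg hσa hσb, mul_nonneg hσa hs']
    have h3 : 0 ≤ Real.exp t - 1 := by linarith [Real.add_one_le_exp t]
    have h4 : τ k ≤ 2 * (Real.exp t - 1) * (σa + σb + s') ^ 2 := by
      simp only [hτ]
      have h5 : 0 ≤ (1 + h) ^ k - 1 := by
        have : 1 ≤ (1 + h) ^ k := one_le_pow₀ (by linarith)
        linarith
      calc 2 * B * ((1 + h) ^ k - 1) ≤ 2 * (σa + σb + s') ^ 2 * ((1 + h) ^ k - 1) := by
            apply mul_le_mul_of_nonneg_right _ h5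
            linarith
        _ ≤ 2 * (σa + σb + s') ^ 2 * (Real.exp t - 1) := by
            apply mul_le_mul_of_nonneg_left _ (by positivity)
            linarith
        _ = 2 * (Real.exp t - 1) * (σa + σb + s') ^ 2 := by ring
    calc Real.sqrt (τ k) ≤ Real.sqrt (2 * (Real.exp t - 1) * (σa + σb + s') ^ 2) :=
          Real.sqrt_le_sqrt h4
      _ = metC t * (σa + σb + s') := by
          rw [Real.sqrt_mul (by positivity), Real.sqrt_sq hS]
          rfl

end Claimed.Agent.R259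
end

/- ===== packed: Claimed.Agent.R259.S7UpSc ===== -/
section
/-
Row 259 (S0499), section 7, package BP-S7-UPPER: the scalar multiplier lemma (Lemma 7.1).
Owner: helper239.  Prefix `s7u`.  Mathlib only.

`φ_T(v) = 1/((1 + T v²/L)(1 + (1+1/L) T v²))`.  For `v, w ≥ 0`, not both zero:
`(v+w)² ∫_0^∞ φ_T(v) φ_T(w) dT ≤ 4 log(1+L)`, and `≤ 9` if `v ≤ 2w`, `w ≤ 2v`.
-/
set_option autoImplicit false

open MeasureTheory Set Filter Topology

namespace Claimed.Agent.R259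

/-- `φ_T(v) = 1/((1 + T v²/L)(1 + (1+1/L) T v²))` -/
noncomputable def s7uPhi (L T v : ℝ) : ℝ :=
  ((1 + T / L * v ^ 2) * (1 + (1 + 1 / L) * (T * v ^ 2)))⁻¹

/-- generates the equation lemma in this file -/
theorem s7upsc_eqns_cite : True := by
  have := @s7uPhi.eq_1
  trivial

theorem s7u_den1_ge {L T v : ℝ} (hL : 0 < L) (hT : 0 ≤ T) : 1 ≤ 1 + T / L * v ^ 2 := by
  have : 0 ≤ T / L * v ^ 2 := by positivity
  linarith

theorem s7u_den2_ge {L T v : ℝ} (hL : 0 < L) (hT : 0 ≤ T) :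
    1 + T * v ^ 2 ≤ 1 + (1 + 1 / L) * (T * v ^ 2) := by
  have : 0 ≤ 1 / L * (T * v ^ 2) := by positivity
  nlinarith

theorem s7u_phi_pos {L T : ℝ} (hL : 0 < L) (hT : 0 ≤ T) (v : ℝ) : 0 < s7uPhi L T v := by
  unfold s7uPhi
  have h1 := s7u_den1_ge (v := v) hL hT
  have h2 := s7u_den2_ge (v := v) hL hT
  have h3 : 0 ≤ T * v ^ 2 := by positivity
  have : 0 < (1 + T / L * v ^ 2) * (1 + (1 + 1 / L) * (T * v ^ 2)) :=
    mul_pos (by linarith) (by linarith)
  exact inv_pos.2 this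

theorem s7u_phi_le_one {L T : ℝ} (hL : 0 < L) (hT : 0 ≤ T) (v : ℝ) : s7uPhi L T v ≤ 1 := by
  unfold s7uPhi
  have h1 := s7u_den1_ge (v := v) hL hT
  have h2 := s7u_den2_ge (v := v) hL hT
  have h3 : 0 ≤ T * v ^ 2 := by positivity
  apply inv_le_one_of_one_le₀
  nlinarith

/-- `φ_T(v) ≤ 1/(1 + T v²)` -/
theorem s7u_phi_le_inv {L T : ℝ} (hL : 0 < L) (hT : 0 ≤ T) (v : ℝ) :
    s7uPhi L T v ≤ (1 + T * v ^ 2)⁻¹ := by
  unfold s7uPhi
  have h1 := s7u_den1_ge (v := v) hL hT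
  have h2 := s7u_den2_ge (v := v) hL hT
  have h3 : 0 ≤ T * v ^ 2 := by positivity
  apply inv_anti₀ (by linarith)
  nlinarith

theorem s7u_phi_continuousOn {L : ℝ} (hL : 0 < L) (v : ℝ) :
    ContinuousOn (fun T => s7uPhi L T v) (Ici 0) := by
  unfold s7uPhi
  apply ContinuousOn.inv₀
  · fun_prop
  · intro T hT
    have hT' : (0 : ℝ) ≤ T := hT
    have h1 := s7u_den1_ge (v := v) hL hT'
    have h2 := s7u_den2_ge (v := v) hL hT'
    have h3 : 0 ≤ T * v ^ 2 := by positivity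
    have : 0 < (1 + T / L * v ^ 2) * (1 + (1 + 1 / L) * (T * v ^ 2)) :=
      mul_pos (by linarith) (by linarith)
    exact this.ne'

/-- `∫_0^∞ dT/(1+cT)² = 1/c` -/
theorem s7u_int_sq {c : ℝ} (hc : 0 < c) :
    IntegrableOn (fun T : ℝ => ((1 + c * T) ^ 2)⁻¹) (Ioi 0) ∧
      ∫ T in Ioi (0 : ℝ), ((1 + c * T) ^ 2)⁻¹ = 1 / c := by
  have hder : ∀ x ∈ Ici (0 : ℝ),
      HasDerivAt (fun T : ℝ => -(1 / c) * (1 + c * T)⁻¹) (((1 + c * x) ^ 2)⁻¹) x := by
    intro x hx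
    have hx' : (0 : ℝ) ≤ x := hx
    have hpos : 0 < 1 + c * x := by positivity
    have h1 : HasDerivAt (fun T : ℝ => 1 + c * T) c x := by
      simpa using ((hasDerivAt_id x).const_mul c).const_add 1
    have h2 := (h1.inv hpos.ne').const_mul (-(1 / c))
    refine HasDerivAt.congr_deriv h2 ?_
    field_simp
  have hpos : ∀ x ∈ Ioi (0 : ℝ), 0 ≤ ((1 + c * x) ^ 2)⁻¹ := fun x _ => by positivity
  have hlim : Tendsto (fun T : ℝ => -(1 / c) * (1 + c * T)⁻¹) atTop (𝓝 0) := by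
    have h1 : Tendsto (fun T : ℝ => 1 + c * T) atTop atTop :=
      tendsto_atTop_add_const_left _ _ (tendsto_id.const_mul_atTop hc)
    have h2 := (tendsto_inv_atTop_zero.comp h1).const_mul (-(1 / c))
    simpa using h2
  refine ⟨integrableOn_Ioi_deriv_of_nonneg' hder hpos hlim, ?_⟩
  rw [integral_Ioi_of_hasDerivAt_of_nonneg' hder hpos hlim]
  simp

/-- `∫_0^∞ dT/((1+αT)(1+βT)) = log(β/α)/(β-α)` -/
theorem s7u_int_two {α β : ℝ} (hα : 0 < α) (hαβ : α < β) :
    IntegrableOn (fun T : ℝ => ((1 + α * T) * (1 + β * T))⁻¹) (Ioi 0) ∧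
      ∫ T in Ioi (0 : ℝ), ((1 + α * T) * (1 + β * T))⁻¹ = Real.log (β / α) / (β - α) := by
  have hβ : 0 < β := hα.trans hαβ
  have hd : 0 < β - α := sub_pos.2 hαβ
  have hder : ∀ x ∈ Ici (0 : ℝ),
      HasDerivAt (fun T : ℝ => (Real.log (1 + β * T) - Real.log (1 + α * T)) / (β - α))
        (((1 + α * x) * (1 + β * x))⁻¹) x := by
    intro x hx
    have hx' : (0 : ℝ) ≤ x := hx
    have hpa : 0 < 1 + α * x := by positivity
    have hpb : 0 < 1 + β * x := by positivity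
    have h1 : HasDerivAt (fun T : ℝ => 1 + α * T) α x := by
      simpa using ((hasDerivAt_id x).const_mul α).const_add 1
    have h2 : HasDerivAt (fun T : ℝ => 1 + β * T) β x := by
      simpa using ((hasDerivAt_id x).const_mul β).const_add 1
    have h3 := ((h2.log hpb.ne').sub (h1.log hpa.ne')).div_const (β - α)
    refine HasDerivAt.congr_deriv h3 ?_
    field_simp
    ring
  have hpos : ∀ x ∈ Ioi (0 : ℝ), 0 ≤ ((1 + α * x) * (1 + β * x))⁻¹ := fun x hx => by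
    have hx' : (0 : ℝ) < x := hx
    positivity
  have hlim : Tendsto (fun T : ℝ => (Real.log (1 + β * T) - Real.log (1 + α * T)) / (β - α)) atTop
      (𝓝 (Real.log (β / α) / (β - α))) := by
    apply Tendsto.div_const
    have h1 : Tendsto (fun T : ℝ => (T⁻¹ + β) / (T⁻¹ + α)) atTop (𝓝 ((0 + β) / (0 + α))) :=
      (tendsto_inv_atTop_zero.add_const β).div (tendsto_inv_atTop_zero.add_const α)
        (by simpa using hα.ne')
    rw [zero_add, zero_add] at h1
    have h2 := (Real.continuousAt_log (div_pos hβ hα).ne').tendsto.comp h1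
    refine h2.congr' ?_
    filter_upwards [eventually_gt_atTop (0 : ℝ)] with T hT
    have hpa : 0 < 1 + α * T := by positivity
    have hpb : 0 < 1 + β * T := by positivity
    rw [Function.comp_apply, ← Real.log_div hpb.ne' hpa.ne']
    congr 1
    field_simp
  refine ⟨integrableOn_Ioi_deriv_of_nonneg' hder hpos hlim, ?_⟩
  rw [integral_Ioi_of_hasDerivAt_of_nonneg' hder hpos hlim]
  simp

/-- `∫_0^∞ φ_T(v) dT = log(1+L)/v²` -/
theorem s7u_int_phi {L v : ℝ} (hL : 0 < L) (hv : 0 < v) :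
    IntegrableOn (fun T : ℝ => s7uPhi L T v) (Ioi 0) ∧
      ∫ T in Ioi (0 : ℝ), s7uPhi L T v = Real.log (1 + L) / v ^ 2 := by
  have hα : 0 < v ^ 2 / L := by positivity
  have hαβ : v ^ 2 / L < (1 + 1 / L) * v ^ 2 := by
    have : (1 + 1 / L) * v ^ 2 = v ^ 2 + v ^ 2 / L := by ring
    rw [this]
    have : 0 < v ^ 2 := by positivity
    linarith
  obtain ⟨h1, h2⟩ := s7u_int_two hα hαβ
  have e : (fun T : ℝ => s7uPhi L T v) =
      fun T : ℝ => ((1 + v ^ 2 / L * T) * (1 + (1 + 1 / L) * v ^ 2 * T))⁻¹ := by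
    funext T
    unfold s7uPhi
    congr 2 <;> ring
  rw [e]
  refine ⟨h1, ?_⟩
  rw [h2]
  have e1 : (1 + 1 / L) * v ^ 2 / (v ^ 2 / L) = 1 + L := by
    field_simp
    ring
  have e2 : (1 + 1 / L) * v ^ 2 - v ^ 2 / L = v ^ 2 := by ring
  rw [e1, e2]

theorem s7u_prod_aesm {L : ℝ} (hL : 0 < L) (v w : ℝ) :
    AEStronglyMeasurable (fun T : ℝ => s7uPhi L T v * s7uPhi L T w) (volume.restrict (Ioi 0)) :=
  (((s7u_phi_continuousOn hL v).mul (s7u_phi_continuousOn hL w)).mono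
    Ioi_subset_Ici_self).aestronglyMeasurable measurableSet_Ioi

/-- the ordered case `w ≤ v` -/
theorem s7u_scalar_aux {L v w : ℝ} (hL : 1 ≤ L) (hw : 0 ≤ w) (hwv : w ≤ v) (hv : 0 < v) :
    IntegrableOn (fun T : ℝ => s7uPhi L T v * s7uPhi L T w) (Ioi 0) ∧
      (v + w) ^ 2 * ∫ T in Ioi (0 : ℝ), s7uPhi L T v * s7uPhi L T w ≤ 4 * Real.log (1 + L) ∧
      (v ≤ 2 * w → (v + w) ^ 2 * ∫ T in Ioi (0 : ℝ), s7uPhi L T v * s7uPhi L T w ≤ 9) := by
  have hL0 : 0 < L := by linarith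
  obtain ⟨h1, h2⟩ := s7u_int_phi hL0 hv
  have hle : ∀ T ∈ Ioi (0 : ℝ), s7uPhi L T v * s7uPhi L T w ≤ s7uPhi L T v := fun T hT => by
    have hT' : (0 : ℝ) ≤ T := le_of_lt hT
    exact mul_le_of_le_one_right (s7u_phi_pos hL0 hT' v).le (s7u_phi_le_one hL0 hT' w)
  have hnn : ∀ T ∈ Ioi (0 : ℝ), 0 ≤ s7uPhi L T v * s7uPhi L T w := fun T hT => by
    have hT' : (0 : ℝ) ≤ T := le_of_lt hT
    exact mul_nonneg (s7u_phi_pos hL0 hT' v).le (s7u_phi_pos hL0 hT' w).le
  have hint : IntegrableOn (fun T : ℝ => s7uPhi L T v * s7uPhi L T w) (Ioi 0) := by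
    refine Integrable.mono' h1 (s7u_prod_aesm hL0 v w) ?_
    refine (ae_restrict_iff' measurableSet_Ioi).2 (Eventually.of_forall fun T hT => ?_)
    rw [Real.norm_of_nonneg (hnn T hT)]
    exact hle T hT
  have hlog : 0 ≤ Real.log (1 + L) := Real.log_nonneg (by linarith)
  refine ⟨hint, ?_, ?_⟩
  · have h3 : ∫ T in Ioi (0 : ℝ), s7uPhi L T v * s7uPhi L T w ≤ Real.log (1 + L) / v ^ 2 := by
      rw [← h2]
      exact setIntegral_mono_on hint h1 measurableSet_Ioi hle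
    have h4 : (v + w) ^ 2 ≤ 4 * v ^ 2 := by nlinarith
    calc (v + w) ^ 2 * ∫ T in Ioi (0 : ℝ), s7uPhi L T v * s7uPhi L T w
        ≤ (v + w) ^ 2 * (Real.log (1 + L) / v ^ 2) :=
          mul_le_mul_of_nonneg_left h3 (by positivity)
      _ ≤ 4 * v ^ 2 * (Real.log (1 + L) / v ^ 2) :=
          mul_le_mul_of_nonneg_right h4 (by positivity)
      _ = 4 * Real.log (1 + L) := by field_simp
  · intro hvw
    have hw0 : 0 < w := by linarith
    obtain ⟨g1, g2⟩ := s7u_int_sq (c := w ^ 2) (by positivity)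
    have hle2 : ∀ T ∈ Ioi (0 : ℝ), s7uPhi L T v * s7uPhi L T w ≤ ((1 + w ^ 2 * T) ^ 2)⁻¹ := by
      intro T hT
      have hT' : (0 : ℝ) ≤ T := le_of_lt hT
      have a1 := s7u_phi_le_inv hL0 hT' v
      have a2 := s7u_phi_le_inv hL0 hT' w
      have a3 : (1 + T * v ^ 2)⁻¹ ≤ (1 + T * w ^ 2)⁻¹ := by
        apply inv_anti₀ (by positivity)
        have : w ^ 2 ≤ v ^ 2 := by nlinarith
        nlinarith
      have a4 : 0 ≤ (1 + T * w ^ 2)⁻¹ := by positivity
      calc s7uPhi L T v * s7uPhi L T w ≤ (1 + T * w ^ 2)⁻¹ * (1 + T * w ^ 2)⁻¹ :=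
            mul_le_mul (a1.trans a3) a2 (s7u_phi_pos hL0 hT' w).le a4
        _ = ((1 + w ^ 2 * T) ^ 2)⁻¹ := by
            rw [← mul_inv, ← pow_two, mul_comm T]
    have h3 : ∫ T in Ioi (0 : ℝ), s7uPhi L T v * s7uPhi L T w ≤ 1 / w ^ 2 := by
      rw [← g2]
      exact setIntegral_mono_on hint g1 measurableSet_Ioi hle2
    have h4 : (v + w) ^ 2 ≤ 9 * w ^ 2 := by nlinarith
    calc (v + w) ^ 2 * ∫ T in Ioi (0 : ℝ), s7uPhi L T v * s7uPhi L T w
        ≤ (v + w) ^ 2 * (1 / w ^ 2) := mul_le_mul_of_nonneg_left h3 (by positivity)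
      _ ≤ 9 * w ^ 2 * (1 / w ^ 2) := mul_le_mul_of_nonneg_right h4 (by positivity)
      _ = 9 := by field_simp

/-- **Lemma 7.1** (scalar multipliers) -/
theorem s7u_scalar {L v w : ℝ} (hL : 1 ≤ L) (hv : 0 ≤ v) (hw : 0 ≤ w) (hvw : 0 < v + w) :
    IntegrableOn (fun T : ℝ => s7uPhi L T v * s7uPhi L T w) (Ioi 0) ∧
      (v + w) ^ 2 * ∫ T in Ioi (0 : ℝ), s7uPhi L T v * s7uPhi L T w ≤ 4 * Real.log (1 + L) ∧
      (v ≤ 2 * w → w ≤ 2 * v →
        (v + w) ^ 2 * ∫ T in Ioi (0 : ℝ), s7uPhi L T v * s7uPhi L T w ≤ 9) := by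
  rcases le_total w v with h | h
  · obtain ⟨a, b, c⟩ := s7u_scalar_aux hL hw h (by linarith)
    exact ⟨a, b, fun h1 _ => c h1⟩
  · obtain ⟨a, b, c⟩ := s7u_scalar_aux hL hv h (by linarith)
    have e : (fun T : ℝ => s7uPhi L T v * s7uPhi L T w) =
        fun T : ℝ => s7uPhi L T w * s7uPhi L T v := by
      funext T
      ring
    rw [e, add_comm v w]
    exact ⟨a, b, fun _ h2 => c h2⟩

end Claimed.Agent.R259
end

/- ===== packed: Claimed.Agent.R259.S7UpMx ===== -/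
section
/-
Row 259 (S0499), section 7, package BP-S7-UPPER: the pointwise spectral computation of P7.2.
Owner: helper239.  Prefix `s7u`.

`R` symmetric with eigenvalues `r_a ≥ 0`, `ρ = R R`, `Δ` symmetric, `D = mxRot R Δ`:
* `s7u_fish_eq`  : `fish L T ρ Δ = T² ∑_{a,b} φ_T(r_a) φ_T(r_b) D_ab²`;
* `s7u_point`    : if the kernel-kernel block of `Δ` vanishes then `T ↦ fish/T²` is integrable on `(0,∞)` and
  `∫_0^∞ fish dT/T² ≤ 9 ‖X‖² + 9 log(1+L) ‖[Ĥ,R]‖²` for the Sylvester solutions `X`, `Ĥ`.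
-/
set_option autoImplicit false

open MeasureTheory Set
open scoped BigOperators Matrix
open Claimed.Agent.R260

namespace Claimed.Agent.R259

variable {n : ℕ}

/-- scalar version of `obsE` as a function of the eigenvalue of `R` -/
noncomputable def s7uE (L T v : ℝ) : ℝ := (1 + T / L * v ^ 2)⁻¹

/-- scalar version of `obsC` as a function of the eigenvalue of `R` -/
noncomputable def s7uC (L T v : ℝ) : ℝ := 1 + T * (v ^ 2 * s7uE L T v)

/-- generates the equation lemmas in this file -/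
theorem s7upmx_eqns_cite : True := by
  have := @s7uE.eq_1
  have := @s7uC.eq_1
  trivial

theorem s7uE_pos {L T : ℝ} (hL : 0 < L) (hT : 0 ≤ T) (v : ℝ) : 0 < s7uE L T v := by
  unfold s7uE
  have := s7u_den1_ge (v := v) hL hT
  exact inv_pos.2 (by linarith)

theorem s7uC_pos {L T : ℝ} (hL : 0 < L) (hT : 0 ≤ T) (v : ℝ) : 0 < s7uC L T v := by
  unfold s7uC
  have := s7uE_pos hL hT v
  positivity

theorem s7u_phi_eq {L T : ℝ} (hL : 0 < L) (hT : 0 ≤ T) (v : ℝ) :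
    (s7uC L T v)⁻¹ * s7uE L T v ^ 2 = s7uPhi L T v := by
  unfold s7uC s7uE s7uPhi
  have h1 := s7u_den1_ge (v := v) hL hT
  have h2 := s7u_den2_ge (v := v) hL hT
  have h3 : 0 ≤ T * v ^ 2 := by positivity
  have h1' : (1 + T / L * v ^ 2) ≠ 0 := by linarith
  have h2' : (1 + (1 + 1 / L) * (T * v ^ 2)) ≠ 0 := by linarith
  have e : 1 + T * (v ^ 2 * (1 + T / L * v ^ 2)⁻¹) =
      (1 + (1 + 1 / L) * (T * v ^ 2)) * (1 + T / L * v ^ 2)⁻¹ := by
    field_simp
    ring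
  rw [e, mul_inv, inv_inv, mul_inv]
  field_simp

theorem s7u_sq_eq {R : Mx n} (hR : R.IsSymm) : R * R = mxFun (fun r => r ^ 2) R := by
  rw [mxFun_pow hR 2, pow_two]

theorem s7u_obsE {R : Mx n} (hR : R.IsSymm) {L T : ℝ} (hL : 0 < L) (hT : 0 ≤ T) :
    obsE L T (R * R) = mxFun (s7uE L T) R := by
  unfold obsE
  have h1 : 1 + (T / L) • (R * R) = mxFun (fun r => 1 + T / L * r ^ 2) R := by
    rw [mxFun_add, mxFun_const, one_smul, mxFun_smul, s7u_sq_eq hR]
  rw [h1]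
  refine Matrix.inv_eq_right_inv (mxFun_mul_inv fun i => ?_)
  have := s7u_den1_ge (v := mxEig R i) hL hT
  linarith

theorem s7u_obsC {R : Mx n} (hR : R.IsSymm) {L T : ℝ} (hL : 0 < L) (hT : 0 ≤ T) :
    obsC L T (R * R) = mxFun (s7uC L T) R := by
  unfold obsC
  rw [s7u_obsE hR hL hT, s7u_sq_eq hR]
  have : mxFun (s7uC L T) R = mxFun (fun v => 1 + T * (v ^ 2 * s7uE L T v)) R := rfl
  rw [this, mxFun_add, mxFun_const, one_smul, mxFun_smul, mxFun_mul]

theorem s7u_obsC_inv {R : Mx n} (hR : R.IsSymm) {L T : ℝ} (hL : 0 < L) (hT : 0 ≤ T) :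
    (obsC L T (R * R))⁻¹ = mxFun (fun v => (s7uC L T v)⁻¹) R := by
  rw [s7u_obsC hR hL hT]
  exact Matrix.inv_eq_right_inv (mxFun_mul_inv fun i => (s7uC_pos hL hT _).ne')

/-- the spectral formula for the Fisher information -/
theorem s7u_fish_eq {R Δ : Mx n} (hR : R.IsSymm) (hΔ : Δ.IsSymm) {L T : ℝ} (hL : 0 < L)
    (hT : 0 ≤ T) :
    fish L T (R * R) Δ = T ^ 2 * ∑ a, ∑ b,
      s7uPhi L T (mxEig R a) * s7uPhi L T (mxEig R b) * (mxRot R Δ a b) ^ 2 := by
  have hM : ∀ a b, mxRot R ((obsC L T (R * R))⁻¹ * obsDC L T (R * R) Δ) a b =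
      (s7uC L T (mxEig R a))⁻¹ *
        (T * (s7uE L T (mxEig R a) * mxRot R Δ a b * s7uE L T (mxEig R b))) := by
    intro a b
    rw [s7u_obsC_inv hR hL hT, mxRot_mxFun_mul_apply]
    unfold obsDC
    rw [mxRot_smul, Matrix.smul_apply, smul_eq_mul, s7u_obsE hR hL hT, mxRot_mul_mxFun_apply,
      mxRot_mxFun_mul_apply]
  unfold fish
  rw [Matrix.mul_assoc ((obsC L T (R * R))⁻¹ * obsDC L T (R * R) Δ), ← mxRot_trace R, mxRot_mul,
    Matrix.trace, Finset.mul_sum]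
  refine Finset.sum_congr rfl fun a _ => ?_
  rw [Matrix.diag_apply, Matrix.mul_apply, Finset.mul_sum]
  refine Finset.sum_congr rfl fun b _ => ?_
  rw [hM, hM, mxRot_symm_apply R hΔ b a, ← s7u_phi_eq hL hT, ← s7u_phi_eq hL hT]
  ring

theorem s7u_fish_nonneg {R Δ : Mx n} (hR : R.IsSymm) (hΔ : Δ.IsSymm) {L T : ℝ} (hL : 0 < L)
    (hT : 0 ≤ T) : 0 ≤ fish L T (R * R) Δ := by
  rw [s7u_fish_eq hR hΔ hL hT]
  refine mul_nonneg (sq_nonneg _) (Finset.sum_nonneg fun a _ => Finset.sum_nonneg fun b _ => ?_)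
  exact mul_nonneg (mul_nonneg (s7u_phi_pos hL hT _).le (s7u_phi_pos hL hT _).le) (sq_nonneg _)

/-- the inequality for one pair of eigenvalues -/
theorem s7u_pair {x y D I ℓ : ℝ} (hs : 0 < x + y) (hℓ : 0 ≤ ℓ)
    (h4 : (x + y) ^ 2 * I ≤ 4 * ℓ) (h9 : x ≤ 2 * y → y ≤ 2 * x → (x + y) ^ 2 * I ≤ 9) :
    I * D ^ 2 ≤ 9 * ((x + y)⁻¹ * D) ^ 2 +
      9 * ℓ * (2 * ((x + y) ^ 2)⁻¹ * D * y - x * (2 * ((x + y) ^ 2)⁻¹ * D)) ^ 2 := by
  set u : ℝ := (x + y)⁻¹ * D with hu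
  set t : ℝ := (y - x) * (x + y)⁻¹ with ht
  have hD : D = (x + y) * u := by
    rw [hu]
    field_simp
  have e1 : 2 * ((x + y) ^ 2)⁻¹ * D * y - x * (2 * ((x + y) ^ 2)⁻¹ * D) = 2 * u * t := by
    rw [hu, ht]
    field_simp
  have e2 : I * D ^ 2 = (x + y) ^ 2 * I * u ^ 2 := by
    rw [hD]
    ring
  rw [e1, e2]
  have hu2 : 0 ≤ u ^ 2 := sq_nonneg u
  by_cases hc : x ≤ 2 * y ∧ y ≤ 2 * x
  · have h1 := mul_le_mul_of_nonneg_right (h9 hc.1 hc.2) hu2
    have h2 : 0 ≤ 9 * ℓ * (2 * u * t) ^ 2 := by positivity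
    linarith
  · have ht2 : 1 / 9 ≤ t ^ 2 := by
      have h3 : (x + y) ^ 2 ≤ 9 * (y - x) ^ 2 := by
        rw [not_and_or, not_le, not_le] at hc
        rcases hc with hc | hc <;> nlinarith
      rw [ht, mul_pow, inv_pow, ← div_eq_mul_inv, le_div_iff₀ (by positivity)]
      linarith
    have h1 := mul_le_mul_of_nonneg_right h4 hu2
    have h2 : 4 * ℓ * u ^ 2 ≤ 9 * ℓ * (2 * u * t) ^ 2 := by
      have : 9 * ℓ * (2 * u * t) ^ 2 = 36 * (ℓ * u ^ 2) * t ^ 2 := by ring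
      rw [this]
      have h5 : 0 ≤ ℓ * u ^ 2 := by positivity
      nlinarith
    nlinarith

theorem s7u_rot_self {R : Mx n} (hR : R.IsSymm) : mxRot R R = Matrix.diagonal (mxEig R) := by
  have := mxRot_mxFun (fun a => a) R
  rwa [mxFun_id hR] at this

/-- entries of the commutator in the eigenbasis -/
theorem s7u_rot_cmm {R : Mx n} (hR : R.IsSymm) (H : Mx n) (a b : Fin n) :
    mxRot R (cmm H R) a b = mxRot R H a b * mxEig R b - mxEig R a * mxRot R H a b := by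
  unfold cmm
  rw [mxRot_sub, mxRot_mul, mxRot_mul, s7u_rot_self hR, Matrix.sub_apply, Matrix.mul_diagonal,
    Matrix.diagonal_mul]

/-- **the pointwise integrated bound** -/
theorem s7u_point {R Δ : Mx n} (hR : R.IsSymm) (hpos : ∀ a, 0 ≤ mxEig R a) (hΔ : Δ.IsSymm)
    (hker : ∀ a b, mxEig R a = 0 → mxEig R b = 0 → mxRot R Δ a b = 0) {L : ℝ} (hL : 1 ≤ L) :
    IntegrableOn (fun T => fish L T (R * R) Δ / T ^ 2) (Ioi 0) ∧
      ∫ T in Ioi (0 : ℝ), fish L T (R * R) Δ / T ^ 2 ≤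
        9 * mxSq (mxSchur (fun a b => if a + b = 0 then 0 else (a + b)⁻¹) R Δ) +
        9 * Real.log (1 + L) *
          mxSq (cmm (mxSchur (fun a b => if a + b = 0 then 0 else 2 * ((a + b) ^ 2)⁻¹) R Δ) R) := by
  have hL0 : 0 < L := by linarith
  have hℓ : 0 ≤ Real.log (1 + L) := Real.log_nonneg (by linarith)
  set r := mxEig R with hr
  set D := mxRot R Δ with hD
  have hcongr : EqOn (fun T => fish L T (R * R) Δ / T ^ 2)
      (fun T => ∑ a, ∑ b, s7uPhi L T (r a) * s7uPhi L T (r b) * (D a b) ^ 2) (Ioi 0) := by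
    intro T hT
    have hT' : (0 : ℝ) < T := hT
    simp only
    rw [s7u_fish_eq hR hΔ hL0 hT'.le, mul_div_assoc, mul_comm, div_mul_cancel₀ _ (by positivity)]
  -- one pair
  have hpair : ∀ a b, IntegrableOn (fun T => s7uPhi L T (r a) * s7uPhi L T (r b) * (D a b) ^ 2)
      (Ioi 0) ∧ ∫ T in Ioi (0 : ℝ), s7uPhi L T (r a) * s7uPhi L T (r b) * (D a b) ^ 2 ≤
        9 * (mxRot R (mxSchur (fun a b => if a + b = 0 then 0 else (a + b)⁻¹) R Δ) a b) ^ 2 +
        9 * Real.log (1 + L) * (mxRot R (cmm (mxSchur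
          (fun a b => if a + b = 0 then 0 else 2 * ((a + b) ^ 2)⁻¹) R Δ) R) a b) ^ 2 := by
    intro a b
    by_cases h0 : r a + r b = 0
    · have ha : r a = 0 := by linarith [hpos a, hpos b]
      have hb : r b = 0 := by linarith [hpos a, hpos b]
      have hD0 : D a b = 0 := hker a b ha hb
      simp only [hD0, ne_eq, OfNat.ofNat_ne_zero, not_false_eq_true, zero_pow, mul_zero,
        integral_zero]
      exact ⟨integrableOn_zero, by positivity⟩
    · have hs : 0 < r a + r b := lt_of_le_of_ne (add_nonneg (hpos a) (hpos b)) (Ne.symm h0)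
      obtain ⟨i1, i2, i3⟩ := s7u_scalar hL (hpos a) (hpos b) hs
      refine ⟨i1.mul_const _, ?_⟩
      rw [integral_mul_const, s7u_rot_cmm hR, mxRot_mxSchur_apply, mxRot_mxSchur_apply, if_neg h0,
        if_neg h0]
      exact s7u_pair hs hℓ i2 i3
  have hint : IntegrableOn
      (fun T => ∑ a, ∑ b, s7uPhi L T (r a) * s7uPhi L T (r b) * (D a b) ^ 2) (Ioi 0) :=
    integrable_finsetSum _ fun a _ => integrable_finsetSum _ fun b _ => (hpair a b).1
  refine ⟨hint.congr_fun hcongr.symm measurableSet_Ioi, ?_⟩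
  rw [setIntegral_congr_fun measurableSet_Ioi hcongr,
    integral_finsetSum _ fun a _ => integrable_finsetSum _ fun b _ => (hpair a b).1]
  rw [mxSq_rot R, mxSq_rot R, Finset.mul_sum, Finset.mul_sum, ← Finset.sum_add_distrib]
  refine Finset.sum_le_sum fun a _ => ?_
  rw [integral_finsetSum _ fun b _ => (hpair a b).1, Finset.mul_sum, Finset.mul_sum,
    ← Finset.sum_add_distrib]
  exact Finset.sum_le_sum fun b _ => (hpair a b).2

end Claimed.Agent.R259
end

/- ===== packed: Claimed.Agent.R259.S7StabSc ===== -/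
section
/-
Row 259 (S0499), section 7, package BP-S7-STAB: scalar lemmas.
Owner: helper239.  Prefix `s7t`.

* `s7t_hT_int` (scalar L7.3 with the constant `4 log(1+L)`; no calculus, only algebra):
  `∫_0^∞ (h_T(v) - h_T(w))² dT/T² ≤ 4 log(1+L) (v-w)²` for `v, w ≥ 0`;
* the rational cutoff `ψ_T(β) = 2 (Tβ²/x0)/(1 + Tβ²/x0)`: `ψ ≥ 1` on `{Tβ² ≥ x0}`, `∫_0^∞ ψ_T(β)² dT/T² = 4β²/x0`.
-/
set_option autoImplicit false

open MeasureTheory Set Filter Topology

namespace Claimed.Agent.R259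

/-! ### the function `h_T` -/

theorem s7t_hT_sq {L T : ℝ} (hL : 0 < L) (hTp : 0 ≤ T) (v : ℝ) :
    hT L T v ^ 2 = (1 + (1 + 1 / L) * (T * v ^ 2)) / (1 + T / L * v ^ 2) := by
  have h1 := s7u_den1_ge (v := v) hL hTp
  have h3 : 0 ≤ T * v ^ 2 := by positivity
  have h1' : (1 + T / L * v ^ 2) ≠ 0 := by linarith
  have h4 : 1 + T * v ^ 2 / L ≠ 0 := by
    have : T * v ^ 2 / L = T / L * v ^ 2 := by ring
    rw [this]; exact h1'
  unfold hT fL
  rw [Real.sq_sqrt]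
  · field_simp
    ring
  · have : 0 ≤ T * v ^ 2 / (1 + T * v ^ 2 / L) := by positivity
    linarith

theorem s7t_hT_pos (L T v : ℝ) : 0 ≤ hT L T v := Real.sqrt_nonneg _

theorem s7t_hT_measurable (L v : ℝ) : Measurable fun T => hT L T v := by
  unfold hT fL
  fun_prop

/-- the key pointwise bound -/
theorem s7t_hT_diff {L T v w : ℝ} (hL : 0 < L) (hTp : 0 < T) (hw : 0 ≤ w) (hwv : w ≤ v)
    (hv : 0 < v) :
    (hT L T v - hT L T w) ^ 2 / T ^ 2 ≤ 4 * (v - w) ^ 2 * v ^ 2 * s7uPhi L T v := by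
  have hDv := s7u_den1_ge (v := v) hL hTp.le
  have hDw := s7u_den1_ge (v := w) hL hTp.le
  have hNv := s7u_den2_ge (v := v) hL hTp.le
  have h3 : 0 ≤ T * v ^ 2 := by positivity
  set Dv := 1 + T / L * v ^ 2 with hDvd
  set Dw := 1 + T / L * w ^ 2 with hDwd
  set Nv := 1 + (1 + 1 / L) * (T * v ^ 2) with hNvd
  set Nw := 1 + (1 + 1 / L) * (T * w ^ 2) with hNwd
  have hNv1 : 1 ≤ Nv := by linarith
  have e1 : hT L T v ^ 2 = Nv / Dv := s7t_hT_sq hL hTp.le v
  have e2 : hT L T w ^ 2 = Nw / Dw := s7t_hT_sq hL hTp.le w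
  have hhv : 0 < hT L T v := by
    have : 0 < hT L T v ^ 2 := by rw [e1]; positivity
    exact lt_of_le_of_ne (s7t_hT_pos _ _ _) (fun h => by rw [← h] at this; simp at this)
  have hhw := s7t_hT_pos L T w
  -- difference of the squares
  have e3 : hT L T v ^ 2 - hT L T w ^ 2 = T * (v ^ 2 - w ^ 2) / (Dv * Dw) := by
    rw [e1, e2, hNvd, hNwd, hDvd, hDwd]
    have a1 : (1 + T / L * v ^ 2) ≠ 0 := by linarith
    have a2 : (1 + T / L * w ^ 2) ≠ 0 := by linarith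
    field_simp
    ring
  -- `(h_v - h_w)² h_v² ≤ (h_v² - h_w²)²`
  have e4 : (hT L T v - hT L T w) ^ 2 * hT L T v ^ 2 ≤ (hT L T v ^ 2 - hT L T w ^ 2) ^ 2 := by
    have : (hT L T v ^ 2 - hT L T w ^ 2) ^ 2 =
        (hT L T v - hT L T w) ^ 2 * (hT L T v + hT L T w) ^ 2 := by ring
    rw [this]
    apply mul_le_mul_of_nonneg_left _ (sq_nonneg _)
    nlinarith
  rw [e3, e1] at e4
  have hphi : s7uPhi L T v = (Dv * Nv)⁻¹ := rfl
  rw [hphi, div_le_iff₀ (by positivity)]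
  -- multiply out
  have e5 : (hT L T v - hT L T w) ^ 2 ≤ (T * (v ^ 2 - w ^ 2) / (Dv * Dw)) ^ 2 * (Dv / Nv) := by
    have hpos : 0 < Nv / Dv := by positivity
    have := (le_div_iff₀ hpos).2 e4
    calc _ ≤ _ := this
      _ = _ := by
        rw [div_eq_mul_inv _ (Nv / Dv), inv_div]
  refine e5.trans ?_
  have e6 : (T * (v ^ 2 - w ^ 2) / (Dv * Dw)) ^ 2 * (Dv / Nv) =
      (v - w) ^ 2 * ((v + w) ^ 2 * (Dw ^ 2)⁻¹) * (Dv * Nv)⁻¹ * T ^ 2 := by
    have a1 : Dv ≠ 0 := by linarith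
    have a2 : Dw ≠ 0 := by linarith
    have a3 : Nv ≠ 0 := by linarith
    field_simp
    ring
  rw [e6]
  have e7 : (v + w) ^ 2 * (Dw ^ 2)⁻¹ ≤ 4 * v ^ 2 := by
    have b1 : (Dw ^ 2)⁻¹ ≤ 1 := inv_le_one_of_one_le₀ (one_le_pow₀ hDw)
    have b2 : (v + w) ^ 2 ≤ 4 * v ^ 2 := by nlinarith
    calc (v + w) ^ 2 * (Dw ^ 2)⁻¹ ≤ (v + w) ^ 2 * 1 :=
          mul_le_mul_of_nonneg_left b1 (sq_nonneg _)
      _ ≤ 4 * v ^ 2 := by linarith
  have e8 : 0 ≤ (Dv * Nv)⁻¹ * T ^ 2 := by positivity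
  calc (v - w) ^ 2 * ((v + w) ^ 2 * (Dw ^ 2)⁻¹) * (Dv * Nv)⁻¹ * T ^ 2
      = ((v - w) ^ 2 * ((v + w) ^ 2 * (Dw ^ 2)⁻¹)) * ((Dv * Nv)⁻¹ * T ^ 2) := by ring
    _ ≤ ((v - w) ^ 2 * (4 * v ^ 2)) * ((Dv * Nv)⁻¹ * T ^ 2) :=
        mul_le_mul_of_nonneg_right (mul_le_mul_of_nonneg_left e7 (sq_nonneg _)) e8
    _ = _ := by ring

theorem s7t_hT_int_aux {L v w : ℝ} (hL : 1 ≤ L) (hw : 0 ≤ w) (hwv : w ≤ v) :
    IntegrableOn (fun T => (hT L T v - hT L T w) ^ 2 / T ^ 2) (Ioi 0) ∧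
      ∫ T in Ioi (0 : ℝ), (hT L T v - hT L T w) ^ 2 / T ^ 2 ≤
        4 * Real.log (1 + L) * (v - w) ^ 2 := by
  have hL0 : 0 < L := by linarith
  rcases hwv.eq_or_lt with h | h
  · subst h
    simp
  have hv : 0 < v := lt_of_le_of_lt hw h
  obtain ⟨i1, i2⟩ := s7u_int_phi hL0 hv
  have hmeas : Measurable fun T => (hT L T v - hT L T w) ^ 2 / T ^ 2 :=
    (((s7t_hT_measurable L v).sub (s7t_hT_measurable L w)).pow_const 2).div
      (measurable_id.pow_const 2)
  have hdom : IntegrableOn (fun T => 4 * (v - w) ^ 2 * v ^ 2 * s7uPhi L T v) (Ioi 0) :=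
    i1.const_mul _
  have hle : ∀ T ∈ Ioi (0 : ℝ), (hT L T v - hT L T w) ^ 2 / T ^ 2 ≤
      4 * (v - w) ^ 2 * v ^ 2 * s7uPhi L T v := fun T hTp => s7t_hT_diff hL0 hTp hw hwv hv
  have hint : IntegrableOn (fun T => (hT L T v - hT L T w) ^ 2 / T ^ 2) (Ioi 0) := by
    refine Integrable.mono' hdom hmeas.aestronglyMeasurable ?_
    refine (ae_restrict_iff' measurableSet_Ioi).2 (Eventually.of_forall fun T hTp => ?_)
    rw [Real.norm_of_nonneg (by positivity)]
    exact hle T hTp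
  refine ⟨hint, ?_⟩
  calc ∫ T in Ioi (0 : ℝ), (hT L T v - hT L T w) ^ 2 / T ^ 2
      ≤ ∫ T in Ioi (0 : ℝ), 4 * (v - w) ^ 2 * v ^ 2 * s7uPhi L T v :=
        setIntegral_mono_on hint hdom measurableSet_Ioi hle
    _ = 4 * (v - w) ^ 2 * v ^ 2 * (Real.log (1 + L) / v ^ 2) := by
        rw [integral_const_mul, i2]
    _ = _ := by field_simp

/-- **scalar Lemma 7.3** (constant `4 log(1+L)`) -/
theorem s7t_hT_int {L v w : ℝ} (hL : 1 ≤ L) (hv : 0 ≤ v) (hw : 0 ≤ w) :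
    IntegrableOn (fun T => (hT L T v - hT L T w) ^ 2 / T ^ 2) (Ioi 0) ∧
      ∫ T in Ioi (0 : ℝ), (hT L T v - hT L T w) ^ 2 / T ^ 2 ≤
        4 * Real.log (1 + L) * (v - w) ^ 2 := by
  rcases le_total w v with h | h
  · exact s7t_hT_int_aux hL hw h
  · have := s7t_hT_int_aux hL hv h
    have e : (fun T => (hT L T v - hT L T w) ^ 2 / T ^ 2) =
        fun T => (hT L T w - hT L T v) ^ 2 / T ^ 2 := by
      funext T
      ring
    rw [e, show (v - w) ^ 2 = (w - v) ^ 2 by ring]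
    exact this

/-! ### the rational cutoff -/

/-- `ψ_T(β) = 2 (Tβ²/x0)/(1 + Tβ²/x0)` -/
noncomputable def s7tPsi (x0 T β : ℝ) : ℝ := 2 * (T / x0) * (β ^ 2 * s7uE x0 T β)

/-- generates the equation lemma in this file -/
theorem s7tabsc_eqns_cite : True := by
  have := @s7tPsi.eq_1
  trivial

theorem s7t_psi_nonneg {x0 T : ℝ} (hx : 0 < x0) (hTp : 0 ≤ T) (β : ℝ) : 0 ≤ s7tPsi x0 T β := by
  unfold s7tPsi
  have := s7uE_pos hx hTp β
  positivity

theorem s7t_psi_ge {x0 T β : ℝ} (hx : 0 < x0) (hTp : 0 ≤ T) (h : x0 ≤ T * β ^ 2) :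
    1 ≤ s7tPsi x0 T β := by
  unfold s7tPsi s7uE
  have h1 := s7u_den1_ge (v := β) hx hTp
  have h2 : 1 ≤ T / x0 * β ^ 2 := by
    rw [div_mul_eq_mul_div, le_div_iff₀ hx]
    linarith
  have e : 2 * (T / x0) * (β ^ 2 * (1 + T / x0 * β ^ 2)⁻¹) =
      2 * (T / x0 * β ^ 2) / (1 + T / x0 * β ^ 2) := by
    rw [div_eq_mul_inv (2 * (T / x0 * β ^ 2))]
    ring
  rw [e, le_div_iff₀ (by linarith)]
  linarith

theorem s7t_psi_le_two {x0 T : ℝ} (hx : 0 < x0) (hTp : 0 ≤ T) (β : ℝ) : s7tPsi x0 T β ≤ 2 := by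
  unfold s7tPsi s7uE
  have h1 := s7u_den1_ge (v := β) hx hTp
  have e : 2 * (T / x0) * (β ^ 2 * (1 + T / x0 * β ^ 2)⁻¹) =
      2 * (T / x0 * β ^ 2) / (1 + T / x0 * β ^ 2) := by
    rw [div_eq_mul_inv (2 * (T / x0 * β ^ 2))]
    ring
  rw [e, div_le_iff₀ (by linarith)]
  linarith

theorem s7t_psi_int {x0 : ℝ} (hx : 0 < x0) (β : ℝ) :
    IntegrableOn (fun T => s7tPsi x0 T β ^ 2 / T ^ 2) (Ioi 0) ∧
      ∫ T in Ioi (0 : ℝ), s7tPsi x0 T β ^ 2 / T ^ 2 = 4 / x0 * β ^ 2 := by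
  by_cases hβ : β = 0
  · subst hβ
    simp [s7tPsi]
  have hc : 0 < β ^ 2 / x0 := by positivity
  obtain ⟨i1, i2⟩ := s7u_int_sq hc
  have hcongr : EqOn (fun T => s7tPsi x0 T β ^ 2 / T ^ 2)
      (fun T => 4 * (β ^ 2 / x0) ^ 2 * ((1 + β ^ 2 / x0 * T) ^ 2)⁻¹) (Ioi 0) := by
    intro T hTp
    have hT' : (0 : ℝ) < T := hTp
    have h1 := s7u_den1_ge (v := β) hx hT'.le
    have h1' : 1 + T / x0 * β ^ 2 ≠ 0 := by linarith
    have h2 : 1 + β ^ 2 / x0 * T = 1 + T / x0 * β ^ 2 := by ring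
    simp only
    unfold s7tPsi s7uE
    rw [h2]
    field_simp
    norm_num
  have i3 : IntegrableOn (fun T => 4 * (β ^ 2 / x0) ^ 2 * ((1 + β ^ 2 / x0 * T) ^ 2)⁻¹) (Ioi 0) :=
    i1.const_mul _
  refine ⟨i3.congr_fun hcongr.symm measurableSet_Ioi, ?_⟩
  rw [setIntegral_congr_fun measurableSet_Ioi hcongr, integral_const_mul, i2]
  field_simp

end Claimed.Agent.R259
end

/- ===== packed: Claimed.Agent.R259.S7UpKer ===== -/
section
/-
Row 259 (S0499), section 7, package BP-S7-UPPER: algebraic structure of `ρ`, `R`, `D_i ρ`.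
Owner: helper239.  Prefix `s7u`.

* `s7u_rho_psd`, `s7u_R_symm`, `s7u_R_eig_nonneg`, `s7u_R_mul_R`, `s7u_Drho_symm`;
* `s7u_Drho_ker` : the kernel-kernel block of `D_i ρ` vanishes (`ρ = Ψ Ψᵀ`);
* continuity of the entries of `ρ` and `D_i ρ`.
-/
set_option autoImplicit false

open MeasureTheory Set
open scoped BigOperators Matrix ContDiff
open Claimed.Agent.R260

namespace Claimed.Agent.R259

variable {n : ℕ}

theorem s7u_eig_nonneg {A : Mx n} (hA : A.PosSemidef) (i : Fin n) : 0 ≤ mxEig A i := by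
  have hs : A.IsSymm := by
    have := hA.isHermitian
    unfold Matrix.IsHermitian at this
    rwa [Matrix.conjTranspose_eq_transpose_of_trivial] at this
  unfold mxEig
  rw [dif_pos hs]
  exact hA.eigenvalues_nonneg i

theorem s7u_psd_symm {A : Mx n} (hA : A.PosSemidef) : A.IsSymm := by
  have := hA.isHermitian
  unfold Matrix.IsHermitian at this
  rwa [Matrix.conjTranspose_eq_transpose_of_trivial] at this

/-- the square root of a positive semidefinite matrix -/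
theorem s7u_sqrt_mul_sqrt {A : Mx n} (hA : A.PosSemidef) :
    mxFun Real.sqrt A * mxFun Real.sqrt A = A := by
  rw [← mxFun_mul]
  conv_rhs => rw [← mxFun_id (s7u_psd_symm hA)]
  exact mxFun_congr fun i => Real.mul_self_sqrt (s7u_eig_nonneg hA i)

theorem s7u_sqrt_eig_nonneg (A : Mx n) (i : Fin n) : 0 ≤ mxEig (mxFun Real.sqrt A) i := by
  obtain ⟨j, hj⟩ := mxEig_mxFun_mem Real.sqrt A i
  rw [hj]
  exact Real.sqrt_nonneg _

theorem s7u_rot_sum {ι : Type} (A : Mx n) (s : Finset ι) (F : ι → Mx n) :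
    mxRot A (∑ l ∈ s, F l) = ∑ l ∈ s, mxRot A (F l) := by
  unfold mxRot
  rw [Finset.mul_sum, Finset.sum_mul]

theorem s7u_rot_outer {ι : Type} [Fintype ι] (A : Mx n) (F G : Matrix (Fin n) ι ℝ) (a b : Fin n) :
    mxRot A (F * Gᵀ) a b = ∑ β, ((mxU A)ᵀ * F) a β * ((mxU A)ᵀ * G) b β := by
  have : mxRot A (F * Gᵀ) = ((mxU A)ᵀ * F) * ((mxU A)ᵀ * G)ᵀ := by
    unfold mxRot
    rw [Matrix.transpose_mul, Matrix.transpose_transpose]
    simp only [Matrix.mul_assoc]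
  rw [this, Matrix.mul_apply]
  rfl

/-- the kernel-kernel block of the derivative of `c ∑ F Fᵀ` vanishes -/
theorem s7u_ker_gen {ι : ℕ → Type} [∀ l, Fintype (ι l)] (s : Finset ℕ) {c : ℝ} (hc : 0 ≤ c)
    (F G : ∀ l, Matrix (Fin n) (ι l) ℝ) {R : Mx n} (hR : R.IsSymm)
    (hRR : R * R = c • ∑ l ∈ s, F l * (F l)ᵀ) (a b : Fin n) (ha : mxEig R a = 0)
    (hb : mxEig R b = 0) :
    mxRot R (c • ∑ l ∈ s, (G l * (F l)ᵀ + F l * (G l)ᵀ)) a b = 0 := by
  rcases hc.eq_or_lt with h0 | hc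
  · rw [← h0, zero_smul]
    simp [mxRot]
  have key : ∀ a, mxEig R a = 0 → ∀ l ∈ s, ∀ β, ((mxU R)ᵀ * F l) a β = 0 := by
    intro a ha
    have h1 : mxRot R (R * R) a a = 0 := by
      rw [mxRot_mul, s7u_rot_self hR, Matrix.diagonal_mul_diagonal, Matrix.diagonal_apply_eq, ha,
        mul_zero]
    rw [hRR, mxRot_smul, Matrix.smul_apply, smul_eq_mul, s7u_rot_sum, Matrix.sum_apply] at h1
    have h2 : ∑ l ∈ s, mxRot R (F l * (F l)ᵀ) a a = 0 := by
      rcases mul_eq_zero.1 h1 with h | h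
      · exact absurd h hc.ne'
      · exact h
    have hnn : ∀ l ∈ s, 0 ≤ mxRot R (F l * (F l)ᵀ) a a := fun l _ => by
      rw [s7u_rot_outer]
      exact Finset.sum_nonneg fun β _ => mul_self_nonneg _
    intro l hl β
    have h3 := (Finset.sum_eq_zero_iff_of_nonneg hnn).1 h2 l hl
    rw [s7u_rot_outer] at h3
    have h4 := (Finset.sum_eq_zero_iff_of_nonneg fun β _ => mul_self_nonneg _).1 h3 β
      (Finset.mem_univ β)
    exact mul_self_eq_zero.1 h4
  rw [mxRot_smul, Matrix.smul_apply, s7u_rot_sum, Matrix.sum_apply, Finset.sum_eq_zero, smul_zero]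
  intro l hl
  rw [mxRot_add, Matrix.add_apply, s7u_rot_outer, s7u_rot_outer]
  have e1 : ∑ β, ((mxU R)ᵀ * G l) a β * ((mxU R)ᵀ * F l) b β = 0 :=
    Finset.sum_eq_zero fun β _ => by rw [key b hb l hl β, mul_zero]
  have e2 : ∑ β, ((mxU R)ᵀ * F l) a β * ((mxU R)ᵀ * G l) b β = 0 :=
    Finset.sum_eq_zero fun β _ => by rw [key a ha l hl β, zero_mul]
  rw [e1, e2, add_zero]

section Hier

variable (X : HierData n) (k : ℕ)

theorem s7u_nrm_nonneg : 0 ≤ X.nrm k := by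
  unfold HierData.nrm
  have := X.I_pos
  positivity

theorem s7u_rho_psd (y : EE n) : (X.rho k y).PosSemidef := by
  unfold HierData.rho
  refine Matrix.PosSemidef.smul (Matrix.posSemidef_sum _ fun l _ => ?_) (s7u_nrm_nonneg X k)
  unfold red
  have := Matrix.posSemidef_self_mul_conjTranspose (flat (X.T l y))
  rwa [Matrix.conjTranspose_eq_transpose_of_trivial] at this

theorem s7u_R_symm (y : EE n) : (X.R k y).IsSymm := mxFun_isSymm _ _

theorem s7u_R_eig_nonneg (y : EE n) (a : Fin n) : 0 ≤ mxEig (X.R k y) a :=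
  s7u_sqrt_eig_nonneg _ a

theorem s7u_R_mul_R (y : EE n) : X.R k y * X.R k y = X.rho k y :=
  s7u_sqrt_mul_sqrt (s7u_rho_psd X k y)

theorem s7u_Drho_symm (i : Fin n) (y : EE n) : (X.Drho k i y).IsSymm := by
  unfold HierData.Drho Matrix.IsSymm
  rw [Matrix.transpose_smul, Matrix.transpose_sum]
  congr 1
  refine Finset.sum_congr rfl fun l _ => ?_
  rw [Matrix.transpose_add, Matrix.transpose_mul, Matrix.transpose_mul, Matrix.transpose_transpose,
    Matrix.transpose_transpose, add_comm]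

theorem s7u_Drho_ker (i : Fin n) (y : EE n) (a b : Fin n) (ha : mxEig (X.R k y) a = 0)
    (hb : mxEig (X.R k y) b = 0) : mxRot (X.R k y) (X.Drho k i y) a b = 0 := by
  unfold HierData.Drho
  exact s7u_ker_gen (ι := fun l => Idx n l) (Finset.Ico k (2 * k)) (s7u_nrm_nonneg X k)
    (fun l => flat (X.T l y)) (fun l => flat (dI i (X.T l) y)) (s7u_R_symm X k y)
    (s7u_R_mul_R X k y) a b ha hb

theorem s7u_T_continuous (l : ℕ) (α : Idx n (l + 1)) : Continuous fun y => X.T l y α := by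
  have h := (X.T_test l).1.continuous
  exact (EuclideanSpace.proj α).continuous.comp h

theorem s7u_dT_continuous (l : ℕ) (i : Fin n) (α : Idx n (l + 1)) :
    Continuous fun y => dI i (X.T l) y α := by
  have h : Continuous fun y => fderiv ℝ (X.T l) y (eb i) :=
    ((X.T_test l).1.continuous_fderiv (by simp)).clm_apply continuous_const
  exact (EuclideanSpace.proj α).continuous.comp h

theorem s7u_rho_continuous (a b : Fin n) : Continuous fun y => X.rho k y a b := by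
  unfold HierData.rho red flat
  simp only [Matrix.smul_apply, Matrix.sum_apply, Matrix.mul_apply, Matrix.transpose_apply,
    Matrix.of_apply, smul_eq_mul]
  refine continuous_const.mul (continuous_finsetSum _ fun l _ => continuous_finsetSum _ fun β _ =>
    (s7u_T_continuous X l _).mul (s7u_T_continuous X l _))

theorem s7u_Drho_continuous (i a b : Fin n) : Continuous fun y => X.Drho k i y a b := by
  unfold HierData.Drho flat
  simp only [Matrix.smul_apply, Matrix.sum_apply, Matrix.add_apply, Matrix.mul_apply,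
    Matrix.transpose_apply, Matrix.of_apply, smul_eq_mul]
  refine continuous_const.mul (continuous_finsetSum _ fun l _ => Continuous.add
    (continuous_finsetSum _ fun β _ => (s7u_dT_continuous X l i _).mul (s7u_T_continuous X l _))
    (continuous_finsetSum _ fun β _ => (s7u_T_continuous X l _).mul (s7u_dT_continuous X l i _)))

end Hier

end Claimed.Agent.R259
end

/- ===== packed: Claimed.Agent.R259.S7LawKit ===== -/
section
/-
Row 259 (S0499), section 7, trace law: SHARED KIT for the packages LAW-J, LAW-SPEC, LAW-TOP.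
Owner: helper79.  Entrywise integrals of complex matrices (`cInt`), the trace inequality, Young.
-/
set_option autoImplicit false

open MeasureTheory ProbabilityTheory
open scoped BigOperators Matrix
open Claimed.Agent.R260 (Mx mxFun mxSchur mxSq mxIP mxEig mxU mxRot)

namespace Claimed.Agent.R259

variable {n : ℕ}

/-! ### Young and the trace inequality -/

theorem s7k_young {a b θ : ℝ} (ha : 0 ≤ a) (hb : 0 ≤ b) (hθ : 0 < θ) :
    Real.sqrt a * Real.sqrt b ≤ θ / 2 * a + 1 / (2 * θ) * b := by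
  set x := Real.sqrt a with hx
  set y := Real.sqrt b with hy
  have hx2 : x ^ 2 = a := Real.sq_sqrt ha
  have hy2 : y ^ 2 = b := Real.sq_sqrt hb
  rw [← hx2, ← hy2]
  have h : 0 ≤ (θ * x - y) ^ 2 := sq_nonneg _
  have e : θ / 2 * x ^ 2 + 1 / (2 * θ) * y ^ 2 - x * y = (θ * x - y) ^ 2 / (2 * θ) := by
    field_simp
    ring
  have : 0 ≤ (θ * x - y) ^ 2 / (2 * θ) := by positivity
  linarith

/-- `|tr(W² Z Y)| ≤ ‖ZW‖ ‖YW‖` if `Z` commutes with `W` -/
theorem s7k_trace_le {W : Mx n} {Z : CMx n} (hZ : toC W * Z = Z * toC W) (Y : CMx n) :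
    ‖Matrix.trace (toC (W * W) * Z * Y)‖
      ≤ Real.sqrt (cSq (Z * toC W)) * Real.sqrt (cSq (Y * toC W)) := by
  have e : Matrix.trace (toC (W * W) * Z * Y) = Matrix.trace ((Z * toC W) * (Y * toC W)) := by
    rw [toC_mul, Matrix.mul_assoc (toC W) (toC W) Z, hZ, Matrix.mul_assoc (toC W),
      Matrix.trace_mul_comm]
    simp only [Matrix.mul_assoc]
  rw [e]
  exact cSq_trace_mul_le _ _

theorem s7k_trace_young {W : Mx n} {Z : CMx n} (hZ : toC W * Z = Z * toC W) (Y : CMx n) {θ : ℝ}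
    (hθ : 0 < θ) :
    ‖Matrix.trace (toC (W * W) * Z * Y)‖
      ≤ θ / 2 * cSq (Z * toC W) + 1 / (2 * θ) * cSq (Y * toC W) :=
  (s7k_trace_le hZ Y).trans (s7k_young (cSq_nonneg _) (cSq_nonneg _) hθ)

theorem s7k_trace_young' {W : Mx n} {Z : CMx n} (hZ : toC W * Z = Z * toC W) (Y : CMx n) {θ : ℝ}
    (hθ : 0 < θ) :
    ‖Matrix.trace (toC (W * W) * Z * Y)‖
      ≤ 1 / (2 * θ) * cSq (Z * toC W) + θ / 2 * cSq (Y * toC W) := by
  have h := (s7k_trace_le hZ Y).trans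
    (le_of_eq_of_le (mul_comm _ _) (s7k_young (cSq_nonneg (Y * toC W)) (cSq_nonneg _) hθ))
  linarith

/-! ### entrywise integrable matrix functions -/

section cint

variable {α : Type} [MeasurableSpace α] {μ : Measure α}

/-- all entries are integrable -/
def CI (μ : Measure α) (Φ : α → CMx n) : Prop := ∀ a b, Integrable (fun x => Φ x a b) μ

theorem CI.add {Φ Ψ : α → CMx n} (h : CI μ Φ) (h' : CI μ Ψ) : CI μ fun x => Φ x + Ψ x :=
  fun a b => (h a b).add (h' a b)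

theorem CI.sub {Φ Ψ : α → CMx n} (h : CI μ Φ) (h' : CI μ Ψ) : CI μ fun x => Φ x - Ψ x :=
  fun a b => (h a b).sub (h' a b)

theorem CI.smul {Φ : α → CMx n} (h : CI μ Φ) (c : ℂ) : CI μ fun x => c • Φ x :=
  fun a b => (h a b).const_mul c

theorem CI.const [IsFiniteMeasure μ] (M : CMx n) : CI μ fun _ => M :=
  fun _ _ => integrable_const _

theorem CI.mul_right {Φ : α → CMx n} (h : CI μ Φ) (M : CMx n) : CI μ fun x => Φ x * M := by
  intro a b
  simp only [Matrix.mul_apply]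
  exact integrable_finsetSum _ fun c _ => (h a c).mul_const _

theorem CI.mul_left {Φ : α → CMx n} (h : CI μ Φ) (M : CMx n) : CI μ fun x => M * Φ x := by
  intro a b
  simp only [Matrix.mul_apply]
  exact integrable_finsetSum _ fun c _ => (h c b).const_mul _

theorem CI.trace {Φ : α → CMx n} (h : CI μ Φ) : Integrable (fun x => Matrix.trace (Φ x)) μ := by
  simp only [Matrix.trace, Matrix.diag_apply]
  exact integrable_finsetSum _ fun c _ => h c c

theorem CI.of_bdd [IsFiniteMeasure μ] {Φ : α → CMx n} (hm : ∀ a b, Measurable fun x => Φ x a b)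
    {C : ℝ} (hb : ∀ x a b, ‖Φ x a b‖ ≤ C) : CI μ Φ :=
  fun a b => Integrable.of_bound (hm a b).aestronglyMeasurable C
    (Filter.Eventually.of_forall fun x => hb x a b)

theorem cInt_apply (Φ : α → CMx n) (a b : Fin n) : cInt μ Φ a b = ∫ x, Φ x a b ∂μ := rfl

theorem cInt_add {Φ Ψ : α → CMx n} (h : CI μ Φ) (h' : CI μ Ψ) :
    cInt μ (fun x => Φ x + Ψ x) = cInt μ Φ + cInt μ Ψ := by
  ext a b
  simp only [cInt_apply, Matrix.add_apply]
  exact integral_add (h a b) (h' a b)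

theorem cInt_sub {Φ Ψ : α → CMx n} (h : CI μ Φ) (h' : CI μ Ψ) :
    cInt μ (fun x => Φ x - Ψ x) = cInt μ Φ - cInt μ Ψ := by
  ext a b
  simp only [cInt_apply, Matrix.sub_apply]
  exact integral_sub (h a b) (h' a b)

theorem cInt_smul (Φ : α → CMx n) (c : ℂ) : cInt μ (fun x => c • Φ x) = c • cInt μ Φ := by
  ext a b
  simp only [cInt_apply, Matrix.smul_apply, smul_eq_mul]
  exact integral_const_mul _ _

theorem cInt_const [IsProbabilityMeasure μ] (M : CMx n) : cInt μ (fun _ => M) = M := by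
  ext a b
  simp [cInt_apply]

theorem cInt_mul_right {Φ : α → CMx n} (h : CI μ Φ) (M : CMx n) :
    cInt μ (fun x => Φ x * M) = cInt μ Φ * M := by
  ext a b
  simp only [cInt_apply, Matrix.mul_apply]
  rw [integral_finsetSum _ fun c _ => (h a c).mul_const _]
  exact Finset.sum_congr rfl fun c _ => integral_mul_const _ _

theorem cInt_mul_left {Φ : α → CMx n} (h : CI μ Φ) (M : CMx n) :
    cInt μ (fun x => M * Φ x) = M * cInt μ Φ := by
  ext a b
  simp only [cInt_apply, Matrix.mul_apply]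
  rw [integral_finsetSum _ fun c _ => (h c b).const_mul _]
  exact Finset.sum_congr rfl fun c _ => integral_const_mul _ _

theorem cInt_trace {Φ : α → CMx n} (h : CI μ Φ) :
    ∫ x, Matrix.trace (Φ x) ∂μ = Matrix.trace (cInt μ Φ) := by
  simp only [Matrix.trace, Matrix.diag_apply, cInt_apply]
  exact integral_finsetSum _ fun c _ => h c c

/-- whatever commutes with all values commutes with the integral -/
theorem cInt_commute {Φ : α → CMx n} (h : CI μ Φ) {M : CMx n} (hM : ∀ x, M * Φ x = Φ x * M) :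
    M * cInt μ Φ = cInt μ Φ * M := by
  rw [← cInt_mul_left h, ← cInt_mul_right h]
  simp only [hM]

/-- Jensen: `‖∫ Φ‖² ≤ ∫ ‖Φ‖²` -/
theorem cSq_cInt_le [IsProbabilityMeasure μ] {Φ : α → CMx n} (h : CI μ Φ)
    (h2 : Integrable (fun x => cSq (Φ x)) μ) : cSq (cInt μ Φ) ≤ ∫ x, cSq (Φ x) ∂μ := by
  have hent : ∀ a b, Integrable (fun x => ‖Φ x a b‖ ^ 2) μ := fun a b =>
    h2.mono' ((h a b).1.norm.pow 2) (Filter.Eventually.of_forall fun x => by
      rw [Real.norm_eq_abs, abs_of_nonneg (by positivity)]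
      unfold cSq
      calc ‖Φ x a b‖ ^ 2 ≤ ∑ b', ‖Φ x a b'‖ ^ 2 :=
            Finset.single_le_sum (f := fun b' => ‖Φ x a b'‖ ^ 2) (fun _ _ => by positivity)
              (Finset.mem_univ b)
        _ ≤ _ := Finset.single_le_sum (f := fun a' => ∑ b', ‖Φ x a' b'‖ ^ 2)
              (fun _ _ => Finset.sum_nonneg fun _ _ => by positivity) (Finset.mem_univ a))
  have hone : ∀ a b, ‖∫ x, Φ x a b ∂μ‖ ^ 2 ≤ ∫ x, ‖Φ x a b‖ ^ 2 ∂μ := by
    intro a b
    set m := ∫ x, ‖Φ x a b‖ ∂μ with hm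
    have h1 : ‖∫ x, Φ x a b ∂μ‖ ≤ m := norm_integral_le_integral_norm _
    have h3 : 0 ≤ ∫ x, (‖Φ x a b‖ - m) ^ 2 ∂μ := integral_nonneg fun _ => sq_nonneg _
    have h4 : ∫ x, (‖Φ x a b‖ - m) ^ 2 ∂μ = (∫ x, ‖Φ x a b‖ ^ 2 ∂μ) - m ^ 2 := by
      have e : ∀ x, (‖Φ x a b‖ - m) ^ 2 = ‖Φ x a b‖ ^ 2 - 2 * m * ‖Φ x a b‖ + m ^ 2 := fun x => by
        ring
      simp only [e]
      have i0 : Integrable (fun x => 2 * m * ‖Φ x a b‖) μ := (h a b).norm.const_mul _
      have i1 : Integrable (fun x => ‖Φ x a b‖ ^ 2 - 2 * m * ‖Φ x a b‖) μ := (hent a b).sub i0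
      rw [integral_add i1 (integrable_const _), integral_sub (hent a b) i0, integral_const_mul,
        integral_const]
      simp only [probReal_univ, smul_eq_mul, one_mul]
      rw [← hm]; ring
    have h5 : ‖∫ x, Φ x a b ∂μ‖ ^ 2 ≤ m ^ 2 := pow_le_pow_left₀ (norm_nonneg _) h1 2
    linarith
  unfold cSq
  rw [integral_finsetSum _ fun a _ => integrable_finsetSum _ fun b _ => hent a b]
  refine Finset.sum_le_sum fun a _ => ?_
  rw [integral_finsetSum _ fun b _ => hent a b]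
  exact Finset.sum_le_sum fun b _ => hone a b

end cint

/-- generates the equation lemmas of the definitions above in this file (rule 6: unique names) -/
theorem s7lawkit_eqns_cite : True := by
  have := @CI.eq_1
  trivial

end Claimed.Agent.R259
end
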