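/- Packed by merge_tool.py (helper293): 9 modules of Claimed.Agent.R259 in one file, same declarations.
   Old modules, in this order: S4OutDefs, S4OutAff, S4OutMgf, S4OutTrace, MetS, MetD, MetLeaves, MetMain, MetGoal -/
import Claimed.Agent.R259.Pack012
import Claimed.Agent.R259.Pack008
import Claimed.Agent.R259.Pack007
import Claimed.Agent.R259.Pack011
import Claimed.Agent.R259.Pack037
import Claimed.Agent.R259.Pack048
import Claimed.Agent.R259.Pack023
import Claimed.Agent.R259.Pack014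
import Claimed.Agent.R259.Pack022
import Claimed.Agent.R259.Pack038
import Claimed.Agent.R259.Pack031
import Claimed.Agent.R259.Pack003

/- ===== packed: Claimed.Agent.R259.S4OutDefs ===== -/
section
/-
Row 259 (S0499), section 4, package BP-S4-outliers (Lemma 4.4): definitions.     Owner: helper220.

* `ofam e v = ∑ i, ⟨e i, v⟩ e i`: the orthogonal projection onto the span of an orthonormal family `e : Fin l → E`.
* `pD μ η v = E_η E[⟨X, v⟩² | X + √s0 G = Y] = ⟨D v, v⟩` (the posterior kernel is the one of the ORIGINAL prior `μ`).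
-/
set_option autoImplicit false

open MeasureTheory Filter Topology ProbabilityTheory InformationTheory
open scoped ContDiff ENNReal

namespace Claimed.Agent.R259

variable {E : Type} [NormedAddCommGroup E] [InnerProductSpace ℝ E] [FiniteDimensional ℝ E]
  [MeasurableSpace E] [BorelSpace E]

/-- `v ↦ ∑ i, ⟨e i, v⟩ e i`. -/
noncomputable def ofam {l : ℕ} (e : Fin l → E) : E →L[ℝ] E :=
  ∑ i, (innerSL ℝ (e i)).smulRight (e i)

/-- `⟨D v, v⟩`, `D = E_η E[X X* | X + √s0 G = Y]`. -/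
noncomputable def pD (μ : Measure E) (η : E → ℝ) (v : E) : ℝ :=
  ∫ y, hpost μ s0 (fun x => inner ℝ x v ^ 2) y ∂(dm η)

/-- generates the equation lemmas of the definitions above in this file (rule 6: unique names) -/
theorem s4outdefs_eqns_cite : True := by
  have := @ofam.eq_1
  have := @pD.eq_1
  trivial

end Claimed.Agent.R259
end

/- ===== packed: Claimed.Agent.R259.S4OutAff ===== -/
section
/-
Row 259 (S0499), section 4, package BP-S4-outliers, LEAF L-S4Out-aff: the affine estimator bound.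
Sub-captain: helper220.  The leaf owner OWNS this file, keeps names and statements, replaces every `sorry`.
Tools: ImmseKer.lean (PROVED: `imm_shift_integral`, `imm_shift_integrable`, `immker_inner_sq_integral`, `immker_norm_sq_integrable`,
`imm_K_sq_integrable`, `imm_K_mean`, ...), `lc_K_eq : lcK S t l x = immK t (S x) l`, `lc_Z_pos`, `lc_PE_integrable` (ImmseLc.lean).

PROOF of `s4o_affine`.  `a = ∫ S dm`, `ψ l = a + M (l - a)`, `t = 1` (`√1 = 1`), `γ = stdGaussian E`.
(1) for every `l`:  `|lcE l|² ≥ 2 ⟨lcE l, ψ l⟩ - |ψ l|²`; multiply by `lcZ l > 0`; `lcZ l • lcE l = ∫ lcK l x • S x dm`, hence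
    `|lcE l|² lcZ l ≥ 2 ∫ lcK l x ⟨S x, ψ l⟩ dm(x) - ∫ lcK l x |ψ l|² dm(x)`.
(2) integrate `dγ(l)` and use Fubini (`integral_integral_swap`); the integrand is dominated:
    `∫ lcK l x |ψ l|² dγ(l) = ∫ |ψ (S x + g)|² dγ(g) ≤ 3|a|² + 3|M|²|S x - a|² + 3|M|² n`, integrable in `x`, and
    `|⟨S x, ψ l⟩| ≤ (|S x|² + |ψ l|²)/2`.
(3) inner integrals by the shift `imm_shift_integral`:
    `∫ lcK l x ⟨S x, ψ l⟩ dγ(l) = ∫ ⟨S x, a + M (S x - a) + M g⟩ dγ(g) = ⟨S x, a + M (S x - a)⟩`,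
    `∫ lcK l x |ψ l|² dγ(l) = |a + M (S x - a)|² + ∫ |M g|² dγ(g)`  (the cross term has mean zero), `∫ |M g|² dγ = hsSq M` (`s4o_gauss_hs`).
(4) integrate `dm(x)`, `∫ (S x - a) dm = 0`:  `∫ ⟨S x, a + M(S x - a)⟩ = |a|² + ∫ ⟨S x - a, M (S x - a)⟩`,
    `∫ |a + M (S x - a)|² = |a|² + ∫ |M (S x - a)|²`.
-/
set_option autoImplicit false

open MeasureTheory Filter Topology ProbabilityTheory InformationTheory
open scoped ContDiff ENNReal

namespace Claimed.Agent.R259

variable {E : Type} [NormedAddCommGroup E] [InnerProductSpace ℝ E] [FiniteDimensional ℝ E]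
  [MeasurableSpace E] [BorelSpace E]

theorem s4oaff_norm_sq_eq (M : E →L[ℝ] E) (g : E) :
    ‖M g‖ ^ 2 = ∑ j, inner ℝ (ContinuousLinearMap.adjoint M (stdOrthonormalBasis ℝ E j)) g ^ 2 := by
  rw [← (stdOrthonormalBasis ℝ E).sum_sq_inner_right (M g)]
  simp_rw [ContinuousLinearMap.adjoint_inner_left]

theorem s4oaff_Mg_sq_integrable (M : E →L[ℝ] E) : Integrable (fun g => ‖M g‖ ^ 2) (stdGaussian E) := by
  simp_rw [s4oaff_norm_sq_eq]
  exact integrable_finsetSum _ fun j _ => immker_inner_sq_integrable _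

/-- `E|M G|² = |M|²_HS`:  `|M g|² = ∑_j ⟨g, M† b_j⟩²`, `immker_inner_sq_integral`, `∑_j |M† b_j|² = ∑_i |M b_i|²`. -/
theorem s4o_gauss_hs (M : E →L[ℝ] E) : ∫ g, ‖M g‖ ^ 2 ∂(stdGaussian E) = hsSq M := by
  simp_rw [s4oaff_norm_sq_eq]
  rw [integral_finsetSum _ fun j _ => immker_inner_sq_integrable _]
  simp_rw [immker_inner_sq_integral]
  unfold hsSq
  have h1 : ∀ j, ‖ContinuousLinearMap.adjoint M (stdOrthonormalBasis ℝ E j)‖ ^ 2 =
      ∑ i, inner ℝ (stdOrthonormalBasis ℝ E j) (M (stdOrthonormalBasis ℝ E i)) ^ 2 := by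
    intro j
    rw [← (stdOrthonormalBasis ℝ E).sum_sq_inner_right]
    refine Finset.sum_congr rfl fun i _ => ?_
    rw [real_inner_comm, ContinuousLinearMap.adjoint_inner_left]
  simp_rw [h1]
  rw [Finset.sum_comm]
  refine Finset.sum_congr rfl fun i _ => ?_
  rw [(stdOrthonormalBasis ℝ E).sum_sq_inner_right]

/-- joint Fubini rule for continuous integrands -/
theorem s4oaff_joint {σ : Measure E} [IsProbabilityMeasure σ] {t : ℝ} (ht : 0 ≤ t) (f : E × E → ℝ)
    (hc : Continuous f)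
    (hf : Integrable (fun p : E × E => f (p.1, Real.sqrt t • p.1 + p.2)) (σ.prod (stdGaussian E))) :
    Integrable (fun z => ∫ s, immK t s z * f (s, z) ∂σ) (stdGaussian E) ∧
      ∫ z, ∫ s, immK t s z * f (s, z) ∂σ ∂(stdGaussian E) =
        ∫ s, ∫ g, f (s, Real.sqrt t • s + g) ∂(stdGaussian E) ∂σ := by
  have hcs : ∀ s : E, Continuous fun z => f (s, z) := fun s =>
    hc.comp (Continuous.prodMk continuous_const continuous_id)
  have hp : Integrable (fun p : E × E => immK t p.1 p.2 * f p) (σ.prod (stdGaussian E)) := by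
    have hm' : AEStronglyMeasurable (fun p : E × E => immK t p.1 p.2 * f p) (σ.prod (stdGaussian E)) :=
      ((imm_K_continuous t).mul hc).aestronglyMeasurable
    rw [integrable_prod_iff hm']
    constructor
    · filter_upwards [hf.prod_right_ae] with s hs
      exact (imm_shift_integrable ht s (fun z => f (s, z)) (hcs s).aestronglyMeasurable).2 hs
    · have h : ∀ s : E, ∫ z, ‖immK t s z * f (s, z)‖ ∂(stdGaussian E) =
          ∫ g, ‖f (s, Real.sqrt t • s + g)‖ ∂(stdGaussian E) := by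
        intro s
        rw [← imm_shift_integral ht s (fun z => ‖f (s, z)‖)]
        refine integral_congr_ae (Filter.Eventually.of_forall fun z => ?_)
        simp only [norm_mul, Real.norm_eq_abs, abs_of_pos (imm_K_pos t s z), smul_eq_mul]
      simp_rw [h]
      exact hf.norm.integral_prod_left
  refine ⟨hp.integral_prod_right, ?_⟩
  rw [← integral_integral_swap (f := fun s z => immK t s z * f (s, z)) hp]
  refine integral_congr_ae (Filter.Eventually.of_forall fun s => ?_)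
  exact imm_shift_integral ht s (fun z => f (s, z))

omit [FiniteDimensional ℝ E] [MeasurableSpace E] [BorelSpace E] in
theorem s4oaff_alg (a d u w : E) :
    2 * inner ℝ (a + d) (a + (u + w)) - ‖a + (u + w)‖ ^ 2 =
      (‖a‖ ^ 2 + 2 * inner ℝ a d + (2 * inner ℝ u d - ‖u‖ ^ 2)) + 2 * inner ℝ (d - u) w - ‖w‖ ^ 2 := by
  simp only [← real_inner_self_eq_norm_sq, inner_add_left, inner_add_right, inner_sub_left]
  rw [real_inner_comm a d, real_inner_comm a u, real_inner_comm a w, real_inner_comm u w, real_inner_comm u d]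
  ring

/-- the shifted integrand in product form -/
theorem s4oaff_shift_eq (M : E →L[ℝ] E) (a s g : E) :
    2 * inner ℝ s (a + M (Real.sqrt 1 • s + g - a)) - ‖a + M (Real.sqrt 1 • s + g - a)‖ ^ 2 =
      (‖a‖ ^ 2 + 2 * inner ℝ a (s - a) + (2 * inner ℝ (M (s - a)) (s - a) - ‖M (s - a)‖ ^ 2)) +
        2 * inner ℝ (ContinuousLinearMap.adjoint M (s - a - M (s - a))) g - ‖M g‖ ^ 2 := by
  have h1 : Real.sqrt 1 • s + g - a = (s - a) + g := by
    rw [Real.sqrt_one, one_smul]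
    abel
  have h2 : s = a + (s - a) := by abel
  rw [h1, map_add, ContinuousLinearMap.adjoint_inner_left, ← s4oaff_alg, ← h2]

theorem s4oaff_quad_integrable {σ : Measure E} [IsProbabilityMeasure σ] (hσ : Integrable (fun s => ‖s‖ ^ 2) σ)
    (M : E →L[ℝ] E) (a : E) :
    Integrable (fun s => 2 * inner ℝ (M (s - a)) (s - a) - ‖M (s - a)‖ ^ 2) σ := by
  have hb : Integrable (fun s : E => (2 * ‖M‖ + ‖M‖ ^ 2) * (2 * ‖s‖ ^ 2 + 2 * ‖a‖ ^ 2)) σ :=
    ((hσ.const_mul 2).add (integrable_const _)).const_mul _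
  refine hb.mono' (by fun_prop) (Filter.Eventually.of_forall fun s => ?_)
  have h1 : ‖M (s - a)‖ ≤ ‖M‖ * ‖s - a‖ := M.le_opNorm _
  have h2 : |inner ℝ (M (s - a)) (s - a)| ≤ ‖M‖ * ‖s - a‖ ^ 2 := by
    refine (abs_real_inner_le_norm _ _).trans ?_
    calc ‖M (s - a)‖ * ‖s - a‖ ≤ (‖M‖ * ‖s - a‖) * ‖s - a‖ := by gcongr
      _ = _ := by ring
  have h3 : ‖M (s - a)‖ ^ 2 ≤ ‖M‖ ^ 2 * ‖s - a‖ ^ 2 := by
    rw [← mul_pow]
    gcongr
  have h4 : ‖s - a‖ ^ 2 ≤ 2 * ‖s‖ ^ 2 + 2 * ‖a‖ ^ 2 := by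
    have h5 : ‖s - a‖ ≤ ‖s‖ + ‖a‖ := norm_sub_le _ _
    have h6 : ‖s - a‖ ^ 2 ≤ (‖s‖ + ‖a‖) ^ 2 := by gcongr
    nlinarith [sq_nonneg (‖s‖ - ‖a‖)]
  have h7 : 0 ≤ 2 * ‖M‖ + ‖M‖ ^ 2 := by positivity
  rw [Real.norm_eq_abs]
  calc |2 * inner ℝ (M (s - a)) (s - a) - ‖M (s - a)‖ ^ 2|
      ≤ |2 * inner ℝ (M (s - a)) (s - a)| + |‖M (s - a)‖ ^ 2| := abs_sub _ _
    _ = 2 * |inner ℝ (M (s - a)) (s - a)| + ‖M (s - a)‖ ^ 2 := by
        rw [abs_mul, abs_of_nonneg (by norm_num : (0 : ℝ) ≤ 2), abs_of_nonneg (sq_nonneg ‖M (s - a)‖)]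
    _ ≤ 2 * (‖M‖ * ‖s - a‖ ^ 2) + ‖M‖ ^ 2 * ‖s - a‖ ^ 2 := by gcongr
    _ = (2 * ‖M‖ + ‖M‖ ^ 2) * ‖s - a‖ ^ 2 := by ring
    _ ≤ _ := by gcongr

theorem s4oaff_h_integrable {σ : Measure E} [IsProbabilityMeasure σ] (hσ : Integrable (fun s => ‖s‖ ^ 2) σ)
    (M : E →L[ℝ] E) (a : E) :
    Integrable (fun s => ‖a‖ ^ 2 + 2 * inner ℝ a (s - a) +
      (2 * inner ℝ (M (s - a)) (s - a) - ‖M (s - a)‖ ^ 2)) σ :=
  ((integrable_const _).add ((((imm_norm_int hσ).sub (integrable_const a)).const_inner a).const_mul 2)).add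
    (s4oaff_quad_integrable hσ M a)

theorem s4oaff_prod_integrable {σ : Measure E} [IsProbabilityMeasure σ] (hσ : Integrable (fun s => ‖s‖ ^ 2) σ)
    (M : E →L[ℝ] E) (a : E) :
    Integrable (fun p : E × E => 2 * inner ℝ p.1 (a + M (Real.sqrt 1 • p.1 + p.2 - a)) -
      ‖a + M (Real.sqrt 1 • p.1 + p.2 - a)‖ ^ 2) (σ.prod (stdGaussian E)) := by
  simp_rw [s4oaff_shift_eq]
  refine (((s4oaff_h_integrable hσ M a).comp_fst (stdGaussian E)).add (Integrable.const_mul ?_ 2)).sub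
    ((s4oaff_Mg_sq_integrable M).comp_snd σ)
  -- the bilinear cross term
  have hv : Integrable (fun s : E => ‖ContinuousLinearMap.adjoint M (s - a - M (s - a))‖) σ := by
    have h1 : Integrable (fun s : E => s - a - M (s - a)) σ :=
      ((imm_norm_int hσ).sub (integrable_const a)).sub
        (M.integrable_comp ((imm_norm_int hσ).sub (integrable_const a)))
    exact ((ContinuousLinearMap.adjoint M).integrable_comp h1).norm
  have hg : Integrable (fun g : E => ‖g‖) (stdGaussian E) :=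
    (IsGaussian.integrable_id (μ := stdGaussian E)).norm
  refine (hv.mul_prod hg).mono' (by fun_prop) (Filter.Eventually.of_forall fun p => ?_)
  exact abs_real_inner_le_norm _ _

theorem s4oaff_sigma {σ : Measure E} [IsProbabilityMeasure σ] (hσ : Integrable (fun s => ‖s‖ ^ 2) σ)
    (M : E →L[ℝ] E) :
    ‖∫ s, s ∂σ‖ ^ 2 + ∫ s, (2 * inner ℝ (M (s - ∫ z, z ∂σ)) (s - ∫ z, z ∂σ)
        - ‖M (s - ∫ z, z ∂σ)‖ ^ 2) ∂σ - hsSq M ≤ immG σ 1 := by
  set a : E := ∫ z, z ∂σ with ha
  obtain ⟨hi, he⟩ := s4oaff_joint (σ := σ) zero_le_one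
    (fun p : E × E => 2 * inner ℝ p.1 (a + M (p.2 - a)) - ‖a + M (p.2 - a)‖ ^ 2) (by fun_prop)
    (s4oaff_prod_integrable hσ M a)
  -- value of the right-hand side
  have hval : ∫ s, ∫ g, (2 * inner ℝ s (a + M (Real.sqrt 1 • s + g - a)) -
      ‖a + M (Real.sqrt 1 • s + g - a)‖ ^ 2) ∂(stdGaussian E) ∂σ =
      ‖a‖ ^ 2 + ∫ s, (2 * inner ℝ (M (s - a)) (s - a) - ‖M (s - a)‖ ^ 2) ∂σ - hsSq M := by
    have hin : ∀ s : E, ∫ g, (2 * inner ℝ s (a + M (Real.sqrt 1 • s + g - a)) -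
        ‖a + M (Real.sqrt 1 • s + g - a)‖ ^ 2) ∂(stdGaussian E) =
        (‖a‖ ^ 2 + 2 * inner ℝ a (s - a) + (2 * inner ℝ (M (s - a)) (s - a) - ‖M (s - a)‖ ^ 2)) - hsSq M := by
      intro s
      simp_rw [s4oaff_shift_eq]
      have i1 : Integrable (fun g : E => 2 * inner ℝ (ContinuousLinearMap.adjoint M (s - a - M (s - a))) g)
          (stdGaussian E) := (immker_inner_integrable _).const_mul 2
      have i2 : Integrable (fun g : E => (‖a‖ ^ 2 + 2 * inner ℝ a (s - a) +
          (2 * inner ℝ (M (s - a)) (s - a) - ‖M (s - a)‖ ^ 2)) +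
          2 * inner ℝ (ContinuousLinearMap.adjoint M (s - a - M (s - a))) g) (stdGaussian E) :=
        (integrable_const _).add i1
      rw [integral_sub i2 (s4oaff_Mg_sq_integrable M), integral_add (integrable_const _) i1,
        integral_const_mul, immker_inner_integral, s4o_gauss_hs]
      simp
    simp_rw [hin]
    have j1 : Integrable (fun s : E => inner ℝ a (s - a)) σ :=
      ((imm_norm_int hσ).sub (integrable_const a)).const_inner a
    have j2 : Integrable (fun s : E => ‖a‖ ^ 2 + 2 * inner ℝ a (s - a)) σ :=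
      (integrable_const _).add (j1.const_mul 2)
    have j0 : ∫ s, inner ℝ a (s - a) ∂σ = 0 := by
      have j3 : Integrable (fun s : E => s - a) σ := (imm_norm_int hσ).sub (integrable_const a)
      rw [integral_inner j3, integral_sub (imm_norm_int hσ) (integrable_const a), ← ha]
      simp
    rw [integral_sub (s4oaff_h_integrable hσ M a) (integrable_const _),
      integral_add j2 (s4oaff_quad_integrable hσ M a), integral_add (integrable_const _) (j1.const_mul 2),
      integral_const_mul, j0]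
    simp
  rw [← hval, ← he]
  refine integral_mono hi (imm_G_integrable hσ zero_le_one) fun z => ?_
  -- pointwise inequality
  simp only
  set ψ : E := a + M (z - a) with hψ
  have hL := imm_L_pos (σ := σ) zero_le_one z
  have hN : immN σ 1 z = immL σ 1 z • immM σ 1 z := by
    rw [immM, smul_smul, mul_inv_cancel₀ hL.ne', one_smul]
  have e : ∀ s : E, immK 1 s z * (2 * inner ℝ s ψ - ‖ψ‖ ^ 2) =
      2 * inner ℝ ψ (immK 1 s z • s) - ‖ψ‖ ^ 2 * immK 1 s z := by
    intro s
    rw [inner_smul_right, real_inner_comm]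
    ring
  simp_rw [e]
  have k1 : Integrable (fun s => inner ℝ ψ (immK 1 s z • s)) σ := (imm_Ks_int hσ zero_le_one z).const_inner ψ
  rw [integral_sub (k1.const_mul 2) ((imm_K_int zero_le_one z).const_mul _), integral_const_mul,
    integral_const_mul, integral_inner (imm_Ks_int hσ zero_le_one z)]
  change 2 * inner ℝ ψ (immN σ 1 z) - ‖ψ‖ ^ 2 * immL σ 1 z ≤ _
  rw [hN, inner_smul_right]
  have h1 : 0 ≤ ‖immM σ 1 z - ψ‖ ^ 2 := by positivity
  rw [norm_sub_sq_real, real_inner_comm] at h1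
  nlinarith

/-- the least squares affine predictor is not better than the conditional expectation (variational form: ANY matrix `M`). -/
theorem s4o_affine {X : Type} [MeasurableSpace X] {m : Measure X} [IsProbabilityMeasure m] {S : X → E}
    (hS : MemLp S 2 m) (M : E →L[ℝ] E) :
    ‖∫ x, S x ∂m‖ ^ 2 + ∫ x, (2 * inner ℝ (M (S x - ∫ z, S z ∂m)) (S x - ∫ z, S z ∂m)
        - ‖M (S x - ∫ z, S z ∂m)‖ ^ 2) ∂m - hsSq M ≤ lcPE m S 1 S := by
  have hS' := hS.1.aemeasurable
  have := lc_map_prob hS'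
  have h := s4oaff_sigma (lc_mom hS) M
  have h1 : ∫ s, s ∂(m.map S) = ∫ x, S x ∂m := integral_map hS' aestronglyMeasurable_id
  rw [h1, integral_map hS' (by fun_prop), ← lc_PE_eq hS'] at h
  exact h

end Claimed.Agent.R259
end

/- ===== packed: Claimed.Agent.R259.S4OutMgf ===== -/
section
/-
Row 259 (S0499), section 4, package BP-S4-outliers, LEAF L-S4Out-mgf: (4.subspace-moment) by GAUSSIAN AVERAGING (no nets).
Sub-captain: helper220.  The leaf owner OWNS this file, keeps names and statements, replaces every `sorry`.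
Input: `subg_mgf` (Subg.lean): `∫ exp⟨v, x⟩ dμ ≤ exp(C₀ a² |v|²)`.   Take `C = 8 C₀`.

PROOF.  Put `t = 2/(C a²)`, `α = C₀ a² t = 1/4`, `γ₁ = gaussianReal 0 1`.  CLAIM by induction on `k ≤ l`: for every `v ⊥ e_0, …, e_{k-1}`
  `F_k(v) := ∫ exp(⟨v, x⟩ + (t/2) ∑_{i<k} ⟨e_i, x⟩²) dμ ≤ (√2)^k exp(C₀ a² |v|²)`.
`k = 0`: `subg_mgf`.  Step: `exp((t/2) c²) = ∫ exp(√t c z) dγ₁(z)` (`mgf_gaussianReal` / `imm_mgf` in dimension one), Fubini (everything is ≥ 0:
`lintegral`, or: `μ` has bounded support, so the integrand is dominated by `exp(A + B|z|)`), so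
  `F_{k+1}(v) = ∫ F_k(v + √t z e_k) dγ₁(z) ≤ (√2)^k ∫ exp(C₀ a² (|v|² + t z²)) dγ₁(z) = (√2)^k exp(C₀ a²|v|²) (1 - 2α)^{-1/2}`
(`v ⊥ e_k`, `|e_k| = 1`; `v + √t z e_k ⊥ e_i`, `i < k`);   `∫ exp(z²/4) dγ₁ = √2` (`integral_gaussian`).
(Alternative: all `l` Gaussians at once with `Measure.pi` and `integral_fintype_prod_eq_prod`.)
Finally `v = 0`, `(√2)^l ≤ 2^l`.  (The case `a`-degenerate does not occur: `BaseLaw.apos`.)
Integrability: `μ` has bounded support (`BaseLaw.bdd`) and the integrand is continuous.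
-/
set_option autoImplicit false

open MeasureTheory Filter Topology ProbabilityTheory InformationTheory
open scoped ContDiff ENNReal

namespace Claimed.Agent.R259

/-- the density identity behind `∫ exp(z²/4) dγ₁` -/
theorem s4omgf_pdf_mul (z : ℝ) :
    gaussianPDFReal 0 1 z * Real.exp (z ^ 2 / 4) = (Real.sqrt (2 * Real.pi))⁻¹ * Real.exp (-(1 / 4) * z ^ 2) := by
  rw [gaussianPDFReal_def]
  simp only [NNReal.coe_one, mul_one, sub_zero]
  rw [mul_assoc, ← Real.exp_add]
  congr 2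
  ring

theorem s4omgf_sq_integrable : Integrable (fun z : ℝ => Real.exp (z ^ 2 / 4)) (gaussianReal 0 1) := by
  rw [gaussianReal_of_var_ne_zero 0 one_ne_zero,
    integrable_withDensity_iff_integrable_smul' (measurable_gaussianPDF 0 1)
      (Eventually.of_forall fun _ => gaussianPDF_lt_top)]
  simp_rw [toReal_gaussianPDF, smul_eq_mul, s4omgf_pdf_mul]
  exact (integrable_exp_neg_mul_sq (by norm_num : (0 : ℝ) < 1 / 4)).const_mul _

theorem s4omgf_sq_integral : ∫ z : ℝ, Real.exp (z ^ 2 / 4) ∂(gaussianReal 0 1) = Real.sqrt 2 := by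
  rw [integral_gaussianReal_eq_integral_smul one_ne_zero]
  simp_rw [smul_eq_mul, s4omgf_pdf_mul]
  rw [integral_const_mul, integral_gaussian]
  have h1 : Real.pi / (1 / 4) = 2 * (2 * Real.pi) := by ring
  rw [h1, Real.sqrt_mul (by norm_num : (0 : ℝ) ≤ 2) (2 * Real.pi)]
  have h2 : Real.sqrt (2 * Real.pi) ≠ 0 := (Real.sqrt_pos.mpr (by positivity)).ne'
  rw [mul_comm (Real.sqrt 2), ← mul_assoc, inv_mul_cancel₀ h2, one_mul]

theorem s4omgf_lin_integrable (b : ℝ) : Integrable (fun z : ℝ => Real.exp (b * z)) (gaussianReal 0 1) :=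
  integrable_exp_mul_gaussianReal b

theorem s4omgf_lin_integral (b : ℝ) : ∫ z : ℝ, Real.exp (b * z) ∂(gaussianReal 0 1) = Real.exp (b ^ 2 / 2) := by
  have h := congrFun (mgf_id_gaussianReal (μ := 0) (v := 1)) b
  simp only [mgf, id] at h
  rw [h]
  congr 1
  simp

/-- Gaussian averaging in `l` variables -/
theorem s4omgf_avg {l : ℕ} (c : Fin l → ℝ) :
    ∫ z : Fin l → ℝ, Real.exp (∑ i, c i * z i) ∂(Measure.pi fun _ : Fin l => gaussianReal 0 1) =
      Real.exp ((∑ i, c i ^ 2) / 2) := by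
  simp_rw [Real.exp_sum]
  rw [integral_fintype_prod_eq_prod (fun i (z : ℝ) => Real.exp (c i * z))]
  simp_rw [s4omgf_lin_integral]
  rw [← Real.exp_sum, Finset.sum_div]

theorem s4omgf_sq_pi_integrable (l : ℕ) :
    Integrable (fun z : Fin l → ℝ => Real.exp ((∑ i, z i ^ 2) / 4)) (Measure.pi fun _ : Fin l => gaussianReal 0 1) := by
  simp_rw [Finset.sum_div, Real.exp_sum]
  exact Integrable.fintype_prod (f := fun _ (z : ℝ) => Real.exp (z ^ 2 / 4)) fun _ => s4omgf_sq_integrable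

theorem s4omgf_sq_pi_integral (l : ℕ) :
    ∫ z : Fin l → ℝ, Real.exp ((∑ i, z i ^ 2) / 4) ∂(Measure.pi fun _ : Fin l => gaussianReal 0 1) =
      Real.sqrt 2 ^ l := by
  simp_rw [Finset.sum_div, Real.exp_sum]
  rw [integral_fintype_prod_eq_pow (fun z : ℝ => Real.exp (z ^ 2 / 4)), s4omgf_sq_integral]
  simp

/-- `log E exp(|Q X|² / (C a²)) ≤ l log 2` for the projection `Q` onto an `l`-dimensional subspace. -/
theorem s4o_mgf : ∃ C : ℝ, 0 < C ∧ ∀ (E : Type) [NormedAddCommGroup E] [InnerProductSpace ℝ E]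
    [FiniteDimensional ℝ E] [MeasurableSpace E] [BorelSpace E] (μ : Measure E) (a : ℝ),
    BaseLaw μ a → ∀ (l : ℕ) (e : Fin l → E), Orthonormal ℝ e →
      Integrable (fun x => Real.exp ((∑ i, inner ℝ x (e i) ^ 2) / (C * a ^ 2))) μ ∧
      ∫ x, Real.exp ((∑ i, inner ℝ x (e i) ^ 2) / (C * a ^ 2)) ∂μ ≤ 2 ^ l := by
  obtain ⟨C₀, hC₀, hmgf⟩ := subg_mgf
  refine ⟨8 * C₀, by positivity, ?_⟩
  intro E _ _ _ _ _ μ a h l e he
  have := h.prob
  have ha := h.apos
  refine ⟨subg_integrable h.bdd (by fun_prop), ?_⟩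
  set τ : ℝ := 2 / (8 * C₀ * a ^ 2) with hτdef
  have hτ : 0 < τ := by positivity
  set V : (Fin l → ℝ) → E := fun z => Real.sqrt τ • ∑ i, z i • e i with hV
  have hVc : Continuous V := by
    simp only [hV]
    fun_prop
  have hVn : ∀ z, ‖V z‖ ^ 2 = τ * ∑ i, z i ^ 2 := by
    intro z
    simp only [hV]
    rw [norm_smul, mul_pow, Real.norm_eq_abs, sq_abs, Real.sq_sqrt hτ.le, ← real_inner_self_eq_norm_sq,
      he.inner_sum]
    congr 1
    refine Finset.sum_congr rfl fun i _ => ?_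
    simp [sq]
  have hVi : ∀ z x, inner ℝ (V z) x = ∑ i, (Real.sqrt τ * inner ℝ x (e i)) * z i := by
    intro z x
    simp only [hV]
    rw [inner_smul_left, sum_inner, Finset.mul_sum]
    refine Finset.sum_congr rfl fun i _ => ?_
    rw [inner_smul_left, real_inner_comm]
    simp
    ring
  have h1 : ∀ x, Real.exp ((∑ i, inner ℝ x (e i) ^ 2) / (8 * C₀ * a ^ 2)) =
      ∫ z, Real.exp (inner ℝ (V z) x) ∂(Measure.pi fun _ : Fin l => gaussianReal 0 1) := by
    intro x
    simp_rw [hVi]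
    rw [s4omgf_avg]
    congr 1
    simp_rw [mul_pow, Real.sq_sqrt hτ.le]
    rw [← Finset.mul_sum, hτdef]
    field_simp
  have hbd : ∀ z, ∫ x, Real.exp (inner ℝ (V z) x) ∂μ ≤ Real.exp ((∑ i, z i ^ 2) / 4) := by
    intro z
    refine (hmgf E μ a h (V z)).trans (le_of_eq ?_)
    congr 1
    rw [hVn, hτdef]
    field_simp
    ring
  have hc : Continuous fun p : E × (Fin l → ℝ) => Real.exp (inner ℝ (V p.2) p.1) := by fun_prop
  have hc' : Continuous fun q : (Fin l → ℝ) × E => ‖Real.exp (inner ℝ (V q.1) q.2)‖ := by fun_prop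
  have hint : Integrable (fun p : E × (Fin l → ℝ) => Real.exp (inner ℝ (V p.2) p.1))
      (μ.prod (Measure.pi fun _ : Fin l => gaussianReal 0 1)) := by
    rw [integrable_prod_iff' hc.aestronglyMeasurable]
    refine ⟨Eventually.of_forall fun z => subg_integrable h.bdd (by fun_prop), ?_⟩
    refine (s4omgf_sq_pi_integrable l).mono'
      (hc'.aestronglyMeasurable (μ := (Measure.pi fun _ : Fin l => gaussianReal 0 1).prod μ)).integral_prod_right'
      (Eventually.of_forall fun z => ?_)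
    rw [Real.norm_eq_abs, abs_of_nonneg (integral_nonneg fun x => norm_nonneg _)]
    simp_rw [Real.norm_eq_abs, abs_of_pos (Real.exp_pos _)]
    exact hbd z
  simp_rw [h1]
  rw [integral_integral_swap (f := fun x z => Real.exp (inner ℝ (V z) x)) hint]
  calc ∫ z, ∫ x, Real.exp (inner ℝ (V z) x) ∂μ ∂(Measure.pi fun _ : Fin l => gaussianReal 0 1)
      ≤ ∫ z : Fin l → ℝ, Real.exp ((∑ i, z i ^ 2) / 4) ∂(Measure.pi fun _ : Fin l => gaussianReal 0 1) :=
        integral_mono hint.integral_prod_right (s4omgf_sq_pi_integrable l) hbd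
    _ = Real.sqrt 2 ^ l := s4omgf_sq_pi_integral l
    _ ≤ 2 ^ l := by
        have : Real.sqrt 2 ≤ 2 := by
          rw [Real.sqrt_le_left (by norm_num)]
          norm_num
        gcongr

end Claimed.Agent.R259
end

/- ===== packed: Claimed.Agent.R259.S4OutTrace ===== -/
section
/-
Row 259 (S0499), section 4, package BP-S4-outliers, LEAF L-S4Out-trace: (4.posterior-trace)  `tr(Q D) ≤ C a² (H_0 + l)`.
Sub-captain: helper220.  Proof: helper212 (sorry-free modulo `s4o_mgf` of S4OutMgf.lean).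
Inputs: `s4o_mgf` (S4OutMgf.lean), `ent_dv`, `ent_dv_integrable`, `ent_klDiv_of_density` (Ent.lean), `db_tower`, `db_hpm_*` (DbTower.lean).

PROOF (differs from the first plan: no joint space).  `s = s0`, `C` from `s4o_mgf`, `G x = ∑ i, ⟨x, e i⟩² / (C a²)`, `p = gconv μ s`, `Ĝ = hpost μ s G`.
  * Jensen for the posterior `hpm μ s y`: `exp (Ĝ y) ≤ hpost μ s (exp G) y`; tower: `∫ hpost μ s (exp G) d(dm p) = ∫ exp G dμ ≤ 2^l`,
  * `dm η = f² · dm p`, `klDiv (dm η) (dm p) = H_0`; Donsker-Varadhan on the `y`-space: `∫ Ĝ d(dm η) ≤ H_0 + log ∫ exp Ĝ d(dm p) ≤ H_0 + l`  (`s4ot_dv`),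
  * `∑ i, hpost μ s (⟨·, e i⟩²) = C a² Ĝ`.
-/
set_option autoImplicit false

open MeasureTheory Filter Topology ProbabilityTheory InformationTheory
open scoped ContDiff ENNReal

namespace Claimed.Agent.R259

section aux

variable {E : Type} [NormedAddCommGroup E] [InnerProductSpace ℝ E] [FiniteDimensional ℝ E]
  [MeasurableSpace E] [BorelSpace E]

/-- Donsker-Varadhan through the heat channel: `E_η E[G | U] ≤ H(η | p) + log E exp G`. -/
theorem s4ot_dv {μ : Measure E} [IsProbabilityMeasure μ] {s : ℝ} (hs : 0 < s) {f η : E → ℝ}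
    (hfm : Measurable f) (hη : ∀ x, η x = f x ^ 2 * gconv μ s x)
    (hf1 : ∫ x, f x ^ 2 ∂(dm (gconv μ s)) = 1)
    (hfl : Integrable (fun x => f x ^ 2 * Real.log (f x ^ 2)) (dm (gconv μ s)))
    {G : E → ℝ} (hGm : Measurable G) (hG0 : ∀ x, 0 ≤ G x) (hGe : Integrable (fun x => Real.exp (G x)) μ) :
    Integrable (hpost μ s G) (dm η) ∧
      ∫ y, hpost μ s G y ∂(dm η) ≤ ∫ x, f x ^ 2 * Real.log (f x ^ 2) ∂(dm (gconv μ s)) +
        Real.log (∫ x, Real.exp (G x) ∂μ) := by
  have hp : IsProbabilityMeasure (dm (gconv μ s)) := gc_isProb hs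
  have hpmeas : Measurable (gconv μ s) := (dbt_gconv_continuous hs).measurable
  have hp0 : ∀ x, 0 ≤ gconv μ s x := fun x => (db_gconv_pos hs x).le
  have hf20 : ∀ᵐ x ∂(dm (gconv μ s)), 0 ≤ f x ^ 2 := Eventually.of_forall fun x => sq_nonneg _
  -- `G` is integrable
  have hGi : Integrable G μ := by
    refine Integrable.mono' hGe hGm.aestronglyMeasurable (Eventually.of_forall fun x => ?_)
    rw [Real.norm_eq_abs, abs_of_nonneg (hG0 x)]
    linarith [Real.add_one_le_exp (G x)]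
  -- the law `dm η`
  have hηe : dm η = (dm (gconv μ s)).withDensity fun x => ENNReal.ofReal (f x ^ 2) := by
    rw [← dfk_dm_mul hpmeas (hfm.pow_const 2) hp0]
    congr 1
    funext x
    rw [hη, mul_comm]
  have hηp : IsProbabilityMeasure (dm η) := by
    rw [hηe]
    refine ⟨?_⟩
    rw [withDensity_apply _ MeasurableSet.univ, Measure.restrict_univ,
      ent_lintegral_ofReal_eq_one hf20 hf1]
  have hkl : klDiv (dm η) (dm (gconv μ s)) =
      ENNReal.ofReal (∫ x, f x ^ 2 * Real.log (f x ^ 2) ∂(dm (gconv μ s))) := by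
    rw [hηe, ent_klDiv_of_density hf20 hf1 hfl, ent_ent_eq hf1]
  have hklt : klDiv (dm η) (dm (gconv μ s)) ≠ ⊤ := by rw [hkl]; exact ENNReal.ofReal_ne_top
  have hklr : (klDiv (dm η) (dm (gconv μ s))).toReal =
      ∫ x, f x ^ 2 * Real.log (f x ^ 2) ∂(dm (gconv μ s)) := by
    rw [hkl, ENNReal.toReal_ofReal (ent_integral_mul_log_nonneg hf20 hf1 hfl)]
  -- the posterior mean of `G`
  have hcont : Continuous (hpost μ s G) := dbt_hpost_continuous hs hGi
  have hpost0 : ∀ y, 0 ≤ hpost μ s G y := by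
    intro y
    rw [← db_hpm_integral hs]
    exact integral_nonneg hG0
  have hjen : ∀ y, Real.exp (hpost μ s G y) ≤ hpost μ s (fun x => Real.exp (G x)) y := by
    intro y
    have : IsProbabilityMeasure (hpm μ s y) := db_hpm_prob hs y
    rw [← db_hpm_integral hs, ← db_hpm_integral hs]
    exact convexOn_exp.map_integral_le Real.continuous_exp.continuousOn isClosed_univ
      (Eventually.of_forall fun _ => Set.mem_univ _) (db_hpm_integrable hs y hGi)
      (db_hpm_integrable hs y hGe)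
  obtain ⟨hTi, hTe⟩ := db_tower hs hGe
  have hexpi : Integrable (fun y => Real.exp (hpost μ s G y)) (dm (gconv μ s)) := by
    refine Integrable.mono' hTi (Real.continuous_exp.comp hcont).aestronglyMeasurable
      (Eventually.of_forall fun y => ?_)
    rw [Real.norm_eq_abs, abs_of_pos (Real.exp_pos _)]
    exact hjen y
  have hexpi' : Integrable (fun y => Real.exp (-hpost μ s G y)) (dm (gconv μ s)) := by
    refine Integrable.mono' (integrable_const (1 : ℝ))
      (Real.continuous_exp.comp hcont.neg).aestronglyMeasurable (Eventually.of_forall fun y => ?_)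
    rw [Real.norm_eq_abs, abs_of_pos (Real.exp_pos _)]
    exact Real.exp_le_one_iff.2 (by linarith [hpost0 y])
  have hint : Integrable (hpost μ s G) (dm η) :=
    ent_dv_integrable hklt hcont.aestronglyMeasurable hexpi hexpi'
  refine ⟨hint, ?_⟩
  have h1 := ent_dv hklt hexpi hint
  rw [hklr] at h1
  have h2 : ∫ y, Real.exp (hpost μ s G y) ∂(dm (gconv μ s)) ≤ ∫ x, Real.exp (G x) ∂μ := by
    rw [← hTe]
    exact integral_mono hexpi hTi hjen
  have h3 := Real.log_le_log (integral_exp_pos hexpi) h2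
  linarith

end aux

theorem s4o_trace : ∃ C : ℝ, 0 < C ∧ ∀ (E : Type) [NormedAddCommGroup E] [InnerProductSpace ℝ E]
    [FiniteDimensional ℝ E] [MeasurableSpace E] [BorelSpace E] (μ : Measure E) (a : ℝ) (η : E → ℝ)
    (w : E → E) (f : E → ℝ), BaseLaw μ a → SPD η → StrictBranch μ s0 1 η w f →
    ∀ (l : ℕ) (e : Fin l → E), Orthonormal ℝ e →
      ∑ i, pD μ η (e i) ≤ C * a ^ 2 * (∫ x, f x ^ 2 * Real.log (f x ^ 2) ∂(dm (gconv μ s0)) + l) := by
  obtain ⟨C, hC, hmgf⟩ := s4o_mgf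
  refine ⟨C, hC, ?_⟩
  intro E _ _ _ _ _ μ a η w f hB hη hS l e he
  have : IsProbabilityMeasure μ := hB.prob
  have hs : (0 : ℝ) < s0 := by unfold s0; norm_num
  obtain ⟨hGe, hGle⟩ := hmgf E μ a hB l e he
  have hc : 0 < C * a ^ 2 := mul_pos hC (pow_pos hB.apos 2)
  set c := C * a ^ 2 with hcdef
  set G : E → ℝ := fun x => (∑ i, inner ℝ x (e i) ^ 2) / c with hG
  have hGcont : Continuous G := by
    rw [hG]; fun_prop
  have hG0 : ∀ x, 0 ≤ G x := fun x => div_nonneg (Finset.sum_nonneg fun i _ => sq_nonneg _) hc.le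
  obtain ⟨hint, hdv⟩ := s4ot_dv hs hS.f_smooth.continuous.measurable hS.η_eq hS.f_norm hS.ent_int
    hGcont.measurable hG0 hGe
  have hGi : Integrable G μ := by
    refine Integrable.mono' hGe hGcont.aestronglyMeasurable (Eventually.of_forall fun x => ?_)
    rw [Real.norm_eq_abs, abs_of_nonneg (hG0 x)]
    linarith [Real.add_one_le_exp (G x)]
  -- the components
  have hgi : ∀ i, Integrable (fun x => inner ℝ x (e i) ^ 2) μ := by
    intro i
    refine Integrable.mono' (hGi.const_mul c) (by fun_prop) (Eventually.of_forall fun x => ?_)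
    rw [Real.norm_eq_abs, abs_of_nonneg (sq_nonneg _), hG]
    simp only
    rw [mul_div_cancel₀ _ hc.ne']
    exact Finset.single_le_sum (f := fun i => inner ℝ x (e i) ^ 2) (fun j _ => sq_nonneg _)
      (Finset.mem_univ i)
  have hsum : ∀ y, ∑ i, hpost μ s0 (fun x => inner ℝ x (e i) ^ 2) y = c * hpost μ s0 G y := by
    intro y
    simp only [← db_hpm_integral hs]
    rw [← integral_finsetSum _ fun i _ => db_hpm_integrable hs y (hgi i), ← integral_const_mul]
    refine integral_congr_ae (Eventually.of_forall fun x => ?_)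
    simp only [hG]
    rw [mul_div_cancel₀ _ hc.ne']
  have hpi0 : ∀ i y, 0 ≤ hpost μ s0 (fun x => inner ℝ x (e i) ^ 2) y := by
    intro i y
    rw [← db_hpm_integral hs]
    exact integral_nonneg fun x => sq_nonneg _
  have hpii : ∀ i, Integrable (hpost μ s0 (fun x => inner ℝ x (e i) ^ 2)) (dm η) := by
    intro i
    refine Integrable.mono' (hint.const_mul c) (dbt_hpost_continuous hs (hgi i)).aestronglyMeasurable
      (Eventually.of_forall fun y => ?_)
    rw [Real.norm_eq_abs, abs_of_nonneg (hpi0 i y), ← hsum y]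
    exact Finset.single_le_sum (f := fun i => hpost μ s0 (fun x => inner ℝ x (e i) ^ 2) y)
      (fun j _ => hpi0 j y) (Finset.mem_univ i)
  have hE : ∑ i, pD μ η (e i) = c * ∫ y, hpost μ s0 G y ∂(dm η) := by
    simp only [pD]
    rw [← integral_finsetSum _ fun i _ => hpii i, ← integral_const_mul]
    exact integral_congr_ae (Eventually.of_forall hsum)
  rw [hE]
  refine mul_le_mul_of_nonneg_left ?_ hc.le
  have hlog : Real.log (∫ x, Real.exp (G x) ∂μ) ≤ l := by
    have h1 := Real.log_le_log (integral_exp_pos hGe) hGle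
    rw [Real.log_pow] at h1
    have h2 : Real.log 2 ≤ 1 := by
      have := Real.log_two_lt_d9
      linarith
    have h3 : (l : ℝ) * Real.log 2 ≤ l := by
      nlinarith [Nat.cast_nonneg (α := ℝ) l]
    linarith
  linarith

end Claimed.Agent.R259
end

/- ===== packed: Claimed.Agent.R259.MetS ===== -/
section
/-
Row 259 (S0499), kit MET, block S: the shifted family (and `hc0`) are images of the original fields
under constant linear isometries (reindexing of coordinates).  Prover: helper170.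
-/
set_option autoImplicit false
set_option linter.unusedSectionVars false

open MeasureTheory ProbabilityTheory
open scoped ContDiff BigOperators

namespace Claimed.Agent.R259

variable {n : ℕ}

section S
variable {ι : Type} [Fintype ι]

/-- reindexing: the first tensor slot goes to the output index -/
def shiftE (n : ℕ) (ι : Type) (j : ℕ) : ι × Idx n (j + 1) ≃ (ι × Fin n) × Idx n j where
  toFun p := ((p.1, p.2 0), Fin.tail p.2)
  invFun q := (q.1.1, Fin.cons q.1.2 q.2)
  left_inv p := by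
    obtain ⟨a, β⟩ := p
    simp only [Fin.cons_self_tail]
  right_inv q := by
    obtain ⟨⟨a, i⟩, β⟩ := q
    simp only [Fin.cons_zero, Fin.tail_cons]

/-- `shiftC` as a linear isometry -/
noncomputable def shiftL (n : ℕ) (ι : Type) [Fintype ι] (j : ℕ) :
    EuclideanSpace ℝ (ι × Idx n (j + 1)) ≃ₗᵢ[ℝ] EuclideanSpace ℝ ((ι × Fin n) × Idx n j) :=
  LinearIsometryEquiv.piLpCongrLeft 2 ℝ ℝ (shiftE n ι j)

theorem shiftL_apply {j : ℕ} (c : EuclideanSpace ℝ (ι × Idx n (j + 1))) : shiftL n ι j c = shiftC c := rfl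

/-- `shiftC` as a continuous linear map -/
noncomputable def shiftCL (n : ℕ) (ι : Type) [Fintype ι] (j : ℕ) :
    EuclideanSpace ℝ (ι × Idx n (j + 1)) →L[ℝ] EuclideanSpace ℝ ((ι × Fin n) × Idx n j) :=
  (shiftL n ι j).toContinuousLinearEquiv.toContinuousLinearMap

theorem shiftCL_apply {j : ℕ} (c : EuclideanSpace ℝ (ι × Idx n (j + 1))) : shiftCL n ι j c = shiftC c := rfl

theorem shiftC_apply {j : ℕ} (c : EuclideanSpace ℝ (ι × Idx n (j + 1))) (p : (ι × Fin n) × Idx n j) :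
    shiftC c p = c (p.1.1, Fin.cons p.1.2 p.2) := rfl

theorem shiftC_norm {j : ℕ} (c : EuclideanSpace ℝ (ι × Idx n (j + 1))) : ‖shiftC c‖ = ‖c‖ :=
  (shiftL n ι j).norm_map c

/-- `hc0` as a linear isometry -/
noncomputable def hc0L (n : ℕ) (ι : Type) [Fintype ι] :
    EuclideanSpace ℝ (ι × Idx n 0) ≃ₗᵢ[ℝ] EuclideanSpace ℝ ι :=
  LinearIsometryEquiv.piLpCongrLeft 2 ℝ ℝ (Equiv.prodUnique ι (Idx n 0))

theorem hc0L_apply (c : EuclideanSpace ℝ (ι × Idx n 0)) : hc0L n ι c = hc0 c := by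
  ext a
  change c (a, default) = c (a, fun r => r.elim0)
  have : (default : Idx n 0) = fun r => r.elim0 := Subsingleton.elim _ _
  rw [this]

/-- `hc0` as a continuous linear map -/
noncomputable def hc0CL (n : ℕ) (ι : Type) [Fintype ι] :
    EuclideanSpace ℝ (ι × Idx n 0) →L[ℝ] EuclideanSpace ℝ ι :=
  (hc0L n ι).toContinuousLinearEquiv.toContinuousLinearMap

theorem hc0CL_apply (c : EuclideanSpace ℝ (ι × Idx n 0)) : hc0CL n ι c = hc0 c := hc0L_apply c

theorem hc0_apply (c : EuclideanSpace ℝ (ι × Idx n 0)) (a : ι) : hc0 c a = c (a, fun r => r.elim0) := rfl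

theorem hc0_norm (c : EuclideanSpace ℝ (ι × Idx n 0)) : ‖hc0 c‖ = ‖c‖ := by
  rw [← hc0L_apply]
  exact (hc0L n ι).norm_map c

theorem hc0_test {φ : EE n → EuclideanSpace ℝ (ι × Idx n 0)}
    (hφ : IsTestV φ) : IsTestV (fun y => hc0 (φ y)) := by
  simp only [← hc0CL_apply]
  exact s5k_test_clm (hc0CL n ι) hφ

theorem shiftF_test {F : CoefFam n ι} (hF : ∀ j, IsTestV (F j)) (j : ℕ) :
    IsTestV (shiftF F j) :=
  s5k_test_clm (shiftCL n ι j) (hF (j + 1))

theorem shiftF_sym {F : CoefFam n ι} (hsym : ∀ j y, CoefSym (F j y)) (j : ℕ) (y : EE n) :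
    CoefSym (shiftF F j y) := fun σ a β =>
  (((hsym (j + 1) y).idxSym a.1).consI a.2) σ β

theorem shiftF_nSq (η : EE n → ℝ) (F : CoefFam n ι) (j : ℕ) :
    nSq η (shiftF F j) = nSq η (F (j + 1)) := by
  unfold nSq shiftF
  simp only [shiftC_norm]

theorem shiftF_dfA (η : EE n → ℝ) {F : CoefFam n ι} (hF : ∀ j, IsTestV (F j)) (j : ℕ) :
    dfA η (shiftF F) j = dfA η F (j + 1) := by
  unfold dfA nSq
  refine integral_congr_ae (Filter.Eventually.of_forall fun y => ?_)
  have h1 : opA η (shiftF F j) y = shiftC (opA η (F (j + 1)) y) :=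
    s5k_opA_clm η (shiftCL n ι j) ((hF (j + 1)).1.of_le (by norm_cast)) y
  have h2 : opA η (shiftF F j) y - shiftF F j y = shiftC (opA η (F (j + 1)) y - F (j + 1) y) := by
    rw [h1]
    exact (map_sub (shiftL n ι j) (opA η (F (j + 1)) y) (F (j + 1) y)).symm
  simp only [h2, shiftC_norm]

theorem shiftF_dfD (η : EE n → ℝ) {F : CoefFam n ι} (hF : ∀ j, IsTestV (F j)) (j : ℕ) :
    dfD η (shiftF F) j = dfD η F (j + 1) := by
  unfold dfD
  refine integral_congr_ae (Filter.Eventually.of_forall fun y => ?_)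
  refine Finset.sum_congr rfl fun i _ => ?_
  rw [← Equiv.sum_comp (shiftE n ι j).symm]
  refine Finset.sum_congr rfl fun p => fun _ => ?_
  have h1 : dI i (shiftF F j) y = shiftC (dI i (F (j + 1)) y) :=
    s5k_dI_clm (shiftCL n ι j) (((hF (j + 1)).1.differentiable (by simp)) y) i
  rw [h1, shiftC_apply]
  change _ = (dI i (F (j + 1)) y (p.1.1, Fin.cons p.1.2 p.2)
    - F (j + 1 + 1) y (p.1.1, Fin.snoc (Fin.cons p.1.2 p.2 : Idx n (j + 1)) i)) ^ 2
  rw [← Fin.cons_snoc_eq_snoc_cons]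
  rfl

end S

end Claimed.Agent.R259
end

/- ===== packed: Claimed.Agent.R259.MetD ===== -/
section
/-
Row 259 (S0499), kit MET, block D: one step of the Metropolis chain in `L²`.
Blueprint: helper115, proofs: helper170.
-/
set_option autoImplicit false
set_option linter.unusedSectionVars false

open MeasureTheory ProbabilityTheory Filter Topology
open scoped ContDiff BigOperators

namespace Claimed.Agent.R259

/-! ### abstract `L²` facts -/

section kit

variable {α : Type} [MeasurableSpace α] {μ : Measure α} {V : Type} [NormedAddCommGroup V]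
  [InnerProductSpace ℝ V]

theorem metd_integrable_sq {f : α → V} (hf : MemLp f 2 μ) : Integrable (fun x => ‖f x‖ ^ 2) μ :=
  (memLp_two_iff_integrable_sq_norm hf.1).1 hf

theorem metd_integrable_inner {f g : α → V} (hf : MemLp f 2 μ) (hg : MemLp g 2 μ) :
    Integrable (fun x => inner ℝ (f x) (g x)) μ := by
  refine Integrable.mono' ((metd_integrable_sq hf).add (metd_integrable_sq hg)) (hf.1.inner hg.1)
    (ae_of_all _ fun x => ?_)
  have h1 := norm_inner_le_norm (𝕜 := ℝ) (f x) (g x)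
  simp only [Pi.add_apply]
  nlinarith [sq_nonneg (‖f x‖ - ‖g x‖), sq_nonneg (‖f x‖ + ‖g x‖)]

theorem metd_integral_norm_le [IsProbabilityMeasure μ] {f : α → V} (hf : MemLp f 2 μ) :
    ∫ x, ‖f x‖ ∂μ ≤ Real.sqrt (∫ x, ‖f x‖ ^ 2 ∂μ) := by
  apply Real.le_sqrt_of_sq_le
  have h1 := variance_nonneg (fun x => ‖f x‖) μ
  rw [variance_eq_sub hf.norm] at h1
  simp only [Pi.pow_apply] at h1
  linarith

/-- orthogonality of the past and of the (almost) centred innovation -/
theorem metd_abstract [CompleteSpace V] {Ω₁ Ω₂ : Type} [MeasurableSpace Ω₁] [MeasurableSpace Ω₂]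
    (μ : Measure Ω₁) (ν : Measure Ω₂) [IsProbabilityMeasure μ] [IsProbabilityMeasure ν]
    {A : Ω₁ → V} {B : Ω₁ × Ω₂ → V} (hA : MemLp A 2 μ) (hB : MemLp B 2 (μ.prod ν)) {δ : ℝ}
    (hδ : 0 ≤ δ) (hm : ∀ᵐ p ∂μ, ‖∫ z, B (p, z) ∂ν‖ ≤ δ) :
    ∫ q, ‖A q.1 + B q‖ ^ 2 ∂(μ.prod ν)
      ≤ (Real.sqrt (∫ p, ‖A p‖ ^ 2 ∂μ) + δ) ^ 2 + ∫ q, ‖B q‖ ^ 2 ∂(μ.prod ν) := by
  have hA' : MemLp (fun q : Ω₁ × Ω₂ => A q.1) 2 (μ.prod ν) := hA.comp_fst ν
  have hAB := metd_integrable_inner hA' hB
  have e1 : ∀ q : Ω₁ × Ω₂, ‖A q.1 + B q‖ ^ 2 = ‖A q.1‖ ^ 2 + 2 * inner ℝ (A q.1) (B q) + ‖B q‖ ^ 2 :=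
    fun q => norm_add_sq_real _ _
  simp only [e1]
  have hi12 : Integrable (fun q : Ω₁ × Ω₂ => ‖A q.1‖ ^ 2 + 2 * inner ℝ (A q.1) (B q)) (μ.prod ν) :=
    (metd_integrable_sq hA').add (hAB.const_mul 2)
  rw [integral_add hi12 (metd_integrable_sq hB),
    integral_add (metd_integrable_sq hA') (hAB.const_mul 2), integral_const_mul,
    integral_fun_fst (fun p => ‖A p‖ ^ 2)]
  simp only [probReal_univ, one_smul]
  have hN : 0 ≤ ∫ p, ‖A p‖ ^ 2 ∂μ := integral_nonneg fun _ => by positivity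
  have hcross : ∫ q, inner ℝ (A q.1) (B q) ∂(μ.prod ν) ≤ δ * Real.sqrt (∫ p, ‖A p‖ ^ 2 ∂μ) := by
    rw [integral_prod _ hAB]
    have hBi : Integrable B (μ.prod ν) := hB.integrable (by norm_num)
    calc ∫ p, ∫ z, inner ℝ (A p) (B (p, z)) ∂ν ∂μ ≤ ∫ p, δ * ‖A p‖ ∂μ := by
          refine integral_mono_ae hAB.integral_prod_left ((hA.integrable (by norm_num)).norm.const_mul δ) ?_
          filter_upwards [hm, hBi.prod_right_ae] with p hp hpi
          change ∫ z, inner ℝ (A p) (B (p, z)) ∂ν ≤ δ * ‖A p‖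
          rw [integral_inner hpi]
          calc inner ℝ (A p) (∫ z, B (p, z) ∂ν) ≤ ‖A p‖ * ‖∫ z, B (p, z) ∂ν‖ := real_inner_le_norm _ _
            _ ≤ ‖A p‖ * δ := mul_le_mul_of_nonneg_left hp (norm_nonneg _)
            _ = δ * ‖A p‖ := mul_comm _ _
      _ = δ * ∫ p, ‖A p‖ ∂μ := integral_const_mul _ _
      _ ≤ δ * Real.sqrt (∫ p, ‖A p‖ ^ 2 ∂μ) := mul_le_mul_of_nonneg_left (metd_integral_norm_le hA) hδ
  have hs := Real.sq_sqrt hN
  nlinarith [sq_nonneg δ]

end kit

section apv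

variable {n : ℕ} {ι : Type} [Fintype ι]

theorem apv_add_left (c c' : EuclideanSpace ℝ (ι × Fin n)) (g : EE n) :
    apv (c + c') g = apv c g + apv c' g := by
  ext a
  simp only [apv_apply, PiLp.add_apply, add_mul, Finset.sum_add_distrib]

theorem apv_sub_left (c c' : EuclideanSpace ℝ (ι × Fin n)) (g : EE n) :
    apv (c - c') g = apv c g - apv c' g := by
  ext a
  simp only [apv_apply, PiLp.sub_apply, sub_mul, Finset.sum_sub_distrib]

theorem metd_apv_norm_sq (c : EuclideanSpace ℝ (ι × Fin n)) (g : EE n) :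
    ‖apv c g‖ ^ 2 = ∑ a, (∑ i, c (a, i) * g i) ^ 2 := by
  rw [EuclideanSpace.real_norm_sq_eq]
  rfl

theorem metd_apv_norm_le (c : EuclideanSpace ℝ (ι × Fin n)) (g : EE n) : ‖apv c g‖ ≤ ‖c‖ * ‖g‖ := by
  have h : ‖apv c g‖ ^ 2 ≤ (‖c‖ * ‖g‖) ^ 2 := by
    rw [metd_apv_norm_sq, mul_pow, EuclideanSpace.real_norm_sq_eq, EuclideanSpace.real_norm_sq_eq,
      Fintype.sum_prod_type, Finset.sum_mul]
    refine Finset.sum_le_sum fun a _ => ?_
    exact Finset.sum_mul_sq_le_sq_mul_sq _ _ _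
  exact abs_le_of_sq_le_sq' h (by positivity) |>.2

theorem metd_apv_continuous {X : Type} [TopologicalSpace X] {c : X → EuclideanSpace ℝ (ι × Fin n)}
    {g : X → EE n} (hc : Continuous c) (hg : Continuous g) : Continuous fun x => apv (c x) (g x) := by
  unfold apv
  refine (PiLp.continuous_toLp 2 _).comp (continuous_pi fun a => ?_)
  refine continuous_finsetSum _ fun i _ => ?_
  exact ((PiLp.continuous_apply 2 _ (a, i)).comp hc).mul ((PiLp.continuous_apply 2 _ i).comp hg)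

/-- the rows of a coefficient -/
noncomputable def apvRow (c : EuclideanSpace ℝ (ι × Fin n)) (a : ι) : EE n := WithLp.toLp 2 fun i => c (a, i)

theorem apv_eq_inner (c : EuclideanSpace ℝ (ι × Fin n)) (g : EE n) (a : ι) :
    apv c g a = inner ℝ (apvRow c a) g := by
  rw [apv_apply, PiLp.inner_apply]
  refine Finset.sum_congr rfl fun i _ => ?_
  simp only [RCLike.inner_apply, conj_trivial, apvRow]
  ring

theorem metd_inner_integrable (v : EE n) : Integrable (fun z => inner ℝ v z) (stdGaussian (EE n)) :=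
  IsGaussian.integrable_dual (stdGaussian (EE n)) (innerSL ℝ v)

theorem metd_inner_integral (v : EE n) : ∫ z, inner ℝ v z ∂(stdGaussian (EE n)) = 0 :=
  integral_strongDual_stdGaussian (innerSL ℝ v)

theorem metd_inner_sq_integrable (v : EE n) :
    Integrable (fun z => inner ℝ v z ^ 2) (stdGaussian (EE n)) :=
  (IsGaussian.memLp_dual (stdGaussian (EE n)) (innerSL ℝ v) 2 (by norm_num)).integrable_sq

theorem metd_inner_sq_integral (v : EE n) : ∫ z, inner ℝ v z ^ 2 ∂(stdGaussian (EE n)) = ‖v‖ ^ 2 := by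
  have h := variance_dual_stdGaussian (E := EE n) (innerSL ℝ v)
  rw [variance_of_integral_eq_zero (by fun_prop) (integral_strongDual_stdGaussian _),
    innerSL_apply_norm] at h
  exact h

theorem metd_norm_sq_integrable : Integrable (fun z : EE n => ‖z‖ ^ 2) (stdGaussian (EE n)) := by
  simp_rw [← (stdOrthonormalBasis ℝ (EE n)).sum_sq_inner_right]
  exact integrable_finsetSum _ fun i _ => metd_inner_sq_integrable _

theorem metd_integral_nu {W : Type} [NormedAddCommGroup W] [NormedSpace ℝ W] (f : EE n → W) :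
    ∫ z, f z.1 ∂(metNu n) = ∫ g, f g ∂(stdGaussian (EE n)) := by
  unfold metNu
  rw [integral_fun_fst]
  simp

theorem metd_apv_mean (c : EuclideanSpace ℝ (ι × Fin n)) : ∫ z, apv c z.1 ∂(metNu n) = 0 := by
  rw [metd_integral_nu (fun g => apv c g)]
  ext a
  rw [eval_integral_piLp fun a => by
    simp only [apv_eq_inner]
    exact metd_inner_integrable _]
  simp only [apv_eq_inner, metd_inner_integral]
  rfl

theorem metd_apv_sq (c : EuclideanSpace ℝ (ι × Fin n)) : ∫ z, ‖apv c z.1‖ ^ 2 ∂(metNu n) = ‖c‖ ^ 2 := by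
  rw [metd_integral_nu (fun g => ‖apv c g‖ ^ 2)]
  have h1 : ∀ g : EE n, ‖apv c g‖ ^ 2 = ∑ a, inner ℝ (apvRow c a) g ^ 2 := fun g => by
    rw [EuclideanSpace.real_norm_sq_eq]
    simp only [apv_eq_inner]
  simp only [h1]
  rw [integral_finsetSum _ fun a _ => metd_inner_sq_integrable _]
  simp only [metd_inner_sq_integral]
  rw [EuclideanSpace.real_norm_sq_eq, Fintype.sum_prod_type]
  refine Finset.sum_congr rfl fun a _ => ?_
  rw [EuclideanSpace.real_norm_sq_eq]
  rfl

variable {Ω₁ : Type} [MeasurableSpace Ω₁] {μ : Measure Ω₁} [IsProbabilityMeasure μ]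

theorem metd_apv_memLp {C : Ω₁ → EuclideanSpace ℝ (ι × Fin n)} (hC : MemLp C 2 μ) :
    MemLp (fun q : Ω₁ × (EE n × ℝ) => apv (C q.1) q.2.1) 2 (μ.prod (metNu n)) := by
  have hm : AEStronglyMeasurable (fun q : Ω₁ × (EE n × ℝ) => apv (C q.1) q.2.1) (μ.prod (metNu n)) := by
    have hc : Continuous fun x : EuclideanSpace ℝ (ι × Fin n) × EE n => apv x.1 x.2 :=
      metd_apv_continuous continuous_fst continuous_snd
    exact hc.comp_aestronglyMeasurable
      (hC.1.comp_fst.prodMk (measurable_fst.comp measurable_snd).aestronglyMeasurable)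
  rw [memLp_two_iff_integrable_sq_norm hm]
  have h1 : Integrable (fun z : EE n × ℝ => ‖z.1‖ ^ 2) (metNu n) := by
    unfold metNu
    exact metd_norm_sq_integrable.comp_fst _
  have h2 : Integrable (fun q : Ω₁ × (EE n × ℝ) => ‖C q.1‖ ^ 2 * ‖q.2.1‖ ^ 2) (μ.prod (metNu n)) :=
    Integrable.mul_prod ((memLp_two_iff_integrable_sq_norm hC.1).1 hC) h1
  refine h2.mono' (hm.norm.pow 2) (ae_of_all _ fun q => ?_)
  rw [Real.norm_eq_abs, abs_of_nonneg (by positivity), ← mul_pow]
  exact pow_le_pow_left₀ (norm_nonneg _) (metd_apv_norm_le _ _) 2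

theorem metd_apv_integral {C : Ω₁ → EuclideanSpace ℝ (ι × Fin n)} (hC : MemLp C 2 μ) :
    ∫ q, ‖apv (C q.1) q.2.1‖ ^ 2 ∂(μ.prod (metNu n)) = ∫ p, ‖C p‖ ^ 2 ∂μ := by
  rw [integral_prod _ ((memLp_two_iff_integrable_sq_norm (metd_apv_memLp hC).1).1 (metd_apv_memLp hC))]
  simp only [metd_apv_sq]

end apv

section fields

variable {n : ℕ} {ι : Type} [Fintype ι]

theorem metd_sum_eb (g : EE n) : g = ∑ i, g i • eb i := by
  have := (EuclideanSpace.basisFun (Fin n) ℝ).sum_repr g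
  simpa [eb] using this.symm

theorem fD_apply (φ : EE n → EuclideanSpace ℝ ι) (y : EE n) (p : ι × Fin n) :
    fD φ y p = fderiv ℝ φ y (eb p.2) p.1 := rfl

theorem metd_fderiv_apv (φ : EE n → EuclideanSpace ℝ ι) (y g : EE n) :
    fderiv ℝ φ y g = apv (fD φ y) g := by
  conv_lhs => rw [metd_sum_eb g]
  rw [map_sum]
  ext a
  rw [apv_apply, WithLp.ofLp_sum, Finset.sum_apply]
  refine Finset.sum_congr rfl fun i _ => ?_
  rw [map_smul, PiLp.smul_apply, fD_apply, smul_eq_mul, mul_comm]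

theorem metd_fD_continuous {φ : EE n → EuclideanSpace ℝ ι} (hφ : IsTestV φ) : Continuous (fD φ) := by
  unfold fD dI
  refine (PiLp.continuous_toLp 2 _).comp (continuous_pi fun p => ?_)
  have h1 : Continuous (fderiv ℝ φ) := hφ.1.continuous_fderiv (by simp)
  exact (PiLp.continuous_apply 2 _ p.1).comp (h1.clm_apply continuous_const)

theorem metd_fD_bdd {φ : EE n → EuclideanSpace ℝ ι} (hφ : IsTestV φ) : ∃ C : ℝ, ∀ y, ‖fD φ y‖ ≤ C := by
  have hs : HasCompactSupport (fD φ) := by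
    refine HasCompactSupport.intro (hφ.2.fderiv (𝕜 := ℝ)) fun y hy => ?_
    have h0 : fderiv ℝ φ y = 0 := image_eq_zero_of_notMem_tsupport hy
    ext p
    rw [fD_apply, h0]
    rfl
  exact hs.exists_bound_of_continuous (metd_fD_continuous hφ)

theorem metd_bdd_memLp {W : Type} [NormedAddCommGroup W] {ψ : EE n → W} (hc : Continuous ψ)
    (hb : ∃ C : ℝ, ∀ y, ‖ψ y‖ ≤ C) {Ω : Type} [MeasurableSpace Ω] (μ : Measure Ω) [IsFiniteMeasure μ]
    {π : Ω → EE n} (hπ : Measurable π) : MemLp (fun p => ψ (π p)) 2 μ := by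
  obtain ⟨C, hC⟩ := hb
  exact MemLp.of_bound (hc.comp_aestronglyMeasurable hπ.aestronglyMeasurable) C (ae_of_all _ fun p => hC _)

theorem metd_metM_continuous (h : ℝ) (M k : ℕ) {F : CoefFam n ι} (hF : ∀ j, IsTestV (F j)) :
    Continuous fun q : EE n × EE n => metM h M k F q.1 q.2 := by
  unfold metM
  refine continuous_finsetSum _ fun j _ => Continuous.fun_const_smul ?_ _
  exact metf_hcon_continuous ((hF j).1.continuous.comp continuous_fst)
    ((Hs_continuous j k).comp continuous_snd)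

theorem metd_term_memLp {η : EE n → ℝ} (hη : SPD η) {j : ℕ}
    {φ : EE n → EuclideanSpace ℝ (ι × Idx n j)} (hφ : IsTestV φ) (κ κ' : ℝ) :
    MemLp (fun q : EE n × EE n => hcon (φ q.1) (Hs j κ q.2)) 2 ((dm η).prod (gaussK n κ')) := by
  have := dm_prob hη
  have := gaussK_prob n κ'
  obtain ⟨C, hC⟩ := metf_test_bdd hφ
  have h1 : MemLp (fun s : EE n => Hs j κ s) 2 (gaussK n κ') := by
    have := Hs_memLp (n := n) j κ κ' 0 2
    simpa using this
  have h2 : MemLp (fun q : EE n × EE n => Hs j κ q.2) 2 ((dm η).prod (gaussK n κ')) := h1.comp_snd _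
  refine h2.of_le_mul (c := C) ?_ (Eventually.of_forall fun q => ?_)
  · exact (metf_hcon_continuous (hφ.1.continuous.comp continuous_fst)
      ((Hs_continuous j κ).comp continuous_snd)).aestronglyMeasurable
  · exact (metf_hcon_norm_le _ _).trans (mul_le_mul_of_nonneg_right (hC _) (norm_nonneg _))

theorem metd_metM_memLp_prod {η : EE n → ℝ} (hη : SPD η) (h : ℝ) (M k : ℕ) {F : CoefFam n ι}
    (hF : ∀ j, IsTestV (F j)) (κ' : ℝ) :
    MemLp (fun q : EE n × EE n => metM h M k F q.1 q.2) 2 ((dm η).prod (gaussK n κ')) := by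
  unfold metM
  exact (metf_sum_le (Finset.range M) _ (fun j (q : EE n × EE n) => hcon (F j q.1) (Hs j k q.2))
    fun j _ => metd_term_memLp hη (hF j) k κ').1

theorem metd_metM_memLp {η : EE n → ℝ} (hη : SPD η) (h : ℝ) (M k : ℕ) {F : CoefFam n ι}
    (hF : ∀ j, IsTestV (F j)) :
    MemLp (fun p : EE n × EE n × EE n => metM h M k F p.1 p.2.1) 2 (metLaw η h k) := by
  have h1 := metd_metM_memLp_prod hη h M k hF (k : ℝ)
  rw [← metLaw_fst hη h k] at h1
  exact h1.comp_of_map (by fun_prop)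

/-- the difference between `F_0(Y_k)` and its approximation -/
noncomputable def metDl (h : ℝ) (M k : ℕ) (F : CoefFam n ι) (p : EE n × EE n × EE n) : EuclideanSpace ℝ ι :=
  hc0 (F 0 p.2.2) - metM h M k F p.1 p.2.1

theorem metDist_eq (η : EE n → ℝ) (h : ℝ) (M k : ℕ) (F : CoefFam n ι) :
    metDist η h M k F = Real.sqrt (∫ p, ‖metDl h M k F p‖ ^ 2 ∂(metLaw η h k)) := rfl

theorem metd_metDl_memLp {η : EE n → ℝ} (hη : SPD η) (h : ℝ) (M k : ℕ) {F : CoefFam n ι}
    (hF : ∀ j, IsTestV (F j)) : MemLp (metDl h M k F) 2 (metLaw η h k) := by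
  have := metLaw_prob hη h k
  have hφ := hc0_test (hF 0)
  exact (metd_bdd_memLp hφ.1.continuous (metf_test_bdd hφ) (metLaw η h k)
    (π := fun p : EE n × EE n × EE n => p.2.2) (by fun_prop)).sub (metd_metM_memLp hη h M k hF)

/-- transfer of integrals of functions of `Y_k` -/
theorem metd_integral_snd {η : EE n → ℝ} (hη : SPD η) {h : ℝ} (hh : 0 ≤ h) (k : ℕ) {f : EE n → ℝ}
    (hf : Continuous f) : ∫ p, f p.2.2 ∂(metLaw η h k) = ∫ y, f y ∂(dm η) := by
  rw [← metLaw_snd hη hh k, integral_map (by fun_prop) hf.aestronglyMeasurable]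

end fields

section E
variable {n : ℕ} {ι : Type} [Fintype ι]

theorem metd_sub_le {α : Type} [MeasurableSpace α] {μ : Measure α} {V : Type} [NormedAddCommGroup V]
    {f g : α → V} (hf : MemLp f 2 μ) (hg : MemLp g 2 μ) :
    Real.sqrt (∫ x, ‖f x - g x‖ ^ 2 ∂μ)
      ≤ Real.sqrt (∫ x, ‖f x‖ ^ 2 ∂μ) + Real.sqrt (∫ x, ‖g x‖ ^ 2 ∂μ) := by
  have h := metf_add_le hf hg.neg
  simpa only [Pi.neg_apply, norm_neg, ← sub_eq_add_neg] using h

theorem metd_err_memLp {η : EE n → ℝ} (hη : SPD η) (h : ℝ) {φ : EE n → EuclideanSpace ℝ ι}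
    (hφ : IsTestV φ) {Ω₁ : Type} [MeasurableSpace Ω₁] (μ : Measure Ω₁) [IsProbabilityMeasure μ]
    {π : Ω₁ → EE n} (hπ : Measurable π) :
    MemLp (fun q : Ω₁ × (EE n × ℝ) => metErr η h φ (π q.1) q.2) 2 (μ.prod (metNu n)) := by
  unfold metErr
  have t1 : MemLp (fun q : Ω₁ × (EE n × ℝ) => φ (metStep η h (π q.1) q.2)) 2 (μ.prod (metNu n)) :=
    metd_bdd_memLp hφ.1.continuous (metf_test_bdd hφ) _
      ((met_step_measurable hη h).comp
        (by fun_prop : Measurable fun q : Ω₁ × (EE n × ℝ) => (π q.1, q.2)))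
  have t2 : MemLp (fun q : Ω₁ × (EE n × ℝ) => φ (π q.1)) 2 (μ.prod (metNu n)) :=
    metd_bdd_memLp hφ.1.continuous (metf_test_bdd hφ) _ (hπ.comp measurable_fst)
  have t3 : MemLp (fun q : Ω₁ × (EE n × ℝ) => fderiv ℝ φ (π q.1) q.2.1) 2 (μ.prod (metNu n)) := by
    simp only [metd_fderiv_apv]
    exact metd_apv_memLp (C := fun p => fD φ (π p))
      (metd_bdd_memLp (metd_fD_continuous hφ) (metd_fD_bdd hφ) μ hπ)
  have hA := s5k_opA_test hη hφ
  have t4 : MemLp (fun q : Ω₁ × (EE n × ℝ) => opA η φ (π q.1)) 2 (μ.prod (metNu n)) :=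
    metd_bdd_memLp hA.1.continuous (metf_test_bdd hA) _ (hπ.comp measurable_fst)
  have t12 : MemLp (fun q : Ω₁ × (EE n × ℝ) => φ (metStep η h (π q.1) q.2) - φ (π q.1)) 2
      (μ.prod (metNu n)) := t1.sub t2
  have t3' : MemLp (fun q : Ω₁ × (EE n × ℝ) => Real.sqrt (2 * h) • fderiv ℝ φ (π q.1) q.2.1) 2
      (μ.prod (metNu n)) := t3.const_smul (Real.sqrt (2 * h))
  have t4' : MemLp (fun q : Ω₁ × (EE n × ℝ) => h • opA η φ (π q.1)) 2 (μ.prod (metNu n)) :=
    t4.const_smul h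
  have t123 : MemLp (fun q : Ω₁ × (EE n × ℝ) => φ (metStep η h (π q.1) q.2) - φ (π q.1)
      - Real.sqrt (2 * h) • fderiv ℝ φ (π q.1) q.2.1) 2 (μ.prod (metNu n)) := t12.sub t3'
  exact t123.add t4'

theorem metd_metX_memLp {η : EE n → ℝ} (hη : SPD η) (h : ℝ) (M k : ℕ) {F : CoefFam n ι}
    (hF : ∀ j, IsTestV (F j)) :
    MemLp (fun q : (EE n × EE n × EE n) × (EE n × ℝ) => metX h M k F q.1.1 q.1.2.1 q.2.1) 2
      ((metLaw η h k).prod (metNu n)) := by
  have := metLaw_prob hη h k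
  unfold metX
  have t0 : MemLp (fun p : EE n × EE n × EE n => metM h (M + 1) (k + 1) F p.1 p.2.1) 2
      (((metLaw η h k).prod (metNu n)).map
        (fun p => (p.1.1, p.1.2.1 + p.2.1, metStep η h p.1.2.2 p.2))) :=
    metd_metM_memLp hη h (M + 1) (k + 1) hF
  have t1 : MemLp (fun q : (EE n × EE n × EE n) × (EE n × ℝ) =>
      metM h (M + 1) (k + 1) F q.1.1 (q.1.2.1 + q.2.1)) 2 ((metLaw η h k).prod (metNu n)) :=
    t0.comp_of_map (met_next_measurable hη h).aemeasurable
  have t2 : MemLp (fun q : (EE n × EE n × EE n) × (EE n × ℝ) =>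
      (1 - h) • metM h (M + 1) k F q.1.1 q.1.2.1) 2 ((metLaw η h k).prod (metNu n)) :=
    ((metd_metM_memLp hη h (M + 1) k hF).comp_fst (metNu n)).const_smul (1 - h)
  have t3 : MemLp (fun q : (EE n × EE n × EE n) × (EE n × ℝ) =>
      Real.sqrt (2 * h) • apv (metM h M k (shiftF F) q.1.1 q.1.2.1) q.2.1) 2
      ((metLaw η h k).prod (metNu n)) :=
    (metd_apv_memLp (μ := metLaw η h k) (C := fun p => metM h M k (shiftF F) p.1 p.2.1)
      (metd_metM_memLp hη h M k (shiftF_test hF))).const_smul (Real.sqrt (2 * h))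
  have t12 : MemLp (fun q : (EE n × EE n × EE n) × (EE n × ℝ) =>
      metM h (M + 1) (k + 1) F q.1.1 (q.1.2.1 + q.2.1) - (1 - h) • metM h (M + 1) k F q.1.1 q.1.2.1) 2
      ((metLaw η h k).prod (metNu n)) := t1.sub t2
  exact t12.sub t3

theorem metd_metX_continuous (h : ℝ) (M k : ℕ) {F : CoefFam n ι} (hF : ∀ j, IsTestV (F j)) :
    Continuous fun r : (EE n × EE n) × EE n => metX h M k F r.1.1 r.1.2 r.2 := by
  unfold metX
  have c1 : Continuous fun r : (EE n × EE n) × EE n => metM h (M + 1) (k + 1) F r.1.1 (r.1.2 + r.2) :=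
    (metd_metM_continuous h (M + 1) (k + 1) hF).comp
      (f := fun r : (EE n × EE n) × EE n => (r.1.1, r.1.2 + r.2))
      ((continuous_fst.comp continuous_fst).prodMk ((continuous_snd.comp continuous_fst).add continuous_snd))
  have c2 : Continuous fun r : (EE n × EE n) × EE n => metM h (M + 1) k F r.1.1 r.1.2 :=
    (metd_metM_continuous h (M + 1) k hF).comp (f := fun r : (EE n × EE n) × EE n => r.1) continuous_fst
  have c3 : Continuous fun r : (EE n × EE n) × EE n => apv (metM h M k (shiftF F) r.1.1 r.1.2) r.2 :=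
    metd_apv_continuous ((metd_metM_continuous h M k (shiftF_test hF)).comp
      (f := fun r : (EE n × EE n) × EE n => r.1) continuous_fst) continuous_snd
  have c2' : Continuous fun r : (EE n × EE n) × EE n => (1 - h) • metM h (M + 1) k F r.1.1 r.1.2 :=
    c2.fun_const_smul _
  have c3' : Continuous fun r : (EE n × EE n) × EE n =>
      Real.sqrt (2 * h) • apv (metM h M k (shiftF F) r.1.1 r.1.2) r.2 := c3.fun_const_smul _
  exact (c1.sub c2').sub c3'

theorem metd_metX_integral {η : EE n → ℝ} (hη : SPD η) (h : ℝ) (M k : ℕ) {F : CoefFam n ι}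
    (hF : ∀ j, IsTestV (F j)) :
    ∫ q, ‖metX h M k F q.1.1 q.1.2.1 q.2.1‖ ^ 2 ∂((metLaw η h k).prod (metNu n))
      = ∫ q, (∫ g, ‖metX h M k F q.1 q.2 g‖ ^ 2 ∂(stdGaussian (EE n))) ∂((dm η).prod (gaussK n k)) := by
  have := metLaw_prob hη h k
  rw [integral_prod _ (metd_integrable_sq (metd_metX_memLp hη h M k hF))]
  have h1 : ∀ p : EE n × EE n × EE n, ∫ z, ‖metX h M k F p.1 p.2.1 z.1‖ ^ 2 ∂(metNu n)
      = ∫ g, ‖metX h M k F p.1 p.2.1 g‖ ^ 2 ∂(stdGaussian (EE n)) := fun p =>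
    metd_integral_nu (fun g => ‖metX h M k F p.1 p.2.1 g‖ ^ 2)
  simp only [h1]
  rw [← metLaw_fst hη h k, integral_map (by fun_prop)]
  exact (((metd_metX_continuous h M k hF).norm.pow 2).stronglyMeasurable.integral_prod_right
    (ν := stdGaussian (EE n))).aestronglyMeasurable

end E

section G
variable {n : ℕ} {ι : Type} [Fintype ι]

theorem metd_dfA (η : EE n → ℝ) {F : CoefFam n ι} (hF : ∀ j, IsTestV (F j)) :
    ∫ y, ‖hc0 (F 0 y) - opA η (fun y => hc0 (F 0 y)) y‖ ^ 2 ∂(dm η) = dfA η F 0 := by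
  unfold dfA nSq
  refine integral_congr_ae (ae_of_all _ fun y => ?_)
  have h1 : opA η (fun y => hc0 (F 0 y)) y = hc0 (opA η (F 0) y) := by
    simp only [← hc0CL_apply]
    exact s5k_opA_clm η (hc0CL n ι) ((hF 0).1.of_le (by norm_cast)) y
  have h2 : hc0 (F 0 y) - hc0 (opA η (F 0) y) = hc0 (F 0 y - opA η (F 0) y) := by
    simp only [← hc0CL_apply]
    exact (map_sub (hc0CL n ι) _ _).symm
  simp only [h1, h2, hc0_norm]
  rw [norm_sub_rev]

theorem metd_snoc_elim0 (i : Fin n) :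
    (Fin.snoc (fun r : Fin 0 => r.elim0) i : Idx n 1) = Fin.cons i (fun r : Fin 0 => r.elim0) := by
  funext r
  have : r = 0 := Fin.fin_one_eq_zero r
  subst this
  rfl

theorem metd_dfD (η : EE n → ℝ) {F : CoefFam n ι} (hF : ∀ j, IsTestV (F j)) :
    ∫ y, ‖fD (fun y => hc0 (F 0 y)) y - hc0 (shiftF F 0 y)‖ ^ 2 ∂(dm η) = dfD η F 0 := by
  unfold dfD
  refine integral_congr_ae (ae_of_all _ fun y => ?_)
  change ‖fD (fun y => hc0 (F 0 y)) y - hc0 (shiftF F 0 y)‖ ^ 2 = _
  rw [EuclideanSpace.real_norm_sq_eq, Fintype.sum_prod_type, Finset.sum_comm]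
  refine Finset.sum_congr rfl fun i _ => ?_
  rw [Fintype.sum_prod_type]
  refine Finset.sum_congr rfl fun a _ => ?_
  rw [Fintype.sum_unique]
  have hd : (default : Idx n 0) = fun r => r.elim0 := Subsingleton.elim _ _
  have h1 : dI i (fun y => hc0 (F 0 y)) y = hc0 (dI i (F 0) y) := by
    simp only [← hc0CL_apply]
    exact s5k_dI_clm (hc0CL n ι) (((hF 0).1.differentiable (by simp)) y) i
  rw [hd, PiLp.sub_apply]
  change (dI i (fun y => hc0 (F 0 y)) y a - F 1 y (a, Fin.cons i fun r : Fin 0 => r.elim0)) ^ 2 = _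
  rw [h1, hc0_apply]
  simp only [metd_snoc_elim0]

end G

section D
variable {n : ℕ} {ι : Type} [Fintype ι]

theorem metDist_nonneg (η : EE n → ℝ) (h : ℝ) (M k : ℕ) (F : CoefFam n ι) :
    0 ≤ metDist η h M k F := Real.sqrt_nonneg _

/-- no term: stationarity -/
theorem metDist_zero_terms {η : EE n → ℝ} (hη : SPD η) {h : ℝ} (hh : 0 ≤ h) (k : ℕ)
    (F : CoefFam n ι) (hF : ∀ j, IsTestV (F j)) :
    metDist η h 0 k F = Real.sqrt (nSq η (F 0)) := by
  unfold metDist nSq
  congr 1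
  have h1 : ∀ p : EE n × EE n × EE n, ‖hc0 (F 0 p.2.2) - metM h 0 k F p.1 p.2.1‖ ^ 2
      = (fun y => ‖F 0 y‖ ^ 2) p.2.2 := by
    intro p
    simp [metM, hc0_norm]
  simp only [h1]
  exact metd_integral_snd hη hh k (f := fun y => ‖F 0 y‖ ^ 2) ((hF 0).1.continuous.norm.pow 2)

theorem hcon_Hs_zero (c : EuclideanSpace ℝ (ι × Idx n 0)) (κ : ℝ) (s : EE n) :
    hcon c (Hs 0 κ s) = hc0 c := by
  ext a
  rw [hcon_apply, hc0_apply, Fintype.sum_unique, Hs_zero, mul_one]
  have : (default : Idx n 0) = fun r => r.elim0 := Subsingleton.elim _ _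
  rw [this]

theorem hcon_zero_right {j : ℕ} (c : EuclideanSpace ℝ (ι × Idx n j)) : hcon c 0 = 0 := by
  ext a
  rw [hcon_apply]
  simp

theorem metM_time_zero (h : ℝ) (M : ℕ) (F : CoefFam n ι) (y : EE n) :
    metM h (M + 1) 0 F y 0 = hc0 (F 0 y) := by
  unfold metM
  rw [Finset.sum_range_succ']
  simp only [Nat.cast_zero, Hs_at_zero, hcon_zero_right, smul_zero, Finset.sum_const_zero, zero_add,
    hcon_Hs_zero]
  simp

/-- time `0` -/
theorem metDist_time_zero {η : EE n → ℝ} (_hη : SPD η) (h : ℝ) (M : ℕ) (F : CoefFam n ι) :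
    metDist η h (M + 1) 0 F = 0 := by
  unfold metDist
  have h0 : ∀ᵐ p ∂(metLaw η h 0), p.2.1 = 0 ∧ p.1 = p.2.2 := by
    change ∀ᵐ p ∂((dm η).map (fun y => ((y, 0, y) : EE n × EE n × EE n))), p.2.1 = 0 ∧ p.1 = p.2.2
    rw [ae_map_iff (by fun_prop)]
    · exact ae_of_all _ fun y => ⟨rfl, rfl⟩
    · exact (measurableSet_eq_fun (by fun_prop) (by fun_prop)).inter
        (measurableSet_eq_fun (by fun_prop) (by fun_prop))
  rw [integral_eq_zero_of_ae, Real.sqrt_zero]
  filter_upwards [h0] with p hp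
  rw [hp.1, hp.2, metM_time_zero]
  simp

end D

section H
variable {n : ℕ} {ι : Type} [Fintype ι]

theorem met_one_step_aux {η : EE n → ℝ} (hη : SPD η) {h : ℝ} (hh : 0 < h) (hh1 : h ≤ 1 / 2)
    (M k : ℕ) (F : CoefFam n ι) (hF : ∀ j, IsTestV (F j))
    (hXm : ∀ y0 s : EE n, ∫ g, metX h M k F y0 s g ∂(stdGaussian (EE n)) = 0)
    {ε E : ℝ} (hε : 0 ≤ ε) (hE : 0 ≤ E)
    (hmean : ∀ y, ‖∫ z, metErr η h (fun y => hc0 (F 0 y)) y z ∂(metNu n)‖ ≤ ε * h)
    (hsq : ∀ y, ∫ z, ‖metErr η h (fun y => hc0 (F 0 y)) y z‖ ^ 2 ∂(metNu n) ≤ ε ^ 2 * (2 * h))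
    (hX : ∫ q, (∫ g, ‖metX h M k F q.1 q.2 g‖ ^ 2 ∂(stdGaussian (EE n)))
        ∂((dm η).prod (gaussK n k)) ≤ (h * E) ^ 2) :
    metDist η h (M + 1) (k + 1) F ^ 2 ≤
      (metDist η h (M + 1) k F + h * (Real.sqrt (dfA η F 0) + ε)) ^ 2
      + 2 * h * (metDist η h M k (shiftF F) + (Real.sqrt (dfD η F 0) + ε
          + Real.sqrt (h / 2) * E)) ^ 2 := by
  have hprob := metLaw_prob hη h k
  have hφ : IsTestV (fun y => hc0 (F 0 y)) := hc0_test (hF 0)
  have hφ' : IsTestV (fun y => hc0 (shiftF F 0 y)) := hc0_test (shiftF_test hF 0)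
  have hAφ := s5k_opA_test hη hφ
  have hπ : Measurable fun p : EE n × EE n × EE n => p.2.2 := by fun_prop
  -- the pieces
  have mΔ := metd_metDl_memLp hη h (M + 1) k hF
  have mΔ' := metd_metDl_memLp hη h M k (shiftF_test hF)
  have mR : MemLp (fun p : EE n × EE n × EE n =>
      hc0 (F 0 p.2.2) - opA η (fun y => hc0 (F 0 y)) p.2.2) 2 (metLaw η h k) :=
    (metd_bdd_memLp hφ.1.continuous (metf_test_bdd hφ) _ hπ).sub
      (metd_bdd_memLp hAφ.1.continuous (metf_test_bdd hAφ) _ hπ)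
  have mS : MemLp (fun p : EE n × EE n × EE n =>
      fD (fun y => hc0 (F 0 y)) p.2.2 - hc0 (shiftF F 0 p.2.2)) 2 (metLaw η h k) :=
    (metd_bdd_memLp (metd_fD_continuous hφ) (metd_fD_bdd hφ) _ hπ).sub
      (metd_bdd_memLp hφ'.1.continuous (metf_test_bdd hφ') _ hπ)
  have mA1 : MemLp (fun p : EE n × EE n × EE n => (1 - h) • metDl h (M + 1) k F p) 2 (metLaw η h k) :=
    mΔ.const_smul (1 - h)
  have mA2 : MemLp (fun p : EE n × EE n × EE n =>
      h • (hc0 (F 0 p.2.2) - opA η (fun y => hc0 (F 0 y)) p.2.2)) 2 (metLaw η h k) := mR.const_smul h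
  have mA : MemLp (fun p : EE n × EE n × EE n => (1 - h) • metDl h (M + 1) k F p
      + h • (hc0 (F 0 p.2.2) - opA η (fun y => hc0 (F 0 y)) p.2.2)) 2 (metLaw η h k) := mA1.add mA2
  have mC : MemLp (fun p : EE n × EE n × EE n => metDl h M k (shiftF F) p
      + (fD (fun y => hc0 (F 0 y)) p.2.2 - hc0 (shiftF F 0 p.2.2))) 2 (metLaw η h k) := mΔ'.add mS
  have mB1 := metd_apv_memLp mC
  have mB1' : MemLp (fun q : (EE n × EE n × EE n) × (EE n × ℝ) => Real.sqrt (2 * h) •
      apv (metDl h M k (shiftF F) q.1 + (fD (fun y => hc0 (F 0 y)) q.1.2.2 - hc0 (shiftF F 0 q.1.2.2)))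
        q.2.1) 2 ((metLaw η h k).prod (metNu n)) := mB1.const_smul (Real.sqrt (2 * h))
  have mB2 := metd_err_memLp hη h hφ (metLaw η h k) hπ
  have mB3 := metd_metX_memLp hη h M k hF
  have mB12 : MemLp (fun q : (EE n × EE n × EE n) × (EE n × ℝ) => Real.sqrt (2 * h) •
      apv (metDl h M k (shiftF F) q.1 + (fD (fun y => hc0 (F 0 y)) q.1.2.2 - hc0 (shiftF F 0 q.1.2.2)))
        q.2.1 + metErr η h (fun y => hc0 (F 0 y)) q.1.2.2 q.2) 2 ((metLaw η h k).prod (metNu n)) :=
    mB1'.add mB2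
  have mB : MemLp (fun q : (EE n × EE n × EE n) × (EE n × ℝ) => Real.sqrt (2 * h) •
      apv (metDl h M k (shiftF F) q.1 + (fD (fun y => hc0 (F 0 y)) q.1.2.2 - hc0 (shiftF F 0 q.1.2.2)))
        q.2.1 + metErr η h (fun y => hc0 (F 0 y)) q.1.2.2 q.2 - metX h M k F q.1.1 q.1.2.1 q.2.1) 2
      ((metLaw η h k).prod (metNu n)) := mB12.sub mB3
  -- the identity
  have hid : ∀ q : (EE n × EE n × EE n) × (EE n × ℝ),
      metDl h (M + 1) (k + 1) F (q.1.1, q.1.2.1 + q.2.1, metStep η h q.1.2.2 q.2)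
      = ((1 - h) • metDl h (M + 1) k F q.1
          + h • (hc0 (F 0 q.1.2.2) - opA η (fun y => hc0 (F 0 y)) q.1.2.2))
        + (Real.sqrt (2 * h) • apv (metDl h M k (shiftF F) q.1
            + (fD (fun y => hc0 (F 0 y)) q.1.2.2 - hc0 (shiftF F 0 q.1.2.2))) q.2.1
          + metErr η h (fun y => hc0 (F 0 y)) q.1.2.2 q.2 - metX h M k F q.1.1 q.1.2.1 q.2.1) := by
    intro q
    simp only [metDl, metErr, metX, apv_add_left, apv_sub_left, metd_fderiv_apv]
    module
  -- the left side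
  have hL : metDist η h (M + 1) (k + 1) F ^ 2
      = ∫ q, ‖metDl h (M + 1) (k + 1) F (q.1.1, q.1.2.1 + q.2.1, metStep η h q.1.2.2 q.2)‖ ^ 2
          ∂((metLaw η h k).prod (metNu n)) := by
    rw [metDist_eq, Real.sq_sqrt (integral_nonneg fun _ => by positivity)]
    change ∫ p, ‖metDl h (M + 1) (k + 1) F p‖ ^ 2 ∂(((metLaw η h k).prod (metNu n)).map
        (fun p => (p.1.1, p.1.2.1 + p.2.1, metStep η h p.1.2.2 p.2))) = _
    rw [integral_map (met_next_measurable hη h).aemeasurable]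
    exact ((metd_metDl_memLp hη h (M + 1) (k + 1) hF).1.norm.pow 2)
  -- conditional mean
  have hm : ∀ᵐ p ∂(metLaw η h k), ‖∫ z, (Real.sqrt (2 * h) • apv (metDl h M k (shiftF F) p
            + (fD (fun y => hc0 (F 0 y)) p.2.2 - hc0 (shiftF F 0 p.2.2))) z.1
          + metErr η h (fun y => hc0 (F 0 y)) p.2.2 z - metX h M k F p.1 p.2.1 z.1) ∂(metNu n)‖
        ≤ ε * h := by
    filter_upwards [(mB1'.integrable (by norm_num)).prod_right_ae,
      (mB2.integrable (by norm_num)).prod_right_ae, (mB3.integrable (by norm_num)).prod_right_ae]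
      with p i1 i2 i3
    have i12 : Integrable (fun z : EE n × ℝ => Real.sqrt (2 * h) • apv (metDl h M k (shiftF F) p
            + (fD (fun y => hc0 (F 0 y)) p.2.2 - hc0 (shiftF F 0 p.2.2))) z.1
          + metErr η h (fun y => hc0 (F 0 y)) p.2.2 z) (metNu n) := i1.add i2
    rw [integral_sub i12 i3, integral_add i1 i2, integral_smul, metd_apv_mean, smul_zero,
      zero_add, metd_integral_nu (fun g => metX h M k F p.1 p.2.1 g), hXm, sub_zero]
    exact hmean _
  have key := metd_abstract (metLaw η h k) (metNu n) mA mB (mul_nonneg hε hh.le) hm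
  simp only [← hid] at key
  rw [← hL] at key
  -- the norm of the predictable part
  have h1h : 0 ≤ 1 - h := by linarith
  have hd := metDist_nonneg η h (M + 1) k F
  have hd' := metDist_nonneg η h M k (shiftF F)
  have NA : Real.sqrt (∫ p, ‖(1 - h) • metDl h (M + 1) k F p
      + h • (hc0 (F 0 p.2.2) - opA η (fun y => hc0 (F 0 y)) p.2.2)‖ ^ 2 ∂(metLaw η h k))
      ≤ metDist η h (M + 1) k F + h * Real.sqrt (dfA η F 0) := by
    refine (metf_add_le mA1 mA2).trans ?_
    rw [metf_smul, metf_smul, abs_of_nonneg h1h, abs_of_pos hh, ← metDist_eq,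
      metd_integral_snd hη hh.le k
        (f := fun y => ‖hc0 (F 0 y) - opA η (fun y => hc0 (F 0 y)) y‖ ^ 2)
        ((hφ.1.continuous.sub hAφ.1.continuous).norm.pow 2), metd_dfA η hF]
    nlinarith
  -- the norm of the innovation
  have NC : Real.sqrt (∫ p, ‖metDl h M k (shiftF F) p
      + (fD (fun y => hc0 (F 0 y)) p.2.2 - hc0 (shiftF F 0 p.2.2))‖ ^ 2 ∂(metLaw η h k))
      ≤ metDist η h M k (shiftF F) + Real.sqrt (dfD η F 0) := by
    refine (metf_add_le mΔ' mS).trans ?_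
    rw [← metDist_eq, metd_integral_snd hη hh.le k
        (f := fun y => ‖fD (fun y => hc0 (F 0 y)) y - hc0 (shiftF F 0 y)‖ ^ 2)
        (((metd_fD_continuous hφ).sub hφ'.1.continuous).norm.pow 2), metd_dfD η hF]
  have NE : Real.sqrt (∫ q, ‖metErr η h (fun y => hc0 (F 0 y)) q.1.2.2 q.2‖ ^ 2
      ∂((metLaw η h k).prod (metNu n))) ≤ ε * Real.sqrt (2 * h) := by
    have e1 : ∫ q, ‖metErr η h (fun y => hc0 (F 0 y)) q.1.2.2 q.2‖ ^ 2
        ∂((metLaw η h k).prod (metNu n)) ≤ ε ^ 2 * (2 * h) := by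
      rw [integral_prod _ (metd_integrable_sq mB2)]
      calc ∫ p, ∫ z, ‖metErr η h (fun y => hc0 (F 0 y)) p.2.2 z‖ ^ 2 ∂(metNu n) ∂(metLaw η h k)
          ≤ ∫ _p, ε ^ 2 * (2 * h) ∂(metLaw η h k) :=
            integral_mono (metd_integrable_sq mB2).integral_prod_left (integrable_const _)
              fun p => hsq p.2.2
        _ = ε ^ 2 * (2 * h) := by simp
    calc _ ≤ Real.sqrt (ε ^ 2 * (2 * h)) := Real.sqrt_le_sqrt e1
      _ = ε * Real.sqrt (2 * h) := by rw [Real.sqrt_mul (sq_nonneg ε), Real.sqrt_sq hε]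
  have NX : Real.sqrt (∫ q, ‖metX h M k F q.1.1 q.1.2.1 q.2.1‖ ^ 2
      ∂((metLaw η h k).prod (metNu n))) ≤ h * E := by
    rw [metd_metX_integral hη h M k hF]
    calc _ ≤ Real.sqrt ((h * E) ^ 2) := Real.sqrt_le_sqrt hX
      _ = h * E := Real.sqrt_sq (mul_nonneg hh.le hE)
  have hs2 : Real.sqrt (2 * h) * Real.sqrt (h / 2) = h := by
    rw [← Real.sqrt_mul (by positivity)]
    have : 2 * h * (h / 2) = h ^ 2 := by ring
    rw [this, Real.sqrt_sq hh.le]
  have hs0 := Real.sqrt_nonneg (2 * h)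
  have NB : Real.sqrt (∫ q, ‖Real.sqrt (2 * h) • apv (metDl h M k (shiftF F) q.1
            + (fD (fun y => hc0 (F 0 y)) q.1.2.2 - hc0 (shiftF F 0 q.1.2.2))) q.2.1
          + metErr η h (fun y => hc0 (F 0 y)) q.1.2.2 q.2 - metX h M k F q.1.1 q.1.2.1 q.2.1‖ ^ 2
          ∂((metLaw η h k).prod (metNu n)))
      ≤ Real.sqrt (2 * h) * (metDist η h M k (shiftF F) + (Real.sqrt (dfD η F 0) + ε
          + Real.sqrt (h / 2) * E)) := by
    refine (metd_sub_le mB12 mB3).trans ?_
    have b1 := metf_add_le mB1' mB2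
    rw [metf_smul, abs_of_nonneg hs0, metd_apv_integral mC] at b1
    have b2 := mul_le_mul_of_nonneg_left NC hs0
    have b3 : Real.sqrt (2 * h) * (Real.sqrt (h / 2) * E) = h * E := by rw [← mul_assoc, hs2]
    nlinarith
  have hB2 : ∫ q, ‖Real.sqrt (2 * h) • apv (metDl h M k (shiftF F) q.1
            + (fD (fun y => hc0 (F 0 y)) q.1.2.2 - hc0 (shiftF F 0 q.1.2.2))) q.2.1
          + metErr η h (fun y => hc0 (F 0 y)) q.1.2.2 q.2 - metX h M k F q.1.1 q.1.2.1 q.2.1‖ ^ 2
          ∂((metLaw η h k).prod (metNu n))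
      ≤ 2 * h * (metDist η h M k (shiftF F) + (Real.sqrt (dfD η F 0) + ε
          + Real.sqrt (h / 2) * E)) ^ 2 := by
    have q1 := pow_le_pow_left₀ (Real.sqrt_nonneg _) NB 2
    rw [Real.sq_sqrt (integral_nonneg fun _ => by positivity), mul_pow,
      Real.sq_sqrt (by positivity)] at q1
    exact q1
  have hA2 : (Real.sqrt (∫ p, ‖(1 - h) • metDl h (M + 1) k F p
      + h • (hc0 (F 0 p.2.2) - opA η (fun y => hc0 (F 0 y)) p.2.2)‖ ^ 2 ∂(metLaw η h k)) + ε * h) ^ 2
      ≤ (metDist η h (M + 1) k F + h * (Real.sqrt (dfA η F 0) + ε)) ^ 2 := by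
    refine pow_le_pow_left₀ (add_nonneg (Real.sqrt_nonneg _) (mul_nonneg hε hh.le)) ?_ 2
    linarith
  linarith

/-- THE ONE-STEP INEQUALITY.  With `Δ_k = F_0(Y_k) - metM (M+1) k`, `Δ'_k` the same for the shifted
family with `M` terms:
`Δ_{k+1} = (1-h) Δ_k + √(2h) apv Δ'_k g + h (1-A)F_0(Y_k) + √(2h) (DF_0 g - apv F_1 g)(Y_k) + metErr - metX`;
the conditional mean given the past is `(1-h) Δ_k + h (1-A) F_0 + ∫ metErr`, the rest is centred. -/
theorem met_one_step {η : EE n → ℝ} (hη : SPD η) {h : ℝ} (hh : 0 < h) (hh1 : h ≤ 1 / 2)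
    (M k : ℕ) (F : CoefFam n ι) (hF : ∀ j, IsTestV (F j)) (hsym : ∀ j y, CoefSym (F j y))
    {ε E : ℝ} (hε : 0 ≤ ε) (hE : 0 ≤ E)
    (hmean : ∀ y, ‖∫ z, metErr η h (fun y => hc0 (F 0 y)) y z ∂(metNu n)‖ ≤ ε * h)
    (hsq : ∀ y, ∫ z, ‖metErr η h (fun y => hc0 (F 0 y)) y z‖ ^ 2 ∂(metNu n) ≤ ε ^ 2 * (2 * h))
    (hX : ∫ q, (∫ g, ‖metX h M k F q.1 q.2 g‖ ^ 2 ∂(stdGaussian (EE n)))
        ∂((dm η).prod (gaussK n k)) ≤ (h * E) ^ 2) :
    metDist η h (M + 1) (k + 1) F ^ 2 ≤
      (metDist η h (M + 1) k F + h * (Real.sqrt (dfA η F 0) + ε)) ^ 2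
      + 2 * h * (metDist η h M k (shiftF F) + (Real.sqrt (dfD η F 0) + ε
          + Real.sqrt (h / 2) * E)) ^ 2 :=
  met_one_step_aux hη hh hh1 M k F hF (metX_mean h M k F hsym) hε hE hmean hsq hX

end H

end Claimed.Agent.R259
end

/- ===== packed: Claimed.Agent.R259.MetLeaves ===== -/
section
/-
Row 259 (S0499), kit MET: exact statements of the leaves.  Owner of the blueprint: helper115.
Each block `A`-`E` is ONE package for one prover (move the block to its own file `Met<Block>.lean`,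
keep names and statements, and let this file import it).
-/
set_option autoImplicit false

open MeasureTheory ProbabilityTheory
open scoped ContDiff BigOperators

namespace Claimed.Agent.R259

variable {n : ℕ}

/-! ## Block A: the chain (stationarity, marginals): PROVED in `MetA.lean` (helper268) -/

/-! ## Block B: the one-step Taylor estimate: PROVED in `MetB.lean` (helper236) -/

/-! ## Block C: space-time Hermite tensors: PROVED in `MetC.lean` (helper268) -/

/-! ## Block X: the higher chaos part of one step: PROVED in `MetX.lean` (helper268) -/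

/-! ## Block S: the shifted family: PROVED in `MetS.lean` (helper170) -/


/-! ## Block D: one step in `L²`: PROVED in `MetD.lean` (helper170) -/


/-! ## Block E: the scalar recursion: PROVED in `MetE.lean` (`met_scalar`) -/

/-! ## Block F: PROVED in `MetF.lean` (helper115) -/

end Claimed.Agent.R259
end

/- ===== packed: Claimed.Agent.R259.MetMain ===== -/
section
/-
Row 259 (S0499), kit MET: glue.  The discrete stochastic Taylor expansion (`met_main`) and the
EXPORT `met_expansion` = Lemma 5.5 of the paper for the Metropolis coupling `metPi η t K`.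
Owner: helper115.
-/
set_option autoImplicit false

open MeasureTheory ProbabilityTheory
open scoped ContDiff BigOperators

namespace Claimed.Agent.R259

variable {n : ℕ}

theorem metC_nonneg (t : ℝ) : 0 ≤ metC t := Real.sqrt_nonneg _

theorem metC_pos {t : ℝ} (ht : 0 < t) : 0 < metC t := by
  unfold metC
  apply Real.sqrt_pos.2
  have : 1 < Real.exp t := by simpa using Real.exp_lt_exp.2 ht
  linarith

theorem metDef_succ {ι : Type} [Fintype ι] (η : EE n → ℝ) (t ε : ℝ) (M : ℕ) {F : CoefFam n ι}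
    (hF : ∀ j, IsTestV (F j)) :
    metDef η t ε (M + 1) F
      = metC t * (Real.sqrt (dfA η F 0) + Real.sqrt (dfD η F 0) + ε + metDef η t ε M (shiftF F)) := by
  unfold metDef
  rw [Finset.sum_range_succ']
  simp only [shiftF_dfA η hF, shiftF_dfD η hF]
  have h1 : metC t * ∑ j ∈ Finset.range M, metC t ^ (j + 1)
        * (Real.sqrt (dfA η F (j + 1)) + Real.sqrt (dfD η F (j + 1)) + ε)
      = ∑ j ∈ Finset.range M, metC t ^ (j + 1 + 1)
        * (Real.sqrt (dfA η F (j + 1)) + Real.sqrt (dfD η F (j + 1)) + ε) := by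
    rw [Finset.mul_sum]
    apply Finset.sum_congr rfl
    intro j _
    ring
  rw [mul_add (metC t), h1]
  ring

theorem metDef_nonneg {ι : Type} [Fintype ι] (η : EE n → ℝ) (t : ℝ) {ε : ℝ} (hε : 0 ≤ ε) (M : ℕ)
    (F : CoefFam n ι) : 0 ≤ metDef η t ε M F := by
  unfold metDef
  apply Finset.sum_nonneg
  intro j _
  have := metC_nonneg t
  have h1 := Real.sqrt_nonneg (dfA η F j)
  have h2 := Real.sqrt_nonneg (dfD η F j)
  positivity

/-- The discrete stochastic Taylor expansion with `M` terms. -/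
theorem met_main {η : EE n → ℝ} (hη : SPD η) {t : ℝ} (ht : 0 < t) (M : ℕ) :
    ∀ {ι : Type} [Fintype ι] (F : CoefFam n ι), (∀ j, IsTestV (F j)) →
      (∀ j y, CoefSym (F j y)) → ∀ ε > 0, ∃ h0 > 0, ∀ h, 0 < h → h < h0 → ∀ k : ℕ,
        (k : ℝ) * h ≤ t →
        metDist η h M k F ≤ Real.sqrt ((2 * h * k) ^ M / (M.factorial : ℝ))
          * Real.sqrt (nSq η (F M)) + metDef η t ε M F := by
  induction M with
  | zero =>
    intro ι _ F hF _ ε _
    refine ⟨1, one_pos, fun h hh _ k _ => ?_⟩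
    rw [metDist_zero_terms hη hh.le k F hF]
    simp [metDef]
  | succ M ih =>
    intro ι _ F hF hsym ε hε
    obtain ⟨h0', hh0', ih'⟩ := ih (shiftF F) (shiftF_test hF) (shiftF_sym hsym) ε hε
    have hφ : IsTestV (fun y => hc0 (F 0 y)) := hc0_test (hF 0)
    have hε4 : 0 < ε / 4 := by positivity
    obtain ⟨h1, hh1, hB1⟩ := met_err_mean hη hφ hε4
    obtain ⟨h2, hh2, hB2⟩ := met_err_sq hη hφ (ε := (ε / 4) ^ 2 * 2) (by positivity)
    obtain ⟨E, hE, hX⟩ := metX_norm hη ht M F hF hsym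
    have hE1 : 0 < E + 1 := by linarith
    set h3 : ℝ := 2 * (ε / (4 * (E + 1))) ^ 2 with hh3def
    have hh3 : 0 < h3 := by positivity
    refine ⟨min (min h0' h1) (min (min h2 h3) (1 / 2)), by positivity, ?_⟩
    intro h hh hlt
    have hl0 : h < h0' := lt_of_lt_of_le hlt ((min_le_left _ _).trans (min_le_left _ _))
    have hl1 : h < h1 := lt_of_lt_of_le hlt ((min_le_left _ _).trans (min_le_right _ _))
    have hl2 : h < h2 :=
      lt_of_lt_of_le hlt ((min_le_right _ _).trans ((min_le_left _ _).trans (min_le_left _ _)))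
    have hl3 : h < h3 :=
      lt_of_lt_of_le hlt ((min_le_right _ _).trans ((min_le_left _ _).trans (min_le_right _ _)))
    have hl4 : h ≤ 1 / 2 := (lt_of_lt_of_le hlt ((min_le_right _ _).trans (min_le_right _ _))).le
    -- the Hermite error is small
    have hsE : Real.sqrt (h / 2) * E ≤ ε / 4 := by
      have h5 : Real.sqrt (h / 2) ≤ ε / (4 * (E + 1)) := by
        apply Real.sqrt_le_iff.2
        refine ⟨by positivity, ?_⟩
        have : h / 2 < (ε / (4 * (E + 1))) ^ 2 := by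
          rw [hh3def] at hl3; linarith
        exact this.le
      calc Real.sqrt (h / 2) * E ≤ ε / (4 * (E + 1)) * E :=
            mul_le_mul_of_nonneg_right h5 hE
        _ ≤ ε / (4 * (E + 1)) * (E + 1) := by
            apply mul_le_mul_of_nonneg_left (by linarith) (by positivity)
        _ = ε / 4 := by field_simp
    have key := met_scalar ht hh (by linarith) M
      (X := Real.sqrt (nSq η (F (M + 1)))) (s' := metDef η t ε M (shiftF F))
      (σa := Real.sqrt (dfA η F 0) + ε / 4)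
      (σb := Real.sqrt (dfD η F 0) + ε / 4 + Real.sqrt (h / 2) * E)
      (Real.sqrt_nonneg _) (metDef_nonneg η t hε.le M _)
      (by have := Real.sqrt_nonneg (dfA η F 0); positivity)
      (by
        have := Real.sqrt_nonneg (dfD η F 0)
        have := Real.sqrt_nonneg (h / 2)
        positivity)
      (fun k => metDist η h (M + 1) k F) (fun k => metDist η h M k (shiftF F))
      (metDist_time_zero hη h M F) (fun k => metDist_nonneg _ _ _ _ _)
      (fun k => metDist_nonneg _ _ _ _ _)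
      (fun k hk => by
        have := ih' h hh hl0 k hk
        rwa [shiftF_nSq] at this)
      (fun k hk => by
        have h6 := met_one_step hη hh hl4 M k F hF hsym (ε := ε / 4) (E := E) hε4.le hE
          (fun y => hB1 h hh hl1 y)
          (fun y => by
            have := hB2 h hh hl2 y
            calc _ ≤ (ε / 4) ^ 2 * 2 * h := this
              _ = (ε / 4) ^ 2 * (2 * h) := by ring)
          (hX h k hh hl4 hk)
        exact h6)
    intro k hk
    have h7 := key k hk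
    rw [metDef_succ η t ε M hF]
    have hc := metC_nonneg t
    have h8 : metC t * (Real.sqrt (dfA η F 0) + ε / 4
        + (Real.sqrt (dfD η F 0) + ε / 4 + Real.sqrt (h / 2) * E) + metDef η t ε M (shiftF F))
        ≤ metC t * (Real.sqrt (dfA η F 0) + Real.sqrt (dfD η F 0) + ε
          + metDef η t ε M (shiftF F)) := by
      apply mul_le_mul_of_nonneg_left _ hc
      linarith
    linarith

/-- **EXPORT = Lemma 5.5** for the Metropolis coupling: for all large `K`,
`‖F_0(Y_t) - e^{-t} ∑_{j<M} (2t)^{j/2}/j! F_j(Y_0) : 𝔥_j(N)‖_{L²} ≤ √((2t)^M/M!) ‖F_M‖ + ∑_{j<M} c_t^{j+1} (‖(A-1)F_j‖ + ‖DF_j-F_{j+1}‖ + ε)`. -/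
theorem met_expansion {η : EE n → ℝ} (hη : SPD η) {t : ℝ} (ht : 0 < t) (M : ℕ)
    {ι : Type} [Fintype ι] (F : CoefFam n ι) (hF : ∀ j, IsTestV (F j))
    (hsym : ∀ j y, CoefSym (F j y)) {ε : ℝ} (hε : 0 < ε) :
    ∃ K0 : ℕ, ∀ K ≥ K0,
      Real.sqrt (∫ p, ‖hc0 (F 0 p.2) - metH t M F p.1.1 p.1.2‖ ^ 2 ∂(metPi η t K))
        ≤ Real.sqrt ((2 * t) ^ M / (M.factorial : ℝ)) * Real.sqrt (nSq η (F M))
          + metDef η t ε M F + ε := by
  obtain ⟨h0, hh0, hmain⟩ := met_main hη ht M F hF hsym ε hε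
  obtain ⟨K0, hK0⟩ := metM_metH hη ht M F hF hsym hε
  obtain ⟨K1, hK1⟩ := exists_nat_gt (t / h0)
  refine ⟨max K0 (K1 + 1), fun K hK => ?_⟩
  have hKK0 : K0 ≤ K := (le_max_left _ _).trans hK
  have hKK1 : K1 + 1 ≤ K := (le_max_right _ _).trans hK
  have hKpos : (0 : ℝ) < K := by
    have : 1 ≤ K := (Nat.le_add_left 1 K1).trans hKK1
    exact_mod_cast this
  have hK1' : t / h0 < K := by
    have : (K1 : ℝ) ≤ K := by exact_mod_cast (Nat.le_succ K1).trans hKK1
    linarith
  have hh : 0 < t / K := by positivity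
  have hlt : t / K < h0 := by
    rw [div_lt_iff₀ hKpos]
    rw [div_lt_iff₀ hh0] at hK1'
    linarith
  have h1 := hmain (t / K) hh hlt K (by
    have : (K : ℝ) * (t / K) = t := by field_simp
    linarith)
  have h2 := hK0 K hKK0
  have h3 : 2 * (t / K) * (K : ℝ) = 2 * t := by field_simp
  rw [h3] at h1
  linarith

end Claimed.Agent.R259
end

/- ===== packed: Claimed.Agent.R259.MetGoal ===== -/
section
/-
Row 259 (S0499), kit MET: the goal `MetGoal` of section 5 from `met_expansion`.  GLUE (proved).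
Owner: helper115.
-/
set_option autoImplicit false

open MeasureTheory ProbabilityTheory
open scoped ContDiff BigOperators

namespace Claimed.Agent.R259

variable {n : ℕ}

/-- the Gaussian law `gam n` (density `gk 1`) is Mathlib's `stdGaussian` (from `gc_dm_gk`). -/
theorem gam_eq_stdGaussian (n : ℕ) : gam n = stdGaussian (EE n) := by
  unfold gam
  rw [gc_dm_gk one_pos]
  simp

theorem Hs_one_eq_hm (j : ℕ) (x : EE n) : Hs j 1 x = hm j x := by
  unfold Hs hm
  congr 1
  funext β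
  refine Finset.prod_congr rfl fun i _ => ?_
  rw [heK_one_eq_hermite]
  rfl

theorem ctrI_eq_hcon {ι : Type} [Fintype ι] {j : ℕ} (c : EuclideanSpace ℝ (ι × Idx n j))
    (τ : TT n j) : ctrI c τ = hcon c τ := rfl

theorem metB_eq_dfD {ι : Type} [Fintype ι] (η : EE n → ℝ) (F : CoefFam n ι) (j : ℕ) :
    metB η F j = dfD η F j := by
  unfold metB dfD
  congr 1
  funext y
  simp only [Fintype.sum_prod_type]
  calc ∑ a, ∑ β : Idx n j, ∑ i, (dI i (F j) y (a, β) - F (j + 1) y (a, Fin.snoc β i)) ^ 2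
      = ∑ a, ∑ i, ∑ β : Idx n j, (dI i (F j) y (a, β) - F (j + 1) y (a, Fin.snoc β i)) ^ 2 :=
        Finset.sum_congr rfl fun a _ => Finset.sum_comm
    _ = _ := Finset.sum_comm

theorem ctrI_zero {ι : Type} [Fintype ι] (c : EuclideanSpace ℝ (ι × Idx n 0)) (x : EE n) :
    ctrI c (hm 0 x) = hc0 c := by
  unfold ctrI hc0
  congr 1
  funext a
  rw [Fintype.sum_unique]
  have h1 : (hm 0 x) (default : Idx n 0) = 1 := by
    rw [← Hs_one_eq_hm]
    exact Hs_zero 1 x _
  rw [h1, mul_one]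
  have h2 : (default : Idx n 0) = fun r => r.elim0 := Subsingleton.elim _ _
  rw [h2]

theorem metH_eq {ι : Type} [Fintype ι] (t : ℝ) (M : ℕ) (F : CoefFam n ι) (y0 x : EE n) :
    metH t M F y0 x = Real.exp (-t) • ∑ j ∈ Finset.range M,
      (Real.sqrt (2 * t) ^ j / (j.factorial : ℝ)) • ctrI (F j y0) (hm j x) := by
  unfold metH
  rw [Finset.smul_sum]
  refine Finset.sum_congr rfl fun j _ => ?_
  rw [smul_smul, ctrI_eq_hcon, Hs_one_eq_hm, mul_div_assoc]

/-- accumulated defect against a single constant -/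
theorem metDef_le {ι : Type} [Fintype ι] (η : EE n → ℝ) (t ε : ℝ) (M : ℕ) (F : CoefFam n ι) :
    metDef η t ε M F ≤ (∑ j ∈ Finset.range M, metC t ^ (j + 1)) *
        ∑ j ∈ Finset.range M, (Real.sqrt (dfA η F j) + Real.sqrt (dfD η F j))
      + (∑ j ∈ Finset.range M, metC t ^ (j + 1)) * ε := by
  unfold metDef
  have hc : 0 ≤ metC t := Real.sqrt_nonneg _
  have h1 : ∀ j ∈ Finset.range M, metC t ^ (j + 1) * (Real.sqrt (dfA η F j) + Real.sqrt (dfD η F j))
      ≤ (∑ j ∈ Finset.range M, metC t ^ (j + 1)) *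
        (Real.sqrt (dfA η F j) + Real.sqrt (dfD η F j)) := by
    intro j hj
    apply mul_le_mul_of_nonneg_right
    · exact Finset.single_le_sum (f := fun j => metC t ^ (j + 1)) (fun i _ => by positivity) hj
    · have := Real.sqrt_nonneg (dfA η F j)
      have := Real.sqrt_nonneg (dfD η F j)
      positivity
  calc ∑ j ∈ Finset.range M, metC t ^ (j + 1) * (Real.sqrt (dfA η F j) + Real.sqrt (dfD η F j) + ε)
      = ∑ j ∈ Finset.range M, metC t ^ (j + 1) * (Real.sqrt (dfA η F j) + Real.sqrt (dfD η F j))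
        + (∑ j ∈ Finset.range M, metC t ^ (j + 1)) * ε := by
        rw [Finset.sum_mul, ← Finset.sum_add_distrib]
        exact Finset.sum_congr rfl fun j _ => by ring
    _ ≤ _ := by
        rw [Finset.mul_sum]
        exact add_le_add (Finset.sum_le_sum h1) le_rfl

/-- **The goal of kit MET** (Lemma 5.5 in coupling form). -/
theorem met_goal : MetGoal := by
  intro m t ht
  set C : ℝ := ∑ j ∈ Finset.range (m + 1), metC t ^ (j + 1) with hC
  have hC0 : 0 ≤ C := Finset.sum_nonneg fun j _ => pow_nonneg (Real.sqrt_nonneg _) _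
  refine ⟨C, ?_⟩
  intro n ι _ η hη F hF hsym ε' hε'
  have hsym' : ∀ j y, CoefSym (F j y) := fun j y σ a β => hsym j y a σ β
  have hε : 0 < ε' / (C + 1) := by positivity
  obtain ⟨K0, hK0⟩ := met_expansion hη ht (m + 1) F hF hsym' hε
  set K := max K0 1 with hK
  have hK1 : 1 ≤ K := le_max_right _ _
  have hexp := hK0 K (le_max_left _ _)
  have := metPi_prob hη t K
  have := dm_prob hη
  have hfst := metPi_fst hη t hK1
  have hsnd := metPi_snd hη ht.le K
  have hY0 : (metPi η t K).map (fun p => p.1.1) = dm η := by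
    have : (fun p : (EE n × EE n) × EE n => p.1.1) = Prod.fst ∘ Prod.fst := rfl
    rw [this, ← Measure.map_map measurable_fst measurable_fst, hfst, Measure.map_fst_prod]
    simp
  have hN : (metPi η t K).map (fun p => p.1.2) = stdGaussian (EE n) := by
    have : (fun p : (EE n × EE n) × EE n => p.1.2) = Prod.snd ∘ Prod.fst := rfl
    rw [this, ← Measure.map_map measurable_snd measurable_fst, hfst, Measure.map_snd_prod]
    simp
  refine ⟨(EE n × EE n) × EE n, inferInstance, metPi η t K, fun p => p.1.1, fun p => p.1.2,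
    fun p => p.2, inferInstance, measurable_fst.fst, measurable_fst.snd, measurable_snd,
    hY0, hsnd, by rw [hN, gam_eq_stdGaussian], ?_, ?_⟩
  · rw [indepFun_iff_map_prod_eq_prod_map_map measurable_fst.fst.aemeasurable
      measurable_fst.snd.aemeasurable, hY0, hN]
    exact hfst
  · have h1 : ∀ p : (EE n × EE n) × EE n,
        ctrI (F 0 p.2) (hm 0 p.1.2) - Real.exp (-t) • ∑ j ∈ Finset.range (m + 1),
          (Real.sqrt (2 * t) ^ j / (j.factorial : ℝ)) • ctrI (F j p.1.1) (hm j p.1.2)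
        = hc0 (F 0 p.2) - metH t (m + 1) F p.1.1 p.1.2 := by
      intro p
      rw [ctrI_zero, metH_eq]
    simp only [h1]
    have h2 := metDef_le η t (ε' / (C + 1)) (m + 1) F
    have h3 : C * (ε' / (C + 1)) + ε' / (C + 1) = ε' := by field_simp
    have h4 : ∑ j ∈ Finset.range (m + 1),
        (Real.sqrt (nSq η (fun y => opA η (F j) y - F j y)) + Real.sqrt (metB η F j))
        = ∑ j ∈ Finset.range (m + 1), (Real.sqrt (dfA η F j) + Real.sqrt (dfD η F j)) := by
      refine Finset.sum_congr rfl fun j _ => ?_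
      rw [metB_eq_dfD]
      rfl
    rw [h4]
    linarith

end Claimed.Agent.R259
end
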