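/- Packed by merge_tool.py (helper293): 14 modules of Claimed.Agent.R259 in one file, same declarations.
   Old modules, in this order: S5KitTD, S5KitIbp, S5KitT, S5BesDefs, S5ConA, S5ConRaw, S5ConCorr, S5ConReal, S5ConVec, S5ConSym, S5ConB, S5ConC, S5ConD, S5ConLvl0 -/
import Claimed.Agent.R259.Pack014
import Claimed.Agent.R259.Pack048
import Claimed.Agent.R259.Pack003

/- ===== packed: Claimed.Agent.R259.S5KitTD ===== -/
section
/-
Row 259 (S0499), section 5, kit for Lemmas 5.2-5.4: the derivative of tensor fields (leaf L-s5k-tD).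
Blueprint owner: helper202.  Proved by helper202.
-/
set_option autoImplicit false

open MeasureTheory
open scoped ContDiff BigOperators Matrix
open Claimed.Agent.R260 (Mx)

namespace Claimed.Agent.R259

variable {n d : ℕ}

/-! ### The derivative of tensor fields (leaf L-s5k-tD) -/

theorem s5k_tD_apply (T : EE n → TT n d) (y : EE n) (α : Idx n (d + 1)) :
    tD T y α = dI (α (Fin.last d)) T y (Fin.init α) := by
  simp [tD]

theorem s5kt_sum_snoc (f : Idx n (d + 1) → ℝ) :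
    ∑ α, f α = ∑ i, ∑ β : Idx n d, f (Fin.snoc β i) := by
  rw [← Equiv.sum_comp (Fin.snocEquiv (fun _ : Fin (d + 1) => Fin n)), Fintype.sum_prod_type]
  rfl

theorem s5k_inner_tD (S T : EE n → TT n d) (y : EE n) :
    inner ℝ (tD S y) (tD T y) = ∑ i, inner ℝ (dI i S y) (dI i T y) := by
  simp only [PiLp.inner_apply]
  rw [s5kt_sum_snoc]
  simp only [s5k_tD_apply, Fin.snoc_last, Fin.init_snoc]

theorem s5k_inner_fD {ι : Type} [Fintype ι] (S T : EE n → EuclideanSpace ℝ ι) (y : EE n) :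
    inner ℝ (fD S y) (fD T y) = ∑ i, inner ℝ (dI i S y) (dI i T y) := by
  simp only [PiLp.inner_apply]
  rw [Fintype.sum_prod_type_right]
  simp only [fD]

theorem s5k_tD_norm (T : EE n → TT n d) (y : EE n) : ‖tD T y‖ ^ 2 = dSq T y := by
  rw [← real_inner_self_eq_norm_sq, s5k_inner_tD]
  simp only [real_inner_self_eq_norm_sq, dSq]

theorem s5k_fD_norm {ι : Type} [Fintype ι] (F : EE n → EuclideanSpace ℝ ι) (y : EE n) :
    ‖fD F y‖ ^ 2 = dSq F y := by
  rw [← real_inner_self_eq_norm_sq, s5k_inner_fD]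
  simp only [real_inner_self_eq_norm_sq, dSq]

/-- the Hilbert-Schmidt sum does not depend on the orthonormal basis -/
theorem s5kt_hs_basis {E V ι κ : Type} [NormedAddCommGroup E] [InnerProductSpace ℝ E]
    [NormedAddCommGroup V] [InnerProductSpace ℝ V] [Fintype ι] [Fintype κ]
    (b : OrthonormalBasis ι ℝ E) (e : OrthonormalBasis κ ℝ E) (L : E →L[ℝ] V) :
    ∑ i, ‖L (b i)‖ ^ 2 = ∑ k, ‖L (e k)‖ ^ 2 := by
  classical
  have h1 : ∀ i, ‖L (b i)‖ ^ 2
      = ∑ k, ∑ l, (inner ℝ (e k) (b i) * inner ℝ (b i) (e l)) * inner ℝ (L (e k)) (L (e l)) := by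
    intro i
    have hb : L (b i) = ∑ k, inner ℝ (e k) (b i) • L (e k) := by
      conv_lhs => rw [← e.sum_repr' (b i)]
      simp only [map_sum, map_smul]
    rw [← real_inner_self_eq_norm_sq, hb, sum_inner]
    refine Finset.sum_congr rfl fun k _ => ?_
    rw [inner_sum]
    refine Finset.sum_congr rfl fun l _ => ?_
    rw [inner_smul_left, inner_smul_right, real_inner_comm (e l) (b i)]
    simp only [conj_trivial]
    ring
  simp only [h1]
  rw [Finset.sum_comm]
  refine Finset.sum_congr rfl fun k _ => ?_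
  rw [Finset.sum_comm]
  simp only [← Finset.sum_mul, b.sum_inner_mul_inner]
  rw [Finset.sum_eq_single k]
  · rw [real_inner_self_eq_norm_sq, real_inner_self_eq_norm_sq, e.orthonormal.1 k]
    ring
  · intro l _ hl
    rw [e.orthonormal.2 (Ne.symm hl), zero_mul]
  · simp

/-- the Hilbert-Schmidt norm does not depend on the orthonormal basis -/
theorem s5k_hsSq {V : Type} [NormedAddCommGroup V] [InnerProductSpace ℝ V]
    (L : EE n →L[ℝ] V) : hsSq L = ∑ i, ‖L (eb i)‖ ^ 2 := by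
  unfold hsSq
  rw [s5kt_hs_basis (stdOrthonormalBasis ℝ (EE n)) (EuclideanSpace.basisFun (Fin n) ℝ) L]
  simp [eb]

theorem s5kt_dI_contDiff {V : Type} [NormedAddCommGroup V] [NormedSpace ℝ V] {F : EE n → V}
    (hF : ContDiff ℝ ∞ F) (i : Fin n) : ContDiff ℝ ∞ (dI i F) := by
  have h2 : ContDiff ℝ ∞ (fderiv ℝ F) := hF.fderiv_right (by norm_cast)
  exact h2.clm_apply contDiff_const

theorem s5k_tD_contDiff {T : EE n → TT n d} (hT : ContDiff ℝ ∞ T) : ContDiff ℝ ∞ (tD T) := by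
  rw [contDiff_euclidean]
  intro α
  simp only [s5k_tD_apply]
  exact contDiff_euclidean.1 (s5kt_dI_contDiff hT _) _

theorem s5k_fD_contDiff {ι : Type} [Fintype ι] {F : EE n → EuclideanSpace ℝ ι}
    (hF : ContDiff ℝ ∞ F) : ContDiff ℝ ∞ (fD F) := by
  rw [contDiff_euclidean]
  intro p
  simp only [fD]
  exact contDiff_euclidean.1 (s5kt_dI_contDiff hF _) _

theorem s5kt_dI_eq_zero {V : Type} [NormedAddCommGroup V] [NormedSpace ℝ V] {F : EE n → V}
    {x : EE n} (hx : x ∉ tsupport F) (i : Fin n) : dI i F x = 0 := by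
  have h0 : F =ᶠ[nhds x] fun _ => 0 := notMem_tsupport_iff_eventuallyEq.1 hx
  unfold dI
  rw [h0.fderiv_eq]
  simp

theorem s5k_tD_test {T : EE n → TT n d} (hT : IsTestV T) : IsTestV (tD T) := by
  refine ⟨s5k_tD_contDiff hT.1, HasCompactSupport.intro hT.2 fun x hx => ?_⟩
  ext α
  rw [s5k_tD_apply, s5kt_dI_eq_zero hx]
  rfl

theorem s5kt_dI_sub {V : Type} [NormedAddCommGroup V] [NormedSpace ℝ V] {S T : EE n → V}
    {y : EE n} (hS : DifferentiableAt ℝ S y) (hT : DifferentiableAt ℝ T y) (i : Fin n) :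
    dI i (fun z => S z - T z) y = dI i S y - dI i T y := by
  unfold dI
  rw [fderiv_fun_sub hS hT]
  rfl

theorem s5k_tD_sub {S T : EE n → TT n d} {y : EE n} (hS : DifferentiableAt ℝ S y)
    (hT : DifferentiableAt ℝ T y) : tD (fun z => S z - T z) y = tD S y - tD T y := by
  ext α
  simp only [s5k_tD_apply, s5kt_dI_sub hS hT, PiLp.sub_apply]

theorem s5k_fD_sub {ι : Type} [Fintype ι] {S T : EE n → EuclideanSpace ℝ ι} {y : EE n}
    (hS : DifferentiableAt ℝ S y) (hT : DifferentiableAt ℝ T y) :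
    fD (fun z => S z - T z) y = fD S y - fD T y := by
  ext p
  simp only [fD, s5kt_dI_sub hS hT, PiLp.sub_apply]

theorem s5k_tD_smul (c : ℝ) {T : EE n → TT n d} {y : EE n} (hT : DifferentiableAt ℝ T y) :
    tD (fun z => c • T z) y = c • tD T y := by
  ext α
  simp only [s5k_tD_apply, PiLp.smul_apply, dI]
  rw [fderiv_fun_const_smul hT]
  rfl

theorem s5k_tD_slot (r : Fin d) (M : Mx n) {T : EE n → TT n d} {y : EE n}
    (hT : DifferentiableAt ℝ T y) :
    tD (fun z => slot r M (T z)) y = slot r.castSucc M (tD T y) := by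
  ext α
  have h1 := s5k_dI_clm (slotL r M) hT (α (Fin.last d))
  simp only [slotL_apply] at h1
  rw [s5k_tD_apply, h1]
  simp only [slot, s5k_tD_apply, Fin.init_update_castSucc]
  refine Finset.sum_congr rfl fun j _ => ?_
  rw [Function.update_of_ne (Fin.castSucc_lt_last r).ne']
  rfl

/-- a transposition of two old slots commutes with differentiation -/
theorem s5k_tD_swap (a b : Fin d) {T : EE n → TT n d} {y : EE n} (hT : DifferentiableAt ℝ T y) :
    tD (fun z => tPerm (Equiv.swap a b) (T z)) y =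
      tPerm (Equiv.swap a.castSucc b.castSucc) (tD T y) := by
  ext α
  have h1 := s5k_dI_clm (tPermL (n := n) (Equiv.swap a b)) hT (α (Fin.last d))
  simp only [tPermL_apply] at h1
  rw [s5k_tD_apply, h1, tPerm_apply, tPerm_apply, s5k_tD_apply]
  have e1 : (α ∘ Equiv.swap a.castSucc b.castSucc) (Fin.last d) = α (Fin.last d) := by
    simp only [Function.comp_apply]
    rw [Equiv.swap_apply_of_ne_of_ne (Fin.castSucc_lt_last a).ne' (Fin.castSucc_lt_last b).ne']
  have e2 : Fin.init (α ∘ Equiv.swap a.castSucc b.castSucc) = Fin.init α ∘ Equiv.swap a b := by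
    funext k
    simp only [Fin.init, Function.comp_apply]
    rw [(Fin.castSucc_injective d).swap_apply]
  rw [e1, e2]

theorem s5kt_tD_tD_apply {T : EE n → TT n d} (hT : ContDiff ℝ 2 T) (y : EE n)
    (α : Idx n (d + 2)) :
    tD (tD T) y α = fderiv ℝ (fderiv ℝ T) y (eb (α (Fin.last (d + 1))))
      (eb (α (Fin.last d).castSucc)) (Fin.init (Fin.init α)) := by
  have hd : DifferentiableAt ℝ (fderiv ℝ T) y :=
    ((hT.fderiv_right (m := 1) (by norm_num)).differentiable (by norm_num)) y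
  set k := α (Fin.last d).castSucc with hk
  set β := Fin.init (Fin.init α) with hβ
  -- the component of `tD T`
  have h1 : HasFDerivAt (fun z => fderiv ℝ T z (eb k) β)
      ((EuclideanSpace.proj β : TT n d →L[ℝ] ℝ).comp
        ((ContinuousLinearMap.apply ℝ (TT n d) (eb k : EE n)).comp (fderiv ℝ (fderiv ℝ T) y))) y :=
    (EuclideanSpace.proj β : TT n d →L[ℝ] ℝ).hasFDerivAt.comp y
      ((ContinuousLinearMap.apply ℝ (TT n d) (eb k : EE n)).hasFDerivAt.comp y hd.hasFDerivAt)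
  have hdt : DifferentiableAt ℝ (tD T) y := by
    rw [differentiableAt_euclidean]
    intro γ
    simp only [s5k_tD_apply, dI]
    exact ((EuclideanSpace.proj (Fin.init γ) : TT n d →L[ℝ] ℝ).hasFDerivAt.comp y
      ((ContinuousLinearMap.apply ℝ (TT n d) (eb (γ (Fin.last d)) : EE n)).hasFDerivAt.comp y
        hd.hasFDerivAt)).differentiableAt
  have h2 : HasFDerivAt (fun z => tD T z (Fin.init α))
      ((EuclideanSpace.proj (Fin.init α) : TT n (d + 1) →L[ℝ] ℝ).comp (fderiv ℝ (tD T) y)) y :=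
    (EuclideanSpace.proj (Fin.init α) : TT n (d + 1) →L[ℝ] ℝ).hasFDerivAt.comp y hdt.hasFDerivAt
  have e : (fun z => tD T z (Fin.init α)) = fun z => fderiv ℝ T z (eb k) β := by
    funext z
    rw [s5k_tD_apply]
    rfl
  rw [e] at h2
  have h3 := h2.unique h1
  rw [s5k_tD_apply]
  exact congrArg (fun L : EE n →L[ℝ] ℝ => L (eb (α (Fin.last (d + 1))))) h3

/-- symmetry of second derivatives: the last two slots of `D²T` can be exchanged -/
theorem s5k_tD_tD_swap {T : EE n → TT n d} (hT : ContDiff ℝ 2 T) (y : EE n) :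
    tPerm (Equiv.swap (Fin.last (d + 1)) (Fin.last d).castSucc) (tD (tD T) y) = tD (tD T) y := by
  ext α
  rw [tPerm_apply, s5kt_tD_tD_apply hT, s5kt_tD_tD_apply hT]
  have hs : IsSymmSndFDerivAt ℝ T y :=
    hT.contDiffAt.isSymmSndFDerivAt (by simp)
  have e1 : (α ∘ Equiv.swap (Fin.last (d + 1)) (Fin.last d).castSucc) (Fin.last (d + 1))
      = α (Fin.last d).castSucc := by simp
  have e2 : (α ∘ Equiv.swap (Fin.last (d + 1)) (Fin.last d).castSucc) (Fin.last d).castSucc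
      = α (Fin.last (d + 1)) := by simp
  have e3 : Fin.init (Fin.init (α ∘ Equiv.swap (Fin.last (d + 1)) (Fin.last d).castSucc))
      = Fin.init (Fin.init α) := by
    funext k
    simp only [Fin.init, Function.comp_apply]
    rw [Equiv.swap_apply_of_ne_of_ne (Fin.castSucc_lt_last _).ne]
    intro h
    exact (Fin.castSucc_lt_last k).ne (Fin.castSucc_injective _ h)
  rw [e1, e2, e3, hs.eq]

/-- `nSq` of `fD` and of `tD` agree -/
theorem s5k_nSq_fD_tD (η : EE n → ℝ) (T : EE n → TT n d) : nSq η (fD T) = nSq η (tD T) := by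
  unfold nSq
  simp_rw [s5k_fD_norm, s5k_tD_norm]

theorem s5k_memLp_fD_tD {η : EE n → ℝ} {T : EE n → TT n d} (hT : ContDiff ℝ ∞ T) :
    MemLp (fD T) 2 (dm η) ↔ MemLp (tD T) 2 (dm η) := by
  rw [memLp_two_iff_integrable_sq_norm (s5k_fD_contDiff hT).continuous.aestronglyMeasurable,
    memLp_two_iff_integrable_sq_norm (s5k_tD_contDiff hT).continuous.aestronglyMeasurable]
  simp_rw [s5k_fD_norm, s5k_tD_norm]

end Claimed.Agent.R259
end

/- ===== packed: Claimed.Agent.R259.S5KitIbp ===== -/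
section
/-
Row 259 (S0499), section 5, kit for Lemmas 5.2-5.4: integration by parts against test fields (leaf L-s5k-ibp).
Blueprint owner: helper202.  LEAF FILE: the seat that claims the leaf owns this file, keeps names and
statements and replaces every `sorry` by a proof (helper lemmas with the same prefix are welcome).
Proved by helper297.
-/
set_option autoImplicit false

open MeasureTheory
open scoped ContDiff BigOperators Matrix
open Claimed.Agent.R260 (Mx)

namespace Claimed.Agent.R259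

variable {n d : ℕ}

/-! ### Integration by parts against test fields (leaf L-s5k-ibp) -/

theorem s5k_ibp_basis (i : Fin n) : EuclideanSpace.basisFun (Fin n) ℝ i = eb i := by
  simp [eb]

/-- the Laplacian in the coordinate basis. -/
theorem s5k_ibp_lap {V : Type} [NormedAddCommGroup V] [NormedSpace ℝ V] {T : EE n → V} {x : EE n}
    (hT : ContDiffAt ℝ 2 T x) :
    Laplacian.laplacian T x = ∑ i, fderiv ℝ (fun y => dI i T y) x (eb i) := by
  rw [InnerProductSpace.laplacian_eq_iteratedFDeriv_orthonormalBasis T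
    (EuclideanSpace.basisFun (Fin n) ℝ)]
  refine Finset.sum_congr rfl fun i _ => ?_
  unfold dI
  rw [iteratedFDeriv_two_apply, opc_fderiv_dir hT, s5k_ibp_basis]
  simp

/-- `∑ i, Df(e i) • L (e i) = L (∇ f)` in the coordinate basis. -/
theorem s5k_ibp_sum_basis {V : Type} [NormedAddCommGroup V] [NormedSpace ℝ V] (f : EE n → ℝ)
    (L : EE n →L[ℝ] V) (x : EE n) :
    ∑ i, fderiv ℝ f x (eb i) • L (eb i) = L (gradient f x) := by
  conv_rhs => rw [← (EuclideanSpace.basisFun (Fin n) ℝ).sum_repr' (gradient f x)]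
  rw [map_sum]
  refine Finset.sum_congr rfl fun i _ => ?_
  rw [map_smul, real_inner_comm, inner_gradient_left, s5k_ibp_basis]

/-- divergence form for fields: `η A_η T = - ∑ i D_i (η D_i T)`. -/
theorem s5k_ibp_div_form {V : Type} [NormedAddCommGroup V] [NormedSpace ℝ V] {η : EE n → ℝ}
    {x : EE n} (hη : DifferentiableAt ℝ η x) (hpos : 0 < η x) {T : EE n → V}
    (hT : ContDiffAt ℝ 2 T x) :
    η x • opA η T x = - ∑ i, fderiv ℝ (fun y => η y • dI i T y) x (eb i) := by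
  unfold opA
  rw [opc_grad_log hη hpos, s5k_ibp_lap hT, map_smul, ← s5k_ibp_sum_basis η (fderiv ℝ T x) x]
  have key : ∀ i, fderiv ℝ (fun y => η y • dI i T y) x (eb i)
      = η x • fderiv ℝ (fun y => dI i T y) x (eb i) + fderiv ℝ η x (eb i) • fderiv ℝ T x (eb i) := by
    intro i
    have d3 : HasFDerivAt (fun y => dI i T y) (fderiv ℝ (fun y => dI i T y) x) x :=
      ((opc_fderiv_differentiableAt hT).clm_apply (differentiableAt_const (eb i))).hasFDerivAt
    have d5 := hη.hasFDerivAt.smul d3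
    have e5 : (fun y => η y • dI i T y) = η • fun y => dI i T y := rfl
    rw [e5, d5.fderiv]
    simp [dI]
  simp only [key, Finset.sum_add_distrib, ← Finset.smul_sum]
  rw [smul_sub, smul_neg, smul_smul, mul_inv_cancel₀ hpos.ne', one_smul]
  abel

theorem s5k_ibp_integrable_inner {V : Type} [NormedAddCommGroup V] [InnerProductSpace ℝ V]
    {a g : EE n → V} (ha : Continuous a) (hg : Continuous g) (hgc : HasCompactSupport g) :
    Integrable (fun y => inner ℝ (a y) (g y)) := by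
  refine (ha.inner hg).integrable_of_hasCompactSupport (hgc.mono ?_)
  intro y hy
  simp only [Function.mem_support] at hy ⊢
  intro h0
  exact hy (by rw [h0, inner_zero_right])

/-- `∫ ∑_i ⟨D_i F, D_i T⟩ dη = ∫ ⟨F, A_η T⟩ dη` for `T` a test field and `F` of class `C¹`
(no integrability of `F` is needed). -/
theorem s5k_ibp {V : Type} [NormedAddCommGroup V] [InnerProductSpace ℝ V] [FiniteDimensional ℝ V]
    {η : EE n → ℝ} (hη : SPD η) {F T : EE n → V} (hF : ContDiff ℝ 1 F) (hT : IsTestV T) :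
    ∫ y, ∑ i, inner ℝ (dI i F y) (dI i T y) ∂(dm η) = ipF η F (opA η T) := by
  obtain ⟨hηs, hηp, -⟩ := hη
  obtain ⟨hTs, hTc⟩ := hT
  have hηm : Measurable η := hηs.continuous.measurable
  have hη0 : ∀ x, 0 ≤ η x := fun x => (hηp x).le
  unfold ipF
  rw [dfk_integral_dm hηm hη0, dfk_integral_dm hηm hη0]
  -- the fields `G i = η • D_i T`
  set G : Fin n → EE n → V := fun i y => η y • dI i T y with hG
  have hdT : ∀ i, ContDiff ℝ ∞ (fun y => dI i T y) := fun i =>
    (hTs.fderiv_right (m := ∞) (by simp)).clm_apply contDiff_const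
  have hdTc : ∀ i, HasCompactSupport (fun y => dI i T y) := fun i =>
    hTc.fderiv_apply (𝕜 := ℝ) (eb i)
  have hGs : ∀ i, ContDiff ℝ ∞ (G i) := fun i => hηs.smul (hdT i)
  have hGc : ∀ i, HasCompactSupport (G i) := fun i => (hdTc i).smul_left
  have hdF : ∀ i, Continuous (fun y => dI i F y) := fun i =>
    (hF.continuous_fderiv (by simp)).clm_apply continuous_const
  have hdG : ∀ i, Continuous (fun y => fderiv ℝ (G i) y (eb i)) := fun i =>
    ((hGs i).continuous_fderiv (by simp)).clm_apply continuous_const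
  have hdGc : ∀ i, HasCompactSupport (fun y => fderiv ℝ (G i) y (eb i)) := fun i =>
    (hGc i).fderiv_apply (𝕜 := ℝ) (eb i)
  have I1 : ∀ i, Integrable (fun y => inner ℝ (dI i F y) (G i y)) := fun i =>
    s5k_ibp_integrable_inner (hdF i) (hGs i).continuous (hGc i)
  have I2 : ∀ i, Integrable (fun y => inner ℝ (F y) (fderiv ℝ (G i) y (eb i))) := fun i =>
    s5k_ibp_integrable_inner hF.continuous (hdG i) (hdGc i)
  have I3 : ∀ i, Integrable (fun y => inner ℝ (F y) (G i y)) := fun i =>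
    s5k_ibp_integrable_inner hF.continuous (hGs i).continuous (hGc i)
  have ibp : ∀ i, ∫ y, inner ℝ (F y) (fderiv ℝ (G i) y (eb i))
      = - ∫ y, inner ℝ (dI i F y) (G i y) := by
    intro i
    exact integral_bilinear_fderiv_right_eq_neg_left_of_integrable (μ := volume)
      (B := innerSL ℝ) (f := F) (g := G i) (v := eb i) (I1 i) (I2 i) (I3 i)
      (fun x _ => hF.differentiable (by simp) x)
      (fun x _ => (hGs i).differentiable (by simp) x)
  have h2 : (2 : WithTop ℕ∞) ≤ ∞ := by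
    have : ((2 : ℕ∞) : WithTop ℕ∞) ≤ ((⊤ : ℕ∞) : WithTop ℕ∞) := by exact_mod_cast le_top
    exact this
  have L1 : ∀ y, η y • ∑ i, inner ℝ (dI i F y) (dI i T y) = ∑ i, inner ℝ (dI i F y) (G i y) := by
    intro y
    rw [Finset.smul_sum]
    refine Finset.sum_congr rfl fun i _ => ?_
    rw [hG, inner_smul_right, smul_eq_mul]
  have R1 : ∀ y, η y • inner ℝ (F y) (opA η T y)
      = - ∑ i, inner ℝ (F y) (fderiv ℝ (G i) y (eb i)) := by
    intro y
    rw [smul_eq_mul, ← inner_smul_right,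
      s5k_ibp_div_form (hηs.differentiable (by simp) y) (hηp y)
        (hTs.of_le h2).contDiffAt, inner_neg_right, inner_sum]
  simp_rw [L1, R1]
  rw [integral_finsetSum _ (fun i _ => I1 i), integral_neg,
    integral_finsetSum _ (fun i _ => I2 i), ← Finset.sum_neg_distrib]
  refine Finset.sum_congr rfl fun i _ => ?_
  rw [ibp i, neg_neg]

theorem s5k_ibp_tD {η : EE n → ℝ} (hη : SPD η) {F T : EE n → TT n d} (hF : ContDiff ℝ 1 F)
    (hT : IsTestV T) : ipF η (tD F) (tD T) = ipF η F (opA η T) := by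
  rw [← s5k_ibp hη hF hT]
  unfold ipF
  simp_rw [s5k_inner_tD]

theorem s5k_ibp_fD {ι : Type} [Fintype ι] {η : EE n → ℝ} (hη : SPD η)
    {F T : EE n → EuclideanSpace ℝ ι} (hF : ContDiff ℝ 1 F) (hT : IsTestV T) :
    ipF η (fD F) (fD T) = ipF η F (opA η T) := by
  rw [← s5k_ibp hη hF hT]
  unfold ipF
  simp_rw [s5k_inner_fD]

end Claimed.Agent.R259
end

/- ===== packed: Claimed.Agent.R259.S5KitT ===== -/
section
/-
Row 259 (S0499), section 5: tensor algebra and calculus of fields (kit for Lemmas 5.2-5.4).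
Owner: helper202.  AGGREGATOR of the leaf files S5KitAlg, S5KitClm, S5KitTD, S5KitIbp.
-/

end

/- ===== packed: Claimed.Agent.R259.S5BesDefs ===== -/
section
/-
Row 259 (S0499), Lemma 5.2 (Bessel inequality for the prediction): definitions.  Owner: helper202.

`h : EE n → EE n` plays the role of `h_r = E[w(Y) | U_r = ·]`.  The derivatives of
`g_r(y) = E h(y + √r G)` are the Hermite coefficients of `z ↦ h(y + √r z)`:
`D^j g_r(y) = r^{-j/2} E[h(y + √r G) ⊗ 𝔥_j(G)]`.
-/
set_option autoImplicit false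

open MeasureTheory
open scoped ContDiff BigOperators Matrix

namespace Claimed.Agent.R259

noncomputable section

variable {n : ℕ}

/-- growth class of scalar functions: measurable and `|f(u)| ≤ C exp((|u|+1)²/(4r))`; the Gaussian
kernel `gk r` decays like `exp(-|u|²/(2r))`, so all kernel integrals below converge locally
uniformly. -/
def GrowS (r : ℝ) (f : EE n → ℝ) : Prop :=
  Measurable f ∧ ∃ C : ℝ, ∀ u, |f u| ≤ C * Real.exp ((‖u‖ + 1) ^ 2 / (4 * r))

/-- scalar Hermite coefficient `E[f(y + √r G) 𝔥_j(G)_β]` -/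
def hcS (r : ℝ) (f : EE n → ℝ) (j : ℕ) (β : Idx n j) (y : EE n) : ℝ :=
  ∫ z, f (y + Real.sqrt r • z) * hm j z β ∂(gam n)

/-- the field `r^{-j/2} E[h(y + √r G) ⊗ 𝔥_j(G)]`; slot `0` is the output slot of `h` -/
def hcF (r : ℝ) (h : EE n → EE n) (j : ℕ) (y : EE n) : TT n (j + 1) :=
  WithLp.toLp 2 (fun α => (Real.sqrt r)⁻¹ ^ j * hcS r (fun u => h u (α 0)) j (Fin.tail α) y)

end

theorem s5besdefs_eqns_cite : True := by
  have := @GrowS.eq_1
  have := @hcS.eq_1
  have := @hcF.eq_1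
  trivial

end Claimed.Agent.R259
end

/- ===== packed: Claimed.Agent.R259.S5ConA ===== -/
section
/-
Row 259 (S0499), Lemma 5.4 (induction step of the hierarchy): GOALS of the sub-packages and monotonicity.
Owner: helper202.  The leaves are in S5ConRaw, S5ConCorr, S5ConReal, S5ConSym, S5Center*.

Notation of the paper: `V = D T_l`, `S_0 = e^r D^{l+1} g_r`, `S = Sym S_0`, `T_{l+1} = Sym φ` with
`φ` the test field given by `s5_smooth`.
-/
set_option autoImplicit false

open MeasureTheory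
open scoped ContDiff BigOperators Matrix
open Claimed.Agent.R260 (Mx)

namespace Claimed.Agent.R259

variable {n : ℕ}

/-! ### Monotonicity of the defect structures (same proofs as in `S5Chain.lean`, which is downstream) -/

theorem s5c_small_mono {Z : HiInput n} {δ δ' : ℝ} (h : Z.Small δ) (hd : δ ≤ δ') :
    Z.Small δ' := by
  have hI : 0 ≤ Z.I := Z.I_pos.le
  have hm : δ * Z.I ≤ δ' * Z.I := mul_le_mul_of_nonneg_right hd hI
  have hv : ∀ v : EE n, δ * ‖v‖ ^ 2 ≤ δ' * ‖v‖ ^ 2 := fun v =>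
    mul_le_mul_of_nonneg_right hd (by positivity)
  refine ⟨by linarith [h.lam_lo], by linarith [h.lam_hi], h.eigen.trans hm, h.mean.trans hm,
    h.curv.trans hm, fun r h1 h2 => (h.pred r (hd.trans h1) (by linarith)).trans hd,
    h.projw.trans hm, fun v => (h.outb v).trans (hv v), fun v => (h.outom v).trans (hv v),
    fun v => (h.outM v).trans (hv v),
    fun ho r a h1 h2 h3 => (h.tail ho r a (hd.trans h1) (by linarith) (hd.trans h3)).trans hm⟩

theorem s5c_lvl_mono {Z : HiInput n} {d : ℕ} {T : EE n → TT n (d + 1)} {δ δ' : ℝ}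
    (h : Z.Lvl T δ) (hd : δ ≤ δ') : Z.Lvl T δ' := by
  have hm : δ * Z.I ≤ δ' * Z.I := mul_le_mul_of_nonneg_right hd Z.I_pos.le
  exact ⟨h.test, h.symm, h.norm.trans hm, h.eigen.trans hm, h.mean.trans hm, h.proj.trans hm⟩

theorem s5c_chain_mono {Z : HiInput n} {L : ℕ} {T : (l : ℕ) → EE n → TT n (l + 1)} {δ δ' : ℝ}
    (h : Z.Chain L T δ) (hd : δ ≤ δ') : Z.Chain L T δ' := by
  have hm : δ * Z.I ≤ δ' * Z.I := mul_le_mul_of_nonneg_right hd Z.I_pos.le
  exact ⟨fun l hl => s5c_lvl_mono (h.lvl l hl) hd, fun l hl => (h.deriv l hl).trans hm,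
    h.zero.trans hm, h.zeroD.trans hm⟩

/-! ### Lemma 5.2 (export of the package BESSEL; proved in `S5Bessel*.lean`) -/

/-- the statement of `s5_bessel` as a proposition, so that the step does not wait for its proof -/
def BesselGoal : Prop :=
  ∀ (n : ℕ) (Z : HiInput n) (r : ℝ), 0 < r →
    (∀ j, ContDiff ℝ ∞ (Z.gD r j)) ∧ (∀ j, MemLp (Z.gD r j) 2 (dm Z.η)) ∧
    ipF Z.η (vecT Z.w) (Z.gD r 0) = predM Z.η Z.w r * Z.I ∧
    ∀ J : ℕ, ∑ j ∈ Finset.range (J + 1), r ^ j / (j.factorial : ℝ) * nSq Z.η (Z.gD r j)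
      ≤ predM Z.η Z.w r * Z.I

/-- the statement of `s5_smooth` as a proposition -/
def SmoothGoal : Prop :=
  ∃ C : ℝ, ∀ (n : ℕ) (ι : Type) [Fintype ι] (η : EE n → ℝ) (lam I δ : ℝ), SPD η →
    PI (dm η) lam⁻¹ → 0 < I → 0 < δ → δ ≤ 1 / 4 → 1 - δ ≤ lam → lam ≤ 1 + δ →
    ∀ S : EE n → EuclideanSpace ℝ ι, ContDiff ℝ ∞ S → MemLp S 2 (dm η) → MemLp (fD S) 2 (dm η) →
      ‖meanF η S‖ ^ 2 ≤ δ * I → |nSq η S - I| ≤ δ * I → nSq η (fD S) ≤ (1 + δ) * I →
      ∃ φ : EE n → EuclideanSpace ℝ ι, IsTestV φ ∧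
        nSq η (fun y => φ y - S y) ≤ C * δ * I ∧ nSq η (fun y => fD φ y - fD S y) ≤ C * δ * I ∧
        nSq η (fun y => opA η φ y - φ y) ≤ C * δ * I

/-! ### Step 7: centring (leaf group L-s5c-center, see `S5Center.lean`) -/

/-- (5.two-center-identities) and the paragraph after it. -/
def CenterGoal : Prop :=
  ∀ ε : ℝ, 0 < ε → ∃ δ : ℝ, 0 < δ ∧
    ∀ (n : ℕ) (Z : HiInput n) (d : ℕ) (T : EE n → TT n (d + 1)), Z.Small δ → Z.Lvl T δ →
      nSq Z.η (fun y => slot (Fin.last (d + 1)) Z.Pi (tD T y)) ≤ δ * Z.I →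
      ‖meanF Z.η (tD T)‖ ^ 2 ≤ ε * Z.I

theorem s5cona_eqns_cite : True := by
  have := @BesselGoal.eq_1
  have := @SmoothGoal.eq_1
  have := @CenterGoal.eq_1
  trivial

end Claimed.Agent.R259
end

/- ===== packed: Claimed.Agent.R259.S5ConRaw ===== -/
section
/-
Row 259 (S0499), Lemma 5.4 (induction step): the raw derivative (leaf L-s5c-raw).
Blueprint owner: helper202.  Proved by helper202.
-/
set_option autoImplicit false

open MeasureTheory
open scoped ContDiff BigOperators Matrix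
open Claimed.Agent.R260 (Mx)

namespace Claimed.Agent.R259

variable {n : ℕ}

/-! ### Step 1-2: the raw derivative `V = D T` (leaf L-s5c-raw) -/

/-- energy identity for test fields: `‖D U‖² = ‖U‖² + ⟨U, (A - 1) U⟩` -/
theorem s5cr_energy {d : ℕ} {η : EE n → ℝ} (hη : SPD η) {U : EE n → TT n d} (hU : IsTestV U) :
    nSq η (tD U) = nSq η U + ipF η U (fun y => opA η U y - U y) := by
  have hU2 : MemLp U 2 (dm η) := s5k_test_memLp hη hU
  have hAU2 : MemLp (opA η U) 2 (dm η) := s5k_test_memLp hη (s5k_opA_test hη hU)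
  rw [← s5k_ip_self (tD U), s5k_ibp_tD hη (hU.1.of_le (by norm_cast)) hU,
    s5k_ip_sub_right hU2 hAU2 hU2, s5k_ip_self]
  ring

/-- (5.raw-derivative) and the projected energy on an old slot:
`‖V‖² = ⟨T, A T⟩`, `‖Π₁V‖² = ⟨Π₁T, A Π₁T⟩ ≤ ‖Π₁T‖² + ‖Π₁T‖ ‖(A-1)T‖`. -/
theorem s5c_raw {ε : ℝ} (hε : 0 < ε) : ∃ δ : ℝ, 0 < δ ∧
    ∀ (n : ℕ) (Z : HiInput n) (d : ℕ) (T : EE n → TT n (d + 1)), Z.Lvl T δ →
      |nSq Z.η (tD T) - Z.I| ≤ ε * Z.I ∧ nSq Z.η (fun y => slot 0 Z.Pi (tD T y)) ≤ ε * Z.I := by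
  refine ⟨min (min 1 (ε / 2)) (ε ^ 2 / 8), by positivity, ?_⟩
  intro n Z d T hL
  set δ := min (min 1 (ε / 2)) (ε ^ 2 / 8) with hδ
  have hδ0 : 0 < δ := by positivity
  have hδ1 : δ ≤ 1 := (min_le_left _ _).trans (min_le_left _ _)
  have hδ2 : δ ≤ ε / 2 := (min_le_left _ _).trans (min_le_right _ _)
  have hδ3 : δ ≤ ε ^ 2 / 8 := min_le_right _ _
  have hI : 0 < Z.I := Z.I_pos
  have hT2 : MemLp T 2 (dm Z.η) := s5k_test_memLp Z.spd hL.test
  have hAT2 : MemLp (opA Z.η T) 2 (dm Z.η) := s5k_test_memLp Z.spd (s5k_opA_test Z.spd hL.test)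
  have hR2 : MemLp (fun y => opA Z.η T y - T y) 2 (dm Z.η) := hAT2.sub hT2
  constructor
  · have e1 := s5cr_energy Z.spd hL.test
    have h2 := s5k_ip_sq_le hT2 hR2
    have h3 : nSq Z.η T ≤ 2 * Z.I := by
      have := (abs_le.1 hL.norm).2
      nlinarith
    have h4 : ipF Z.η T (fun y => opA Z.η T y - T y) ^ 2 ≤ (ε / 2 * Z.I) ^ 2 := by
      calc ipF Z.η T (fun y => opA Z.η T y - T y) ^ 2
          ≤ nSq Z.η T * nSq Z.η (fun y => opA Z.η T y - T y) := h2
        _ ≤ (2 * Z.I) * (δ * Z.I) :=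
            mul_le_mul h3 hL.eigen (s5k_nSq_nonneg _ _) (by positivity)
        _ ≤ (2 * Z.I) * (ε ^ 2 / 8 * Z.I) := by gcongr
        _ = (ε / 2 * Z.I) ^ 2 := by ring
    have h5 : |ipF Z.η T (fun y => opA Z.η T y - T y)| ≤ ε / 2 * Z.I :=
      abs_le_of_sq_le_sq h4 (by positivity)
    have h6 : |nSq Z.η T - Z.I| ≤ ε / 2 * Z.I := hL.norm.trans (by gcongr)
    rw [e1]
    calc |nSq Z.η T + ipF Z.η T (fun y => opA Z.η T y - T y) - Z.I|
        = |(nSq Z.η T - Z.I) + ipF Z.η T (fun y => opA Z.η T y - T y)| := by ring_nf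
      _ ≤ |nSq Z.η T - Z.I| + |ipF Z.η T (fun y => opA Z.η T y - T y)| := abs_add_le _ _
      _ ≤ ε / 2 * Z.I + ε / 2 * Z.I := add_le_add h6 h5
      _ = ε * Z.I := by ring
  · set P : TT n (d + 1) →L[ℝ] TT n (d + 1) := slotL 0 Z.Pi with hP
    have hPn : ‖P‖ ≤ 1 := slotL_norm_le 0 Z.Pi_sq Z.Pi_symm
    have hU : IsTestV (fun y => P (T y)) := s5k_test_clm P hL.test
    have hU2 : MemLp (fun y => P (T y)) 2 (dm Z.η) := s5k_test_memLp Z.spd hU
    have e0 : (fun y => slot 0 Z.Pi (tD T y)) = tD (fun y => P (T y)) := by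
      funext y
      have := s5k_tD_slot (0 : Fin (d + 1)) Z.Pi
        ((hL.test.1.differentiable (by norm_cast)) y)
      exact this.symm
    have e1 := s5cr_energy Z.spd hU
    have e2 : (fun y => opA Z.η (fun z => P (T z)) y - P (T y))
        = fun y => P (opA Z.η T y - T y) := by
      funext y
      rw [s5k_opA_clm Z.η P (hL.test.1.of_le (by norm_cast)), map_sub]
    have hPR2 : MemLp (fun y => P (opA Z.η T y - T y)) 2 (dm Z.η) := s5k_clm_memLp P hR2
    have h1 : nSq Z.η (fun y => P (T y)) ≤ δ * Z.I := hL.proj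
    have h2 : nSq Z.η (fun y => P (opA Z.η T y - T y)) ≤ δ * Z.I :=
      (s5k_clm_le P hPn hR2).trans hL.eigen
    have h3 := s5k_ip_sq_le hU2 hPR2
    have h4 : ipF Z.η (fun y => P (T y)) (fun y => P (opA Z.η T y - T y)) ^ 2 ≤ (δ * Z.I) ^ 2 := by
      calc _ ≤ nSq Z.η (fun y => P (T y)) * nSq Z.η (fun y => P (opA Z.η T y - T y)) := h3
        _ ≤ (δ * Z.I) * (δ * Z.I) := mul_le_mul h1 h2 (s5k_nSq_nonneg _ _) (by positivity)
        _ = (δ * Z.I) ^ 2 := by ring
    have h5 := (abs_le.1 (abs_le_of_sq_le_sq h4 (by positivity))).2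
    rw [e0, e1, e2]
    calc _ ≤ δ * Z.I + δ * Z.I := add_le_add h1 h5
      _ = (2 * δ) * Z.I := by ring
      _ ≤ ε * Z.I := by gcongr; linarith

end Claimed.Agent.R259
end

/- ===== packed: Claimed.Agent.R259.S5ConCorr ===== -/
section
/-
Row 259 (S0499), Lemma 5.4 (induction step): the correlations (leaf L-s5c-corr).
Blueprint owner: helper202.  Proved by helper202.
-/
set_option autoImplicit false

open MeasureTheory
open scoped ContDiff BigOperators Matrix
open Claimed.Agent.R260 (Mx)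

namespace Claimed.Agent.R259

variable {n : ℕ}

/-! ### Step 3: the correlations (5.correlations) (leaf L-s5c-corr) -/

theorem s5cc_vecT_memLp {η : EE n → ℝ} {w : EE n → EE n} (hw : MemLp w 2 (dm η)) :
    MemLp (vecT w) 2 (dm η) := by
  have h := s5k_clm_memLp (vecL (n := n)).toContinuousLinearEquiv.toContinuousLinearMap hw
  have e : vecT w = fun y => (vecL (n := n)).toContinuousLinearEquiv.toContinuousLinearMap (w y) := by
    funext y
    rw [vecT_eq]
    rfl
  rw [e]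
  exact h

/-- Cauchy-Schwarz with explicit budgets -/
theorem s5cc_err {V : Type} [NormedAddCommGroup V] [InnerProductSpace ℝ V] {η : EE n → ℝ}
    {G R : EE n → V} (hG : MemLp G 2 (dm η)) (hR : MemLp R 2 (dm η)) {B δ θ I : ℝ} (hI : 0 < I)
    (hB : 0 ≤ B) (hθ : 0 ≤ θ) (hBδ : B * δ ≤ θ ^ 2) (h1 : nSq η G ≤ B * I) (h2 : nSq η R ≤ δ * I) :
    |ipF η G R| ≤ θ * I := by
  refine abs_le_of_sq_le_sq ?_ (by positivity)
  calc ipF η G R ^ 2 ≤ nSq η G * nSq η R := s5k_ip_sq_le hG hR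
    _ ≤ (B * I) * (δ * I) := mul_le_mul h1 h2 (s5k_nSq_nonneg _ _) (by positivity)
    _ = (B * δ) * I ^ 2 := by ring
    _ ≤ θ ^ 2 * I ^ 2 := by gcongr
    _ = (θ * I) ^ 2 := by ring

/-- `⟨D^j g_r, T_j⟩ ≈ e^{-r} I` for `j ≤ l` and `⟨D^{l+1} g_r, D T_l⟩ ≈ e^{-r} I`.
Induction on `j`: `⟨D^{j+1}g, D T_j⟩ = ⟨D^j g, A T_j⟩` (`s5k_ibp_tD`), errors by Cauchy-Schwarz and
`‖D^j g_r‖² ≤ j! r^{-j} · 2 I` (Bessel). -/
theorem s5c_corr (hB : BesselGoal) (l : ℕ) {r : ℝ} (hr : 0 < r) {ε : ℝ} (hε : 0 < ε) :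
    ∃ δ : ℝ, 0 < δ ∧
    ∀ (n : ℕ) (Z : HiInput n) (T : (l : ℕ) → EE n → TT n (l + 1)),
      |predM Z.η Z.w r - Real.exp (-r)| ≤ δ → Z.Chain l T δ →
      (∀ j ≤ l, |ipF Z.η (Z.gD r j) (T j) - Real.exp (-r) * Z.I| ≤ ε * Z.I) ∧
      |ipF Z.η (Z.gD r (l + 1)) (tD (T l)) - Real.exp (-r) * Z.I| ≤ ε * Z.I := by
  set B : ℝ := 2 * ∑ j ∈ Finset.range (l + 2), (j.factorial : ℝ) / r ^ j with hBdef
  have hterm : ∀ j : ℕ, 0 < (j.factorial : ℝ) / r ^ j := fun j =>
    div_pos (by exact_mod_cast j.factorial_pos) (pow_pos hr j)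
  have hB0 : 0 < B := by
    have : 0 < ∑ j ∈ Finset.range (l + 2), (j.factorial : ℝ) / r ^ j :=
      Finset.sum_pos (fun j _ => hterm j) ⟨0, by simp⟩
    positivity
  set θ : ℝ := ε / (2 * l + 4) with hθdef
  have hθ0 : 0 < θ := by positivity
  refine ⟨min (min 1 θ) (θ ^ 2 / B), by positivity, ?_⟩
  intro n Z T hm hC
  set δ := min (min 1 θ) (θ ^ 2 / B) with hδ
  have hδ0 : 0 < δ := by positivity
  have hδ1 : δ ≤ 1 := (min_le_left _ _).trans (min_le_left _ _)
  have hδ2 : δ ≤ θ := (min_le_left _ _).trans (min_le_right _ _)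
  have hδ3 : B * δ ≤ θ ^ 2 := by
    have : δ ≤ θ ^ 2 / B := min_le_right _ _
    rw [le_div_iff₀ hB0] at this
    linarith
  have hI : 0 < Z.I := Z.I_pos
  obtain ⟨hGs, hG2, hG0, hBes⟩ := hB n Z r hr
  set e : ℝ := Real.exp (-r) with he
  have he1 : e ≤ 1 := by
    rw [he]; exact Real.exp_le_one_iff.2 (by linarith)
  have hm2 : predM Z.η Z.w r ≤ 2 := by
    have := (abs_le.1 hm).2
    linarith
  -- bound of the derivatives of `g_r`
  have hGB : ∀ j ≤ l + 1, nSq Z.η (Z.gD r j) ≤ B * Z.I := by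
    intro j hj
    have h1 : r ^ j / (j.factorial : ℝ) * nSq Z.η (Z.gD r j)
        ≤ ∑ j ∈ Finset.range (l + 1 + 1), r ^ j / (j.factorial : ℝ) * nSq Z.η (Z.gD r j) :=
      Finset.single_le_sum
        (f := fun j => r ^ j / (j.factorial : ℝ) * nSq Z.η (Z.gD r j))
        (fun i _ => mul_nonneg (by positivity) (s5k_nSq_nonneg _ _))
        (Finset.mem_range.2 (by omega))
    have h2 : r ^ j / (j.factorial : ℝ) * nSq Z.η (Z.gD r j) ≤ 2 * Z.I :=
      h1.trans ((hBes (l + 1)).trans (by gcongr))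
    have h3 : (j.factorial : ℝ) / r ^ j
        ≤ ∑ j ∈ Finset.range (l + 2), (j.factorial : ℝ) / r ^ j :=
      Finset.single_le_sum (f := fun j : ℕ => (j.factorial : ℝ) / r ^ j)
        (fun i _ => (hterm i).le) (Finset.mem_range.2 (by omega))
    have hf : (0 : ℝ) < (j.factorial : ℝ) := by exact_mod_cast j.factorial_pos
    have hrj : 0 < r ^ j := pow_pos hr j
    calc nSq Z.η (Z.gD r j)
        = ((j.factorial : ℝ) / r ^ j) * (r ^ j / (j.factorial : ℝ) * nSq Z.η (Z.gD r j)) := by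
          field_simp
      _ ≤ ((j.factorial : ℝ) / r ^ j) * (2 * Z.I) := by gcongr
      _ ≤ (∑ j ∈ Finset.range (l + 2), (j.factorial : ℝ) / r ^ j) * (2 * Z.I) := by gcongr
      _ = B * Z.I := by rw [hBdef]; ring
  have herr : ∀ j ≤ l + 1, ∀ R : EE n → TT n (j + 1), MemLp R 2 (dm Z.η) →
      nSq Z.η R ≤ δ * Z.I → |ipF Z.η (Z.gD r j) R| ≤ θ * Z.I := fun j hj R hR h2 =>
    s5cc_err (hG2 j) hR hI hB0.le hθ0.le hδ3 (hGB j hj) h2
  have hT2 : ∀ j ≤ l, MemLp (T j) 2 (dm Z.η) := fun j hj =>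
    s5k_test_memLp Z.spd (hC.lvl j hj).test
  have hAT2 : ∀ j ≤ l, MemLp (opA Z.η (T j)) 2 (dm Z.η) := fun j hj =>
    s5k_test_memLp Z.spd (s5k_opA_test Z.spd (hC.lvl j hj).test)
  have hDT2 : ∀ j ≤ l, MemLp (tD (T j)) 2 (dm Z.η) := fun j hj =>
    s5k_test_memLp Z.spd (s5k_tD_test (hC.lvl j hj).test)
  -- from `a_j` to `c_j`
  have hc : ∀ j ≤ l, |ipF Z.η (Z.gD r (j + 1)) (tD (T j)) - ipF Z.η (Z.gD r j) (T j)|
      ≤ θ * Z.I := by
    intro j hj
    have e1 : ipF Z.η (Z.gD r (j + 1)) (tD (T j)) = ipF Z.η (Z.gD r j) (opA Z.η (T j)) :=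
      s5k_ibp_tD Z.spd ((hGs j).of_le (by norm_cast)) (hC.lvl j hj).test
    have e2 := s5k_ip_sub_right (hG2 j) (hAT2 j hj) (hT2 j hj)
    rw [e1, ← e2]
    exact herr j (by omega) _ ((hAT2 j hj).sub (hT2 j hj)) (hC.lvl j hj).eigen
  have main : ∀ j ≤ l, |ipF Z.η (Z.gD r j) (T j) - e * Z.I| ≤ (2 * j + 2) * θ * Z.I := by
    intro j
    induction j with
    | zero =>
      intro _
      have hw2 : MemLp (vecT Z.w) 2 (dm Z.η) := s5cc_vecT_memLp Z.w_L2
      have e2 := s5k_ip_sub_right (hG2 0) (hT2 0 (Nat.zero_le _)) hw2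
      have e3 : ipF Z.η (Z.gD r 0) (vecT Z.w) = predM Z.η Z.w r * Z.I := by
        rw [s5k_ip_comm]; exact hG0
      have h1 := herr 0 (by omega) _ ((hT2 0 (Nat.zero_le _)).sub hw2) hC.zero
      have h1' : |ipF Z.η (Z.gD r 0) (fun y => T 0 y - vecT Z.w y)| ≤ θ * Z.I := h1
      rw [e2, e3] at h1'
      have h2 : |predM Z.η Z.w r * Z.I - e * Z.I| ≤ θ * Z.I := by
        rw [← sub_mul, abs_mul, abs_of_pos hI]
        gcongr
        exact hm.trans hδ2
      calc |ipF Z.η (Z.gD r 0) (T 0) - e * Z.I|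
          = |(ipF Z.η (Z.gD r 0) (T 0) - predM Z.η Z.w r * Z.I)
              + (predM Z.η Z.w r * Z.I - e * Z.I)| := by ring_nf
        _ ≤ _ := abs_add_le _ _
        _ ≤ θ * Z.I + θ * Z.I := add_le_add h1' h2
        _ = (2 * ((0 : ℕ) : ℝ) + 2) * θ * Z.I := by push_cast; ring
    | succ j ih =>
      intro hj
      have hj' : j ≤ l := by omega
      have h0 := ih hj'
      have h1 := hc j hj'
      have e2 := s5k_ip_sub_right (hG2 (j + 1)) (hDT2 j hj') (hT2 (j + 1) hj)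
      have h2 : |ipF Z.η (Z.gD r (j + 1)) (fun y => tD (T j) y - T (j + 1) y)| ≤ θ * Z.I :=
        herr (j + 1) (by omega) _ ((hDT2 j hj').sub (hT2 (j + 1) hj)) (hC.deriv j (by omega))
      rw [e2] at h2
      calc |ipF Z.η (Z.gD r (j + 1)) (T (j + 1)) - e * Z.I|
          = |-(ipF Z.η (Z.gD r (j + 1)) (tD (T j)) - ipF Z.η (Z.gD r (j + 1)) (T (j + 1)))
              + ((ipF Z.η (Z.gD r (j + 1)) (tD (T j)) - ipF Z.η (Z.gD r j) (T j))
              + (ipF Z.η (Z.gD r j) (T j) - e * Z.I))| := by ring_nf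
        _ ≤ |-(ipF Z.η (Z.gD r (j + 1)) (tD (T j)) - ipF Z.η (Z.gD r (j + 1)) (T (j + 1)))|
              + (|ipF Z.η (Z.gD r (j + 1)) (tD (T j)) - ipF Z.η (Z.gD r j) (T j)|
              + |ipF Z.η (Z.gD r j) (T j) - e * Z.I|) :=
            (abs_add_le _ _).trans (add_le_add le_rfl (abs_add_le _ _))
        _ ≤ θ * Z.I + (θ * Z.I + (2 * j + 2) * θ * Z.I) := by
            rw [abs_neg]
            exact add_le_add h2 (add_le_add h1 h0)
        _ = (2 * ((j + 1 : ℕ) : ℝ) + 2) * θ * Z.I := by push_cast; ring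
  have hlθ : (2 * (l : ℝ) + 4) * θ = ε := by
    rw [hθdef]; field_simp
  constructor
  · intro j hj
    refine (main j hj).trans ?_
    have : (j : ℝ) ≤ l := by exact_mod_cast hj
    have h3 : (2 * (j : ℝ) + 2) * θ ≤ ε := by
      rw [← hlθ]; gcongr; linarith
    gcongr
  · have h0 := main l le_rfl
    have h1 := hc l le_rfl
    calc |ipF Z.η (Z.gD r (l + 1)) (tD (T l)) - e * Z.I|
        = |(ipF Z.η (Z.gD r (l + 1)) (tD (T l)) - ipF Z.η (Z.gD r l) (T l))
            + (ipF Z.η (Z.gD r l) (T l) - e * Z.I)| := by ring_nf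
      _ ≤ _ := abs_add_le _ _
      _ ≤ θ * Z.I + (2 * l + 2) * θ * Z.I := add_le_add h1 h0
      _ = ((2 * (l : ℝ) + 3) * θ) * Z.I := by ring
      _ ≤ ε * Z.I := by
          rw [← hlθ]; gcongr; linarith

end Claimed.Agent.R259
end

/- ===== packed: Claimed.Agent.R259.S5ConReal ===== -/
section
/-
Row 259 (S0499), Lemma 5.4 (induction step): the Bessel budget, real variable part (leaf L-s5c-real).
Blueprint owner: helper202.  LEAF FILE: the seat that claims the leaf owns this file, keeps names and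
statements and replaces every `sorry` by a proof (helper lemmas with the same prefix are welcome).
-/
set_option autoImplicit false

open MeasureTheory
open scoped ContDiff BigOperators Matrix
open Claimed.Agent.R260 (Mx)

namespace Claimed.Agent.R259

variable {n : ℕ}

/-! ### Step 4: the Bessel budget, real variable part (leaf L-s5c-real) -/

set_option maxHeartbeats 1600000 in
/-- (5.budget-error), (5.budget-energy) for normalised numbers `A j = ‖D^j g_r‖²/I`,
`B j = ‖V_j‖²/I`, `c j = ⟨D^j g_r, V_j⟩/I`.  Uses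
`e^r - ∑_{j ≤ L} r^j/j! ≤ r^{L+1}/(L+1)! (1 + r)` (`Real.exp_bound'` with `n = L + 2`). -/
theorem s5c_budget_real (L : ℕ) {r : ℝ} (hr : 0 < r) (hr1 : r ≤ 1 / 4) {ε : ℝ} (hε : 0 < ε) :
    ∃ δ : ℝ, 0 < δ ∧ ∀ A B c : ℕ → ℝ, (∀ j, 0 ≤ A j) → (∀ j ≤ L, c j ^ 2 ≤ A j * B j) →
      (∀ j ≤ L, |B j - 1| ≤ δ) → (∀ j ≤ L, |c j - Real.exp (-r)| ≤ δ) →
      ∑ j ∈ Finset.range (L + 2), r ^ j / (j.factorial : ℝ) * A j ≤ Real.exp (-r) + δ →
      Real.exp r ^ 2 * A L - 2 * Real.exp r * c L + B L ≤ 2 * r + ε ∧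
        Real.exp r ^ 2 * A (L + 1) ≤ 1 + 2 * r + ε := by
  have hEe : Real.exp r * Real.exp (-r) = 1 := by
    rw [← Real.exp_add]
    simp
  have he34 : 3 / 4 ≤ Real.exp (-r) := by
    have := Real.add_one_le_exp (-r)
    linarith
  have hE0 : 0 < Real.exp r := Real.exp_pos r
  set E := Real.exp r with hEdef
  set e' := Real.exp (-r) with he'def
  have hE43 : E ≤ 4 / 3 := by nlinarith
  have hEsq : E ^ 2 ≤ 16 / 9 := by nlinarith
  have hw0 : ∀ j : ℕ, 0 < r ^ j / (j.factorial : ℝ) := fun j => by positivity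
  have hS : ∀ k, ∑ j ∈ Finset.range k, r ^ j / (j.factorial : ℝ) ≤ E :=
    fun k => Real.sum_le_exp_of_nonneg hr.le k
  set W := r ^ (L + 1) / ((L + 1).factorial : ℝ) with hW
  set wL := r ^ L / (L.factorial : ℝ) with hwL
  have hW0 : 0 < W := hw0 (L + 1)
  have hwL0 : 0 < wL := hw0 L
  have hWle : W ≤ wL * r := by
    have h1 : W = wL * (r / ((L : ℝ) + 1)) := by
      rw [hW, hwL, pow_succ, Nat.factorial_succ]
      push_cast
      field_simp
    rw [h1]
    refine mul_le_mul_of_nonneg_left ?_ hwL0.le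
    rw [div_le_iff₀ (by positivity)]
    have : 0 ≤ r * (L : ℝ) := by positivity
    linarith
  have hwL1 : wL ≤ 1 := by
    rw [hwL, div_le_one (by positivity)]
    calc r ^ L ≤ 1 := pow_le_one₀ hr.le (by linarith)
      _ ≤ (L.factorial : ℝ) := by exact_mod_cast Nat.factorial_pos L
  have hF3 : E ≤ ∑ j ∈ Finset.range (L + 1), r ^ j / (j.factorial : ℝ) + W * (1 + r) := by
    have h := Real.exp_bound' hr.le (by linarith : r ≤ 1) (n := L + 2) (by omega)
    rw [Finset.sum_range_succ] at h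
    have h2 : r ^ (L + 2) * (((L + 2 : ℕ) : ℝ) + 1) /
        (((L + 2).factorial : ℝ) * ((L + 2 : ℕ) : ℝ)) ≤ W * r := by
      have hf : (0 : ℝ) < ((L + 1).factorial : ℝ) := by positivity
      have e1 : ((L + 2).factorial : ℝ) = ((L : ℝ) + 2) * ((L + 1).factorial : ℝ) := by
        rw [Nat.factorial_succ]
        push_cast
        ring
      have e2 : r ^ (L + 2) = r ^ (L + 1) * r := pow_succ _ _
      rw [e1, e2, hW]
      push_cast
      rw [div_le_iff₀ (by positivity)]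
      have e3 : r ^ (L + 1) / ((L + 1).factorial : ℝ) * r *
          (((L : ℝ) + 2) * ((L + 1).factorial : ℝ) * ((L : ℝ) + 2)) =
          r ^ (L + 1) * r * (((L : ℝ) + 2) * ((L : ℝ) + 2)) := by
        field_simp
      rw [e3]
      refine mul_le_mul_of_nonneg_left ?_ (by positivity)
      nlinarith [Nat.cast_nonneg (α := ℝ) L]
    have h3 : W * (1 + r) = W + W * r := by ring
    rw [h3]
    linarith
  refine ⟨min (1 / 2) (ε * W / 20), lt_min (by norm_num) (by positivity), ?_⟩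
  have hδ0 : 0 < min (1 / 2) (ε * W / 20) := lt_min (by norm_num) (by positivity)
  have hδ2 : min (1 / 2) (ε * W / 20) ≤ 1 / 2 := min_le_left _ _
  have hδW : 20 * min (1 / 2) (ε * W / 20) ≤ ε * W := by
    have := min_le_right (1 / 2 : ℝ) (ε * W / 20)
    linarith
  set δ := min (1 / 2) (ε * W / 20) with hδ
  intro A B c hA hcs hB hc hbud
  have hF1 : ∀ j ≤ L, 1 - 5 * δ ≤ E ^ 2 * A j := by
    intro j hj
    have h1 := hcs j hj
    have h2 := abs_le.1 (hB j hj)
    have h3 := abs_le.1 (hc j hj)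
    have hc0 : 0 ≤ e' - δ := by linarith
    have h4 : (e' - δ) ^ 2 ≤ c j ^ 2 := pow_le_pow_left₀ hc0 (by linarith) 2
    have h5 : A j * B j ≤ A j * (1 + δ) := mul_le_mul_of_nonneg_left (by linarith) (hA j)
    have h6 : (e' - δ) ^ 2 ≤ A j * (1 + δ) := by linarith
    have h7 : E ^ 2 * (e' - δ) ^ 2 ≤ E ^ 2 * (A j * (1 + δ)) :=
      mul_le_mul_of_nonneg_left h6 (by positivity)
    have h8 : E ^ 2 * (e' - δ) ^ 2 = (1 - δ * E) ^ 2 := by
      have : E * (e' - δ) = 1 - δ * E := by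
        rw [mul_sub, hEe]
        ring
      rw [← mul_pow, this]
    have h9 : 1 - 4 * δ ≤ (1 - δ * E) ^ 2 := by
      have h10 : δ * E ≤ δ * (4 / 3) := mul_le_mul_of_nonneg_left hE43 hδ0.le
      nlinarith [sq_nonneg (δ * E)]
    by_contra hcon
    rw [not_le] at hcon
    have h11 : E ^ 2 * (A j * (1 + δ)) < (1 - 5 * δ) * (1 + δ) := by
      have : E ^ 2 * (A j * (1 + δ)) = (E ^ 2 * A j) * (1 + δ) := by ring
      rw [this]
      exact mul_lt_mul_of_pos_right hcon (by linarith)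
    nlinarith [sq_nonneg δ]
  have hF4 : ∑ j ∈ Finset.range (L + 2), r ^ j / (j.factorial : ℝ) * (E ^ 2 * A j) ≤
      E + δ * E ^ 2 := by
    have h1 : ∑ j ∈ Finset.range (L + 2), r ^ j / (j.factorial : ℝ) * (E ^ 2 * A j) =
        E ^ 2 * ∑ j ∈ Finset.range (L + 2), r ^ j / (j.factorial : ℝ) * A j := by
      rw [Finset.mul_sum]
      refine Finset.sum_congr rfl fun j _ => ?_
      ring
    rw [h1]
    calc E ^ 2 * ∑ j ∈ Finset.range (L + 2), r ^ j / (j.factorial : ℝ) * A j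
        ≤ E ^ 2 * (e' + δ) := mul_le_mul_of_nonneg_left hbud (by positivity)
      _ = E + δ * E ^ 2 := by
          have : E ^ 2 * e' = E := by rw [sq, mul_assoc, hEe, mul_one]
          rw [mul_add, this]
          ring
  have hlow : ∀ k ≤ L + 1, (1 - 5 * δ) * ∑ j ∈ Finset.range k, r ^ j / (j.factorial : ℝ) ≤
      ∑ j ∈ Finset.range k, r ^ j / (j.factorial : ℝ) * (E ^ 2 * A j) := by
    intro k hk
    rw [Finset.mul_sum]
    refine Finset.sum_le_sum fun j hj => ?_
    have hj' : j ≤ L := by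
      have := Finset.mem_range.1 hj
      omega
    rw [mul_comm]
    exact mul_le_mul_of_nonneg_left (hF1 j hj') (hw0 j).le
  have ha0 : ∀ j, 0 ≤ E ^ 2 * A j := fun j => mul_nonneg (by positivity) (hA j)
  have t1 : δ * E ^ 2 ≤ δ * (16 / 9) := mul_le_mul_of_nonneg_left hEsq hδ0.le
  rw [Finset.sum_range_succ] at hF4
  -- second claim
  have hc2 : W * (E ^ 2 * A (L + 1)) ≤ W * (1 + r) + 14 * δ := by
    have hl := hlow (L + 1) le_rfl
    have hS1 := hS (L + 1)
    set S1 := ∑ j ∈ Finset.range (L + 1), r ^ j / (j.factorial : ℝ) with hS1def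
    have t2 : δ * S1 ≤ δ * (4 / 3) := mul_le_mul_of_nonneg_left (hS1.trans hE43) hδ0.le
    have t3 : (1 - 5 * δ) * S1 = S1 - 5 * (δ * S1) := by ring
    rw [t3] at hl
    linarith
  -- first claim
  have hc1 : wL * (E ^ 2 * A L) ≤ wL + W * (1 + r) + 14 * δ := by
    rw [Finset.sum_range_succ] at hF4 hF3
    have hl := hlow L (Nat.le_succ L)
    have hS0 := hS L
    set S0 := ∑ j ∈ Finset.range L, r ^ j / (j.factorial : ℝ) with hS0def
    have t2 : δ * S0 ≤ δ * (4 / 3) := mul_le_mul_of_nonneg_left (hS0.trans hE43) hδ0.le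
    have t3 : (1 - 5 * δ) * S0 = S0 - 5 * (δ * S0) := by ring
    rw [t3] at hl
    have t4 : 0 ≤ W * (E ^ 2 * A (L + 1)) := mul_nonneg hW0.le (ha0 _)
    linarith
  have hrW : 0 ≤ r * W := by positivity
  have hεW : 0 ≤ ε * W := by positivity
  constructor
  · have h2 := abs_le.1 (hB L le_rfl)
    have h3 := abs_le.1 (hc L le_rfl)
    have h4 : 1 - δ * E ≤ E * c L := by
      have : E * (e' - δ) ≤ E * c L := mul_le_mul_of_nonneg_left (by linarith) hE0.le
      rw [mul_sub, hEe] at this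
      linarith
    have h5 : δ * E ≤ δ * (4 / 3) := mul_le_mul_of_nonneg_left hE43 hδ0.le
    have h6 : E ^ 2 * A L ≤ 1 + 5 / 4 * r + ε / 4 := by
      refine le_of_mul_le_mul_left ?_ hwL0
      have u1 : W * (1 + r) ≤ wL * r * (5 / 4) :=
        mul_le_mul hWle (by linarith) (by linarith) (by positivity)
      have u2 : ε * W ≤ ε * (wL * r) := mul_le_mul_of_nonneg_left hWle hε.le
      have u3 : ε * (wL * r) ≤ ε * (wL * (1 / 4)) :=
        mul_le_mul_of_nonneg_left (mul_le_mul_of_nonneg_left hr1 hwL0.le) hε.le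
      have u4 : wL * (1 + 5 / 4 * r + ε / 4) = wL + wL * r * (5 / 4) + ε * (wL * (1 / 4)) := by ring
      rw [u4]
      linarith
    have h7 : ε * W ≤ ε := by
      have : W ≤ 1 := by nlinarith
      nlinarith
    have h8 : 2 * E * c L = 2 * (E * c L) := by ring
    rw [h8]
    linarith
  · refine le_of_mul_le_mul_left ?_ hW0
    have u4 : W * (1 + 2 * r + ε) = W * (1 + r) + r * W + ε * W := by ring
    rw [u4]
    linarith only [hc2, hδW, hrW, hδ0]

end Claimed.Agent.R259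
end

/- ===== packed: Claimed.Agent.R259.S5ConVec ===== -/
section
/-
Row 259 (S0499), Lemma 5.4: facts on the order one tensor field `vecT w` (used by the leaves
L-s5c-sym and L-s5c-lvl0).  Owner: helper202.  Sorry-free in file.
-/
set_option autoImplicit false

open MeasureTheory
open scoped ContDiff BigOperators Matrix
open Claimed.Agent.R260 (Mx)

namespace Claimed.Agent.R259

variable {n : ℕ}

theorem s5cv_fun (w : EE n → EE n) :
    vecT w = fun y => (vecL (n := n)).toContinuousLinearEquiv.toContinuousLinearMap (w y) := by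
  funext y
  rw [vecT_eq]
  rfl

theorem s5cv_contDiff {w : EE n → EE n} (hw : ContDiff ℝ ∞ w) : ContDiff ℝ ∞ (vecT w) := by
  rw [s5cv_fun]
  exact (vecL (n := n)).toContinuousLinearEquiv.toContinuousLinearMap.contDiff.comp hw

theorem s5cv_opA (η : EE n → ℝ) {w : EE n → EE n} (hw : ContDiff ℝ 2 w) :
    opA η (vecT w) = vecT (opA η w) := by
  funext y
  rw [s5cv_fun, s5k_opA_clm η _ hw, vecT_eq]
  rfl

theorem s5cv_norm (w : EE n → EE n) (y : EE n) : ‖vecT w y‖ = ‖w y‖ := by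
  rw [vecT_eq, LinearIsometryEquiv.norm_map]

theorem s5cv_nSq (η : EE n → ℝ) (w : EE n → EE n) : nSq η (vecT w) = nSq η w := by
  unfold nSq
  simp_rw [s5cv_norm]

theorem s5cv_sub (v w : EE n → EE n) (y : EE n) :
    vecT v y - vecT w y = vecT (fun z => v z - w z) y := by
  rw [vecT_eq, vecT_eq, vecT_eq, map_sub]

theorem s5cv_dI {w : EE n → EE n} {y : EE n} (hw : DifferentiableAt ℝ w y) (i : Fin n) :
    dI i (vecT w) y = vecL (dI i w y) := by
  rw [s5cv_fun, s5k_dI_clm _ hw]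
  rfl

theorem s5cv_tD_apply {w : EE n → EE n} {y : EE n} (hw : DifferentiableAt ℝ w y)
    (α : Idx n (1 + 1)) : tD (vecT w) y α = dI (α 1) w y (α 0) := by
  rw [s5k_tD_apply, s5cv_dI hw, vecL_apply]
  rfl

theorem s5cv_mean {η : EE n → ℝ} {w : EE n → EE n} (hw : Integrable w (dm η)) :
    meanF η (vecT w) = vecL (meanF η w) := by
  rw [s5cv_fun, s5k_clm_mean _ hw]
  rfl

theorem s5cv_slot (M : Mx n) (w : EE n → EE n) (y : EE n) :
    slot 0 M (vecT w y) = vecT (fun z => mv M (w z)) y := by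
  rw [vecT_eq, vecT_eq, slot_vecL]

theorem s5cv_hs {d : ℕ} (T : EE n → TT n d) (y : EE n) : hsSq (fderiv ℝ T y) = ‖tD T y‖ ^ 2 := by
  rw [s5k_hsSq, s5k_tD_norm]
  rfl

theorem s5cv_opA_memLp (Z : HiInput n) : MemLp (opA Z.η (vecT Z.w)) 2 (dm Z.η) := by
  rw [s5cv_opA Z.η (Z.w_smooth.of_le (by norm_cast))]
  exact s5cc_vecT_memLp Z.Aw_L2

theorem s5cv_tD_memLp (Z : HiInput n) : MemLp (tD (vecT Z.w)) 2 (dm Z.η) := by
  have h := (op_core_classical_vec Z.spd.1 Z.spd.2.1 (s5cv_contDiff Z.w_smooth)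
    (s5cc_vecT_memLp Z.w_L2) (s5cv_opA_memLp Z)).1
  rw [memLp_two_iff_integrable_sq_norm
    (s5k_tD_contDiff (s5cv_contDiff Z.w_smooth)).continuous.aestronglyMeasurable]
  simpa only [s5cv_hs] using h

end Claimed.Agent.R259
end

/- ===== packed: Claimed.Agent.R259.S5ConSym ===== -/
section
/-
Row 259 (S0499), Lemma 5.4 (induction step): near symmetry of the raw derivative (leaf L-s5c-sym).
Blueprint owner: helper202.  Proved by helper202.
-/
set_option autoImplicit false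

open MeasureTheory
open scoped ContDiff BigOperators Matrix
open Claimed.Agent.R260 (Mx)

namespace Claimed.Agent.R259

variable {n : ℕ}

/-! ### Step 5: `V` is nearly symmetric (leaf L-s5c-nearsymm) -/

theorem s5cs_perm_memLp {d : ℕ} {η : EE n → ℝ} (σ : Equiv.Perm (Fin d)) {V : EE n → TT n d}
    (hV : MemLp V 2 (dm η)) : MemLp (fun y => tPerm σ (V y)) 2 (dm η) :=
  s5k_clm_memLp (tPermL σ) hV

theorem s5cs_perm_le {d : ℕ} {η : EE n → ℝ} (σ : Equiv.Perm (Fin d)) {V : EE n → TT n d}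
    (hV : MemLp V 2 (dm η)) : nSq η (fun y => tPerm σ (V y)) ≤ nSq η V :=
  s5k_clm_le (tPermL σ) (tPermL_norm_le σ) hV

/-- word length argument: if every adjacent transposition moves `V` by at most `c`, then every
permutation moves `V` by at most `k c`, with `k` depending only on the permutation. -/
theorem s5cs_word (m : ℕ) (σ : Equiv.Perm (Fin (m + 1))) : ∃ k : ℕ,
    ∀ (n : ℕ) (η : EE n → ℝ) (V : EE n → TT n (m + 1)) (c : ℝ), MemLp V 2 (dm η) → 0 ≤ c →
      (∀ i : Fin m, nSq η (fun y => tPerm (Equiv.swap i.castSucc i.succ) (V y) - V y) ≤ c) →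
      nSq η (fun y => tPerm σ (V y) - V y) ≤ k * c := by
  have hσ : σ ∈ Submonoid.closure (Set.range fun i : Fin m => Equiv.swap i.castSucc i.succ) := by
    rw [Equiv.Perm.mclosure_swap_castSucc_succ]
    trivial
  induction hσ using Submonoid.closure_induction with
  | mem x hx =>
    obtain ⟨i, rfl⟩ := hx
    refine ⟨1, fun n η V c _ _ h => ?_⟩
    simpa using h i
  | one =>
    refine ⟨0, fun n η V c _ _ _ => ?_⟩
    simp [tPerm_one, nSq]
  | mul x y _ _ hx hy =>
    obtain ⟨k1, h1⟩ := hx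
    obtain ⟨k2, h2⟩ := hy
    refine ⟨2 * k2 + 2 * k1, fun n η V c hV hc h => ?_⟩
    have a1 := h1 n η V c hV hc h
    have a2 := h2 n η V c hV hc h
    have m2 : MemLp (fun z => tPerm y (V z) - V z) 2 (dm η) := (s5cs_perm_memLp y hV).sub hV
    have m1 : MemLp (fun z => tPerm x (V z) - V z) 2 (dm η) := (s5cs_perm_memLp x hV).sub hV
    have a3 := (s5cs_perm_le x m2).trans a2
    have a4 := s5k_nSq_add_le (s5cs_perm_memLp x m2) m1
    have e : (fun z => tPerm x (tPerm y (V z) - V z) + (tPerm x (V z) - V z))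
        = fun z => tPerm (x * y) (V z) - V z := by
      funext z
      rw [tPerm_mul, map_sub]
      abel
    rw [e] at a4
    push_cast
    nlinarith

/-- one transposition: `W` invariant and close to `V` -/
theorem s5cs_gen {d : ℕ} {η : EE n → ℝ} (τ : Equiv.Perm (Fin d)) {V W : EE n → TT n d}
    (hV : MemLp V 2 (dm η)) (hW : MemLp W 2 (dm η)) (hτ : ∀ y, tPerm τ (W y) = W y) {c : ℝ}
    (h : nSq η (fun y => W y - V y) ≤ c) : nSq η (fun y => tPerm τ (V y) - V y) ≤ 4 * c := by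
  have m1 : MemLp (fun y => V y - W y) 2 (dm η) := hV.sub hW
  have m2 : MemLp (fun y => W y - V y) 2 (dm η) := hW.sub hV
  have a1 := s5cs_perm_le τ m1
  rw [s5k_nSq_sub_comm V W] at a1
  have a2 := s5k_nSq_add_le (s5cs_perm_memLp τ m1) m2
  have e : (fun z => tPerm τ (V z - W z) + (W z - V z)) = fun z => tPerm τ (V z) - V z := by
    funext z
    rw [map_sub, hτ]
    abel
  rw [e] at a2
  linarith

/-- exact invariance of `D T` under transpositions of the old slots, `T` symmetric -/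
theorem s5cs_old {d : ℕ} {T : EE n → TT n d} (hT : Differentiable ℝ T) (hs : ∀ y, TSym (T y))
    (a b : Fin d) (y : EE n) : tPerm (Equiv.swap a.castSucc b.castSucc) (tD T y) = tD T y := by
  rw [← s5k_tD_swap a b (hT y)]
  congr 1
  funext z
  exact (tSym_iff _).1 (hs z) _

/-- `D w` is symmetric -/
theorem s5cs_Dw (Z : HiInput n) (y : EE n) :
    tPerm (Equiv.swap (Fin.last 1) (Fin.last 0).castSucc) (tD (vecT Z.w) y) = tD (vecT Z.w) y := by
  have hd : DifferentiableAt ℝ Z.w y := (Z.w_smooth.differentiable (by norm_cast)) y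
  ext α
  rw [tPerm_apply, s5cv_tD_apply hd, s5cv_tD_apply hd]
  have e1 : (α ∘ Equiv.swap (Fin.last 1) (Fin.last 0).castSucc) 1 = α 0 := by
    simp only [Function.comp_apply]
    congr 1
  have e0 : (α ∘ Equiv.swap (Fin.last 1) (Fin.last 0).castSucc) 0 = α 1 := by
    simp only [Function.comp_apply]
    congr 1
  rw [e1, e0]
  exact Z.w_symm y _ _

/-- If `l ≥ 1`: `V = D T_l` is invariant under the adjacent transpositions of its first `l + 1`
slots (`s5k_tD_swap`), `S_0` under the transposition of the last two slots; these generate the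
symmetric group (`Equiv.Perm.mclosure_swap_castSucc_succ`), each generator costs at most
`2 ‖S_0 - V‖`.  If `l = 0`: `V = D T_0` is close to `D w`, which is symmetric (`Z.w_symm`). -/
theorem s5c_nearsymm (l : ℕ) {ε : ℝ} (hε : 0 < ε) : ∃ δ : ℝ, 0 < δ ∧
    ∀ (n : ℕ) (Z : HiInput n) (T : (l : ℕ) → EE n → TT n (l + 1)) (S0 : EE n → TT n (l + 1 + 1)),
      Z.Chain l T δ → MemLp S0 2 (dm Z.η) →
      (1 ≤ l → ∀ y, tPerm (Equiv.swap (Fin.last (l + 1)) (Fin.last l).castSucc) (S0 y) = S0 y) →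
      nSq Z.η (fun y => S0 y - tD (T l) y) ≤ δ * Z.I →
      ∀ σ : Equiv.Perm (Fin (l + 1 + 1)),
        nSq Z.η (fun y => tPerm σ (tD (T l) y) - tD (T l) y) ≤ ε * Z.I := by
  choose k hk using s5cs_word (l + 1)
  set K : ℕ := ∑ σ, k σ with hK
  have hkK : ∀ σ, (k σ : ℝ) ≤ K := by
    intro σ
    have : k σ ≤ K := Finset.single_le_sum (f := k) (fun _ _ => Nat.zero_le _) (Finset.mem_univ σ)
    exact_mod_cast this
  refine ⟨ε / (4 * (K + 1)), by positivity, ?_⟩
  intro n Z T S0 hC hS0 hsym hcl σ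
  set δ : ℝ := ε / (4 * (K + 1)) with hδ
  have hδ0 : 0 < δ := by positivity
  have hI : 0 < Z.I := Z.I_pos
  have hLv := hC.lvl l le_rfl
  have hV : MemLp (tD (T l)) 2 (dm Z.η) := s5k_test_memLp Z.spd (s5k_tD_test hLv.test)
  have hTd : Differentiable ℝ (T l) := hLv.test.1.differentiable (by norm_cast)
  -- the last transposition
  have hlast : nSq Z.η (fun y => tPerm (Equiv.swap (Fin.last (l + 1)) (Fin.last l).castSucc)
      (tD (T l) y) - tD (T l) y) ≤ 4 * (δ * Z.I) := by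
    rcases Nat.eq_zero_or_pos l with rfl | hl
    · refine s5cs_gen _ hV (s5cv_tD_memLp Z) (s5cs_Dw Z) ?_
      rw [s5k_nSq_sub_comm]
      exact hC.zeroD
    · exact s5cs_gen _ hV hS0 (hsym hl) hcl
  have hgen : ∀ i : Fin (l + 1), nSq Z.η (fun y => tPerm (Equiv.swap i.castSucc i.succ)
      (tD (T l) y) - tD (T l) y) ≤ 4 * (δ * Z.I) := by
    intro i
    refine Fin.lastCases ?_ (fun j => ?_) i
    · rw [Fin.succ_last, Equiv.swap_comm]
      exact hlast
    · rw [Fin.succ_castSucc]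
      have : (fun y => tPerm (Equiv.swap j.castSucc.castSucc j.succ.castSucc)
          (tD (T l) y) - tD (T l) y) = fun _ => 0 := by
        funext y
        rw [s5cs_old hTd hLv.symm, sub_self]
      rw [this]
      simp only [nSq, norm_zero, ne_eq, OfNat.ofNat_ne_zero, not_false_eq_true, zero_pow,
        integral_zero]
      positivity
  have h1 := hk σ n Z.η (tD (T l)) (4 * (δ * Z.I)) hV (by positivity) hgen
  refine h1.trans ?_
  have h2 : (k σ : ℝ) * (4 * (δ * Z.I)) ≤ ((K : ℝ) + 1) * (4 * (δ * Z.I)) := by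
    have := hkK σ
    gcongr
    linarith
  refine h2.trans (le_of_eq ?_)
  rw [hδ]
  field_simp

end Claimed.Agent.R259
end

/- ===== packed: Claimed.Agent.R259.S5ConB ===== -/
section
/-
Row 259 (S0499), Lemma 5.4 (induction step of the hierarchy): GLUE, part 1 (the Bessel budget).
Owner: helper202.
-/
set_option autoImplicit false

open MeasureTheory
open scoped ContDiff BigOperators Matrix
open Claimed.Agent.R260 (Mx)

namespace Claimed.Agent.R259

variable {n : ℕ}

/-- (5.budget-error), (5.budget-energy): GLUE of `s5c_corr`, `s5c_raw`, `BesselGoal`,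
`s5c_budget_real`. -/
theorem s5c_budget (hB : BesselGoal) (l : ℕ) {r : ℝ} (hr : 0 < r) (hr1 : r ≤ 1 / 4) {ε : ℝ}
    (hε : 0 < ε) : ∃ δ : ℝ, 0 < δ ∧
    ∀ (n : ℕ) (Z : HiInput n) (T : (l : ℕ) → EE n → TT n (l + 1)),
      |predM Z.η Z.w r - Real.exp (-r)| ≤ δ → Z.Chain l T δ →
      nSq Z.η (fun y => Real.exp r • Z.gD r (l + 1) y - tD (T l) y) ≤ (2 * r + ε) * Z.I ∧
      nSq Z.η (fun y => Real.exp r • Z.gD r (l + 2) y) ≤ (1 + 2 * r + ε) * Z.I := by
  obtain ⟨δ0, hδ0, hreal⟩ := s5c_budget_real (l + 1) hr hr1 hε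
  obtain ⟨δ1, hδ1, hcorr⟩ := s5c_corr hB l hr hδ0
  obtain ⟨δ2, hδ2, hraw⟩ := s5c_raw hδ0
  refine ⟨min δ0 (min δ1 δ2), by positivity, ?_⟩
  intro n Z T hp hch
  have hI : 0 < Z.I := Z.I_pos
  have hd0 : min δ0 (min δ1 δ2) ≤ δ0 := min_le_left _ _
  have hd1 : min δ0 (min δ1 δ2) ≤ δ1 := (min_le_right _ _).trans (min_le_left _ _)
  have hd2 : min δ0 (min δ1 δ2) ≤ δ2 := (min_le_right _ _).trans (min_le_right _ _)
  obtain ⟨hsm, hL2, hw, hbes⟩ := hB n Z r hr
  obtain ⟨hc1, hc2⟩ := hcorr n Z T (hp.trans hd1) (s5c_chain_mono hch hd1)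
  obtain ⟨hr1', -⟩ := hraw n Z l (T l) (s5c_lvl_mono (hch.lvl l le_rfl) hd2)
  have hTl : ∀ j ≤ l, MemLp (T j) 2 (dm Z.η) := fun j hj =>
    s5k_test_memLp Z.spd (hch.lvl j hj).test
  have hV : MemLp (tD (T l)) 2 (dm Z.η) :=
    s5k_test_memLp Z.spd (s5k_tD_test (hch.lvl l le_rfl).test)
  set A : ℕ → ℝ := fun j => nSq Z.η (Z.gD r j) / Z.I with hA
  set B : ℕ → ℝ := fun j => if j ≤ l then nSq Z.η (T j) / Z.I else nSq Z.η (tD (T l)) / Z.I with hBd
  set c : ℕ → ℝ := fun j => if j ≤ l then ipF Z.η (Z.gD r j) (T j) / Z.I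
    else ipF Z.η (Z.gD r (l + 1)) (tD (T l)) / Z.I with hcd
  have key := hreal A B c (fun j => div_nonneg (s5k_nSq_nonneg _ _) hI.le) ?_ ?_ ?_ ?_
  · obtain ⟨k1, k2⟩ := key
    have hBl : B (l + 1) = nSq Z.η (tD (T l)) / Z.I := by simp [hBd]
    have hcl : c (l + 1) = ipF Z.η (Z.gD r (l + 1)) (tD (T l)) / Z.I := by simp [hcd]
    constructor
    · have e1 := s5k_nSq_sub ((hL2 (l + 1)).const_smul (Real.exp r)) hV
      have e2 : nSq Z.η (Real.exp r • Z.gD r (l + 1)) = Real.exp r ^ 2 * nSq Z.η (Z.gD r (l + 1)) :=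
        s5k_nSq_smul _ _
      have e3 : ipF Z.η (Real.exp r • Z.gD r (l + 1)) (tD (T l)) =
          Real.exp r * ipF Z.η (Z.gD r (l + 1)) (tD (T l)) := by
        rw [s5k_ip_comm, s5k_ip_comm (Z.gD r (l + 1))]
        exact s5k_ip_smul_right _ _ _
      have e4 : nSq Z.η (fun y => (Real.exp r • Z.gD r (l + 1)) y - tD (T l) y) =
          nSq Z.η (fun y => Real.exp r • Z.gD r (l + 1) y - tD (T l) y) := rfl
      rw [e2, e3, e4] at e1
      rw [e1]
      rw [hBl, hcl] at k1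
      have : (Real.exp r ^ 2 * A (l + 1) - 2 * Real.exp r *
          (ipF Z.η (Z.gD r (l + 1)) (tD (T l)) / Z.I) + nSq Z.η (tD (T l)) / Z.I) * Z.I =
          Real.exp r ^ 2 * nSq Z.η (Z.gD r (l + 1)) -
            2 * (Real.exp r * ipF Z.η (Z.gD r (l + 1)) (tD (T l))) + nSq Z.η (tD (T l)) := by
        simp only [hA]
        field_simp
      rw [← this]
      exact mul_le_mul_of_nonneg_right k1 hI.le
    · rw [s5k_nSq_smul]
      have : (Real.exp r ^ 2 * A (l + 1 + 1)) * Z.I = Real.exp r ^ 2 * nSq Z.η (Z.gD r (l + 2)) := by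
        simp only [hA]
        field_simp
      rw [← this]
      exact mul_le_mul_of_nonneg_right k2 hI.le
  · -- Cauchy-Schwarz
    intro j hj
    by_cases hjl : j ≤ l
    · have := s5k_ip_sq_le (hL2 j) (hTl j hjl)
      simp only [hA, hBd, hcd, if_pos hjl]
      rw [div_pow, div_mul_div_comm, ← sq]
      gcongr
    · have hj' : j = l + 1 := by omega
      subst hj'
      have := s5k_ip_sq_le (hL2 (l + 1)) hV
      simp only [hA, hBd, hcd, if_neg hjl]
      rw [div_pow, div_mul_div_comm, ← sq]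
      gcongr
  · intro j hj
    by_cases hjl : j ≤ l
    · have := (s5c_lvl_mono (hch.lvl j hjl) hd0).norm
      simp only [hBd, if_pos hjl]
      rw [div_sub_one hI.ne', abs_div, abs_of_pos hI, div_le_iff₀ hI]
      exact this
    · simp only [hBd, if_neg hjl]
      rw [div_sub_one hI.ne', abs_div, abs_of_pos hI, div_le_iff₀ hI]
      exact hr1'
  · intro j hj
    by_cases hjl : j ≤ l
    · have := hc1 j hjl
      simp only [hcd, if_pos hjl]
      rw [div_sub' hI.ne', abs_div, abs_of_pos hI, div_le_iff₀ hI, mul_comm Z.I]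
      exact this
    · simp only [hcd, if_neg hjl]
      rw [div_sub' hI.ne', abs_div, abs_of_pos hI, div_le_iff₀ hI, mul_comm Z.I]
      exact hc2
  · have h1 := hbes (l + 1 + 1)
    have h2 : ∑ j ∈ Finset.range (l + 1 + 2), r ^ j / (j.factorial : ℝ) * A j =
        (∑ j ∈ Finset.range (l + 1 + 1 + 1), r ^ j / (j.factorial : ℝ) * nSq Z.η (Z.gD r j)) / Z.I := by
      rw [Finset.sum_div]
      refine Finset.sum_congr rfl fun j _ => ?_
      simp only [hA]
      ring
    rw [h2, div_le_iff₀ hI]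
    have h3 : predM Z.η Z.w r ≤ Real.exp (-r) + δ0 := by
      have := (abs_le.mp (hp.trans hd0)).2
      linarith
    calc _ ≤ predM Z.η Z.w r * Z.I := h1
      _ ≤ _ := mul_le_mul_of_nonneg_right h3 hI.le

end Claimed.Agent.R259
end

/- ===== packed: Claimed.Agent.R259.S5ConC ===== -/
section
/-
Row 259 (S0499), Lemma 5.4 (induction step of the hierarchy): GLUE, part 2.
Owner: helper202.
-/
set_option autoImplicit false

open MeasureTheory
open scoped ContDiff BigOperators Matrix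
open Claimed.Agent.R260 (Mx)

namespace Claimed.Agent.R259

variable {n d : ℕ}

/-- a field which is nearly invariant under all slot permutations is close to its symmetrisation -/
theorem s5k_symz_close {η : EE n → ℝ} {V : EE n → TT n d} (hV : MemLp V 2 (dm η)) {a : ℝ}
    (h : ∀ σ : Equiv.Perm (Fin d), nSq η (fun y => tPerm σ (V y) - V y) ≤ a) :
    nSq η (fun y => tSymz (V y) - V y) ≤ a := by
  have hm : ∀ σ : Equiv.Perm (Fin d), MemLp (fun y => tPerm σ (V y) - V y) 2 (dm η) := fun σ =>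
    (s5k_clm_memLp (tPermL σ) hV).sub hV
  have hs : MemLp (fun y => tSymz (V y) - V y) 2 (dm η) := (s5k_clm_memLp tSymz hV).sub hV
  have hN : (0 : ℝ) < (d.factorial : ℝ) := by exact_mod_cast d.factorial_pos
  calc nSq η (fun y => tSymz (V y) - V y)
      ≤ ∫ y, ((d.factorial : ℝ)⁻¹) * ∑ σ : Equiv.Perm (Fin d), ‖tPerm σ (V y) - V y‖ ^ 2 ∂(dm η) := by
        unfold nSq
        refine integral_mono (s5k_int_sq hs) ?_ fun y => tSymz_sub_sq_le (V y)
        exact (integrable_finsetSum _ fun σ _ => s5k_int_sq (hm σ)).const_mul _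
    _ = ((d.factorial : ℝ)⁻¹) * ∑ σ : Equiv.Perm (Fin d), nSq η (fun y => tPerm σ (V y) - V y) := by
        rw [integral_const_mul, integral_finsetSum _ fun σ _ => s5k_int_sq (hm σ)]
        rfl
    _ ≤ ((d.factorial : ℝ)⁻¹) * ∑ _σ : Equiv.Perm (Fin d), a := by
        gcongr with σ _
        exact h σ
    _ = a := by
        rw [Finset.sum_const, Finset.card_univ, Fintype.card_perm, Fintype.card_fin, nsmul_eq_mul]
        field_simp

/-- GLUE: the raw derivative `V = D T_l` is normalised, centred, has small projected energy, and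
is close to a smooth symmetric field `S` with `‖DS‖² ≤ (1+ε) I`. -/
theorem s5c_pre (hB : BesselGoal) (hC : CenterGoal) (l : ℕ) {ε : ℝ} (hε : 0 < ε) :
    ∃ δ : ℝ, 0 < δ ∧
    ∀ (n : ℕ) (Z : HiInput n) (T : (l : ℕ) → EE n → TT n (l + 1)), Z.Small δ → Z.Chain l T δ →
      (|nSq Z.η (tD (T l)) - Z.I| ≤ ε * Z.I ∧
        nSq Z.η (fun y => slot 0 Z.Pi (tD (T l) y)) ≤ ε * Z.I ∧
        ‖meanF Z.η (tD (T l))‖ ^ 2 ≤ ε * Z.I) ∧
      ∃ S : EE n → TT n (l + 1 + 1), ContDiff ℝ ∞ S ∧ MemLp S 2 (dm Z.η) ∧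
        MemLp (tD S) 2 (dm Z.η) ∧ (∀ y, TSym (S y)) ∧
        nSq Z.η (fun y => S y - tD (T l) y) ≤ ε * Z.I ∧ nSq Z.η (tD S) ≤ (1 + ε) * Z.I := by
  obtain ⟨δc, hδc, hcen⟩ := hC ε hε
  set εn := min (ε / 4) (δc / 4) with hεn
  have hεn0 : 0 < εn := by positivity
  obtain ⟨δn, hδn, hns⟩ := s5c_nearsymm l hεn0
  set κ := min δn (ε / 4) with hκ
  have hκ0 : 0 < κ := by positivity
  set r := min (1 / 8) (min (κ / 4) (ε / 4)) with hrdef
  have hr : 0 < r := by positivity
  have hr8 : r ≤ 1 / 8 := min_le_left _ _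
  set εb := min (κ / 2) (ε / 2) with hεb
  have hεb0 : 0 < εb := by positivity
  obtain ⟨δb, hδb, hbud⟩ := s5c_budget hB l hr (by linarith) hεb0
  set εr := min ε (δc / 4) with hεr
  have hεr0 : 0 < εr := by positivity
  obtain ⟨δr, hδr, hraw⟩ := s5c_raw hεr0
  refine ⟨min (min δb δn) (min (min δc δr) r), by positivity, ?_⟩
  intro n Z T hS hch
  set δ := min (min δb δn) (min (min δc δr) r) with hδ
  have hdb : δ ≤ δb := (min_le_left _ _).trans (min_le_left _ _)
  have hdn : δ ≤ δn := (min_le_left _ _).trans (min_le_right _ _)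
  have hdc : δ ≤ δc := (min_le_right _ _).trans ((min_le_left _ _).trans (min_le_left _ _))
  have hdr : δ ≤ δr := (min_le_right _ _).trans ((min_le_left _ _).trans (min_le_right _ _))
  have hdrr : δ ≤ r := (min_le_right _ _).trans (min_le_right _ _)
  have hI : 0 < Z.I := Z.I_pos
  have hprob := s5k_prob Z.spd
  obtain ⟨hsm, hL2, -, -⟩ := hB n Z r hr
  have hpred : |predM Z.η Z.w r - Real.exp (-r)| ≤ δ := hS.pred r hdrr (by linarith)
  obtain ⟨hb1, hb2⟩ := hbud n Z T (hpred.trans hdb) (s5c_chain_mono hch hdb)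
  obtain ⟨hr1, hr2⟩ := hraw n Z l (T l) (s5c_lvl_mono (hch.lvl l le_rfl) hdr)
  have hTt : IsTestV (T l) := (hch.lvl l le_rfl).test
  have hVt : IsTestV (tD (T l)) := s5k_tD_test hTt
  have hV : MemLp (tD (T l)) 2 (dm Z.η) := s5k_test_memLp Z.spd hVt
  -- numerical facts
  have hκ1 : 2 * r + εb ≤ κ := by
    have h1 : r ≤ κ / 4 := (min_le_right _ _).trans (min_le_left _ _)
    have h2 : εb ≤ κ / 2 := min_le_left _ _
    linarith
  have hκ2 : 2 * r + εb ≤ ε := by
    have h1 : r ≤ ε / 4 := (min_le_right _ _).trans (min_le_right _ _)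
    have h2 : εb ≤ ε / 2 := min_le_right _ _
    linarith
  set S0 : EE n → TT n (l + 1 + 1) := fun y => Real.exp r • Z.gD r (l + 1) y with hS0
  have hS0sm : ContDiff ℝ ∞ S0 := (hsm (l + 1)).const_smul (Real.exp r)
  have hS0L : MemLp S0 2 (dm Z.η) := (hL2 (l + 1)).const_smul (Real.exp r)
  have hS0V : nSq Z.η (fun y => S0 y - tD (T l) y) ≤ κ * Z.I :=
    hb1.trans (mul_le_mul_of_nonneg_right hκ1 hI.le)
  -- near symmetry of `V`
  have hsymS0 : 1 ≤ l → ∀ y,
      tPerm (Equiv.swap (Fin.last (l + 1)) (Fin.last l).castSucc) (S0 y) = S0 y := by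
    intro hl y
    obtain ⟨l', rfl⟩ : ∃ l', l = l' + 1 := ⟨l - 1, by omega⟩
    simp only [hS0, map_smul]
    congr 1
    exact s5k_tD_tD_swap ((hsm l').of_le (by norm_cast)) y
  have hnear := hns n Z T S0 (s5c_chain_mono hch hdn) hS0L hsymS0
    (hS0V.trans (mul_le_mul_of_nonneg_right (min_le_left _ _) hI.le))
  -- the projected energy on the last slot
  have hlast : nSq Z.η (fun y => slot (Fin.last (l + 1)) Z.Pi (tD (T l) y)) ≤ δc * Z.I := by
    set τ : Equiv.Perm (Fin (l + 1 + 1)) := Equiv.swap 0 (Fin.last (l + 1)) with hτ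
    have hG : MemLp (fun y => tPerm τ (tD (T l) y)) 2 (dm Z.η) := s5k_clm_memLp (tPermL τ) hV
    have h1 : nSq Z.η (fun y => slotL (Fin.last (l + 1)) Z.Pi (tPerm τ (tD (T l) y))) ≤
        δc / 4 * Z.I := by
      have e : ∀ y, slotL (Fin.last (l + 1)) Z.Pi (tPerm τ (tD (T l) y)) =
          tPerm τ (slot 0 Z.Pi (tD (T l) y)) := by
        intro y
        rw [slot_perm, slotL_apply, hτ, Equiv.swap_apply_left]
      unfold nSq
      simp_rw [e, LinearIsometryEquiv.norm_map]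
      exact hr2.trans (mul_le_mul_of_nonneg_right (min_le_right _ _) hI.le)
    have h2 : nSq Z.η (fun y => tD (T l) y - tPerm τ (tD (T l) y)) ≤ δc / 4 * Z.I := by
      rw [s5k_nSq_sub_comm]
      exact (hnear τ).trans (mul_le_mul_of_nonneg_right (min_le_right _ _) hI.le)
    have h3 := s5k_cl_clm (slotL (Fin.last (l + 1)) Z.Pi)
      (slotL_norm_le _ Z.Pi_sq Z.Pi_symm) hV hG h1 h2
    simp only [slotL_apply] at h3
    linarith
  have hmean := hcen n Z l (T l) (s5c_small_mono hS hdc) (s5c_lvl_mono (hch.lvl l le_rfl) hdc) hlast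
  refine ⟨⟨hr1.trans (mul_le_mul_of_nonneg_right (min_le_left _ _) hI.le),
    hr2.trans (mul_le_mul_of_nonneg_right (min_le_left _ _) hI.le), hmean⟩, ?_⟩
  -- the symmetric approximant
  have hSsm : ContDiff ℝ ∞ (fun y => tSymz (S0 y)) := tSymz.contDiff.comp hS0sm
  have htS0 : ∀ y, tD S0 y = Real.exp r • Z.gD r (l + 2) y := fun y =>
    s5k_tD_smul _ ((hsm (l + 1)).differentiable (by simp) y)
  have htS0L : MemLp (tD S0) 2 (dm Z.η) := by
    have : tD S0 = fun y => Real.exp r • Z.gD r (l + 2) y := funext htS0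
    rw [this]
    exact (hL2 (l + 2)).const_smul (Real.exp r)
  have hle : ∀ y, ‖tD (fun y => tSymz (S0 y)) y‖ ^ 2 ≤ ‖tD S0 y‖ ^ 2 := by
    intro y
    rw [s5k_tD_norm, s5k_tD_norm]
    exact s5k_dSq_clm_le tSymz tSymz_norm_le (hS0sm.differentiable (by simp) y)
  have htSL : MemLp (tD (fun y => tSymz (S0 y))) 2 (dm Z.η) := by
    refine htS0L.mono (s5k_tD_contDiff hSsm).continuous.aestronglyMeasurable
      (Filter.Eventually.of_forall fun y => ?_)
    exact abs_le_of_sq_le_sq' (hle y) (norm_nonneg _) |>.2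
  refine ⟨fun y => tSymz (S0 y), hSsm, s5k_clm_memLp tSymz hS0L, htSL, fun y => tSymz_sym _, ?_, ?_⟩
  · have h1 : nSq Z.η (fun y => tSymz (S0 y) - tSymz (tD (T l) y)) ≤ ε / 4 * Z.I := by
      have := s5k_clm_le tSymz tSymz_norm_le (hS0L.sub hV)
      have e : (fun y => tSymz ((S0 - tD (T l)) y)) =
          fun y => tSymz (S0 y) - tSymz (tD (T l) y) := by
        funext y; simp
      rw [e] at this
      refine this.trans (hS0V.trans (mul_le_mul_of_nonneg_right (min_le_right _ _) hI.le))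
    have h2 : nSq Z.η (fun y => tSymz (tD (T l) y) - tD (T l) y) ≤ ε / 4 * Z.I :=
      s5k_symz_close hV fun σ =>
        (hnear σ).trans (mul_le_mul_of_nonneg_right (min_le_left _ _) hI.le)
    have := s5k_cl_trans (s5k_clm_memLp tSymz hS0L) (s5k_clm_memLp tSymz hV) hV h1 h2
    linarith
  · calc nSq Z.η (tD (fun y => tSymz (S0 y))) ≤ nSq Z.η (tD S0) :=
          integral_mono (s5k_int_sq htSL) (s5k_int_sq htS0L) hle
      _ = nSq Z.η (fun y => Real.exp r • Z.gD r (l + 2) y) := by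
          unfold nSq; simp_rw [htS0]
      _ ≤ (1 + 2 * r + εb) * Z.I := hb2
      _ ≤ (1 + ε) * Z.I := mul_le_mul_of_nonneg_right (by linarith) hI.le

end Claimed.Agent.R259
end

/- ===== packed: Claimed.Agent.R259.S5ConD ===== -/
section
/-
Row 259 (S0499), Lemma 5.4 (induction step of the hierarchy): GLUE, part 3 = the step.
Owner: helper202.
-/
set_option autoImplicit false

open MeasureTheory
open scoped ContDiff BigOperators Matrix
open Claimed.Agent.R260 (Mx)

namespace Claimed.Agent.R259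

variable {n d : ℕ}

/-- LEMMA 5.4, induction step (statement of `s5_step`), from the Bessel inequality, the smoothing
lemma and the centring lemma. -/
theorem s5c_step (hB : BesselGoal) (hSm : SmoothGoal) (hC : CenterGoal) (l : ℕ) :
    ∀ ε : ℝ, 0 < ε → ∃ δ : ℝ, 0 < δ ∧
    ∀ (n : ℕ) (Z : HiInput n) (T : (l : ℕ) → EE n → TT n (l + 1)), Z.Small δ → Z.Chain l T δ →
      ∃ T' : EE n → TT n (l + 1 + 1), Z.Lvl T' ε ∧
        nSq Z.η (fun y => tD (T l) y - T' y) ≤ ε * Z.I := by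
  intro ε hε
  obtain ⟨C, hsmooth⟩ := hSm
  set C' := max C 1 with hC'
  have hC'1 : 1 ≤ C' := le_max_right _ _
  have hCC' : C ≤ C' := le_max_left _ _
  obtain ⟨δ1, hδ1, hδ1ε, hδ11, hn1⟩ := s5k_cl_norm hε
  set κ := δ1 / 4 with hκ
  have hκ0 : 0 < κ := by positivity
  set δs := min (1 / 4) (κ / (4 * C')) with hδs
  have hδs0 : 0 < δs := by positivity
  have hδs4 : δs ≤ 1 / 4 := min_le_left _ _
  have hCδs : C' * δs ≤ κ / 4 := by
    have : δs ≤ κ / (4 * C') := min_le_right _ _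
    calc C' * δs ≤ C' * (κ / (4 * C')) := by gcongr
      _ = κ / 4 := by field_simp
  obtain ⟨δ2, hδ2, hδ2s, -, hn2⟩ := s5k_cl_norm hδs0
  set εp := min δ2 (min (κ / 4) (δs / 4)) with hεp
  have hεp0 : 0 < εp := by positivity
  have hεp2 : εp ≤ δ2 := min_le_left _ _
  have hεpκ : εp ≤ κ / 4 := (min_le_right _ _).trans (min_le_left _ _)
  have hεps : εp ≤ δs / 4 := (min_le_right _ _).trans (min_le_right _ _)
  obtain ⟨δp, hδp, hpre⟩ := s5c_pre hB hC l hεp0
  refine ⟨min δp δs, by positivity, ?_⟩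
  intro n Z T hS hch
  have hI : 0 < Z.I := Z.I_pos
  have hprob := s5k_prob Z.spd
  obtain ⟨⟨hV1, hV2, hV3⟩, S, hSsm, hSL, hSD, hSsym, hSV, hSE⟩ :=
    hpre n Z T (s5c_small_mono hS (min_le_left _ _)) (s5c_chain_mono hch (min_le_left _ _))
  have hS' := s5c_small_mono hS (min_le_right δp δs)
  have hVt : IsTestV (tD (T l)) := s5k_tD_test (hch.lvl l le_rfl).test
  have hV : MemLp (tD (T l)) 2 (dm Z.η) := s5k_test_memLp Z.spd hVt
  -- hypotheses of the smoothing lemma
  have hm : ‖meanF Z.η S‖ ^ 2 ≤ δs * Z.I := by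
    have := s5k_cl_mean hSL hV hV3 hSV
    nlinarith
  have hnS : |nSq Z.η S - Z.I| ≤ δs * Z.I :=
    hn2 n Z.η _ S (tD (T l)) Z.I hI hSL hV
      (hSV.trans (mul_le_mul_of_nonneg_right hεp2 hI.le))
      (hV1.trans (mul_le_mul_of_nonneg_right hεp2 hI.le))
  have hE : nSq Z.η (fD S) ≤ (1 + δs) * Z.I := by
    rw [s5k_nSq_fD_tD]
    refine hSE.trans (mul_le_mul_of_nonneg_right ?_ hI.le)
    linarith
  obtain ⟨φ, hφt, hφ1, -, hφ3⟩ := hsmooth n (Idx n (l + 1 + 1)) Z.η Z.lam Z.I δs Z.spd Z.pi hI hδs0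
    hδs4 hS'.lam_lo hS'.lam_hi S hSsm hSL ((s5k_memLp_fD_tD hSsm).mpr hSD) hm hnS hE
  have hφL : MemLp φ 2 (dm Z.η) := s5k_test_memLp Z.spd hφt
  have hCI : C * δs * Z.I ≤ κ / 4 * Z.I := by
    refine mul_le_mul_of_nonneg_right ?_ hI.le
    calc C * δs ≤ C' * δs := by gcongr
      _ ≤ κ / 4 := hCδs
  -- the new level
  have hT't : IsTestV (fun y => tSymz (φ y)) := s5k_test_clm tSymz hφt
  have hT'L : MemLp (fun y => tSymz (φ y)) 2 (dm Z.η) := s5k_test_memLp Z.spd hT't
  have hclose : nSq Z.η (fun y => tSymz (φ y) - tD (T l) y) ≤ κ * Z.I := by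
    have h1 : nSq Z.η (fun y => tSymz (φ y) - S y) ≤ κ / 4 * Z.I := by
      have := s5k_clm_le tSymz tSymz_norm_le (hφL.sub hSL)
      have e : (fun y => tSymz ((φ - S) y)) = fun y => tSymz (φ y) - S y := by
        funext y
        simp [tSymz_of_sym (hSsym y)]
      rw [e] at this
      exact this.trans (hφ1.trans hCI)
    have h2 : nSq Z.η (fun y => S y - tD (T l) y) ≤ κ / 4 * Z.I :=
      hSV.trans (mul_le_mul_of_nonneg_right hεpκ hI.le)
    have := s5k_cl_trans hT'L hSL hV h1 h2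
    linarith
  have hκε : κ ≤ ε / 4 := by
    simp only [hκ]; linarith
  refine ⟨fun y => tSymz (φ y), ⟨hT't, fun y => tSymz_sym _, ?_, ?_, ?_, ?_⟩, ?_⟩
  · refine hn1 n Z.η _ _ (tD (T l)) Z.I hI hT'L hV
      (hclose.trans (mul_le_mul_of_nonneg_right (by simp only [hκ]; linarith) hI.le))
      (hV1.trans (mul_le_mul_of_nonneg_right ?_ hI.le))
    simp only [hκ] at hεpκ
    linarith
  · have e : (fun y => opA Z.η (fun y => tSymz (φ y)) y - tSymz (φ y)) =
        fun y => tSymz ((fun y => opA Z.η φ y - φ y) y) := by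
      funext y
      rw [s5k_opA_clm Z.η tSymz (hφt.1.of_le (by norm_cast)) y]
      simp
    rw [e]
    have hAL : MemLp (fun y => opA Z.η φ y - φ y) 2 (dm Z.η) :=
      (s5k_test_memLp Z.spd (s5k_opA_test Z.spd hφt)).sub hφL
    refine (s5k_clm_le tSymz tSymz_norm_le hAL).trans (hφ3.trans (hCI.trans ?_))
    refine mul_le_mul_of_nonneg_right ?_ hI.le
    linarith
  · have := s5k_cl_mean hT'L hV hV3 hclose
    have h1 : εp * Z.I ≤ ε / 16 * Z.I := mul_le_mul_of_nonneg_right (by linarith) hI.le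
    have h2 : κ * Z.I ≤ ε / 4 * Z.I := mul_le_mul_of_nonneg_right hκε hI.le
    have h3 : 0 < ε * Z.I := by positivity
    linarith
  · have h0 : nSq Z.η (fun y => slotL 0 Z.Pi (tD (T l) y)) ≤ εp * Z.I := hV2
    have := s5k_cl_clm (slotL 0 Z.Pi) (slotL_norm_le _ Z.Pi_sq Z.Pi_symm) hT'L hV h0 hclose
    simp only [slotL_apply] at this
    have h1 : εp * Z.I ≤ ε / 16 * Z.I := mul_le_mul_of_nonneg_right (by linarith) hI.le
    have h2 : κ * Z.I ≤ ε / 4 * Z.I := mul_le_mul_of_nonneg_right hκε hI.le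
    have h3 : 0 < ε * Z.I := by positivity
    linarith
  · rw [s5k_nSq_sub_comm]
    refine hclose.trans (mul_le_mul_of_nonneg_right ?_ hI.le)
    linarith

end Claimed.Agent.R259
end

/- ===== packed: Claimed.Agent.R259.S5ConLvl0 ===== -/
section
/-
Row 259 (S0499), level zero of the hierarchy (leaf L-s5c-lvl0).
Blueprint owner: helper202.  Proved by helper202.

PROOF.  `f = vecT Z.w = vecL ∘ Z.w` is smooth, in `L²`, `opA η f = vecL ∘ opA η w ∈ L²`
(`s5k_opA_clm`).  `op_core_classical_vec` gives test fields `φ_k → f` in graph norm (including the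
derivative, `hsSq (fderiv φ_k - fderiv f) = ‖tD φ_k - tD f‖²` by `s5k_hsSq`, `s5k_tD_norm`,
`s5k_tD_sub`); take `k` large (tolerance `δ' I`, `I > 0`).  Then `Lvl`: `symm` by `tSym_one`; `norm`
by `s5k_cl_norm` (`nSq (vecT w) = I`); `eigen`: `(A-1)φ = (A-1)f + (Aφ - Af) - (φ - f)`; `mean` by
`s5k_cl_mean`; `proj` by `s5k_cl_clm` with `slotL 0 Pi` and `slot_vecL` (`Small.projw`).
-/
set_option autoImplicit false

open MeasureTheory
open scoped ContDiff BigOperators Matrix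
open Claimed.Agent.R260 (Mx)

namespace Claimed.Agent.R259

variable {n : ℕ}

theorem s5l_hs_sub {d : ℕ} {S T : EE n → TT n d} {y : EE n} (hS : DifferentiableAt ℝ S y)
    (hT : DifferentiableAt ℝ T y) :
    hsSq (fderiv ℝ S y - fderiv ℝ T y) = ‖tD S y - tD T y‖ ^ 2 := by
  rw [← fderiv_fun_sub hS hT, s5cv_hs, s5k_tD_sub hS hT]

/-- approximation of `vecT w` by a test field in graph norm -/
theorem s5l_approx (Z : HiInput n) {t : ℝ} (ht : 0 < t) : ∃ φ : EE n → TT n 1, IsTestV φ ∧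
    nSq Z.η (fun y => φ y - vecT Z.w y) ≤ t ∧ nSq Z.η (fun y => tD φ y - tD (vecT Z.w) y) ≤ t ∧
    nSq Z.η (fun y => opA Z.η φ y - opA Z.η (vecT Z.w) y) ≤ t := by
  obtain ⟨-, -, φ, hφ, h1, h2, h3⟩ := op_core_classical_vec Z.spd.1 Z.spd.2.1
    (s5cv_contDiff Z.w_smooth) (s5cc_vecT_memLp Z.w_L2) (s5cv_opA_memLp Z)
  have e1 := (tendsto_order.1 h1).2 t ht
  have e2 := (tendsto_order.1 h2).2 t ht
  have e3 := (tendsto_order.1 h3).2 t ht
  obtain ⟨k, a1, a2, a3⟩ := (e1.and (e2.and e3)).exists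
  refine ⟨φ k, hφ k, a1.le, ?_, a3.le⟩
  have hf : Differentiable ℝ (vecT Z.w) := (s5cv_contDiff Z.w_smooth).differentiable (by norm_cast)
  have hk : Differentiable ℝ (φ k) := (hφ k).1.differentiable (by norm_cast)
  simp only [s5l_hs_sub (hk _) (hf _)] at a2
  exact a2.le

theorem s5l_main : ∀ ε : ℝ, 0 < ε → ∃ δ : ℝ, 0 < δ ∧ ∀ (n : ℕ) (Z : HiInput n), Z.Small δ →
    ∃ T0 : EE n → TT n 1, Z.Lvl T0 ε ∧
      nSq Z.η (fun y => T0 y - vecT Z.w y) ≤ ε * Z.I ∧
      nSq Z.η (fun y => tD T0 y - tD (vecT Z.w) y) ≤ ε * Z.I := by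
  intro ε hε
  obtain ⟨δ1, hδ1, hδ1ε, -, hnorm⟩ := s5k_cl_norm hε
  refine ⟨min δ1 (ε / 10), by positivity, ?_⟩
  intro n Z hS
  set δ : ℝ := min δ1 (ε / 10) with hδ
  have hδ0 : 0 < δ := by positivity
  have hδa : δ ≤ δ1 := min_le_left _ _
  have hδb : δ ≤ ε / 10 := min_le_right _ _
  have hI : 0 < Z.I := Z.I_pos
  have := s5k_prob Z.spd
  obtain ⟨φ, hφ, a1, a2, a3⟩ := s5l_approx Z (t := δ * Z.I) (by positivity)
  have hf2 : MemLp (vecT Z.w) 2 (dm Z.η) := s5cc_vecT_memLp Z.w_L2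
  have hAf2 : MemLp (opA Z.η (vecT Z.w)) 2 (dm Z.η) := s5cv_opA_memLp Z
  have hφ2 : MemLp φ 2 (dm Z.η) := s5k_test_memLp Z.spd hφ
  have hAφ2 : MemLp (opA Z.η φ) 2 (dm Z.η) := s5k_test_memLp Z.spd (s5k_opA_test Z.spd hφ)
  have hmul : ∀ c : ℝ, c ≤ 10 → c * (δ * Z.I) ≤ ε * Z.I := by
    intro c hc
    have : c * δ ≤ ε := by nlinarith
    calc c * (δ * Z.I) = (c * δ) * Z.I := by ring
      _ ≤ ε * Z.I := by gcongr
  refine ⟨φ, ⟨hφ, fun y => tSym_one _, ?_, ?_, ?_, ?_⟩, ?_, ?_⟩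
  · refine hnorm n Z.η _ φ (vecT Z.w) Z.I hI hφ2 hf2 (a1.trans (by gcongr)) ?_
    rw [s5cv_nSq]
    have : nSq Z.η Z.w - Z.I = 0 := sub_self _
    rw [this, abs_zero]
    positivity
  · -- eigen
    have b1 : nSq Z.η (fun y => opA Z.η (vecT Z.w) y - vecT Z.w y) ≤ δ * Z.I := by
      rw [s5cv_opA Z.η (Z.w_smooth.of_le (by norm_cast))]
      simp only [s5cv_sub]
      rw [s5cv_nSq]
      exact hS.eigen
    have b2 : nSq Z.η (fun y => vecT Z.w y - φ y) ≤ δ * Z.I := by
      rw [s5k_nSq_sub_comm]; exact a1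
    have c1 := s5k_nSq_add_le (hAf2.sub hf2) (hf2.sub hφ2)
    have c2 := s5k_nSq_add_le (hAφ2.sub hAf2) ((hAf2.sub hf2).add (hf2.sub hφ2))
    have e : (fun y => (opA Z.η φ - opA Z.η (vecT Z.w)) y
        + ((opA Z.η (vecT Z.w) - vecT Z.w) + (vecT Z.w - φ)) y)
        = fun y => opA Z.η φ y - φ y := by
      funext y
      simp only [Pi.sub_apply, Pi.add_apply]
      abel
    rw [e] at c2
    have c1' : nSq Z.η ((opA Z.η (vecT Z.w) - vecT Z.w) + (vecT Z.w - φ))
        ≤ 2 * (δ * Z.I) + 2 * (δ * Z.I) := by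
      refine c1.trans ?_
      exact add_le_add (mul_le_mul_of_nonneg_left b1 (by norm_num))
        (mul_le_mul_of_nonneg_left b2 (by norm_num))
    have a3' : nSq Z.η (opA Z.η φ - opA Z.η (vecT Z.w)) ≤ δ * Z.I := a3
    refine le_trans ?_ (hmul 10 le_rfl)
    linarith
  · -- mean
    have b1 : ‖meanF Z.η (vecT Z.w)‖ ^ 2 ≤ δ * Z.I := by
      rw [s5cv_mean (Z.w_L2.integrable (by norm_num)), LinearIsometryEquiv.norm_map]
      exact hS.mean
    refine (s5k_cl_mean hφ2 hf2 b1 a1).trans (le_trans (le_of_eq ?_) (hmul 4 (by norm_num)))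
    ring
  · -- proj
    have b1 : nSq Z.η (fun y => slotL 0 Z.Pi (vecT Z.w y)) ≤ δ * Z.I := by
      simp only [slotL_apply, s5cv_slot]
      rw [s5cv_nSq]
      exact hS.projw
    have := s5k_cl_clm (slotL 0 Z.Pi) (slotL_norm_le 0 Z.Pi_sq Z.Pi_symm) hφ2 hf2 b1 a1
    refine le_trans this (le_trans (le_of_eq ?_) (hmul 4 (by norm_num)))
    ring
  · exact a1.trans (le_trans (le_of_eq (one_mul _).symm) (hmul 1 (by norm_num)))
  · exact a2.trans (le_trans (le_of_eq (one_mul _).symm) (hmul 1 (by norm_num)))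

end Claimed.Agent.R259
end
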