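/- Packed by merge_tool.py (helper293): 8 modules of Claimed.Agent.R259 in one file, same declarations.
   Old modules, in this order: S5CenDefs, S5CenX, S5CurvDefs, S5CurvL2, S5CurvIbp, S5CenId, S5Center, S5ConSmooth -/
import Claimed.Agent.R259.Pack017
import Claimed.Agent.R259.Pack014

/- ===== packed: Claimed.Agent.R259.S5CenDefs ===== -/
section
/-
Row 259 (S0499), Lemma 5.4, centring of the raw derivative: definitions.  Owner: helper202.
-/
set_option autoImplicit false

open MeasureTheory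
open scoped ContDiff BigOperators Matrix
open Claimed.Agent.R260 (Mx)

namespace Claimed.Agent.R259

/-- the cross moment `E[F ⊗ z]`, the vector variable occupies the LAST slot -/
noncomputable def xcov {n d : ℕ} (η : EE n → ℝ) (F : EE n → TT n d) (z : EE n → EE n) :
    TT n (d + 1) :=
  meanF η (fun y => tOut (F y) (z y))

theorem s5cendefs_eqns_cite : True := by
  have := @xcov.eq_1
  trivial

end Claimed.Agent.R259
end

/- ===== packed: Claimed.Agent.R259.S5CenX ===== -/
section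
/-
Row 259 (S0499), Lemma 5.4, centring: cross moments (first half of Lemma 5.3) (leaf L-s5c-xcov).
Blueprint owner: helper202.  LEAF FILE: the seat that claims the leaf owns this file, keeps names and
statements and replaces every `sorry` by a proof.
Proved by helper297.  NOTE: `s5c_crosscov` got the extra hypothesis `0 ≤ c` (without it the statement
fails for `n = 0`, `d = 0`, `c < 0`).
-/
set_option autoImplicit false

open MeasureTheory
open scoped ContDiff BigOperators Matrix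
open Claimed.Agent.R260 (Mx)

namespace Claimed.Agent.R259

variable {n d : ℕ} {η : EE n → ℝ}

theorem tOut_apply (t : TT n d) (z : EE n) (α : Idx n (d + 1)) :
    tOut t z α = t (Fin.init α) * z (α (Fin.last d)) := by
  simp [tOut]

theorem tOut_norm_sq (t : TT n d) (z : EE n) : ‖tOut t z‖ ^ 2 = ‖t‖ ^ 2 * ‖z‖ ^ 2 := by
  rw [EuclideanSpace.real_norm_sq_eq, EuclideanSpace.real_norm_sq_eq,
    EuclideanSpace.real_norm_sq_eq, s5kt_sum_snoc, Finset.sum_mul_sum, Finset.sum_comm]
  refine Finset.sum_congr rfl fun β _ => Finset.sum_congr rfl fun i _ => ?_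
  rw [tOut_apply, Fin.init_snoc, Fin.snoc_last, mul_pow]

theorem tOut_norm (t : TT n d) (z : EE n) : ‖tOut t z‖ = ‖t‖ * ‖z‖ := by
  have h := tOut_norm_sq t z
  rw [← mul_pow] at h
  exact (pow_left_inj₀ (norm_nonneg _) (by positivity) (by norm_num)).1 h

/-- a matrix on the last slot acts on the vector factor -/
theorem slot_last_tOut (M : Mx n) (t : TT n d) (z : EE n) :
    slot (Fin.last d) M (tOut t z) = tOut t (mv M z) := by
  ext α
  simp only [slot, tOut_apply, mv, Matrix.mulVec, dotProduct, Fin.init_update_last,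
    Function.update_self, Finset.mul_sum]
  refine Finset.sum_congr rfl fun j _ => ?_
  ring

/-- `tOut` as a continuous bilinear map -/
theorem s5c_tOut_bilin :
    ∃ B : TT n d →L[ℝ] EE n →L[ℝ] TT n (d + 1), ∀ t z, B t z = tOut t z := by
  refine ⟨LinearMap.mkContinuous₂ (LinearMap.mk₂ ℝ tOut ?_ ?_ ?_ ?_) 1 ?_, ?_⟩
  · intro s t z; ext α; simp [tOut_apply, add_mul]
  · intro c t z; ext α; simp [tOut_apply, mul_assoc]
  · intro t z w; ext α; simp [tOut_apply, mul_add]
  · intro c t z; ext α; simp [tOut_apply, mul_left_comm]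
  · intro t z
    simp [tOut_norm]
  · intro t z
    simp

/-- `mv M` as a continuous linear map -/
theorem s5c_mv_clm (M : Mx n) : ∃ L : EE n →L[ℝ] EE n, ∀ v, L v = mv M v := by
  refine ⟨LinearMap.toContinuousLinearMap
    { toFun := mv M
      map_add' := ?_
      map_smul' := ?_ }, fun v => rfl⟩
  · intro u v; ext i; simp [mv, Matrix.mulVec, dotProduct, mul_add, Finset.sum_add_distrib]
  · intro c v; ext i; simp [mv, Matrix.mulVec, dotProduct, Finset.mul_sum, mul_left_comm]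

theorem s5c_tOut_integrable {F : EE n → TT n d} {z : EE n → EE n} (hF : MemLp F 2 (dm η))
    (hz : MemLp z 2 (dm η)) : Integrable (fun y => tOut (F y) (z y)) (dm η) := by
  obtain ⟨B, hB⟩ := s5c_tOut_bilin (n := n) (d := d)
  simp_rw [← hB]
  exact memLp_one_iff_integrable.1 (B.memLp_of_bilin 1 hF hz)

theorem s5c_mv_memLp (M : Mx n) {z : EE n → EE n} (hz : MemLp z 2 (dm η)) :
    MemLp (fun y => mv M (z y)) 2 (dm η) := by
  obtain ⟨L, hL⟩ := s5c_mv_clm M
  simp_rw [← hL]
  exact s5k_clm_memLp L hz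

theorem s5c_xcov_add_left {F G : EE n → TT n d} {z : EE n → EE n} (hF : MemLp F 2 (dm η))
    (hG : MemLp G 2 (dm η)) (hz : MemLp z 2 (dm η)) :
    xcov η (fun y => F y + G y) z = xcov η F z + xcov η G z := by
  unfold xcov meanF
  rw [← integral_add (s5c_tOut_integrable hF hz) (s5c_tOut_integrable hG hz)]
  obtain ⟨B, hB⟩ := s5c_tOut_bilin (n := n) (d := d)
  simp_rw [← hB, map_add, _root_.add_apply]

theorem s5c_xcov_sub_left {F G : EE n → TT n d} {z : EE n → EE n} (hF : MemLp F 2 (dm η))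
    (hG : MemLp G 2 (dm η)) (hz : MemLp z 2 (dm η)) :
    xcov η (fun y => F y - G y) z = xcov η F z - xcov η G z := by
  unfold xcov meanF
  rw [← integral_sub (s5c_tOut_integrable hF hz) (s5c_tOut_integrable hG hz)]
  obtain ⟨B, hB⟩ := s5c_tOut_bilin (n := n) (d := d)
  simp_rw [← hB, map_sub, _root_.sub_apply]

theorem s5c_xcov_add_right {F : EE n → TT n d} {z z' : EE n → EE n} (hF : MemLp F 2 (dm η))
    (hz : MemLp z 2 (dm η)) (hz' : MemLp z' 2 (dm η)) :
    xcov η F (fun y => z y + z' y) = xcov η F z + xcov η F z' := by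
  unfold xcov meanF
  rw [← integral_add (s5c_tOut_integrable hF hz) (s5c_tOut_integrable hF hz')]
  obtain ⟨B, hB⟩ := s5c_tOut_bilin (n := n) (d := d)
  simp_rw [← hB, map_add]

theorem s5c_xcov_sub_right {F : EE n → TT n d} {z z' : EE n → EE n} (hF : MemLp F 2 (dm η))
    (hz : MemLp z 2 (dm η)) (hz' : MemLp z' 2 (dm η)) :
    xcov η F (fun y => z y - z' y) = xcov η F z - xcov η F z' := by
  unfold xcov meanF
  rw [← integral_sub (s5c_tOut_integrable hF hz) (s5c_tOut_integrable hF hz')]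
  obtain ⟨B, hB⟩ := s5c_tOut_bilin (n := n) (d := d)
  simp_rw [← hB, map_sub]

theorem s5c_xcov_smul_right (c : ℝ) (F : EE n → TT n d) (z : EE n → EE n) :
    xcov η F (fun y => c • z y) = c • xcov η F z := by
  unfold xcov meanF
  rw [← integral_smul]
  obtain ⟨B, hB⟩ := s5c_tOut_bilin (n := n) (d := d)
  simp_rw [← hB, map_smul]

theorem s5c_xcov_const_left (t : TT n d) {z : EE n → EE n} (hz : Integrable z (dm η)) :
    xcov η (fun _ => t) z = tOut t (meanF η z) := by
  obtain ⟨B, hB⟩ := s5c_tOut_bilin (n := n) (d := d)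
  unfold xcov
  simp_rw [← hB]
  exact s5k_clm_mean (B t) hz

theorem s5c_xcov_const_right {F : EE n → TT n d} (hF : Integrable F (dm η)) (v : EE n) :
    xcov η F (fun _ => v) = tOut (meanF η F) v := by
  obtain ⟨B, hB⟩ := s5c_tOut_bilin (n := n) (d := d)
  unfold xcov
  simp_rw [← hB]
  exact s5k_clm_mean (B.flip v) hF

theorem s5c_slot_xcov (M : Mx n) {F : EE n → TT n d} {z : EE n → EE n} (hF : MemLp F 2 (dm η))
    (hz : MemLp z 2 (dm η)) :
    slot (Fin.last d) M (xcov η F z) = xcov η F (fun y => mv M (z y)) := by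
  have h := s5k_clm_mean (slotL (Fin.last d) M) (s5c_tOut_integrable hF hz)
  simp only [slotL_apply, slot_last_tOut] at h
  exact h.symm

theorem s5c_coord_memLp {ι : Type} [Fintype ι] {F : EE n → EuclideanSpace ℝ ι}
    (hF : MemLp F 2 (dm η)) (β : ι) : MemLp (fun y => F y β) 2 (dm η) :=
  s5k_clm_memLp (EuclideanSpace.proj β) hF

theorem s5c_xcov_apply {F : EE n → TT n d} {z : EE n → EE n} (hF : MemLp F 2 (dm η))
    (hz : MemLp z 2 (dm η)) (α : Idx n (d + 1)) :
    xcov η F z α = ∫ y, F y (Fin.init α) * z y (α (Fin.last d)) ∂(dm η) := by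
  have h := s5k_clm_mean (EuclideanSpace.proj α) (s5c_tOut_integrable hF hz)
  simp only [EuclideanSpace.coe_proj, tOut_apply] at h
  exact h.symm

theorem s5c_nSq_coord {ι : Type} [Fintype ι] {F : EE n → EuclideanSpace ℝ ι}
    (hF : MemLp F 2 (dm η)) : nSq η F = ∑ β, nSq η (fun y => F y β) := by
  unfold nSq
  rw [← integral_finsetSum _ (fun β _ => s5k_int_sq (s5c_coord_memLp hF β))]
  refine integral_congr_ae (Filter.Eventually.of_forall fun y => ?_)
  simp only [EuclideanSpace.real_norm_sq_eq, Real.norm_eq_abs, sq_abs]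

/-- one row of (5.crosscov) -/
theorem s5c_crosscov_row {f : EE n → ℝ} {z : EE n → EE n} (hf : MemLp f 2 (dm η))
    (hz : MemLp z 2 (dm η)) {c : ℝ} (hc0 : 0 ≤ c)
    (hc : ∀ u : EE n, ∫ y, inner ℝ (z y) u ^ 2 ∂(dm η) ≤ c * ‖u‖ ^ 2) :
    ∑ i, (∫ y, f y * z y i ∂(dm η)) ^ 2 ≤ c * nSq η f := by
  set a : Fin n → ℝ := fun i => ∫ y, f y * z y i ∂(dm η) with ha
  set u : EE n := WithLp.toLp 2 a with hu
  have hun : ‖u‖ ^ 2 = ∑ i, a i ^ 2 := by
    rw [EuclideanSpace.real_norm_sq_eq]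
  have hg : MemLp (fun y => inner ℝ (z y) u) 2 (dm η) :=
    s5k_clm_memLp ((innerSL ℝ).flip u) hz
  have hint : ∀ i, Integrable (fun y => f y * z y i) (dm η) := fun i =>
    hf.integrable_mul (s5c_coord_memLp hz i)
  have h1 : ipF η f (fun y => inner ℝ (z y) u) = ‖u‖ ^ 2 := by
    rw [hun]
    unfold ipF
    have e : ∀ y, inner ℝ (f y) (inner ℝ (z y) u) = ∑ i, a i * (f y * z y i) := by
      intro y
      simp only [PiLp.inner_apply, hu, RCLike.inner_apply, conj_trivial, Finset.sum_mul]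
      refine Finset.sum_congr rfl fun i _ => ?_
      ring
    simp_rw [e]
    rw [integral_finsetSum _ (fun i _ => (hint i).const_mul _)]
    refine Finset.sum_congr rfl fun i _ => ?_
    rw [integral_const_mul, sq]
  have h2 := s5k_ip_sq_le hf hg
  have h3 : nSq η (fun y => inner ℝ (z y) u) ≤ c * ‖u‖ ^ 2 := by
    refine le_trans (le_of_eq ?_) (hc u)
    unfold nSq
    simp only [Real.norm_eq_abs, sq_abs]
  rw [h1] at h2
  have h4 : (‖u‖ ^ 2) ^ 2 ≤ nSq η f * (c * ‖u‖ ^ 2) :=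
    h2.trans (mul_le_mul_of_nonneg_left h3 (s5k_nSq_nonneg _ _))
  rw [← hun]
  rcases eq_or_lt_of_le (sq_nonneg ‖u‖) with h0 | h0
  · rw [← h0]
    exact mul_nonneg hc0 (s5k_nSq_nonneg _ _)
  · have : ‖u‖ ^ 2 * ‖u‖ ^ 2 ≤ (c * nSq η f) * ‖u‖ ^ 2 := by nlinarith
    exact le_of_mul_le_mul_right this h0

/-- (5.crosscov): `|E(F ⊗ z)|²_HS ≤ c E|F|²` if the second moment matrix of `z` is at most `c`.
Proof: for each coefficient index `β` put `u_β = E[F_β z]`; then
`|u_β|² = E[F_β ⟨z,u_β⟩] ≤ (E F_β²)^{1/2} (c |u_β|²)^{1/2}`; sum over `β`. -/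
theorem s5c_crosscov {F : EE n → TT n d} {z : EE n → EE n} (hF : MemLp F 2 (dm η))
    (hz : MemLp z 2 (dm η)) {c : ℝ} (hc0 : 0 ≤ c)
    (hc : ∀ u : EE n, ∫ y, inner ℝ (z y) u ^ 2 ∂(dm η) ≤ c * ‖u‖ ^ 2) :
    ‖xcov η F z‖ ^ 2 ≤ c * nSq η F := by
  rw [EuclideanSpace.real_norm_sq_eq, s5kt_sum_snoc, Finset.sum_comm, s5c_nSq_coord hF,
    Finset.mul_sum]
  refine Finset.sum_le_sum fun β _ => ?_
  have h := s5c_crosscov_row (s5c_coord_memLp hF β) hz hc0 hc
  refine le_trans (le_of_eq ?_) h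
  refine Finset.sum_congr rfl fun i _ => ?_
  rw [s5c_xcov_apply hF hz, Fin.init_snoc, Fin.snoc_last]

/-- symmetric matrices are self-adjoint for `mv` -/
theorem s5c_mv_inner {M : Mx n} (hM : M.IsSymm) (u v : EE n) :
    inner ℝ (mv M u) v = inner ℝ u (mv M v) := by
  simp only [PiLp.inner_apply, mv, Matrix.mulVec, dotProduct, RCLike.inner_apply, conj_trivial,
    Finset.mul_sum, Finset.sum_mul]
  rw [Finset.sum_comm]
  refine Finset.sum_congr rfl fun i _ => Finset.sum_congr rfl fun j _ => ?_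
  rw [← hM.apply i j]
  ring

end Claimed.Agent.R259
end

/- ===== packed: Claimed.Agent.R259.S5CurvDefs ===== -/
section
/-
Row 259 (S0499), package BP-S5-curv (Lemma 5.7 of the paper and the completion of the proof of
Proposition 5.1): DEFINITIONS.  Owner: helper19.  Prefix of the package: `s5v_`.

* `tSl i t`     : slice of a tensor along its LAST slot (the derivative slot of `tD`);
* `sc η i`      : `∂_i log η`;
* `dAdj η i h`  : formal adjoint `-∂_i h - (∂_i log η) h` of `∂_i` in `L²(η)`;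
* `hessL η y`   : the matrix `-D² log η (y)`;
* `Z.Qo y`      : the matrix `D om (y)` (`= Dw` in the strict branch, `0` in the gap branch);
* `opBall r c`  : tensors whose flattening along the slot `r` has operator norm at most `c`
                  (written in the form in which it is used: `|M_r t| ≤ c |M|_HS` for all `M`);
* `NB η I F a`  : `F ∈ L²(η)` and `‖F‖₂ ≤ a √I`.
-/
set_option autoImplicit false

open MeasureTheory
open scoped ContDiff BigOperators Matrix
open Claimed.Agent.R260 (Mx mxFun mxSq)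

namespace Claimed.Agent.R259

noncomputable section

variable {n d : ℕ}

/-- slice of a tensor along its LAST slot -/
def tSl (i : Fin n) : TT n (d + 1) →L[ℝ] TT n d :=
  LinearMap.toContinuousLinearMap
    { toFun := fun t => WithLp.toLp 2 (fun β : Idx n d => t (Fin.snoc β i : Fin (d + 1) → Fin n))
      map_add' := by
        intro s t
        ext β
        simp
      map_smul' := by
        intro c t
        ext β
        simp }

/-- `∂_i log η` -/
def sc (η : EE n → ℝ) (i : Fin n) (y : EE n) : ℝ := gradient (fun z => Real.log (η z)) y i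

/-- formal adjoint of `∂_i` in `L²(η)` -/
def dAdj {V : Type} [NormedAddCommGroup V] [NormedSpace ℝ V] (η : EE n → ℝ) (i : Fin n)
    (h : EE n → V) (y : EE n) : V :=
  -dI i h y - sc η i y • h y

/-- the matrix `-D² log η` -/
def hessL (η : EE n → ℝ) (y : EE n) : Mx n := Matrix.of fun i j => -dI j (sc η i) y

/-- the matrix `D om` -/
def HiInput.Qo (Z : HiInput n) (y : EE n) : Mx n := Matrix.of fun i j => dI j Z.om y i

/-- the operator norm ball of radius `c` for the flattening along the slot `r` -/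
def opBall (r : Fin d) (c : ℝ) : Set (TT n d) :=
  {t | ∀ M : Mx n, ‖slot r M t‖ ^ 2 ≤ c ^ 2 * mxSq M}

/-- `F ∈ L²(η)` and `‖F‖₂² ≤ a² I` -/
def NB {V : Type} [NormedAddCommGroup V] (η : EE n → ℝ) (I : ℝ) (F : EE n → V) (a : ℝ) : Prop :=
  MemLp F 2 (dm η) ∧ nSq η F ≤ a ^ 2 * I

end

/-- generates the equation lemmas of the definitions above in this file (rule 6: unique names) -/
theorem s5v_defs_eqns_cite : True := by
  have := @tSl.eq_1
  have := @sc.eq_1
  have := @dAdj.eq_1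
  have := @hessL.eq_1
  have := @HiInput.Qo.eq_1
  have := @opBall.eq_1
  have := @NB.eq_1
  trivial

end Claimed.Agent.R259
end

/- ===== packed: Claimed.Agent.R259.S5CurvL2 ===== -/
section
/-
Row 259 (S0499), package BP-S5-curv: calculus of the normalised `L²(η)` bounds `NB η I F a`
(`F ∈ L²(η)`, `‖F‖₂² ≤ a² I`): Minkowski and Cauchy-Schwarz without square roots.
Owner: helper19.
-/
set_option autoImplicit false
set_option linter.unusedSectionVars false
set_option linter.unusedVariables false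

open MeasureTheory
open scoped ContDiff BigOperators

namespace Claimed.Agent.R259

variable {n : ℕ} {η : EE n → ℝ} {I : ℝ}

section inner

variable {V : Type} [NormedAddCommGroup V] [InnerProductSpace ℝ V]

theorem NB.memLp {F : EE n → V} {a : ℝ} (h : NB η I F a) : MemLp F 2 (dm η) := h.1

theorem NB.le {F : EE n → V} {a : ℝ} (h : NB η I F a) : nSq η F ≤ a ^ 2 * I := h.2

theorem NB.mono {F : EE n → V} {a b : ℝ} (h : NB η I F a) (ha : 0 ≤ a) (hab : a ≤ b)
    (hI : 0 ≤ I) : NB η I F b :=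
  ⟨h.1, h.2.trans (by gcongr)⟩

/-- Cauchy-Schwarz -/
theorem NB.ip {F G : EE n → V} {a b : ℝ} (hF : NB η I F a) (hG : NB η I G b) (ha : 0 ≤ a)
    (hb : 0 ≤ b) (hI : 0 ≤ I) : |ipF η F G| ≤ a * b * I := by
  have h1 := s5k_ip_sq_le hF.1 hG.1
  have h2 : nSq η F * nSq η G ≤ (a ^ 2 * I) * (b ^ 2 * I) :=
    mul_le_mul hF.2 hG.2 (s5k_nSq_nonneg η G) (by positivity)
  have h3 : ipF η F G ^ 2 ≤ (a * b * I) ^ 2 := by
    calc ipF η F G ^ 2 ≤ (a ^ 2 * I) * (b ^ 2 * I) := h1.trans h2
      _ = (a * b * I) ^ 2 := by ring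
  exact abs_le_of_sq_le_sq h3 (by positivity)

theorem NB.ip_le {F G : EE n → V} {a b : ℝ} (hF : NB η I F a) (hG : NB η I G b) (ha : 0 ≤ a)
    (hb : 0 ≤ b) (hI : 0 ≤ I) : ipF η F G ≤ a * b * I :=
  (le_abs_self _).trans (hF.ip hG ha hb hI)

theorem s5v_nSq_add {F G : EE n → V} (hF : MemLp F 2 (dm η)) (hG : MemLp G 2 (dm η)) :
    nSq η (fun y => F y + G y) = nSq η F + 2 * ipF η F G + nSq η G := by
  have h := s5k_nSq_sub hF hG.neg
  have e1 : (fun y => F y - (-G) y) = fun y => F y + G y := by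
    funext y
    simp
  have e2 : ipF η F (-G) = -ipF η F G := by
    unfold ipF
    rw [← integral_neg]
    simp
  have e3 : nSq η (-G) = nSq η G := by
    unfold nSq
    simp
  rw [e1, e2, e3] at h
  rw [h]
  ring

/-- Minkowski -/
theorem NB.add {F G : EE n → V} {a b : ℝ} (hF : NB η I F a) (hG : NB η I G b) (ha : 0 ≤ a)
    (hb : 0 ≤ b) (hI : 0 ≤ I) : NB η I (fun y => F y + G y) (a + b) := by
  refine ⟨hF.1.add hG.1, ?_⟩
  rw [s5v_nSq_add hF.1 hG.1]
  have h1 := hF.ip_le hG ha hb hI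
  have h2 := hF.2
  have h3 := hG.2
  nlinarith

theorem NB.neg {F : EE n → V} {a : ℝ} (hF : NB η I F a) : NB η I (fun y => -F y) a := by
  refine ⟨hF.1.neg, ?_⟩
  have : nSq η (fun y => -F y) = nSq η F := by
    unfold nSq
    simp
  rw [this]
  exact hF.2

theorem NB.sub {F G : EE n → V} {a b : ℝ} (hF : NB η I F a) (hG : NB η I G b) (ha : 0 ≤ a)
    (hb : 0 ≤ b) (hI : 0 ≤ I) : NB η I (fun y => F y - G y) (a + b) := by
  have := hF.add hG.neg ha hb hI
  simpa [sub_eq_add_neg] using this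

theorem NB.smul {F : EE n → V} {a : ℝ} (c : ℝ) (hF : NB η I F a) :
    NB η I (fun y => c • F y) (|c| * a) := by
  refine ⟨hF.1.const_smul c, ?_⟩
  have h1 : nSq η (fun y => c • F y) = c ^ 2 * nSq η F := s5k_nSq_smul c F
  rw [h1, mul_pow, sq_abs, mul_assoc]
  exact mul_le_mul_of_nonneg_left hF.2 (sq_nonneg c)

theorem NB.congr {F G : EE n → V} {a : ℝ} (hF : NB η I F a) (h : ∀ y, F y = G y) :
    NB η I G a := by
  have : F = G := funext h
  rwa [← this]

/-- from a bound of the squared norm -/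
theorem NB.of_le {F : EE n → V} {a : ℝ} (hF : MemLp F 2 (dm η)) (h : nSq η F ≤ a ^ 2 * I) :
    NB η I F a := ⟨hF, h⟩

/-- pointwise domination -/
theorem NB.of_norm_le {W : Type} [NormedAddCommGroup W] {F : EE n → V} {G : EE n → W} {a c : ℝ}
    (hF : NB η I F a) (hG : AEStronglyMeasurable G (dm η)) (hc : 0 ≤ c)
    (h : ∀ y, ‖G y‖ ≤ c * ‖F y‖) : NB η I G (c * a) := by
  have hm : MemLp G 2 (dm η) :=
    MemLp.of_le_mul (c := c) hF.1 hG (Filter.Eventually.of_forall h)
  refine ⟨hm, ?_⟩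
  have h1 : nSq η G ≤ c ^ 2 * nSq η F := by
    unfold nSq
    rw [← integral_const_mul]
    refine integral_mono (s5k_int_sq hm) ((s5k_int_sq hF.1).const_mul _) fun y => ?_
    have := h y
    calc ‖G y‖ ^ 2 ≤ (c * ‖F y‖) ^ 2 := by gcongr
      _ = c ^ 2 * ‖F y‖ ^ 2 := by ring
  calc nSq η G ≤ c ^ 2 * nSq η F := h1
    _ ≤ c ^ 2 * (a ^ 2 * I) := mul_le_mul_of_nonneg_left hF.2 (sq_nonneg c)
    _ = (c * a) ^ 2 * I := by ring

end inner

end Claimed.Agent.R259
end

/- ===== packed: Claimed.Agent.R259.S5CurvIbp ===== -/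
section
/-
Row 259 (S0499), package BP-S5-curv, LEAF L-s5v-ibp (no paper needed).  Architect: helper19.  Proofs: helper47.

First order integration by parts in `L²(η)`, the commutation of `∂_j` with the adjoint `dAdj η i`
and with `A_η`, the weighted divergence bound and the differentiated operator identity (Lemma 5.7 of
the paper) for TEST fields, in "family form": a field with one vector slot is a family
`P : Fin n → EE n → V`.

PROOFS.
* `s5v_ibp1`: `dm η = volume.withDensity (ofReal ∘ η)`; `∫ ⟪∂_i g, h⟫ η = -∫ ⟪g, ∂_i (η h)⟫`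
  (Mathlib: `integral_bilinear_hasLineDerivAt_right_eq_neg_left_of_integrable` or the `fderiv`
  versions; `η • h` is `C¹` with compact support) and `∂_i (η h) = η (∂_i h + (∂_i log η) h)`.
* `s5v_dI_dAdj`: product rule, symmetry of second derivatives.
* `s5v_opA_eq`: `Δ = ∑_i ∂_i ∂_i` in the orthonormal basis `eb`
  (`InnerProductSpace.laplacian_eq_iteratedFDeriv_orthonormalBasis`), `∇ log η = ∑ sc η i • eb i`.
* `s5v_dI_opA`: from the two previous ones.
* `s5v_div`: put `D*P := ∑_i dAdj η i (P i)` (a test field).  `∫ ∑ ⟪∂_i G, P i⟫ = ⟨G, D*P⟩`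
  (`s5v_ibp1`), Cauchy-Schwarz (`s5k_ip_sq_le`), and
  `‖D*P‖² = ∑_{ij} ∫ ⟪dAdj i (P i), dAdj j (P j)⟫ = ∑_{ij} ∫ ⟪∂_j dAdj i (P i), P j⟫`
  `= ∑_{ij} ∫ ⟪dAdj i (∂_j P i), P j⟫ + ∫ ∑ H_ij ⟪P i, P j⟫ = ∑_{ij} ∫ ⟪∂_j P i, ∂_i P j⟫ + ...`,
  and `∑_{ij} ⟪∂_j P i, ∂_i P j⟫ ≤ ∑_{ij} ‖∂_j P i‖²` pointwise.
* `s5v_id`: `s5v_dI_opA` paired with `φ j`, and `∫ ⟪A ∂_j F, φ j⟫ = ∫ ⟪∂_j F, A φ j⟫`
  (`s5k_ibp` twice).
-/
set_option autoImplicit false
set_option linter.unusedSectionVars false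
set_option linter.unusedVariables false

open MeasureTheory
open scoped ContDiff BigOperators Matrix
open Claimed.Agent.R260 (Mx)

namespace Claimed.Agent.R259

variable {n : ℕ} {η : EE n → ℝ}
  {V : Type} [NormedAddCommGroup V] [InnerProductSpace ℝ V] [FiniteDimensional ℝ V]

theorem s5v_sc_contDiff (hη : SPD η) (i : Fin n) : ContDiff ℝ ∞ (sc η i) :=
  (EuclideanSpace.proj (𝕜 := ℝ) i).contDiff.comp (s5k_gradLog_contDiff hη)

theorem s5v_dI_contDiff {F : EE n → V} (hF : ContDiff ℝ ∞ F) (i : Fin n) :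
    ContDiff ℝ ∞ (dI i F) :=
  (hF.fderiv_right (m := ∞) (by norm_cast)).clm_apply contDiff_const

theorem s5v_dI_test {F : EE n → V} (hF : IsTestV F) (i : Fin n) : IsTestV (dI i F) :=
  ⟨s5v_dI_contDiff hF.1 i, hF.2.fderiv_apply (𝕜 := ℝ) (eb i)⟩

theorem s5v_diffAt {W : Type} [NormedAddCommGroup W] [NormedSpace ℝ W] {F : EE n → W}
    (hF : ContDiff ℝ ∞ F) (y : EE n) : DifferentiableAt ℝ F y :=
  (hF.differentiable (by simp)).differentiableAt

theorem s5v_dI_dI {F : EE n → V} (hF : ContDiff ℝ ∞ F) (i j : Fin n) (y : EE n) :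
    dI i (dI j F) y = fderiv ℝ (fderiv ℝ F) y (eb i) (eb j) := by
  unfold dI
  have h : DifferentiableAt ℝ (fderiv ℝ F) y :=
    s5v_diffAt (hF.fderiv_right (m := ∞) (by norm_cast)) y
  rw [fderiv_clm_apply h (differentiableAt_const _)]
  simp

theorem s5v_dI_comm {F : EE n → V} (hF : ContDiff ℝ ∞ F) (i j : Fin n) (y : EE n) :
    dI i (dI j F) y = dI j (dI i F) y := by
  rw [s5v_dI_dI hF, s5v_dI_dI hF]
  exact (hF.contDiffAt.isSymmSndFDerivAt (by
    rw [minSmoothness_of_isRCLikeNormedField]; exact WithTop.coe_le_coe.2 le_top)) (eb i) (eb j)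

theorem s5v_dAdj_contDiff (hη : SPD η) (i : Fin n) {h : EE n → V} (hh : ContDiff ℝ ∞ h) :
    ContDiff ℝ ∞ (dAdj η i h) :=
  (s5v_dI_contDiff hh i).neg.sub ((s5v_sc_contDiff hη i).smul hh)

theorem s5v_dAdj_test (hη : SPD η) (i : Fin n) {h : EE n → V} (hh : IsTestV h) :
    IsTestV (dAdj η i h) := by
  refine ⟨s5v_dAdj_contDiff hη i hh.1, HasCompactSupport.intro hh.2 fun x hx => ?_⟩
  have h0 : h =ᶠ[nhds x] fun _ => 0 := notMem_tsupport_iff_eventuallyEq.1 hx
  unfold dAdj dI
  rw [h0.fderiv_eq, h0.eq_of_nhds]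
  simp

/-! ### rules for `dI` -/

theorem s5v_dI_neg {W : Type} [NormedAddCommGroup W] [NormedSpace ℝ W] (j : Fin n)
    (F : EE n → W) (y : EE n) : dI j (fun z => -F z) y = -dI j F y := by
  unfold dI
  rw [fderiv_fun_neg]
  rfl

theorem s5v_dI_sub {W : Type} [NormedAddCommGroup W] [NormedSpace ℝ W] (j : Fin n)
    {F G : EE n → W} {y : EE n} (hF : DifferentiableAt ℝ F y) (hG : DifferentiableAt ℝ G y) :
    dI j (fun z => F z - G z) y = dI j F y - dI j G y := by
  unfold dI
  rw [fderiv_fun_sub hF hG]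
  rfl

theorem s5v_dI_smul {W : Type} [NormedAddCommGroup W] [NormedSpace ℝ W] (j : Fin n)
    {c : EE n → ℝ} {F : EE n → W} {y : EE n} (hc : DifferentiableAt ℝ c y)
    (hF : DifferentiableAt ℝ F y) :
    dI j (fun z => c z • F z) y = c y • dI j F y + dI j c y • F y := by
  unfold dI
  rw [fderiv_fun_smul hc hF]
  simp

theorem s5v_dI_sum {W : Type} [NormedAddCommGroup W] [NormedSpace ℝ W] (j : Fin n)
    {ι : Type} (s : Finset ι) {F : ι → EE n → W} {y : EE n}
    (hF : ∀ i ∈ s, DifferentiableAt ℝ (F i) y) :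
    dI j (fun z => ∑ i ∈ s, F i z) y = ∑ i ∈ s, dI j (F i) y := by
  unfold dI
  rw [fderiv_fun_sum hF]
  simp

theorem s5v_grad_apply (f : EE n → ℝ) (y : EE n) (i : Fin n) :
    gradient f y i = fderiv ℝ f y (eb i) := by
  have h1 : inner ℝ (gradient f y) (eb i) = fderiv ℝ f y (eb i) := by
    unfold gradient
    exact InnerProductSpace.toDual_symm_apply
  have h2 : inner ℝ (gradient f y) (eb i) = gradient f y i := by
    unfold eb
    rw [EuclideanSpace.inner_single_right]
    simp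
  rw [← h2, h1]

theorem s5v_sc_eq (hη : SPD η) (i : Fin n) (y : EE n) : sc η i y = (η y)⁻¹ * dI i η y := by
  unfold sc dI
  rw [s5v_grad_apply, fderiv.log (s5v_diffAt hη.1 y) (hη.2.1 y).ne']
  simp

theorem s5v_sum_eb (v : EE n) : ∑ i, v i • eb i = v := by
  have := (EuclideanSpace.basisFun (Fin n) ℝ).sum_repr v
  simpa [eb] using this

theorem s5v_dI_dAdj (hη : SPD η) (i j : Fin n) {h : EE n → V} (hh : ContDiff ℝ ∞ h) (y : EE n) :
    dI j (dAdj η i h) y = dAdj η i (dI j h) y + hessL η y i j • h y := by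
  have e : dAdj η i h = fun z => (fun w => -dI i h w) z - (fun w => sc η i w • h w) z := rfl
  have d1 := s5v_diffAt (s5v_dI_contDiff hh i) y
  have d2 := s5v_diffAt (s5v_sc_contDiff hη i) y
  have d3 := s5v_diffAt hh y
  rw [e, s5v_dI_sub j d1.fun_neg (d2.fun_smul d3), s5v_dI_neg, s5v_dI_smul j d2 d3,
    s5v_dI_comm hh j i]
  unfold dAdj hessL
  simp only [Matrix.of_apply, neg_smul]
  abel

theorem s5v_opA_eq (hη : SPD η) {F : EE n → V} (hF : ContDiff ℝ ∞ F) (y : EE n) :
    opA η F y = ∑ i, dAdj η i (dI i F) y := by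
  unfold opA dAdj
  rw [Finset.sum_sub_distrib, Finset.sum_neg_distrib]
  congr 1
  · rw [InnerProductSpace.laplacian_eq_iteratedFDeriv_orthonormalBasis F
      (EuclideanSpace.basisFun (Fin n) ℝ)]
    congr 1
    refine Finset.sum_congr rfl fun i _ => ?_
    rw [iteratedFDeriv_two_apply, s5v_dI_dI hF]
    simp [eb]
  · conv_lhs => rw [← s5v_sum_eb (gradient (fun y => Real.log (η y)) y)]
    rw [map_sum]
    refine Finset.sum_congr rfl fun i _ => ?_
    rw [map_smul]
    rfl

/-- `D(AF) = A(DF) + H DF` -/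
theorem s5v_dI_opA (hη : SPD η) (j : Fin n) {F : EE n → V} (hF : ContDiff ℝ ∞ F) (y : EE n) :
    dI j (opA η F) y = opA η (dI j F) y + ∑ i, hessL η y i j • dI i F y := by
  have e : opA η F = fun z => ∑ i, dAdj η i (dI i F) z := funext fun z => s5v_opA_eq hη hF z
  rw [e, s5v_dI_sum j Finset.univ fun i _ =>
    s5v_diffAt (s5v_dAdj_contDiff hη i (s5v_dI_contDiff hF i)) y,
    s5v_opA_eq hη (s5v_dI_contDiff hF j), ← Finset.sum_add_distrib]
  refine Finset.sum_congr rfl fun i _ => ?_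
  rw [s5v_dI_dAdj hη i j (s5v_dI_contDiff hF i)]
  congr 1
  have : dI j (dI i F) = dI i (dI j F) := funext fun z => s5v_dI_comm hF j i z
  rw [this]

/-! ### integrability -/

theorem s5v_int_of_zero (hη : SPD η) {W : Type} [NormedAddCommGroup W] {f : EE n → W}
    {b : EE n → V} (hf : Continuous f) (hb : HasCompactSupport b) (h0 : ∀ y, b y = 0 → f y = 0) :
    Integrable f (dm η) := by
  have := s5k_prob hη
  refine hf.integrable_of_hasCompactSupport (hb.mono ?_)
  intro y hy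
  exact fun h => hy (h0 y h)

theorem s5v_int_inner_right (hη : SPD η) {a b : EE n → V} (ha : Continuous a) (hb : IsTestV b) :
    Integrable (fun y => inner ℝ (a y) (b y)) (dm η) :=
  s5v_int_of_zero hη (ha.inner hb.1.continuous) hb.2 fun y hy => by rw [hy, inner_zero_right]

theorem s5v_hessL_cont (hη : SPD η) (i j : Fin n) : Continuous fun y => hessL η y i j := by
  unfold hessL
  simp only [Matrix.of_apply]
  exact (((s5v_sc_contDiff hη i).fderiv_right (m := ∞) (by norm_cast)).clm_apply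
    contDiff_const).continuous.neg

/-- first order integration by parts -/
theorem s5v_ibp1 (hη : SPD η) (i : Fin n) {g h : EE n → V} (hg : ContDiff ℝ 1 g)
    (hh : IsTestV h) :
    ∫ y, inner ℝ (dI i g y) (h y) ∂(dm η) = ∫ y, inner ℝ (g y) (dAdj η i h y) ∂(dm η) := by
  have hηm : Measurable η := hη.1.continuous.measurable
  have hη0 : ∀ x, 0 ≤ η x := fun x => (hη.2.1 x).le
  rw [dfk_integral_dm hηm hη0, dfk_integral_dm hηm hη0]
  set k : EE n → V := fun y => η y • h y with hk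
  set k' : EE n → V := fun y => -(η y • dAdj η i h y) with hk'
  have hkc : Continuous k := hη.1.continuous.smul hh.1.continuous
  have hk'c : Continuous k' := (hη.1.continuous.smul (s5v_dAdj_test hη i hh).1.continuous).neg
  have hks : HasCompactSupport k := hh.2.smul_left
  have hk's : HasCompactSupport k' :=
    (s5v_dAdj_test hη i hh).2.mono (by
      intro y hy h0
      apply hy
      simp only [hk', h0, smul_zero, neg_zero])
  have hgc : Continuous g := hg.continuous
  have hg'c : Continuous (dI i g) := (hg.continuous_fderiv (by simp)).clm_apply continuous_const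
  have hkd : ∀ y, HasLineDerivAt ℝ k (k' y) y (eb i) := by
    intro y
    have d1 := s5v_diffAt hη.1 y
    have d2 := s5v_diffAt hh.1 y
    have h1 : HasFDerivAt k (fderiv ℝ k y) y := (d1.fun_smul d2).hasFDerivAt
    have h2 := h1.hasLineDerivAt (eb i)
    have h3 : fderiv ℝ k y (eb i) = k' y := by
      have h4 : dI i k y = η y • dI i h y + dI i η y • h y := s5v_dI_smul i d1 d2
      have h5 : η y * sc η i y = dI i η y := by
        rw [s5v_sc_eq hη, ← mul_assoc, mul_inv_cancel₀ (hη.2.1 y).ne', one_mul]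
      show dI i k y = k' y
      rw [h4, ← h5]
      simp only [hk', dAdj, smul_sub, smul_neg, mul_smul]
      abel
    rwa [h3] at h2
  have hgd : ∀ y, HasLineDerivAt ℝ g (dI i g y) y (eb i) := fun y =>
    ((hg.differentiable (by simp)).differentiableAt.hasFDerivAt).hasLineDerivAt (eb i)
  have key := integral_bilinear_hasLineDerivAt_right_eq_neg_left_of_integrable
    (μ := (volume : Measure (EE n))) (B := innerSL ℝ) (f := g) (f' := dI i g) (g := k) (g' := k')
    (v := eb i)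
    ((hg'c.inner hkc).integrable_of_hasCompactSupport (hks.mono (by
      intro y hy h0
      apply hy
      simp [h0])))
    ((hgc.inner hk'c).integrable_of_hasCompactSupport (hk's.mono (by
      intro y hy h0
      apply hy
      simp [h0])))
    ((hgc.inner hkc).integrable_of_hasCompactSupport (hks.mono (by
      intro y hy h0
      apply hy
      simp [h0])))
    (fun y _ => hgd y) (fun y _ => hkd y)
  have key' : ∫ x, inner ℝ (g x) (k' x) = -∫ x, inner ℝ (dI i g x) (k x) := key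
  have e1 : ∀ y, η y • inner ℝ (dI i g y) (h y) = inner ℝ (dI i g y) (k y) := by
    intro y
    simp only [hk, inner_smul_right, smul_eq_mul]
  have e2 : ∀ y, η y • inner ℝ (g y) (dAdj η i h y) = -inner ℝ (g y) (k' y) := by
    intro y
    simp only [hk', inner_neg_right, inner_smul_right, smul_eq_mul, neg_neg]
  simp_rw [e1, e2]
  rw [integral_neg, key', neg_neg]

theorem s5v_sum_test {ι : Type} (s : Finset ι) {F : ι → EE n → V} (hF : ∀ i ∈ s, IsTestV (F i)) :
    IsTestV (fun y => ∑ i ∈ s, F i y) := by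
  classical
  refine ⟨ContDiff.sum fun i hi => (hF i hi).1, ?_⟩
  induction s using Finset.induction_on with
  | empty =>
    simp only [Finset.sum_empty]
    exact HasCompactSupport.zero
  | insert a s ha ih =>
    have h1 := (hF a (Finset.mem_insert_self a s)).2
    have h2 := ih fun i hi => hF i (Finset.mem_insert_of_mem hi)
    have e : (fun y => ∑ i ∈ insert a s, F i y) = F a + fun y => ∑ i ∈ s, F i y := by
      funext y
      simp [Finset.sum_insert ha]
    rw [e]
    exact h1.add h2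

theorem s5v_of_le_one {W : Type} [NormedAddCommGroup W] [NormedSpace ℝ W] {F : EE n → W}
    (hF : ContDiff ℝ ∞ F) : ContDiff ℝ 1 F := hF.of_le (by exact_mod_cast le_top)

theorem s5v_int_hess (hη : SPD η) (i j : Fin n) {a b : EE n → V} (ha : Continuous a)
    (hb : IsTestV b) :
    Integrable (fun y => hessL η y i j * inner ℝ (a y) (b y)) (dm η) :=
  s5v_int_of_zero hη ((s5v_hessL_cont hη i j).mul (ha.inner hb.1.continuous)) hb.2
    fun y hy => by rw [hy, inner_zero_right, mul_zero]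

theorem s5v_int_sq_test (hη : SPD η) {b : EE n → V} (hb : IsTestV b) :
    Integrable (fun y => ‖b y‖ ^ 2) (dm η) :=
  s5k_int_sq (s5k_test_memLp hη hb)

/-- weighted divergence bound (Lemma 5.7, first half), dual form -/
theorem s5v_div (hη : SPD η) {P : Fin n → EE n → V} (hP : ∀ i, IsTestV (P i)) {G : EE n → V}
    (hG : IsTestV G) :
    (∫ y, ∑ i, inner ℝ (dI i G y) (P i y) ∂(dm η)) ^ 2 ≤ nSq η G *
      (∫ y, ∑ i, ∑ j, ‖dI j (P i) y‖ ^ 2 ∂(dm η) +
        ∫ y, ∑ i, ∑ j, hessL η y i j * inner ℝ (P i y) (P j y) ∂(dm η)) := by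
  classical
  set Q : EE n → V := fun y => ∑ i, dAdj η i (P i) y with hQ
  have hAT : ∀ i, IsTestV (dAdj η i (P i)) := fun i => s5v_dAdj_test hη i (hP i)
  have hQT : IsTestV Q := s5v_sum_test Finset.univ fun i _ => hAT i
  have h1 : ∫ y, ∑ i, inner ℝ (dI i G y) (P i y) ∂(dm η) = ipF η G Q := by
    rw [integral_finsetSum _ fun i _ =>
      s5v_int_inner_right hη (s5v_dI_test hG i).1.continuous (hP i)]
    unfold ipF
    simp only [hQ, inner_sum]
    rw [integral_finsetSum _ fun i _ => s5v_int_inner_right hη hG.1.continuous (hAT i)]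
    exact Finset.sum_congr rfl fun i _ => s5v_ibp1 hη i (s5v_of_le_one hG.1) (hP i)
  set a : Fin n → Fin n → ℝ := fun i j =>
    ∫ y, inner ℝ (dI i (P j) y) (dI j (P i) y) ∂(dm η) with ha
  set b : Fin n → Fin n → ℝ := fun i j =>
    ∫ y, hessL η y i j * inner ℝ (P i y) (P j y) ∂(dm η) with hb
  set c : Fin n → Fin n → ℝ := fun i j => ∫ y, ‖dI j (P i) y‖ ^ 2 ∂(dm η) with hc
  have h2 : nSq η Q = ∑ j, ∑ i, (a i j + b i j) := by
    rw [← s5k_ip_self]
    unfold ipF
    have e1 : ∀ y, inner ℝ (Q y) (Q y) = ∑ j, inner ℝ (Q y) (dAdj η j (P j) y) := fun y => by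
      rw [← inner_sum]
    simp_rw [e1]
    rw [integral_finsetSum _ fun j _ => s5v_int_inner_right hη hQT.1.continuous (hAT j)]
    refine Finset.sum_congr rfl fun j _ => ?_
    rw [← s5v_ibp1 hη j (s5v_of_le_one hQT.1) (hP j)]
    have e2 : ∀ y, inner ℝ (dI j Q y) (P j y) =
        ∑ i, (inner ℝ (P j y) (dAdj η i (dI j (P i)) y)
          + hessL η y i j * inner ℝ (P i y) (P j y)) := by
      intro y
      rw [hQ, s5v_dI_sum j Finset.univ fun i _ => s5v_diffAt (hAT i).1 y, sum_inner]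
      refine Finset.sum_congr rfl fun i _ => ?_
      rw [s5v_dI_dAdj hη i j (hP i).1, inner_add_left, real_inner_smul_left, real_inner_comm]
    have I1 : ∀ i, Integrable (fun y => inner ℝ (P j y) (dAdj η i (dI j (P i)) y)) (dm η) :=
      fun i => s5v_int_inner_right hη (hP j).1.continuous
        (s5v_dAdj_test hη i (s5v_dI_test (hP i) j))
    have I2 : ∀ i, Integrable (fun y => hessL η y i j * inner ℝ (P i y) (P j y)) (dm η) :=
      fun i => s5v_int_hess hη i j (hP i).1.continuous (hP j)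
    have I12 : ∀ i, Integrable (fun y => inner ℝ (P j y) (dAdj η i (dI j (P i)) y)
        + hessL η y i j * inner ℝ (P i y) (P j y)) (dm η) := fun i => (I1 i).add (I2 i)
    simp_rw [e2]
    rw [integral_finsetSum _ fun i _ => I12 i]
    refine Finset.sum_congr rfl fun i _ => ?_
    rw [integral_add (I1 i) (I2 i),
      ← s5v_ibp1 hη i (s5v_of_le_one (hP j).1) (s5v_dI_test (hP i) j)]
  have h3 : ∀ i j, a i j ≤ (c j i + c i j) / 2 := by
    intro i j
    have J1 := s5v_int_sq_test hη (s5v_dI_test (hP j) i)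
    have J2 := s5v_int_sq_test hη (s5v_dI_test (hP i) j)
    have : (c j i + c i j) / 2 = ∫ y, (‖dI i (P j) y‖ ^ 2 + ‖dI j (P i) y‖ ^ 2) / 2 ∂(dm η) := by
      rw [integral_div, integral_add J1 J2]
    rw [this]
    refine integral_mono (s5v_int_inner_right hη (s5v_dI_test (hP j) i).1.continuous
      (s5v_dI_test (hP i) j)) ((J1.add J2).div_const 2) fun y => ?_
    have := real_inner_le_norm (dI i (P j) y) (dI j (P i) y)
    show inner ℝ (dI i (P j) y) (dI j (P i) y) ≤ (‖dI i (P j) y‖ ^ 2 + ‖dI j (P i) y‖ ^ 2) / 2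
    nlinarith [sq_nonneg (‖dI i (P j) y‖ - ‖dI j (P i) y‖)]
  have h4 : ∫ y, ∑ i, ∑ j, ‖dI j (P i) y‖ ^ 2 ∂(dm η) = ∑ i, ∑ j, c i j := by
    rw [integral_finsetSum _ fun i _ => integrable_finsetSum _ fun j _ =>
      s5v_int_sq_test hη (s5v_dI_test (hP i) j)]
    refine Finset.sum_congr rfl fun i _ => ?_
    rw [integral_finsetSum _ fun j _ => s5v_int_sq_test hη (s5v_dI_test (hP i) j)]
  have h5 : ∫ y, ∑ i, ∑ j, hessL η y i j * inner ℝ (P i y) (P j y) ∂(dm η) = ∑ i, ∑ j, b i j := by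
    rw [integral_finsetSum _ fun i _ => integrable_finsetSum _ fun j _ =>
      s5v_int_hess hη i j (hP i).1.continuous (hP j)]
    refine Finset.sum_congr rfl fun i _ => ?_
    rw [integral_finsetSum _ fun j _ => s5v_int_hess hη i j (hP i).1.continuous (hP j)]
  have h6 : nSq η Q ≤ ∑ i, ∑ j, c i j + ∑ i, ∑ j, b i j := by
    rw [h2]
    have e1 : ∑ j, ∑ i, (a i j + b i j) = ∑ j, ∑ i, a i j + ∑ i, ∑ j, b i j := by
      simp_rw [Finset.sum_add_distrib]
      rw [Finset.sum_comm (f := fun j i => b i j)]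
    have e2 : ∑ j, ∑ i, a i j ≤ ∑ j, ∑ i, (c j i + c i j) / 2 :=
      Finset.sum_le_sum fun j _ => Finset.sum_le_sum fun i _ => h3 i j
    have e3 : ∑ j, ∑ i, (c j i + c i j) / 2 = ∑ i, ∑ j, c i j := by
      simp_rw [add_div, Finset.sum_add_distrib]
      rw [Finset.sum_comm (f := fun j i => c i j / 2), ← Finset.sum_add_distrib]
      refine Finset.sum_congr rfl fun i _ => ?_
      rw [← Finset.sum_add_distrib]
      exact Finset.sum_congr rfl fun j _ => by ring
    rw [e1]
    linarith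
  rw [h1, h4, h5]
  calc ipF η G Q ^ 2 ≤ nSq η G * nSq η Q :=
        s5k_ip_sq_le (s5k_test_memLp hη hG) (s5k_test_memLp hη hQT)
    _ ≤ _ := mul_le_mul_of_nonneg_left h6 (s5k_nSq_nonneg η G)

theorem s5v_opA_symm (hη : SPD η) {S T : EE n → V} (hS : IsTestV S) (hT : IsTestV T) :
    ipF η (opA η S) T = ipF η S (opA η T) := by
  rw [s5k_ip_comm, ← s5k_ibp hη (s5v_of_le_one hT.1) hS, ← s5k_ibp hη (s5v_of_le_one hS.1) hT]
  congr 1
  funext y
  exact Finset.sum_congr rfl fun i _ => real_inner_comm _ _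

/-- differentiated operator identity (Lemma 5.7, second half) -/
theorem s5v_id (hη : SPD η) {F : EE n → V} (hF : IsTestV F) {φ : Fin n → EE n → V}
    (hφ : ∀ i, IsTestV (φ i)) :
    ∫ y, ∑ i, ∑ j, hessL η y i j * inner ℝ (dI i F y) (φ j y) ∂(dm η) =
      ∫ y, ∑ j, inner ℝ (dI j (fun z => opA η F z - F z) y) (φ j y) ∂(dm η)
      - ∫ y, ∑ j, inner ℝ (dI j F y) (opA η (φ j) y - φ j y) ∂(dm η) := by
  classical
  have hAF : IsTestV (opA η F) := s5k_opA_test hη hF
  have hdF : ∀ j, IsTestV (dI j F) := fun j => s5v_dI_test hF j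
  have hH : ∀ i j, Integrable (fun y => hessL η y i j * inner ℝ (dI i F y) (φ j y)) (dm η) :=
    fun i j => s5v_int_hess hη i j (hdF i).1.continuous (hφ j)
  have K1 : ∀ j, Integrable (fun y => inner ℝ (opA η (dI j F) y) (φ j y)) (dm η) := fun j =>
    s5v_int_inner_right hη (s5k_opA_test hη (hdF j)).1.continuous (hφ j)
  have K2 : ∀ j, Integrable (fun y => inner ℝ (dI j F y) (φ j y)) (dm η) := fun j =>
    s5v_int_inner_right hη (hdF j).1.continuous (hφ j)
  have K3 : ∀ j, Integrable (fun y => inner ℝ (dI j F y) (opA η (φ j) y)) (dm η) := fun j =>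
    s5v_int_inner_right hη (hdF j).1.continuous (s5k_opA_test hη (hφ j))
  have e1 : ∀ j y, inner ℝ (dI j (fun z => opA η F z - F z) y) (φ j y) =
      inner ℝ (opA η (dI j F) y) (φ j y)
        + ∑ i, hessL η y i j * inner ℝ (dI i F y) (φ j y) - inner ℝ (dI j F y) (φ j y) := by
    intro j y
    rw [s5v_dI_sub j (s5v_diffAt hAF.1 y) (s5v_diffAt hF.1 y), s5v_dI_opA hη j hF.1,
      inner_sub_left, inner_add_left, sum_inner]
    simp_rw [real_inner_smul_left]
  have e2 : ∀ j y, inner ℝ (dI j F y) (opA η (φ j) y - φ j y) =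
      inner ℝ (dI j F y) (opA η (φ j) y) - inner ℝ (dI j F y) (φ j y) := fun j y =>
    inner_sub_right _ _ _
  have hS : ∀ j, Integrable (fun y => ∑ i, hessL η y i j * inner ℝ (dI i F y) (φ j y)) (dm η) :=
    fun j => integrable_finsetSum _ fun i _ => hH i j
  have L1 : ∀ j, Integrable (fun y => inner ℝ (opA η (dI j F) y) (φ j y)
        + ∑ i, hessL η y i j * inner ℝ (dI i F y) (φ j y) - inner ℝ (dI j F y) (φ j y)) (dm η) :=
    fun j => ((K1 j).add (hS j)).sub (K2 j)
  have L2 : ∀ j, Integrable (fun y => inner ℝ (dI j F y) (opA η (φ j) y)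
      - inner ℝ (dI j F y) (φ j y)) (dm η) := fun j => (K3 j).sub (K2 j)
  simp_rw [e1, e2]
  rw [integral_finsetSum _ fun j _ => L1 j, integral_finsetSum _ fun j _ => L2 j,
    integral_finsetSum _ fun i _ => integrable_finsetSum _ fun j _ => hH i j,
    ← Finset.sum_sub_distrib]
  have e3 : ∀ i, ∫ y, ∑ j, hessL η y i j * inner ℝ (dI i F y) (φ j y) ∂(dm η) =
      ∑ j, ∫ y, hessL η y i j * inner ℝ (dI i F y) (φ j y) ∂(dm η) := fun i =>
    integral_finsetSum _ fun j _ => hH i j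
  simp_rw [e3]
  rw [Finset.sum_comm]
  refine Finset.sum_congr rfl fun j _ => ?_
  have L3 : Integrable (fun y => inner ℝ (opA η (dI j F) y) (φ j y)
        + ∑ i, hessL η y i j * inner ℝ (dI i F y) (φ j y)) (dm η) := (K1 j).add (hS j)
  rw [integral_sub L3 (K2 j), integral_add (K1 j) (hS j),
    integral_sub (K3 j) (K2 j), integral_finsetSum _ fun i _ => hH i j]
  have := s5v_opA_symm hη (hdF j) (hφ j)
  unfold ipF at this
  rw [this]
  ring

end Claimed.Agent.R259
end

/- ===== packed: Claimed.Agent.R259.S5CenId ===== -/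
section
/-
Row 259 (S0499), Lemma 5.4, centring: the two centring identities (5.two-center-identities)
(leaf L-s5c-cid).
Blueprint owner: helper202.  Proofs: helper47 (helper lemmas: prefix `s5ci_`; first order
integration by parts from `S5CurvIbp`).  LEAF FILE: the seat that claims the leaf owns this file, keeps names and
statements and replaces every `sorry` by a proof.

All analytic input comes from the kits WS/OP applied to scalar components
(`(opA η T y) β = opA η (fun z => T z β) y` by `s5k_opA_clm` with `EuclideanSpace.proj β`):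
* `op_dom_test` : `∫ ⟨∇T_β, g_z⟩ dη = ∫ (A T_β) z dη` for every `(z, g_z) ∈ H¹(η)`,
* `op_dom_classical` for the coordinate functions `y_i` (smooth, in `L²` by `mom2`,
  `A y_i = -∂_i log η ∈ L²` by `drift`), tested against `T_β` and against the constant `1`,
* `ws_PI_H1` for the linear functions `⟨y,u⟩`.
-/
set_option autoImplicit false

open MeasureTheory
open scoped ContDiff BigOperators Matrix
open Claimed.Agent.R260 (Mx)

namespace Claimed.Agent.R259

variable {n d : ℕ}

theorem s5c_id_memLp (Z : HiInput n) : MemLp (fun y : EE n => y) 2 (dm Z.η) :=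
  (memLp_two_iff_integrable_sq_norm continuous_id.aestronglyMeasurable).2 Z.mom2

theorem s5c_om_memLp (Z : HiInput n) : MemLp Z.om 2 (dm Z.η) := by
  rcases Z.branch with h | h
  · rw [h]; exact Z.w_L2
  · rw [h]; exact MemLp.zero

theorem s5ci_score_eq (Z : HiInput n) :
    (fun y => gradient (fun z => Real.log (Z.η z)) y) =
      fun y => -(s0⁻¹ • (y - Z.b y)) + Z.om y := funext Z.drift

theorem s5ci_score_memLp (Z : HiInput n) :
    MemLp (fun y => gradient (fun z => Real.log (Z.η z)) y) 2 (dm Z.η) := by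
  rw [s5ci_score_eq]
  exact ((((s5c_id_memLp Z).sub Z.b_L2).const_smul s0⁻¹).neg).add (s5c_om_memLp Z)

theorem s5ci_mean_apply {ι : Type} [Fintype ι] {η : EE n → ℝ} {F : EE n → EuclideanSpace ℝ ι}
    (hF : Integrable F (dm η)) (α : ι) : meanF η F α = ∫ y, F y α ∂(dm η) := by
  unfold meanF
  exact ((EuclideanSpace.proj (𝕜 := ℝ) α).integral_comp_comm hF).symm

theorem s5ci_memLp_integrable (Z : HiInput n) {W : Type} [NormedAddCommGroup W] {F : EE n → W}
    (hF : MemLp F 2 (dm Z.η)) : Integrable F (dm Z.η) := by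
  have := s5k_prob Z.spd
  exact hF.integrable (by norm_num)

/-- the score `∇ log η` is centred -/
theorem s5c_score_mean (Z : HiInput n) :
    meanF Z.η (fun y => gradient (fun z => Real.log (Z.η z)) y) = 0 := by
  have hη := Z.spd
  have hint := s5ci_memLp_integrable Z (s5ci_score_memLp Z)
  ext i
  rw [s5ci_mean_apply hint]
  have hηm : Measurable Z.η := hη.1.continuous.measurable
  have hη0 : ∀ x, 0 ≤ Z.η x := fun x => (hη.2.1 x).le
  have hi : Integrable (fun y => sc Z.η i y) (dm Z.η) :=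
    (EuclideanSpace.proj (𝕜 := ℝ) i).integrable_comp hint
  have e : ∀ y, Z.η y • sc Z.η i y = dI i Z.η y := by
    intro y
    rw [s5v_sc_eq hη, smul_eq_mul, ← mul_assoc, mul_inv_cancel₀ (hη.2.1 y).ne', one_mul]
  have hi2 : Integrable (dI i Z.η) (volume : Measure (EE n)) := by
    have := (dfk_integrable_dm hηm hη0 _).1 hi
    exact this.congr (Filter.Eventually.of_forall e)
  have hηi : Integrable Z.η (volume : Measure (EE n)) := by
    by_contra hc
    have := hη.2.2
    rw [integral_undef hc] at this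
    norm_num at this
  show ∫ y, sc Z.η i y ∂(dm Z.η) = 0
  rw [dfk_integral_dm hηm hη0]
  simp_rw [e]
  have key := integral_bilinear_hasLineDerivAt_right_eq_neg_left_of_integrable
    (μ := (volume : Measure (EE n))) (B := ContinuousLinearMap.mul ℝ ℝ) (f := fun _ => (1 : ℝ))
    (f' := fun _ => 0) (g := Z.η) (g' := dI i Z.η) (v := eb i)
    (by simp) (by simpa using hi2) (by simpa using hηi)
    (fun y _ => (hasFDerivAt_const (1 : ℝ) y).hasLineDerivAt (eb i))
    (fun y _ => (s5v_diffAt hη.1 y).hasFDerivAt.hasLineDerivAt (eb i))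
  simpa using key

theorem s5ci_comp_test {T : EE n → TT n d} (hT : IsTestV T) (β : Idx n d) :
    IsTestV (fun z => T z β) :=
  s5k_test_clm (EuclideanSpace.proj (𝕜 := ℝ) β) hT

theorem s5ci_tD_apply {T : EE n → TT n d} (hT : IsTestV T) (y : EE n) (α : Idx n (d + 1)) :
    tD T y α = dI (α (Fin.last d)) (fun z => T z (Fin.init α)) y := by
  have := s5k_dI_clm (EuclideanSpace.proj (𝕜 := ℝ) (Fin.init α)) (s5v_diffAt hT.1 y)
    (α (Fin.last d))
  exact this.symm

theorem s5ci_tD_integrable (Z : HiInput n) {T : EE n → TT n d} (hT : IsTestV T) :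
    Integrable (tD T) (dm Z.η) :=
  s5ci_memLp_integrable Z (s5k_test_memLp Z.spd (s5k_tD_test hT))

theorem s5ci_xcov_apply (Z : HiInput n) {F : EE n → TT n d} {z : EE n → EE n}
    (hF : MemLp F 2 (dm Z.η)) (hz : MemLp z 2 (dm Z.η)) (α : Idx n (d + 1)) :
    xcov Z.η F z α = ∫ y, F y (Fin.init α) * z y (α (Fin.last d)) ∂(dm Z.η) := by
  unfold xcov
  rw [s5ci_mean_apply (s5c_tOut_integrable hF hz)]
  simp_rw [tOut_apply]

theorem s5ci_const_memLp (Z : HiInput n) {W : Type} [NormedAddCommGroup W] (c : W) :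
    MemLp (fun _ : EE n => c) 2 (dm Z.η) := by
  have := s5k_prob Z.spd
  exact memLp_const c

theorem s5ci_cen_memLp (Z : HiInput n) :
    MemLp (fun y : EE n => y - meanF Z.η (fun z => z)) 2 (dm Z.η) :=
  (s5c_id_memLp Z).sub (s5ci_const_memLp Z _)

theorem s5ci_nscore_memLp (Z : HiInput n) :
    MemLp (fun y => -gradient (fun z => Real.log (Z.η z)) y) 2 (dm Z.η) :=
  (s5ci_score_memLp Z).neg

/-- first centring identity: `E[D T] = E[(A T) ⊗ (y - E y)]` -/
theorem s5c_mean_tD_A (Z : HiInput n) {T : EE n → TT n d} (hT : IsTestV T) :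
    meanF Z.η (tD T) = xcov Z.η (opA Z.η T) (fun y => y - meanF Z.η (fun z => z)) := by
  have hη := Z.spd
  ext α
  rw [s5ci_mean_apply (s5ci_tD_integrable Z hT),
    s5ci_xcov_apply Z (s5k_test_memLp hη (s5k_opA_test hη hT)) (s5ci_cen_memLp Z)]
  set i := α (Fin.last d) with hi
  set β := Fin.init α with hβ
  set m := meanF Z.η (fun z => z) with hm
  have hTβ := s5ci_comp_test hT β
  set F : EE n → ℝ := fun y => y i - m i with hF
  have hFd : ∀ y, HasFDerivAt F (EuclideanSpace.proj (𝕜 := ℝ) i : EE n →L[ℝ] ℝ) y := fun y =>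
    ((EuclideanSpace.proj (𝕜 := ℝ) i : EE n →L[ℝ] ℝ).hasFDerivAt).sub_const (m i)
  have hFC : ContDiff ℝ 1 F :=
    ((EuclideanSpace.proj (𝕜 := ℝ) i : EE n →L[ℝ] ℝ).contDiff).sub contDiff_const
  have key := s5k_ibp hη hFC hTβ
  unfold ipF at key
  have e1 : ∀ y, ∑ k, inner ℝ (dI k F y) (dI k (fun z => T z β) y) = tD T y α := by
    intro y
    rw [s5ci_tD_apply hT, Finset.sum_eq_single i]
    · unfold dI
      rw [(hFd y).fderiv]
      simp [eb, hi, hβ]
    · intro k _ hk
      unfold dI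
      rw [(hFd y).fderiv]
      simp [eb, hk.symm]
    · simp
  have e2 : ∀ y, inner ℝ (F y) (opA Z.η (fun z => T z β) y) = opA Z.η T y β * (y - m) i := by
    intro y
    have := s5k_opA_clm Z.η (EuclideanSpace.proj (𝕜 := ℝ) β)
      (hT.1.of_le (WithTop.coe_le_coe.2 le_top) : ContDiff ℝ 2 T) y
    rw [show (fun z => T z β) = fun z => (EuclideanSpace.proj (𝕜 := ℝ) β) (T z) from rfl, this]
    simp [hF]
  simp_rw [e1, e2] at key
  exact key

/-- second centring identity: `E[D T] = - E[T ⊗ ∇ log η]` -/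
theorem s5c_mean_tD_score (Z : HiInput n) {T : EE n → TT n d} (hT : IsTestV T) :
    meanF Z.η (tD T) = xcov Z.η T (fun y => - gradient (fun z => Real.log (Z.η z)) y) := by
  have hη := Z.spd
  ext α
  rw [s5ci_mean_apply (s5ci_tD_integrable Z hT),
    s5ci_xcov_apply Z (s5k_test_memLp hη hT) (s5ci_nscore_memLp Z)]
  set i := α (Fin.last d) with hi
  set β := Fin.init α with hβ
  have hTβ := s5ci_comp_test hT β
  have key := s5v_ibp1 hη i (g := fun _ => (1 : ℝ)) contDiff_const hTβ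
  have e0 : ∀ y, inner ℝ (dI i (fun _ : EE n => (1 : ℝ)) y) (T y β) = 0 := by
    intro y
    unfold dI
    simp
  simp_rw [e0] at key
  rw [integral_zero] at key
  have e1 : ∀ y, inner ℝ (1 : ℝ) (dAdj Z.η i (fun z => T z β) y) =
      T y β * (-gradient (fun z => Real.log (Z.η z)) y) i - tD T y α := by
    intro y
    rw [s5ci_tD_apply hT]
    unfold dAdj sc
    simp
    ring
  simp_rw [e1] at key
  have I1 : Integrable (fun y => T y β * (-gradient (fun z => Real.log (Z.η z)) y) i) (dm Z.η) := by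
    have := (EuclideanSpace.proj (𝕜 := ℝ) α).integrable_comp
      (s5c_tOut_integrable (s5k_test_memLp hη hT) (s5ci_nscore_memLp Z))
    refine this.congr (Filter.Eventually.of_forall fun y => ?_)
    exact tOut_apply _ _ _
  have I2 : Integrable (fun y => tD T y α) (dm Z.η) :=
    (EuclideanSpace.proj (𝕜 := ℝ) α).integrable_comp (s5ci_tD_integrable Z hT)
  rw [integral_sub I1 I2] at key
  linarith

/-- `Cov_η(y) ≤ lam⁻¹` (Poincare for linear functions) -/
theorem s5c_cov_le (Z : HiInput n) (u : EE n) :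
    ∫ y, inner ℝ (y - meanF Z.η (fun z => z)) u ^ 2 ∂(dm Z.η) ≤ Z.lam⁻¹ * ‖u‖ ^ 2 := by
  have hη := Z.spd
  have hp := s5k_prob hη
  set m := meanF Z.η (fun z => z) with hm
  set L : EE n →L[ℝ] ℝ := InnerProductSpace.toDual ℝ (EE n) u with hL
  set f : EE n → ℝ := fun y => L y with hf
  have hfC : ContDiff ℝ 1 f := L.contDiff
  have hgrad : gradient f = fun _ => u := by
    funext y
    have : HasGradientAt f u y := hasGradientAt_iff_hasFDerivAt.2 L.hasFDerivAt
    exact this.gradient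
  have hf2 : MemLp f 2 (dm Z.η) := s5k_clm_memLp L (s5c_id_memLp Z)
  have hg2 : MemLp (gradient f) 2 (dm Z.η) := by
    rw [hgrad]
    exact s5ci_const_memLp Z u
  have hPI := ws_PI_H1 hη.1.continuous hη.2.1 Z.pi (ws_H1_of_contDiff hfC hf2 hg2)
  rw [hgrad] at hPI
  simp only [integral_const, probReal_univ, one_smul] at hPI
  refine le_trans (le_of_eq ?_) hPI
  unfold vari
  have hmean : ∫ y, f y ∂(dm Z.η) = L m :=
    L.integral_comp_comm (s5ci_memLp_integrable Z (s5c_id_memLp Z))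
  have hfi : Integrable f (dm Z.η) := s5ci_memLp_integrable Z hf2
  have hfs : Integrable (fun y => f y ^ 2) (dm Z.η) := (memLp_two_iff_integrable_sq hf2.1).1 hf2
  have e : ∀ y, inner ℝ (y - m) u ^ 2 = f y ^ 2 - (2 * L m) * f y + L m ^ 2 := by
    intro y
    have : inner ℝ (y - m) u = f y - L m := by
      rw [real_inner_comm, inner_sub_right]
      rfl
    rw [this]
    ring
  simp_rw [e]
  have i1 : Integrable (fun y => f y ^ 2 - (2 * L m) * f y) (dm Z.η) :=
    hfs.sub (hfi.const_mul _)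
  rw [integral_add i1 (integrable_const _), integral_sub hfs (hfi.const_mul _),
    integral_const_mul, hmean]
  simp only [integral_const, probReal_univ, one_smul]
  ring

theorem s5ci_tOut_zero (t : TT n d) : tOut t (0 : EE n) = 0 := by
  ext α
  simp [tOut_apply]

/-- the combination of the two identities:
`(1/s - 1) E[DT] = (1/s) E[((A-1)T) ⊗ (y - Ey)] + (1/s) E[(T - ET) ⊗ b] + E[(T - ET) ⊗ ω]`.
(From `s5c_mean_tD_A`, `s5c_mean_tD_score`, `s5c_score_mean`, `Z.drift` and bilinearity of `xcov`: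
`E[T ⊗ Zs] = E[(T-ET) ⊗ Zs]` for the centred `Zs = -∇ log η = (y-b)/s - ω`,
`E[(T-ET) ⊗ y] = E[T ⊗ (y-Ey)]`.) -/
theorem s5c_center_id (Z : HiInput n) {T : EE n → TT n d} (hT : IsTestV T) :
    (s0⁻¹ - 1) • meanF Z.η (tD T) =
      s0⁻¹ • xcov Z.η (fun y => opA Z.η T y - T y) (fun y => y - meanF Z.η (fun z => z))
      + s0⁻¹ • xcov Z.η (fun y => T y - meanF Z.η T) Z.b
      + xcov Z.η (fun y => T y - meanF Z.η T) Z.om := by
  have hη := Z.spd
  set m := meanF Z.η (fun z => z) with hm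
  set Tb := meanF Z.η T with hTb
  set E := meanF Z.η (tD T) with hE
  have hTL := s5k_test_memLp hη hT
  have hAL := s5k_test_memLp hη (s5k_opA_test hη hT)
  have hcL : MemLp (fun _ : EE n => Tb) 2 (dm Z.η) := s5ci_const_memLp Z Tb
  have hTc : MemLp (fun y => T y - Tb) 2 (dm Z.η) := hTL.sub hcL
  have hid := s5c_id_memLp Z
  have hcen : MemLp (fun y : EE n => y - m) 2 (dm Z.η) := s5ci_cen_memLp Z
  set X := xcov Z.η T (fun y => y - m) with hX
  set B := xcov Z.η (fun y => T y - Tb) Z.b with hB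
  set O := xcov Z.η (fun y => T y - Tb) Z.om with hO
  have hA1 : xcov Z.η (fun y => opA Z.η T y - T y) (fun y => y - m) = E - X := by
    rw [s5c_xcov_sub_left hAL hTL hcen, hE, s5c_mean_tD_A Z hT]
  have hX1 : X = xcov Z.η T (fun y => y) - tOut Tb m := by
    rw [hX, s5c_xcov_sub_right hTL hid (s5ci_const_memLp Z m),
      s5c_xcov_const_right (s5ci_memLp_integrable Z hTL)]
  have hX2 : xcov Z.η (fun y => T y - Tb) (fun y => y) = X := by
    rw [hX1, s5c_xcov_sub_left hTL hcL hid,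
      s5c_xcov_const_left Tb (s5ci_memLp_integrable Z hid)]
  have hns : (fun y => -gradient (fun z => Real.log (Z.η z)) y) =
      fun y => s0⁻¹ • (y - Z.b y) - Z.om y := by
    funext y
    rw [Z.drift y]
    abel
  have hmean0 : meanF Z.η (fun y => -gradient (fun z => Real.log (Z.η z)) y) = 0 := by
    have := s5c_score_mean Z
    unfold meanF at this ⊢
    rw [integral_neg, this, neg_zero]
  have hE1 : E = xcov Z.η (fun y => T y - Tb)
      (fun y => -gradient (fun z => Real.log (Z.η z)) y) := by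
    rw [s5c_xcov_sub_left hTL hcL (s5ci_nscore_memLp Z),
      s5c_xcov_const_left Tb (s5ci_memLp_integrable Z (s5ci_nscore_memLp Z)), hmean0,
      s5ci_tOut_zero, sub_zero, hE, s5c_mean_tD_score Z hT]
  have hyb : MemLp (fun y => y - Z.b y) 2 (dm Z.η) := hid.sub Z.b_L2
  have hsyb : MemLp (fun y => s0⁻¹ • (y - Z.b y)) 2 (dm Z.η) := hyb.const_smul s0⁻¹
  have hE2 : E = s0⁻¹ • (X - B) - O := by
    rw [hE1, hns, s5c_xcov_sub_right hTc hsyb (s5c_om_memLp Z), s5c_xcov_smul_right,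
      s5c_xcov_sub_right hTc hid Z.b_L2, hX2]
  have hO2 : O = s0⁻¹ • (X - B) - E := by
    rw [hE2]; abel
  rw [hA1, hO2]
  module

end Claimed.Agent.R259
end

/- ===== packed: Claimed.Agent.R259.S5Center ===== -/
section
/-
Row 259 (S0499), Lemma 5.4, centring of the raw derivative ((5.two-center-identities) and the
paragraph after it): GLUE from the leaves `S5CenX.lean`, `S5CenId.lean`.  Owner: helper202.
-/
set_option autoImplicit false

open MeasureTheory
open scoped ContDiff BigOperators Matrix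
open Claimed.Agent.R260 (Mx)

namespace Claimed.Agent.R259

variable {n : ℕ}

theorem s5c_norm_add3_sq {V : Type} [NormedAddCommGroup V] (a b c : V) :
    ‖a + b + c‖ ^ 2 ≤ 3 * (‖a‖ ^ 2 + ‖b‖ ^ 2 + ‖c‖ ^ 2) := by
  have h1 : ‖a + b + c‖ ≤ ‖a‖ + ‖b‖ + ‖c‖ := norm_add₃_le
  have h2 : ‖a + b + c‖ ^ 2 ≤ (‖a‖ + ‖b‖ + ‖c‖) ^ 2 := by gcongr
  nlinarith [sq_nonneg (‖a‖ - ‖b‖), sq_nonneg (‖a‖ - ‖c‖), sq_nonneg (‖b‖ - ‖c‖)]

theorem s5c_norm_add_sq {V : Type} [NormedAddCommGroup V] (a b : V) :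
    ‖a + b‖ ^ 2 ≤ 2 * ‖a‖ ^ 2 + 2 * ‖b‖ ^ 2 := by
  have h1 : ‖a + b‖ ≤ ‖a‖ + ‖b‖ := norm_add_le _ _
  have h2 : ‖a + b‖ ^ 2 ≤ (‖a‖ + ‖b‖) ^ 2 := by gcongr
  nlinarith [sq_nonneg (‖a‖ - ‖b‖)]

theorem s5c_center : CenterGoal := by
  intro ε hε
  refine ⟨min (1 / 2) (ε / 100), by positivity, ?_⟩
  intro n Z d T hS hL hlast
  set δ := min (1 / 2) (ε / 100) with hδ
  have hδ0 : 0 < δ := by positivity
  have hδ2 : δ ≤ 1 / 2 := min_le_left _ _
  have hδε : δ ≤ ε / 100 := min_le_right _ _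
  have hI : 0 < Z.I := Z.I_pos
  have hprob := s5k_prob Z.spd
  have hTt := hL.test
  have hTL : MemLp T 2 (dm Z.η) := s5k_test_memLp Z.spd hTt
  have hVL : MemLp (tD T) 2 (dm Z.η) := s5k_test_memLp Z.spd (s5k_tD_test hTt)
  have hAL : MemLp (fun y => opA Z.η T y - T y) 2 (dm Z.η) :=
    (s5k_test_memLp Z.spd (s5k_opA_test Z.spd hTt)).sub hTL
  set P : Mx n := 1 - Z.Pi with hP
  have hP1 : P * P = P := by
    simp only [hP, sub_mul, mul_sub, one_mul, mul_one, Z.Pi_sq]
    abel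
  have hP2 : P.IsSymm := by
    simp only [hP, Matrix.IsSymm, Matrix.transpose_sub, Matrix.transpose_one]
    rw [Z.Pi_symm]
  set m := meanF Z.η (tD T) with hm
  set ybar := meanF Z.η (fun z : EE n => z) with hybar
  have hyL : MemLp (fun y : EE n => y - ybar) 2 (dm Z.η) :=
    (s5c_id_memLp Z).sub (memLp_const ybar)
  have hTtL : MemLp (fun y => T y - meanF Z.η T) 2 (dm Z.η) := hTL.sub (memLp_const _)
  set E1 := xcov Z.η (fun y => opA Z.η T y - T y) (fun y => y - ybar) with hE1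
  set Eb := xcov Z.η (fun y => T y - meanF Z.η T) Z.b with hEb
  set Eo := xcov Z.η (fun y => T y - meanF Z.η T) Z.om with hEo
  have hid : (s0⁻¹ - 1) • m = s0⁻¹ • E1 + s0⁻¹ • Eb + Eo := s5c_center_id Z hTt
  have hs : s0⁻¹ = 8 := by norm_num [s0]
  rw [hs] at hid
  -- size of `T` and of its centred version
  have hnT : nSq Z.η T ≤ 2 * Z.I := by
    have := (abs_le.mp hL.norm).2
    nlinarith
  have hnTt : nSq Z.η (fun y => T y - meanF Z.η T) ≤ 8 * Z.I := by
    have h1 := s5k_nSq_add_le hTL (memLp_const (μ := dm Z.η) (-(meanF Z.η T)))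
    have e1 : (fun y => T y + (fun _ => -(meanF Z.η T)) y) = fun y => T y - meanF Z.η T := by
      funext y; simp [sub_eq_add_neg]
    have e2 : nSq Z.η (fun _ : EE n => -(meanF Z.η T)) = ‖meanF Z.η T‖ ^ 2 := by
      unfold nSq; simp
    rw [e1, e2] at h1
    have h2 := hL.mean
    nlinarith
  have hlam : Z.lam⁻¹ ≤ 2 := by
    have h1 : (1 : ℝ) / 2 ≤ Z.lam := by linarith [hS.lam_lo]
    rw [inv_le_comm₀ Z.lam_pos (by norm_num)]
    linarith
  -- the three error terms
  have b1 : ‖slot (Fin.last (d + 1)) P E1‖ ^ 2 ≤ 2 * (δ * Z.I) := by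
    have h1 := s5c_crosscov hAL hyL (c := Z.lam⁻¹) (inv_nonneg.2 Z.lam_pos.le) (s5c_cov_le Z)
    have h2 : ‖slotL (Fin.last (d + 1)) P E1‖ ≤ ‖E1‖ := by
      calc ‖slotL (Fin.last (d + 1)) P E1‖ ≤ ‖slotL (Fin.last (d + 1)) P‖ * ‖E1‖ :=
            ContinuousLinearMap.le_opNorm _ _
        _ ≤ 1 * ‖E1‖ := by gcongr; exact slotL_norm_le _ hP1 hP2
        _ = ‖E1‖ := one_mul _
    rw [slotL_apply] at h2
    have h3 : ‖slot (Fin.last (d + 1)) P E1‖ ^ 2 ≤ ‖E1‖ ^ 2 := by gcongr
    have h4 : Z.lam⁻¹ * nSq Z.η (fun y => opA Z.η T y - T y) ≤ 2 * (δ * Z.I) := by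
      apply mul_le_mul hlam hL.eigen (s5k_nSq_nonneg _ _) (by norm_num)
    linarith
  have b2 : ‖slot (Fin.last (d + 1)) P Eb‖ ^ 2 ≤ δ * (8 * Z.I) := by
    rw [hEb, s5c_slot_xcov P hTtL Z.b_L2]
    have h1 := s5c_crosscov hTtL (s5c_mv_memLp P Z.b_L2) (c := δ) hδ0.le (fun u => by
      simp_rw [s5c_mv_inner hP2]
      exact hS.outb u)
    exact h1.trans (mul_le_mul_of_nonneg_left hnTt hδ0.le)
  have b3 : ‖slot (Fin.last (d + 1)) P Eo‖ ^ 2 ≤ δ * (8 * Z.I) := by
    rw [hEo, s5c_slot_xcov P hTtL (s5c_om_memLp Z)]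
    have h1 := s5c_crosscov hTtL (s5c_mv_memLp P (s5c_om_memLp Z)) (c := δ) hδ0.le (fun u => by
      simp_rw [s5c_mv_inner hP2]
      exact hS.outom u)
    exact h1.trans (mul_le_mul_of_nonneg_left hnTt hδ0.le)
  have b4 : ‖slot (Fin.last (d + 1)) Z.Pi m‖ ^ 2 ≤ δ * Z.I := by
    have h1 := s5k_clm_mean (slotL (Fin.last (d + 1)) Z.Pi) (hVL.integrable (by norm_num))
    have h2 := s5k_mean_sq_le (s5k_clm_memLp (slotL (Fin.last (d + 1)) Z.Pi) hVL)
    rw [h1] at h2
    simp only [slotL_apply] at h2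
    exact h2.trans hlast
  -- the complementary part
  have b5 : ‖slot (Fin.last (d + 1)) P m‖ ^ 2 ≤ 40 * (δ * Z.I) := by
    have h1 : (7 : ℝ) • slotL (Fin.last (d + 1)) P m =
        (8 : ℝ) • slotL (Fin.last (d + 1)) P E1 + (8 : ℝ) • slotL (Fin.last (d + 1)) P Eb
          + slotL (Fin.last (d + 1)) P Eo := by
      have := congrArg (slotL (Fin.last (d + 1)) P) hid
      simp only [map_add, map_smul] at this
      rw [← this]
      norm_num
    simp only [slotL_apply] at h1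
    have h2 := s5c_norm_add3_sq ((8 : ℝ) • slot (Fin.last (d + 1)) P E1)
      ((8 : ℝ) • slot (Fin.last (d + 1)) P Eb) (slot (Fin.last (d + 1)) P Eo)
    rw [← h1] at h2
    simp only [norm_smul, Real.norm_eq_abs, mul_pow, sq_abs] at h2
    nlinarith
  have h6 : m = slot (Fin.last (d + 1)) Z.Pi m + slot (Fin.last (d + 1)) P m :=
    (slot_add_compl _ _ _).symm
  have h7 := s5c_norm_add_sq (slot (Fin.last (d + 1)) Z.Pi m) (slot (Fin.last (d + 1)) P m)
  rw [← h6] at h7
  have h8 : δ * Z.I ≤ ε / 100 * Z.I := mul_le_mul_of_nonneg_right hδε hI.le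
  have h9 : 0 < ε * Z.I := by positivity
  linarith

end Claimed.Agent.R259
end

/- ===== packed: Claimed.Agent.R259.S5ConSmooth ===== -/
section
/-
Row 259 (S0499), Lemma 5.3, second half (spectral smoothing without spectral theorem)
(leaf L-s5c-smooth).
Blueprint owner: helper202.  LEAF FILE: the seat that claims the leaf owns this file, keeps names and
statements and replaces every `sorry` by a proof.  Proved by helper297.

PROOF of `s5s_main` (all norms in `L²(η)`, `v = φ - S`, `N = ‖v‖² + ‖Dv‖²`):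
* `op_core_dense_vec` (κ = 1, `u = (1+lam) • S`, tolerance `δ I`) gives a test field `φ` with
  `err := φ + A φ - (1+lam) S`, `‖err‖² ≤ δ I`.
* IBP (`s5k_ibp_fD`, `F = v`, `T = φ`): `⟨Dv, Dφ⟩ = ⟨v, Aφ⟩`, hence
  `N = ⟨v, err⟩ + lam ⟨v, S⟩ - ⟨Dv, DS⟩`.                                            (1)
* Poincare (`s5s_pi_vec`) for the ONE field `u = S + v/4`:
  `lam (‖S‖² + ⟨S,v⟩/2 + ‖v‖²/16 - |E u|²) ≤ ‖DS‖² + ⟨DS,Dv⟩/2 + ‖Dv‖²/16`, with
  `|E u|² ≤ 2|E S|² + ‖v‖²/8`.  So `q := lam ⟨S,v⟩ - ⟨DS,Dv⟩ ≤ 2 β + N/4 · (something ≤ 1)`,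
  `β := ‖DS‖² - lam ‖S‖² + 2 lam |E S|² ≤ 6 δ I`.                                    (2)
* (1), (2), `⟨v,err⟩ ≤ ‖err‖² + ‖v‖²/4` give `N ≤ 26 δ I` (any constant is fine).
* `(A-1)φ = err + (lam-1) S - 2 v`.
-/
set_option autoImplicit false

open MeasureTheory
open scoped ContDiff BigOperators Matrix
open Claimed.Agent.R260 (Mx)

namespace Claimed.Agent.R259

variable {n : ℕ}

/-- components of the gradient of a component -/
theorem s5s_grad_coord {ι : Type} [Fintype ι] {u : EE n → EuclideanSpace ℝ ι} {x : EE n}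
    (hu : DifferentiableAt ℝ u x) (β : ι) (i : Fin n) :
    gradient (fun y => u y β) x i = fD u x (β, i) := by
  have h1 : gradient (fun y => u y β) x i = inner ℝ (gradient (fun y => u y β) x) (eb i) := by
    rw [eb, EuclideanSpace.inner_single_right]
    simp
  rw [h1, inner_gradient_left]
  have h2 := s5k_fderiv_clm (EuclideanSpace.proj β) hu
  simp only [EuclideanSpace.coe_proj] at h2
  rw [h2]
  simp [fD, dI]

theorem s5s_fD_add_smul {ι : Type} [Fintype ι] {S T : EE n → EuclideanSpace ℝ ι} {y : EE n}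
    (hS : DifferentiableAt ℝ S y) (hT : DifferentiableAt ℝ T y) (c : ℝ) :
    fD (fun z => S z + c • T z) y = fD S y + c • fD T y := by
  ext p
  simp only [fD, dI, PiLp.add_apply, PiLp.smul_apply]
  rw [fderiv_fun_add hS (hT.fun_const_smul c), fderiv_fun_const_smul hT]
  simp

theorem s5s_nSq_add_smul {V : Type} [NormedAddCommGroup V] [InnerProductSpace ℝ V]
    {η : EE n → ℝ} {a b : EE n → V} (ha : MemLp a 2 (dm η)) (hb : MemLp b 2 (dm η)) (c : ℝ) :
    nSq η (fun y => a y + c • b y) = nSq η a + 2 * c * ipF η a b + c ^ 2 * nSq η b := by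
  have h := s5k_nSq_sub ha (hb.const_smul (-c))
  have e1 : (fun y => a y - ((-c) • b) y) = fun y => a y + c • b y := by
    funext y; simp [sub_eq_add_neg]
  have e2 : ipF η a ((-c) • b) = (-c) * ipF η a b := s5k_ip_smul_right (-c) a b
  have e3 : nSq η ((-c) • b) = (-c) ^ 2 * nSq η b := s5k_nSq_smul (-c) b
  rw [e1, e2, e3] at h
  rw [h]; ring

/-- Poincare inequality for smooth vector valued fields in `H¹(η)`: sum over the components of
`ws_PI_H1` (with `ws_H1_of_contDiff`). -/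
theorem s5s_pi_vec {ι : Type} [Fintype ι] {η : EE n → ℝ} (hη : SPD η) {R : ℝ} (hPI : PI (dm η) R)
    {u : EE n → EuclideanSpace ℝ ι} (hu : ContDiff ℝ ∞ u) (h2 : MemLp u 2 (dm η))
    (hD : MemLp (fD u) 2 (dm η)) :
    nSq η u - ‖meanF η u‖ ^ 2 ≤ R * nSq η (fD u) := by
  have hprob := s5k_prob hη
  have hdiff : ∀ x, DifferentiableAt ℝ u x := fun x => hu.differentiable (by simp) x
  have hcs : ∀ β, ContDiff ℝ 1 (fun y => u y β) := fun β =>
    (contDiff_euclidean.1 hu β).of_le (by simp)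
  have hgn : ∀ β x, ‖gradient (fun y => u y β) x‖ ^ 2 = ∑ i, fD u x (β, i) ^ 2 := by
    intro β x
    rw [EuclideanSpace.real_norm_sq_eq]
    simp_rw [s5s_grad_coord (hdiff x)]
  have hgL : ∀ β, MemLp (gradient (fun y => u y β)) 2 (dm η) := by
    intro β
    refine hD.mono (ws_gradient_continuous (hcs β)).aestronglyMeasurable
      (Filter.Eventually.of_forall fun x => ?_)
    refine (pow_le_pow_iff_left₀ (norm_nonneg _) (norm_nonneg _) (two_ne_zero)).1 ?_
    rw [hgn, EuclideanSpace.real_norm_sq_eq, Fintype.sum_prod_type]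
    exact Finset.single_le_sum (f := fun β' => ∑ i, fD u x (β', i) ^ 2)
      (fun β' _ => Finset.sum_nonneg fun i _ => sq_nonneg _) (Finset.mem_univ β)
  have hcomp : ∀ β, vari (dm η) (fun y => u y β)
      ≤ R * ∫ x, ‖gradient (fun y => u y β) x‖ ^ 2 ∂(dm η) := fun β =>
    ws_PI_H1 hη.1.continuous hη.2.1 hPI (ws_H1_of_contDiff (hcs β) (s5c_coord_memLp h2 β) (hgL β))
  have hsum := Finset.sum_le_sum (s := Finset.univ) fun β _ => hcomp β
  have e1 : ∑ β, vari (dm η) (fun y => u y β) = nSq η u - ‖meanF η u‖ ^ 2 := by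
    unfold vari
    rw [Finset.sum_sub_distrib, s5c_nSq_coord h2, EuclideanSpace.real_norm_sq_eq]
    congr 1
    · refine Finset.sum_congr rfl fun β _ => ?_
      unfold nSq
      simp only [Real.norm_eq_abs, sq_abs]
    · refine Finset.sum_congr rfl fun β _ => ?_
      have h := s5k_clm_mean (EuclideanSpace.proj β) (h2.integrable (by norm_num))
      simp only [EuclideanSpace.coe_proj] at h
      rw [← h]
      rfl
  have e2 : ∑ β, R * ∫ x, ‖gradient (fun y => u y β) x‖ ^ 2 ∂(dm η) = R * nSq η (fD u) := by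
    rw [← Finset.mul_sum, s5c_nSq_coord hD, Fintype.sum_prod_type]
    congr 1
    refine Finset.sum_congr rfl fun β _ => ?_
    simp_rw [hgn]
    rw [integral_finsetSum _ (fun i _ => ?_)]
    · refine Finset.sum_congr rfl fun i _ => ?_
      unfold nSq
      simp only [Real.norm_eq_abs, sq_abs]
    · have := s5k_int_sq (s5c_coord_memLp hD (β, i))
      simpa only [Real.norm_eq_abs, sq_abs] using this
  rw [e1, e2] at hsum
  exact hsum

/-- the arithmetic of the smoothing step -/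
theorem s5s_arith {lam I δ a b p s t e σ τ m : ℝ} (hI : 0 < I) (hδ : 0 < δ) (hδ4 : δ ≤ 1 / 4)
    (hl1 : 1 - δ ≤ lam) (hl2 : lam ≤ 1 + δ) (ha0 : 0 ≤ a) (hb0 : 0 ≤ b)
    (h1 : a + b = p + lam * s - t)
    (h2 : lam * (σ + 2 * (1 / 4) * s + (1 / 4) ^ 2 * a - m) ≤ τ + 2 * (1 / 4) * t + (1 / 4) ^ 2 * b)
    (h3 : p ≤ e + a / 4) (he : e ≤ δ * I) (hσ1 : (1 - δ) * I ≤ σ) (hτ : τ ≤ (1 + δ) * I)
    (hm : m ≤ 2 * (δ * I) + 2 * ((1 / 4) ^ 2 * a)) : a + b ≤ 21 * (δ * I) := by
  have hlam : 0 < lam := by linarith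
  have hδI : 0 < δ * I := by positivity
  have q1 : (1 - δ) * ((1 - δ) * I) ≤ lam * σ :=
    mul_le_mul hl1 hσ1 (by nlinarith) hlam.le
  have q2 : lam * m ≤ lam * (2 * (δ * I) + 2 * ((1 / 4) ^ 2 * a)) :=
    mul_le_mul_of_nonneg_left hm hlam.le
  have q3 : lam * a ≤ 5 / 4 * a := mul_le_mul_of_nonneg_right (by linarith) ha0
  have q4 : lam * (δ * I) ≤ 5 / 4 * (δ * I) := mul_le_mul_of_nonneg_right (by linarith) hδI.le
  have q5 : 0 ≤ δ * (δ * I) := by positivity
  have e1 : lam * (σ + 2 * (1 / 4) * s + (1 / 4) ^ 2 * a - m)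
      = lam * σ + lam * s / 2 + lam * a / 16 - lam * m := by ring
  have e2 : lam * (2 * (δ * I) + 2 * ((1 / 4) ^ 2 * a)) = 2 * (lam * (δ * I)) + lam * a / 8 := by
    ring
  have e3 : (1 - δ) * ((1 - δ) * I) = I - 2 * (δ * I) + δ * (δ * I) := by ring
  rw [e1] at h2
  rw [e2] at q2
  rw [e3] at q1
  linarith

theorem s5s_core {ι : Type} [Fintype ι] {η : EE n → ℝ} {lam I δ : ℝ} (hη : SPD η)
    (hPI : PI (dm η) lam⁻¹) (hI : 0 < I) (hδ : 0 < δ) (hδ4 : δ ≤ 1 / 4) (hl1 : 1 - δ ≤ lam)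
    (hl2 : lam ≤ 1 + δ) {S : EE n → EuclideanSpace ℝ ι} (hSs : ContDiff ℝ ∞ S)
    (hSL : MemLp S 2 (dm η)) (hDSL : MemLp (fD S) 2 (dm η)) (hmS : ‖meanF η S‖ ^ 2 ≤ δ * I)
    (hnS : |nSq η S - I| ≤ δ * I) (hnDS : nSq η (fD S) ≤ (1 + δ) * I)
    {φ : EE n → EuclideanSpace ℝ ι} (hφt : IsTestV φ)
    (he : nSq η (fun y => φ y + opA η φ y - (1 + lam) • S y) ≤ δ * I) :
    nSq η (fun y => φ y - S y) + nSq η (fun y => fD φ y - fD S y) ≤ 21 * (δ * I) := by
  have hprob := s5k_prob hη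
  have hlam : 0 < lam := by linarith
  obtain ⟨hφs, hφc⟩ := hφt
  have hφt : IsTestV φ := ⟨hφs, hφc⟩
  set v : EE n → EuclideanSpace ℝ ι := fun y => φ y - S y with hv
  set err : EE n → EuclideanSpace ℝ ι := fun y => φ y + opA η φ y - (1 + lam) • S y with herrdef
  have hφd : ∀ y, DifferentiableAt ℝ φ y := fun y => hφs.differentiable (by simp) y
  have hSd : ∀ y, DifferentiableAt ℝ S y := fun y => hSs.differentiable (by simp) y
  have hφL : MemLp φ 2 (dm η) := s5k_test_memLp hη hφt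
  have hAφL : MemLp (opA η φ) 2 (dm η) := s5k_test_memLp hη (s5k_opA_test hη hφt)
  have hDφL : MemLp (fD φ) 2 (dm η) := by
    refine s5k_test_memLp hη ⟨s5k_fD_contDiff hφs, HasCompactSupport.intro hφc fun x hx => ?_⟩
    ext p
    simp only [fD, s5kt_dI_eq_zero hx]
    rfl
  have hvL : MemLp v 2 (dm η) := hφL.sub hSL
  have herrL : MemLp err 2 (dm η) := (hφL.add hAφL).sub (hSL.const_smul (1 + lam))
  have hvs : ContDiff ℝ ∞ v := hφs.sub hSs
  have hvd : ∀ y, DifferentiableAt ℝ v y := fun y => hvs.differentiable (by simp) y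
  have hDv : fD v = fun y => fD φ y - fD S y := funext fun y => s5k_fD_sub (hφd y) (hSd y)
  have hDvL : MemLp (fD v) 2 (dm η) := by rw [hDv]; exact hDφL.sub hDSL
  -- (1)
  have hibp : ipF η (fD v) (fD φ) = ipF η v (opA η φ) :=
    s5k_ibp_fD hη (hvs.of_le (by simp)) hφt
  have hA : opA η φ = fun y => (err y - v y) + lam • S y := by
    funext y
    simp only [herrdef, hv, one_smul, add_smul]
    abel
  have h1a : ipF η v (opA η φ) = ipF η v err - nSq η v + lam * ipF η v S := by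
    have g1 : ipF η v (fun y => (err y - v y) + lam • S y)
        = ipF η v (fun y => err y - v y) + ipF η v (fun y => lam • S y) :=
      s5k_ip_add_right hvL (herrL.sub hvL) (hSL.const_smul lam)
    rw [hA, g1, s5k_ip_sub_right hvL herrL hvL, s5k_ip_self, s5k_ip_smul_right]
  have h1b : nSq η (fD v) = ipF η (fD v) (fD φ) - ipF η (fD v) (fD S) := by
    have g1 : ipF η (fD v) (fun y => fD φ y - fD S y)
        = ipF η (fD v) (fD φ) - ipF η (fD v) (fD S) := s5k_ip_sub_right hDvL hDφL hDSL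
    rw [← g1, ← hDv, s5k_ip_self]
  -- (2)
  set u : EE n → EuclideanSpace ℝ ι := fun y => S y + (1 / 4 : ℝ) • v y with hu
  have hus : ContDiff ℝ ∞ u := hSs.add (hvs.const_smul (1 / 4 : ℝ))
  have huL : MemLp u 2 (dm η) := hSL.add (hvL.const_smul (1 / 4 : ℝ))
  have hDu : fD u = fun y => fD S y + (1 / 4 : ℝ) • fD v y :=
    funext fun y => s5s_fD_add_smul (hSd y) (hvd y) _
  have hDuL : MemLp (fD u) 2 (dm η) := by
    rw [hDu]; exact hDSL.add (hDvL.const_smul (1 / 4 : ℝ))
  have hpi := s5s_pi_vec hη hPI hus huL hDuL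
  have h2a : nSq η u = nSq η S + 2 * (1 / 4) * ipF η S v + (1 / 4) ^ 2 * nSq η v :=
    s5s_nSq_add_smul hSL hvL _
  have h2b : nSq η (fD u) = nSq η (fD S) + 2 * (1 / 4) * ipF η (fD S) (fD v)
      + (1 / 4) ^ 2 * nSq η (fD v) := by
    rw [hDu]; exact s5s_nSq_add_smul hDSL hDvL _
  have h2c : ‖meanF η u‖ ^ 2 ≤ 2 * (δ * I) + 2 * ((1 / 4) ^ 2 * nSq η v) := by
    refine s5k_cl_mean huL hSL hmS (le_of_eq ?_)
    have : (fun y => u y - S y) = fun y => (1 / 4 : ℝ) • v y := by
      funext y; simp [hu]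
    rw [this, s5k_nSq_smul]
  -- (3)
  have h3 : ipF η v err ≤ nSq η err + nSq η v / 4 := by
    have h := s5s_nSq_add_smul herrL hvL (-1 / 2)
    have h0 := s5k_nSq_nonneg η (fun y => err y + (-1 / 2 : ℝ) • v y)
    rw [h, s5k_ip_comm err v] at h0
    linarith
  rw [s5k_ip_comm S v] at h2a
  rw [s5k_ip_comm (fD S) (fD v)] at h2b
  have hpi2 : lam * (nSq η u - ‖meanF η u‖ ^ 2) ≤ nSq η (fD u) := by
    have := mul_le_mul_of_nonneg_left hpi hlam.le
    rwa [← mul_assoc, mul_inv_cancel₀ hlam.ne', one_mul] at this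
  rw [h2a, h2b] at hpi2
  rw [← hDv]
  exact s5s_arith hI hδ hδ4 hl1 hl2 (s5k_nSq_nonneg _ _) (s5k_nSq_nonneg _ _)
    (by rw [h1b, hibp, h1a]; ring) hpi2 h3 he (by have := (abs_le.mp hnS).1; linarith) hnDS h2c

theorem s5s_core2 {ι : Type} [Fintype ι] {η : EE n → ℝ} {lam I δ : ℝ} (hη : SPD η)
    (hI : 0 < I) (hδ : 0 < δ) (hδ4 : δ ≤ 1 / 4) (hl1 : 1 - δ ≤ lam)
    (hl2 : lam ≤ 1 + δ) {S : EE n → EuclideanSpace ℝ ι}
    (hSL : MemLp S 2 (dm η)) (hnS : |nSq η S - I| ≤ δ * I)
    {φ : EE n → EuclideanSpace ℝ ι} (hφt : IsTestV φ)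
    (he : nSq η (fun y => φ y + opA η φ y - (1 + lam) • S y) ≤ δ * I)
    (ha : nSq η (fun y => φ y - S y) ≤ 21 * (δ * I)) :
    nSq η (fun y => opA η φ y - φ y) ≤ 400 * (δ * I) := by
  have hδI : 0 < δ * I := by positivity
  set v : EE n → EuclideanSpace ℝ ι := fun y => φ y - S y with hv
  set err : EE n → EuclideanSpace ℝ ι := fun y => φ y + opA η φ y - (1 + lam) • S y with herrdef
  have hφL : MemLp φ 2 (dm η) := s5k_test_memLp hη hφt
  have hAφL : MemLp (opA η φ) 2 (dm η) := s5k_test_memLp hη (s5k_opA_test hη hφt)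
  have hvL : MemLp v 2 (dm η) := hφL.sub hSL
  have herrL : MemLp err 2 (dm η) := (hφL.add hAφL).sub (hSL.const_smul (1 + lam))
  have hσ2 : nSq η S ≤ (1 + δ) * I := by have := (abs_le.mp hnS).2; linarith
  have hB : (fun y => opA η φ y - φ y)
      = fun y => (err y + (-2 : ℝ) • v y) + (lam - 1) • S y := by
    funext y
    simp only [herrdef, hv, one_smul, add_smul, sub_smul, smul_sub, neg_smul, two_smul]
    abel
  rw [hB]
  have g8 : nSq η (fun y => (err y + (-2 : ℝ) • v y) + (lam - 1) • S y)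
      ≤ 2 * nSq η (fun y => err y + (-2 : ℝ) • v y) + 2 * nSq η (fun y => (lam - 1) • S y) :=
    s5k_nSq_add_le (herrL.add (hvL.const_smul (-2 : ℝ))) (hSL.const_smul (lam - 1))
  have g9 : nSq η (fun y => err y + (-2 : ℝ) • v y)
      ≤ 2 * nSq η err + 2 * nSq η (fun y => (-2 : ℝ) • v y) :=
    s5k_nSq_add_le herrL (hvL.const_smul (-2 : ℝ))
  rw [s5k_nSq_smul] at g8 g9
  have g5 : (lam - 1) ^ 2 ≤ δ ^ 2 := by
    apply sq_le_sq'
    · linarith
    · linarith
  have g6 : (lam - 1) ^ 2 * nSq η S ≤ δ ^ 2 * ((1 + δ) * I) :=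
    mul_le_mul g5 hσ2 (s5k_nSq_nonneg _ _) (by positivity)
  have g7 : δ ^ 2 * ((1 + δ) * I) ≤ δ * I := by
    have : δ * (1 + δ) ≤ 1 := by nlinarith
    calc δ ^ 2 * ((1 + δ) * I) = (δ * (1 + δ)) * (δ * I) := by ring
      _ ≤ 1 * (δ * I) := mul_le_mul_of_nonneg_right this hδI.le
      _ = δ * I := one_mul _
  linarith

theorem s5s_main : SmoothGoal := by
  refine ⟨400, ?_⟩
  intro n ι _ η lam I δ hη hPI hI hδ hδ4 hl1 hl2 S hSs hSL hDSL hmS hnS hnDS
  have hδI : 0 < δ * I := by positivity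
  obtain ⟨φ, hφs, hφc, herr⟩ := op_core_dense_vec hη.1 hη.2.1 (κ := 1) one_pos
    (u := fun y => (1 + lam) • S y) (hSL.const_smul (1 + lam)) hδI
  have hφt : IsTestV φ := ⟨hφs, hφc⟩
  simp only [one_smul] at herr
  have he : nSq η (fun y => φ y + opA η φ y - (1 + lam) • S y) ≤ δ * I := herr
  have h1 := s5s_core hη hPI hI hδ hδ4 hl1 hl2 hSs hSL hDSL hmS hnS hnDS hφt he
  have ha0 := s5k_nSq_nonneg η (fun y => φ y - S y)
  have hb0 := s5k_nSq_nonneg η (fun y => fD φ y - fD S y)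
  have h2 := s5s_core2 hη hI hδ hδ4 hl1 hl2 hSL hnS hφt he (by linarith)
  have hC : ∀ x : ℝ, x ≤ 400 * (δ * I) → x ≤ 400 * δ * I := fun x hx => by linarith
  exact ⟨φ, hφt, hC _ (by linarith), hC _ (by linarith), hC _ h2⟩

end Claimed.Agent.R259
end
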