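/- Packed by merge_tool.py (helper293): 12 modules of Claimed.Agent.R259 in one file, same declarations.
   Old modules, in this order: S6RootTC, S6RootPoinKit, S6RootPoinMx, S6RootPoinC1, S7LawAlg, S7LawGEd, S7LawGEe, S7LawGE, S7LawJa, S7LawSpecPt, S7LawSpecBm, S7LawSpecInt -/
import Claimed.Agent.R260.MxChain
import Claimed.Agent.R259.Pack021
import Claimed.Agent.R259.Pack031
import Claimed.Agent.R259.Pack035
import Claimed.Agent.R259.Pack037
import Claimed.Agent.R259.Pack036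
import Claimed.Agent.R259.Pack020
import Claimed.Agent.R259.Pack038
import Claimed.Agent.R259.Pack030
import Claimed.Agent.R259.Pack029
import Claimed.Agent.R259.Pack039

/- ===== packed: Claimed.Agent.R259.S6RootTC ===== -/
section
/-
Row 259 (S0499), Lemma 6.1 of the paper (Poincare inequality for `R`), package BP-S6-root.  Owner: helper57.  Prefix `s6r_`.

PART 6a: matrix fields whose entries are (constant + test function), with explicit directional derivatives (`MxTC A Z`);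
closure under sums, products, polynomials:  `MxTC A Z → MxTC (p(A)) (mxDK p p' A Z)` for symmetric `A`
(same proof as `R260.mx_gh1_poly`).
-/
set_option autoImplicit false

open MeasureTheory
open scoped BigOperators Matrix ContDiff
open Claimed.Agent.R260 (Mx mxFun mxSchur mxSq mxIP mxEig mxU mxRot mxDK)

namespace Claimed.Agent.R259

variable {n : ℕ}

/-! ### scalar functions: constant + test -/

theorem s6r_testC_const (c : ℝ) : IsTestC (fun _ : EE n => c) := by
  refine ⟨c, ?_, ?_⟩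
  · simp only [sub_self]; exact contDiff_const
  · simp only [sub_self]; exact HasCompactSupport.zero

theorem s6r_testC_add {f g : EE n → ℝ} (hf : IsTestC f) (hg : IsTestC g) :
    IsTestC fun y => f y + g y := by
  obtain ⟨c, h1, h2⟩ := hf
  obtain ⟨c', h1', h2'⟩ := hg
  have e : (fun y => f y + g y - (c + c')) = fun y => (f y - c) + (g y - c') := by
    funext y; ring
  refine ⟨c + c', ?_, ?_⟩
  · rw [e]; exact h1.add h1'
  · rw [e]; exact h2.add h2'

theorem s6r_testC_mul {f g : EE n → ℝ} (hf : IsTestC f) (hg : IsTestC g) :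
    IsTestC fun y => f y * g y := by
  obtain ⟨c, h1, h2⟩ := hf
  obtain ⟨c', h1', h2'⟩ := hg
  have e : (fun y => f y * g y - c * c')
      = fun y => (f y - c) * (g y - c') + (c * (g y - c') + c' * (f y - c)) := by
    funext y; ring
  refine ⟨c * c', ?_, ?_⟩
  · rw [e]
    exact (h1.mul h1').add ((contDiff_const.mul h1').add (contDiff_const.mul h1))
  · rw [e]
    exact (h2.mul_right (f' := fun y => g y - c')).add
      ((h2'.mul_left (f := fun _ => c)).add (h2.mul_left (f := fun _ => c')))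

theorem s6r_testC_sum {ι : Type} (s : Finset ι) {f : ι → EE n → ℝ} (hf : ∀ j ∈ s, IsTestC (f j)) :
    IsTestC fun y => ∑ j ∈ s, f j y := by
  classical
  induction s using Finset.induction_on with
  | empty => simpa using s6r_testC_const (n := n) 0
  | insert a s ha ih =>
    simp only [Finset.sum_insert ha]
    exact s6r_testC_add (hf a (Finset.mem_insert_self a s))
      (ih fun j hj => hf j (Finset.mem_insert_of_mem hj))

/-! ### matrix fields -/

/-- entries are (constant + test function), with directional derivatives `Z i` -/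
def MxTC (A : EE n → Mx n) (Z : Fin n → EE n → Mx n) : Prop :=
  ∀ a b, IsTestC (fun y => A y a b) ∧ ∀ i y, fderiv ℝ (fun y => A y a b) y (eb i) = Z i y a b

theorem s6r_tc_eqns_cite : True := by
  have := @MxTC.eq_1
  trivial

theorem MxTC.const (M : Mx n) : MxTC (fun _ => M) (fun _ _ => 0) := by
  intro a b
  refine ⟨s6r_testC_const _, fun i y => ?_⟩
  simp

theorem MxTC.add {F G : EE n → Mx n} {dF dG : Fin n → EE n → Mx n} (hF : MxTC F dF)
    (hG : MxTC G dG) : MxTC (fun y => F y + G y) (fun i y => dF i y + dG i y) := by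
  intro a b
  refine ⟨s6r_testC_add (hF a b).1 (hG a b).1, fun i y => ?_⟩
  simp only [Matrix.add_apply]
  rw [fderiv_fun_add ((hF a b).1.differentiable y) ((hG a b).1.differentiable y),
    add_apply, (hF a b).2, (hG a b).2]

theorem MxTC.smul (c : ℝ) {F : EE n → Mx n} {dF : Fin n → EE n → Mx n} (hF : MxTC F dF) :
    MxTC (fun y => c • F y) (fun i y => c • dF i y) := by
  intro a b
  refine ⟨(hF a b).1.const_mul c, fun i y => ?_⟩
  simp only [Matrix.smul_apply, smul_eq_mul]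
  rw [fderiv_const_mul ((hF a b).1.differentiable y), smul_apply, (hF a b).2,
    smul_eq_mul]

theorem MxTC.mul {F G : EE n → Mx n} {dF dG : Fin n → EE n → Mx n} (hF : MxTC F dF)
    (hG : MxTC G dG) : MxTC (fun y => F y * G y) (fun i y => dF i y * G y + F y * dG i y) := by
  intro a b
  simp only [Matrix.mul_apply, Matrix.add_apply]
  refine ⟨s6r_testC_sum _ fun c _ => s6r_testC_mul (hF a c).1 (hG c b).1, fun i y => ?_⟩
  rw [fderiv_fun_sum (A := fun c y => F y a c * G y c b) fun c _ =>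
    ((hF a c).1.differentiable y).fun_mul ((hG c b).1.differentiable y),
    sum_apply, ← Finset.sum_add_distrib]
  refine Finset.sum_congr rfl fun c _ => ?_
  rw [fderiv_fun_mul ((hF a c).1.differentiable y) ((hG c b).1.differentiable y),
    add_apply, smul_apply, smul_apply,
    (hF a c).2, (hG c b).2, smul_eq_mul, smul_eq_mul]
  ring

theorem MxTC.pow {A : EE n → Mx n} {Z : Fin n → EE n → Mx n} (hs : ∀ y, (A y).IsSymm)
    (hAZ : MxTC A Z) (m : ℕ) :
    MxTC (fun x => mxFun (fun a => a ^ m) (A x))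
      (fun r x => mxDK (fun a => a ^ m) (fun a => (m : ℝ) * a ^ (m - 1)) (A x) (Z r x)) := by
  induction m with
  | zero =>
    have h := MxTC.const (n := n) (1 : Mx n)
    have e1 : (fun x => mxFun (fun a => a ^ 0) (A x)) = fun _ => (1 : Mx n) := by
      funext x
      simp only [pow_zero, Claimed.Agent.R260.mxFun_const, one_smul]
    have e2 : (fun (r : Fin n) x => mxDK (fun a => a ^ 0)
        (fun a => ((0 : ℕ) : ℝ) * a ^ (0 - 1)) (A x) (Z r x)) = fun _ _ => (0 : Mx n) := by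
      funext r x
      simp only [pow_zero, Nat.cast_zero, zero_mul]
      exact Claimed.Agent.R260.mxDK_const 1 (A x) (Z r x)
    rw [e1, e2]
    exact h
  | succ m ih =>
    have h := MxTC.mul ih hAZ
    have e1 : (fun x => mxFun (fun a => a ^ (m + 1)) (A x))
        = fun x => mxFun (fun a => a ^ m) (A x) * A x := by
      funext x
      simp only [pow_succ]
      rw [Claimed.Agent.R260.mxFun_mul, Claimed.Agent.R260.mxFun_id (hs x)]
    have e2 : (fun (r : Fin n) x => mxDK (fun a => a ^ (m + 1))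
        (fun a => ((m + 1 : ℕ) : ℝ) * a ^ (m + 1 - 1)) (A x) (Z r x))
        = fun r x => mxDK (fun a => a ^ m) (fun a => (m : ℝ) * a ^ (m - 1)) (A x) (Z r x) * A x
            + mxFun (fun a => a ^ m) (A x) * Z r x := by
      funext r x
      have h1 := Claimed.Agent.R260.mxDK_mul (fun a => a ^ m) (fun a => (m : ℝ) * a ^ (m - 1))
        (fun a => a) (fun _ => 1) (A x) (Z r x)
      rw [Claimed.Agent.R260.mxFun_id (hs x), Claimed.Agent.R260.mxc_DK_id] at h1
      rw [← h1]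
      congr 1
      funext a
      rcases m with _ | k
      · simp
      · simp only [Nat.add_sub_cancel]
        push_cast
        ring
    rw [e1, e2]
    exact h

/-- **chain rule for polynomials of a symmetric matrix field** -/
theorem MxTC.poly {A : EE n → Mx n} {Z : Fin n → EE n → Mx n} (hs : ∀ y, (A y).IsSymm)
    (hAZ : MxTC A Z) (P : Polynomial ℝ) :
    MxTC (fun x => mxFun (fun a => P.eval a) (A x))
      (fun r x => mxDK (fun a => P.eval a) (fun a => P.derivative.eval a) (A x) (Z r x)) := by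
  induction P using Polynomial.induction_on' with
  | add p q hp hq =>
    have h := hp.add hq
    have e1 : (fun x => mxFun (fun a => (p + q).eval a) (A x))
        = fun x => mxFun (fun a => p.eval a) (A x) + mxFun (fun a => q.eval a) (A x) := by
      funext x
      simp only [Polynomial.eval_add]
      rw [Claimed.Agent.R260.mxFun_add]
    have e2 : (fun (r : Fin n) x => mxDK (fun a => (p + q).eval a)
        (fun a => (p + q).derivative.eval a) (A x) (Z r x))
        = fun r x => mxDK (fun a => p.eval a) (fun a => p.derivative.eval a) (A x) (Z r x)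
          + mxDK (fun a => q.eval a) (fun a => q.derivative.eval a) (A x) (Z r x) := by
      funext r x
      simp only [Polynomial.eval_add, Polynomial.derivative_add]
      rw [Claimed.Agent.R260.mxDK_add]
    rw [e1, e2]
    exact h
  | monomial m c =>
    have h := (MxTC.pow hs hAZ m).smul c
    have e1 : (fun x => mxFun (fun a => (Polynomial.monomial m c).eval a) (A x))
        = fun x => c • mxFun (fun a => a ^ m) (A x) := by
      funext x
      simp only [Polynomial.eval_monomial]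
      rw [Claimed.Agent.R260.mxFun_smul]
    have e2 : (fun (r : Fin n) x => mxDK (fun a => (Polynomial.monomial m c).eval a)
        (fun a => (Polynomial.monomial m c).derivative.eval a) (A x) (Z r x))
        = fun r x => c • mxDK (fun a => a ^ m) (fun a => (m : ℝ) * a ^ (m - 1)) (A x) (Z r x) := by
      funext r x
      simp only [Polynomial.eval_monomial, Polynomial.derivative_monomial]
      rw [← Claimed.Agent.R260.mxDK_const_mul]
      congr 1
      funext a
      ring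
    rw [e1, e2]
    exact h

end Claimed.Agent.R259
end

/- ===== packed: Claimed.Agent.R259.S6RootPoinKit ===== -/
section
/-
Row 259 (S0499), Lemma 6.1 of the paper (Poincare inequality for `R`), package BP-S6-root.  Architect: helper57.  Prefix `s6r_`.
LEAF L-S6R-PoinKit: three additions to the matrix kit (pure linear algebra + one Minkowski inequality).
-/
set_option autoImplicit false

open MeasureTheory
open scoped BigOperators Matrix
open Claimed.Agent.R260 (Mx mxFun mxSchur mxSq mxIP mxEig mxU mxRot mxDK)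

namespace Claimed.Agent.R259

variable {n : ℕ}

/-! ### leaf L-S6R-PoinKit: three additions to the kit -/

section kit

variable {β : Type} [Fintype β]

/-- the regularised derivative is POINTWISE dominated by the Sylvester solution: in the eigenbasis of `P Pᵀ`
`|Z_ab| / (√(u_a+ε²) + √(u_b+ε²)) ≤ |Z_ab| / (√u_a + √u_b)`, and `Z_ab = 0` if `u_a = u_b = 0` (`syl_kernel`). -/
theorem hs2_sylXe_le_sylX (ε : ℝ) (P Q : Matrix (Fin n) β ℝ) :
    hs2 (sylXe ε P Q) ≤ hs2 (sylX P Q) := by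
  rw [← hs2_mxRot (P * Pᵀ) (sylXe ε P Q), ← hs2_mxRot (P * Pᵀ) (sylX P Q)]
  unfold hs2
  refine Finset.sum_le_sum fun a _ => Finset.sum_le_sum fun b _ => ?_
  rw [syl_rotXe, syl_rotX]
  by_cases h : Real.sqrt (mxEig (P * Pᵀ) a) + Real.sqrt (mxEig (P * Pᵀ) b) = 0
  · rw [syl_kernel' P Q a b h]
    simp
  · have ha := Real.sqrt_nonneg (mxEig (P * Pᵀ) a)
    have hb := Real.sqrt_nonneg (mxEig (P * Pᵀ) b)
    have hpos : 0 < Real.sqrt (mxEig (P * Pᵀ) a) + Real.sqrt (mxEig (P * Pᵀ) b) :=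
      lt_of_le_of_ne (add_nonneg ha hb) (Ne.symm h)
    have h1 : Real.sqrt (mxEig (P * Pᵀ) a) ≤ Real.sqrt (mxEig (P * Pᵀ) a + ε ^ 2) :=
      Real.sqrt_le_sqrt (by nlinarith [sq_nonneg ε])
    have h2 : Real.sqrt (mxEig (P * Pᵀ) b) ≤ Real.sqrt (mxEig (P * Pᵀ) b + ε ^ 2) :=
      Real.sqrt_le_sqrt (by nlinarith [sq_nonneg ε])
    have h3 : sylWe ε (mxEig (P * Pᵀ) a) (mxEig (P * Pᵀ) b)
        ≤ sylW (mxEig (P * Pᵀ) a) (mxEig (P * Pᵀ) b) := by
      unfold sylWe sylW
      exact inv_anti₀ hpos (add_le_add h1 h2)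
    have h4 : 0 ≤ sylWe ε (mxEig (P * Pᵀ) a) (mxEig (P * Pᵀ) b) := by
      unfold sylWe
      positivity
    rw [mul_pow, mul_pow]
    exact mul_le_mul_of_nonneg_right (pow_le_pow_left₀ h4 h3 2) (sq_nonneg _)

/-- the regularised derivative is the Daleckii-Krein derivative of `x ↦ √(x+ε²) - ε` -/
theorem sylXe_eq_mxDK {ε : ℝ} (hε : 0 < ε) (P Q : Matrix (Fin n) β ℝ) :
    mxDK (fun x => Real.sqrt (x + ε ^ 2) - ε) (fun x => (2 * Real.sqrt (x + ε ^ 2))⁻¹) (P * Pᵀ)
      (dgram P Q) = sylXe ε P Q := by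
  unfold mxDK sylXe
  refine Claimed.Agent.R260.mxSchur_congr (fun a b => ?_) _
  have ha : 0 ≤ mxEig (P * Pᵀ) a := syl_eig_nonneg P a
  have hb : 0 ≤ mxEig (P * Pᵀ) b := syl_eig_nonneg P b
  obtain ⟨u, hu⟩ : ∃ u, u = mxEig (P * Pᵀ) a := ⟨_, rfl⟩
  obtain ⟨v, hv⟩ : ∃ v, v = mxEig (P * Pᵀ) b := ⟨_, rfl⟩
  rw [← hu, ← hv]
  rw [← hu] at ha
  rw [← hv] at hb
  unfold Claimed.Agent.R260.mxDD sylWe
  have hu0 : 0 < u + ε ^ 2 := by positivity
  have hv0 : 0 < v + ε ^ 2 := by positivity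
  have su := Real.sqrt_pos.2 hu0
  have sv := Real.sqrt_pos.2 hv0
  split_ifs with h
  · rw [h]
    show (2 * Real.sqrt (v + ε ^ 2))⁻¹ = _
    rw [two_mul]
  · have e1 : Real.sqrt (u + ε ^ 2) ^ 2 = u + ε ^ 2 := Real.sq_sqrt hu0.le
    have e2 : Real.sqrt (v + ε ^ 2) ^ 2 = v + ε ^ 2 := Real.sq_sqrt hv0.le
    have e3 : u - v = (Real.sqrt (u + ε ^ 2) - Real.sqrt (v + ε ^ 2))
        * (Real.sqrt (u + ε ^ 2) + Real.sqrt (v + ε ^ 2)) := by
      have : (Real.sqrt (u + ε ^ 2) - Real.sqrt (v + ε ^ 2))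
        * (Real.sqrt (u + ε ^ 2) + Real.sqrt (v + ε ^ 2))
          = Real.sqrt (u + ε ^ 2) ^ 2 - Real.sqrt (v + ε ^ 2) ^ 2 := by ring
      rw [this, e1, e2]; ring
    have h0 : u - v ≠ 0 := sub_ne_zero.2 h
    have h1 : Real.sqrt (u + ε ^ 2) - Real.sqrt (v + ε ^ 2) ≠ 0 := by
      intro hc
      rw [hc, zero_mul] at e3
      exact h0 e3
    have h2 : Real.sqrt (u + ε ^ 2) + Real.sqrt (v + ε ^ 2) ≠ 0 := by positivity
    rw [e3]
    field_simp
    ring

theorem mk_rMean_sub {Ω α γ : Type} [MeasurableSpace Ω] [Fintype α] [Fintype γ] {μ : Measure Ω}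
    [IsFiniteMeasure μ] {F G : Ω → Matrix α γ ℝ} (hF : RL2 μ F) (hG : RL2 μ G) :
    rMean μ (fun w => F w - G w) = rMean μ F - rMean μ G := by
  ext a b
  simp only [rMean, Matrix.of_apply, Matrix.sub_apply]
  exact integral_sub (hF.integrable_apply a b) (hG.integrable_apply a b)

/-- the standard deviation is a seminorm: `sd(F) ≤ sd(G) + ‖F - G‖₂` -/
theorem mk_sqrt_var_le {Ω α γ : Type} [MeasurableSpace Ω] [Fintype α] [Fintype γ] {μ : Measure Ω}
    [IsProbabilityMeasure μ] {F G : Ω → Matrix α γ ℝ} (hF : RL2 μ F) (hG : RL2 μ G) :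
    Real.sqrt (∫ w, hs2 (F w) ∂μ - hs2 (rMean μ F))
      ≤ Real.sqrt (∫ w, hs2 (G w) ∂μ - hs2 (rMean μ G)) + Real.sqrt (∫ w, hs2 (F w - G w) ∂μ) := by
  have hFG : RL2 μ fun w => F w - G w := hF.sub hG
  have hc : ∀ M : Matrix α γ ℝ, RL2 μ fun _ : Ω => M := fun M => (RB.const M).toL2
  rw [← mk_integral_hs2_sub_rMean hF, ← mk_integral_hs2_sub_rMean hG]
  have h1 := mk_sqrt_sum_integral_hs2_add_le (μ := μ) (ι := Unit)
    (F := fun _ w => G w - rMean μ G)
    (G := fun _ w => (F w - G w) - rMean μ (fun w => F w - G w))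
    (fun _ => hG.sub (hc _)) (fun _ => hFG.sub (hc _))
  simp only [Finset.univ_unique, Finset.sum_singleton] at h1
  have e : ∀ w, G w - rMean μ G + ((F w - G w) - rMean μ (fun w => F w - G w))
      = F w - rMean μ F := by
    intro w
    rw [mk_rMean_sub hF hG]
    abel
  simp only [e] at h1
  refine h1.trans (add_le_add le_rfl (Real.sqrt_le_sqrt ?_))
  rw [mk_integral_hs2_sub_rMean hFG]
  linarith [hs2_nonneg (rMean μ fun w => F w - G w)]

end kit

end Claimed.Agent.R259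
end

/- ===== packed: Claimed.Agent.R259.S6RootPoinMx ===== -/
section
/-
Row 259 (S0499), Lemma 6.1 of the paper (Poincare inequality for `R`), package BP-S6-root.  Architect: helper57.  Prefix `s6r_`.
LEAF L-S6R-PoinMx: the Poincare inequality for matrix fields with entries (constant + test).
-/
set_option autoImplicit false

open MeasureTheory
open scoped BigOperators Matrix
open Claimed.Agent.R260 (Mx mxFun mxSchur mxSq mxIP mxEig mxU mxRot mxDK)

namespace Claimed.Agent.R259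

variable {n : ℕ}

/-! ### leaf L-S6R-PoinMx -/

/-- `‖∇u‖² = ∑_i (D_i u)²` -/
theorem s6r_norm_gradient_sq (u : EE n → ℝ) (y : EE n) :
    ‖gradient u y‖ ^ 2 = ∑ i, (fderiv ℝ u y (eb i)) ^ 2 := by
  rw [EuclideanSpace.norm_sq_eq]
  refine Finset.sum_congr rfl fun i _ => ?_
  have h1 : inner ℝ (gradient u y) (eb i) = fderiv ℝ u y (eb i) := by
    unfold gradient
    exact InnerProductSpace.toDual_symm_apply
  have h2 : inner ℝ (gradient u y) (eb i) = gradient u y i := by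
    unfold eb
    rw [EuclideanSpace.inner_single_right]
    simp
  rw [← h1, h2, Real.norm_eq_abs, sq_abs]

theorem s6r_testC_integrable {m : Measure (EE n)} [IsFiniteMeasure m] {u : EE n → ℝ}
    (hu : IsTestC u) : Integrable u m := by
  obtain ⟨C, -, hC⟩ := hu.exists_bound
  exact Integrable.of_bound hu.continuous.aestronglyMeasurable C
    (Filter.Eventually.of_forall fun y => by rw [Real.norm_eq_abs]; exact hC y)

theorem s6r_testC_dI_integrable_sq {m : Measure (EE n)} [IsFiniteMeasure m] {u : EE n → ℝ}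
    (hu : IsTestC u) (i : Fin n) : Integrable (fun y => (fderiv ℝ u y (eb i)) ^ 2) m := by
  obtain ⟨C, hC0, hC⟩ := hu.exists_bound_fderiv
  have hc : Continuous fun y => (fderiv ℝ u y (eb i)) ^ 2 :=
    (hu.continuous_fderiv.clm_apply continuous_const).pow 2
  refine Integrable.of_bound hc.aestronglyMeasurable (C ^ 2)
    (Filter.Eventually.of_forall fun y => ?_)
  rw [Real.norm_eq_abs, abs_of_nonneg (sq_nonneg _), ← sq_abs]
  refine pow_le_pow_left₀ (abs_nonneg _) ?_ 2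
  rw [← Real.norm_eq_abs]
  calc ‖fderiv ℝ u y (eb i)‖ ≤ ‖fderiv ℝ u y‖ * ‖(eb i : EE n)‖ :=
        ContinuousLinearMap.le_opNorm _ _
    _ ≤ C := by
        have : ‖(eb i : EE n)‖ = 1 := by unfold eb; simp
        rw [this, mul_one]; exact hC y

/-- the Poincare inequality on (constant + test), with the energy written in coordinates:
`vari` does not see constants, `‖gradient u‖² = ∑_i (D_i u)²`. -/
theorem s6r_PI_testC {m : Measure (EE n)} [IsProbabilityMeasure m] {κ : ℝ} (h : PI m κ)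
    {u : EE n → ℝ} (hu : IsTestC u) :
    vari m u ≤ κ * ∑ i, ∫ y, (fderiv ℝ u y (eb i)) ^ 2 ∂m := by
  obtain ⟨c, hc⟩ := hu
  have hu : IsTestC u := ⟨c, hc⟩
  have h1 := h _ hc
  have iu : Integrable u m := s6r_testC_integrable hu
  have iu2 : Integrable (fun y => u y ^ 2) m := by
    have := s6r_testC_integrable (m := m) (s6r_testC_mul hu hu)
    simpa only [sq] using this
  have e1 : vari m (fun y => u y - c) = vari m u := by
    unfold vari
    have a1 : ∫ y, (u y - c) ^ 2 ∂m = ∫ y, u y ^ 2 ∂m - 2 * c * ∫ y, u y ∂m + c ^ 2 := by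
      have : ∀ y, (u y - c) ^ 2 = u y ^ 2 - 2 * c * u y + c ^ 2 := fun y => by ring
      simp only [this]
      rw [integral_add (f := fun y => u y ^ 2 - 2 * c * u y) (iu2.sub (iu.const_mul _))
          (integrable_const _),
        integral_sub iu2 (iu.const_mul _), integral_const_mul, integral_const]
      simp
    have a2 : ∫ y, (u y - c) ∂m = ∫ y, u y ∂m - c := by
      rw [integral_sub iu (integrable_const _), integral_const]
      simp
    rw [a1, a2]
    ring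
  have e2 : nrg m (fun y => u y - c) = ∑ i, ∫ y, (fderiv ℝ u y (eb i)) ^ 2 ∂m := by
    unfold nrg
    simp only [s6r_norm_gradient_sq]
    rw [integral_finsetSum _ fun i _ => ?_]
    · refine Finset.sum_congr rfl fun i _ => ?_
      refine integral_congr_ae (Filter.Eventually.of_forall fun y => ?_)
      simp only [fderiv_sub_const]
    · have := s6r_testC_dI_integrable_sq (m := m) hu i
      simpa only [fderiv_sub_const] using this
  rwa [e1, e2] at h1

/-- sum over the entries -/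
theorem s6r_PI_mx {m : Measure (EE n)} [IsProbabilityMeasure m] {κ : ℝ} (h : PI m κ)
    {A : EE n → Mx n} {Z : Fin n → EE n → Mx n} (hAZ : MxTC A Z) :
    ∫ y, hs2 (A y) ∂m - hs2 (rMean m A) ≤ κ * ∑ i, ∫ y, hs2 (Z i y) ∂m := by
  have i2 : ∀ a b, Integrable (fun y => A y a b ^ 2) m := fun a b => by
    have := s6r_testC_integrable (m := m) (s6r_testC_mul (hAZ a b).1 (hAZ a b).1)
    simpa only [sq] using this
  have iZ : ∀ i a b, Integrable (fun y => Z i y a b ^ 2) m := fun i a b => by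
    have := s6r_testC_dI_integrable_sq (m := m) (hAZ a b).1 i
    simpa only [(hAZ a b).2] using this
  have e1 : ∫ y, hs2 (A y) ∂m - hs2 (rMean m A) = ∑ a, ∑ b, vari m (fun y => A y a b) := by
    unfold hs2 vari rMean
    rw [integral_finsetSum _ fun a _ => integrable_finsetSum _ fun b _ => i2 a b,
      ← Finset.sum_sub_distrib]
    refine Finset.sum_congr rfl fun a _ => ?_
    rw [integral_finsetSum _ fun b _ => i2 a b, ← Finset.sum_sub_distrib]
    rfl
  have e2 : ∑ i, ∫ y, hs2 (Z i y) ∂m = ∑ a, ∑ b, ∑ i, ∫ y, Z i y a b ^ 2 ∂m := by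
    unfold hs2
    have : ∀ i, ∫ y, ∑ a, ∑ b, Z i y a b ^ 2 ∂m = ∑ a, ∑ b, ∫ y, Z i y a b ^ 2 ∂m := by
      intro i
      rw [integral_finsetSum _ fun a _ => integrable_finsetSum _ fun b _ => iZ i a b]
      refine Finset.sum_congr rfl fun a _ => ?_
      rw [integral_finsetSum _ fun b _ => iZ i a b]
    simp only [this]
    rw [Finset.sum_comm]
    refine Finset.sum_congr rfl fun a _ => ?_
    rw [Finset.sum_comm]
  rw [e1, e2, Finset.mul_sum]
  refine Finset.sum_le_sum fun a _ => ?_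
  rw [Finset.mul_sum]
  refine Finset.sum_le_sum fun b _ => ?_
  have := s6r_PI_testC h (hAZ a b).1
  simpa only [(hAZ a b).2] using this

end Claimed.Agent.R259
end

/- ===== packed: Claimed.Agent.R259.S6RootPoinC1 ===== -/
section
/-
Row 259 (S0499), Lemma 6.1 of the paper (Poincare inequality for `R`), package BP-S6-root.  Architect: helper57.  Prefix `s6r_`.
LEAF L-S6R-PoinC1: the Poincare inequality for `f(A)`, `f ∈ C¹`.
-/
set_option autoImplicit false

open MeasureTheory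
open scoped BigOperators Matrix
open Claimed.Agent.R260 (Mx mxFun mxSchur mxSq mxIP mxEig mxU mxRot mxDK)

namespace Claimed.Agent.R259

variable {n : ℕ}

/-! ### leaf L-S6R-PoinC1 -/

theorem s6r_norm_eb (i : Fin n) : ‖(eb i : EE n)‖ = 1 := by
  unfold eb
  simp

/-- fields of class `MxTC` are bounded and measurable, with bounded measurable derivatives -/
theorem MxTC.rb {A : EE n → Mx n} {Z : Fin n → EE n → Mx n} (hAZ : MxTC A Z) :
    RB A ∧ ∀ i, RB (Z i) := by
  refine ⟨RB.of_entries fun a b => ⟨(hAZ a b).1.continuous.measurable, ?_⟩,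
    fun i => RB.of_entries fun a b => ⟨?_, ?_⟩⟩
  · obtain ⟨C, -, hC⟩ := (hAZ a b).1.exists_bound
    exact ⟨C, hC⟩
  · have h1 : Continuous fun y => fderiv ℝ (fun y => A y a b) y (eb i) :=
      (hAZ a b).1.continuous_fderiv.clm_apply continuous_const
    simp only [(hAZ a b).2] at h1
    exact h1.measurable
  · obtain ⟨C, -, hC⟩ := (hAZ a b).1.exists_bound_fderiv
    refine ⟨C, fun y => ?_⟩
    rw [← (hAZ a b).2 i y, ← Real.norm_eq_abs]
    calc ‖fderiv ℝ (fun y => A y a b) y (eb i)‖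
        ≤ ‖fderiv ℝ (fun y => A y a b) y‖ * ‖(eb i : EE n)‖ := ContinuousLinearMap.le_opNorm _ _
      _ ≤ C := by rw [s6r_norm_eb, mul_one]; exact hC y

/-- entrywise bound gives a Hilbert-Schmidt bound -/
theorem s6r_hs2_le_of_entries {F : Mx n} {c : ℝ} (h : ∀ a b, F a b ^ 2 ≤ c) :
    hs2 F ≤ (n : ℝ) ^ 2 * c := by
  unfold hs2
  calc ∑ a, ∑ b, F a b ^ 2 ≤ ∑ _a : Fin n, ∑ _b : Fin n, c :=
        Finset.sum_le_sum fun a _ => Finset.sum_le_sum fun b _ => h a b
    _ = (n : ℝ) ^ 2 * c := by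
        simp only [Finset.sum_const, Finset.card_univ, Fintype.card_fin, nsmul_eq_mul]
        ring

/-- **Poincare inequality for `f(A)`**, `f ∈ C¹[lo,hi]`, spectra in `[lo,hi]`. -/
theorem s6r_PI_C1 {m : Measure (EE n)} [IsProbabilityMeasure m] {κ : ℝ} (hκ : 0 ≤ κ) (h : PI m κ)
    {A : EE n → Mx n} {Z : Fin n → EE n → Mx n} (hs : ∀ y, (A y).IsSymm) (hAZ : MxTC A Z)
    {lo hi : ℝ} (hspec : ∀ y i, mxEig (A y) i ∈ Set.Icc lo hi) {f f' : ℝ → ℝ}
    (hf : ∀ a ∈ Set.Icc lo hi, HasDerivWithinAt f (f' a) (Set.Icc lo hi) a)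
    (hf' : ContinuousOn f' (Set.Icc lo hi)) :
    ∫ y, hs2 (mxFun f (A y)) ∂m - hs2 (rMean m fun y => mxFun f (A y))
      ≤ κ * ∑ i, ∫ y, hs2 (mxDK f f' (A y) (Z i y)) ∂m := by
  obtain ⟨P, hP⟩ := Claimed.Agent.R260.mx_poly_approx hf hf'
  have hfc : ContinuousOn f (Set.Icc lo hi) := fun a ha => (hf a ha).continuousWithinAt
  have hZ : ∀ i, RB (Z i) := hAZ.rb.2
  have hTC : ∀ j, MxTC (fun x => mxFun (fun a => (P j).eval a) (A x))
      (fun r x => mxDK (fun a => (P j).eval a) (fun a => (P j).derivative.eval a) (A x) (Z r x)) :=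
    fun j => MxTC.poly hs hAZ (P j)
  -- pointwise convergence
  have hpt0 : ∀ x a b, Filter.Tendsto (fun j => mxFun (fun a => (P j).eval a) (A x) a b)
      Filter.atTop (nhds (mxFun f (A x) a b)) := by
    intro x a b
    apply Claimed.Agent.R260.mxc_tendsto_of_le (K := 1) zero_le_one
    intro ε hε
    filter_upwards [hP ε hε] with j hj
    rw [mul_one]
    exact (Claimed.Agent.R260.mxc_est hf hj (hspec x) 0 a b).1
  have hpt1 : ∀ r x a b, Filter.Tendsto (fun j => mxDK (fun a => (P j).eval a)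
      (fun a => (P j).derivative.eval a) (A x) (Z r x) a b) Filter.atTop
      (nhds (mxDK f f' (A x) (Z r x) a b)) := by
    intro r x a b
    apply Claimed.Agent.R260.mxc_tendsto_of_le (K := Real.sqrt (mxSq (Z r x))) (Real.sqrt_nonneg _)
    intro ε hε
    filter_upwards [hP ε hε] with j hj
    have h1 := (Claimed.Agent.R260.mxc_est hf hj (hspec x) (Z r x) a b).2
    have h2 : ε ^ 2 * mxSq (Z r x) = (ε * Real.sqrt (mxSq (Z r x))) ^ 2 := by
      rw [mul_pow, Real.sq_sqrt (Claimed.Agent.R260.mxSq_nonneg _)]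
    rw [h2] at h1
    exact abs_le_of_sq_le_sq h1 (by positivity)
  -- the limit fields are bounded and measurable
  have hG : RB fun y => mxFun f (A y) := by
    obtain ⟨C, hC⟩ := isCompact_Icc.exists_bound_of_continuousOn hfc
    refine ⟨RM.of_tendsto (fun j => (hTC j).rb.1.rm) hpt0, C, fun y a b => ?_⟩
    exact Claimed.Agent.R260.mxFun_apply_abs_le (fun l => hC _ (hspec y l)) a b
  have hD : ∀ i, RB fun y => mxDK f f' (A y) (Z i y) := by
    intro i
    obtain ⟨C', hC'⟩ := isCompact_Icc.exists_bound_of_continuousOn hf'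
    obtain ⟨K, hK⟩ := (hZ i).hs2_le
    refine RB.of_hs2_le (RM.of_tendsto (fun j => ((hTC j).rb.2 i).rm) (hpt1 i))
      (C := C' ^ 2 * K) fun y => ?_
    rw [← mxSq_eq_hs2]
    refine (Claimed.Agent.R260.mxDK_sq_le (C := C') (fun k l => ?_) _).trans ?_
    · exact Claimed.Agent.R260.mxDD_abs_le' hf (fun a ha => hC' a ha) (hspec y k) (hspec y l)
    · rw [mxSq_eq_hs2]
      exact mul_le_mul_of_nonneg_left (hK y) (sq_nonneg _)
  -- notation
  obtain ⟨S, hS⟩ : ∃ S, S = ∑ i, ∫ y, hs2 (mxDK f f' (A y) (Z i y)) ∂m := ⟨_, rfl⟩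
  obtain ⟨K, hKdef⟩ : ∃ K, K = ∑ i, ∫ y, hs2 (Z i y) ∂m := ⟨_, rfl⟩
  have hS0 : 0 ≤ S := by
    rw [hS]; exact Finset.sum_nonneg fun i _ => integral_nonneg fun y => hs2_nonneg _
  have hK0 : 0 ≤ K := by
    rw [hKdef]; exact Finset.sum_nonneg fun i _ => integral_nonneg fun y => hs2_nonneg _
  rw [← hS]
  have hκS : 0 ≤ κ * S := mul_nonneg hκ hS0
  -- the key estimate for every `ε`
  have key : ∀ ε : ℝ, 0 < ε →
      Real.sqrt (∫ y, hs2 (mxFun f (A y)) ∂m - hs2 (rMean m fun y => mxFun f (A y)))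
        ≤ Real.sqrt (κ * S) + ε * (Real.sqrt κ * (n * Real.sqrt K) + n) := by
    intro ε hε
    obtain ⟨j, hj⟩ := (hP ε hε).exists
    have hFj := (hTC j).rb.1
    have hDj := (hTC j).rb.2
    have e1 := mk_sqrt_var_le (μ := m) hG.toL2 hFj.toL2
    have e2 : ∫ y, hs2 (mxFun f (A y) - mxFun (fun a => (P j).eval a) (A y)) ∂m
        ≤ ((n : ℝ) * ε) ^ 2 := by
      calc _ ≤ ∫ _y, ((n : ℝ) * ε) ^ 2 ∂m := by
            refine integral_mono (hG.sub hFj).toL2.integrable_hs2 (integrable_const _) fun y => ?_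
            have := s6r_hs2_le_of_entries
              (F := mxFun f (A y) - mxFun (fun a => (P j).eval a) (A y)) (c := ε ^ 2)
              fun a b => by
                have h1 := (Claimed.Agent.R260.mxc_est hf hj (hspec y) 0 a b).1
                rw [Matrix.sub_apply, ← sq_abs, abs_sub_comm]
                exact pow_le_pow_left₀ (abs_nonneg _) h1 2
            rw [mul_pow]
            exact this
        _ = ((n : ℝ) * ε) ^ 2 := by simp
    have e3 := s6r_PI_mx h (hTC j)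
    have e4 := mk_sqrt_sum_integral_hs2_add_le (μ := m) (ι := Fin n)
      (F := fun i y => mxDK f f' (A y) (Z i y))
      (G := fun i y => mxDK (fun a => (P j).eval a) (fun a => (P j).derivative.eval a) (A y) (Z i y)
        - mxDK f f' (A y) (Z i y))
      (fun i => (hD i).toL2) (fun i => ((hDj i).sub (hD i)).toL2)
    simp only [add_sub_cancel] at e4
    have e5 : ∑ i, ∫ y, hs2 (mxDK (fun a => (P j).eval a) (fun a => (P j).derivative.eval a) (A y)
        (Z i y) - mxDK f f' (A y) (Z i y)) ∂m ≤ ((n : ℝ) * ε) ^ 2 * K := by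
      rw [hKdef, Finset.mul_sum]
      refine Finset.sum_le_sum fun i _ => ?_
      rw [← integral_const_mul]
      refine integral_mono ((hDj i).sub (hD i)).toL2.integrable_hs2
        ((hZ i).toL2.integrable_hs2.const_mul _) fun y => ?_
      have := s6r_hs2_le_of_entries
        (F := mxDK (fun a => (P j).eval a) (fun a => (P j).derivative.eval a) (A y) (Z i y)
          - mxDK f f' (A y) (Z i y)) (c := ε ^ 2 * hs2 (Z i y))
        fun a b => by
          have h1 := (Claimed.Agent.R260.mxc_est hf hj (hspec y) (Z i y) a b).2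
          rw [mxSq_eq_hs2] at h1
          exact h1
      calc _ ≤ (n : ℝ) ^ 2 * (ε ^ 2 * hs2 (Z i y)) := this
        _ = ((n : ℝ) * ε) ^ 2 * hs2 (Z i y) := by ring
    have hnε : 0 ≤ (n : ℝ) * ε := by positivity
    have e2' := Real.sqrt_le_sqrt e2
    rw [Real.sqrt_sq hnε] at e2'
    have e5' := Real.sqrt_le_sqrt e5
    rw [Real.sqrt_mul (sq_nonneg _), Real.sqrt_sq hnε] at e5'
    have e3' := Real.sqrt_le_sqrt e3
    rw [Real.sqrt_mul hκ] at e3'
    rw [← hS] at e4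
    have e6 : Real.sqrt κ * Real.sqrt (∑ i, ∫ y, hs2 (mxDK (fun a => (P j).eval a)
        (fun a => (P j).derivative.eval a) (A y) (Z i y)) ∂m)
        ≤ Real.sqrt κ * (Real.sqrt S + (n : ℝ) * ε * Real.sqrt K) :=
      mul_le_mul_of_nonneg_left (e4.trans (by linarith)) (Real.sqrt_nonneg _)
    rw [Real.sqrt_mul hκ]
    calc _ ≤ _ := e1
      _ ≤ Real.sqrt κ * (Real.sqrt S + (n : ℝ) * ε * Real.sqrt K) + (n : ℝ) * ε := by linarith
      _ = _ := by ring
  rw [← Real.sqrt_le_sqrt_iff hκS]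
  apply le_of_forall_pos_le_add
  intro ε' hε'
  have hc : 0 < Real.sqrt κ * (n * Real.sqrt K) + n + 1 := by positivity
  have h1 := key (ε' / (Real.sqrt κ * (n * Real.sqrt K) + n + 1)) (by positivity)
  refine h1.trans (by
    have h2 : ε' / (Real.sqrt κ * (n * Real.sqrt K) + n + 1)
        * (Real.sqrt κ * (n * Real.sqrt K) + n) ≤ ε' := by
      rw [div_mul_eq_mul_div, div_le_iff₀ hc]
      nlinarith
    linarith)

end Claimed.Agent.R259
end

/- ===== packed: Claimed.Agent.R259.S7LawAlg ===== -/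
section
/-
Row 259 (S0499), section 7, trace law: deterministic matrix algebra (index swap (7.27), the column
`H[q ·]`, splitting of exponentials, Gaussian isometry).
EXPORT FILE of package BP-S7-LAW-ALG.  The owner owns this file: keep names and statements, replace
the sorries (helper files `S7LawAlg*.lean`, prefix `s7a`, never import this file).
-/
set_option autoImplicit false

open MeasureTheory ProbabilityTheory
open scoped BigOperators Matrix
open Claimed.Agent.R260 (Mx mxFun mxSchur mxSq mxIP mxEig mxU mxRot)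

namespace Claimed.Agent.R259

variable {n : ℕ}

/-- the pointwise hypotheses on a column `H` and a weight `W = R_*` -/
structure ColW (H : Fin n → Mx n) (W : Mx n) : Prop where
  symm : ∀ i, (H i).IsSymm
  Wsymm : W.IsSymm
  comm : ∀ i, H i * W = W * H i
  outer : ∀ v, colAt H (mv W v) = W * colAt H v
  col : ((4 : ℝ) • (1 : Mx n) - colS H).PosSemidef

theorem BlockModel.colW {D : Type} [MeasurableSpace D] {Q : Measure D} (B : BlockModel n Q) (d : D) :
    ColW (B.H d) (B.Rs d) :=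
  ⟨B.H_symm d, mk_isSymm_of_psd (B.Rs_psd d), B.comm d, B.outer d, B.col d⟩

/-- Gaussian isometry: `E ‖∑ G_i M_i‖² = ∑ ‖M_i‖²` -/
theorem s7_avg_sq (M : Fin n → Mx n) :
    Integrable (fun G => mxSq (colAt M G)) (gam n) ∧
      ∫ G, mxSq (colAt M G) ∂(gam n) = ∑ i, mxSq (M i) :=
  s7a_avg_sq M

/-- column bound: `‖∑_j K_j X_j‖ ≤ √c (∑_j ‖X_j‖²)^{1/2}` if `∑ K_j K_jᵀ ≤ c` -/
theorem s7_col_mul_le {K : Fin n → Mx n} {c : ℝ}
    (hcol : (c • (1 : Mx n) - ∑ j, K j * (K j)ᵀ).PosSemidef) (X : Fin n → CMx n) :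
    cSq (∑ j, toC (K j) * X j) ≤ c * ∑ j, cSq (X j) :=
  s7a_col_mul_le hcol X

/-- row bound: `‖∑_j X_j K_j‖ ≤ (∑_j ‖X_j‖²)^{1/2} √c` if `∑ K_jᵀ K_j ≤ c` -/
theorem s7_mul_col_le {K : Fin n → Mx n} {c : ℝ}
    (hcol : (c • (1 : Mx n) - ∑ j, (K j)ᵀ * K j).PosSemidef) (X : Fin n → CMx n) :
    cSq (∑ j, X j * toC (K j)) ≤ c * ∑ j, cSq (X j) :=
  s7a_mul_col_le hcol X

/-- contraction of an index with a matrix: `∑_l ‖∑_i q_{il} X_i‖² ≤ c ∑_i ‖X_i‖²` if `q qᵀ ≤ c` -/
theorem s7_contract_le {q : Mx n} {c : ℝ} (hq : (c • (1 : Mx n) - q * qᵀ).PosSemidef)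
    (X : Fin n → Mx n) :
    ∑ l, mxSq (∑ i, q i l • X i) ≤ c * ∑ i, mxSq (X i) :=
  s7a_contract_le hq X

/-- INDEX SWAP (7.27), weighted and frame-free -/
theorem s7_swap {H : Fin n → Mx n} {W : Mx n} (h : ColW H W) {q : Mx n} (hq : q.IsSymm)
    (hqW : q * W = W * q) {cq : ℝ} (hcq : (cq • (1 : Mx n) - q * q).PosSemidef) :
    ∫ G, mxSq ((colAt H (mv q G) - q * colAt H G) * W) ∂(gam n)
      ≤ 6 * cq * xdW H W + 3 * ∑ b, mxSq (cmm (H b) q * W) := by
  rw [s7a_swap_int]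
  exact s7a_swap_sum h.symm h.Wsymm h.comm hq hqW hcq

theorem s7_colQ_at (H : Fin n → Mx n) (q : Mx n) (G : EE n) :
    colAt (colQ H q) G = colAt H (mv q G) :=
  s7a_colQ_at H q G

theorem s7_colQ_symm {H : Fin n → Mx n} (hH : ∀ i, (H i).IsSymm) (q : Mx n) (j : Fin n) :
    (colQ H q j).IsSymm :=
  s7g_colAt_symm hH _

theorem s7_colQ_comm {H : Fin n → Mx n} {W : Mx n} (hH : ∀ i, H i * W = W * H i) (q : Mx n)
    (j : Fin n) : colQ H q j * W = W * colQ H q j :=
  s7a_colAt_comm hH _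

theorem s7_colQ_col {H : Fin n → Mx n} {W : Mx n} (h : ColW H W) {q : Mx n} (hq : q.IsSymm)
    {cq : ℝ} (hcq : (cq • (1 : Mx n) - q * q).PosSemidef) :
    ((4 * cq) • (1 : Mx n) - colS (colQ H q)).PosSemidef :=
  s7a_colQ_col h.symm h.col hq hcq

theorem s7_colQ_cc {H : Fin n → Mx n} {W : Mx n} (h : ColW H W) {q : Mx n} (hq : q.IsSymm)
    {cq : ℝ} (hcq : (cq • (1 : Mx n) - q * q).PosSemidef) :
    ccW (colQ H q) W ≤ cq ^ 2 * ccW H W :=
  s7a_colQ_cc H W hq hcq

/-- `‖(S_K - q²)W‖ ≤ 4√c_q (E‖(H[qG] - qH[G])W‖²)^{1/2} + c_q ‖(S-1)W‖`, `K = H[q ·]` -/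
theorem s7_colQ_S {H : Fin n → Mx n} {W : Mx n} (h : ColW H W) {q : Mx n} (hq : q.IsSymm)
    (hqW : q * W = W * q) {cq : ℝ} (hcq : (cq • (1 : Mx n) - q * q).PosSemidef) :
    Real.sqrt (mxSq ((colS (colQ H q) - q * q) * W))
      ≤ 4 * Real.sqrt cq
          * Real.sqrt (∫ G, mxSq ((colAt H (mv q G) - q * colAt H G) * W) ∂(gam n))
        + cq * Real.sqrt (mxSq ((colS H - 1) * W)) := by
  rw [s7a_swap_int]
  exact s7a_colQ_S h.symm h.Wsymm h.comm h.col hq hqW hcq

/-- SPLITTING: `‖(e^{i(X+Y)} - e^{iX} e^{iY}) W‖ ≤ ‖[X,Y]W‖/2`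
(differentiate `e^{-iv(X+Y)} e^{ivX} e^{ivY}` in `v`, `cE_hasDerivAt`, `cE_comm_le`) -/
theorem s7_split {X Y W : Mx n} (hX : X.IsSymm) (hY : Y.IsSymm) (hXW : X * W = W * X)
    (hYW : Y * W = W * Y) :
    cSq ((cE 1 (X + Y) - cE 1 X * cE 1 Y) * toC W) ≤ 1 / 4 * mxSq (cmm X Y * W) :=
  s7a_split hX hY hXW hYW

/-- the scalar function `g_x`: bounds and Lipschitz constant -/
theorem s7_gx_bounds {t L x : ℝ} (ht : 0 < t) (hL : 1 ≤ L) (hx : 0 < x) :
    (∀ v, 1 ≤ gx t L x v) ∧ (∀ v, gx t L x v ^ 2 ≤ 1 + L) ∧ Continuous (gx t L x) ∧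
      ∀ a b, |gx t L x a - gx t L x b| ≤ Real.sqrt (8 * t) * L / 8 * |a - b| :=
  s7a_gx_bounds ht hL hx

end Claimed.Agent.R259
end

/- ===== packed: Claimed.Agent.R259.S7LawGEd ===== -/
section
/-
Row 259 (S0499), section 7, package L-S7-LAW-GE, helper file d (owner helper283):
`F(ρ) = E e^{iρK[G]}`: integrability, `F' = i E K[G] e^{iρK[G]}`, and the key estimate
`‖(E K[G] e^{iρK[G]} - iρ S_K F(ρ)) W‖² ≤ c_K ρ⁴ ∑‖[K_j,K_l]W‖²` (Gaussian integration by parts).
-/
set_option autoImplicit false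

open MeasureTheory ProbabilityTheory
open scoped BigOperators Matrix
open Claimed.Agent.R260 (Mx mxFun mxSchur mxSq mxIP mxEig mxU mxRot)

namespace Claimed.Agent.R259

variable {n : ℕ}

theorem s7g_cE_continuous {K : Fin n → Mx n} (hK : ∀ j, (K j).IsSymm) (ρ : ℝ) (a b : Fin n) :
    Continuous (fun G : EE n => cE ρ (colAt K G) a b) := (s7g_contDiff hK ρ a b).continuous

theorem s7g_I_cE {K : Fin n → Mx n} (hK : ∀ j, (K j).IsSymm) (ρ : ℝ) :
    s7gI (gam n) (fun G => cE ρ (colAt K G)) := fun a b =>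
  ⟨(s7g_cE_continuous hK ρ a b).aestronglyMeasurable,
    HasFiniteIntegral.of_bounded (C := 1) (ae_of_all _ fun _ => cE_apply_norm_le ρ _ a b)⟩

theorem s7g_colAt_continuous (K : Fin n → Mx n) (a b : Fin n) :
    Continuous (fun G : EE n => colAt K G a b) := by
  simp only [s7g_colAt_apply]
  refine continuous_finsetSum _ fun j _ => ?_
  exact ((EuclideanSpace.proj (𝕜 := ℝ) j).continuous).mul continuous_const

theorem s7g_colAt_comm {K : Fin n → Mx n} {W : Mx n} (hW : ∀ j, K j * W = W * K j) (G : EE n) :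
    colAt K G * W = W * colAt K G := by
  unfold colAt
  rw [Finset.sum_mul, Finset.mul_sum]
  refine Finset.sum_congr rfl fun j _ => ?_
  rw [Matrix.smul_mul, Matrix.mul_smul, hW j]

theorem s7g_toC_colAt (K : Fin n → Mx n) (G : EE n) :
    toC (colAt K G) = ∑ j, ((G j : ℝ) : ℂ) • toC (K j) := by
  unfold colAt
  rw [toC_sum]
  exact Finset.sum_congr rfl fun j _ => toC_smul _ _

/-- `F' = i E K[G] e^{iρK[G]}` -/
theorem s7g_MD_gF {K : Fin n → Mx n} (hK : ∀ j, (K j).IsSymm) (ρ : ℝ) :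
    s7gI (gam n) (fun G => toC (colAt K G) * cE ρ (colAt K G)) ∧
      s7gMD (fun s => gF K s) (Complex.I • gF1 K ρ) ρ := by
  have hcont : ∀ a b, Continuous fun G : EE n => (toC (colAt K G) * cE ρ (colAt K G)) a b := by
    intro a b
    simp only [Matrix.mul_apply, toC_apply]
    refine continuous_finsetSum _ fun c _ => ?_
    exact (Complex.continuous_ofReal.comp (s7g_colAt_continuous K a c)).mul (s7g_cE_continuous hK ρ c b)
  have hb : ∀ (s : ℝ) (G : EE n) (a b : Fin n), ‖(toC (colAt K G) * cE s (colAt K G)) a b‖ ≤ 1 + mxSq (colAt K G) := by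
    intro s G a b
    refine (s7g_apply_norm_le _ a b).trans ?_
    rw [cSq_mul_unitary _ (cE_mul_conjTranspose _ _), cSq_toC]
    have h0 := Claimed.Agent.R260.mxSq_nonneg (colAt K G)
    have h1 := Real.sq_sqrt h0
    nlinarith [sq_nonneg (Real.sqrt (mxSq (colAt K G)) - 1), Real.sqrt_nonneg (mxSq (colAt K G))]
  have hbi : Integrable (fun G : EE n => 1 + mxSq (colAt K G)) (gam n) :=
    (integrable_const _).add (s7_avg_sq K).1
  have hI : s7gI (gam n) (fun G => toC (colAt K G) * cE ρ (colAt K G)) := fun a b =>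
    hbi.mono' (hcont a b).aestronglyMeasurable (ae_of_all _ fun G => hb ρ G a b)
  refine ⟨hI, fun a b => ?_⟩
  have key := hasDerivAt_integral_of_dominated_loc_of_deriv_le (μ := gam n) (x₀ := ρ) (s := Set.univ)
    (F := fun s G => cE s (colAt K G) a b)
    (F' := fun s G => (Complex.I • (toC (colAt K G) * cE s (colAt K G))) a b)
    (bound := fun G => 1 + mxSq (colAt K G)) Filter.univ_mem
    (Filter.Eventually.of_forall fun s => (s7g_cE_continuous hK s a b).aestronglyMeasurable)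
    (s7g_I_cE hK ρ a b)
    (((hcont a b).const_smul Complex.I).aestronglyMeasurable)
    (ae_of_all _ fun G s _ => by
      rw [Matrix.smul_apply, norm_smul, Complex.norm_I, one_mul]
      exact hb s G a b)
    hbi
    (ae_of_all _ fun G s _ => cE_hasDerivAt (s7g_colAt_symm hK G) s a b)
  have h2 : (Complex.I • gF1 K ρ) a b
      = ∫ G, (Complex.I • (toC (colAt K G) * cE ρ (colAt K G))) a b ∂(gam n) := by
    rw [Matrix.smul_apply]
    unfold gF1
    rw [s7g_cInt_apply]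
    simp only [Matrix.smul_apply, smul_eq_mul]
    exact (integral_const_mul _ _).symm
  rw [h2]
  exact key.2

/-- the matrix of the partial derivatives `∂_j e^{iρK[G]}` -/
noncomputable def s7gP (K : Fin n → Mx n) (ρ : ℝ) (j : Fin n) (G : EE n) : CMx n :=
  Matrix.of fun a b => fderiv ℝ (fun G' : EE n => cE ρ (colAt K G') a b) G (eb j)

theorem s7g_P_MD {K : Fin n → Mx n} (hK : ∀ j, (K j).IsSymm) (ρ : ℝ) (j : Fin n) (G : EE n) :
    s7gMD (fun h => cE ρ (colAt K G + h • K j)) (s7gP K ρ j G) 0 := by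
  intro a b
  have hd : HasFDerivAt (fun G' : EE n => cE ρ (colAt K G') a b)
      (fderiv ℝ (fun G' : EE n => cE ρ (colAt K G') a b) G) (G + (0 : ℝ) • eb j) := by
    rw [zero_smul, add_zero]
    exact ((s7g_contDiff hK ρ a b).differentiable one_ne_zero G).hasFDerivAt
  have hl : HasDerivAt (fun h : ℝ => G + h • eb j) (eb j) 0 := by
    have := ((hasDerivAt_id (0 : ℝ)).smul_const (eb j)).const_add G
    simpa using this
  have := hd.comp_hasDerivAt (0 : ℝ) hl
  simp only [Function.comp_def, s7g_colAt_add_smul] at this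
  exact this

theorem s7g_P_ibp {K : Fin n → Mx n} (hK : ∀ j, (K j).IsSymm) (ρ : ℝ) (j : Fin n) :
    s7gI (gam n) (fun G => ((G j : ℝ) : ℂ) • cE ρ (colAt K G)) ∧ s7gI (gam n) (s7gP K ρ j) ∧
      cInt (gam n) (fun G => ((G j : ℝ) : ℂ) • cE ρ (colAt K G)) = cInt (gam n) (s7gP K ρ j) := by
  have h := fun a b => s7g_ibp (s7g_contDiff hK ρ a b) (s7g_lipschitz hK ρ a b) j
  refine ⟨fun a b => (h a b).1, fun a b => (h a b).2.1, ?_⟩
  ext a b
  exact (h a b).2.2

/-- the key estimate -/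
theorem s7g_key {K : Fin n → Mx n} (hK : ∀ j, (K j).IsSymm) {W : Mx n}
    (hW : ∀ j, K j * W = W * K j) {cK : ℝ} (hcK : 0 ≤ cK)
    (hcol : (cK • (1 : Mx n) - colS K).PosSemidef) (ρ : ℝ) :
    cSq ((gF1 K ρ - (Complex.I * (ρ : ℂ)) • (toC (colS K) * gF K ρ)) * toC W)
      ≤ cK * ρ ^ 4 * ccW K W := by
  have hIE := s7g_I_cE hK ρ
  -- the integrand
  let X : Fin n → EE n → CMx n := fun j G =>
    (s7gP K ρ j G - (Complex.I * (ρ : ℂ)) • (toC (K j) * cE ρ (colAt K G))) * toC W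
  have hXI : ∀ j, s7gI (gam n) (X j) := fun j =>
    (((s7g_P_ibp hK ρ j).2.1).sub ((hIE.mul_left (toC (K j))).smul _)).mul_right _
  have hXint : ∀ j, cInt (gam n) (X j)
      = (cInt (gam n) (fun G => ((G j : ℝ) : ℂ) • cE ρ (colAt K G))
          - (Complex.I * (ρ : ℂ)) • (toC (K j) * gF K ρ)) * toC W := by
    intro j
    show cInt (gam n) (fun G => (s7gP K ρ j G - (Complex.I * (ρ : ℂ)) • (toC (K j) * cE ρ (colAt K G))) * toC W) = _
    rw [s7g_cInt_mul_right (((s7g_P_ibp hK ρ j).2.1).sub ((hIE.mul_left (toC (K j))).smul _)),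
      s7g_cInt_sub ((s7g_P_ibp hK ρ j).2.1) ((hIE.mul_left (toC (K j))).smul _), s7g_cInt_smul,
      s7g_cInt_mul_left _ hIE, (s7g_P_ibp hK ρ j).2.2]
    rfl
  have h1 : (gF1 K ρ - (Complex.I * (ρ : ℂ)) • (toC (colS K) * gF K ρ)) * toC W
      = cInt (gam n) (fun G => ∑ j, toC (K j) * X j G) := by
    rw [s7g_cInt_sum _ fun j _ => (hXI j).mul_left _]
    have e1 : ∀ j, cInt (gam n) (fun G => toC (K j) * X j G) = toC (K j) * cInt (gam n) (X j) :=
      fun j => s7g_cInt_mul_left _ (hXI j)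
    simp only [e1, hXint]
    have e2 : gF1 K ρ = ∑ j, toC (K j) * cInt (gam n) (fun G => ((G j : ℝ) : ℂ) • cE ρ (colAt K G)) := by
      unfold gF1
      have e3 : ∀ G : EE n, toC (colAt K G) * cE ρ (colAt K G)
          = ∑ j, toC (K j) * (((G j : ℝ) : ℂ) • cE ρ (colAt K G)) := by
        intro G
        rw [s7g_toC_colAt, Finset.sum_mul]
        exact Finset.sum_congr rfl fun j _ => by rw [Matrix.smul_mul, Matrix.mul_smul]
      simp only [e3]
      rw [s7g_cInt_sum _ fun j _ => ((s7g_P_ibp hK ρ j).1).mul_left _]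
      exact Finset.sum_congr rfl fun j _ => s7g_cInt_mul_left _ (s7g_P_ibp hK ρ j).1
    have e4 : toC (colS K) * gF K ρ = ∑ j, toC (K j) * (toC (K j) * gF K ρ) := by
      unfold colS
      rw [toC_sum, Finset.sum_mul]
      exact Finset.sum_congr rfl fun j _ => by rw [toC_mul, Matrix.mul_assoc]
    rw [e2, e4, Finset.smul_sum, ← Finset.sum_sub_distrib, Finset.sum_mul]
    refine Finset.sum_congr rfl fun j _ => ?_
    rw [← Matrix.mul_smul, ← Matrix.mul_sub, Matrix.mul_assoc]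
  -- the dominating function
  have hcomm : ∀ (j : Fin n) (G : EE n), cmm (colAt K G) (K j) * W = colAt (fun l => cmm (K l) (K j) * W) G := by
    intro j G
    unfold cmm colAt
    rw [Finset.sum_mul, Finset.mul_sum, ← Finset.sum_sub_distrib, Finset.sum_mul]
    refine Finset.sum_congr rfl fun l _ => ?_
    rw [Matrix.smul_mul, Matrix.mul_smul, ← smul_sub, Matrix.smul_mul]
  have hgI : Integrable (fun G : EE n => cK * ∑ j, ρ ^ 4 * mxSq (cmm (colAt K G) (K j) * W)) (gam n) := by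
    refine (integrable_finsetSum _ fun j _ => ?_).const_mul cK
    simp only [hcomm]
    exact ((s7_avg_sq fun l => cmm (K l) (K j) * W).1).const_mul _
  have hcol' : (cK • (1 : Mx n) - ∑ j, K j * (K j)ᵀ).PosSemidef := by
    have : ∑ j, K j * (K j)ᵀ = colS K := by
      unfold colS
      exact Finset.sum_congr rfl fun j _ => by rw [(hK j).eq]
    rw [this]; exact hcol
  have hpt : ∀ G : EE n, cSq (∑ j, toC (K j) * X j G)
      ≤ cK * ∑ j, ρ ^ 4 * mxSq (cmm (colAt K G) (K j) * W) := by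
    intro G
    refine (s7_col_mul_le hcol' fun j => X j G).trans (mul_le_mul_of_nonneg_left ?_ hcK)
    refine Finset.sum_le_sum fun j _ => ?_
    have h2 := s7g_deriv_bound (s7g_colAt_symm hK G) (hK j) (s7g_colAt_comm hW G) ρ (s7g_P_MD hK ρ j G)
    have h3 := (Real.sqrt_le_left (by positivity)).1 h2
    refine h3.trans (le_of_eq ?_)
    rw [mul_pow, Real.sq_sqrt (Claimed.Agent.R260.mxSq_nonneg _)]
    ring
  rw [h1]
  refine (s7g_cSq_cInt_le (s7gI.sum _ fun j _ => (hXI j).mul_left _) hgI hpt).trans (le_of_eq ?_)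
  rw [integral_const_mul, integral_finsetSum _ fun j _ => by
    simp only [hcomm]
    exact ((s7_avg_sq fun l => cmm (K l) (K j) * W).1).const_mul _]
  simp only [integral_const_mul, hcomm, (s7_avg_sq _).2]
  unfold ccW
  rw [← Finset.mul_sum, Finset.sum_comm]
  ring

/-- generates the equation lemmas of the definitions above in this file (rule 6: unique names) -/
theorem s7lawged_eqns_cite : True := by
  have := @s7gP.eq_1
  trivial

end Claimed.Agent.R259
end

/- ===== packed: Claimed.Agent.R259.S7LawGEe ===== -/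
section
/-
Row 259 (S0499), section 7, package L-S7-LAW-GE, helper file e (owner helper283):
variation of constants along `t ↦ e^{-r²(1-t²)M/2} F(rt)`, sharp forms of `s7_ge`, `s7_ge1`.
-/
set_option autoImplicit false

open MeasureTheory ProbabilityTheory
open scoped BigOperators Matrix
open Claimed.Agent.R260 (Mx mxFun mxSchur mxSq mxIP mxEig mxU mxRot)

namespace Claimed.Agent.R259

variable {n : ℕ}

theorem s7g_gF_zero (K : Fin n → Mx n) : gF K 0 = 1 := by
  unfold gF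
  simp only [cE_zero]
  exact s7g_cInt_const 1

/-- `F(ρ)` commutes with `W` -/
theorem s7g_gF_comm {K : Fin n → Mx n} (hK : ∀ j, (K j).IsSymm) {W : Mx n}
    (hW : ∀ j, K j * W = W * K j) (ρ : ℝ) : gF K ρ * toC W = toC W * gF K ρ := by
  unfold gF
  rw [← s7g_cInt_mul_right (s7g_I_cE hK ρ), ← s7g_cInt_mul_left _ (s7g_I_cE hK ρ)]
  congr 1
  funext G
  exact (s7g_cE_comm_W (s7g_colAt_symm hK G) (s7g_colAt_comm hW G) ρ).symm

/-- `F(ρ)` is a contraction -/
theorem s7g_mul_gF_le {K : Fin n → Mx n} (hK : ∀ j, (K j).IsSymm) (ρ : ℝ) (X : CMx n) :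
    cSq (X * gF K ρ) ≤ cSq X := by
  unfold gF
  rw [← s7g_cInt_mul_left _ (s7g_I_cE hK ρ)]
  refine (s7g_cSq_cInt_le ((s7g_I_cE hK ρ).mul_left X) (integrable_const (cSq X)) fun G => ?_).trans ?_
  · rw [cSq_mul_unitary _ (cE_mul_conjTranspose _ _)]
  · simp

theorem s7g_sqrt_cSq_smul (c : ℂ) (X : CMx n) : Real.sqrt (cSq (c • X)) = ‖c‖ * Real.sqrt (cSq X) := by
  rw [cSq_smul, Real.sqrt_mul (by positivity), Real.sqrt_sq (norm_nonneg _)]

/-- `‖(E K[G]e^{iρK[G]} - iρ S_K F(ρ)) W‖ ≤ ρ² √c_K (∑‖[K_j,K_l]W‖²)^{1/2}` -/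
theorem s7g_key_sqrt {K : Fin n → Mx n} (hK : ∀ j, (K j).IsSymm) {W : Mx n}
    (hW : ∀ j, K j * W = W * K j) {cK : ℝ} (hcK : 0 ≤ cK)
    (hcol : (cK • (1 : Mx n) - colS K).PosSemidef) (ρ : ℝ) :
    Real.sqrt (cSq ((gF1 K ρ - (Complex.I * (ρ : ℂ)) • (toC (colS K) * gF K ρ)) * toC W))
      ≤ ρ ^ 2 * (Real.sqrt cK * Real.sqrt (ccW K W)) := by
  have hcc : 0 ≤ ccW K W :=
    Finset.sum_nonneg fun _ _ => Finset.sum_nonneg fun _ _ => Claimed.Agent.R260.mxSq_nonneg _
  apply Real.sqrt_le_iff.2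
  refine ⟨by positivity, (s7g_key hK hW hcK hcol ρ).trans (le_of_eq ?_)⟩
  rw [mul_pow, mul_pow, Real.sq_sqrt hcK, Real.sq_sqrt hcc]
  ring

/-- `‖(S_K - M) F(ρ) W‖ ≤ ‖(S_K - M) W‖` -/
theorem s7g_SM_le {K : Fin n → Mx n} (hK : ∀ j, (K j).IsSymm) {W : Mx n}
    (hW : ∀ j, K j * W = W * K j) (M : Mx n) (ρ : ℝ) :
    Real.sqrt (cSq (toC (colS K - M) * gF K ρ * toC W)) ≤ Real.sqrt (mxSq ((colS K - M) * W)) := by
  apply Real.sqrt_le_sqrt
  rw [Matrix.mul_assoc, s7g_gF_comm hK hW, ← Matrix.mul_assoc, ← toC_mul, ← cSq_toC]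
  exact s7g_mul_gF_le hK ρ _

/-- `e^{-r²(1-t²)M/2}` -/
noncomputable def s7gEx (r : ℝ) (M : Mx n) (t : ℝ) : CMx n :=
  mxFunC (fun v => ((Real.exp (-(r ^ 2 * (1 - t ^ 2) * v / 2)) : ℝ) : ℂ)) M

/-- `E K[G]e^{iρK[G]} - iρ S_K F(ρ)` -/
noncomputable def s7gErr (K : Fin n → Mx n) (ρ : ℝ) : CMx n :=
  gF1 K ρ - (Complex.I * (ρ : ℂ)) • (toC (colS K) * gF K ρ)

theorem s7g_Ex_MD (r : ℝ) {M : Mx n} (hMs : M.IsSymm) (t : ℝ) :
    s7gMD (s7gEx r M) (((r ^ 2 * t : ℝ) : ℂ) • (toC M * s7gEx r M t)) t := by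
  have h1 : ((r ^ 2 * t : ℝ) : ℂ) • (toC M * s7gEx r M t)
      = mxFunC (fun v => ((Real.exp (-(r ^ 2 * (1 - t ^ 2) * v / 2)) * (r ^ 2 * t * v) : ℝ) : ℂ)) M := by
    unfold s7gEx
    rw [s7c_toC_eq hMs, ← mxFunC_mul, ← mxFunC_smul]
    congr 1
    funext v
    push_cast
    ring
  rw [h1]
  refine s7g_MD_mxFunC M fun v => ?_
  have h2 : HasDerivAt (fun s : ℝ => -(r ^ 2 * (1 - s ^ 2) * v / 2)) (r ^ 2 * t * v) t := by
    have h3 : HasDerivAt (fun s : ℝ => s ^ 2) (2 * t) t := by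
      simpa using hasDerivAt_pow 2 t
    have h4 := ((((h3.const_sub 1).const_mul (r ^ 2)).mul_const v).div_const 2).neg
    refine h4.congr_deriv ?_
    ring
  exact h2.exp.ofReal_comp

theorem s7g_Ex_comm (r : ℝ) {M : Mx n} (hMs : M.IsSymm) (t : ℝ) :
    toC M * s7gEx r M t = s7gEx r M t * toC M := by
  unfold s7gEx
  rw [s7c_toC_eq hMs, ← mxFunC_mul, ← mxFunC_mul]
  congr 1
  funext v
  rw [mul_comm]

theorem s7g_Ex_one (r : ℝ) (M : Mx n) : s7gEx r M 1 = 1 := by
  unfold s7gEx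
  have : (fun v : ℝ => ((Real.exp (-(r ^ 2 * (1 - (1 : ℝ) ^ 2) * v / 2)) : ℝ) : ℂ)) = fun _ => (1 : ℂ) := by
    funext v; simp
  rw [this, mxFunC_const, one_smul]

theorem s7g_Ex_zero (r : ℝ) (M : Mx n) :
    s7gEx r M 0 = mxFunC (fun v => ((Real.exp (-(r ^ 2 * v / 2)) : ℝ) : ℂ)) M := by
  unfold s7gEx
  congr 1
  funext v
  simp

theorem s7g_mul_Ex_le (r : ℝ) {M : Mx n} (hM : M.PosSemidef) {t : ℝ} (ht : t ∈ Set.Ico (0 : ℝ) 1)
    (Y : CMx n) : Real.sqrt (cSq (Y * s7gEx r M t)) ≤ Real.sqrt (cSq Y) := by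
  apply Real.sqrt_le_sqrt
  have hle : ∀ i, ‖((Real.exp (-(r ^ 2 * (1 - t ^ 2) * mxEig M i / 2)) : ℝ) : ℂ)‖ ≤ 1 := by
    intro i
    rw [Complex.norm_real, Real.norm_eq_abs, abs_of_pos (Real.exp_pos _), Real.exp_le_one_iff]
    have h2 := mk_eig_nonneg hM i
    have h3 : 0 ≤ 1 - t ^ 2 := by nlinarith [ht.1, ht.2]
    have : 0 ≤ r ^ 2 * (1 - t ^ 2) * mxEig M i / 2 := by positivity
    linarith
  have h := cSq_mul_mxFunC_le (f := fun v => ((Real.exp (-(r ^ 2 * (1 - t ^ 2) * v / 2)) : ℝ) : ℂ))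
    (A := M) (C := 1) hle Y
  rw [one_pow, one_mul] at h
  exact h

/-- pure algebra -/
theorem s7g_path_alg (r t : ℝ) (Mc X F E S Wc : CMx n) (e1 : Mc * X = X * Mc) :
    ((((r ^ 2 * t : ℝ) : ℂ) • (Mc * X)) * F
        + X * ((r : ℂ) • (Complex.I • (E + (Complex.I * ((r * t + 0 : ℝ) : ℂ)) • (S * F))))) * Wc
      = X * ((-((r ^ 2 * t : ℝ) : ℂ)) • ((S - Mc) * F * Wc) + ((r : ℂ) * Complex.I) • (E * Wc)) := by
  rw [e1]
  simp only [Matrix.mul_add, Matrix.add_mul, Matrix.sub_mul, Matrix.mul_sub, Matrix.mul_smul, Matrix.smul_mul,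
    smul_sub, smul_add, smul_smul, Matrix.mul_assoc]
  have hI : Complex.I * Complex.I = -1 := Complex.I_mul_I
  have c1 : (r : ℂ) * (Complex.I * (Complex.I * ((r * t + 0 : ℝ) : ℂ))) = -((r ^ 2 * t : ℝ) : ℂ) := by
    push_cast
    linear_combination (r : ℂ) * ((r : ℂ) * (t : ℂ)) * hI
  rw [c1]
  module

/-- the derivative of the path -/
noncomputable def s7gD (K : Fin n → Mx n) (r : ℝ) (M : Mx n) (t : ℝ) : CMx n :=
  (((r ^ 2 * t : ℝ) : ℂ) • (toC M * s7gEx r M t)) * gF K (r * t + 0)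
    + s7gEx r M t * ((r : ℂ) • (Complex.I • gF1 K (r * t + 0)))

theorem s7g_path_MD {K : Fin n → Mx n} (hK : ∀ j, (K j).IsSymm) (r : ℝ) {M : Mx n} (hMs : M.IsSymm) (t : ℝ) :
    s7gMD (fun s => s7gEx r M s * gF K (r * s + 0)) (s7gD K r M t) t :=
  (s7g_Ex_MD r hMs t).mul ((s7g_MD_gF hK (r * t + 0)).2).comp_affine

theorem s7g_path_simp (K : Fin n → Mx n) (r : ℝ) {M : Mx n} (hMs : M.IsSymm) (W : Mx n) (t : ℝ) :
    s7gD K r M t * toC W
      = s7gEx r M t * ((-((r ^ 2 * t : ℝ) : ℂ)) • (toC (colS K - M) * gF K (r * t + 0) * toC W)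
          + ((r : ℂ) * Complex.I) • (s7gErr K (r * t + 0) * toC W)) := by
  have e2 : gF1 K (r * t + 0) = s7gErr K (r * t + 0)
      + (Complex.I * ((r * t + 0 : ℝ) : ℂ)) • (toC (colS K) * gF K (r * t + 0)) := by
    unfold s7gErr
    abel
  unfold s7gD
  rw [e2, toC_sub]
  exact s7g_path_alg r t _ _ _ _ _ _ (s7g_Ex_comm r hMs t)

theorem s7g_path_inner {K : Fin n → Mx n} (hK : ∀ j, (K j).IsSymm) {W : Mx n}
    (hW : ∀ j, K j * W = W * K j) {cK : ℝ} (hcK : 0 ≤ cK)
    (hcol : (cK • (1 : Mx n) - colS K).PosSemidef) (M : Mx n) (r : ℝ) {t : ℝ}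
    (ht : t ∈ Set.Ico (0 : ℝ) 1) :
    Real.sqrt (cSq ((-((r ^ 2 * t : ℝ) : ℂ)) • (toC (colS K - M) * gF K (r * t + 0) * toC W)
          + ((r : ℂ) * Complex.I) • (s7gErr K (r * t + 0) * toC W)))
      ≤ r ^ 2 * Real.sqrt (mxSq ((colS K - M) * W)) + |r| ^ 3 * (Real.sqrt cK * Real.sqrt (ccW K W)) := by
  refine (cSq_sqrt_add_le _ _).trans ?_
  rw [s7g_sqrt_cSq_smul, s7g_sqrt_cSq_smul, norm_neg, Complex.norm_real, Real.norm_eq_abs, norm_mul,
    Complex.norm_I, Complex.norm_real, Real.norm_eq_abs, mul_one]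
  have h3 := s7g_SM_le hK hW M (r * t + 0)
  have h4 : Real.sqrt (cSq (s7gErr K (r * t + 0) * toC W))
      ≤ (r * t + 0) ^ 2 * (Real.sqrt cK * Real.sqrt (ccW K W)) := s7g_key_sqrt hK hW hcK hcol (r * t + 0)
  have hb0 : 0 ≤ Real.sqrt cK * Real.sqrt (ccW K W) := by positivity
  have h5 : |r ^ 2 * t| ≤ r ^ 2 := by
    rw [abs_mul, abs_of_nonneg (sq_nonneg r), abs_of_nonneg ht.1]
    nlinarith [sq_nonneg r, ht.2]
  have h6 : (r * t + 0) ^ 2 ≤ r ^ 2 := by
    have : t ^ 2 ≤ 1 := by nlinarith [ht.1, ht.2]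
    nlinarith [sq_nonneg r]
  have h7 : |r| * Real.sqrt (cSq (s7gErr K (r * t + 0) * toC W))
      ≤ |r| ^ 3 * (Real.sqrt cK * Real.sqrt (ccW K W)) := by
    calc |r| * Real.sqrt (cSq (s7gErr K (r * t + 0) * toC W))
        ≤ |r| * ((r * t + 0) ^ 2 * (Real.sqrt cK * Real.sqrt (ccW K W))) :=
          mul_le_mul_of_nonneg_left h4 (abs_nonneg _)
      _ ≤ |r| * (r ^ 2 * (Real.sqrt cK * Real.sqrt (ccW K W))) :=
          mul_le_mul_of_nonneg_left (mul_le_mul_of_nonneg_right h6 hb0) (abs_nonneg _)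
      _ = |r| ^ 3 * (Real.sqrt cK * Real.sqrt (ccW K W)) := by rw [← sq_abs r]; ring
  have h8 : |r ^ 2 * t| * Real.sqrt (cSq (toC (colS K - M) * gF K (r * t + 0) * toC W))
      ≤ r ^ 2 * Real.sqrt (mxSq ((colS K - M) * W)) :=
    mul_le_mul h5 h3 (Real.sqrt_nonneg _) (sq_nonneg _)
  linarith

theorem s7g_path_bound {K : Fin n → Mx n} (hK : ∀ j, (K j).IsSymm) {W : Mx n}
    (hW : ∀ j, K j * W = W * K j) {cK : ℝ} (hcK : 0 ≤ cK)
    (hcol : (cK • (1 : Mx n) - colS K).PosSemidef) {M : Mx n} (hM : M.PosSemidef) (r : ℝ) (Y : CMx n)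
    {t : ℝ} (ht : t ∈ Set.Ico (0 : ℝ) 1) :
    ‖Matrix.trace (Y * (s7gD K r M t * toC W))‖
      ≤ Real.sqrt (cSq Y) * (r ^ 2 * Real.sqrt (mxSq ((colS K - M) * W))
          + |r| ^ 3 * (Real.sqrt cK * Real.sqrt (ccW K W))) := by
  rw [s7g_path_simp K r (mk_isSymm_of_psd hM) W t, ← Matrix.mul_assoc]
  refine (s7g_trace_le _ _ (s7g_path_inner hK hW hcK hcol M r ht)).trans ?_
  exact mul_le_mul_of_nonneg_right (s7g_mul_Ex_le r hM ht Y) (by positivity)

/-- sharp form of `s7_ge` -/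
theorem s7g_main {K : Fin n → Mx n} (hK : ∀ j, (K j).IsSymm) {W : Mx n}
    (hW : ∀ j, K j * W = W * K j) {cK : ℝ} (hcK : 0 ≤ cK)
    (hcol : (cK • (1 : Mx n) - colS K).PosSemidef) {M : Mx n} (hM : M.PosSemidef) (r : ℝ) :
    Real.sqrt (cSq ((gF K r - mxFunC (fun v => ((Real.exp (-(r ^ 2 * v / 2)) : ℝ) : ℂ)) M) * toC W))
      ≤ r ^ 2 * Real.sqrt (mxSq ((colS K - M) * W))
          + |r| ^ 3 * (Real.sqrt cK * Real.sqrt (ccW K W)) := by
  have hMs : M.IsSymm := mk_isSymm_of_psd hM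
  refine s7g_dual (by positivity) fun Y => ?_
  have hmv := norm_image_sub_le_of_norm_deriv_le_segment_01'
    (f := fun t => Matrix.trace (Y * ((s7gEx r M t * gF K (r * t + 0)) * toC W)))
    (f' := fun t => Matrix.trace (Y * (s7gD K r M t * toC W)))
    (C := Real.sqrt (cSq Y) * (r ^ 2 * Real.sqrt (mxSq ((colS K - M) * W))
          + |r| ^ 3 * (Real.sqrt cK * Real.sqrt (ccW K W))))
    (fun t _ => ((((s7g_path_MD hK r hMs t).mul_const (toC W)).const_mul Y).trace).hasDerivWithinAt)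
    (fun t ht => s7g_path_bound hK hW hcK hcol hM r Y ht)
  refine le_trans (le_of_eq ?_) hmv
  have z3 : r * 1 + 0 = r := by ring
  have z4 : r * 0 + 0 = 0 := by ring
  rw [s7g_Ex_one, s7g_Ex_zero, z3, z4, s7g_gF_zero, Matrix.one_mul, Matrix.mul_one, ← Matrix.trace_sub,
    ← Matrix.mul_sub, ← Matrix.sub_mul]

theorem s7g_mxFunC_one (f : ℝ → ℂ) : mxFunC f (1 : Mx n) = f 1 • (1 : CMx n) := by
  have h : (1 : Mx n) = mxFun (fun _ => (1 : ℝ)) (1 : Mx n) := by
    rw [Claimed.Agent.R260.mxFun_const, one_smul]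
  conv_lhs => rw [h, mxFunC_comp, mxFunC_const]

/-- sharp form of `s7_ge1` -/
theorem s7g_main1 {K : Fin n → Mx n} (hK : ∀ j, (K j).IsSymm) {W : Mx n}
    (hW : ∀ j, K j * W = W * K j) {cK : ℝ} (hcK : 0 ≤ cK)
    (hcol : (cK • (1 : Mx n) - colS K).PosSemidef) (r : ℝ) :
    Real.sqrt (cSq ((gF1 K r
        - (Complex.I * ((r * Real.exp (-(r ^ 2 / 2)) : ℝ) : ℂ)) • (1 : CMx n)) * toC W))
      ≤ (|r| + |r| ^ 3) * Real.sqrt (mxSq ((colS K - 1) * W))
          + (r ^ 2 + r ^ 4) * (Real.sqrt cK * Real.sqrt (ccW K W)) := by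
  set a : ℝ := Real.sqrt (mxSq ((colS K - 1) * W)) with ha
  set b : ℝ := Real.sqrt cK * Real.sqrt (ccW K W) with hb
  have h1 := s7g_main hK hW hcK hcol (M := 1) Matrix.PosSemidef.one r
  rw [s7g_mxFunC_one] at h1
  have h2 := s7g_key_sqrt hK hW hcK hcol r
  have h3 := s7g_SM_le hK hW 1 r
  have e : (gF1 K r - (Complex.I * ((r * Real.exp (-(r ^ 2 / 2)) : ℝ) : ℂ)) • (1 : CMx n)) * toC W
      = (gF1 K r - (Complex.I * (r : ℂ)) • (toC (colS K) * gF K r)) * toC W
        + ((Complex.I * (r : ℂ)) • (toC (colS K - 1) * gF K r * toC W)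
          + (Complex.I * (r : ℂ)) • ((gF K r - ((Real.exp (-(r ^ 2 * 1 / 2)) : ℝ) : ℂ) • (1 : CMx n)) * toC W)) := by
    rw [toC_sub, toC_one, mul_one]
    generalize gF1 K r = F1
    generalize gF K r = F
    simp only [Matrix.sub_mul, Matrix.smul_mul, Matrix.one_mul, smul_sub, smul_smul, Matrix.mul_assoc]
    push_cast
    module
  rw [e]
  refine (cSq_sqrt_add_le _ _).trans ?_
  have h4 := cSq_sqrt_add_le ((Complex.I * (r : ℂ)) • (toC (colS K - 1) * gF K r * toC W))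
    ((Complex.I * (r : ℂ)) • ((gF K r - ((Real.exp (-(r ^ 2 * 1 / 2)) : ℝ) : ℂ) • (1 : CMx n)) * toC W))
  rw [s7g_sqrt_cSq_smul, s7g_sqrt_cSq_smul, norm_mul, Complex.norm_I, Complex.norm_real, Real.norm_eq_abs,
    one_mul] at h4
  have h5 : |r| * Real.sqrt (cSq (toC (colS K - 1) * gF K r * toC W)) ≤ |r| * a :=
    mul_le_mul_of_nonneg_left h3 (abs_nonneg _)
  have h6 : |r| * Real.sqrt (cSq ((gF K r - ((Real.exp (-(r ^ 2 * 1 / 2)) : ℝ) : ℂ) • (1 : CMx n)) * toC W))
      ≤ |r| * (r ^ 2 * a + |r| ^ 3 * b) := mul_le_mul_of_nonneg_left h1 (abs_nonneg _)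
  have h7 : |r| * (r ^ 2 * a + |r| ^ 3 * b) = |r| ^ 3 * a + r ^ 4 * b := by
    have : r ^ 2 = |r| ^ 2 := (sq_abs r).symm
    have h4' : r ^ 4 = |r| ^ 4 := by
      calc r ^ 4 = (r ^ 2) ^ 2 := by ring
        _ = (|r| ^ 2) ^ 2 := by rw [this]
        _ = |r| ^ 4 := by ring
    rw [this, h4']; ring
  linarith

/-- generates the equation lemmas of the definitions above in this file (rule 6: unique names) -/
theorem s7lawgee_eqns_cite : True := by
  have := @s7gEx.eq_1
  have := @s7gErr.eq_1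
  have := @s7gD.eq_1
  trivial

end Claimed.Agent.R259
end

/- ===== packed: Claimed.Agent.R259.S7LawGE ===== -/
section
/-
Row 259 (S0499), section 7, trace law: the GAUSSIAN EXPONENTIAL lemma (deterministic matrices).
EXPORT FILE of package BP-S7-LAW-GE (proved by helper283; helper files S7LawGEa-e; cites s7_avg_sq, s7_col_mul_le of S7LawAlg).  The owner owns this file: keep names and statements, replace
the sorries by citations of helper files `S7LawGE*.lean` (prefix `s7g`), which never import it.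

PROOF (hand-checked).  `B = K[G]`, `F(r) = E e^{irB}`.  Gaussian integration by parts
(`R260.gk_ibp`, entrywise, real and imaginary parts) and Duhamel
`∂_j e^{irB} = ir ∫_0^1 e^{irvB} K_j e^{ir(1-v)B} dv` give `F' = -r S_K F - r E₁`,
`E₁ = ∑_j E ∫_0^1 K_j [e^{irvB},K_j] e^{ir(1-v)B} dv`,
`‖E₁ W‖ ≤ √c_K (|r|/2) √(ccW K W)`  (column bound `‖∑ K_j X_j‖ ≤ √c_K (∑‖X_j‖²)^{1/2}`, `cE_comm_le`,
`E ∑_j ‖[B,K_j]W‖² = ccW`).  With `G(ρ) = e^{ρ²M/2} F(ρ)`:
`F(r) = e^{-r²M/2} - ∫_0^r e^{-(r²-ρ²)M/2} ρ ((S_K - M) F(ρ) + E₁(ρ)) dρ`, and `e^{-cM}` is a contraction,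
`F(ρ)` is a contraction commuting with `W`.  Hence the bound with `r²/2` and `√c_K |r|³/6`.
`E B e^{irB} = -i F'(r) = ir (S_K F + E₁)`.
-/
set_option autoImplicit false

open MeasureTheory ProbabilityTheory
open scoped BigOperators Matrix
open Claimed.Agent.R260 (Mx mxFun mxSchur mxSq mxIP mxEig mxU mxRot)

namespace Claimed.Agent.R259

variable {n : ℕ}

/-- `‖(E e^{irK[G]} - e^{-r²M/2}) W‖ ≤ (1+|r|)⁴ (‖(S_K - M)W‖ + √c_K (∑‖[K_j,K_l]W‖²)^{1/2})` -/
theorem s7_ge {K : Fin n → Mx n} (hK : ∀ j, (K j).IsSymm) {W : Mx n}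
    (hW : ∀ j, K j * W = W * K j) {cK : ℝ} (hcK : 0 ≤ cK)
    (hcol : (cK • (1 : Mx n) - colS K).PosSemidef) {M : Mx n} (hM : M.PosSemidef) (r : ℝ) :
    Real.sqrt (cSq ((gF K r - mxFunC (fun v => ((Real.exp (-(r ^ 2 * v / 2)) : ℝ) : ℂ)) M) * toC W))
      ≤ (1 + |r|) ^ 4 * (Real.sqrt (mxSq ((colS K - M) * W))
          + Real.sqrt cK * Real.sqrt (ccW K W)) := by
  refine (s7g_main hK hW hcK hcol hM r).trans ?_
  have ha : 0 ≤ Real.sqrt (mxSq ((colS K - M) * W)) := Real.sqrt_nonneg _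
  have hb : 0 ≤ Real.sqrt cK * Real.sqrt (ccW K W) := by positivity
  have hx : 0 ≤ |r| := abs_nonneg r
  have h1 : r ^ 2 ≤ (1 + |r|) ^ 4 := by
    rw [← sq_abs r]
    nlinarith [pow_nonneg hx 2, pow_nonneg hx 3, pow_nonneg hx 4]
  have h2 : |r| ^ 3 ≤ (1 + |r|) ^ 4 := by
    nlinarith [pow_nonneg hx 2, pow_nonneg hx 3, pow_nonneg hx 4]
  rw [mul_add]
  exact add_le_add (mul_le_mul_of_nonneg_right h1 ha) (mul_le_mul_of_nonneg_right h2 hb)

/-- `‖(E K[G] e^{irK[G]} - i r e^{-r²/2}) W‖ ≤ (1+|r|)⁴ (‖(S_K - 1)W‖ + √c_K (∑‖[K_j,K_l]W‖²)^{1/2})` -/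
theorem s7_ge1 {K : Fin n → Mx n} (hK : ∀ j, (K j).IsSymm) {W : Mx n}
    (hW : ∀ j, K j * W = W * K j) {cK : ℝ} (hcK : 0 ≤ cK)
    (hcol : (cK • (1 : Mx n) - colS K).PosSemidef) (r : ℝ) :
    Real.sqrt (cSq ((gF1 K r
        - (Complex.I * ((r * Real.exp (-(r ^ 2 / 2)) : ℝ) : ℂ)) • (1 : CMx n)) * toC W))
      ≤ (1 + |r|) ^ 4 * (Real.sqrt (mxSq ((colS K - 1) * W))
          + Real.sqrt cK * Real.sqrt (ccW K W)) := by
  refine (s7g_main1 hK hW hcK hcol r).trans ?_
  have ha : 0 ≤ Real.sqrt (mxSq ((colS K - 1) * W)) := Real.sqrt_nonneg _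
  have hb : 0 ≤ Real.sqrt cK * Real.sqrt (ccW K W) := by positivity
  have hx : 0 ≤ |r| := abs_nonneg r
  have h1 : |r| + |r| ^ 3 ≤ (1 + |r|) ^ 4 := by
    nlinarith [pow_nonneg hx 2, pow_nonneg hx 3, pow_nonneg hx 4]
  have h2 : r ^ 2 + r ^ 4 ≤ (1 + |r|) ^ 4 := by
    have e2 : r ^ 2 = |r| ^ 2 := (sq_abs r).symm
    have e4 : r ^ 4 = |r| ^ 4 := by
      calc r ^ 4 = (r ^ 2) ^ 2 := by ring
        _ = (|r| ^ 2) ^ 2 := by rw [e2]
        _ = |r| ^ 4 := by ring
    rw [e2, e4]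
    nlinarith [pow_nonneg hx 2, pow_nonneg hx 3, pow_nonneg hx 4]
  rw [mul_add]
  exact add_le_add (mul_le_mul_of_nonneg_right h1 ha) (mul_le_mul_of_nonneg_right h2 hb)

end Claimed.Agent.R259
end

/- ===== packed: Claimed.Agent.R259.S7LawJa ===== -/
section
/-
Row 259 (S0499), section 7, package L-S7-LAW-J: step (a).  Owner: helper79.
-/
set_option autoImplicit false
set_option linter.unusedVariables false

open MeasureTheory ProbabilityTheory
open scoped BigOperators Matrix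
open Claimed.Agent.R260 (Mx mxFun mxSchur mxSq mxIP mxEig mxU mxRot)

namespace Claimed.Agent.R259

variable {n : ℕ}

/-- total pointwise defect of a column -/
noncomputable def dfc (H : Fin n → Mx n) (W : Mx n) : ℝ :=
  mxSq ((colS H - 1) * W) + ccW H W + xdW H W

/-- `∑_b ‖[H_b, A] W‖²` -/
noncomputable def sgA (H : Fin n → Mx n) (W A : Mx n) : ℝ := ∑ b, mxSq (cmm (H b) A * W)

theorem s7k_ccW_nonneg (H : Fin n → Mx n) (W : Mx n) : 0 ≤ ccW H W :=
  Finset.sum_nonneg fun _ _ => Finset.sum_nonneg fun _ _ => R260.mxSq_nonneg _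

theorem s7k_xdW_nonneg (H : Fin n → Mx n) (W : Mx n) : 0 ≤ xdW H W :=
  Finset.sum_nonneg fun _ _ => Finset.sum_nonneg fun _ _ => Finset.sum_nonneg fun _ _ =>
    sq_nonneg _

theorem s7k_sgA_nonneg (H : Fin n → Mx n) (W A : Mx n) : 0 ≤ sgA H W A :=
  Finset.sum_nonneg fun _ _ => R260.mxSq_nonneg _

theorem s7k_dfc_nonneg (H : Fin n → Mx n) (W : Mx n) : 0 ≤ dfc H W :=
  add_nonneg (add_nonneg (R260.mxSq_nonneg _) (s7k_ccW_nonneg H W)) (s7k_xdW_nonneg H W)

theorem s7k_mxSq_neg (M : Mx n) : mxSq (-M) = mxSq M := by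
  simp [R260.mxSq_eq_sum]

theorem s7k_colAt_symm {H : Fin n → Mx n} (hH : ∀ i, (H i).IsSymm) (v : EE n) :
    (colAt H v).IsSymm := by
  unfold colAt Matrix.IsSymm
  rw [Matrix.transpose_sum]
  exact Finset.sum_congr rfl fun i _ => by rw [Matrix.transpose_smul, hH i]

theorem s7k_colAt_comm {H : Fin n → Mx n} {W : Mx n} (hH : ∀ i, H i * W = W * H i) (v : EE n) :
    colAt H v * W = W * colAt H v := by
  unfold colAt
  rw [Finset.sum_mul, Finset.mul_sum]
  exact Finset.sum_congr rfl fun i _ => by rw [smul_mul_assoc, mul_smul_comm, hH i]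

/-- `(a + b)² ≤ 2a² + 2b²` in square-root form -/
theorem s7k_sq_of_sqrt_le {z a b c d : ℝ} (hz : 0 ≤ z) (ha : 0 ≤ a) (hb : 0 ≤ b) (hc : 0 ≤ c)
    (hd : 0 ≤ d) (h : Real.sqrt z ≤ c * Real.sqrt a + d * Real.sqrt b) :
    z ≤ 2 * c ^ 2 * a + 2 * d ^ 2 * b := by
  have h1 : z = Real.sqrt z ^ 2 := (Real.sq_sqrt hz).symm
  have h2 : Real.sqrt z ^ 2 ≤ (c * Real.sqrt a + d * Real.sqrt b) ^ 2 :=
    pow_le_pow_left₀ (Real.sqrt_nonneg _) h 2
  have h3 : Real.sqrt a ^ 2 = a := Real.sq_sqrt ha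
  have h4 : Real.sqrt b ^ 2 = b := Real.sq_sqrt hb
  nlinarith [sq_nonneg (c * Real.sqrt a - d * Real.sqrt b)]

/-- commutator with a Lipschitz function of `A`, weighted -/
theorem s7k_comm_lip {g : ℝ → ℝ} {K : ℝ} (hg : ∀ a b, |g a - g b| ≤ K * |a - b|) {A W : Mx n}
    (hA : A.IsSymm) (hAW : A * W = W * A) (X : Mx n) :
    mxSq (cmm X (mxFun g A) * W) ≤ K ^ 2 * mxSq (cmm X A * W) := by
  have hq : W * mxFun g A = mxFun g A * W := mxFun_commute_of hA hAW.symm
  have e1 : cmm X (mxFun g A) * W = -(mxFun g A * (X * W) - (X * W) * mxFun g A) := by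
    unfold cmm
    rw [sub_mul, Matrix.mul_assoc X _ W, ← hq]
    simp only [Matrix.mul_assoc]
    abel
  have e2 : cmm X A * W = -(A * (X * W) - (X * W) * A) := by
    unfold cmm
    rw [sub_mul, Matrix.mul_assoc X A W, hAW]
    simp only [Matrix.mul_assoc]
    abel
  rw [e1, e2, s7k_mxSq_neg, s7k_mxSq_neg]
  exact mxSq_comm_mxFun_le hg hA _

theorem s7k_arith_a {cq Lp a b I s0 cc xd sg : ℝ} (hcq1 : 1 ≤ cq) (hs0 : 0 ≤ s0) (hcc : 0 ≤ cc)
    (hxd : 0 ≤ xd) (hsg : 0 ≤ sg) (h2 : a ≤ 32 * cq * I + 2 * cq ^ 2 * s0)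
    (h3 : I ≤ 6 * cq * xd + 3 * (Lp ^ 2 * sg)) (h4 : b ≤ cq ^ 2 * cc) :
    2 * a + 8 * cq * b ≤ (400 * cq ^ 3 + 200 * cq * Lp ^ 2) * (s0 + cc + xd + sg) := by
  have hcq0 : 0 ≤ cq := by linarith
  have hcq23 : cq ^ 2 ≤ cq ^ 3 := by nlinarith [sq_nonneg cq]
  have k1 : 32 * cq * I ≤ 32 * cq * (6 * cq * xd + 3 * (Lp ^ 2 * sg)) :=
    mul_le_mul_of_nonneg_left h3 (by positivity)
  have k2 : 8 * cq * b ≤ 8 * cq * (cq ^ 2 * cc) :=
    mul_le_mul_of_nonneg_left h4 (by positivity)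
  have k3 : cq ^ 2 * xd ≤ cq ^ 3 * xd := mul_le_mul_of_nonneg_right hcq23 hxd
  have k4 : cq ^ 2 * s0 ≤ cq ^ 3 * s0 := mul_le_mul_of_nonneg_right hcq23 hs0
  have k5 : 0 ≤ cq ^ 3 * cc := by positivity
  have k6 : 0 ≤ cq ^ 3 * sg := by positivity
  have k7 : 0 ≤ cq * Lp ^ 2 * (s0 + cc + xd) := by positivity
  have k8 : 0 ≤ cq * Lp ^ 2 * sg := by positivity
  have k9 : 0 ≤ cq ^ 3 * xd := by positivity
  have k10 : 0 ≤ cq ^ 3 * s0 := by positivity
  nlinarith

/-- (a): the Gaussian average of `e^{irH[qG]}`, `q = g_x(A)`, is close to `χ_r(A)` -/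
theorem s7k_Pa {t L x : ℝ} (ht : 0 < t) (hL : 1 ≤ L) (hx : 0 < x) (r : ℝ) :
    ∃ C : ℝ, 0 ≤ C ∧ ∀ (n : ℕ) (H : Fin n → Mx n) (W : Mx n), ColW H W →
      ∀ A : Mx n, A.IsSymm → A * W = W * A →
      cSq ((gF (colQ H (mxFun (gx t L x) A)) r
          - mxFunC (fun v => ((chiR t L x r v : ℝ) : ℂ)) A) * toC W)
        ≤ C * (dfc H W + sgA H W A) := by
  obtain ⟨hg1, hg2, hgc, hglip⟩ := s7_gx_bounds ht hL hx
  set cq : ℝ := 1 + L with hcqdef
  set Lp : ℝ := Real.sqrt (8 * t) * L / 8 with hLp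
  have hcq1 : 1 ≤ cq := by rw [hcqdef]; linarith
  have hcq0 : 0 ≤ cq := by linarith
  refine ⟨(1 + |r|) ^ 8 * (400 * cq ^ 3 + 200 * cq * Lp ^ 2), by positivity, ?_⟩
  intro n H W h A hA hAW
  set q := mxFun (gx t L x) A with hqdef
  have hq : q.IsSymm := R260.mxFun_isSymm _ _
  have hqW : q * W = W * q := (mxFun_commute_of hA hAW.symm).symm
  have hqq : q * q = mxFun (fun v => gx t L x v * gx t L x v) A := (R260.mxFun_mul _ _ _).symm
  have hcq : (cq • (1 : Mx n) - q * q).PosSemidef := by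
    rw [hqq, ← R260.mxFun_const cq A, ← R260.mxFun_sub]
    exact R260.mxFun_posSemidef fun i => by nlinarith [hg2 (mxEig A i)]
  have hM : (q * q).PosSemidef := by
    rw [hqq]; exact R260.mxFun_posSemidef fun i => mul_self_nonneg _
  have hX : mxFunC (fun v => ((Real.exp (-(r ^ 2 * v / 2)) : ℝ) : ℂ)) (q * q)
      = mxFunC (fun v => ((chiR t L x r v : ℝ) : ℂ)) A := by
    rw [hqq, mxFunC_comp]
    congr 1
    funext v
    unfold chiR
    rw [sq (gx t L x v)]
  have hge := s7_ge (s7_colQ_symm h.symm q) (s7_colQ_comm h.comm q) (cK := 4 * cq)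
    (by positivity) (s7_colQ_col h hq hcq) hM r
  rw [hX] at hge
  set z := cSq ((gF (colQ H q) r - mxFunC (fun v => ((chiR t L x r v : ℝ) : ℂ)) A) * toC W)
    with hz
  set a := mxSq ((colS (colQ H q) - q * q) * W) with ha
  set b := ccW (colQ H q) W with hb
  set I := ∫ G, mxSq ((colAt H (mv q G) - q * colAt H G) * W) ∂(gam n) with hI
  set s0 := mxSq ((colS H - 1) * W) with hs0
  have ha0 : 0 ≤ a := R260.mxSq_nonneg _
  have hb0 : 0 ≤ b := s7k_ccW_nonneg _ _
  have hI0 : 0 ≤ I := integral_nonneg fun _ => R260.mxSq_nonneg _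
  have hs00 : 0 ≤ s0 := R260.mxSq_nonneg _
  have hcc0 := s7k_ccW_nonneg H W
  have hxd0 := s7k_xdW_nonneg H W
  have hsg0 := s7k_sgA_nonneg H W A
  have h1 : z ≤ 2 * ((1 + |r|) ^ 4) ^ 2 * a
      + 2 * ((1 + |r|) ^ 4 * Real.sqrt (4 * cq)) ^ 2 * b := by
    refine s7k_sq_of_sqrt_le (cSq_nonneg _) ha0 hb0 (by positivity) (by positivity) ?_
    calc Real.sqrt z ≤ _ := hge
      _ = _ := by ring
  have h2 : a ≤ 2 * (4 * Real.sqrt cq) ^ 2 * I + 2 * cq ^ 2 * s0 :=
    s7k_sq_of_sqrt_le ha0 hI0 hs00 (by positivity) hcq0 (s7_colQ_S h hq hqW hcq)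
  have h3 : I ≤ 6 * cq * xdW H W + 3 * (Lp ^ 2 * sgA H W A) := by
    refine (s7_swap h hq hqW hcq).trans ?_
    have : ∑ b, mxSq (cmm (H b) q * W) ≤ Lp ^ 2 * sgA H W A := by
      unfold sgA
      rw [Finset.mul_sum]
      exact Finset.sum_le_sum fun b _ => s7k_comm_lip hglip hA hAW (H b)
    linarith
  have h4 : b ≤ cq ^ 2 * ccW H W := s7_colQ_cc h hq hcq
  have e1 : Real.sqrt (4 * cq) ^ 2 = 4 * cq := Real.sq_sqrt (by positivity)
  have e2 : Real.sqrt cq ^ 2 = cq := Real.sq_sqrt hcq0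
  set R8 := (1 + |r|) ^ 8 with hR8
  have hR80 : 0 ≤ R8 := by positivity
  have h1' : z ≤ R8 * (2 * a + 8 * cq * b) := by
    have : 2 * ((1 + |r|) ^ 4) ^ 2 * a + 2 * ((1 + |r|) ^ 4 * Real.sqrt (4 * cq)) ^ 2 * b
        = R8 * (2 * a + 8 * cq * b) := by
      rw [mul_pow, e1, hR8]; ring
    linarith
  have h2' : a ≤ 32 * cq * I + 2 * cq ^ 2 * s0 := by
    have : 2 * (4 * Real.sqrt cq) ^ 2 * I = 32 * cq * I := by rw [mul_pow, e2]; ring
    linarith
  have key : 2 * a + 8 * cq * b ≤ (400 * cq ^ 3 + 200 * cq * Lp ^ 2) * (dfc H W + sgA H W A) :=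
    s7k_arith_a hcq1 hs00 hcc0 hxd0 hsg0 h2' h3 h4
  calc z ≤ R8 * (2 * a + 8 * cq * b) := h1'
    _ ≤ R8 * ((400 * cq ^ 3 + 200 * cq * Lp ^ 2) * (dfc H W + sgA H W A)) :=
        mul_le_mul_of_nonneg_left key hR80
    _ = _ := by ring

/-- generates the equation lemmas of the definitions above in this file (rule 6: unique names) -/
theorem s7lawja_eqns_cite : True := by
  have := @dfc.eq_1
  have := @sgA.eq_1
  trivial

end Claimed.Agent.R259
end

/- ===== packed: Claimed.Agent.R259.S7LawSpecPt ===== -/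
section
/-
Row 259 (S0499), section 7, spectral law, package L-S7-LAW-SPEC.  Architect: helper57.  Prefix `s7p`.

LEAF L-s7p-pt (pointwise, deterministic matrices): `tr(W² g(A)) = ∑_i g(a_i) w_i` with weights `w_i = (Uᵀ W² U)_ii ≥ 0`,
`∑ w_i = |W|²`, `∑ a_i² w_i = |A W|²`; hence `|tr(W² g(A))| ≤ a |W|² + b |A W|²` if `|g(v)| ≤ a + b v²`.
-/
set_option autoImplicit false

open MeasureTheory ProbabilityTheory
open scoped BigOperators Matrix
open Claimed.Agent.R260 (Mx mxFun mxSchur mxSq mxIP mxEig mxU mxRot)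

namespace Claimed.Agent.R259

variable {n : ℕ}

/-! ### leaf L-s7p-pt -/

/-- (`mxFunC`, `Matrix.trace_mul_cycle`, `toC_mul`, `Matrix.trace` of `M * diagonal`) -/
theorem s7p_trace_eq (W A : Mx n) (g : ℝ → ℂ) :
    Matrix.trace (toC (W * W) * mxFunC g A)
      = ∑ i, g (mxEig A i) * ((mxRot A (W * W) i i : ℝ) : ℂ) := by
  unfold mxFunC
  rw [← Matrix.mul_assoc, Matrix.trace_mul_comm, ← Matrix.mul_assoc, ← Matrix.mul_assoc,
    ← toC_mul, ← toC_mul]
  have e : (mxU A)ᵀ * (W * W) * mxU A = mxRot A (W * W) := rfl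
  rw [e, Matrix.trace]
  refine Finset.sum_congr rfl fun i _ => ?_
  rw [Matrix.diag_apply, Matrix.mul_diagonal, toC_apply, mul_comm]

/-- `(Uᵀ W W U)_ii = ∑_k ((W U)_ki)²` -/
theorem s7p_rot_nonneg {W : Mx n} (hW : W.IsSymm) (A : Mx n) (i : Fin n) :
    0 ≤ mxRot A (W * W) i i := by
  have e : mxRot A (W * W) = (W * mxU A)ᵀ * (W * mxU A) := by
    rw [mxRot, Matrix.transpose_mul, hW]
    simp only [Matrix.mul_assoc]
  rw [e, Matrix.mul_apply]
  refine Finset.sum_nonneg fun k _ => ?_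
  rw [Matrix.transpose_apply]
  exact mul_self_nonneg _

/-- (`R260.mxRot_trace`) -/
theorem s7p_sum_rot {W : Mx n} (hW : W.IsSymm) (A : Mx n) :
    ∑ i, mxRot A (W * W) i i = mxSq W := by
  have h := Claimed.Agent.R260.mxRot_trace A (W * W)
  rw [Matrix.trace] at h
  simp only [Matrix.diag_apply] at h
  rw [h, mxSq, hW]

/-- `∑ a_i² w_i = tr(A² W²) = |A W|²` (`s7p`-free proof: `mxFun (·^2) A = A * A`, `R260.mxRot_mxFun_mul_apply`) -/
theorem s7p_sum_sq_rot {W A : Mx n} (hW : W.IsSymm) (hA : A.IsSymm) :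
    ∑ i, mxEig A i ^ 2 * mxRot A (W * W) i i = mxSq (A * W) := by
  have h1 : ∀ i, mxEig A i ^ 2 * mxRot A (W * W) i i
      = mxRot A (mxFun (fun a => a ^ 2) A * (W * W)) i i := fun i => by
    rw [Claimed.Agent.R260.mxRot_mxFun_mul_apply]
  simp only [h1]
  have h := Claimed.Agent.R260.mxRot_trace A (mxFun (fun a => a ^ 2) A * (W * W))
  rw [Matrix.trace] at h
  simp only [Matrix.diag_apply] at h
  rw [h, Claimed.Agent.R260.mxFun_pow hA, mxSq, Matrix.transpose_mul, hW, hA, pow_two,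
    Matrix.trace_mul_comm]
  simp only [Matrix.mul_assoc]
  rw [Matrix.trace_mul_comm]
  simp only [Matrix.mul_assoc]

theorem s7p_trace_norm_le {W A : Mx n} (hW : W.IsSymm) (hA : A.IsSymm) {g : ℝ → ℂ} {a b : ℝ}
    (h : ∀ v, ‖g v‖ ≤ a + b * v ^ 2) :
    ‖Matrix.trace (toC (W * W) * mxFunC g A)‖ ≤ a * mxSq W + b * mxSq (A * W) := by
  rw [s7p_trace_eq]
  calc ‖∑ i, g (mxEig A i) * ((mxRot A (W * W) i i : ℝ) : ℂ)‖
      ≤ ∑ i, ‖g (mxEig A i) * ((mxRot A (W * W) i i : ℝ) : ℂ)‖ := norm_sum_le _ _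
    _ ≤ ∑ i, (a + b * mxEig A i ^ 2) * mxRot A (W * W) i i := by
        refine Finset.sum_le_sum fun i _ => ?_
        rw [norm_mul, Complex.norm_real, Real.norm_eq_abs, abs_of_nonneg (s7p_rot_nonneg hW A i)]
        exact mul_le_mul_of_nonneg_right (h _) (s7p_rot_nonneg hW A i)
    _ = a * mxSq W + b * mxSq (A * W) := by
        rw [← s7p_sum_rot hW A, ← s7p_sum_sq_rot hW hA, Finset.mul_sum, Finset.mul_sum,
          ← Finset.sum_add_distrib]
        refine Finset.sum_congr rfl fun i _ => ?_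
        ring

/-- functional calculus of the identity matrix (`1 = mxFun (fun _ => 1) 1`, `mxFunC_comp`, `mxFunC_const`) -/
theorem s7p_mxFunC_one (g : ℝ → ℂ) : mxFunC g (1 : Mx n) = g 1 • (1 : CMx n) := by
  have h : (1 : Mx n) = mxFun (fun _ => 1) (1 : Mx n) := by
    rw [Claimed.Agent.R260.mxFun_const, one_smul]
  conv_lhs => rw [h]
  rw [mxFunC_comp, mxFunC_const]

/-- `colAt` of a symmetric column is symmetric -/
theorem s7p_colAt_isSymm {H : Fin n → Mx n} (hH : ∀ i, (H i).IsSymm) (v : EE n) :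
    (colAt H v).IsSymm := by
  unfold Matrix.IsSymm colAt
  rw [Matrix.transpose_sum]
  refine Finset.sum_congr rfl fun i _ => ?_
  rw [Matrix.transpose_smul, hH i]

end Claimed.Agent.R259
end

/- ===== packed: Claimed.Agent.R259.S7LawSpecBm ===== -/
section
/-
Row 259 (S0499), section 7, spectral law, package L-S7-LAW-SPEC.  Architect: helper57.  Prefix `s7p`.
LEAF L-s7p-bm (block models): bounded columns, integrability, the tracial defects as integrals of `mxSq`.
Kit: `MkHS`, `MkPSD`, `MkMeas` (RM / RB / RL2 fields; `RB.mul_L2`, `RL2.integrable_hs2`, `RL2.of_hs2_le`, `mxSq_eq_hs2`).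
-/
set_option autoImplicit false

open MeasureTheory ProbabilityTheory
open scoped BigOperators Matrix
open Claimed.Agent.R260 (Mx mxFun mxSchur mxSq mxIP mxEig mxU mxRot)

namespace Claimed.Agent.R259

variable {n : ℕ}

/-! ### leaf L-s7p-bm -/

/-- `tr(W W Cᵀ C) = |C W|²` for symmetric `W` -/
theorem s7p_trace_WW {W : Mx n} (hW : W.IsSymm) (C : Mx n) :
    Matrix.trace (W * W * (Cᵀ * C)) = mxSq (C * W) := by
  rw [mxSq, Matrix.transpose_mul, hW, Matrix.mul_assoc W W, Matrix.trace_mul_comm]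
  simp only [Matrix.mul_assoc]

/-- deterministic column bound -/
theorem s7p_col_le' {H : Fin n → Mx n} (hH : ∀ i, (H i).IsSymm)
    (hc : ((4 : ℝ) • (1 : Mx n) - colS H).PosSemidef) (M : Mx n) :
    ∑ i, mxSq (H i * M) ≤ 4 * mxSq M := by
  have h1 := mk_trace_mul_le (mk_psd_gram M) hc
  have e1 : Matrix.trace (M * Mᵀ * colS H) = ∑ i, mxSq (H i * M) := by
    rw [colS, Matrix.mul_sum, Matrix.trace_sum]
    refine Finset.sum_congr rfl fun i _ => ?_
    rw [mxSq, Matrix.transpose_mul, hH i, Matrix.mul_assoc M, Matrix.trace_mul_comm]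
    simp only [Matrix.mul_assoc]
  have e2 : Matrix.trace (M * Mᵀ) = mxSq M := by
    rw [mxSq, Matrix.trace_mul_comm]
  rwa [e1, e2] at h1

section bm

variable {D : Type} [MeasurableSpace D] {Q : Measure D} (B : BlockModel n Q)

theorem s7p_Rs_isSymm (d : D) : (B.Rs d).IsSymm := mk_isSymm_of_psd (B.Rs_psd d)

/-- column bound -/
theorem s7p_col_le (d : D) (M : Mx n) : ∑ i, mxSq (B.H d i * M) ≤ 4 * mxSq M :=
  s7p_col_le' (B.H_symm d) (B.col d) M

/-- the entries of the column are bounded (`|H_i|² = |H_i 1|² ≤ 4 n`) and measurable -/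
theorem s7p_RB_H (i : Fin n) : RB fun d => B.H d i := by
  refine RB.of_hs2_le (B.H_meas i) (C := 4 * mxSq (1 : Mx n)) fun d => ?_
  have h1 := s7p_col_le B d 1
  have h2 : mxSq (B.H d i * 1) ≤ ∑ j, mxSq (B.H d j * 1) :=
    Finset.single_le_sum (f := fun j => mxSq (B.H d j * 1))
      (fun j _ => Claimed.Agent.R260.mxSq_nonneg _) (Finset.mem_univ i)
  rw [Matrix.mul_one, mxSq_eq_hs2] at h2
  exact h2.trans h1

theorem s7p_RL2_Rs : RL2 Q B.Rs :=
  RL2.of_hs2_le B.Rs_meas B.Rs_int fun d => by rw [mxSq_eq_hs2]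

theorem s7p_tau_one : B.tau (fun _ => 1) = ∫ d, mxSq (B.Rs d) ∂Q := by
  unfold BlockModel.tau
  refine integral_congr_ae (Filter.Eventually.of_forall fun d => ?_)
  show Matrix.trace (B.Rs d * B.Rs d * 1) = mxSq (B.Rs d)
  rw [Matrix.mul_one, mxSq, s7p_Rs_isSymm]

theorem s7p_RB_colS : RB fun d => colS (B.H d) :=
  RB.sum _ fun i _ => (s7p_RB_H B i).mul (s7p_RB_H B i)

theorem s7p_colS_isSymm (d : D) : (colS (B.H d)).IsSymm := by
  unfold Matrix.IsSymm colS
  rw [Matrix.transpose_sum]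
  refine Finset.sum_congr rfl fun i _ => ?_
  rw [Matrix.transpose_mul, B.H_symm d i]

theorem s7p_tau_S :
    Integrable (fun d => mxSq ((colS (B.H d) - 1) * B.Rs d)) Q ∧
      B.tau (fun d => (colS (B.H d) - 1) * (colS (B.H d) - 1))
        = ∫ d, mxSq ((colS (B.H d) - 1) * B.Rs d) ∂Q := by
  constructor
  · simp only [mxSq_eq_hs2]
    exact (((s7p_RB_colS B).sub (RB.const 1)).mul_L2 (s7p_RL2_Rs B)).integrable_hs2
  · unfold BlockModel.tau
    refine integral_congr_ae (Filter.Eventually.of_forall fun d => ?_)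
    show Matrix.trace (B.Rs d * B.Rs d * ((colS (B.H d) - 1) * (colS (B.H d) - 1)))
      = mxSq ((colS (B.H d) - 1) * B.Rs d)
    rw [← s7p_trace_WW (s7p_Rs_isSymm B d), Matrix.transpose_sub, s7p_colS_isSymm,
      Matrix.transpose_one]

theorem s7p_RB_cmm (i j : Fin n) : RB fun d => cmm (B.H d i) (B.H d j) :=
  ((s7p_RB_H B i).mul (s7p_RB_H B j)).sub ((s7p_RB_H B j).mul (s7p_RB_H B i))

theorem s7p_integrable_cmm (i j : Fin n) :
    Integrable (fun d => mxSq (cmm (B.H d i) (B.H d j) * B.Rs d)) Q := by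
  simp only [mxSq_eq_hs2]
  exact ((s7p_RB_cmm B i j).mul_L2 (s7p_RL2_Rs B)).integrable_hs2

theorem s7p_tau_C :
    Integrable (fun d => ccW (B.H d) (B.Rs d)) Q ∧
      ∑ i, ∑ j, B.tau (fun d => (cmm (B.H d i) (B.H d j))ᵀ * cmm (B.H d i) (B.H d j))
        = ∫ d, ccW (B.H d) (B.Rs d) ∂Q := by
  constructor
  · unfold ccW
    exact integrable_finsetSum _ fun i _ => integrable_finsetSum _ fun j _ =>
      s7p_integrable_cmm B i j
  · unfold ccW
    rw [integral_finsetSum _ fun i _ => integrable_finsetSum _ fun j _ => s7p_integrable_cmm B i j]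
    refine Finset.sum_congr rfl fun i _ => ?_
    rw [integral_finsetSum _ fun j _ => s7p_integrable_cmm B i j]
    refine Finset.sum_congr rfl fun j _ => ?_
    unfold BlockModel.tau
    refine integral_congr_ae (Filter.Eventually.of_forall fun d => ?_)
    exact s7p_trace_WW (s7p_Rs_isSymm B d) _

end bm

end Claimed.Agent.R259
end

/- ===== packed: Claimed.Agent.R259.S7LawSpecInt ===== -/
section
/-
Row 259 (S0499), section 7, spectral law, package L-S7-LAW-SPEC.  Architect: helper57.  Prefix `s7p`.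

LEAF L-s7p-int: the functional `g ↦ B.spec g = τ(g(H[N]))` on Borel functions of quadratic growth `|g(v)| ≤ a + b v²`:
integrability on `Q ⊗ γ_n`, linearity, the bound `|B.spec g| ≤ (a + 4b) τ(1)`.
-/
set_option autoImplicit false

open MeasureTheory ProbabilityTheory
open scoped BigOperators Matrix
open Claimed.Agent.R260 (Mx mxFun mxSchur mxSq mxIP mxEig mxU mxRot)

namespace Claimed.Agent.R259

variable {n : ℕ} {D : Type} [MeasurableSpace D] {Q : Measure D}

/-- the integrand of `B.spec` on the product space -/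
noncomputable def BlockModel.specI (B : BlockModel n Q) (g : ℝ → ℂ) (p : D × EE n) : ℂ :=
  Matrix.trace (toC (B.Rs p.1 * B.Rs p.1) * mxFunC g (colAt (B.H p.1) p.2))

theorem s7p_int_eqns_cite : True := by
  have := @BlockModel.specI.eq_1
  trivial

variable (B : BlockModel n Q)

theorem s7p_RM_W : RM fun p : D × EE n => B.Rs p.1 :=
  fun a b => (B.Rs_meas a b).comp measurable_fst

theorem s7p_RM_A : RM fun p : D × EE n => colAt (B.H p.1) p.2 := by
  intro a b
  have e : ∀ p : D × EE n, colAt (B.H p.1) p.2 a b = ∑ i, p.2 i * B.H p.1 i a b := by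
    intro p
    simp only [colAt, Matrix.sum_apply, Matrix.smul_apply, smul_eq_mul]
  simp only [e]
  refine Finset.measurable_sum _ fun i _ => ?_
  have h1 : Measurable fun p : D × EE n => p.2 i :=
    ((EuclideanSpace.proj (𝕜 := ℝ) i).continuous.measurable).comp measurable_snd
  exact h1.mul ((B.H_meas i a b).comp measurable_fst)

theorem s7p_A_isSymm (p : D × EE n) : (colAt (B.H p.1) p.2).IsSymm :=
  s7p_colAt_isSymm (B.H_symm p.1) p.2

/-- real and imaginary parts of the integrand -/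
theorem s7p_specI_re_im (g : ℝ → ℂ) (p : D × EE n) :
    B.specI g p
      = ((Matrix.trace (B.Rs p.1 * B.Rs p.1 * mxFun (fun v => (g v).re) (colAt (B.H p.1) p.2)) : ℝ) : ℂ)
        + Complex.I * ((Matrix.trace (B.Rs p.1 * B.Rs p.1
            * mxFun (fun v => (g v).im) (colAt (B.H p.1) p.2)) : ℝ) : ℂ) := by
  unfold BlockModel.specI
  rw [mxFunC_re_im, Matrix.mul_add, Matrix.mul_smul, Matrix.trace_add, Matrix.trace_smul,
    ← toC_mul, ← toC_mul, toC_trace, toC_trace, smul_eq_mul]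

/-- joint measurability -/
theorem s7p_specI_meas {g : ℝ → ℂ} (hg : Measurable g) : Measurable (B.specI g) := by
  have hW := s7p_RM_W B
  have hA := s7p_RM_A B
  have h1 : Measurable fun p : D × EE n => Matrix.trace (B.Rs p.1 * B.Rs p.1
      * mxFun (fun v => (g v).re) (colAt (B.H p.1) p.2)) :=
    ((hW.mul hW).mul (RM.of_mxFun (Complex.measurable_re.comp hg) hA (s7p_A_isSymm B))).meas_trace
  have h2 : Measurable fun p : D × EE n => Matrix.trace (B.Rs p.1 * B.Rs p.1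
      * mxFun (fun v => (g v).im) (colAt (B.H p.1) p.2)) :=
    ((hW.mul hW).mul (RM.of_mxFun (Complex.measurable_im.comp hg) hA (s7p_A_isSymm B))).meas_trace
  have e : B.specI g = fun p => ((Matrix.trace (B.Rs p.1 * B.Rs p.1
      * mxFun (fun v => (g v).re) (colAt (B.H p.1) p.2)) : ℝ) : ℂ)
        + Complex.I * ((Matrix.trace (B.Rs p.1 * B.Rs p.1
            * mxFun (fun v => (g v).im) (colAt (B.H p.1) p.2)) : ℝ) : ℂ) :=
    funext fun p => s7p_specI_re_im B g p
  rw [e]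
  exact (Complex.measurable_ofReal.comp h1).add
    ((Complex.measurable_ofReal.comp h2).const_mul Complex.I)

theorem s7p_colAt_mul (H : Fin n → Mx n) (W : Mx n) (G : EE n) :
    colAt (fun i => H i * W) G = colAt H G * W := by
  simp only [colAt, Finset.sum_mul, Matrix.smul_mul]

theorem s7p_integrable_col : Integrable (fun d => ∑ i, mxSq (B.H d i * B.Rs d)) Q := by
  have hm : Measurable fun d => ∑ i, mxSq (B.H d i * B.Rs d) := by
    refine Finset.measurable_sum _ fun i _ => ?_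
    simp only [mxSq_eq_hs2]
    exact ((s7p_RB_H B i).rm.mul B.Rs_meas).meas_hs2
  refine Integrable.mono' (B.Rs_int.const_mul 4) hm.aestronglyMeasurable
    (Filter.Eventually.of_forall fun d => ?_)
  rw [Real.norm_eq_abs, abs_of_nonneg
    (Finset.sum_nonneg fun i _ => Claimed.Agent.R260.mxSq_nonneg _)]
  exact s7p_col_le B d _

theorem s7p_AW [IsProbabilityMeasure Q] :
    Integrable (fun p : D × EE n => mxSq (colAt (B.H p.1) p.2 * B.Rs p.1)) (Q.prod (gam n)) ∧
      ∫ p : D × EE n, mxSq (colAt (B.H p.1) p.2 * B.Rs p.1) ∂(Q.prod (gam n))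
        ≤ 4 * ∫ d, mxSq (B.Rs d) ∂Q := by
  have hm : Measurable fun p : D × EE n => mxSq (colAt (B.H p.1) p.2 * B.Rs p.1) := by
    simp only [mxSq_eq_hs2]
    exact ((s7p_RM_A B).mul (s7p_RM_W B)).meas_hs2
  have hin : ∀ d, Integrable (fun N => mxSq (colAt (B.H d) N * B.Rs d)) (gam n) ∧
      ∫ N, mxSq (colAt (B.H d) N * B.Rs d) ∂(gam n) = ∑ i, mxSq (B.H d i * B.Rs d) := by
    intro d
    have := s7_avg_sq (fun i => B.H d i * B.Rs d)
    simpa only [s7p_colAt_mul] using this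
  have hI : Integrable (fun p : D × EE n => mxSq (colAt (B.H p.1) p.2 * B.Rs p.1))
      (Q.prod (gam n)) := by
    rw [integrable_prod_iff hm.aestronglyMeasurable]
    refine ⟨Filter.Eventually.of_forall fun d => (hin d).1, ?_⟩
    have e : (fun d => ∫ N, ‖mxSq (colAt (B.H (d, N).1) (d, N).2 * B.Rs (d, N).1)‖ ∂(gam n))
        = fun d => ∑ i, mxSq (B.H d i * B.Rs d) := by
      funext d
      rw [← (hin d).2]
      refine integral_congr_ae (Filter.Eventually.of_forall fun N => ?_)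
      exact abs_of_nonneg (Claimed.Agent.R260.mxSq_nonneg _)
    rw [e]
    exact s7p_integrable_col B
  refine ⟨hI, ?_⟩
  rw [integral_prod _ hI, ← integral_const_mul]
  refine integral_mono_of_nonneg
    (Filter.Eventually.of_forall fun d => integral_nonneg fun N => Claimed.Agent.R260.mxSq_nonneg _)
    (B.Rs_int.const_mul 4) (Filter.Eventually.of_forall fun d => ?_)
  show ∫ N, mxSq (colAt (B.H d) N * B.Rs d) ∂(gam n) ≤ 4 * mxSq (B.Rs d)
  rw [(hin d).2]
  exact s7p_col_le B d _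

theorem s7p_W [IsProbabilityMeasure Q] :
    Integrable (fun p : D × EE n => mxSq (B.Rs p.1)) (Q.prod (gam n)) ∧
      ∫ p : D × EE n, mxSq (B.Rs p.1) ∂(Q.prod (gam n)) = ∫ d, mxSq (B.Rs d) ∂Q := by
  refine ⟨B.Rs_int.comp_fst (gam n), ?_⟩
  rw [integral_fun_fst (fun d => mxSq (B.Rs d))]
  simp

theorem s7p_specI_norm_le {g : ℝ → ℂ} {a b : ℝ} (h : ∀ v, ‖g v‖ ≤ a + b * v ^ 2)
    (p : D × EE n) :
    ‖B.specI g p‖ ≤ a * mxSq (B.Rs p.1) + b * mxSq (colAt (B.H p.1) p.2 * B.Rs p.1) :=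
  s7p_trace_norm_le (s7p_Rs_isSymm B p.1) (s7p_A_isSymm B p) h

theorem s7p_specI_integrable [IsProbabilityMeasure Q] {g : ℝ → ℂ} (hg : Measurable g) {a b : ℝ}
    (h : ∀ v, ‖g v‖ ≤ a + b * v ^ 2) : Integrable (B.specI g) (Q.prod (gam n)) :=
  Integrable.mono' (((s7p_W B).1.const_mul a).add ((s7p_AW B).1.const_mul b))
    (s7p_specI_meas B hg).aestronglyMeasurable
    (Filter.Eventually.of_forall fun p => s7p_specI_norm_le B h p)

theorem s7p_spec_eq [IsProbabilityMeasure Q] {g : ℝ → ℂ} (hg : Measurable g) {a b : ℝ}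
    (h : ∀ v, ‖g v‖ ≤ a + b * v ^ 2) : B.spec g = ∫ p, B.specI g p ∂(Q.prod (gam n)) := by
  rw [integral_prod _ (s7p_specI_integrable B hg h)]
  rfl

/-- **domination** -/
theorem s7p_spec_norm_le [IsProbabilityMeasure Q] {g : ℝ → ℂ} (hg : Measurable g) {a b : ℝ}
    (hb : 0 ≤ b) (h : ∀ v, ‖g v‖ ≤ a + b * v ^ 2) :
    ‖B.spec g‖ ≤ (a + 4 * b) * ∫ d, mxSq (B.Rs d) ∂Q := by
  rw [s7p_spec_eq B hg h]
  refine (norm_integral_le_integral_norm _).trans ?_
  have h1 : ∫ p, ‖B.specI g p‖ ∂(Q.prod (gam n))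
      ≤ ∫ p : D × EE n, (a * mxSq (B.Rs p.1) + b * mxSq (colAt (B.H p.1) p.2 * B.Rs p.1))
        ∂(Q.prod (gam n)) :=
    integral_mono (s7p_specI_integrable B hg h).norm
      (((s7p_W B).1.const_mul a).add ((s7p_AW B).1.const_mul b))
      fun p => s7p_specI_norm_le B h p
  rw [integral_add ((s7p_W B).1.const_mul a) ((s7p_AW B).1.const_mul b), integral_const_mul,
    integral_const_mul, (s7p_W B).2] at h1
  have h2 := mul_le_mul_of_nonneg_left (s7p_AW B).2 hb
  calc _ ≤ _ := h1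
    _ ≤ (a + 4 * b) * ∫ d, mxSq (B.Rs d) ∂Q := by linarith

theorem s7p_spec_sub [IsProbabilityMeasure Q] {g g' : ℝ → ℂ} (hg : Measurable g)
    (hg' : Measurable g') {a b a' b' : ℝ} (h : ∀ v, ‖g v‖ ≤ a + b * v ^ 2)
    (h' : ∀ v, ‖g' v‖ ≤ a' + b' * v ^ 2) :
    B.spec (fun v => g v - g' v) = B.spec g - B.spec g' := by
  have hd : ∀ v, ‖g v - g' v‖ ≤ (a + a') + (b + b') * v ^ 2 := fun v => by
    have := norm_sub_le (g v) (g' v)
    have h1 := h v
    have h2 := h' v
    linarith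
  rw [s7p_spec_eq B (g := fun v => g v - g' v) (hg.sub hg') hd, s7p_spec_eq B hg h,
    s7p_spec_eq B hg' h',
    ← integral_sub (s7p_specI_integrable B hg h) (s7p_specI_integrable B hg' h')]
  refine integral_congr_ae (Filter.Eventually.of_forall fun p => ?_)
  simp only [BlockModel.specI]
  rw [mxFunC_sub, Matrix.mul_sub, Matrix.trace_sub]

theorem s7p_chr_bound (s v : ℝ) : ‖chr s v‖ ≤ 1 + 0 * v ^ 2 := by
  rw [s7p_chr_norm]; simp

/-- trigonometric polynomials -/
theorem s7p_spec_lincomb [IsProbabilityMeasure Q] {K : ℕ} (c : Fin K → ℂ) (s : Fin K → ℝ) :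
    B.spec (fun v => ∑ k, c k * chr (s k) v) = ∑ k, c k * B.spec (chr (s k)) := by
  have hm : Measurable fun v : ℝ => ∑ k, c k * chr (s k) v :=
    (continuous_finsetSum _ fun k _ => continuous_const.mul (s7p_chr_cont (s k))).measurable
  have hb : ∀ v : ℝ, ‖∑ k, c k * chr (s k) v‖ ≤ (∑ k, ‖c k‖) + 0 * v ^ 2 := fun v => by
    rw [zero_mul, add_zero]
    refine (norm_sum_le _ _).trans (Finset.sum_le_sum fun k _ => ?_)
    rw [norm_mul, s7p_chr_norm, mul_one]
  have hk : ∀ k, Integrable (B.specI (chr (s k))) (Q.prod (gam n)) := fun k =>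
    s7p_specI_integrable B (s7p_chr_cont (s k)).measurable (s7p_chr_bound (s k))
  rw [s7p_spec_eq B hm hb]
  simp only [fun k => s7p_spec_eq B (s7p_chr_cont (s k)).measurable (s7p_chr_bound (s k))]
  simp only [← integral_const_mul]
  rw [← integral_finsetSum _ fun k _ => (hk k).const_mul (c k)]
  refine integral_congr_ae (Filter.Eventually.of_forall fun p => ?_)
  simp only [BlockModel.specI, s7p_trace_eq, Finset.sum_mul, Finset.mul_sum]
  rw [Finset.sum_comm]
  refine Finset.sum_congr rfl fun k _ => Finset.sum_congr rfl fun i _ => ?_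
  ring

end Claimed.Agent.R259
end
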