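/- Packed by merge_tool.py (helper293): 6 modules of Claimed.Agent.R259 in one file, same declarations.
   Old modules, in this order: S5CurvProj, S7ScDense, S7LawSpecChar, S7LawSpecTrig, S7LawSpecMain, S7LawSpec -/
import Mathlib
import Claimed.Agent.R259.Pack040
import Claimed.Agent.R259.Pack039
import Claimed.Agent.R259.Pack035

/- ===== packed: Claimed.Agent.R259.S5CurvProj ===== -/
section
/-
Row 259 (S0499), package BP-S5-curv, LEAF L-s5v-proj (MATHLIB ONLY, no paper needed).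
Architect: helper19.  Proof: helper47.

Metric projection onto a closed convex set `K ∋ 0` of a finite dimensional real Hilbert space and
its smooth approximation.

PLAN.  `π x` := the nearest point (`exists_norm_eq_iInf_of_complete_convex`, characterised by
`norm_eq_iInf_iff_real_inner_le_zero`).  Variational inequality `⟪κ - π x, x - π x⟫ ≤ 0` for
`κ ∈ K`.  Adding the inequalities for `(x, κ = π y)` and `(y, κ = π x)` gives
`‖π x - π y‖² ≤ ⟪π x - π y, x - y⟫`, hence `π` is 1-Lipschitz.  `π 0 = 0` because `0 ∈ K`.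
Smooth approximation: `p := ρ ⋆ π` with `ρ = (φ : ContDiffBump (0 : V)).normed volume`,
`φ.rOut ≤ ε` (put `borel V` and the volume of the inner product space on `V`):
* smooth: `HasCompactSupport.contDiff_convolution_left` (`π` continuous, so locally integrable);
* `‖p x - π x‖ ≤ ε`: `ContDiffBump.dist_normed_convolution_le` (`π` is 1-Lipschitz);
* `p x ∈ K`: `p x = ∫ ρ(z) • π (x - z) dz` is an average of points of the closed convex set `K`
  (`Convex.integral_mem` for the probability measure `volume.withDensity ρ`, or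
  `ConvexOn`/`Convex.smul_integral_mem`-type lemmas);
* `p` is 1-Lipschitz (`‖p x - p y‖ ≤ ∫ ρ(z) ‖π (x - z) - π (y - z)‖ dz ≤ ‖x - y‖`), hence
  `‖fderiv ℝ p x‖ ≤ 1` (`norm_fderiv_le_of_lipschitz`).
-/
set_option autoImplicit false

open MeasureTheory
open scoped ContDiff

namespace Claimed.Agent.R259

variable {V : Type} [NormedAddCommGroup V] [InnerProductSpace ℝ V] [FiniteDimensional ℝ V]

/-- mollification of a 1-Lipschitz map with values in a closed convex set -/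
theorem s5v_proj_moll [MeasurableSpace V] [BorelSpace V] {K : Set V} (hc : Convex ℝ K)
    (hcl : IsClosed K) {π : V → V} (hK : ∀ x, π x ∈ K) (hl : LipschitzWith 1 π) {ε : ℝ}
    (hε : 0 < ε) :
    ∃ p : V → V, ContDiff ℝ ∞ p ∧ (∀ x, p x ∈ K) ∧
        (∀ x, ‖fderiv ℝ p x‖ ≤ 1) ∧ ∀ x, ‖p x - π x‖ ≤ ε := by
  classical
  let φ : ContDiffBump (0 : V) := ⟨ε / 2, ε, by positivity, by linarith⟩
  set ρ : V → ℝ := φ.normed volume with hρ
  have hρc : Continuous ρ := φ.continuous_normed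
  have hρs : HasCompactSupport ρ := φ.hasCompactSupport_normed
  have hρ0 : ∀ t, 0 ≤ ρ t := fun t => φ.nonneg_normed t
  have hρ1 : ∫ t, ρ t = 1 := φ.integral_normed
  have hρi : Integrable ρ volume := φ.integrable_normed
  set r : V → NNReal := fun t => Real.toNNReal (ρ t) with hr
  have hrm : Measurable r := hρc.measurable.real_toNNReal
  set ν : Measure V := volume.withDensity (fun t => (r t : ENNReal)) with hν
  have hνp : IsProbabilityMeasure ν := by
    refine ⟨?_⟩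
    rw [hν, withDensity_apply _ MeasurableSet.univ, Measure.restrict_univ]
    have : ENNReal.ofReal (∫ t, ρ t) = ∫⁻ t, ENNReal.ofReal (ρ t) :=
      ofReal_integral_eq_lintegral_ofReal hρi (Filter.Eventually.of_forall hρ0)
    rw [hρ1, ENNReal.ofReal_one] at this
    exact this.symm
  set p : V → V := MeasureTheory.convolution ρ π (ContinuousLinearMap.lsmul ℝ ℝ) volume with hp
  have hpν : ∀ x, p x = ∫ t, π (x - t) ∂ν := by
    intro x
    rw [hν, integral_withDensity_eq_integral_smul hrm, hp, convolution_def]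
    refine integral_congr_ae (Filter.Eventually.of_forall fun t => ?_)
    simp only [ContinuousLinearMap.lsmul_apply, hr, NNReal.smul_def, Real.coe_toNNReal _ (hρ0 t)]
  have hint : ∀ x, Integrable (fun t => π (x - t)) ν := by
    intro x
    rw [hν, integrable_withDensity_iff_integrable_smul hrm]
    have e : (fun t => r t • π (x - t)) = fun t => ρ t • π (x - t) := by
      funext t
      simp only [hr, NNReal.smul_def, Real.coe_toNNReal _ (hρ0 t)]
    rw [e]
    exact (hρc.smul (hl.continuous.comp (continuous_const.sub continuous_id))).integrable_of_hasCompactSupport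
      hρs.smul_right
  have hplip : LipschitzWith 1 p := by
    refine LipschitzWith.of_dist_le_mul fun x y => ?_
    rw [dist_eq_norm, hpν, hpν, ← integral_sub (hint x) (hint y)]
    have := norm_integral_le_of_norm_le_const (μ := ν) (f := fun t => π (x - t) - π (y - t))
      (C := dist x y) (Filter.Eventually.of_forall fun t => by
        have := hl.dist_le_mul (x - t) (y - t)
        simpa [dist_eq_norm] using this)
    simpa using this
  refine ⟨p, ?_, fun x => ?_, fun x => ?_, fun x => ?_⟩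
  · exact hρs.contDiff_convolution_left _ φ.contDiff_normed hl.continuous.locallyIntegrable
  · rw [hpν]
    exact hc.integral_mem hcl (Filter.Eventually.of_forall fun t => hK _) (hint x)
  · simpa using norm_fderiv_le_of_lipschitz ℝ hplip (x₀ := x)
  · rw [← dist_eq_norm]
    refine φ.dist_normed_convolution_le hl.continuous.aestronglyMeasurable fun y hy => ?_
    have := hl.dist_le_mul y x
    rw [Metric.mem_ball] at hy
    have h2 : dist y x < ε := hy
    simp only [NNReal.coe_one, one_mul] at this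
    linarith

/-- metric projection onto a closed convex set containing `0`, with smooth 1-Lipschitz
approximations with values in the set -/
theorem s5v_proj {K : Set V} (hc : Convex ℝ K) (hcl : IsClosed K) (h0 : (0 : V) ∈ K) :
    ∃ π : V → V, (∀ x, π x ∈ K) ∧ (∀ x, ∀ κ ∈ K, inner ℝ (κ - π x) (x - π x) ≤ 0) ∧
      LipschitzWith 1 π ∧ π 0 = 0 ∧
      ∀ ε : ℝ, 0 < ε → ∃ p : V → V, ContDiff ℝ ∞ p ∧ (∀ x, p x ∈ K) ∧
        (∀ x, ‖fderiv ℝ p x‖ ≤ 1) ∧ ∀ x, ‖p x - π x‖ ≤ ε := by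
  classical
  have hne : K.Nonempty := ⟨0, h0⟩
  have hex : ∀ x : V, ∃ v ∈ K, ‖x - v‖ = ⨅ w : K, ‖x - w‖ := fun x =>
    exists_norm_eq_iInf_of_complete_convex hne hcl.isComplete hc x
  choose π hπK hπ using hex
  have hvar : ∀ x, ∀ κ ∈ K, inner ℝ (κ - π x) (x - π x) ≤ 0 := by
    intro x κ hκ
    have := (norm_eq_iInf_iff_real_inner_le_zero hc (hπK x)).1 (hπ x) κ hκ
    rwa [real_inner_comm]
  have hlip : LipschitzWith 1 π := by
    refine LipschitzWith.of_dist_le_mul fun x y => ?_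
    simp only [NNReal.coe_one, one_mul, dist_eq_norm]
    have h1 := hvar x (π y) (hπK y)
    have h2 := hvar y (π x) (hπK x)
    have h3 : ‖π x - π y‖ ^ 2 ≤ inner ℝ (π x - π y) (x - y) := by
      have e : inner ℝ (π x - π y) (x - y) - ‖π x - π y‖ ^ 2 =
          -(inner ℝ (π y - π x) (x - π x) + inner ℝ (π x - π y) (y - π y)) := by
        rw [← real_inner_self_eq_norm_sq]
        simp only [inner_sub_left, inner_sub_right]
        ring
      linarith
    have h4 : inner ℝ (π x - π y) (x - y) ≤ ‖π x - π y‖ * ‖x - y‖ := real_inner_le_norm _ _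
    by_cases hz : ‖π x - π y‖ = 0
    · rw [hz]; exact norm_nonneg _
    · have hpos : 0 < ‖π x - π y‖ := lt_of_le_of_ne (norm_nonneg _) (Ne.symm hz)
      nlinarith
  have hπ0 : π 0 = 0 := by
    have := hvar 0 0 h0
    have e : inner ℝ ((0 : V) - π 0) (0 - π 0) = ‖π 0‖ ^ 2 := by
      rw [real_inner_self_eq_norm_sq, zero_sub, norm_neg]
    rw [e] at this
    have h : ‖π 0‖ = 0 := by nlinarith [norm_nonneg (π 0)]
    exact norm_eq_zero.1 h
  refine ⟨π, hπK, hvar, hlip, hπ0, fun ε hε => ?_⟩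
  let _ : MeasurableSpace V := borel V
  have _ : BorelSpace V := ⟨rfl⟩
  exact s5v_proj_moll hc hcl hπK hlip hε

end Claimed.Agent.R259
end

/- ===== packed: Claimed.Agent.R259.S7ScDense ===== -/
section
/-
Row 259 (S0499), package BP-S7-SCALAR: weighted trigonometric polynomials are dense in `L²(ν)`.
Mathlib only.   PROVED (helper219), statement verbatim; helpers `s7sd_*`, `s7sdPh`, `s7sdW`.
-/
set_option autoImplicit false

open MeasureTheory ProbabilityTheory
open scoped BigOperators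

namespace Claimed.Agent.R259

section gen

variable {E : Type*} [NormedAddCommGroup E] [NormedSpace ℝ E] [MeasurableSpace E] [BorelSpace E]
  [SecondCountableTopology E] [CompleteSpace E]

/-- a real integrable density all of whose Fourier coefficients vanish is zero -/
theorem s7sd_real_zero (ν : Measure E) [IsFiniteMeasure ν] (u : E → ℝ) (hum : Measurable u)
    (hui : Integrable u ν)
    (h : ∀ L : StrongDual ℝ E, ∫ p, (u p : ℂ) * Complex.exp (L p * Complex.I) ∂ν = 0) :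
    u =ᵐ[ν] 0 := by
  have f1 := isFiniteMeasure_withDensity_ofReal hui.2
  have f2 := isFiniteMeasure_withDensity_ofReal hui.neg.2
  have m1 : Measurable fun p => ENNReal.ofReal (u p) := hum.ennreal_ofReal
  have m2 : Measurable fun p => ENNReal.ofReal ((-u) p) := hum.neg.ennreal_ofReal
  have heq : ν.withDensity (fun p => ENNReal.ofReal (u p)) =
      ν.withDensity (fun p => ENNReal.ofReal ((-u) p)) := by
    refine Measure.ext_of_charFunDual (funext fun L => ?_)
    rw [charFunDual_apply, charFunDual_apply,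
      integral_withDensity_eq_integral_toReal_smul m1 (by simp),
      integral_withDensity_eq_integral_toReal_smul m2 (by simp)]
    have hF : AEStronglyMeasurable (fun p : E => Complex.exp (L p * Complex.I)) ν := by
      apply Continuous.aestronglyMeasurable
      fun_prop
    have hFn : ∀ p : E, ‖Complex.exp (L p * Complex.I)‖ = 1 := fun p =>
      Complex.norm_exp_ofReal_mul_I _
    have i1 : Integrable (fun p => (ENNReal.ofReal (u p)).toReal • Complex.exp (L p * Complex.I)) ν := by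
      refine Integrable.mono' hui.norm ?_ (Filter.Eventually.of_forall fun p => ?_)
      · exact (m1.ennreal_toReal.aestronglyMeasurable).smul hF
      · rw [norm_smul, hFn, mul_one, Real.norm_eq_abs, abs_of_nonneg ENNReal.toReal_nonneg,
          ENNReal.toReal_ofReal']
        exact max_le (le_abs_self _) (abs_nonneg _)
    have i2 : Integrable (fun p => (ENNReal.ofReal ((-u) p)).toReal • Complex.exp (L p * Complex.I)) ν := by
      refine Integrable.mono' hui.norm ?_ (Filter.Eventually.of_forall fun p => ?_)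
      · exact (m2.ennreal_toReal.aestronglyMeasurable).smul hF
      · rw [norm_smul, hFn, mul_one, Real.norm_eq_abs, abs_of_nonneg ENNReal.toReal_nonneg,
          ENNReal.toReal_ofReal']
        exact max_le (by simpa using neg_le_abs (u p)) (abs_nonneg _)
    rw [← sub_eq_zero, ← integral_sub i1 i2, ← h L]
    refine integral_congr_ae (Filter.Eventually.of_forall fun p => ?_)
    simp only [ENNReal.toReal_ofReal', Pi.neg_apply, Complex.real_smul]
    rw [← sub_mul, ← Complex.ofReal_sub]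
    congr 2
    rcases le_total 0 (u p) with hp | hp
    · rw [max_eq_left hp, max_eq_right (by linarith)]
      ring
    · rw [max_eq_right hp, max_eq_left (by linarith)]
      ring
  have hfin : ∫⁻ p, ENNReal.ofReal (u p) ∂ν ≠ ⊤ := by
    have := f1.measure_univ_lt_top
    rw [withDensity_apply _ MeasurableSet.univ, Measure.restrict_univ] at this
    exact this.ne
  have hae := (withDensity_eq_iff m1.aemeasurable m2.aemeasurable hfin).1 heq
  filter_upwards [hae] with p hp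
  simp only [Pi.neg_apply] at hp
  simp only [Pi.zero_apply]
  rcases lt_trichotomy (u p) 0 with h0 | h0 | h0
  · rw [ENNReal.ofReal_of_nonpos h0.le] at hp
    have := ENNReal.ofReal_pos.2 (neg_pos.2 h0)
    rw [← hp] at this
    exact absurd this (lt_irrefl _)
  · exact h0
  · rw [ENNReal.ofReal_of_nonpos (by linarith : -u p ≤ 0)] at hp
    have := ENNReal.ofReal_pos.2 h0
    rw [hp] at this
    exact absurd this (lt_irrefl _)

/-- the complex version -/
theorem s7sd_complex_zero (ν : Measure E) [IsFiniteMeasure ν] (k : E → ℂ) (hkm : Measurable k)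
    (hki : Integrable k ν)
    (h : ∀ L : StrongDual ℝ E, ∫ p, k p * Complex.exp (L p * Complex.I) ∂ν = 0) :
    k =ᵐ[ν] 0 := by
  have hF : ∀ L : StrongDual ℝ E,
      AEStronglyMeasurable (fun p : E => Complex.exp (L p * Complex.I)) ν := by
    intro L
    apply Continuous.aestronglyMeasurable
    fun_prop
  have hFn : ∀ (L : StrongDual ℝ E) (p : E), ‖Complex.exp (L p * Complex.I)‖ ≤ 1 := fun L p =>
    (Complex.norm_exp_ofReal_mul_I _).le
  have hconj : ∀ L : StrongDual ℝ E,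
      ∫ p, (starRingEnd ℂ) (k p) * Complex.exp (L p * Complex.I) ∂ν = 0 := by
    intro L
    have h1 := congrArg (starRingEnd ℂ) (h (-L))
    rw [← integral_conj, map_zero] at h1
    rw [← h1]
    refine integral_congr_ae (Filter.Eventually.of_forall fun p => ?_)
    have e0 : ((-L) p : ℝ) = -(L p) := rfl
    beta_reduce
    rw [map_mul, ← Complex.exp_conj, map_mul, Complex.conj_I, Complex.conj_ofReal, e0,
      Complex.ofReal_neg]
    congr 2
    ring
  have i1 : ∀ L : StrongDual ℝ E, Integrable (fun p => k p * Complex.exp (L p * Complex.I)) ν :=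
    fun L => hki.mul_bdd (c := 1) (hF L) (Filter.Eventually.of_forall (hFn L))
  have hkc : Integrable (fun p => (starRingEnd ℂ) (k p)) ν := by
    refine Integrable.mono' hki.norm ?_ (Filter.Eventually.of_forall fun p => ?_)
    · exact (Complex.continuous_conj.measurable.comp hkm).aestronglyMeasurable
    · simp
  have i2 : ∀ L : StrongDual ℝ E,
      Integrable (fun p => (starRingEnd ℂ) (k p) * Complex.exp (L p * Complex.I)) ν :=
    fun L => hkc.mul_bdd (c := 1) (hF L) (Filter.Eventually.of_forall (hFn L))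
  have hre : (fun p => (k p).re) =ᵐ[ν] 0 := by
    refine s7sd_real_zero ν _ (Complex.measurable_re.comp hkm) hki.re fun L => ?_
    have e1 : ∀ p, (((k p).re : ℝ) : ℂ) * Complex.exp (L p * Complex.I) =
        (1 / 2 : ℂ) * (k p * Complex.exp (L p * Complex.I)
          + (starRingEnd ℂ) (k p) * Complex.exp (L p * Complex.I)) := by
      intro p
      rw [Complex.re_eq_add_conj]
      ring
    simp only [e1]
    rw [integral_const_mul, integral_add (i1 L) (i2 L), h L, hconj L]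
    simp
  have him : (fun p => (k p).im) =ᵐ[ν] 0 := by
    refine s7sd_real_zero ν _ (Complex.measurable_im.comp hkm) hki.im fun L => ?_
    have e1 : ∀ p, (((k p).im : ℝ) : ℂ) * Complex.exp (L p * Complex.I) =
        (1 / (2 * Complex.I) : ℂ) * (k p * Complex.exp (L p * Complex.I)
          - (starRingEnd ℂ) (k p) * Complex.exp (L p * Complex.I)) := by
      intro p
      rw [Complex.im_eq_sub_conj]
      ring
    simp only [e1]
    rw [integral_const_mul, integral_sub (i1 L) (i2 L), h L, hconj L]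
    simp
  filter_upwards [hre, him] with p h1 h2
  exact Complex.ext h1 h2

end gen

/-- the square of the `L²` norm as an integral -/
theorem s7sd_norm_sq {α : Type*} [MeasurableSpace α] (ν : Measure α) (G : Lp ℂ 2 ν) :
    ‖G‖ ^ 2 = ∫ p, ‖G p‖ ^ 2 ∂ν := by
  have h1 : inner ℂ G G = ((‖G‖ : ℝ) : ℂ) ^ 2 := inner_self_eq_norm_sq_to_K G
  rw [L2.inner_def] at h1
  have h2 : ∀ p, inner ℂ (G p) (G p) = ((‖G p‖ ^ 2 : ℝ) : ℂ) := by
    intro p
    rw [inner_self_eq_norm_sq_to_K]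
    push_cast
    rfl
  simp only [h2] at h1
  have h4 : ∫ a, ((‖G a‖ ^ 2 : ℝ) : ℂ) ∂ν = ((∫ a, ‖G a‖ ^ 2 ∂ν : ℝ) : ℂ) :=
    integral_ofReal (𝕜 := ℂ)
  have h3 : ((∫ p, ‖G p‖ ^ 2 ∂ν : ℝ) : ℂ) = ((‖G‖ ^ 2 : ℝ) : ℂ) := by
    rw [← h4, h1]
    push_cast
    rfl
  exact (Complex.ofReal_injective h3).symm

/-- the phase -/
def s7sdPh (ξ p : ℝ × ℝ × ℝ × ℝ) : ℝ :=
  ξ.1 * p.1 + ξ.2.1 * p.2.1 + ξ.2.2.1 * p.2.2.1 + ξ.2.2.2 * p.2.2.2

theorem s7sdPh_continuous (ξ : ℝ × ℝ × ℝ × ℝ) : Continuous (s7sdPh ξ) := by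
  unfold s7sdPh
  fun_prop

/-- every continuous linear functional is a phase -/
theorem s7sd_dual (L : StrongDual ℝ (ℝ × ℝ × ℝ × ℝ)) (p : ℝ × ℝ × ℝ × ℝ) :
    L p = s7sdPh (L (1, 0, 0, 0), L (0, 1, 0, 0), L (0, 0, 1, 0), L (0, 0, 0, 1)) p := by
  have hp : p = p.1 • ((1, 0, 0, 0) : ℝ × ℝ × ℝ × ℝ) + p.2.1 • ((0, 1, 0, 0) : ℝ × ℝ × ℝ × ℝ)
      + p.2.2.1 • ((0, 0, 1, 0) : ℝ × ℝ × ℝ × ℝ) + p.2.2.2 • ((0, 0, 0, 1) : ℝ × ℝ × ℝ × ℝ) := by
    obtain ⟨a, b, c, d⟩ := p
    simp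
  conv_lhs => rw [hp]
  simp only [map_add, map_smul, smul_eq_mul]
  unfold s7sdPh
  ring

/-- the weighted characters -/
noncomputable def s7sdW (χ : ℝ → ℝ) (ξ p : ℝ × ℝ × ℝ × ℝ) : ℂ :=
  (χ p.2.1 : ℂ) * Complex.exp (Complex.I * (s7sdPh ξ p : ℂ))

theorem s7sdW_memLp (ν : Measure (ℝ × ℝ × ℝ × ℝ)) [IsFiniteMeasure ν] (χ : ℝ → ℝ)
    (hχc : Continuous χ) (hχb : ∀ x, |χ x| ≤ 1) (ξ : ℝ × ℝ × ℝ × ℝ) : MemLp (s7sdW χ ξ) 2 ν := by
  refine MemLp.of_bound ?_ 1 (Filter.Eventually.of_forall fun p => ?_)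
  · apply Continuous.aestronglyMeasurable
    unfold s7sdW
    have := s7sdPh_continuous ξ
    fun_prop
  · unfold s7sdW
    rw [norm_mul, mul_comm Complex.I, Complex.norm_exp_ofReal_mul_I, mul_one, Complex.norm_real]
    exact hχb _

/-- the orthogonal complement of the weighted characters is trivial -/
theorem s7sd_orth (ν : Measure (ℝ × ℝ × ℝ × ℝ)) [IsFiniteMeasure ν] (χ : ℝ → ℝ)
    (hχc : Continuous χ) (hχb : ∀ x, |χ x| ≤ 1) (hχ0 : ∀ᵐ p ∂ν, χ p.2.1 ≠ 0) (h : Lp ℂ 2 ν)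
    (hh : ∀ ξ, inner ℂ ((s7sdW_memLp ν χ hχc hχb ξ).toLp (s7sdW χ ξ)) h = 0) : h = 0 := by
  have hhm : Measurable (h : ℝ × ℝ × ℝ × ℝ → ℂ) := (Lp.stronglyMeasurable h).measurable
  have hhi : Integrable (h : ℝ × ℝ × ℝ × ℝ → ℂ) ν := (Lp.memLp h).integrable (by norm_num)
  have hχm : Measurable fun p : ℝ × ℝ × ℝ × ℝ => (χ p.2.1 : ℂ) := by
    apply Continuous.measurable
    fun_prop
  have hk : (fun p : ℝ × ℝ × ℝ × ℝ => (χ p.2.1 : ℂ) * h p) =ᵐ[ν] 0 := by
    refine s7sd_complex_zero ν _ (hχm.mul hhm) ?_ fun L => ?_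
    · refine hhi.bdd_mul (c := 1) hχm.aestronglyMeasurable (Filter.Eventually.of_forall fun p => ?_)
      rw [Complex.norm_real]
      exact hχb _
    · have h1 := hh (-(L (1, 0, 0, 0), L (0, 1, 0, 0), L (0, 0, 1, 0), L (0, 0, 0, 1)))
      rw [L2.inner_def] at h1
      rw [← h1]
      refine integral_congr_ae ?_
      filter_upwards [(s7sdW_memLp ν χ hχc hχb
        (-(L (1, 0, 0, 0), L (0, 1, 0, 0), L (0, 0, 1, 0), L (0, 0, 0, 1)))).coeFn_toLp] with p hp
      rw [hp, RCLike.inner_apply]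
      unfold s7sdW
      rw [map_mul, ← Complex.exp_conj, map_mul, Complex.conj_I, Complex.conj_ofReal,
        Complex.conj_ofReal, s7sd_dual L p]
      have e1 : s7sdPh (-(L (1, 0, 0, 0), L (0, 1, 0, 0), L (0, 0, 1, 0), L (0, 0, 0, 1))) p =
          -s7sdPh (L (1, 0, 0, 0), L (0, 1, 0, 0), L (0, 0, 1, 0), L (0, 0, 0, 1)) p := by
        unfold s7sdPh
        simp only [Prod.fst_neg, Prod.snd_neg]
        ring
      rw [e1, Complex.ofReal_neg]
      have e2 : -Complex.I * -((s7sdPh (L (1, 0, 0, 0), L (0, 1, 0, 0), L (0, 0, 1, 0),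
          L (0, 0, 0, 1)) p : ℝ) : ℂ) = ((s7sdPh (L (1, 0, 0, 0), L (0, 1, 0, 0), L (0, 0, 1, 0),
          L (0, 0, 0, 1)) p : ℝ) : ℂ) * Complex.I := by ring
      rw [e2]
      ring
  rw [Lp.eq_zero_iff_ae_eq_zero]
  filter_upwards [hk, hχ0] with p h1 h2
  simp only [Pi.zero_apply, mul_eq_zero, Complex.ofReal_eq_zero] at h1
  simpa using h1.resolve_left h2

/-- L-s7s-dense.
PLAN.  In `H = Lp ℂ 2 ν` let `S` be the span of the classes of `χ e^{i⟨ξ,·⟩}`.  If `h ⟂ S` then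
`k = χ h ∈ L¹` has `∫ e^{i⟨ξ,p⟩} k dν = 0` for all `ξ`; the same for `conj k`, hence for `Re k`, `Im k`;
for real `k` the finite measures `ν.withDensity k⁺`, `ν.withDensity k⁻` have the same `charFunDual`,
so they agree (`Measure.ext_of_charFunDual`), so `k = 0` a.e., so `h = 0` a.e. (`χ ≠ 0` a.e.).
`Submodule.topologicalClosure_eq_top_iff`, then unfold the `L²` norm. -/
theorem s7s_dense (ν : Measure (ℝ × ℝ × ℝ × ℝ)) [IsFiniteMeasure ν] (χ : ℝ → ℝ)
    (hχc : Continuous χ) (hχb : ∀ x, |χ x| ≤ 1) (hχ0 : ∀ᵐ p ∂ν, χ p.2.1 ≠ 0)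
    (f : ℝ × ℝ × ℝ × ℝ → ℝ) (hfm : Measurable f) (B : ℝ) (hfb : ∀ p, |f p| ≤ B)
    (ε : ℝ) (hε : 0 < ε) :
    ∃ (K : ℕ) (lam : Fin K → ℂ) (ξ : Fin K → ℝ × ℝ × ℝ × ℝ),
      ∫ p : ℝ × ℝ × ℝ × ℝ, ‖(χ p.2.1 : ℂ) * ∑ k, lam k * Complex.exp (Complex.I *
          (((ξ k).1 * p.1 + (ξ k).2.1 * p.2.1 + (ξ k).2.2.1 * p.2.2.1
            + (ξ k).2.2.2 * p.2.2.2 : ℝ) : ℂ)) - (f p : ℂ)‖ ^ 2 ∂ν < ε := by
  set v : ℝ × ℝ × ℝ × ℝ → Lp ℂ 2 ν := fun ξ => (s7sdW_memLp ν χ hχc hχb ξ).toLp (s7sdW χ ξ) with hv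
  set S : Submodule ℂ (Lp ℂ 2 ν) := Submodule.span ℂ (Set.range v) with hS
  have horth : Sᗮ = ⊥ := by
    rw [Submodule.eq_bot_iff]
    intro h hh
    refine s7sd_orth ν χ hχc hχb hχ0 h fun ξ => ?_
    exact (Submodule.mem_orthogonal S h).1 hh (v ξ) (Submodule.subset_span ⟨ξ, rfl⟩)
  have hdense : S.topologicalClosure = ⊤ := Submodule.topologicalClosure_eq_top_iff.2 horth
  have hf : MemLp (fun p => (f p : ℂ)) 2 ν := by
    refine MemLp.of_bound ?_ B (Filter.Eventually.of_forall fun p => ?_)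
    · exact (Complex.measurable_ofReal.comp hfm).aestronglyMeasurable
    · rw [Complex.norm_real]
      exact hfb p
  set F : Lp ℂ 2 ν := hf.toLp _ with hF
  have hFmem : F ∈ closure (S : Set (Lp ℂ 2 ν)) := by
    rw [← Submodule.topologicalClosure_coe, hdense]
    trivial
  obtain ⟨g, hgS, hg⟩ := Metric.mem_closure_iff.1 hFmem (Real.sqrt ε) (Real.sqrt_pos.2 hε)
  obtain ⟨c, hc⟩ := Finsupp.mem_span_range_iff_exists_finsupp.1 hgS
  set e := c.support.equivFin with he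
  refine ⟨c.support.card, fun k => c (e.symm k), fun k => (e.symm k : ℝ × ℝ × ℝ × ℝ), ?_⟩
  have hgsum : g = ∑ k : Fin c.support.card, c (e.symm k) • v (e.symm k) := by
    rw [← hc, Finsupp.sum, ← Finset.sum_coe_sort c.support]
    exact (Equiv.sum_comp e.symm (fun x : c.support => c x • v x)).symm
  have hnorm : ‖g - F‖ ^ 2 < ε := by
    rw [dist_comm, dist_eq_norm] at hg
    calc ‖g - F‖ ^ 2 < Real.sqrt ε ^ 2 := pow_lt_pow_left₀ hg (norm_nonneg _) two_ne_zero
      _ = ε := Real.sq_sqrt hε.le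
  rw [s7sd_norm_sq] at hnorm
  refine lt_of_eq_of_lt (integral_congr_ae ?_) hnorm
  have h1 : ∀ᵐ p ∂ν, ∀ k : Fin c.support.card,
      (c (e.symm k) • v (e.symm k) : Lp ℂ 2 ν) p = c (e.symm k) * s7sdW χ (e.symm k) p := by
    rw [ae_all_iff]
    intro k
    filter_upwards [Lp.coeFn_smul (c (e.symm k)) (v (e.symm k)),
      (s7sdW_memLp ν χ hχc hχb (e.symm k)).coeFn_toLp] with p h2 h3
    rw [h2, Pi.smul_apply, smul_eq_mul]
    congr 1
  filter_upwards [Lp.coeFn_sub g F, hf.coeFn_toLp, h1,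
    Lp.coeFn_fun_finsetSum Finset.univ (fun k : Fin c.support.card => c (e.symm k) • v (e.symm k))]
    with p h2 h3 h4 h5
  rw [h2, Pi.sub_apply, h3, hgsum, h5]
  congr 3
  rw [Finset.mul_sum]
  refine Finset.sum_congr rfl fun k _ => ?_
  rw [h4 k]
  unfold s7sdW s7sdPh
  ring

end Claimed.Agent.R259
end

/- ===== packed: Claimed.Agent.R259.S7LawSpecChar ===== -/
section
/-
Row 259 (S0499), section 7, spectral law, package L-S7-LAW-SPEC.  Architect: helper57.  Prefix `s7p`.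

LEAF L-s7p-char: characters.  `|τ(e^{isA}) - e^{-s²/2}| ≤ 6 (1+|s|)⁴ √δ` for `B.Small δ`, `0 < δ ≤ 1`.

PROOF.  Fix `d`, `W = B.Rs d`, `H = B.H d`.
(1) `∫_N tr(W² e^{isH[N]}) dγ = tr(toC (W W) * gF H s)` (finite sums and integrals; the entries of `cE s (colAt H N)` are bounded by `1`
    (`cE_apply_norm_le`) and measurable in `N` (continuous: `R260.mxFun_continuous`, or `RM.of_mxFun` + `mxFunC_re_im`)).
(2) with `X = gF H s - e^{-s²/2} • 1`: `tr(W W X) = tr((X W) W)`, `|tr((XW) W)| ≤ √cSq(XW) √mxSq W` (`cSq_trace_mul_le`, `cSq_toC`);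
    `s7_ge` with `K = H`, `M = 1`, `c_K = 4`, `s7p_mxFunC_one`:  `√cSq(XW) ≤ (1+|s|)⁴ (√u + 2 √v)`, `u = mxSq((S-1)W)`, `v = ccW H W`.
(3) Young with `θ = √δ`: `√w (√u + 2√v) ≤ θ w + u/(2θ) + 2v/θ`.
(4) integrate over `d`: `∫ w = τ(1) ≤ 1 + δ`, `∫ u = sdef ≤ δ`, `∫ v = cdef ≤ δ` (`s7p_tau_one`, `s7p_tau_S`, `s7p_tau_C`):
    `|B.spec (chr s) - e^{-s²/2} τ(1)| ≤ (1+|s|)⁴ (√δ (1+δ) + √δ/2 + 2√δ) ≤ 5 (1+|s|)⁴ √δ`;  `|τ(1) - 1| ≤ δ ≤ √δ`.
-/
set_option autoImplicit false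

open MeasureTheory ProbabilityTheory
open scoped BigOperators Matrix
open Claimed.Agent.R260 (Mx mxFun mxSchur mxSq mxIP mxEig mxU mxRot)

namespace Claimed.Agent.R259

variable {n : ℕ} {D : Type} [MeasurableSpace D] {Q : Measure D}

/-- Young's inequality of step (3) -/
theorem s7p_young {w u v θ : ℝ} (hw : 0 ≤ w) (hu : 0 ≤ u) (hv : 0 ≤ v) (hθ : 0 < θ) :
    (Real.sqrt u + 2 * Real.sqrt v) * Real.sqrt w ≤ θ * w + u / (2 * θ) + 2 * v / θ := by
  set a := Real.sqrt w with ha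
  set b := Real.sqrt u with hb
  set c := Real.sqrt v with hc
  have ea : w = a ^ 2 := (Real.sq_sqrt hw).symm
  have eb : u = b ^ 2 := (Real.sq_sqrt hu).symm
  have ec : v = c ^ 2 := (Real.sq_sqrt hv).symm
  rw [ea, eb, ec]
  have h1 : θ * a ^ 2 + b ^ 2 / (2 * θ) + 2 * c ^ 2 / θ - (b + 2 * c) * a
      = ((θ * a - b) ^ 2 + (θ * a - 2 * c) ^ 2) / (2 * θ) := by
    field_simp
    ring
  have h2 : 0 ≤ ((θ * a - b) ^ 2 + (θ * a - 2 * c) ^ 2) / (2 * θ) := by positivity
  linarith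

theorem s7p_ccW_nonneg (K : Fin n → Mx n) (W : Mx n) : 0 ≤ ccW K W :=
  Finset.sum_nonneg fun _ _ => Finset.sum_nonneg fun _ _ => Claimed.Agent.R260.mxSq_nonneg _

/-- steps (1)-(3) at a fixed datum -/
theorem s7p_char_pt (B : BlockModel n Q) (d : D) (s : ℝ) {θ : ℝ} (hθ : 0 < θ) :
    ‖∫ N, Matrix.trace (toC (B.Rs d * B.Rs d) * mxFunC (chr s) (colAt (B.H d) N)) ∂(gam n)
        - ((Real.exp (-(s ^ 2 / 2)) * mxSq (B.Rs d) : ℝ) : ℂ)‖
      ≤ (1 + |s|) ^ 4 * (θ * mxSq (B.Rs d) + mxSq ((colS (B.H d) - 1) * B.Rs d) / (2 * θ)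
          + 2 * ccW (B.H d) (B.Rs d) / θ) := by
  set W := B.Rs d with hW
  set H := B.H d with hH
  have hHs : ∀ j, (H j).IsSymm := B.H_symm d
  have hWs : W.IsSymm := s7p_Rs_isSymm B d
  have hI := s7g_I_cE hHs s
  -- step (1)
  have h1 : ∫ N, Matrix.trace (toC (W * W) * mxFunC (chr s) (colAt H N)) ∂(gam n)
      = Matrix.trace (toC (W * W) * gF H s) := by
    unfold gF
    rw [← s7g_cInt_mul_left _ hI, s7g_trace_cInt (hI.mul_left _)]
    rfl
  -- step (2)
  set X : CMx n := gF H s - mxFunC (fun v => ((Real.exp (-(s ^ 2 * v / 2)) : ℝ) : ℂ)) (1 : Mx n) with hX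
  have hX' : X = gF H s - ((Real.exp (-(s ^ 2 / 2)) : ℝ) : ℂ) • (1 : CMx n) := by
    rw [hX, s7g_mxFunC_one, mul_one]
  have hw : Matrix.trace (toC (W * W)) = ((mxSq W : ℝ) : ℂ) := by
    rw [toC_trace]
    unfold Claimed.Agent.R260.mxSq
    rw [hWs.eq]
  have h2 : Matrix.trace (toC (W * W) * gF H s) - ((Real.exp (-(s ^ 2 / 2)) * mxSq W : ℝ) : ℂ)
      = Matrix.trace ((X * toC W) * toC W) := by
    rw [Matrix.mul_assoc, ← toC_mul, Matrix.trace_mul_comm, hX', Matrix.sub_mul, Matrix.trace_sub,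
      Matrix.smul_mul, Matrix.one_mul, Matrix.trace_smul, hw]
    push_cast
    rw [smul_eq_mul]
  have hge := s7_ge hHs (B.comm d) (by norm_num : (0 : ℝ) ≤ 4) (B.col d) Matrix.PosSemidef.one s
  have h4 : Real.sqrt 4 = 2 := by
    rw [show (4 : ℝ) = 2 ^ 2 by norm_num]
    exact Real.sqrt_sq (by norm_num)
  rw [h4] at hge
  have hs0 : 0 ≤ (1 + |s|) ^ 4 := by positivity
  rw [h1, h2]
  calc ‖Matrix.trace ((X * toC W) * toC W)‖
      ≤ Real.sqrt (cSq (X * toC W)) * Real.sqrt (cSq (toC W)) := cSq_trace_mul_le _ _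
    _ ≤ ((1 + |s|) ^ 4 * (Real.sqrt (mxSq ((colS H - 1) * W)) + 2 * Real.sqrt (ccW H W)))
          * Real.sqrt (mxSq W) := by
        rw [cSq_toC]
        exact mul_le_mul_of_nonneg_right hge (Real.sqrt_nonneg _)
    _ = (1 + |s|) ^ 4 * ((Real.sqrt (mxSq ((colS H - 1) * W)) + 2 * Real.sqrt (ccW H W))
          * Real.sqrt (mxSq W)) := by ring
    _ ≤ (1 + |s|) ^ 4 * (θ * mxSq W + mxSq ((colS H - 1) * W) / (2 * θ) + 2 * ccW H W / θ) :=
        mul_le_mul_of_nonneg_left (s7p_young (Claimed.Agent.R260.mxSq_nonneg _)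
          (Claimed.Agent.R260.mxSq_nonneg _) (s7p_ccW_nonneg _ _) hθ) hs0

/-- the scalar arithmetic of step (4) -/
theorem s7p_char_arith {δ m u v c K : ℝ} (hδ : 0 < δ) (hδ1 : δ ≤ 1) (hm : |m - 1| ≤ δ) (hu : u ≤ δ)
    (hv : v ≤ δ) (hc1 : c ≤ 1) (hK : 1 ≤ K) :
    K * (Real.sqrt δ * m + u / (2 * Real.sqrt δ) + 2 * v / Real.sqrt δ) + c * |m - 1|
      ≤ 6 * K * Real.sqrt δ := by
  set θ := Real.sqrt δ with hθ
  have hθ0 : 0 < θ := Real.sqrt_pos.2 hδ
  have e : δ = θ ^ 2 := (Real.sq_sqrt hδ.le).symm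
  have hθ1 : θ ≤ 1 := by
    rw [hθ]
    exact Real.sqrt_le_one.2 hδ1 |>.trans le_rfl
  have hδθ : δ ≤ θ := by
    rw [e]
    nlinarith
  have hm1 : m ≤ 2 := by
    have := (abs_le.1 hm).2
    linarith
  have h1 : θ * m ≤ 2 * θ := by nlinarith
  have h2 : u / (2 * θ) ≤ θ / 2 := by
    rw [div_le_iff₀ (by positivity)]
    nlinarith
  have h3 : 2 * v / θ ≤ 2 * θ := by
    rw [div_le_iff₀ hθ0]
    nlinarith
  have h4 : c * |m - 1| ≤ θ := by
    calc c * |m - 1| ≤ 1 * δ := mul_le_mul hc1 hm (abs_nonneg _) (by norm_num)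
      _ ≤ θ := by linarith
  have h5 : K * (θ * m + u / (2 * θ) + 2 * v / θ) ≤ K * (5 * θ) :=
    mul_le_mul_of_nonneg_left (by linarith) (by linarith)
  have h6 : θ ≤ K * θ := by nlinarith
  linarith

theorem s7p_char [IsProbabilityMeasure Q] (B : BlockModel n Q) {δ : ℝ} (hδ : 0 < δ) (hδ1 : δ ≤ 1)
    (hB : B.Small δ) (s : ℝ) :
    ‖B.spec (chr s) - ((Real.exp (-(s ^ 2 / 2)) : ℝ) : ℂ)‖ ≤ 6 * (1 + |s|) ^ 4 * Real.sqrt δ := by
  set θ := Real.sqrt δ with hθ
  have hθ0 : 0 < θ := Real.sqrt_pos.2 hδ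
  set c : ℝ := Real.exp (-(s ^ 2 / 2)) with hc
  set K : ℝ := (1 + |s|) ^ 4 with hK
  have hK1 : 1 ≤ K := one_le_pow₀ (by linarith [abs_nonneg s])
  have hc0 : 0 ≤ c := (Real.exp_pos _).le
  have hc1 : c ≤ 1 := Real.exp_le_one_iff.2 (by
    have := sq_nonneg s
    linarith)
  -- the three integrals
  set m : ℝ := ∫ d, mxSq (B.Rs d) ∂Q with hm
  set u : ℝ := ∫ d, mxSq ((colS (B.H d) - 1) * B.Rs d) ∂Q with hu
  set v : ℝ := ∫ d, ccW (B.H d) (B.Rs d) ∂Q with hv
  have hmI : Integrable (fun d => mxSq (B.Rs d)) Q := B.Rs_int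
  have huI := (s7p_tau_S B).1
  have hvI := (s7p_tau_C B).1
  have hm' : |m - 1| ≤ δ := by
    rw [hm, ← s7p_tau_one B]
    exact hB.mass
  have hu' : u ≤ δ := by
    rw [hu, ← (s7p_tau_S B).2]
    exact hB.sdef
  have hv' : v ≤ δ := by
    rw [hv, ← (s7p_tau_C B).2]
    exact hB.cdef
  -- the inner integral
  set Φ : D → ℂ := fun d =>
    ∫ N, Matrix.trace (toC (B.Rs d * B.Rs d) * mxFunC (chr s) (colAt (B.H d) N)) ∂(gam n) with hΦ
  have hbd : ∀ w : ℝ, ‖chr s w‖ ≤ 1 + 0 * w ^ 2 := by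
    intro w
    rw [s7p_chr_norm]
    linarith
  have hΦI : Integrable Φ Q :=
    (s7p_specI_integrable B (s7p_chr_cont s).measurable hbd).integral_prod_left
  have hcwI : Integrable (fun d => ((c * mxSq (B.Rs d) : ℝ) : ℂ)) Q := (hmI.const_mul c).ofReal
  have hspec : B.spec (chr s) = ∫ d, Φ d ∂Q := rfl
  have e1 : B.spec (chr s) - ((c : ℝ) : ℂ)
      = (∫ d, (Φ d - ((c * mxSq (B.Rs d) : ℝ) : ℂ)) ∂Q) + ((c * (m - 1) : ℝ) : ℂ) := by
    have e0 : ∫ d, ((c * mxSq (B.Rs d) : ℝ) : ℂ) ∂Q = ((c * m : ℝ) : ℂ) := by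
      rw [integral_complex_ofReal, integral_const_mul]
    rw [integral_sub hΦI hcwI, e0, hspec]
    push_cast
    ring
  have hA1 : Integrable (fun d => θ * mxSq (B.Rs d)) Q := hmI.const_mul θ
  have hA2 : Integrable (fun d => mxSq ((colS (B.H d) - 1) * B.Rs d) / (2 * θ)) Q :=
    huI.div_const (2 * θ)
  have hA3 : Integrable (fun d => 2 * ccW (B.H d) (B.Rs d) / θ) Q := (hvI.const_mul 2).div_const θ
  have hA12 : Integrable (fun d => θ * mxSq (B.Rs d)
      + mxSq ((colS (B.H d) - 1) * B.Rs d) / (2 * θ)) Q := hA1.add hA2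
  have hA123 : Integrable (fun d => θ * mxSq (B.Rs d)
      + mxSq ((colS (B.H d) - 1) * B.Rs d) / (2 * θ) + 2 * ccW (B.H d) (B.Rs d) / θ) Q := hA12.add hA3
  have hRI : Integrable (fun d => K * (θ * mxSq (B.Rs d)
      + mxSq ((colS (B.H d) - 1) * B.Rs d) / (2 * θ) + 2 * ccW (B.H d) (B.Rs d) / θ)) Q :=
    hA123.const_mul K
  have e2 : ∫ d, K * (θ * mxSq (B.Rs d)
      + mxSq ((colS (B.H d) - 1) * B.Rs d) / (2 * θ) + 2 * ccW (B.H d) (B.Rs d) / θ) ∂Q
      = K * (θ * m + u / (2 * θ) + 2 * v / θ) := by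
    rw [integral_const_mul, integral_add hA12 hA3, integral_add hA1 hA2,
      integral_const_mul, integral_div, integral_div, integral_const_mul]
  have h1 : ‖∫ d, (Φ d - ((c * mxSq (B.Rs d) : ℝ) : ℂ)) ∂Q‖
      ≤ K * (θ * m + u / (2 * θ) + 2 * v / θ) := by
    rw [← e2]
    exact norm_integral_le_of_norm_le hRI (Filter.Eventually.of_forall fun d => s7p_char_pt B d s hθ0)
  rw [e1]
  calc ‖(∫ d, (Φ d - ((c * mxSq (B.Rs d) : ℝ) : ℂ)) ∂Q) + ((c * (m - 1) : ℝ) : ℂ)‖
      ≤ ‖∫ d, (Φ d - ((c * mxSq (B.Rs d) : ℝ) : ℂ)) ∂Q‖ + ‖((c * (m - 1) : ℝ) : ℂ)‖ := norm_add_le _ _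
    _ ≤ K * (θ * m + u / (2 * θ) + 2 * v / θ) + c * |m - 1| := by
        refine add_le_add h1 (le_of_eq ?_)
        rw [Complex.norm_real, Real.norm_eq_abs, abs_mul, abs_of_nonneg hc0]
    _ ≤ 6 * K * θ := s7p_char_arith hδ hδ1 hm' hu' hv' hc1 hK1

end Claimed.Agent.R259
end

/- ===== packed: Claimed.Agent.R259.S7LawSpecTrig ===== -/
section
/-
Row 259 (S0499), section 7, spectral law, package L-S7-LAW-SPEC.  Architect: helper57.  Prefix `s7p`.
SCALAR LEAF L-s7p-trig (Mathlib only): trigonometric polynomials approximate bounded continuous functions in the weighted norm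
`sup |.| / (1 + v²)`.
-/
set_option autoImplicit false

open MeasureTheory ProbabilityTheory
open scoped BigOperators

namespace Claimed.Agent.R259

/-! ### leaf L-s7p-trig -/

/-- RECIPE (helper79).  `C ≥ 0`.  Take `ε' = ε/2`, `R ≥ 1` with `(2C + ε')/R² ≤ ε`.  `F = f · χ_R`,
`χ_R(v) = max 0 (min 1 (2 - |v|/R))`, vanishes at `±2R`; `AddCircle.liftIco (4R) (-2R) F` is continuous
(`AddCircle.liftIco_continuous`); `span_fourier_closure_eq_top` (on `AddCircle (4R)`, `Fact (0 < 4R)`) gives a finite linear combination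
`p` of `fourier k` with `sup |p - lift F| ≤ ε'` (`mem_closure_iff` in `C(AddCircle T, ℂ)`, `ContinuousMap.dist_lt_iff` / `norm_coe_le_norm`;
elements of `Submodule.span ℂ (Set.range fourier)`: `Finsupp.mem_span_range_iff_exists_finsupp` or `Submodule.span_induction`);
`fourier k (v : AddCircle T) = exp(2π i k v / T)` (`fourier_coe_apply`), i.e. `chr (2π k/T) v`.
On `[-R,R]`: `|f - p| = |F - p| ≤ ε'` (`AddCircle.liftIco_coe_apply`); for all `v`: `|p(v)| ≤ C + ε'` (periodicity is built into the quotient),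
so for `|v| > R`: `|f - p| ≤ 2C + ε' ≤ (2C + ε') v²/R² ≤ ε v²`. -/
theorem s7p_trig {f : ℝ → ℂ} (hf : Continuous f) {C : ℝ} (hC : ∀ v, ‖f v‖ ≤ C) {ε : ℝ}
    (hε : 0 < ε) :
    ∃ (K : ℕ) (c : Fin K → ℂ) (s : Fin K → ℝ),
      ∀ v : ℝ, ‖f v - ∑ k, c k * chr (s k) v‖ ≤ ε * (1 + v ^ 2) := by
  classical
  have hC0 : 0 ≤ C := (norm_nonneg _).trans (hC 0)
  set R : ℝ := 1 + (2 * C + ε) / ε with hR
  have hq : 0 ≤ (2 * C + ε) / ε := by positivity
  have hR1 : 1 ≤ R := by rw [hR]; linarith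
  have hR0 : 0 < R := by linarith
  have hRR : 2 * C + ε ≤ ε * R ^ 2 := by
    have h1 : (2 * C + ε) / ε ≤ R := by rw [hR]; linarith
    have h2 : R ≤ R ^ 2 := by nlinarith
    have h3 : 2 * C + ε = ε * ((2 * C + ε) / ε) := by field_simp
    rw [h3]
    exact mul_le_mul_of_nonneg_left (h1.trans h2) hε.le
  set T : ℝ := 4 * R with hT
  have : Fact (0 < T) := ⟨by rw [hT]; linarith⟩
  set χ : ℝ → ℝ := fun v => max 0 (min 1 (2 - |v| / R)) with hχ
  have hχc : Continuous χ := by rw [hχ]; fun_prop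
  have hχ0 : ∀ v, 0 ≤ χ v := fun v => le_max_left _ _
  have hχ1 : ∀ v, χ v ≤ 1 := fun v => max_le zero_le_one (min_le_left _ _)
  set F : ℝ → ℂ := fun v => f v * (χ v : ℂ) with hF
  have hFc : Continuous F := by
    rw [hF]; exact hf.mul (Complex.continuous_ofReal.comp hχc)
  have hFC : ∀ v, ‖F v‖ ≤ C := by
    intro v
    rw [hF]
    simp only [norm_mul, Complex.norm_real, Real.norm_eq_abs, abs_of_nonneg (hχ0 v)]
    calc ‖f v‖ * χ v ≤ C * 1 := mul_le_mul (hC v) (hχ1 v) (hχ0 v) hC0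
      _ = C := mul_one _
  have hχend : ∀ v, |v| = 2 * R → χ v = 0 := by
    intro v hv
    rw [hχ]
    simp only [hv]
    rw [mul_div_cancel_right₀ _ hR0.ne']
    simp
  have hends : F (-(2 * R)) = F (-(2 * R) + T) := by
    have e1 : χ (-(2 * R)) = 0 := hχend _ (by rw [abs_neg, abs_of_pos (by linarith)])
    have e2 : χ (-(2 * R) + T) = 0 := hχend _ (by rw [hT, abs_of_pos (by linarith)]; ring)
    rw [hF]
    simp only [e1, e2, Complex.ofReal_zero, mul_zero]
  let g : C(AddCircle T, ℂ) :=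
    ⟨AddCircle.liftIco T (-(2 * R)) F, AddCircle.liftIco_continuous hends hFc.continuousOn⟩
  have hgC : ∀ x, ‖g x‖ ≤ C := by
    intro x
    exact hFC _
  have hmem : g ∈ (Submodule.span ℂ (Set.range (@fourier T))).topologicalClosure := by
    rw [span_fourier_closure_eq_top]; trivial
  obtain ⟨p, hp, hdist⟩ := Metric.mem_closure_iff.1 hmem (ε / 2) (by linarith)
  obtain ⟨a, ha⟩ := Finsupp.mem_span_range_iff_exists_finsupp.1 hp
  have hgp : ∀ x, ‖g x - p x‖ ≤ ε / 2 := by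
    intro x
    have := (g - p).norm_coe_le_norm x
    rw [dist_eq_norm] at hdist
    exact this.trans hdist.le
  have hpv : ∀ v : ℝ, p (v : AddCircle T) = ∑ n ∈ a.support, a n * chr (2 * Real.pi * n / T) v := by
    intro v
    rw [← ha, Finsupp.sum, ContinuousMap.coe_sum, Finset.sum_apply]
    refine Finset.sum_congr rfl fun n _ => ?_
    rw [ContinuousMap.smul_apply, smul_eq_mul, fourier_coe_apply, chr]
    congr 2
    push_cast
    ring
  refine ⟨a.support.card, fun k => a (a.support.equivFin.symm k),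
    fun k => 2 * Real.pi * (a.support.equivFin.symm k : ℤ) / T, fun v => ?_⟩
  have hsum : ∑ k : Fin a.support.card, a (a.support.equivFin.symm k) *
      chr (2 * Real.pi * (a.support.equivFin.symm k : ℤ) / T) v = p (v : AddCircle T) := by
    rw [hpv, ← Finset.sum_coe_sort a.support (fun n => a n * chr (2 * Real.pi * n / T) v)]
    exact Equiv.sum_comp a.support.equivFin.symm
      (fun n : a.support => a n * chr (2 * Real.pi * (n : ℤ) / T) v)
  rw [hsum]
  by_cases hv : |v| ≤ R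
  · have hIco : v ∈ Set.Ico (-(2 * R)) (-(2 * R) + T) := by
      rw [abs_le] at hv
      constructor
      · linarith [hv.1]
      · rw [hT]; linarith [hv.2]
    have hg : g (v : AddCircle T) = f v := by
      change AddCircle.liftIco T (-(2 * R)) F (v : AddCircle T) = f v
      rw [AddCircle.liftIco_coe_apply hIco, hF]
      have : χ v = 1 := by
        rw [hχ]
        simp only
        have : |v| / R ≤ 1 := (div_le_one hR0).2 hv
        rw [min_eq_left (by linarith), max_eq_right zero_le_one]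
      simp [this]
    rw [← hg]
    calc ‖g (v : AddCircle T) - p (v : AddCircle T)‖ ≤ ε / 2 := hgp _
      _ ≤ ε * (1 + v ^ 2) := by nlinarith [sq_nonneg v]
  · push Not at hv
    have h1 : ‖p (v : AddCircle T)‖ ≤ C + ε / 2 := by
      have := norm_sub_norm_le (p (v : AddCircle T)) (g (v : AddCircle T))
      rw [norm_sub_rev] at this
      linarith [hgp (v : AddCircle T), hgC (v : AddCircle T)]
    have h2 : R ^ 2 ≤ v ^ 2 := by
      rw [← sq_abs v]
      exact pow_le_pow_left₀ hR0.le hv.le 2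
    calc ‖f v - p (v : AddCircle T)‖ ≤ ‖f v‖ + ‖p (v : AddCircle T)‖ := norm_sub_le _ _
      _ ≤ C + (C + ε / 2) := add_le_add (hC v) h1
      _ ≤ ε * R ^ 2 := by linarith
      _ ≤ ε * (1 + v ^ 2) := by nlinarith

end Claimed.Agent.R259
end

/- ===== packed: Claimed.Agent.R259.S7LawSpecMain ===== -/
section
/-
Row 259 (S0499), section 7, spectral law, package L-S7-LAW-SPEC.  Architect: helper57.  Prefix `s7p`.
GLUE: `s7p_spec`, `s7p_spec_lin` (= the exports `s7_spec`, `s7_spec_lin`) from the leaves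
`s7p_trig`, `s7p_gauss_*`, `s7p_clip` (S7LawSpecSc), `s7p_spec_*` (S7LawSpecInt), `s7p_char` (S7LawSpecChar).
-/
set_option autoImplicit false

open MeasureTheory ProbabilityTheory
open scoped BigOperators Matrix
open Claimed.Agent.R260 (Mx mxFun mxSchur mxSq mxIP mxEig mxU mxRot)

namespace Claimed.Agent.R259

variable {n : ℕ}

theorem s7p_mass_le {D : Type} [MeasurableSpace D] {Q : Measure D} (B : BlockModel n Q) {δ : ℝ}
    (hδ1 : δ ≤ 1) (hB : B.Small δ) : ∫ d, mxSq (B.Rs d) ∂Q ≤ 2 := by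
  have h := (abs_le.1 hB.mass).2
  rw [s7p_tau_one] at h
  linarith

theorem s7p_mass_nonneg {D : Type} [MeasurableSpace D] {Q : Measure D} (B : BlockModel n Q) :
    0 ≤ ∫ d, mxSq (B.Rs d) ∂Q :=
  integral_nonneg fun _ => Claimed.Agent.R260.mxSq_nonneg _

theorem s7p_poly_meas {K : ℕ} (c : Fin K → ℂ) (s : Fin K → ℝ) :
    Measurable fun v : ℝ => ∑ k, c k * chr (s k) v :=
  (continuous_finsetSum _ fun k _ => continuous_const.mul (s7p_chr_cont (s k))).measurable

theorem s7p_poly_bound {K : ℕ} (c : Fin K → ℂ) (s : Fin K → ℝ) (v : ℝ) :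
    ‖∑ k, c k * chr (s k) v‖ ≤ (∑ k, ‖c k‖) + 0 * v ^ 2 := by
  rw [zero_mul, add_zero]
  refine (norm_sum_le _ _).trans (Finset.sum_le_sum fun k _ => ?_)
  rw [norm_mul, s7p_chr_norm, mul_one]

theorem s7p_spec {f : ℝ → ℂ} (hf : Continuous f) {C : ℝ} (hC : ∀ v, ‖f v‖ ≤ C) :
    ∀ ε : ℝ, 0 < ε → ∃ δ : ℝ, 0 < δ ∧
      ∀ (n : ℕ) (D : Type) [MeasurableSpace D] (Q : Measure D) [IsProbabilityMeasure Q]
        (B : BlockModel n Q), B.Small δ →
        ‖B.spec f - ∫ v, f v ∂(gaussianReal 0 1)‖ ≤ ε := by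
  intro ε hε
  obtain ⟨K, c, s, hp⟩ := s7p_trig hf hC (ε := ε / 16) (by positivity)
  obtain ⟨M, hM⟩ : ∃ M : ℝ, M = ∑ k, ‖c k‖ * (6 * (1 + |s k|) ^ 4) := ⟨_, rfl⟩
  have hM0 : 0 ≤ M := by
    rw [hM]; exact Finset.sum_nonneg fun k _ => by positivity
  refine ⟨min 1 ((ε / 16 / (M + 1)) ^ 2), lt_min one_pos (by positivity), ?_⟩
  intro n D _ Q _ B hB
  obtain ⟨δ, hδdef⟩ : ∃ δ : ℝ, δ = min 1 ((ε / 16 / (M + 1)) ^ 2) := ⟨_, rfl⟩
  rw [← hδdef] at hB
  have hδ : 0 < δ := by rw [hδdef]; exact lt_min one_pos (by positivity)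
  have hδ1 : δ ≤ 1 := by rw [hδdef]; exact min_le_left _ _
  have hsq : Real.sqrt δ ≤ ε / 16 / (M + 1) := by
    rw [hδdef]
    refine (Real.sqrt_le_sqrt (min_le_right _ _)).trans ?_
    rw [Real.sqrt_sq (by positivity)]
  have hMs : M * Real.sqrt δ ≤ ε / 16 := by
    calc M * Real.sqrt δ ≤ (M + 1) * (ε / 16 / (M + 1)) :=
          mul_le_mul (by linarith) hsq (Real.sqrt_nonneg _) (by linarith)
      _ = ε / 16 := by field_simp
  have hfm : Measurable f := hf.measurable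
  have hfb : ∀ v, ‖f v‖ ≤ C + 0 * v ^ 2 := fun v => by rw [zero_mul, add_zero]; exact hC v
  have hpm := s7p_poly_meas c s
  have hpb := s7p_poly_bound c s
  have hdm : Measurable fun v => f v - ∑ k, c k * chr (s k) v := hfm.sub hpm
  have hdb : ∀ v, ‖f v - ∑ k, c k * chr (s k) v‖ ≤ ε / 16 + ε / 16 * v ^ 2 := fun v => by
    have := hp v
    linarith
  -- (i) matrix side
  have e1 : ‖B.spec f - B.spec (fun v => ∑ k, c k * chr (s k) v)‖ ≤ 10 * (ε / 16) := by
    rw [← s7p_spec_sub B hfm hpm hfb hpb]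
    refine (s7p_spec_norm_le B hdm (by positivity) hdb).trans ?_
    have := s7p_mass_le B hδ1 hB
    nlinarith [s7p_mass_nonneg B]
  -- (iii) Gaussian side
  have e3 : ‖∫ v, f v ∂(gaussianReal 0 1) - ∫ v, ∑ k, c k * chr (s k) v ∂(gaussianReal 0 1)‖
      ≤ 2 * (ε / 16) := by
    rw [← integral_sub (s7p_gauss_le hfm hfb).1 (s7p_gauss_le hpm hpb).1]
    have := (s7p_gauss_le hdm hdb).2
    linarith
  -- (ii) characters
  have e2 : ‖B.spec (fun v => ∑ k, c k * chr (s k) v)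
      - ∫ v, ∑ k, c k * chr (s k) v ∂(gaussianReal 0 1)‖ ≤ ε / 16 := by
    have hi : ∀ k ∈ Finset.univ, Integrable (fun v => c k * chr (s k) v) (gaussianReal 0 1) :=
      fun k _ => (s7p_gauss_le (g := chr (s k)) (a := 1) (b := 0) (s7p_chr_cont _).measurable
        (fun v => by rw [s7p_chr_norm]; simp)).1.const_mul _
    rw [s7p_spec_lincomb, integral_finsetSum _ hi, ← Finset.sum_sub_distrib]
    refine (norm_sum_le _ _).trans ?_
    refine le_trans ?_ hMs
    rw [hM, Finset.sum_mul]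
    refine Finset.sum_le_sum fun k _ => ?_
    rw [integral_const_mul, s7p_gauss_chr, ← mul_sub, norm_mul, mul_assoc]
    exact mul_le_mul_of_nonneg_left (s7p_char B hδ hδ1 hB (s k)) (norm_nonneg _)
  calc ‖B.spec f - ∫ v, f v ∂(gaussianReal 0 1)‖
      = ‖(B.spec f - B.spec (fun v => ∑ k, c k * chr (s k) v))
          + (B.spec (fun v => ∑ k, c k * chr (s k) v)
            - ∫ v, ∑ k, c k * chr (s k) v ∂(gaussianReal 0 1))
          - (∫ v, f v ∂(gaussianReal 0 1) - ∫ v, ∑ k, c k * chr (s k) v ∂(gaussianReal 0 1))‖ := by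
        congr 1; ring
    _ ≤ 10 * (ε / 16) + ε / 16 + 2 * (ε / 16) :=
        (norm_sub_le _ _).trans (add_le_add ((norm_add_le _ _).trans (add_le_add e1 e2)) e3)
    _ ≤ ε := by linarith

theorem s7p_spec_lin {f : ℝ → ℂ} (hf : Continuous f) {C : ℝ} (hC : ∀ v, ‖f v‖ ≤ C) :
    ∀ ε : ℝ, 0 < ε → ∃ δ : ℝ, 0 < δ ∧
      ∀ (n : ℕ) (D : Type) [MeasurableSpace D] (Q : Measure D) [IsProbabilityMeasure Q]
        (B : BlockModel n Q), B.Small δ →
        ‖B.spec (fun v => (v : ℂ) * f v) - ∫ v, (v : ℂ) * f v ∂(gaussianReal 0 1)‖ ≤ ε := by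
  intro ε hε
  have hC0 : 0 ≤ C := (norm_nonneg _).trans (hC 0)
  obtain ⟨R, hR, hRdef⟩ : ∃ R : ℝ, 0 < R ∧ R = 16 * (C + 1) / ε := ⟨_, by positivity, rfl⟩
  have hb : C / R ≤ ε / 16 := by
    rw [hRdef, div_div_eq_mul_div, div_le_div_iff₀ (by positivity) (by norm_num)]
    nlinarith
  have hb0 : 0 ≤ C / R := by positivity
  -- the clipped function
  have hcc : Continuous fun v : ℝ => ((max (-R) (min R v) : ℝ) : ℂ) * f v :=
    (Complex.continuous_ofReal.comp (continuous_const.max (continuous_const.min continuous_id))).mul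
      hf
  have hcb : ∀ v : ℝ, ‖((max (-R) (min R v) : ℝ) : ℂ) * f v‖ ≤ R * C := fun v => by
    rw [norm_mul, Complex.norm_real, Real.norm_eq_abs]
    exact mul_le_mul (s7p_clip hR v).2 (hC v) (norm_nonneg _) hR.le
  obtain ⟨δ₀, hδ₀, H⟩ := s7p_spec hcc hcb (ε / 4) (by positivity)
  refine ⟨min 1 δ₀, lt_min one_pos hδ₀, ?_⟩
  intro n D _ Q _ B hB
  have hB1 : B.Small 1 :=
    ⟨hB.mass.trans (min_le_left _ _), hB.sdef.trans (min_le_left _ _),
      hB.cdef.trans (min_le_left _ _), hB.xdef.trans (min_le_left _ _)⟩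
  have hB0 : B.Small δ₀ :=
    ⟨hB.mass.trans (min_le_right _ _), hB.sdef.trans (min_le_right _ _),
      hB.cdef.trans (min_le_right _ _), hB.xdef.trans (min_le_right _ _)⟩
  have h0 := H n D Q B hB0
  have hgm : Measurable fun v : ℝ => (v : ℂ) * f v :=
    (Complex.continuous_ofReal.mul hf).measurable
  have hgb : ∀ v : ℝ, ‖(v : ℂ) * f v‖ ≤ C + C * v ^ 2 := fun v => by
    rw [norm_mul, Complex.norm_real, Real.norm_eq_abs]
    have h1 : |v| ≤ 1 + v ^ 2 := by
      rw [← sq_abs]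
      nlinarith [sq_nonneg (|v| - 1), abs_nonneg v]
    calc |v| * ‖f v‖ ≤ (1 + v ^ 2) * C := mul_le_mul h1 (hC v) (norm_nonneg _) (by positivity)
      _ = C + C * v ^ 2 := by ring
  have hcm := hcc.measurable
  have hcb' : ∀ v : ℝ, ‖((max (-R) (min R v) : ℝ) : ℂ) * f v‖ ≤ R * C + 0 * v ^ 2 := fun v => by
    rw [zero_mul, add_zero]; exact hcb v
  have hdm : Measurable fun v : ℝ => (v : ℂ) * f v - ((max (-R) (min R v) : ℝ) : ℂ) * f v :=
    hgm.sub hcm
  have hdb : ∀ v : ℝ, ‖(v : ℂ) * f v - ((max (-R) (min R v) : ℝ) : ℂ) * f v‖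
      ≤ 0 + C / R * v ^ 2 := fun v => by
    rw [← sub_mul, norm_mul, ← Complex.ofReal_sub, Complex.norm_real, Real.norm_eq_abs, zero_add]
    calc |v - max (-R) (min R v)| * ‖f v‖ ≤ v ^ 2 / R * C :=
          mul_le_mul (s7p_clip hR v).1 (hC v) (norm_nonneg _) (by positivity)
      _ = C / R * v ^ 2 := by ring
  have e1 : ‖B.spec (fun v => (v : ℂ) * f v)
      - B.spec (fun v => ((max (-R) (min R v) : ℝ) : ℂ) * f v)‖ ≤ 8 * (ε / 16) := by
    rw [← s7p_spec_sub B hgm hcm hgb hcb']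
    refine (s7p_spec_norm_le B hdm hb0 hdb).trans ?_
    have := s7p_mass_le B le_rfl hB1
    nlinarith [s7p_mass_nonneg B]
  have e3 : ‖∫ v : ℝ, (v : ℂ) * f v ∂(gaussianReal 0 1)
      - ∫ v : ℝ, ((max (-R) (min R v) : ℝ) : ℂ) * f v ∂(gaussianReal 0 1)‖ ≤ ε / 16 := by
    rw [← integral_sub (s7p_gauss_le hgm hgb).1 (s7p_gauss_le hcm hcb').1]
    have := (s7p_gauss_le hdm hdb).2
    linarith
  calc ‖B.spec (fun v => (v : ℂ) * f v) - ∫ v : ℝ, (v : ℂ) * f v ∂(gaussianReal 0 1)‖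
      = ‖(B.spec (fun v => (v : ℂ) * f v) - B.spec (fun v => ((max (-R) (min R v) : ℝ) : ℂ) * f v))
          + (B.spec (fun v => ((max (-R) (min R v) : ℝ) : ℂ) * f v)
            - ∫ v : ℝ, ((max (-R) (min R v) : ℝ) : ℂ) * f v ∂(gaussianReal 0 1))
          - (∫ v : ℝ, (v : ℂ) * f v ∂(gaussianReal 0 1)
            - ∫ v : ℝ, ((max (-R) (min R v) : ℝ) : ℂ) * f v ∂(gaussianReal 0 1))‖ := by
        congr 1; ring
    _ ≤ 8 * (ε / 16) + ε / 4 + ε / 16 :=
        (norm_sub_le _ _).trans (add_le_add ((norm_add_le _ _).trans (add_le_add e1 h0)) e3)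
    _ ≤ ε := by linarith

end Claimed.Agent.R259
end

/- ===== packed: Claimed.Agent.R259.S7LawSpec ===== -/
section
/-
Row 259 (S0499), section 7, trace law: the SPECTRAL LAW `τ(f(H[N])) → E f(n)`.
EXPORT FILE of package BP-S7-LAW-SPEC.  The owner owns this file: keep names and statements, replace
the sorries (helper files `S7LawSpec*.lean`, prefix `s7p`, never import this file; they may import
`S7LawGE`, `S7LawAlg`, `S7Cx`).

PROOF.  (1) characters: `|τ(e^{isA}) - τ(1) e^{-s²/2}| ≤ (E‖W‖²)^{1/2} (E‖(gF H s - e^{-s²/2})W‖²)^{1/2}`,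
`s7_ge` with `K = H`, `M = 1`, `c_K = 4`; `B.Small δ` controls `sdef`, `cdef`, `mass`.
(2) `f` bounded continuous, `R` large: a trigonometric polynomial `p` of period `4R` with
`|f - p| ≤ ε` on `[-R,R]`, `‖p‖_∞ ≤ ‖f‖_∞ + ε` (Mathlib `span_fourier_closure_eq_top` on
`AddCircle (4R)` applied to a periodic continuous modification of `f`); pointwise
`|f - p|(v) ≤ ε + (2‖f‖_∞ + ε) v²/R²`; positivity of `g ↦ τ(g(A))` and `τ(A²) = τ(S) ≤ 4 τ(1)`;
the same on the Gaussian side.  (3) linear growth: `|v f(v) - clip_R(v) f(v)| ≤ ‖f‖_∞ v²/R`.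
-/
set_option autoImplicit false

open MeasureTheory ProbabilityTheory
open scoped BigOperators Matrix
open Claimed.Agent.R260 (Mx mxFun mxSchur mxSq mxIP mxEig mxU mxRot)

namespace Claimed.Agent.R259

variable {n : ℕ}

theorem s7_spec {f : ℝ → ℂ} (hf : Continuous f) {C : ℝ} (hC : ∀ v, ‖f v‖ ≤ C) :
    ∀ ε : ℝ, 0 < ε → ∃ δ : ℝ, 0 < δ ∧
      ∀ (n : ℕ) (D : Type) [MeasurableSpace D] (Q : Measure D) [IsProbabilityMeasure Q]
        (B : BlockModel n Q), B.Small δ →
        ‖B.spec f - ∫ v, f v ∂(gaussianReal 0 1)‖ ≤ ε :=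
  s7p_spec hf hC

theorem s7_spec_lin {f : ℝ → ℂ} (hf : Continuous f) {C : ℝ} (hC : ∀ v, ‖f v‖ ≤ C) :
    ∀ ε : ℝ, 0 < ε → ∃ δ : ℝ, 0 < δ ∧
      ∀ (n : ℕ) (D : Type) [MeasurableSpace D] (Q : Measure D) [IsProbabilityMeasure Q]
        (B : BlockModel n Q), B.Small δ →
        ‖B.spec (fun v => (v : ℂ) * f v) - ∫ v, (v : ℂ) * f v ∂(gaussianReal 0 1)‖ ≤ ε :=
  s7p_spec_lin hf hC

end Claimed.Agent.R259
end
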