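/- Packed by merge_tool.py (helper293): 7 modules of Claimed.Agent.R259 in one file, same declarations.
   Old modules, in this order: S4Num, S5CurvTen, S5CurvCore, S5CurvMarkov, S5CurvClip, S5CurvStep, S5CurvMean -/
import Claimed.Agent.R259.Pack012
import Claimed.Agent.R259.Pack016
import Claimed.Agent.R259.Pack004
import Claimed.Agent.R259.Pack042
import Claimed.Agent.R259.Pack029

/- ===== packed: Claimed.Agent.R259.S4Num ===== -/
section
/-
Row 259 (S0499), section 4: two real-analysis leaves of Proposition 4.3 (Mathlib only).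
Sub-captain: helper220.  EXPORT FILE of the package: the package owner OWNS this file, keeps names and statements
(report a false / awkward statement to helper220 at once), replaces every `sorry`, and may add helper files
`S4Num*.lean`.
-/
set_option autoImplicit false

open MeasureTheory Filter Topology ProbabilityTheory InformationTheory
open scoped ContDiff ENNReal

namespace Claimed.Agent.R259

variable {E : Type} [NormedAddCommGroup E] [InnerProductSpace ℝ E] [FiniteDimensional ℝ E]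
  [MeasurableSpace E] [BorelSpace E]

theorem s4n_exp_diff {a b : ℝ} (ha : 0 ≤ a) (hab : a ≤ b) :
    Real.exp (-a) - Real.exp (-b) ≤ b - a := by
  have h1 : Real.exp (-b) = Real.exp (-a) * Real.exp (-(b - a)) := by
    rw [← Real.exp_add]; ring_nf
  have h2 : 1 - (b - a) ≤ Real.exp (-(b - a)) := by
    have := Real.add_one_le_exp (-(b - a)); linarith
  have h3 : Real.exp (-a) ≤ 1 := Real.exp_le_one_iff.2 (by linarith)
  have h4 : 0 < Real.exp (-a) := Real.exp_pos _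
  rw [h1]
  nlinarith [mul_nonneg h4.le (sub_nonneg.2 h2), mul_nonneg (sub_nonneg.2 h3) (sub_nonneg.2 hab)]

theorem s4n_exp_low {r h : ℝ} (hr : 0 ≤ r) (hh : 0 < h) :
    h * Real.exp (-r) - h ^ 2 ≤ Real.exp (-r) - Real.exp (-(r + h)) := by
  have h1 : Real.exp (-(r + h)) = Real.exp (-r) * Real.exp (-h) := by
    rw [← Real.exp_add]; ring_nf
  have h2 : Real.exp (-h) * (1 + h) ≤ 1 := by
    have e1 : h + 1 ≤ Real.exp h := Real.add_one_le_exp h
    have e2 : Real.exp (-h) * Real.exp h = 1 := by rw [← Real.exp_add]; simp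
    have e3 : 0 < Real.exp (-h) := Real.exp_pos _
    nlinarith
  have h3 : Real.exp (-h) ≤ 1 - h + h ^ 2 := by
    have : Real.exp (-h) * (1 + h) ≤ (1 - h + h ^ 2) * (1 + h) := by
      have : 0 ≤ h ^ 3 := by positivity
      nlinarith
    exact le_of_mul_le_mul_right this (by linarith)
  have h4 : Real.exp (-r) ≤ 1 := Real.exp_le_one_iff.2 (by linarith)
  have h5 : 0 < Real.exp (-r) := Real.exp_pos _
  rw [h1]
  nlinarith [mul_nonneg h5.le (sub_nonneg.2 h3), mul_nonneg (sub_nonneg.2 h4) (sq_nonneg h)]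

/-- REAL ANALYSIS: integral squeeze + monotonicity. -/
theorem s4_squeeze (ε : ℝ) (hε : 0 < ε) (r0 : ℝ) (hr0 : 0 < r0) : ∃ δ₁ : ℝ, 0 < δ₁ ∧
    ∀ mm : ℝ → ℝ, AntitoneOn mm (Set.Ioc 0 (1 / 4)) → (∀ r ∈ Set.Ioc (0 : ℝ) (1 / 4), 0 ≤ mm r) →
      (∀ r ∈ Set.Ioc (0 : ℝ) (1 / 4), mm r ≤ Real.exp (-r) + δ₁) →
      (∀ z ∈ Set.Ioc (0 : ℝ) (1 / 4), 1 - Real.exp (-z) - δ₁ ≤ ∫ r in (0 : ℝ)..z, mm r) →
      ∀ r, r0 ≤ r → r ≤ 1 / 4 - r0 → |mm r - Real.exp (-r)| ≤ ε := by
  obtain ⟨h, hh⟩ : ∃ h, h = min (ε / 2) r0 := ⟨_, rfl⟩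
  have hpos : 0 < h := by rw [hh]; exact lt_min (by positivity) hr0
  refine ⟨ε * h / 4, by positivity, ?_⟩
  intro mm hanti hnn hup hint r hr1 hr2
  have hh1 : h ≤ ε / 2 := by rw [hh]; exact min_le_left _ _
  have hh2 : h ≤ r0 := by rw [hh]; exact min_le_right _ _
  have hr0' : r0 ≤ 1 / 8 := by linarith
  have hrpos : 0 < r := by linarith
  have hrh : r + h ≤ 1 / 4 := by linarith
  have hrmem : r ∈ Set.Ioc (0 : ℝ) (1 / 4) := ⟨hrpos, by linarith⟩
  have hI : IntegrableOn mm (Set.Ioc 0 (1 / 4)) := by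
    have hm : AEStronglyMeasurable mm (volume.restrict (Set.Ioc 0 (1 / 4))) :=
      (aemeasurable_restrict_of_antitoneOn measurableSet_Ioc hanti).aestronglyMeasurable
    refine Integrable.mono' (g := fun _ => 1 + ε * h / 4) (integrable_const _) hm ?_
    refine (ae_restrict_iff' measurableSet_Ioc).2 (Filter.Eventually.of_forall fun x hx => ?_)
    rw [Real.norm_eq_abs, abs_of_nonneg (hnn x hx)]
    have h1 := hup x hx
    have h2 : Real.exp (-x) ≤ 1 := Real.exp_le_one_iff.2 (by linarith [hx.1])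
    linarith
  have hII : ∀ a b : ℝ, 0 ≤ a → a ≤ b → b ≤ 1 / 4 → IntervalIntegrable mm volume a b := by
    intro a b ha hab hb
    rw [intervalIntegrable_iff_integrableOn_Ioc_of_le hab]
    exact hI.mono_set (Set.Ioc_subset_Ioc ha hb)
  have hsplit : ∫ s in (0 : ℝ)..(r + h), mm s
      = (∫ s in (0 : ℝ)..r, mm s) + ∫ s in r..(r + h), mm s :=
    (intervalIntegral.integral_add_adjacent_intervals (hII 0 r le_rfl hrpos.le (by linarith))
      (hII r (r + h) hrpos.le (by linarith) hrh)).symm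
  have hlow := hint (r + h) ⟨by linarith, hrh⟩
  have hup1 : ∫ s in (0 : ℝ)..r, mm s ≤ ∫ s in (0 : ℝ)..r, (Real.exp (-s) + ε * h / 4) := by
    refine intervalIntegral.integral_mono_on_of_le_Ioo hrpos.le
      (hII 0 r le_rfl hrpos.le (by linarith)) ?_ ?_
    · exact Continuous.intervalIntegrable (by fun_prop) _ _
    · intro x hx
      exact hup x ⟨hx.1, by linarith [hx.2]⟩
  have hcalc : ∫ s in (0 : ℝ)..r, (Real.exp (-s) + ε * h / 4)
      = (1 - Real.exp (-r)) + r * (ε * h / 4) := by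
    rw [intervalIntegral.integral_add (Continuous.intervalIntegrable (by fun_prop) _ _)
      (Continuous.intervalIntegrable (by fun_prop) _ _), intervalIntegral.integral_const,
      intervalIntegral.integral_comp_neg (fun x => Real.exp x), integral_exp]
    simp
  have hup2 : ∫ s in r..(r + h), mm s ≤ h * mm r := by
    have h1 : ∫ s in r..(r + h), mm s ≤ ∫ _s in r..(r + h), mm r := by
      refine intervalIntegral.integral_mono_on (by linarith)
        (hII r (r + h) hrpos.le (by linarith) hrh) (by simp) ?_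
      intro x hx
      exact hanti hrmem ⟨by linarith [hx.1], by linarith [hx.2]⟩ hx.1
    simpa using h1
  have hexp := s4n_exp_low hrpos.le hpos
  have hkey : h * Real.exp (-r) - h ^ 2 - (ε * h / 4) * (1 + r) ≤ h * mm r := by linarith
  rw [abs_le]
  constructor
  · have h3 : h * (Real.exp (-r) - ε) ≤ h * mm r := by
      nlinarith [mul_nonneg hpos.le (sub_nonneg.2 hh1),
        mul_nonneg (mul_nonneg hε.le hpos.le) (by linarith : (0 : ℝ) ≤ 1 - r)]
    have := le_of_mul_le_mul_left h3 hpos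
    linarith
  · have h1 := hup r hrmem
    nlinarith

/-- REAL ANALYSIS: choice of the probe strength `T` and of the defect. -/
theorem s4_num (δ₁ : ℝ) (h : 0 < δ₁) : ∃ T : ℝ, 1 < T ∧ ∃ δ₂ : ℝ, 0 < δ₂ ∧ ∀ δ, 0 ≤ δ → δ ≤ δ₂ →
    ∀ r, 0 ≤ r → r ≤ 1 / 4 →
      Real.exp (-r / (1 + δ)) * ((1 + T) / (T - 1)) + 2 * δ₂ / (T - 1) ≤ Real.exp (-r) + δ₁ ∧
      Real.exp (-r / (1 + δ)) + δ ≤ Real.exp (-r) + δ₁ ∧
      1 - Real.exp (-r) - δ₁ ≤ 1 - Real.exp (-r / (1 + δ)) := by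
  obtain ⟨d2, hd2⟩ : ∃ d2, d2 = min (δ₁ / 4) 1 := ⟨_, rfl⟩
  have hd2p : 0 < d2 := by rw [hd2]; exact lt_min (by positivity) one_pos
  have hd2a : d2 ≤ δ₁ / 4 := by rw [hd2]; exact min_le_left _ _
  have hd2b : d2 ≤ 1 := by rw [hd2]; exact min_le_right _ _
  refine ⟨1 + 8 / δ₁, by have := div_pos (by norm_num : (0 : ℝ) < 8) h; linarith, d2, hd2p, ?_⟩
  intro δ hδ0 hδ r hr0 hr
  have h1δ : 0 < 1 + δ := by linarith
  have ha0 : 0 ≤ r / (1 + δ) := div_nonneg hr0 h1δ.le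
  have hab : r / (1 + δ) ≤ r := div_le_self hr0 (by linarith)
  have hE := s4n_exp_diff ha0 hab
  have hdiff : r - r / (1 + δ) ≤ δ := by
    have e : r - r / (1 + δ) = r * δ / (1 + δ) := by field_simp; ring
    rw [e, div_le_iff₀ h1δ]
    nlinarith
  have hneg : -r / (1 + δ) = -(r / (1 + δ)) := by ring
  rw [hneg]
  obtain ⟨E, hEdef⟩ : ∃ E, E = Real.exp (-(r / (1 + δ))) := ⟨_, rfl⟩
  rw [← hEdef] at hE ⊢
  have hE1 : E ≤ 1 := by rw [hEdef]; exact Real.exp_le_one_iff.2 (by linarith)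
  have hE0 : 0 < E := by rw [hEdef]; exact Real.exp_pos _
  have hEle : E ≤ Real.exp (-r) + δ := by linarith
  have hT : (1 + 8 / δ₁) - 1 = 8 / δ₁ := by ring
  refine ⟨?_, by linarith, by linarith⟩
  rw [hT]
  have e1 : (1 + (1 + 8 / δ₁)) / (8 / δ₁) = 1 + δ₁ / 4 := by field_simp; ring
  have e2 : 2 * d2 / (8 / δ₁) = d2 * δ₁ / 4 := by field_simp; ring
  rw [e1, e2]
  nlinarith

end Claimed.Agent.R259
end

/- ===== packed: Claimed.Agent.R259.S5CurvTen ===== -/
section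
/-
Row 259 (S0499), package BP-S5-curv, LEAF L-s5v-ten (no paper needed).  Architect: helper19.

Tensor algebra for the curvature estimate: slices along the last slot, slot actions of matrices
(bounds, positivity, symmetry), the operator norm ball `opBall`, continuity of slot actions of
matrix fields, and the translation of `s5v_div`, `s5v_id` (family form, `S5CurvIbp.lean`) into
tensor form.  Everything is finite sums over indices; `Fin.snoc`/`Fin.init`/`Fin.last` bookkeeping: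
`α = Fin.snoc (Fin.init α) (α (Fin.last d))`, `Fin.snocEquiv`/`Fin.snoc_init_self`,
sums over `Idx n (d+1)` = sums over `Idx n d × Fin n` (`Fin.snocEquiv`, `Fintype.sum_equiv`,
`Fintype.sum_prod_type`).
For the slot `r` bounds: fix all indices but `α r`; `slot r M` acts as `M` on each fibre
(`Function.update`); a convenient route is `‖slot r M t‖² = ∑_α (∑_j M (α r) j t(α[r↦j]))²` and
Cauchy-Schwarz, or conjugation by `tPerm` (`slot_perm`) to the last slot and `s5v_tSl_slot`.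
-/
set_option autoImplicit false

open MeasureTheory
open scoped ContDiff BigOperators Matrix
open Claimed.Agent.R260 (Mx mxSq)

namespace Claimed.Agent.R259

variable {n d : ℕ} {η : EE n → ℝ}

theorem s5v_inner_eq (s t : TT n d) : inner ℝ s t = ∑ α, s α * t α := by
  rw [PiLp.inner_apply]
  exact Finset.sum_congr rfl fun α _ => by simp [mul_comm]

theorem s5v_norm_sq_eq (t : TT n d) : ‖t‖ ^ 2 = ∑ α, t α ^ 2 := by
  rw [← real_inner_self_eq_norm_sq, s5v_inner_eq]
  exact Finset.sum_congr rfl fun α _ => by ring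

theorem s5v_slot_apply (r : Fin d) (M : Mx n) (t : TT n d) (α : Idx n d) :
    slot r M t α = ∑ j, M (α r) j * t (Function.update α r j) := rfl

/-- fibre sums along the slot `r` -/
theorem s5v_fibre_sum (r : Fin d) (G : Idx n d → ℝ) :
    ∑ α : Idx n d, ∑ i, G (Function.update α r i) = n * ∑ β, G β := by
  have h : ∑ p : Idx n d × Fin n, G (Function.update p.1 r p.2) = ∑ p : Idx n d × Fin n, G p.1 := by
    refine Fintype.sum_bijective (fun p : Idx n d × Fin n => (Function.update p.1 r p.2, p.1 r))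
      (Function.Involutive.bijective fun p => by simp) _ _ fun p => rfl
  rw [Fintype.sum_prod_type, Fintype.sum_prod_type] at h
  rw [h]
  simp [Finset.mul_sum]

theorem s5v_fibre_le (r : Fin d) {G H : Idx n d → ℝ}
    (h : ∀ α, ∑ i, G (Function.update α r i) ≤ ∑ i, H (Function.update α r i)) :
    ∑ β, G β ≤ ∑ β, H β := by
  rcases Nat.eq_zero_or_pos n with rfl | hn
  · have : IsEmpty (Idx 0 d) := ⟨fun α => (α r).elim0⟩
    simp
  · have h1 := Finset.sum_le_sum fun α (_ : α ∈ Finset.univ) => h α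
    rw [s5v_fibre_sum, s5v_fibre_sum] at h1
    exact le_of_mul_le_mul_left h1 (by exact_mod_cast hn)

theorem s5v_fibre_eq (r : Fin d) {G H : Idx n d → ℝ}
    (h : ∀ α, ∑ i, G (Function.update α r i) = ∑ i, H (Function.update α r i)) :
    ∑ β, G β = ∑ β, H β :=
  le_antisymm (s5v_fibre_le r fun α => (h α).le) (s5v_fibre_le r fun α => (h α).ge)

theorem s5v_slot_update (r : Fin d) (M : Mx n) (t : TT n d) (α : Idx n d) (i : Fin n) :
    slot r M t (Function.update α r i) = ∑ j, M i j * t (Function.update α r j) := by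
  rw [s5v_slot_apply]
  simp

theorem s5v_slot_sub (r : Fin d) (M N : Mx n) (t : TT n d) :
    slot r (M - N) t = slot r M t - slot r N t := by
  ext α
  simp [s5v_slot_apply, sub_mul, Finset.sum_sub_distrib]

theorem s5v_slot_zero (r : Fin d) (t : TT n d) : slot r (0 : Mx n) t = 0 := by
  ext α
  simp [s5v_slot_apply]

theorem s5v_slot_add_right (r : Fin d) (M : Mx n) (s t : TT n d) :
    slot r M (s + t) = slot r M s + slot r M t := (slotL r M).map_add s t

theorem s5v_slot_sub_right (r : Fin d) (M : Mx n) (s t : TT n d) :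
    slot r M (s - t) = slot r M s - slot r M t := (slotL r M).map_sub s t

theorem s5v_slot_adj (r : Fin d) (M : Mx n) (s t : TT n d) :
    inner ℝ s (slot r M t) = inner ℝ (slot r Mᵀ s) t := by
  rw [s5v_inner_eq, s5v_inner_eq]
  refine s5v_fibre_eq r fun α => ?_
  simp only [s5v_slot_update, Finset.mul_sum, Finset.sum_mul, Matrix.transpose_apply]
  rw [Finset.sum_comm]
  exact Finset.sum_congr rfl fun j _ => Finset.sum_congr rfl fun i _ => by ring

theorem s5v_mxSq_eq (M : Mx n) : mxSq M = ∑ i, ∑ j, M i j ^ 2 := by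
  unfold mxSq
  rw [Matrix.trace]
  simp only [Matrix.diag_apply, Matrix.mul_apply, Matrix.transpose_apply]
  rw [Finset.sum_comm]
  exact Finset.sum_congr rfl fun j _ => Finset.sum_congr rfl fun i _ => by ring

theorem s5v_mxSq_nonneg (M : Mx n) : 0 ≤ mxSq M := by
  rw [s5v_mxSq_eq]
  positivity

theorem s5v_slot_norm_sq_le (r : Fin d) (M : Mx n) (t : TT n d) :
    ‖slot r M t‖ ^ 2 ≤ mxSq M * ‖t‖ ^ 2 := by
  rw [s5v_norm_sq_eq, s5v_norm_sq_eq, Finset.mul_sum]
  refine s5v_fibre_le r fun α => ?_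
  simp only [s5v_slot_update]
  rw [← Finset.mul_sum, s5v_mxSq_eq, Finset.sum_mul]
  exact Finset.sum_le_sum fun i _ => Finset.sum_mul_sq_le_sq_mul_sq _ _ _

theorem s5v_slot_psd_nonneg (r : Fin d) {M : Mx n} (hM : M.PosSemidef) (t : TT n d) :
    0 ≤ inner ℝ t (slot r M t) := by
  rw [s5v_inner_eq]
  have h0 : (0 : ℝ) = ∑ β : Idx n d, (fun _ => (0 : ℝ)) β := by simp
  rw [h0]
  refine s5v_fibre_le r fun α => ?_
  simp only [s5v_slot_update, Finset.sum_const_zero]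
  have := hM.dotProduct_mulVec_nonneg (fun i => t (Function.update α r i))
  simpa [dotProduct, Matrix.mulVec] using this



theorem s5v_slot_one (r : Fin d) (t : TT n d) : slot r (1 : Mx n) t = t := by
  ext α
  rw [s5v_slot_apply]
  simp [Matrix.one_apply]

theorem s5v_slot_smul_left (r : Fin d) (b : ℝ) (M : Mx n) (t : TT n d) :
    slot r (b • M) t = b • slot r M t := by
  ext α
  simp [s5v_slot_apply, Finset.mul_sum, mul_assoc]

theorem s5v_psd_transpose {M : Mx n} (hM : M.PosSemidef) : Mᵀ = M := by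
  have := hM.1
  rw [Matrix.IsHermitian, Matrix.conjTranspose_eq_transpose_of_trivial] at this
  exact this

theorem s5v_slot_norm_le (r : Fin d) {M : Mx n} {b : ℝ} (h0 : M.PosSemidef)
    (h1 : (b • (1 : Mx n) - M).PosSemidef) (t : TT n d) : ‖slot r M t‖ ≤ b * ‖t‖ := by
  have hle : ∀ u : TT n d, inner ℝ (slot r M u) u ≤ b * ‖u‖ ^ 2 := by
    intro u
    have := s5v_slot_psd_nonneg r h1 u
    rw [s5v_slot_sub, s5v_slot_smul_left, s5v_slot_one, inner_sub_right, inner_smul_right,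
      real_inner_self_eq_norm_sq] at this
    rw [real_inner_comm]
    linarith
  by_cases ht : t = 0
  · subst ht
    have : slot r M (0 : TT n d) = 0 := (slotL r M).map_zero
    simp [this]
  · have hb : 0 ≤ b := by
      have h2 := s5v_slot_psd_nonneg r h0 t
      have h3 := hle t
      rw [real_inner_comm] at h3
      have h4 : 0 < ‖t‖ ^ 2 := by positivity
      by_contra hneg
      rw [not_le] at hneg
      nlinarith
    have hn : ‖slotL r M‖ ≤ b := by
      refine gcb_norm_le _ hb (fun u v => ?_) (fun u => ?_) hle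
      · rw [slotL_apply, slotL_apply, s5v_slot_adj, s5v_psd_transpose h0]
      · rw [slotL_apply, real_inner_comm]
        exact s5v_slot_psd_nonneg r h0 u
    exact (slotL r M).le_of_opNorm_le hn t

theorem s5v_slot_psd_add (r : Fin d) {M : Mx n} (hM : M.PosSemidef) (s t : TT n d) :
    inner ℝ (s + t) (slot r M (s + t)) ≤
      2 * inner ℝ s (slot r M s) + 2 * inner ℝ t (slot r M t) := by
  have h := s5v_slot_psd_nonneg r hM (s - t)
  rw [s5v_slot_sub_right, inner_sub_left, inner_sub_right, inner_sub_right] at h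
  rw [s5v_slot_add_right, inner_add_left, inner_add_right, inner_add_right]
  linarith

theorem s5v_slot_sym {t : TT n d} (ht : TSym t) (r r' : Fin d) (M : Mx n) :
    inner ℝ t (slot r M t) = inner ℝ t (slot r' M t) := by
  have h1 := (tSym_iff t).1 ht (Equiv.swap r r')
  have h2 := slot_perm (Equiv.swap r r') r M t
  rw [h1, Equiv.swap_apply_left] at h2
  have h3 := (tPerm (n := n) (Equiv.swap r r')).inner_map_map t (slot r M t)
  rw [h1, h2] at h3
  exact h3.symm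

theorem s5v_slot_continuous (r : Fin d) {M : EE n → Mx n}
    (hM : ∀ i j, Continuous fun y => M y i j) {t : EE n → TT n d} (ht : Continuous t) :
    Continuous fun y => slot r (M y) (t y) := by
  unfold slot
  refine (PiLp.continuous_toLp 2 _).comp (continuous_pi fun α => ?_)
  refine continuous_finsetSum _ fun j _ => (hM _ _).mul ?_
  exact (EuclideanSpace.proj (Function.update α r j) : TT n d →L[ℝ] ℝ).continuous.comp ht



theorem s5v_opBall_iff (r : Fin d) {c : ℝ} (hc : 0 ≤ c) (t : TT n d) :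
    t ∈ (opBall r c : Set (TT n d)) ↔ ∀ M : Mx n, ‖slot r M t‖ ≤ c * Real.sqrt (mxSq M) := by
  have hsq : ∀ M : Mx n, (c * Real.sqrt (mxSq M)) ^ 2 = c ^ 2 * mxSq M := fun M => by
    rw [mul_pow, Real.sq_sqrt (s5v_mxSq_nonneg M)]
  constructor
  · intro h M
    have := h M
    rw [← hsq] at this
    exact (pow_le_pow_iff_left₀ (norm_nonneg _) (by positivity) two_ne_zero).1 this
  · intro h M
    rw [← hsq]
    exact pow_le_pow_left₀ (norm_nonneg _) (h M) 2


theorem s5v_slot_smul_right (r : Fin d) (M : Mx n) (a : ℝ) (t : TT n d) :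
    slot r M (a • t) = a • slot r M t := (slotL r M).map_smul a t

theorem s5v_opBall_convex (r : Fin d) {c : ℝ} (hc : 0 ≤ c) :
    Convex ℝ (opBall r c : Set (TT n d)) := by
  intro s hs t ht a b ha hb hab
  rw [s5v_opBall_iff r hc] at hs ht ⊢
  intro M
  rw [s5v_slot_add_right, s5v_slot_smul_right, s5v_slot_smul_right]
  calc ‖a • slot r M s + b • slot r M t‖ ≤ ‖a • slot r M s‖ + ‖b • slot r M t‖ := norm_add_le _ _
    _ = a * ‖slot r M s‖ + b * ‖slot r M t‖ := by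
        rw [norm_smul, norm_smul, Real.norm_of_nonneg ha, Real.norm_of_nonneg hb]
    _ ≤ a * (c * Real.sqrt (mxSq M)) + b * (c * Real.sqrt (mxSq M)) := by
        gcongr
        · exact hs M
        · exact ht M
    _ = c * Real.sqrt (mxSq M) := by rw [← add_mul, hab, one_mul]

theorem s5v_opBall_closed (r : Fin d) (c : ℝ) : IsClosed (opBall r c : Set (TT n d)) := by
  have : (opBall r c : Set (TT n d)) = ⋂ M : Mx n, {t | ‖slotL r M t‖ ^ 2 ≤ c ^ 2 * mxSq M} := by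
    ext t
    simp [opBall, slotL_apply]
  rw [this]
  exact isClosed_iInter fun M => isClosed_le ((slotL r M).continuous.norm.pow 2) continuous_const

theorem s5v_opBall_zero (r : Fin d) (c : ℝ) : (0 : TT n d) ∈ (opBall r c : Set (TT n d)) := by
  intro M
  have : slot r M (0 : TT n d) = 0 := (slotL r M).map_zero
  rw [this]
  have := s5v_mxSq_nonneg M
  simp
  positivity

theorem s5v_opBall_two (r : Fin d) {c : ℝ} {t : TT n d} (h : t ∈ opBall r c) :
    (2 : ℝ) • t ∈ opBall r (2 * c) := by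
  intro M
  have := h M
  rw [s5v_slot_smul_right, norm_smul, mul_pow, mul_pow]
  simp only [Real.norm_ofNat]
  nlinarith

theorem s5v_opBall_perm (σ : Equiv.Perm (Fin d)) (r : Fin d) {c : ℝ} {t : TT n d}
    (h : t ∈ opBall r c) : tPerm σ t ∈ opBall (σ r) c := by
  intro M
  rw [← slot_perm, LinearIsometryEquiv.norm_map]
  exact h M

theorem s5v_opBall_near (r : Fin d) {c τ : ℝ} (hc : 0 ≤ c) (hτ : 0 ≤ τ) {t κ : TT n d}
    (hκ : κ ∈ opBall r c) (h : ‖t - κ‖ ≤ τ) : t ∈ opBall r (c + τ) := by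
  rw [s5v_opBall_iff r hc] at hκ
  rw [s5v_opBall_iff r (by positivity)]
  intro M
  have e : t = κ + (t - κ) := by abel
  have h1 : ‖slot r M (t - κ)‖ ≤ Real.sqrt (mxSq M) * ‖t - κ‖ := by
    have h2 := s5v_slot_norm_sq_le r M (t - κ)
    have h3 : (Real.sqrt (mxSq M) * ‖t - κ‖) ^ 2 = mxSq M * ‖t - κ‖ ^ 2 := by
      rw [mul_pow, Real.sq_sqrt (s5v_mxSq_nonneg M)]
    rw [← h3] at h2
    exact (pow_le_pow_iff_left₀ (norm_nonneg _) (by positivity) two_ne_zero).1 h2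
  calc ‖slot r M t‖ = ‖slot r M κ + slot r M (t - κ)‖ := by rw [← s5v_slot_add_right, ← e]
    _ ≤ ‖slot r M κ‖ + ‖slot r M (t - κ)‖ := norm_add_le _ _
    _ ≤ c * Real.sqrt (mxSq M) + Real.sqrt (mxSq M) * τ := by
        refine add_le_add (hκ M) (h1.trans ?_)
        gcongr
    _ = (c + τ) * Real.sqrt (mxSq M) := by ring

theorem s5v_sum_snoc (F : Idx n (d + 1) → ℝ) :
    ∑ α, F α = ∑ i, ∑ β : Idx n d, F (Fin.snoc β i : Fin (d + 1) → Fin n) := by
  rw [← (Fin.snocEquiv (fun _ : Fin (d + 1) => Fin n)).sum_comp, Fintype.sum_prod_type]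
  rfl

theorem s5v_tSl_apply (i : Fin n) (t : TT n (d + 1)) (β : Idx n d) :
    tSl i t β = t (Fin.snoc β i : Fin (d + 1) → Fin n) := rfl

theorem s5v_inner_tSl (s t : TT n (d + 1)) :
    inner ℝ s t = ∑ i, inner ℝ (tSl i s) (tSl i t) := by
  rw [s5v_inner_eq, s5v_sum_snoc]
  exact Finset.sum_congr rfl fun i _ => by rw [s5v_inner_eq]; rfl

theorem s5v_norm_tSl (t : TT n (d + 1)) : ‖t‖ ^ 2 = ∑ i, ‖tSl i t‖ ^ 2 := by
  simp only [← real_inner_self_eq_norm_sq]
  exact s5v_inner_tSl t t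

theorem s5v_tSl_tD (T : EE n → TT n d) (y : EE n) (i : Fin n) : tSl i (tD T y) = dI i T y := by
  ext β
  rw [s5v_tSl_apply, s5k_tD_apply]
  simp

theorem s5v_tSl_slot (M : Mx n) (t : TT n (d + 1)) (i : Fin n) :
    tSl i (slot (Fin.last d) M t) = ∑ j, M i j • tSl j t := by
  ext β
  rw [s5v_tSl_apply, s5v_slot_apply]
  simp only [Fin.snoc_last, Fin.update_snoc_last]
  simp [s5v_tSl_apply]


theorem s5v_inner_tD_left (G : EE n → TT n d) (y : EE n) (p : TT n (d + 1)) :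
    inner ℝ (tD G y) p = ∑ i, inner ℝ (dI i G y) (tSl i p) := by
  rw [s5v_inner_tSl]
  exact Finset.sum_congr rfl fun i _ => by rw [s5v_tSl_tD]

theorem s5v_inner_slot_last (q p : TT n (d + 1)) (H : Mx n) :
    inner ℝ q (slot (Fin.last d) H p) = ∑ i, ∑ j, H i j * inner ℝ (tSl i q) (tSl j p) := by
  rw [s5v_inner_tSl]
  refine Finset.sum_congr rfl fun i _ => ?_
  rw [s5v_tSl_slot, inner_sum]
  exact Finset.sum_congr rfl fun j _ => by rw [inner_smul_right]

theorem s5v_div_T (hη : SPD η) {P : EE n → TT n (d + 1)} (hP : IsTestV P) {G : EE n → TT n d}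
    (hG : IsTestV G) :
    ipF η (tD G) P ^ 2 ≤ nSq η G *
      (nSq η (tD P) + ipF η P (fun y => slot (Fin.last d) (hessL η y) (P y))) := by
  have h := s5v_div hη (P := fun i y => tSl i (P y)) (fun i => s5k_test_clm (tSl i) hP) hG
  have hd : ∀ y, DifferentiableAt ℝ P y := fun y => (hP.1.differentiable (by simp)) y
  have e1 : ipF η (tD G) P = ∫ y, ∑ i, inner ℝ (dI i G y) (tSl i (P y)) ∂(dm η) := by
    unfold ipF
    exact integral_congr_ae (Filter.Eventually.of_forall fun y => s5v_inner_tD_left G y (P y))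
  have e2 : nSq η (tD P) = ∫ y, ∑ i, ∑ j, ‖dI j (fun z => tSl i (P z)) y‖ ^ 2 ∂(dm η) := by
    unfold nSq
    refine integral_congr_ae (Filter.Eventually.of_forall fun y => ?_)
    simp only
    rw [s5v_norm_tSl, Finset.sum_comm]
    refine Finset.sum_congr rfl fun j _ => ?_
    rw [s5v_tSl_tD, s5v_norm_tSl]
    exact Finset.sum_congr rfl fun i _ => by rw [s5k_dI_clm (tSl i) (hd y)]
  have e3 : ipF η P (fun y => slot (Fin.last d) (hessL η y) (P y)) =
      ∫ y, ∑ i, ∑ j, hessL η y i j * inner ℝ (tSl i (P y)) (tSl j (P y)) ∂(dm η) := by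
    unfold ipF
    exact integral_congr_ae (Filter.Eventually.of_forall fun y => s5v_inner_slot_last _ _ _)
  rw [e1, e2, e3]
  exact h

theorem s5v_id_T (hη : SPD η) {F : EE n → TT n d} (hF : IsTestV F) {φ : EE n → TT n (d + 1)}
    (hφ : IsTestV φ) :
    ipF η (tD F) (fun y => slot (Fin.last d) (hessL η y) (φ y)) =
      ipF η (tD (fun y => opA η F y - F y)) φ - ipF η (tD F) (fun y => opA η φ y - φ y) := by
  have h := s5v_id hη hF (φ := fun i y => tSl i (φ y)) (fun i => s5k_test_clm (tSl i) hφ)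
  have e1 : ipF η (tD F) (fun y => slot (Fin.last d) (hessL η y) (φ y)) =
      ∫ y, ∑ i, ∑ j, hessL η y i j * inner ℝ (dI i F y) (tSl j (φ y)) ∂(dm η) := by
    unfold ipF
    refine integral_congr_ae (Filter.Eventually.of_forall fun y => ?_)
    simp only
    rw [s5v_inner_slot_last]
    exact Finset.sum_congr rfl fun i _ => Finset.sum_congr rfl fun j _ => by rw [s5v_tSl_tD]
  have e2 : ipF η (tD (fun y => opA η F y - F y)) φ =
      ∫ y, ∑ j, inner ℝ (dI j (fun z => opA η F z - F z) y) (tSl j (φ y)) ∂(dm η) := by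
    unfold ipF
    exact integral_congr_ae (Filter.Eventually.of_forall fun y => s5v_inner_tD_left _ y (φ y))
  have e3 : ipF η (tD F) (fun y => opA η φ y - φ y) =
      ∫ y, ∑ j, inner ℝ (dI j F y) (opA η (fun z => tSl j (φ z)) y - tSl j (φ y)) ∂(dm η) := by
    unfold ipF
    refine integral_congr_ae (Filter.Eventually.of_forall fun y => ?_)
    simp only
    rw [s5v_inner_tD_left]
    refine Finset.sum_congr rfl fun j _ => ?_
    rw [s5k_opA_clm η (tSl j) (hφ.1.of_le ENat.LEInfty.out), map_sub]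
  rw [e1, e2, e3]
  exact h



theorem s5v_om_contDiff (Z : HiInput n) : ContDiff ℝ ∞ Z.om := by
  rcases Z.branch with h | h
  · rw [h]; exact Z.w_smooth
  · rw [h]; exact contDiff_zero_fun

theorem s5v_dI_apply {X : EE n → EE n} {y : EE n} (hX : DifferentiableAt ℝ X y) (i j : Fin n) :
    dI j (fun z => X z i) y = dI j X y i :=
  s5k_dI_clm (EuclideanSpace.proj i : EE n →L[ℝ] ℝ) hX j

theorem s5v_hessL (Z : HiInput n) (y : EE n) : hessL Z.η y = Z.K y - Z.Qo y := by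
  have hb : DifferentiableAt ℝ Z.b y := (Z.b_smooth.differentiable (by simp)) y
  have ho : DifferentiableAt ℝ Z.om y := ((s5v_om_contDiff Z).differentiable (by simp)) y
  ext i j
  have e1 : sc Z.η i = fun z => (-(s0⁻¹ • (z - Z.b z)) + Z.om z) i := by
    funext z
    unfold sc
    rw [Z.drift]
  have hX : HasFDerivAt (fun z => -(s0⁻¹ • (z - Z.b z)) + Z.om z)
      (-(s0⁻¹ • (ContinuousLinearMap.id ℝ (EE n) - fderiv ℝ Z.b y)) + fderiv ℝ Z.om y) y :=
    ((((hasFDerivAt_id y).sub hb.hasFDerivAt).const_smul s0⁻¹).neg).add ho.hasFDerivAt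
  have e2 : dI j (fun z => -(s0⁻¹ • (z - Z.b z)) + Z.om z) y =
      -(s0⁻¹ • (eb j - dI j Z.b y)) + dI j Z.om y := by
    unfold dI
    rw [hX.fderiv]
    simp
  have hs0 : (s0 : ℝ) ≠ 0 := by unfold s0; norm_num
  simp only [hessL, HiInput.Qo, Matrix.of_apply, Matrix.sub_apply]
  rw [e1, s5v_dI_apply hX.differentiableAt, e2]
  simp only [PiLp.add_apply, PiLp.neg_apply, PiLp.smul_apply, PiLp.sub_apply, smul_eq_mul]
  rw [Z.Db]
  have e3 : (eb j : EE n) i = (1 : Mx n) i j := by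
    unfold eb
    rw [PiLp.single_apply, Matrix.one_apply]
  rw [e3]
  field_simp
  ring

theorem s5v_dI_continuous {X : EE n → EE n} (hX : ContDiff ℝ ∞ X) (i j : Fin n) :
    Continuous fun y => dI j X y i := by
  unfold dI
  have h1 : Continuous (fderiv ℝ X) := hX.continuous_fderiv (by simp)
  exact (EuclideanSpace.proj i : EE n →L[ℝ] ℝ).continuous.comp (h1.clm_apply continuous_const)

theorem s5v_K_continuous (Z : HiInput n) (i j : Fin n) : Continuous fun y => Z.K y i j := by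
  have hs0 : (s0 : ℝ) ≠ 0 := by unfold s0; norm_num
  have e : (fun y => Z.K y i j) = fun y => s0⁻¹ * ((1 : Mx n) i j - dI j Z.b y i) := by
    funext y
    rw [Z.Db]
    field_simp
    ring
  rw [e]
  exact continuous_const.mul (continuous_const.sub (s5v_dI_continuous Z.b_smooth i j))

theorem s5v_Qo_continuous (Z : HiInput n) (i j : Fin n) : Continuous fun y => Z.Qo y i j :=
  s5v_dI_continuous (s5v_om_contDiff Z) i j

theorem s5v_Qo_gap (Z : HiInput n) (h : Z.om = 0) (y : EE n) : Z.Qo y = 0 := by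
  ext i j
  simp [HiInput.Qo, h, dI]

theorem s5v_Qo_sq (Z : HiInput n) (h : Z.om = Z.w) (y : EE n) :
    mxSq (Z.Qo y) = hsSq (fderiv ℝ Z.w y) := by
  rw [s5k_hsSq, s5v_mxSq_eq, Finset.sum_comm]
  refine Finset.sum_congr rfl fun j _ => ?_
  rw [EuclideanSpace.norm_sq_eq]
  refine Finset.sum_congr rfl fun i _ => ?_
  simp [HiInput.Qo, h, dI]

end Claimed.Agent.R259
end

/- ===== packed: Claimed.Agent.R259.S5CurvCore ===== -/
section
/-
Row 259 (S0499), package BP-S5-curv: the CORE INEQUALITY of the curvature estimate (completion of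
the proof of Proposition 5.1), GLUE.  Owner: helper19.

`F` is a test field (level `l`), `φ` a test field which is a strong approximate eigenfield close to
`DF`, `ψ` a test field with small operator norm which is extremely close to `φ` (closeness measured
against quantities which depend on `F` only).  Then `⟨DF, K DF⟩ ≤ 195 θ I`.
In the gap branch `Qo = 0` and `φ = ψ = T_{l+1}`.
-/
set_option autoImplicit false

open MeasureTheory
open scoped ContDiff BigOperators Matrix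
open Claimed.Agent.R260 (Mx mxSq)

namespace Claimed.Agent.R259

variable {n d : ℕ} {η : EE n → ℝ}

theorem s5v_memLp_cs {V : Type} [NormedAddCommGroup V] (hη : SPD η) {F : EE n → V}
    (hc : Continuous F) (hs : HasCompactSupport F) : MemLp F 2 (dm η) := by
  have := s5k_prob hη
  obtain ⟨C, hC⟩ := hs.exists_bound_of_continuous hc
  exact MemLp.of_bound hc.aestronglyMeasurable C (Filter.Eventually.of_forall hC)

theorem s5v_slot_right_zero (r : Fin d) (M : Mx n) : slot r M (0 : TT n d) = 0 :=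
  (slotL r M).map_zero

theorem s5v_slot_cs (r : Fin d) (M : EE n → Mx n) {t : EE n → TT n d} (ht : HasCompactSupport t) :
    HasCompactSupport fun y => slot r (M y) (t y) := by
  refine ht.mono fun y hy => ?_
  simp only [Function.mem_support, ne_eq] at hy ⊢
  intro h
  apply hy
  rw [h, s5v_slot_right_zero]

theorem s5v_slot_memLp (hη : SPD η) (r : Fin d) {M : EE n → Mx n}
    (hM : ∀ i j, Continuous fun y => M y i j) {t : EE n → TT n d} (ht : Continuous t)
    (hs : HasCompactSupport t) : MemLp (fun y => slot r (M y) (t y)) 2 (dm η) :=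
  s5v_memLp_cs hη (s5v_slot_continuous r hM ht) (s5v_slot_cs r M hs)

theorem s5v_s0_inv : (s0⁻¹ : ℝ) = 8 := by
  unfold s0
  norm_num

theorem s5v_K_norm_le (Z : HiInput n) (r : Fin d) (y : EE n) (t : TT n d) :
    ‖slot r (Z.K y) t‖ ≤ 8 * ‖t‖ := by
  have h := Z.K_le y
  rw [s5v_s0_inv] at h
  exact s5v_slot_norm_le r (Z.K_nonneg y) h t

theorem s5v_test_sub {V : Type} [NormedAddCommGroup V] [NormedSpace ℝ V] {F G : EE n → V}
    (hF : IsTestV F) (hG : IsTestV G) : IsTestV fun y => F y - G y :=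
  ⟨hF.1.sub hG.1, hF.2.sub hG.2⟩

theorem s5v_abs_le_of_sq {x b : ℝ} (hb : 0 ≤ b) (h : x ^ 2 ≤ b ^ 2) : |x| ≤ b :=
  abs_le_of_sq_le_sq h hb

/-- CORE INEQUALITY -/
theorem s5v_core (Z : HiInput n) {θ : ℝ} (hθ0 : 0 < θ) (hθ1 : θ ≤ 1)
    {F : EE n → TT n d} (hF : IsTestV F) {φ ψ : EE n → TT n (d + 1)} (hφ : IsTestV φ)
    (hψ : IsTestV ψ)
    (h1 : nSq Z.η (fun y => opA Z.η F y - F y) ≤ θ ^ 2 * Z.I)
    (h2 : nSq Z.η (tD F) ≤ 3 ^ 2 * Z.I)
    (h3 : nSq Z.η (fun y => tD F y - φ y) ≤ (5 * θ) ^ 2 * Z.I)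
    (h4 : nSq Z.η (fun y => opA Z.η φ y - φ y) ≤ (11 * θ) ^ 2 * Z.I)
    (h5 : nSq Z.η ψ ≤ 7 ^ 2 * Z.I) (h5' : nSq Z.η (tD ψ) ≤ 7 ^ 2 * Z.I)
    (h6 : nSq Z.η (fun y => slot (Fin.last d) (Z.Qo y) (ψ y)) ≤ (6 * θ) ^ 2 * Z.I)
    (h7 : nSq Z.η (tD (fun y => opA Z.η F y - F y)) * nSq Z.η (fun y => φ y - ψ y)
      ≤ (θ * Z.I) ^ 2)
    (h8 : nSq Z.η (fun y => slot (Fin.last d) (Z.Qo y)ᵀ (tD F y)) * nSq Z.η (fun y => φ y - ψ y)
      ≤ (θ * Z.I) ^ 2) :
    ipF Z.η (tD F) (fun y => slot (Fin.last d) (Z.K y) (tD F y)) ≤ 195 * θ * Z.I := by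
  have hη := Z.spd
  have hI : 0 < Z.I := Z.I_pos
  have hI0 : 0 ≤ Z.I := hI.le
  set L := Fin.last d with hL
  set G : EE n → TT n d := fun y => opA Z.η F y - F y with hG
  have hGt : IsTestV G := s5v_test_sub (s5k_opA_test hη hF) hF
  have hDF : IsTestV (tD F) := s5k_tD_test hF
  have hDG : IsTestV (tD G) := s5k_tD_test hGt
  have hKc := s5v_K_continuous Z
  have hQc := s5v_Qo_continuous Z
  have hQtc : ∀ i j, Continuous fun y => (Z.Qo y)ᵀ i j := fun i j => hQc j i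
  -- normalised bounds
  have nDF : NB Z.η Z.I (tD F) 3 := ⟨s5k_test_memLp hη hDF, h2⟩
  have nDFφ : NB Z.η Z.I (fun y => tD F y - φ y) (5 * θ) :=
    ⟨s5k_test_memLp hη (s5v_test_sub hDF hφ), h3⟩
  have nAφ : NB Z.η Z.I (fun y => opA Z.η φ y - φ y) (11 * θ) :=
    ⟨s5k_test_memLp hη (s5v_test_sub (s5k_opA_test hη hφ) hφ), h4⟩
  have nψ : NB Z.η Z.I ψ 7 := ⟨s5k_test_memLp hη hψ, h5⟩
  have nQψ : NB Z.η Z.I (fun y => slot L (Z.Qo y) (ψ y)) (6 * θ) :=
    ⟨s5v_slot_memLp hη L hQc hψ.1.continuous hψ.2, h6⟩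
  have nKψ : NB Z.η Z.I (fun y => slot L (Z.K y) (ψ y)) (8 * 7) :=
    nψ.of_norm_le (s5v_slot_continuous L hKc hψ.1.continuous).aestronglyMeasurable (by norm_num)
      (fun y => s5v_K_norm_le Z L y _)
  have nKd : NB Z.η Z.I (fun y => slot L (Z.K y) (tD F y - φ y)) (8 * (5 * θ)) :=
    nDFφ.of_norm_le (s5v_slot_continuous L hKc
      (hDF.1.continuous.sub hφ.1.continuous)).aestronglyMeasurable (by norm_num)
      (fun y => s5v_K_norm_le Z L y _)
  have mφ := s5k_test_memLp hη hφ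
  have mψ := s5k_test_memLp hη hψ
  have mφψ := s5k_test_memLp hη (s5v_test_sub hφ hψ)
  have mDF := nDF.1
  have mDG := s5k_test_memLp hη hDG
  have mKφ := s5v_slot_memLp hη L hKc hφ.1.continuous hφ.2
  have mQφ := s5v_slot_memLp hη L hQc hφ.1.continuous hφ.2
  have mQd : MemLp (fun y => slot L (Z.Qo y) (φ y - ψ y)) 2 (dm Z.η) :=
    s5v_slot_memLp hη L hQc (t := fun y => φ y - ψ y) (hφ.1.continuous.sub hψ.1.continuous)
      (s5v_test_sub hφ hψ).2
  -- Step A: the identity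
  have hA : ipF Z.η (tD F) (fun y => slot L (Z.K y) (φ y)) =
      ipF Z.η (tD G) φ - ipF Z.η (tD F) (fun y => opA Z.η φ y - φ y)
        + ipF Z.η (tD F) (fun y => slot L (Z.Qo y) (φ y)) := by
    have e := s5v_id_T hη hF hφ
    have e1 : (fun y => slot (Fin.last d) (hessL Z.η y) (φ y)) =
        fun y => slot L (Z.K y) (φ y) - slot L (Z.Qo y) (φ y) := by
      funext y
      rw [s5v_hessL, s5v_slot_sub]
    rw [e1, s5k_ip_sub_right mDF mKφ mQφ] at e
    linarith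
  -- Step B
  have hB1 : ipF Z.η (tD G) φ = ipF Z.η (tD G) ψ + ipF Z.η (tD G) (fun y => φ y - ψ y) := by
    rw [← s5k_ip_add_right mDG mψ mφψ]
    congr 1
    funext y
    abel
  have hB2 : |ipF Z.η (tD G) (fun y => φ y - ψ y)| ≤ θ * Z.I :=
    s5v_abs_le_of_sq (by positivity) ((s5k_ip_sq_le mDG mφψ).trans h7)
  have hB3 : |ipF Z.η (tD G) ψ| ≤ 22 * θ * Z.I := by
    have e := s5v_div_T hη hψ hGt
    have e1 : (fun y => slot (Fin.last d) (hessL Z.η y) (ψ y)) =
        fun y => slot L (Z.K y) (ψ y) - slot L (Z.Qo y) (ψ y) := by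
      funext y
      rw [s5v_hessL, s5v_slot_sub]
    rw [e1, s5k_ip_sub_right mψ nKψ.1 nQψ.1] at e
    have b1 := nψ.ip_le nKψ (by norm_num) (by norm_num) hI0
    have b2 := nψ.ip nQψ (by norm_num) (by positivity) hI0
    have b2' := (abs_le.mp b2).1
    have b3 : nSq Z.η (tD ψ) + (ipF Z.η ψ (fun y => slot L (Z.K y) (ψ y))
        - ipF Z.η ψ (fun y => slot L (Z.Qo y) (ψ y))) ≤ 483 * Z.I := by
      nlinarith
    have b4 : 0 ≤ nSq Z.η G := s5k_nSq_nonneg _ _
    refine s5v_abs_le_of_sq (by positivity) (e.trans ?_)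
    calc nSq Z.η G * _ ≤ nSq Z.η G * (483 * Z.I) := mul_le_mul_of_nonneg_left b3 b4
      _ ≤ (θ ^ 2 * Z.I) * (483 * Z.I) := mul_le_mul_of_nonneg_right h1 (by positivity)
      _ ≤ (22 * θ * Z.I) ^ 2 := by nlinarith [sq_nonneg (θ * Z.I)]
  -- Step C
  have hC := nDF.ip nAφ (by norm_num) (by positivity) hI0
  -- Step D
  have hD1 : ipF Z.η (tD F) (fun y => slot L (Z.Qo y) (φ y)) =
      ipF Z.η (tD F) (fun y => slot L (Z.Qo y) (ψ y))
        + ipF Z.η (tD F) (fun y => slot L (Z.Qo y) (φ y - ψ y)) := by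
    rw [← s5k_ip_add_right mDF nQψ.1 mQd]
    congr 1
    funext y
    rw [s5v_slot_sub_right]
    abel
  have hD2 := nDF.ip nQψ (by norm_num) (by positivity) hI0
  have hD3 : |ipF Z.η (tD F) (fun y => slot L (Z.Qo y) (φ y - ψ y))| ≤ θ * Z.I := by
    have e : ipF Z.η (tD F) (fun y => slot L (Z.Qo y) (φ y - ψ y)) =
        ipF Z.η (fun y => slot L (Z.Qo y)ᵀ (tD F y)) (fun y => φ y - ψ y) := by
      unfold ipF
      congr 1
      funext y
      rw [s5v_slot_adj]
    rw [e]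
    exact s5v_abs_le_of_sq (by positivity)
      ((s5k_ip_sq_le (s5v_slot_memLp hη L hQtc hDF.1.continuous hDF.2) mφψ).trans h8)
  -- Step F
  have hF1 : ipF Z.η (tD F) (fun y => slot L (Z.K y) (tD F y)) =
      ipF Z.η (tD F) (fun y => slot L (Z.K y) (φ y))
        + ipF Z.η (tD F) (fun y => slot L (Z.K y) (tD F y - φ y)) := by
    rw [← s5k_ip_add_right mDF mKφ nKd.1]
    congr 1
    funext y
    rw [s5v_slot_sub_right]
    abel
  have hF2 := nDF.ip nKd (by norm_num) (by positivity) hI0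
  rw [hF1, hA, hB1, hD1]
  have i1 := (abs_le.mp hB2).2
  have i2 := (abs_le.mp hB3).2
  have i3 := (abs_le.mp hC).1
  have i4 := (abs_le.mp hD2).2
  have i5 := (abs_le.mp hD3).2
  have i6 := (abs_le.mp hF2).2
  nlinarith

end Claimed.Agent.R259
end

/- ===== packed: Claimed.Agent.R259.S5CurvMarkov ===== -/
section
/-
Row 259 (S0499), package BP-S5-curv, LEAF L-s5v-markov (no paper needed).  Architect: helper19.
Proof: helper47.

APPROXIMATE MARKOV PROPERTY OF THE RESOLVENT FOR CONVEX SETS.  If `φ` is a test field with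
`(1 + A_η) φ = u + e`, where `u` takes its values in a closed convex set `K ∋ 0`, then `φ` is
`L²(η)`-close (up to `√2 ‖e‖₂`) to a TEST field `ψ` with values in the `τ`-neighbourhood of `K` and
with pointwise smaller derivative.

PROOF.  Take `π` and `p` (for a small `ε`, chosen at the end) from `s5v_proj`, and put
`ψ y := p (φ y) - p 0`, `ψ⁰ y := π (φ y)`.  Then
* `ψ` is smooth; `ψ y = 0` where `φ y = 0`, so `ψ` has compact support;
* `‖ψ y - p (φ y)‖ = ‖p 0 - π 0‖ ≤ ε` and `p (φ y) ∈ K`;  `‖ψ y - ψ⁰ y‖ ≤ 2 ε`;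
* `dI i ψ y = fderiv p (φ y) (dI i φ y)` (chain rule), so `‖dI i ψ y‖ ≤ ‖dI i φ y‖`, and
  `⟪dI i (φ - ψ) y, dI i φ y⟫ = ‖dI i φ y‖² - ⟪dI i ψ y, dI i φ y⟫ ≥ 0`;
* (1) `ipF η (φ - ψ) (opA η φ) = ∫ ∑ i ⟪dI i (φ - ψ), dI i φ⟫ ≥ 0`  (`s5k_ibp`, `F := φ - ψ`, `T := φ`);
* (2) pointwise, with `e := φ + A φ - u`, `D := φ - ψ`:
      `‖D‖² ≤ 2 ‖e‖² + 4 ε (2 + ‖e‖² + ‖φ - u‖²) - 4 ⟪D, A φ⟫ + 8 ε²`
  (variational inequality with `κ = u y`, Young);  integrate and choose `ε`.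
-/
set_option autoImplicit false

open MeasureTheory
open scoped ContDiff BigOperators

namespace Claimed.Agent.R259

variable {n : ℕ} {η : EE n → ℝ}
  {V : Type} [NormedAddCommGroup V] [InnerProductSpace ℝ V] [FiniteDimensional ℝ V]

omit [FiniteDimensional ℝ V] in
/-- the pointwise inequality behind `s5v_markov` -/
theorem s5v_markov_pt {ε : ℝ} (hε : 0 ≤ ε) (f a u q q0 : V)
    (hq : ‖q - q0‖ ≤ 2 * ε) (hv : inner ℝ (u - q0) (f - q0) ≤ 0) :
    ‖f - q‖ ^ 2 ≤ (2 + 4 * ε) * ‖f + a - u‖ ^ 2 + 4 * ε * ‖f - u‖ ^ 2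
      - 4 * inner ℝ (f - q) a + (8 * ε + 8 * ε ^ 2) := by
  set e : V := f + a - u with he
  set D : V := f - q with hD
  set D0 : V := f - q0 with hD0
  have h1 : ‖D‖ ≤ ‖D0‖ + 2 * ε := by
    have : D = D0 - (q - q0) := by rw [hD, hD0]; abel
    rw [this]
    exact (norm_sub_le _ _).trans (by linarith)
  have h2 : ‖D‖ ^ 2 ≤ 2 * ‖D0‖ ^ 2 + 8 * ε ^ 2 := by
    have : ‖D‖ ^ 2 ≤ (‖D0‖ + 2 * ε) ^ 2 := by gcongr
    nlinarith [sq_nonneg (‖D0‖ - 2 * ε)]
  have h3 : ‖D0‖ ^ 2 = inner ℝ (f - u) D0 + inner ℝ (u - q0) D0 := by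
    rw [← inner_add_left, ← real_inner_self_eq_norm_sq]
    congr 1
    rw [hD0]; abel
  have h4 : inner ℝ (f - u) D0 = inner ℝ e D0 - inner ℝ e (q - q0) - inner ℝ D a
      + inner ℝ (f - u) (q - q0) := by
    have e1 : D0 = D + (q - q0) := by rw [hD, hD0]; abel
    have e2 : f - u = e - a := by rw [he]; abel
    have e3 : inner ℝ (f - u) D0 = inner ℝ (f - u) D + inner ℝ (f - u) (q - q0) := by
      rw [e1, inner_add_right]
    have e4 : inner ℝ (f - u) D = inner ℝ e D - inner ℝ D a := by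
      rw [e2, inner_sub_left, real_inner_comm D a]
    have e5 : inner ℝ e D = inner ℝ e D0 - inner ℝ e (q - q0) := by
      rw [e1, inner_add_right]; ring
    rw [e3, e4, e5]
  have h5 : inner ℝ e D0 ≤ (‖e‖ ^ 2 + ‖D0‖ ^ 2) / 2 := by
    have := real_inner_le_norm e D0
    nlinarith [sq_nonneg (‖e‖ - ‖D0‖)]
  have h6 : -inner ℝ e (q - q0) ≤ ε * (1 + ‖e‖ ^ 2) := by
    have h := abs_real_inner_le_norm e (q - q0)
    have h' : -inner ℝ e (q - q0) ≤ ‖e‖ * ‖q - q0‖ := (neg_le_abs _).trans h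
    have h'' : ‖e‖ * ‖q - q0‖ ≤ ‖e‖ * (2 * ε) := by gcongr
    nlinarith [mul_nonneg hε (sq_nonneg (‖e‖ - 1))]
  have h7 : inner ℝ (f - u) (q - q0) ≤ ε * (1 + ‖f - u‖ ^ 2) := by
    have h' : inner ℝ (f - u) (q - q0) ≤ ‖f - u‖ * ‖q - q0‖ := real_inner_le_norm _ _
    have h'' : ‖f - u‖ * ‖q - q0‖ ≤ ‖f - u‖ * (2 * ε) := by gcongr
    nlinarith [mul_nonneg hε (sq_nonneg (‖f - u‖ - 1))]
  nlinarith

theorem s5v_markov (hη : SPD η) {K : Set V} (hc : Convex ℝ K) (hcl : IsClosed K)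
    (h0 : (0 : V) ∈ K) {u φ : EE n → V} (hu : MemLp u 2 (dm η)) (huK : ∀ y, u y ∈ K)
    (hφ : IsTestV φ) {τ : ℝ} (hτ : 0 < τ) :
    ∃ ψ : EE n → V, IsTestV ψ ∧ (∀ y, ∃ κ ∈ K, ‖ψ y - κ‖ ≤ τ) ∧ (∀ y, dSq ψ y ≤ dSq φ y) ∧
      nSq η (fun y => φ y - ψ y) ≤ 2 * nSq η (fun y => φ y + opA η φ y - u y) + τ := by
  have hprob := s5k_prob hη
  obtain ⟨π, hπK, hvar, hlip, hπ0, happ⟩ := s5v_proj hc hcl h0
  set N : ℝ := nSq η (fun y => φ y + opA η φ y - u y) with hN
  set B : ℝ := nSq η (fun y => φ y - u y) with hB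
  have hN0 : 0 ≤ N := s5k_nSq_nonneg _ _
  have hB0 : 0 ≤ B := s5k_nSq_nonneg _ _
  set M : ℝ := 4 * (2 + N + B) + 8 with hM
  have hM16 : 16 ≤ M := by rw [hM]; linarith
  set ε : ℝ := min 1 (τ / M) with hεdef
  have hεpos : 0 < ε := lt_min one_pos (div_pos hτ (by linarith))
  have hε1 : ε ≤ 1 := min_le_left _ _
  have hεM : ε * M ≤ τ := by
    have : ε ≤ τ / M := min_le_right _ _
    rwa [le_div_iff₀ (by linarith)] at this
  have hετ : ε ≤ τ := by nlinarith
  obtain ⟨p, hpC, hpK, hpd, hpπ⟩ := happ ε hεpos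
  set ψ : EE n → V := fun y => p (φ y) - p 0 with hψ
  have hψC : ContDiff ℝ ∞ ψ := (hpC.comp hφ.1).sub contDiff_const
  have hψT : IsTestV ψ :=
    ⟨hψC, hφ.2.comp_left (g := fun v => p v - p 0) (sub_self _)⟩
  have hdφ : ∀ y, DifferentiableAt ℝ φ y := fun y =>
    (hφ.1.differentiable (by simp)).differentiableAt
  have hdψ : ∀ y, DifferentiableAt ℝ ψ y := fun y =>
    (hψC.differentiable (by simp)).differentiableAt
  have hdp : ∀ v, DifferentiableAt ℝ p v := fun v =>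
    (hpC.differentiable (by simp)).differentiableAt
  have hchain : ∀ i y, dI i ψ y = fderiv ℝ p (φ y) (dI i φ y) := by
    intro i y
    unfold dI
    have : HasFDerivAt ψ ((fderiv ℝ p (φ y)).comp (fderiv ℝ φ y)) y :=
      ((hdp (φ y)).hasFDerivAt.comp y (hdφ y).hasFDerivAt).sub_const (p 0)
    rw [this.fderiv]
    rfl
  have hle : ∀ i y, ‖dI i ψ y‖ ≤ ‖dI i φ y‖ := by
    intro i y
    rw [hchain]
    calc ‖fderiv ℝ p (φ y) (dI i φ y)‖ ≤ ‖fderiv ℝ p (φ y)‖ * ‖dI i φ y‖ :=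
          ContinuousLinearMap.le_opNorm _ _
      _ ≤ 1 * ‖dI i φ y‖ := by gcongr; exact hpd _
      _ = ‖dI i φ y‖ := one_mul _
  have hp0 : ‖p 0‖ ≤ ε := by
    have := hpπ 0
    rwa [hπ0, sub_zero] at this
  set D : EE n → V := fun y => φ y - ψ y with hD
  have hDC : ContDiff ℝ ∞ D := hφ.1.sub hψC
  have hφL := s5k_test_memLp hη hφ
  have hψL := s5k_test_memLp hη hψT
  have hAL := s5k_test_memLp hη (s5k_opA_test hη hφ)
  have hDL : MemLp D 2 (dm η) := hφL.sub hψL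
  have heL : MemLp (fun y => φ y + opA η φ y - u y) 2 (dm η) := (hφL.add hAL).sub hu
  have hfuL : MemLp (fun y => φ y - u y) 2 (dm η) := hφL.sub hu
  have hip : 0 ≤ ipF η D (opA η φ) := by
    rw [← s5k_ibp hη (hDC.of_le (by exact_mod_cast le_top)) hφ]
    refine integral_nonneg fun y => Finset.sum_nonneg fun i _ => ?_
    have e1 : dI i D y = dI i φ y - dI i ψ y := by
      unfold dI
      rw [hD, fderiv_fun_sub (hdφ y) (hdψ y)]
      rfl
    rw [e1, inner_sub_left, real_inner_self_eq_norm_sq]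
    have h1 : inner ℝ (dI i ψ y) (dI i φ y) ≤ ‖dI i ψ y‖ * ‖dI i φ y‖ := real_inner_le_norm _ _
    have h2 := hle i y
    nlinarith [norm_nonneg (dI i φ y), norm_nonneg (dI i ψ y)]
  refine ⟨ψ, hψT, fun y => ⟨p (φ y), hpK _, ?_⟩, fun y => ?_, ?_⟩
  · have : ψ y - p (φ y) = -p 0 := by
      show p (φ y) - p 0 - p (φ y) = -p 0
      abel
    rw [this, norm_neg]
    exact hp0.trans hετ
  · unfold dSq
    refine Finset.sum_le_sum fun i _ => ?_
    have := hle i y
    gcongr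
  · have hpt : ∀ y, ‖D y‖ ^ 2 ≤ (2 + 4 * ε) * ‖φ y + opA η φ y - u y‖ ^ 2
        + 4 * ε * ‖φ y - u y‖ ^ 2 - 4 * inner ℝ (D y) (opA η φ y) + (8 * ε + 8 * ε ^ 2) := by
      intro y
      refine s5v_markov_pt hεpos.le (φ y) (opA η φ y) (u y) (ψ y) (π (φ y)) ?_
        (hvar (φ y) (u y) (huK y))
      have : ψ y - π (φ y) = (p (φ y) - π (φ y)) - p 0 := by
        show p (φ y) - p 0 - π (φ y) = (p (φ y) - π (φ y)) - p 0
        abel
      rw [this]
      calc ‖(p (φ y) - π (φ y)) - p 0‖ ≤ ‖p (φ y) - π (φ y)‖ + ‖p 0‖ := norm_sub_le _ _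
        _ ≤ ε + ε := add_le_add (hpπ _) hp0
        _ = 2 * ε := by ring
    have i1 := (s5k_int_sq heL).const_mul (2 + 4 * ε)
    have i2 := (s5k_int_sq hfuL).const_mul (4 * ε)
    have i3 := (s5k_int_inner hDL hAL).const_mul 4
    have i4 : Integrable (fun _ : EE n => (8 * ε + 8 * ε ^ 2 : ℝ)) (dm η) := integrable_const _
    have hint := integral_mono (s5k_int_sq hDL) (((i1.add i2).sub i3).add i4) hpt
    have hval : ∫ y, ((2 + 4 * ε) * ‖φ y + opA η φ y - u y‖ ^ 2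
        + 4 * ε * ‖φ y - u y‖ ^ 2 - 4 * inner ℝ (D y) (opA η φ y) + (8 * ε + 8 * ε ^ 2)) ∂(dm η)
        = (2 + 4 * ε) * N + 4 * ε * B - 4 * ipF η D (opA η φ) + (8 * ε + 8 * ε ^ 2) := by
      have := integral_add ((i1.add i2).sub i3) i4
      simp only [Pi.add_apply, Pi.sub_apply] at this
      rw [this]
      have := integral_sub (i1.add i2) i3
      simp only [Pi.add_apply] at this
      rw [this, integral_add i1 i2, integral_const_mul, integral_const_mul, integral_const_mul,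
        integral_const]
      simp [hN, hB, nSq, ipF]
    have hfin : nSq η D ≤ (2 + 4 * ε) * N + 4 * ε * B - 4 * ipF η D (opA η φ)
        + (8 * ε + 8 * ε ^ 2) := by
      rw [← hval]
      exact hint
    have h8 : 8 * ε ^ 2 ≤ 8 * ε := by nlinarith
    have : (4 * (2 + N + B) + 8) * ε ≤ τ := by rw [← hM, mul_comm]; exact hεM
    nlinarith

end Claimed.Agent.R259
end

/- ===== packed: Claimed.Agent.R259.S5CurvClip ===== -/
section
/-
Row 259 (S0499), package BP-S5-curv, LEAF L-s5v-clip (no paper needed).  Architect: helper19.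

Singular value clipping: a tensor is at squared distance at most `tailTr (c²) (red t)` from the
operator norm ball of radius `c` (flattening along the slot `0`), and integrability of the tail
functional along a test field.

PROOF of `s5v_clip`.  `R := red t = flat t * (flat t)ᵀ` is symmetric PSD (eigenvalues `≥ 0`).
`f x := min 1 (c / √x)` (`f x = 1` for `x ≤ c²`), `κ := slot 0 (mxFun f R) t`, so that
`flat κ = mxFun f R * flat t`.
* for every `M`: `‖slot 0 M κ‖² = tr (M f(R) R f(R) Mᵀ) = tr (M g(R) Mᵀ)` with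
  `g x = f x ² x = min x c² ≤ c²`; `mxFun_trace_le`/`mxFun_quad_mono` give `≤ c² mxSq M`;
* `‖t - κ‖² = tr ((1-f)(R) R (1-f)(R)) = tr (mxFun h R)`, `h x = (1 - f x)² x ≤ x 1_{x > c²}`,
  and `mxFun_trace` (trace = sum over the eigenvalues).
API: `R260/MxFun.lean` (`mxFun_mul`, `mxFun_id`, `mxFun_trace`, `mxFun_congr`, ...).
PROOF of `s5v_tail_integrable`: measurability from `RM.of_mxFun` (`MkBorel.lean`) and
`RM.meas_trace`; `0 ≤ tailTr a (red t) ≤ tr (red t) = ‖t‖²` for `a ≥ 0`; a test field is bounded.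
-/
set_option autoImplicit false

open MeasureTheory
open scoped ContDiff BigOperators Matrix
open Claimed.Agent.R260 (Mx mxFun mxSq mxEig)
open Claimed.Agent.R260

namespace Claimed.Agent.R259

variable {n d : ℕ} {η : EE n → ℝ}

theorem s5v_sum_cons (F : Idx n (d + 1) → ℝ) :
    ∑ α, F α = ∑ i, ∑ β : Idx n d, F (Fin.cons i β : Fin (d + 1) → Fin n) := by
  rw [← (Fin.consEquiv (fun _ : Fin (d + 1) => Fin n)).sum_comp, Fintype.sum_prod_type]
  rfl

theorem s5v_flat_apply (t : TT n (d + 1)) (i : Fin n) (β : Idx n d) :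
    flat t i β = t (Fin.cons i β : Fin (d + 1) → Fin n) := rfl

theorem s5v_flat_slot (M : Mx n) (t : TT n (d + 1)) : flat (slot 0 M t) = M * flat t := by
  ext i β
  rw [s5v_flat_apply, s5v_slot_apply, Matrix.mul_apply]
  simp [s5v_flat_apply, Fin.update_cons_zero]

theorem s5v_norm_sq_red (t : TT n (d + 1)) : ‖t‖ ^ 2 = Matrix.trace (red t) := by
  rw [s5v_norm_sq_eq, s5v_sum_cons]
  simp only [red, Matrix.trace, Matrix.diag_apply, Matrix.mul_apply, Matrix.transpose_apply,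
    s5v_flat_apply, sq]

theorem s5v_red_slot (M : Mx n) (t : TT n (d + 1)) : red (slot 0 M t) = M * red t * Mᵀ := by
  unfold red
  rw [s5v_flat_slot, Matrix.transpose_mul, Matrix.mul_assoc, Matrix.mul_assoc, Matrix.mul_assoc]

theorem s5v_red_isSymm (t : TT n (d + 1)) : (red t).IsSymm := by
  unfold red Matrix.IsSymm
  rw [Matrix.transpose_mul, Matrix.transpose_transpose]

/-- `f(R) R f(R) = (f · id · f)(R)` -/
theorem s5v_red_slot_mxFun (f : ℝ → ℝ) (t : TT n (d + 1)) :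
    red (slot 0 (mxFun f (red t)) t) = mxFun (fun x => f x * x * f x) (red t) := by
  rw [s5v_red_slot, (mxFun_isSymm f (red t)).eq, mxFun_mul, mxFun_mul, mxFun_id (s5v_red_isSymm t)]

theorem s5v_clip {c : ℝ} (hc : 0 < c) (t : TT n (d + 1)) :
    ∃ κ ∈ (opBall (0 : Fin (d + 1)) c : Set (TT n (d + 1))),
      ‖t - κ‖ ^ 2 ≤ tailTr (c ^ 2) (red t) := by
  set f : ℝ → ℝ := fun x => min 1 (c / Real.sqrt x) with hf
  have hf0 : ∀ x, 0 ≤ f x := fun x => le_min zero_le_one (by positivity)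
  have hf1 : ∀ x, f x ≤ 1 := fun x => min_le_left _ _
  refine ⟨slot 0 (mxFun f (red t)) t, ?_, ?_⟩
  · intro M
    rw [s5v_norm_sq_red, s5v_red_slot, s5v_red_slot_mxFun, Matrix.trace_mul_comm, ← Matrix.mul_assoc]
    refine mxFun_trace_le (fun i => ?_) M
    set x := mxEig (red t) i
    rcases le_or_gt x 0 with hx | hx
    · have : f x = 0 := by
        simp only [hf, Real.sqrt_eq_zero_of_nonpos hx, div_zero]
        norm_num
      rw [this]
      simp
      positivity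
    · have h1 : f x ≤ c / Real.sqrt x := min_le_right _ _
      have hs : 0 < Real.sqrt x := Real.sqrt_pos.2 hx
      have h2 : f x * Real.sqrt x ≤ c := by rwa [le_div_iff₀ hs] at h1
      have h3 : f x * x * f x = (f x * Real.sqrt x) ^ 2 := by
        rw [mul_pow, Real.sq_sqrt hx.le]; ring
      rw [h3]
      exact pow_le_pow_left₀ (mul_nonneg (hf0 x) hs.le) h2 2
  · have e : t - slot 0 (mxFun f (red t)) t = slot 0 (mxFun (fun x => 1 - f x) (red t)) t := by
      rw [mxFun_sub, mxFun_const, one_smul, s5v_slot_sub, s5v_slot_one]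
    rw [e, s5v_norm_sq_red, s5v_red_slot_mxFun, mxFun_trace]
    unfold tailTr
    rw [mxFun_trace]
    refine Finset.sum_le_sum fun i _ => ?_
    set x := mxEig (red t) i
    split_ifs with hx
    · have hx0 : 0 < x := lt_of_le_of_lt (sq_nonneg c) hx
      have h1 : (1 - f x) * x * (1 - f x) = (1 - f x) ^ 2 * x := by ring
      rw [h1]
      have h2 : (1 - f x) ^ 2 ≤ 1 := by
        have := hf0 x
        have := hf1 x
        nlinarith
      nlinarith
    · rw [not_lt] at hx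
      rcases le_or_gt x 0 with hx0 | hx0
      · have h1 : (1 - f x) * x * (1 - f x) = (1 - f x) ^ 2 * x := by ring
        rw [h1]
        exact mul_nonpos_of_nonneg_of_nonpos (sq_nonneg _) hx0
      · have hs : 0 < Real.sqrt x := Real.sqrt_pos.2 hx0
        have h2 : Real.sqrt x ≤ c := by
          rw [← Real.sqrt_sq hc.le]
          exact Real.sqrt_le_sqrt hx
        have : f x = 1 := by
          simp only [hf]
          exact min_eq_left ((one_le_div hs).2 h2)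
        rw [this]
        simp



theorem s5v_tail_bounds (a : ℝ) (t : TT n (d + 1)) :
    0 ≤ tailTr a (red t) ∧ tailTr a (red t) ≤ ‖t‖ ^ 2 := by
  have he : ∀ i, 0 ≤ mxEig (red t) i := fun i => mk_eig_nonneg (mk_psd_gram (flat t)) i
  have h1 : ‖t‖ ^ 2 = ∑ i, mxEig (red t) i := by
    rw [s5v_norm_sq_red]
    conv_lhs => rw [← mxFun_id (s5v_red_isSymm t)]
    rw [mxFun_trace]
  unfold tailTr
  rw [mxFun_trace, h1]
  constructor
  · refine Finset.sum_nonneg fun i _ => ?_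
    split_ifs
    · exact he i
    · exact le_rfl
  · refine Finset.sum_le_sum fun i _ => ?_
    split_ifs
    · exact le_rfl
    · exact he i

theorem s5v_tail_integrable (hη : SPD η) {S : EE n → TT n (d + 1)} (hS : IsTestV S) {a : ℝ}
    (ha : 0 ≤ a) : Integrable (fun y => tailTr a (red (S y))) (dm η) := by
  have hflat : RM (fun y => flat (S y)) := fun i β =>
    ((EuclideanSpace.proj (Fin.cons i β : Fin (d + 1) → Fin n) : TT n (d + 1) →L[ℝ] ℝ).continuous.comp
      hS.1.continuous).measurable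
  have hred : RM (fun y => red (S y)) := hflat.mul hflat.transpose
  have hf : Measurable (fun x : ℝ => if a < x then x else 0) :=
    Measurable.ite (measurableSet_lt measurable_const measurable_id) measurable_id measurable_const
  have hm : Measurable (fun y => tailTr a (red (S y))) :=
    (RM.of_mxFun hf hred fun y => s5v_red_isSymm (S y)).meas_trace
  refine Integrable.mono' (s5k_int_sq (s5k_test_memLp hη hS)) hm.aestronglyMeasurable
    (Filter.Eventually.of_forall fun y => ?_)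
  obtain ⟨h0, h1⟩ := s5v_tail_bounds a (S y)
  rw [Real.norm_of_nonneg h0]
  exact h1

end Claimed.Agent.R259
end

/- ===== packed: Claimed.Agent.R259.S5CurvStep ===== -/
section
/-
Row 259 (S0499), package BP-S5-curv: ONE STEP of the curvature estimate, GLUE.  Owner: helper19.

`F = T_l`, `S = T_{l+1}`.  Gap branch: `φ = ψ = S` in `s5v_core`.  Strict branch: `C` = metric
projection of `S` onto the operator norm ball of radius `θ` (close to `S` by the operator tails),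
`φ` = test field with `(1 + A) φ ≈ 2 C` (operator core), `ψ` = test field with operator norm
`≤ 3 θ`, extremely close to `φ` (approximate Markov property `s5v_markov`).
-/
set_option autoImplicit false

open MeasureTheory
open scoped ContDiff BigOperators Matrix
open Claimed.Agent.R260 (Mx mxSq)

namespace Claimed.Agent.R259

variable {n d : ℕ} {η : EE n → ℝ} {I : ℝ}

/-- `‖DX‖² = ⟨X, AX⟩ ≤ a (a + b) I` -/
theorem s5v_grad_bound (hη : SPD η) {X : EE n → TT n d} (hX : IsTestV X) (hI : 0 ≤ I) {a b : ℝ}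
    (ha : 0 ≤ a) (hb : 0 ≤ b) (h1 : NB η I X a) (h2 : NB η I (fun y => opA η X y - X y) b) :
    nSq η (tD X) ≤ a * (a + b) * I := by
  have e : nSq η (tD X) = ipF η X (opA η X) := by
    rw [← s5k_ip_self, s5k_ibp_tD hη (hX.1.of_le (by norm_num)) hX]
  have h3 : NB η I (opA η X) (a + b) := by
    have := h1.add h2 ha hb hI
    refine this.congr fun y => ?_
    abel
  rw [e]
  exact h1.ip_le h3 ha (by positivity) hI

/-- energy estimate for `(1 + A) X = e` -/
theorem s5v_energy (hη : SPD η) {X : EE n → TT n d} (hX : IsTestV X) (hI : 0 ≤ I) {a : ℝ}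
    (ha : 0 ≤ a) (h : NB η I (fun y => X y + opA η X y) a) :
    NB η I X a ∧ NB η I (tD X) a := by
  have mX := s5k_test_memLp hη hX
  have mA := s5k_test_memLp hη (s5k_opA_test hη hX)
  have mD := s5k_test_memLp hη (s5k_tD_test hX)
  have e1 : nSq η (tD X) = ipF η X (opA η X) := by
    rw [← s5k_ip_self, s5k_ibp_tD hη (hX.1.of_le (by norm_num)) hX]
  have e2 : ipF η X (fun y => X y + opA η X y) = nSq η X + nSq η (tD X) := by
    rw [s5k_ip_add_right mX mX mA, s5k_ip_self, e1]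
  have p1 := s5k_nSq_nonneg η X
  have p2 := s5k_nSq_nonneg η (tD X)
  have cs := s5k_ip_sq_le mX h.1
  rw [e2] at cs
  have hX2 : nSq η X ≤ a ^ 2 * I := by
    by_contra hcon
    push_neg at hcon
    have q0 : 0 ≤ a ^ 2 * I := by positivity
    have q1 : 0 < nSq η X := lt_of_le_of_lt q0 hcon
    have q2 : nSq η X * nSq η (fun y => X y + opA η X y) ≤ nSq η X * (a ^ 2 * I) :=
      mul_le_mul_of_nonneg_left h.2 p1
    nlinarith
  have nX : NB η I X a := ⟨mX, hX2⟩
  refine ⟨nX, mD, ?_⟩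
  have := nX.ip_le h ha ha hI
  rw [e2] at this
  nlinarith

/-- the metric projection is the nearest point -/
theorem s5v_nearest {V : Type} [NormedAddCommGroup V] [InnerProductSpace ℝ V] {x p κ : V}
    (h : inner ℝ (κ - p) (x - p) ≤ 0) : ‖x - p‖ ^ 2 ≤ ‖x - κ‖ ^ 2 := by
  have e : x - κ = (x - p) - (κ - p) := by abel
  have e2 := norm_sub_sq_real (x - p) (κ - p)
  rw [← e, real_inner_comm] at e2
  rw [e2]
  nlinarith [sq_nonneg ‖κ - p‖]

/-- GAP BRANCH -/
theorem s5v_gap_step (Z : HiInput n) (hg : Z.om = 0) {θ : ℝ} (hθ0 : 0 < θ) (hθ1 : θ ≤ 1)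
    {F : EE n → TT n d} (hF : IsTestV F) {S : EE n → TT n (d + 1)} (hS : IsTestV S)
    (hF1 : nSq Z.η (fun y => opA Z.η F y - F y) ≤ θ ^ 2 * Z.I) (hF2 : nSq Z.η F ≤ 2 ^ 2 * Z.I)
    (hS1 : nSq Z.η (fun y => opA Z.η S y - S y) ≤ θ ^ 2 * Z.I) (hS2 : nSq Z.η S ≤ 2 ^ 2 * Z.I)
    (hFS : nSq Z.η (fun y => tD F y - S y) ≤ θ ^ 2 * Z.I) :
    ipF Z.η (tD F) (fun y => slot (Fin.last d) (Z.K y) (tD F y)) ≤ 195 * θ * Z.I := by
  have hη := Z.spd
  have hI : 0 < Z.I := Z.I_pos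
  have hI0 : 0 ≤ Z.I := hI.le
  have z0 : nSq Z.η (fun y => S y - S y) = 0 := by
    unfold nSq
    simp
  have gF := s5v_grad_bound hη hF hI0 (by norm_num) hθ0.le ⟨s5k_test_memLp hη hF, hF2⟩
    ⟨s5k_test_memLp hη (s5v_test_sub (s5k_opA_test hη hF) hF), hF1⟩
  have gS := s5v_grad_bound hη hS hI0 (by norm_num) hθ0.le ⟨s5k_test_memLp hη hS, hS2⟩
    ⟨s5k_test_memLp hη (s5v_test_sub (s5k_opA_test hη hS) hS), hS1⟩
  have hθI : 0 ≤ θ ^ 2 * Z.I := by positivity
  refine s5v_core Z hθ0 hθ1 hF hS hS hF1 ?_ ?_ ?_ ?_ ?_ ?_ ?_ ?_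
  · nlinarith
  · nlinarith
  · nlinarith
  · nlinarith
  · nlinarith
  · have : nSq Z.η (fun y => slot (Fin.last d) (Z.Qo y) (S y)) = 0 := by
      unfold nSq
      simp [s5v_Qo_gap Z hg, s5v_slot_zero]
    rw [this]
    positivity
  · rw [z0, mul_zero]
    positivity
  · rw [z0, mul_zero]
    positivity

/-- the clipped field -/
theorem s5v_clip_field (hη : SPD η) {θ : ℝ} (hθ0 : 0 < θ) {S : EE n → TT n (d + 1)}
    (hS : IsTestV S) (hSsym : ∀ y, TSym (S y)) :
    ∃ C : EE n → TT n (d + 1), MemLp C 2 (dm η) ∧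
      (∀ y, C y ∈ (opBall (Fin.last d) θ : Set (TT n (d + 1)))) ∧
      nSq η (fun y => S y - C y) ≤ ∫ y, tailTr (θ ^ 2) (red (S y)) ∂(dm η) := by
  have mS := s5k_test_memLp hη hS
  obtain ⟨π, hπK, hπv, hπL, hπ0, -⟩ := s5v_proj (s5v_opBall_convex (n := n) (Fin.last d) hθ0.le)
    (s5v_opBall_closed (Fin.last d) θ) (s5v_opBall_zero (Fin.last d) θ)
  have hCc : Continuous fun y => π (S y) := hπL.continuous.comp hS.1.continuous
  have hCs : HasCompactSupport fun y => π (S y) := by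
    refine hS.2.mono fun y hy => ?_
    simp only [Function.mem_support, ne_eq] at hy ⊢
    intro h
    apply hy
    simp only [h, hπ0]
  have mC := s5v_memLp_cs hη hCc hCs
  have mSC : MemLp (fun y => S y - π (S y)) 2 (dm η) := mS.sub mC
  refine ⟨fun y => π (S y), mC, fun y => hπK _, ?_⟩
  unfold nSq
  refine integral_mono (s5k_int_sq mSC) (s5v_tail_integrable hη hS (sq_nonneg θ)) fun y => ?_
  obtain ⟨κ, hκ, hκd⟩ := s5v_clip hθ0 (S y)
  have hκ' : tPerm (Equiv.swap 0 (Fin.last d)) κ ∈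
      (opBall (Fin.last d) θ : Set (TT n (d + 1))) := by
    have := s5v_opBall_perm (Equiv.swap 0 (Fin.last d)) 0 hκ
    rwa [Equiv.swap_apply_left] at this
  have h1 := s5v_nearest (hπv (S y) _ hκ')
  have h2 : ‖S y - tPerm (Equiv.swap 0 (Fin.last d)) κ‖ = ‖S y - κ‖ := by
    have e := (tSym_iff (S y)).1 (hSsym y) (Equiv.swap 0 (Fin.last d))
    calc ‖S y - tPerm (Equiv.swap 0 (Fin.last d)) κ‖
        = ‖tPerm (Equiv.swap 0 (Fin.last d)) (S y) - tPerm (Equiv.swap 0 (Fin.last d)) κ‖ := by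
          rw [e]
      _ = ‖tPerm (Equiv.swap 0 (Fin.last d)) (S y - κ)‖ := by rw [map_sub]
      _ = ‖S y - κ‖ := LinearIsometryEquiv.norm_map _ _
  rw [h2] at h1
  exact h1.trans hκd

/-- the energy of `Q = Dw` -/
theorem s5v_Q_energy (Z : HiInput n) (hs : Z.om = Z.w) {θ : ℝ} (hθ0 : 0 < θ) (hθ1 : θ ≤ 1)
    (hw : nSq Z.η (fun y => opA Z.η Z.w y - Z.w y) ≤ θ ^ 2 * Z.I) :
    Integrable (fun y => mxSq (Z.Qo y)) (dm Z.η) ∧ ∫ y, mxSq (Z.Qo y) ∂(dm Z.η) ≤ 2 * Z.I := by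
  have hη := Z.spd
  have hI : 0 < Z.I := Z.I_pos
  have hI0 : 0 ≤ Z.I := hI.le
  obtain ⟨iQ, eQ, -⟩ := op_core_classical_vec hη.1 hη.2.1 Z.w_smooth Z.w_L2 Z.Aw_L2
  have nw : NB Z.η Z.I Z.w 1 := ⟨Z.w_L2, by rw [one_pow, one_mul]; exact le_rfl⟩
  have nAw : NB Z.η Z.I (opA Z.η Z.w) (1 + θ) := by
    have h : NB Z.η Z.I (fun y => opA Z.η Z.w y - Z.w y) θ := ⟨Z.Aw_L2.sub Z.w_L2, hw⟩
    refine (nw.add h (by norm_num) hθ0.le hI0).congr fun y => ?_
    abel
  have e1 : (fun y => mxSq (Z.Qo y)) = fun y => hsSq (fderiv ℝ Z.w y) :=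
    funext fun y => s5v_Qo_sq Z hs y
  rw [e1]
  refine ⟨iQ, ?_⟩
  rw [eQ]
  have := nw.ip_le nAw (by norm_num) (by positivity) hI0
  unfold ipF at this
  nlinarith

/-- a field with values near the operator norm ball is a bounded multiplier of `Q` -/
theorem s5v_Q_mul (Z : HiInput n) {θ τ : ℝ} (hθ0 : 0 < θ) (hτ0 : 0 ≤ τ) (hτ1 : τ ≤ θ)
    (iQ : Integrable (fun y => mxSq (Z.Qo y)) (dm Z.η))
    (hQ2 : ∫ y, mxSq (Z.Qo y) ∂(dm Z.η) ≤ 2 * Z.I)
    {ψ : EE n → TT n (d + 1)} (hψ : IsTestV ψ)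
    (hψK : ∀ y, ∃ κ ∈ (opBall (Fin.last d) (2 * θ) : Set (TT n (d + 1))), ‖ψ y - κ‖ ≤ τ) :
    nSq Z.η (fun y => slot (Fin.last d) (Z.Qo y) (ψ y)) ≤ (6 * θ) ^ 2 * Z.I := by
  have hη := Z.spd
  have hQc := s5v_Qo_continuous Z
  have m1 := s5v_slot_memLp hη (Fin.last d) hQc hψ.1.continuous hψ.2
  have h1 : nSq Z.η (fun y => slot (Fin.last d) (Z.Qo y) (ψ y)) ≤
      ∫ y, (3 * θ) ^ 2 * mxSq (Z.Qo y) ∂(dm Z.η) := by
    unfold nSq
    refine integral_mono (s5k_int_sq m1) (iQ.const_mul _) fun y => ?_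
    obtain ⟨κ, hκ, hκd⟩ := hψK y
    have h2 := s5v_opBall_near (Fin.last d) (by positivity : (0 : ℝ) ≤ 2 * θ) hτ0 hκ hκd (Z.Qo y)
    refine h2.trans ?_
    have h3 : 0 ≤ mxSq (Z.Qo y) := Claimed.Agent.R260.mxSq_nonneg _
    have h4 : (2 * θ + τ) ^ 2 ≤ (3 * θ) ^ 2 := by
      apply pow_le_pow_left₀ (by positivity)
      linarith
    exact mul_le_mul_of_nonneg_right h4 h3
  rw [integral_const_mul] at h1
  have hI0 : 0 ≤ Z.I := Z.I_pos.le
  calc nSq Z.η (fun y => slot (Fin.last d) (Z.Qo y) (ψ y))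
      ≤ (3 * θ) ^ 2 * ∫ y, mxSq (Z.Qo y) ∂(dm Z.η) := h1
    _ ≤ (3 * θ) ^ 2 * (2 * Z.I) := mul_le_mul_of_nonneg_left hQ2 (by positivity)
    _ ≤ (6 * θ) ^ 2 * Z.I := by nlinarith [mul_nonneg (sq_nonneg θ) hI0]

/-- bounds for `φ` with `(1 + A) φ ≈ 2 C` -/
theorem s5v_phi_bounds (hη : SPD η) (hI0 : 0 ≤ I) {θ : ℝ} (hθ0 : 0 < θ) (hθ1 : θ ≤ 1)
    {S C φ : EE n → TT n (d + 1)} (hS : IsTestV S) (hφ : IsTestV φ)
    (nS : NB η I S 2) (nAS : NB η I (fun y => opA η S y - S y) θ)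
    (nSC : NB η I (fun y => S y - C y) θ)
    (nE : NB η I (fun y => φ y + opA η φ y - (2 : ℝ) • C y) θ) :
    NB η I (fun y => φ y - S y) (4 * θ) ∧ NB η I (fun y => opA η φ y - φ y) (11 * θ) ∧
      NB η I φ (2 + 4 * θ) ∧ NB η I (tD φ) 7 := by
  have a2 : |(2 : ℝ)| = 2 := abs_of_pos (by norm_num)
  have hX : IsTestV (fun y => φ y - S y) := s5v_test_sub hφ hS
  have c2 : ∀ {W : EE n → TT n (d + 1)}, IsTestV W → ContDiff ℝ 2 W := fun h =>
    h.1.of_le (by norm_cast)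
  have nX0 : NB η I (fun y => (φ y - S y) + opA η (fun z => φ z - S z) y) (4 * θ) := by
    have h := (nE.sub (nSC.smul 2) hθ0.le (by positivity) hI0).sub nAS (by positivity) hθ0.le hI0
    rw [a2] at h
    have e : θ + 2 * θ + θ = 4 * θ := by ring
    rw [e] at h
    refine h.congr fun y => ?_
    rw [s5k_opA_sub η (c2 hφ) (c2 hS)]
    simp only [smul_sub, two_smul]
    abel
  obtain ⟨nX, nDX⟩ := s5v_energy hη hX hI0 (by positivity) nX0
  have nAφ : NB η I (fun y => opA η φ y - φ y) (11 * θ) := by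
    have h := (nE.sub (nSC.smul 2) hθ0.le (by positivity) hI0).sub (nX.smul 2) (by positivity)
      (by positivity) hI0
    rw [a2] at h
    have e : θ + 2 * θ + 2 * (4 * θ) = 11 * θ := by ring
    rw [e] at h
    refine h.congr fun y => ?_
    simp only [smul_sub, two_smul]
    abel
  have nφ : NB η I φ (2 + 4 * θ) := by
    refine (nS.add nX (by norm_num) (by positivity) hI0).congr fun y => ?_
    abel
  have gS := s5v_grad_bound hη hS hI0 (by norm_num) hθ0.le nS nAS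
  have nDS : NB η I (tD S) 3 :=
    ⟨s5k_test_memLp hη (s5k_tD_test hS), gS.trans (by nlinarith)⟩
  have nDφ : NB η I (tD φ) 7 := by
    have h := nDS.add nDX (by norm_num) (by positivity) hI0
    refine (h.mono (by positivity) (by linarith) hI0).congr fun y => ?_
    rw [s5k_tD_sub (hφ.1.differentiable (by norm_num) y) (hS.1.differentiable (by norm_num) y)]
    abel
  exact ⟨nX, nAφ, nφ, nDφ⟩


/-- construction of the two test fields of the strict branch; `B` is an arbitrary constant -/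
theorem s5v_strict_fields (Z : HiInput n) (hs : Z.om = Z.w) {θ : ℝ} (hθ0 : 0 < θ) (hθ1 : θ ≤ 1)
    {S : EE n → TT n (d + 1)} (hS : IsTestV S) (hSsym : ∀ y, TSym (S y))
    (hS1 : nSq Z.η (fun y => opA Z.η S y - S y) ≤ θ ^ 2 * Z.I) (hS2 : nSq Z.η S ≤ 2 ^ 2 * Z.I)
    (hw : nSq Z.η (fun y => opA Z.η Z.w y - Z.w y) ≤ θ ^ 2 * Z.I)
    (htail : ∫ y, tailTr (θ ^ 2) (red (S y)) ∂(dm Z.η) ≤ θ ^ 2 * Z.I) {B : ℝ} (hB : 0 ≤ B) :
    ∃ φ ψ : EE n → TT n (d + 1), IsTestV φ ∧ IsTestV ψ ∧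
      NB Z.η Z.I (fun y => φ y - S y) (4 * θ) ∧ NB Z.η Z.I (fun y => opA Z.η φ y - φ y) (11 * θ) ∧
      NB Z.η Z.I ψ 7 ∧ NB Z.η Z.I (tD ψ) 7 ∧
      nSq Z.η (fun y => slot (Fin.last d) (Z.Qo y) (ψ y)) ≤ (6 * θ) ^ 2 * Z.I ∧
      B * nSq Z.η (fun y => φ y - ψ y) ≤ (θ * Z.I) ^ 2 := by
  have hη := Z.spd
  have hI : 0 < Z.I := Z.I_pos
  have hI0 : 0 ≤ Z.I := hI.le
  have mS := s5k_test_memLp hη hS
  obtain ⟨C, mC, hCK, hSC⟩ := s5v_clip_field hη hθ0 hS hSsym
  have mu : MemLp (fun y => (2 : ℝ) • C y) 2 (dm Z.η) := mC.const_smul (2 : ℝ)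
  have huK : ∀ y, (2 : ℝ) • C y ∈ (opBall (Fin.last d) (2 * θ) : Set (TT n (d + 1))) := fun y =>
    s5v_opBall_two (Fin.last d) (hCK y)
  obtain ⟨τ, hτ, hτ1, hτ2, hτ3⟩ : ∃ τ : ℝ, 0 < τ ∧ τ ≤ θ ∧ 3 * τ ≤ θ ^ 2 * Z.I ∧
      3 * τ * (B + 1) ≤ (θ * Z.I) ^ 2 := by
    refine ⟨min θ (min (θ ^ 2 * Z.I / 3) ((θ * Z.I) ^ 2 / (3 * (B + 1)))),
      lt_min hθ0 (lt_min (by positivity) (by positivity)), min_le_left _ _, ?_, ?_⟩
    · have : min θ (min (θ ^ 2 * Z.I / 3) ((θ * Z.I) ^ 2 / (3 * (B + 1)))) ≤ θ ^ 2 * Z.I / 3 :=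
        (min_le_right _ _).trans (min_le_left _ _)
      linarith
    · have h : min θ (min (θ ^ 2 * Z.I / 3) ((θ * Z.I) ^ 2 / (3 * (B + 1)))) ≤
          (θ * Z.I) ^ 2 / (3 * (B + 1)) := (min_le_right _ _).trans (min_le_right _ _)
      rw [le_div_iff₀ (by positivity)] at h
      linarith
  obtain ⟨φ, hφ1, hφ2, hφ3⟩ := op_core_dense_vec hη.1 hη.2.1 one_pos mu hτ
  have hφ : IsTestV φ := ⟨hφ1, hφ2⟩
  simp only [one_smul] at hφ3
  obtain ⟨ψ, hψ, hψK, hψD, hψn⟩ := s5v_markov hη (s5v_opBall_convex (n := n) (Fin.last d)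
    (by positivity : (0 : ℝ) ≤ 2 * θ)) (s5v_opBall_closed (Fin.last d) (2 * θ))
    (s5v_opBall_zero (Fin.last d) (2 * θ)) mu huK hφ hτ
  have mφ := s5k_test_memLp hη hφ
  have mAφ := s5k_test_memLp hη (s5k_opA_test hη hφ)
  have hE : nSq Z.η (fun y => φ y + opA Z.η φ y - (2 : ℝ) • C y) ≤ τ := hφ3
  have nE : NB Z.η Z.I (fun y => φ y + opA Z.η φ y - (2 : ℝ) • C y) θ :=
    ⟨(mφ.add mAφ).sub mu, hE.trans (by linarith)⟩
  have nSC : NB Z.η Z.I (fun y => S y - C y) θ := ⟨mS.sub mC, hSC.trans htail⟩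
  have nAS : NB Z.η Z.I (fun y => opA Z.η S y - S y) θ :=
    ⟨s5k_test_memLp hη (s5v_test_sub (s5k_opA_test hη hS) hS), hS1⟩
  have nS : NB Z.η Z.I S 2 := ⟨mS, hS2⟩
  obtain ⟨nX, nAφ, nφ, nDφ⟩ := s5v_phi_bounds (C := C) hη hI0 hθ0 hθ1 hS hφ nS nAS nSC nE
  have hφψ : nSq Z.η (fun y => φ y - ψ y) ≤ 3 * τ := by linarith
  have nφψ : NB Z.η Z.I (fun y => φ y - ψ y) θ :=
    ⟨s5k_test_memLp hη (s5v_test_sub hφ hψ), hφψ.trans hτ2⟩
  have nψ : NB Z.η Z.I ψ 7 := by
    have h := nφ.sub nφψ (by positivity) hθ0.le hI0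
    refine (h.mono (by positivity) (by linarith) hI0).congr fun y => ?_
    abel
  have mDψ := s5k_test_memLp hη (s5k_tD_test hψ)
  have hDψ : nSq Z.η (tD ψ) ≤ 7 ^ 2 * Z.I := by
    refine le_trans ?_ nDφ.2
    unfold nSq
    refine integral_mono (s5k_int_sq mDψ) (s5k_int_sq nDφ.1) fun y => ?_
    show ‖tD ψ y‖ ^ 2 ≤ ‖tD φ y‖ ^ 2
    rw [s5k_tD_norm, s5k_tD_norm]
    exact hψD y
  obtain ⟨iQ, hQ2⟩ := s5v_Q_energy Z hs hθ0 hθ1 hw
  refine ⟨φ, ψ, hφ, hψ, nX, nAφ, nψ, ⟨mDψ, hDψ⟩, s5v_Q_mul Z hθ0 hτ.le hτ1 iQ hQ2 hψ hψK, ?_⟩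
  calc B * nSq Z.η (fun y => φ y - ψ y) ≤ B * (3 * τ) := mul_le_mul_of_nonneg_left hφψ hB
    _ ≤ 3 * τ * (B + 1) := by nlinarith
    _ ≤ _ := hτ3

/-- STRICT BRANCH -/
theorem s5v_strict_step (Z : HiInput n) (hs : Z.om = Z.w) {θ : ℝ} (hθ0 : 0 < θ) (hθ1 : θ ≤ 1)
    {F : EE n → TT n d} (hF : IsTestV F) {S : EE n → TT n (d + 1)} (hS : IsTestV S)
    (hSsym : ∀ y, TSym (S y))
    (hF1 : nSq Z.η (fun y => opA Z.η F y - F y) ≤ θ ^ 2 * Z.I) (hF2 : nSq Z.η F ≤ 2 ^ 2 * Z.I)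
    (hS1 : nSq Z.η (fun y => opA Z.η S y - S y) ≤ θ ^ 2 * Z.I) (hS2 : nSq Z.η S ≤ 2 ^ 2 * Z.I)
    (hFS : nSq Z.η (fun y => tD F y - S y) ≤ θ ^ 2 * Z.I)
    (hw : nSq Z.η (fun y => opA Z.η Z.w y - Z.w y) ≤ θ ^ 2 * Z.I)
    (htail : ∫ y, tailTr (θ ^ 2) (red (S y)) ∂(dm Z.η) ≤ θ ^ 2 * Z.I) :
    ipF Z.η (tD F) (fun y => slot (Fin.last d) (Z.K y) (tD F y)) ≤ 195 * θ * Z.I := by
  have hη := Z.spd
  have hI : 0 < Z.I := Z.I_pos
  have hI0 : 0 ≤ Z.I := hI.le
  have hB₁0 : 0 ≤ nSq Z.η (tD (fun y => opA Z.η F y - F y)) := s5k_nSq_nonneg _ _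
  have hB₂0 : 0 ≤ nSq Z.η (fun y => slot (Fin.last d) (Z.Qo y)ᵀ (tD F y)) := s5k_nSq_nonneg _ _
  obtain ⟨φ, ψ, hφ, hψ, nX, nAφ, nψ, nDψ, hQψ, hB⟩ :=
    s5v_strict_fields Z hs hθ0 hθ1 hS hSsym hS1 hS2 hw htail (add_nonneg hB₁0 hB₂0)
  have nFS : NB Z.η Z.I (fun y => tD F y - S y) θ :=
    ⟨s5k_test_memLp hη (s5v_test_sub (s5k_tD_test hF) hS), hFS⟩
  have nFφ : NB Z.η Z.I (fun y => tD F y - φ y) (5 * θ) := by
    have h := nFS.sub nX hθ0.le (by positivity) hI0
    have e : θ + 4 * θ = 5 * θ := by ring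
    rw [e] at h
    refine h.congr fun y => ?_
    abel
  have gF := s5v_grad_bound hη hF hI0 (by norm_num) hθ0.le ⟨s5k_test_memLp hη hF, hF2⟩
    ⟨s5k_test_memLp hη (s5v_test_sub (s5k_opA_test hη hF) hF), hF1⟩
  have p0 : 0 ≤ nSq Z.η (fun y => φ y - ψ y) := s5k_nSq_nonneg _ _
  refine s5v_core Z hθ0 hθ1 hF hφ hψ hF1 (by nlinarith) nFφ.2 nAφ.2 nψ.2 nDψ.2 hQψ ?_ ?_
  · refine le_trans ?_ hB
    exact mul_le_mul_of_nonneg_right (le_add_of_nonneg_right hB₂0) p0
  · refine le_trans ?_ hB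
    exact mul_le_mul_of_nonneg_right (le_add_of_nonneg_left hB₁0) p0

end Claimed.Agent.R259
end

/- ===== packed: Claimed.Agent.R259.S5CurvMean ===== -/
section
/-
Row 259 (S0499), package BP-S5-curv: `⟨T,(E M)_1 T⟩ ≤ 2 |Pi_1 T|² + 2 |(1-Pi) E M (1-Pi)|_op |T|²`.
Owner: helper19.
-/
set_option autoImplicit false

open MeasureTheory
open scoped ContDiff BigOperators Matrix
open Claimed.Agent.R260 (Mx mxSq)

namespace Claimed.Agent.R259

variable {n d : ℕ}

theorem s5v_slot_mul (r : Fin d) (A B : Mx n) (t : TT n d) :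
    slot r A (slot r B t) = slot r (A * B) t := by
  ext α
  simp only [s5v_slot_apply, Function.update_self, Function.update_idem, Matrix.mul_apply,
    Finset.mul_sum, Finset.sum_mul]
  rw [Finset.sum_comm]
  refine Finset.sum_congr rfl fun j _ => Finset.sum_congr rfl fun k _ => ?_
  ring

theorem s5v_inner_mv (A : Mx n) (u : EE n) :
    inner ℝ u (mv A u) = ∑ a, ∑ b, u a * A a b * u b := by
  simp only [mv, PiLp.inner_apply, Matrix.mulVec, dotProduct, RCLike.inner_apply, conj_trivial,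
    Finset.sum_mul]
  refine Finset.sum_congr rfl fun a _ => Finset.sum_congr rfl fun b _ => ?_
  ring

theorem s5v_dot_eq (A : Mx n) (x : Fin n → ℝ) :
    star x ⬝ᵥ (A *ᵥ x) = inner ℝ (WithLp.toLp 2 x : EE n) (mv A (WithLp.toLp 2 x)) := by
  rw [s5v_inner_mv]
  simp only [star_trivial, Matrix.mulVec, dotProduct, Finset.mul_sum]
  refine Finset.sum_congr rfl fun a _ => Finset.sum_congr rfl fun b _ => ?_
  ring

theorem s5v_psd_of_inner {A : Mx n} (hs : A.IsSymm) (h : ∀ u : EE n, 0 ≤ inner ℝ u (mv A u)) :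
    A.PosSemidef := by
  refine Matrix.PosSemidef.of_dotProduct_mulVec_nonneg ?_ fun x => ?_
  · unfold Matrix.IsHermitian
    rw [Matrix.conjTranspose_eq_transpose_of_trivial]
    exact hs
  · rw [s5v_dot_eq]
    exact h _

theorem s5v_inner_of_psd {A : Mx n} (h : A.PosSemidef) (u : EE n) : 0 ≤ inner ℝ u (mv A u) := by
  have := h.dotProduct_mulVec_nonneg (fun i => u i)
  rw [s5v_dot_eq] at this
  exact this

theorem s5v_mv_norm_le {M : Mx n} {b : ℝ} (h0 : M.PosSemidef)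
    (h1 : (b • (1 : Mx n) - M).PosSemidef) (v : EE n) : ‖mv M v‖ ≤ b * ‖v‖ := by
  have := s5v_slot_norm_le (0 : Fin 1) h0 h1 (vecL v)
  rwa [slot_vecL, LinearIsometryEquiv.norm_map, LinearIsometryEquiv.norm_map] at this

theorem s5v_mv_eb (M : Mx n) (a b : Fin n) : mv M (eb b) a = M a b := by
  simp [mv, eb, Matrix.mulVec, dotProduct, EuclideanSpace.single_apply]

theorem s5v_entry_le {M : Mx n} (h0 : M.PosSemidef) (h1 : ((1 : ℝ) • (1 : Mx n) - M).PosSemidef)
    (a b : Fin n) : |M a b| ≤ 1 := by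
  have h2 := s5v_mv_norm_le h0 h1 (eb b)
  have h3 : ‖(eb b : EE n)‖ = 1 := by simp [eb]
  rw [h3, mul_one] at h2
  have h4 : ‖mv M (eb b) a‖ ≤ ‖mv M (eb b)‖ := PiLp.norm_apply_le _ _
  rw [s5v_mv_eb, Real.norm_eq_abs] at h4
  exact h4.trans h2

theorem s5v_M_psd (Z : HiInput n) (y : EE n) : (Z.M y).PosSemidef := by
  have e : Z.M y = s0 • (s0⁻¹ • (1 : Mx n) - Z.K y) := by
    have hs : (s0 : ℝ) ≠ 0 := by unfold s0; norm_num
    rw [smul_sub, smul_smul, mul_inv_cancel₀ hs, one_smul]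
    rfl
  rw [e]
  exact (Z.K_le y).smul (by unfold s0; norm_num)

theorem s5v_one_sub_M_psd (Z : HiInput n) (y : EE n) :
    ((1 : ℝ) • (1 : Mx n) - Z.M y).PosSemidef := by
  have e : (1 : ℝ) • (1 : Mx n) - Z.M y = s0 • Z.K y := by
    simp [HiInput.M]
  rw [e]
  exact (Z.K_nonneg y).smul (by unfold s0; norm_num)

theorem s5v_M_integrable (Z : HiInput n) (a b : Fin n) :
    Integrable (fun y => Z.M y a b) (dm Z.η) := by
  have := s5k_prob Z.spd
  have hc : Continuous fun y => Z.M y a b := by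
    have : (fun y => Z.M y a b) = fun y => (1 : Mx n) a b - s0 * Z.K y a b := by
      funext y
      simp [HiInput.M]
    rw [this]
    exact continuous_const.sub (continuous_const.mul (s5v_K_continuous Z a b))
  refine Integrable.of_bound hc.aestronglyMeasurable 1 (Filter.Eventually.of_forall fun y => ?_)
  rw [Real.norm_eq_abs]
  exact s5v_entry_le (s5v_M_psd Z y) (s5v_one_sub_M_psd Z y) a b

/-- the quadratic form of the mean is the mean of the quadratic forms -/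
theorem s5v_meanMx_quad (Z : HiInput n) (u : EE n) :
    inner ℝ u (mv (meanMx Z.η Z.M) u) = ∫ y, inner ℝ u (mv (Z.M y) u) ∂(dm Z.η) := by
  simp only [s5v_inner_mv]
  rw [integral_finset_sum _ fun a _ => integrable_finset_sum _ fun b _ =>
    ((s5v_M_integrable Z a b).const_mul (u a)).mul_const (u b)]
  refine Finset.sum_congr rfl fun a _ => ?_
  rw [integral_finset_sum _ fun b _ => ((s5v_M_integrable Z a b).const_mul (u a)).mul_const (u b)]
  refine Finset.sum_congr rfl fun b _ => ?_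
  rw [integral_mul_const, integral_const_mul]
  rfl

theorem s5v_quad_integrable (Z : HiInput n) (u : EE n) :
    Integrable (fun y => inner ℝ u (mv (Z.M y) u)) (dm Z.η) := by
  simp only [s5v_inner_mv]
  exact integrable_finset_sum _ fun a _ => integrable_finset_sum _ fun b _ =>
    ((s5v_M_integrable Z a b).const_mul (u a)).mul_const (u b)

theorem s5v_meanMx_symm (Z : HiInput n) : (meanMx Z.η Z.M).IsSymm := by
  ext a b
  simp only [Matrix.transpose_apply, meanMx, Matrix.of_apply]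
  congr 1
  funext y
  have h : (Z.M y).IsSymm := by
    unfold HiInput.M
    exact Matrix.IsSymm.sub Matrix.isSymm_one ((Z.K_symm y).smul s0)
  exact congrFun (congrFun h a) b

theorem s5v_meanMx_psd (Z : HiInput n) : (meanMx Z.η Z.M).PosSemidef :=
  s5v_psd_of_inner (s5v_meanMx_symm Z) fun u => by
    rw [s5v_meanMx_quad]
    exact integral_nonneg fun y => s5v_inner_of_psd (s5v_M_psd Z y) u

theorem s5v_mv_sub (A B : Mx n) (u : EE n) : mv (A - B) u = mv A u - mv B u := by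
  ext i
  simp [mv, Matrix.sub_mulVec]

theorem s5v_mv_smul_one (c : ℝ) (u : EE n) : mv (c • (1 : Mx n)) u = c • u := by
  ext i
  simp [mv, Matrix.smul_mulVec]

theorem s5v_mv_mul (A B : Mx n) (u : EE n) : mv (A * B) u = mv A (mv B u) := by
  ext i
  simp [mv, Matrix.mulVec_mulVec]

theorem s5v_inner_mv_adj (A : Mx n) (u v : EE n) : inner ℝ u (mv A v) = inner ℝ (mv Aᵀ u) v := by
  simp only [mv, PiLp.inner_apply, Matrix.mulVec, dotProduct, RCLike.inner_apply, conj_trivial,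
    Finset.sum_mul, Finset.mul_sum, Matrix.transpose_apply]
  rw [Finset.sum_comm]
  refine Finset.sum_congr rfl fun a _ => Finset.sum_congr rfl fun b _ => ?_
  ring

theorem s5v_meanMx_le_one (Z : HiInput n) :
    ((1 : ℝ) • (1 : Mx n) - meanMx Z.η Z.M).PosSemidef := by
  have := s5k_prob Z.spd
  refine s5v_psd_of_inner (Matrix.IsSymm.sub (Matrix.isSymm_one.smul 1) (s5v_meanMx_symm Z))
    fun u => ?_
  rw [s5v_mv_sub, inner_sub_right, s5v_meanMx_quad, s5v_mv_smul_one, one_smul]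
  have h1 : ∫ y, inner ℝ u (mv (Z.M y) u) ∂(dm Z.η) ≤ ∫ _y, inner ℝ u u ∂(dm Z.η) := by
    refine integral_mono (s5v_quad_integrable Z u) (integrable_const _) fun y => ?_
    have := s5v_inner_of_psd (s5v_one_sub_M_psd Z y) u
    rw [s5v_mv_sub, inner_sub_right, s5v_mv_smul_one, one_smul] at this
    linarith
  rw [integral_const, probReal_univ, one_smul] at h1
  linarith

/-- pointwise inequality -/
theorem s5v_mean_pt (Z : HiInput n) {δ : ℝ} (hδ : 0 ≤ δ)
    (hout : ∀ v : EE n, ∫ y, inner ℝ (mv (1 - Z.Pi) v) (mv (Z.M y) (mv (1 - Z.Pi) v)) ∂(dm Z.η)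
      ≤ δ * ‖v‖ ^ 2) (t : TT n (d + 1)) :
    inner ℝ t (slot 0 (meanMx Z.η Z.M) t) ≤ 2 * ‖slot 0 Z.Pi t‖ ^ 2 + 2 * (δ * ‖t‖ ^ 2) := by
  set E := meanMx Z.η Z.M with hE
  set N : Mx n := 1 - Z.Pi with hN
  have hEp := s5v_meanMx_psd Z
  have hE1 := s5v_meanMx_le_one Z
  have hNs : Nᵀ = N := Matrix.IsSymm.sub Matrix.isSymm_one Z.Pi_symm
  have hPs : (Nᵀ * E * N).IsSymm := by
    unfold Matrix.IsSymm
    rw [Matrix.transpose_mul, Matrix.transpose_mul, Matrix.transpose_transpose,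
      (s5v_meanMx_symm Z : Eᵀ = E), Matrix.mul_assoc]
  have hq : ∀ u : EE n, inner ℝ u (mv (Nᵀ * E * N) u) = inner ℝ (mv N u) (mv E (mv N u)) := by
    intro u
    rw [Matrix.mul_assoc, s5v_mv_mul, s5v_mv_mul, s5v_inner_mv_adj, Matrix.transpose_transpose]
  have hP0 : (Nᵀ * E * N).PosSemidef := s5v_psd_of_inner hPs fun u => by
    rw [hq]
    exact s5v_inner_of_psd hEp _
  have hP1 : (δ • (1 : Mx n) - Nᵀ * E * N).PosSemidef := by
    refine s5v_psd_of_inner (Matrix.IsSymm.sub (Matrix.isSymm_one.smul δ) hPs) fun u => ?_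
    rw [s5v_mv_sub, inner_sub_right, s5v_mv_smul_one, hq, hE, s5v_meanMx_quad, inner_smul_right,
      real_inner_self_eq_norm_sq]
    have := hout u
    linarith
  have h1 := s5v_slot_psd_add (0 : Fin (d + 1)) hEp (slot 0 Z.Pi t) (slot 0 N t)
  rw [slot_add_compl] at h1
  have h2 : inner ℝ (slot 0 Z.Pi t) (slot 0 E (slot 0 Z.Pi t)) ≤ ‖slot 0 Z.Pi t‖ ^ 2 := by
    calc inner ℝ (slot 0 Z.Pi t) (slot 0 E (slot 0 Z.Pi t))
        ≤ ‖slot 0 Z.Pi t‖ * ‖slot 0 E (slot 0 Z.Pi t)‖ := real_inner_le_norm _ _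
      _ ≤ ‖slot 0 Z.Pi t‖ * (1 * ‖slot 0 Z.Pi t‖) :=
          mul_le_mul_of_nonneg_left (s5v_slot_norm_le 0 hEp hE1 _) (norm_nonneg _)
      _ = ‖slot 0 Z.Pi t‖ ^ 2 := by ring
  have h3 : inner ℝ (slot 0 N t) (slot 0 E (slot 0 N t)) ≤ δ * ‖t‖ ^ 2 := by
    have e : inner ℝ (slot 0 N t) (slot 0 E (slot 0 N t)) = inner ℝ t (slot 0 (Nᵀ * E * N) t) := by
      rw [Matrix.mul_assoc, ← s5v_slot_mul, ← s5v_slot_mul,
        s5v_slot_adj 0 Nᵀ t (slot 0 E (slot 0 N t)), Matrix.transpose_transpose]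
    rw [e]
    calc inner ℝ t (slot 0 (Nᵀ * E * N) t) ≤ ‖t‖ * ‖slot 0 (Nᵀ * E * N) t‖ :=
          real_inner_le_norm _ _
      _ ≤ ‖t‖ * (δ * ‖t‖) :=
          mul_le_mul_of_nonneg_left (s5v_slot_norm_le 0 hP0 hP1 _) (norm_nonneg _)
      _ = δ * ‖t‖ ^ 2 := by ring
  linarith

theorem s5v_meanM : ∀ ε : ℝ, 0 < ε → ∃ δ : ℝ, 0 < δ ∧
    ∀ (n : ℕ) (Z : HiInput n) (d : ℕ) (T : EE n → TT n (d + 1)), Z.Small δ → Z.Lvl T δ →
      ipF Z.η T (fun y => slot 0 (meanMx Z.η Z.M) (T y)) ≤ ε * Z.I := by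
  intro ε hε
  refine ⟨min 1 (ε / 6), lt_min one_pos (by positivity), fun n Z d T hZ hT => ?_⟩
  set δ := min 1 (ε / 6) with hδ
  have hδ0 : 0 < δ := lt_min one_pos (by positivity)
  have hδ1 : δ ≤ 1 := min_le_left _ _
  have hδ2 : 6 * δ ≤ ε := by
    have : δ ≤ ε / 6 := min_le_right _ _
    linarith
  have hη := Z.spd
  have hI : 0 < Z.I := Z.I_pos
  have mT := s5k_test_memLp hη hT.test
  have cT := hT.test.1.continuous
  have mE := s5v_slot_memLp hη (0 : Fin (d + 1)) (M := fun _ => meanMx Z.η Z.M)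
    (fun _ _ => continuous_const) cT hT.test.2
  have mP := s5v_slot_memLp hη (0 : Fin (d + 1)) (M := fun _ => Z.Pi)
    (fun _ _ => continuous_const) cT hT.test.2
  have h1 : ipF Z.η T (fun y => slot 0 (meanMx Z.η Z.M) (T y)) ≤
      2 * nSq Z.η (fun y => slot 0 Z.Pi (T y)) + 2 * (δ * nSq Z.η T) := by
    unfold ipF nSq
    rw [← integral_const_mul, ← integral_const_mul, ← integral_const_mul, ← integral_add
      ((s5k_int_sq mP).const_mul 2) (((s5k_int_sq mT).const_mul δ).const_mul 2)]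
    exact integral_mono (s5k_int_inner mT mE)
      (((s5k_int_sq mP).const_mul 2).add (((s5k_int_sq mT).const_mul δ).const_mul 2))
      fun y => s5v_mean_pt Z hδ0.le hZ.outM (T y)
  have h2 := hT.proj
  have h3 := (abs_le.mp hT.norm).2
  have h4 : nSq Z.η T ≤ 2 * Z.I := by nlinarith
  calc ipF Z.η T (fun y => slot 0 (meanMx Z.η Z.M) (T y))
      ≤ 2 * (δ * Z.I) + 2 * (δ * (2 * Z.I)) := by
        have := mul_le_mul_of_nonneg_left h4 hδ0.le
        linarith
    _ = 6 * δ * Z.I := by ring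
    _ ≤ ε * Z.I := mul_le_mul_of_nonneg_right hδ2 hI.le

end Claimed.Agent.R259
end
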