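/- Packed by merge_tool.py (helper293): 6 modules of Claimed.Agent.R259 in one file, same declarations.
   Old modules, in this order: S4OutLin, S4OutTail, S4OutDom, S4Out, S4Main, Br45 -/
import Claimed.Agent.R259.Pack024
import Claimed.Agent.R259.Pack008
import Claimed.Agent.R259.Pack037
import Claimed.Agent.R259.Pack012
import Claimed.Agent.R259.Pack009
import Claimed.Agent.R259.Pack013
import Claimed.Agent.R259.Pack026
import Claimed.Agent.R259.Pack035
import Claimed.Agent.R259.Pack017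
import Claimed.Agent.R259.Pack029

/- ===== packed: Claimed.Agent.R259.S4OutLin ===== -/
section
/-
Row 259 (S0499), section 4, package BP-S4-outliers, LEAF L-S4Out-lin: PURE LINEAR ALGEBRA (no measures).
Sub-captain: helper220.  Proofs: helper212 (sorry-free).

`s4o_spec`: put `T u = ∑ i, B u (b i) • b i` (`b = stdOrthonormalBasis ℝ E`), so `⟨T u, v⟩ = B u v` and `T` is symmetric
(`LinearMap.IsSymmetric`); `hT.eigenvectorBasis rfl`, `hT.eigenvalues rfl`, `hT.apply_eigenvectorBasis`;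
`s = {j | ε ≤ eigenvalue j}`, `l = s.card`, `e = eigenvectorBasis ∘ s.orderEmbOfFin rfl`.  For `v ⊥ e`: expand `v` in the eigenbasis
(`OrthonormalBasis.sum_repr'`, `OrthonormalBasis.sum_sq_inner_right`): `B v v = ∑ j, λ_j ⟨b_j, v⟩² ≤ ε ∑ j ⟨b_j, v⟩² = ε |v|²`.
The `ofam` lemmas: `Orthonormal.inner_right_fintype`/`orthonormal_iff_ite`, `Orthonormal.sum_inner_products_le` (Bessel).
-/
set_option autoImplicit false
set_option linter.unusedSectionVars false

open MeasureTheory Filter Topology ProbabilityTheory InformationTheory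
open scoped ContDiff ENNReal

namespace Claimed.Agent.R259

variable {E : Type} [NormedAddCommGroup E] [InnerProductSpace ℝ E] [FiniteDimensional ℝ E]

/-- spectral cut of a symmetric bilinear form at level `ε`. -/
theorem s4o_spec (B : E →ₗ[ℝ] E →ₗ[ℝ] ℝ) (hB : ∀ u v, B u v = B v u) (ε : ℝ) :
    ∃ (l : ℕ) (e : Fin l → E), Orthonormal ℝ e ∧ (∀ i, ε ≤ B (e i) (e i)) ∧
      ∀ v, (∀ i, inner ℝ (e i) v = 0) → B v v ≤ ε * ‖v‖ ^ 2 := by
  classical
  set b := stdOrthonormalBasis ℝ E with hb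
  -- the operator of the form
  let T : E →ₗ[ℝ] E := ∑ i, (B.flip (b i)).smulRight (b i)
  have hTapp : ∀ u, T u = ∑ i, B u (b i) • b i := by
    intro u
    simp [T]
  have hTB : ∀ u v, inner ℝ (T u) v = B u v := by
    intro u v
    rw [hTapp, sum_inner]
    simp only [inner_smul_left, conj_trivial]
    conv_rhs => rw [← b.sum_repr' v]
    rw [map_sum]
    refine Finset.sum_congr rfl fun i _ => ?_
    rw [map_smul, smul_eq_mul, mul_comm]
  have hT : T.IsSymmetric := by
    intro u v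
    rw [hTB, real_inner_comm, hTB, hB]
  set n := Module.finrank ℝ E with hn
  set φ := hT.eigenvectorBasis hn.symm with hφ
  set lam := hT.eigenvalues hn.symm with hlam
  have hTφ : ∀ j, T (φ j) = lam j • φ j := fun j => hT.apply_eigenvectorBasis hn.symm j
  have hBφ : ∀ j v, B (φ j) v = lam j * inner ℝ (φ j) v := by
    intro j v
    rw [← hTB, hTφ, inner_smul_left, conj_trivial]
  set s : Finset (Fin n) := Finset.univ.filter fun j => ε ≤ lam j with hs
  refine ⟨s.card, fun i => φ (s.orderEmbOfFin rfl i), ?_, ?_, ?_⟩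
  · exact φ.orthonormal.comp _ (s.orderEmbOfFin rfl).injective
  · intro i
    have hmem : s.orderEmbOfFin rfl i ∈ s := Finset.orderEmbOfFin_mem s rfl i
    rw [hBφ, real_inner_self_eq_norm_sq, φ.orthonormal.1, one_pow, mul_one]
    exact (Finset.mem_filter.1 hmem).2
  · intro v hv
    have hv' : ∀ j ∈ s, inner ℝ (φ j) v = 0 := by
      intro j hj
      have : j ∈ Set.range (s.orderEmbOfFin rfl) := by
        rw [Finset.range_orderEmbOfFin]; exact hj
      obtain ⟨i, rfl⟩ := this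
      exact hv i
    have h1 : B v v = ∑ j, lam j * inner ℝ (φ j) v ^ 2 := by
      have h0 : B v v = B (∑ j, inner ℝ (φ j) v • φ j) v := by rw [φ.sum_repr' v]
      rw [h0, map_sum, LinearMap.sum_apply]
      refine Finset.sum_congr rfl fun j _ => ?_
      rw [map_smul, LinearMap.smul_apply, smul_eq_mul, hBφ]
      ring
    rw [h1, ← φ.sum_sq_inner_right v, Finset.mul_sum]
    refine Finset.sum_le_sum fun j _ => ?_
    by_cases hj : j ∈ s
    · rw [hv' j hj]; simp
    · have : lam j < ε := by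
        by_contra h
        exact hj (Finset.mem_filter.2 ⟨Finset.mem_univ _, not_lt.1 h⟩)
      exact mul_le_mul_of_nonneg_right this.le (sq_nonneg _)

variable {l : ℕ} {e : Fin l → E}

omit [FiniteDimensional ℝ E] in
theorem s4o_ofam_apply (e : Fin l → E) (v : E) : ofam e v = ∑ i, inner ℝ (e i) v • e i := by
  simp [ofam]

omit [FiniteDimensional ℝ E] in
theorem s4ol_inner_ofam (he : Orthonormal ℝ e) (v : E) (i : Fin l) :
    inner ℝ (e i) (ofam e v) = inner ℝ (e i) v := by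
  rw [s4o_ofam_apply, he.inner_right_fintype]

theorem s4o_ofam_proj (he : Orthonormal ℝ e) : IsOProj (ofam e) := by
  constructor
  · intro v
    rw [s4o_ofam_apply e (ofam e v)]
    simp only [s4ol_inner_ofam he]
    rw [← s4o_ofam_apply]
  · intro u v
    rw [s4o_ofam_apply, s4o_ofam_apply, sum_inner, inner_sum]
    refine Finset.sum_congr rfl fun i _ => ?_
    rw [inner_smul_left, inner_smul_right, conj_trivial, real_inner_comm (e i) u]
    ring

theorem s4o_ofam_perp (he : Orthonormal ℝ e) (v : E) (i : Fin l) : inner ℝ (e i) (v - ofam e v) = 0 := by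
  rw [inner_sub_right, s4ol_inner_ofam he, sub_self]

theorem s4ol_ofam_inner (e : Fin l → E) (v : E) : inner ℝ (ofam e v) v = ∑ i, inner ℝ (e i) v ^ 2 := by
  rw [s4o_ofam_apply, sum_inner]
  refine Finset.sum_congr rfl fun i _ => ?_
  rw [inner_smul_left, conj_trivial, sq]

theorem s4o_ofam_norm_sq (he : Orthonormal ℝ e) (v : E) : ‖ofam e v‖ ^ 2 = ∑ i, inner ℝ (e i) v ^ 2 := by
  rw [← real_inner_self_eq_norm_sq, (s4o_ofam_proj he).2, (s4o_ofam_proj he).1, real_inner_comm,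
    s4ol_ofam_inner e]

theorem s4o_ofam_inner (he : Orthonormal ℝ e) (v : E) : inner ℝ (ofam e v) v = ‖ofam e v‖ ^ 2 := by
  rw [s4ol_ofam_inner e, s4o_ofam_norm_sq he]

theorem s4ol_pyth (he : Orthonormal ℝ e) (v : E) : ‖v‖ ^ 2 = ‖ofam e v‖ ^ 2 + ‖v - ofam e v‖ ^ 2 := by
  rw [norm_sub_sq_real, real_inner_comm, s4o_ofam_inner he]
  ring

theorem s4o_ofam_norm_le (he : Orthonormal ℝ e) (v : E) : ‖ofam e v‖ ≤ ‖v‖ := by
  have := s4ol_pyth he v
  exact abs_le_of_sq_le_sq' (by nlinarith [sq_nonneg ‖v - ofam e v‖]) (norm_nonneg _) |>.2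

theorem s4o_ofam_sub_norm_le (he : Orthonormal ℝ e) (v : E) : ‖v - ofam e v‖ ≤ ‖v‖ := by
  have := s4ol_pyth he v
  exact abs_le_of_sq_le_sq' (by nlinarith [sq_nonneg ‖ofam e v‖]) (norm_nonneg _) |>.2

theorem s4o_ofam_hs (he : Orthonormal ℝ e) (κ : ℝ) : hsSq (κ • ofam e) = κ ^ 2 * l := by
  unfold hsSq
  have h1 : ∀ j, ‖(κ • ofam e) (stdOrthonormalBasis ℝ E j)‖ ^ 2 =
      κ ^ 2 * ∑ i, inner ℝ (e i) (stdOrthonormalBasis ℝ E j) ^ 2 := by
    intro j
    rw [_root_.smul_apply, norm_smul, mul_pow, s4o_ofam_norm_sq he, Real.norm_eq_abs, sq_abs]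
  simp only [h1]
  rw [← Finset.mul_sum, Finset.sum_comm]
  simp only [OrthonormalBasis.sum_sq_inner_left, he.1]
  simp

end Claimed.Agent.R259
end

/- ===== packed: Claimed.Agent.R259.S4OutTail ===== -/
section
/-
Row 259 (S0499), section 4, package BP-S4-outliers, LEAF L-S4Out-tail: measurability / integrability in the heat observation `u`.
Sub-captain: helper220.  The leaf owner OWNS this file, keeps names and statements, replaces every `sorry`.
Tools: DbTower.lean (`db_hpm_prob`, `db_hpm_integral`, `db_hpm_integrable`, `db_tower`, `db_hpost_memLp`), DbSmooth.lean, GcKernel.lean (gck_*),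
`lc_PE_le`, `lc_PE_nonneg` (ImmseLc.lean).

`s4o_memLp_hpm`: the density of `hpm ν r u` with respect to `ν` is bounded (`gck_le`), or: `db_hpm_integrable` for `|w|²`.
`s4o_P_integrable`: `0 ≤ lcPE (hpm ν r u) w v w ≤ ∫ |w|² d(hpm ν r u) = hpost ν r |w|² u`, integrable by `db_tower`.  MEASURABILITY in `u`:
  `lcZ (hpm ν r u) w v l = (gconv ν r u)⁻¹ ∫ gk r (u - x) lcK w v l x dν(x)` and the same for the numerator of `lcE`: integrals of jointly
  measurable functions of `(u, l, x)` (`StronglyMeasurable.integral_prod_right'`; replace `w` by a strongly measurable representative `hw.1.mk w`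
  first: `ν`-a.e. equal fields give the same integrals for every `u`, `l`), then integrate in `l` the same way.
`s4o_tail_integrable`: expand: with `h = hpost ν r w u`,
  `tailInt = 2 hpost ⟨M w, w⟩ - 2⟨M h, h⟩ ... ` or simply dominate: `|2⟨M ẘ, ẘ⟩ - |M ẘ|²| ≤ (2C + C²)|ẘ|²`, `|ẘ|² ≤ 2|w|² + 2|h|²`,
  `hsSq (M u) ≤ n C²`; measurability as above (`M` measurable, `(M, v) ↦ M v` continuous).
-/
set_option autoImplicit false
set_option linter.unusedSectionVars false

open MeasureTheory Filter Topology ProbabilityTheory InformationTheory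
open scoped ContDiff ENNReal

namespace Claimed.Agent.R259

variable {E : Type} [NormedAddCommGroup E] [InnerProductSpace ℝ E] [FiniteDimensional ℝ E]
  [MeasurableSpace E] [BorelSpace E]

variable {ν : Measure E} [IsProbabilityMeasure ν] {w : E → E} {r : ℝ}

theorem s4o_memLp_hpm (hw : MemLp w 2 ν) (hr : 0 < r) (u : E) : MemLp w 2 (hpm ν r u) := by
  have hac : hpm ν r u ≪ ν := withDensity_absolutelyContinuous _ _
  have hm : AEStronglyMeasurable w (hpm ν r u) := hw.1.mono_ac hac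
  rw [memLp_two_iff_integrable_sq_norm hm]
  exact db_hpm_integrable hr u ((memLp_two_iff_integrable_sq_norm hw.1).1 hw)

theorem s4ot_lcK_meas {w' : E → E} (hw' : Measurable w') (v : ℝ) :
    Measurable fun p : E × E => lcK w' v p.1 p.2 := by
  unfold lcK
  have h1 : Measurable fun p : E × E => w' p.2 := hw'.comp measurable_snd
  have h2 : Measurable fun p : E × E => inner ℝ p.1 (w' p.2) := measurable_fst.inner h1
  exact Real.measurable_exp.comp ((h2.const_mul _).sub ((h1.norm.pow_const 2).const_mul v |>.div_const 2))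

theorem s4ot_PE_meas (hw : MemLp w 2 ν) (hr : 0 < r) (v : ℝ) :
    StronglyMeasurable fun u => lcPE (hpm ν r u) w v w := by
  set w' := hw.1.mk w with hw'def
  have hw' : Measurable w' := hw.1.stronglyMeasurable_mk.measurable
  have hae : w =ᵐ[ν] w' := hw.1.ae_eq_mk
  have hK : Measurable fun z : (E × E) × E => gk r (z.1.1 - z.2) * lcK w' v z.1.2 z.2 :=
    ((gck_measurable r).comp (measurable_fst.fst.sub measurable_snd)).mul
      ((s4ot_lcK_meas hw' v).comp (measurable_fst.snd.prodMk measurable_snd))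
  set A : E × E → ℝ := fun p => ∫ x, gk r (p.1 - x) * lcK w' v p.2 x ∂ν with hA
  set Bv : E × E → E := fun p => ∫ x, (gk r (p.1 - x) * lcK w' v p.2 x) • w' x ∂ν with hBv
  have mA : StronglyMeasurable A := hK.stronglyMeasurable.integral_prod_right'
  have mB : StronglyMeasurable Bv :=
    (hK.smul (hw'.comp measurable_snd)).stronglyMeasurable.integral_prod_right'
  have mq : StronglyMeasurable fun p : E × E => (gconv ν r p.1)⁻¹ :=
    ((gck_gconv_measurable (μ := ν) r).comp measurable_fst).inv.stronglyMeasurable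
  have eZ : ∀ u l, lcZ (hpm ν r u) w v l = (gconv ν r u)⁻¹ * A (u, l) := fun u l => by
    unfold lcZ
    rw [db_hpm_integral hr u]
    unfold hpost
    rw [smul_eq_mul]
    congr 1
    refine integral_congr_ae ?_
    filter_upwards [hae] with x hx
    simp only [lcK, hx, smul_eq_mul]
  have eN : ∀ u l, ∫ x, lcK w v l x • w x ∂(hpm ν r u) = (gconv ν r u)⁻¹ • Bv (u, l) := fun u l => by
    rw [db_hpm_integral hr u]
    unfold hpost
    congr 1
    refine integral_congr_ae ?_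
    filter_upwards [hae] with x hx
    simp only [lcK, hx, smul_smul]
  have e : (fun u => lcPE (hpm ν r u) w v w) = fun u => ∫ l, ‖((gconv ν r u)⁻¹ * A (u, l))⁻¹ •
      ((gconv ν r u)⁻¹ • Bv (u, l))‖ ^ 2 * ((gconv ν r u)⁻¹ * A (u, l)) ∂(stdGaussian E) := by
    funext u
    unfold lcPE lcE
    simp only [eZ, eN]
  rw [e]
  have mΨ : StronglyMeasurable fun p : E × E => ‖((gconv ν r p.1)⁻¹ * A p)⁻¹ •
      ((gconv ν r p.1)⁻¹ • Bv p)‖ ^ 2 * ((gconv ν r p.1)⁻¹ * A p) :=
    ((((mq.mul mA).measurable.inv.stronglyMeasurable).smul (mq.smul mB)).norm.pow 2).mul (mq.mul mA)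
  exact mΨ.integral_prod_right'

theorem s4o_P_integrable (hw : MemLp w 2 ν) (hr : 0 < r) {v : ℝ} (hv : 0 ≤ v) :
    Integrable (fun u => lcPE (hpm ν r u) w v w) (dm (gconv ν r)) := by
  have hw2 : Integrable (fun x => ‖w x‖ ^ 2) ν := (memLp_two_iff_integrable_sq_norm hw.1).1 hw
  refine (db_tower hr hw2).1.mono' (s4ot_PE_meas hw hr v).aestronglyMeasurable
    (Eventually.of_forall fun u => ?_)
  have := db_hpm_prob (ν := ν) hr u
  have hL := s4o_memLp_hpm hw hr u
  rw [Real.norm_eq_abs, abs_of_nonneg (lc_PE_nonneg hL.1.aemeasurable hv w), ← db_hpm_integral hr u]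
  exact lc_PE_le hL.1.aemeasurable hv hL

theorem s4ot_clm_apply_meas {α : Type} [MeasurableSpace α] {M : α → E →L[ℝ] E} (hM : Measurable M) {z : α → E}
    (hz : Measurable z) : Measurable fun a => M a (z a) := by
  have hc : Continuous fun p : (E →L[ℝ] E) × E => p.1 p.2 := isBoundedBilinearMap_apply.continuous
  exact hc.measurable.comp (hM.prodMk hz)

theorem s4ot_hsSq_meas {M : E → E →L[ℝ] E} (hM : Measurable M) : Measurable fun u => hsSq (M u) := by
  unfold hsSq
  exact Finset.measurable_sum _ fun i _ => ((s4ot_clm_apply_meas hM measurable_const).norm.pow_const 2)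

theorem s4ot_hsSq_le (T : E →L[ℝ] E) {C : ℝ} (hC : ‖T‖ ≤ C) :
    hsSq T ≤ (Module.finrank ℝ E : ℝ) * C ^ 2 := by
  unfold hsSq
  have h1 : ∀ i ∈ (Finset.univ : Finset (Fin (Module.finrank ℝ E))),
      ‖T (stdOrthonormalBasis ℝ E i)‖ ^ 2 ≤ C ^ 2 := fun i _ => by
    have h2 := T.le_opNorm (stdOrthonormalBasis ℝ E i)
    rw [(stdOrthonormalBasis ℝ E).norm_eq_one, mul_one] at h2
    exact pow_le_pow_left₀ (norm_nonneg _) (h2.trans hC) 2
  have h3 := Finset.sum_le_card_nsmul _ _ _ h1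
  simpa using h3

theorem s4ot_hsSq_nonneg (T : E →L[ℝ] E) : 0 ≤ hsSq T :=
  Finset.sum_nonneg fun _ _ => by positivity

theorem s4ot_quad_le (T : E →L[ℝ] E) {C : ℝ} (hC : ‖T‖ ≤ C) (a b : E) :
    |2 * inner ℝ (T (a - b)) (a - b) - ‖T (a - b)‖ ^ 2| ≤ (2 * C + C ^ 2) * (2 * ‖a‖ ^ 2 + 2 * ‖b‖ ^ 2) := by
  have hC0 : 0 ≤ C := (norm_nonneg _).trans hC
  have h1 : ‖T (a - b)‖ ≤ C * ‖a - b‖ := (T.le_opNorm _).trans (mul_le_mul_of_nonneg_right hC (norm_nonneg _))
  have h2 : |inner ℝ (T (a - b)) (a - b)| ≤ C * ‖a - b‖ ^ 2 := by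
    refine (abs_real_inner_le_norm _ _).trans ?_
    calc ‖T (a - b)‖ * ‖a - b‖ ≤ (C * ‖a - b‖) * ‖a - b‖ := mul_le_mul_of_nonneg_right h1 (norm_nonneg _)
      _ = _ := by ring
  have h3 : ‖T (a - b)‖ ^ 2 ≤ C ^ 2 * ‖a - b‖ ^ 2 := by
    calc ‖T (a - b)‖ ^ 2 ≤ (C * ‖a - b‖) ^ 2 := pow_le_pow_left₀ (norm_nonneg _) h1 2
      _ = _ := by ring
  have h4 : ‖a - b‖ ^ 2 ≤ 2 * ‖a‖ ^ 2 + 2 * ‖b‖ ^ 2 := by
    have h5 := norm_sub_le a b
    have h6 : ‖a - b‖ ^ 2 ≤ (‖a‖ + ‖b‖) ^ 2 := pow_le_pow_left₀ (norm_nonneg _) h5 2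
    nlinarith [sq_nonneg (‖a‖ - ‖b‖)]
  have h7 : |2 * inner ℝ (T (a - b)) (a - b) - ‖T (a - b)‖ ^ 2| ≤ (2 * C + C ^ 2) * ‖a - b‖ ^ 2 := by
    have h8 := abs_sub (2 * inner ℝ (T (a - b)) (a - b)) (‖T (a - b)‖ ^ 2)
    rw [abs_mul, abs_of_nonneg (by positivity : (0 : ℝ) ≤ ‖T (a - b)‖ ^ 2)] at h8
    simp only [abs_two] at h8
    nlinarith
  exact h7.trans (mul_le_mul_of_nonneg_left h4 (by positivity))

theorem s4o_tail_integrable {η : E → ℝ} [IsProbabilityMeasure (dm η)] (hw : MemLp w 2 (dm η)) (hr : 0 < r)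
    (M : E → E →L[ℝ] E) (hM : Measurable M) (hMb : ∃ C, ∀ u, ‖M u‖ ≤ C) :
    Integrable (fun u => tailInt η w r (M u) u) (dm (gconv (dm η) r)) := by
  obtain ⟨C, hC⟩ := hMb
  have hC0 : 0 ≤ C := (norm_nonneg _).trans (hC 0)
  have hprob : IsProbabilityMeasure (dm (gconv (dm η) r)) := gc_isProb hr
  have hw1 : Integrable w (dm η) := hw.integrable one_le_two
  have hw2 : Integrable (fun x => ‖w x‖ ^ 2) (dm η) := (memLp_two_iff_integrable_sq_norm hw.1).1 hw
  have hhc : Continuous (hpost (dm η) r w) := dbt_hpost_continuous hr hw1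
  set w' := hw.1.mk w with hw'def
  have hw' : Measurable w' := hw.1.stronglyMeasurable_mk.measurable
  have hae : w =ᵐ[dm η] w' := hw.1.ae_eq_mk
  -- measurability
  have hz : Measurable fun z : E × E => w' z.2 - hpost (dm η) r w z.1 :=
    (hw'.comp measurable_snd).sub (hhc.measurable.comp measurable_fst)
  have hMz : Measurable fun z : E × E => M z.1 (w' z.2 - hpost (dm η) r w z.1) :=
    s4ot_clm_apply_meas (hM.comp measurable_fst) hz
  have hΦ : Measurable fun z : E × E => gk r (z.1 - z.2) •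
      (2 * inner ℝ (M z.1 (w' z.2 - hpost (dm η) r w z.1)) (w' z.2 - hpost (dm η) r w z.1) -
        ‖M z.1 (w' z.2 - hpost (dm η) r w z.1)‖ ^ 2) :=
    ((gck_measurable r).comp (measurable_fst.sub measurable_snd)).smul
      (((hMz.inner hz).const_mul 2).sub (hMz.norm.pow_const 2))
  have e : (fun u => tailInt η w r (M u) u) = fun u => (gconv (dm η) r u)⁻¹ • (∫ y, gk r (u - y) •
      (2 * inner ℝ (M u (w' y - hpost (dm η) r w u)) (w' y - hpost (dm η) r w u) -
        ‖M u (w' y - hpost (dm η) r w u)‖ ^ 2) ∂(dm η)) - hsSq (M u) := by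
    funext u
    unfold tailInt
    congr 1
    conv_lhs => unfold hpost
    congr 1
    refine integral_congr_ae ?_
    filter_upwards [hae] with y hy
    rw [hy]
    rfl
  have hmeas : AEStronglyMeasurable (fun u => tailInt η w r (M u) u) (dm (gconv (dm η) r)) := by
    rw [e]
    exact (((gck_gconv_measurable (μ := dm η) r).inv.stronglyMeasurable.smul
      hΦ.stronglyMeasurable.integral_prod_right').sub
      (s4ot_hsSq_meas hM).stronglyMeasurable).aestronglyMeasurable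
  -- domination
  have hL := db_hpost_memLp hr hw
  have ih2 : Integrable (fun u => ‖hpost (dm η) r w u‖ ^ 2) (dm (gconv (dm η) r)) :=
    (memLp_two_iff_integrable_sq_norm hL.1).1 hL
  have ibound : Integrable (fun u => (2 * C + C ^ 2) * (2 * hpost (dm η) r (fun x => ‖w x‖ ^ 2) u +
      2 * ‖hpost (dm η) r w u‖ ^ 2) + (Module.finrank ℝ E : ℝ) * C ^ 2) (dm (gconv (dm η) r)) :=
    ((((db_tower hr hw2).1.const_mul 2).add (ih2.const_mul 2)).const_mul _).add (integrable_const _)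
  refine ibound.mono' hmeas (Eventually.of_forall fun u => ?_)
  have := db_hpm_prob (ν := dm η) hr u
  have iw2 : Integrable (fun x => ‖w x‖ ^ 2) (hpm (dm η) r u) := db_hpm_integrable hr u hw2
  unfold tailInt
  rw [← db_hpm_integral hr u, ← db_hpm_integral hr u (fun x => ‖w x‖ ^ 2)]
  set hu := hpost (dm η) r w u with hhu
  have h1 : ‖∫ y, (2 * inner ℝ (M u (w y - hu)) (w y - hu) - ‖M u (w y - hu)‖ ^ 2) ∂(hpm (dm η) r u)‖ ≤
      ∫ y, (2 * C + C ^ 2) * (2 * ‖w y‖ ^ 2 + 2 * ‖hu‖ ^ 2) ∂(hpm (dm η) r u) :=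
    norm_integral_le_of_norm_le (((iw2.const_mul 2).add (integrable_const _)).const_mul _)
      (Eventually.of_forall fun y => s4ot_quad_le (M u) (hC u) (w y) hu)
  have h2 : ∫ y, (2 * C + C ^ 2) * (2 * ‖w y‖ ^ 2 + 2 * ‖hu‖ ^ 2) ∂(hpm (dm η) r u) =
      (2 * C + C ^ 2) * (2 * ∫ y, ‖w y‖ ^ 2 ∂(hpm (dm η) r u) + 2 * ‖hu‖ ^ 2) := by
    rw [integral_const_mul]
    have s1 : ∫ y, (2 * ‖w y‖ ^ 2 + 2 * ‖hu‖ ^ 2) ∂(hpm (dm η) r u) =
        ∫ y, 2 * ‖w y‖ ^ 2 ∂(hpm (dm η) r u) + ∫ _y, 2 * ‖hu‖ ^ 2 ∂(hpm (dm η) r u) :=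
      integral_add (iw2.const_mul 2) (integrable_const _)
    rw [s1, integral_const_mul]
    simp
  rw [h2] at h1
  have h3 := s4ot_hsSq_le (M u) (hC u)
  have h4 := s4ot_hsSq_nonneg (M u)
  rw [Real.norm_eq_abs] at h1 ⊢
  have h5 := abs_sub (∫ y, (2 * inner ℝ (M u (w y - hu)) (w y - hu) - ‖M u (w y - hu)‖ ^ 2) ∂(hpm (dm η) r u))
    (hsSq (M u))
  rw [abs_of_nonneg h4] at h5
  linarith

end Claimed.Agent.R259
end

/- ===== packed: Claimed.Agent.R259.S4OutDom ===== -/
section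
/-
Row 259 (S0499), section 4, package BP-S4-outliers, LEAF L-S4Out-dom: (4.posterior-domination) and the quadratic form of the outliers.
Sub-captain: helper220.  The leaf owner OWNS this file, keeps names and statements, replaces every `sorry`.
Inputs: GC exports (`gc_postMean_contDiff`, `gc_postMean_norm_le`, `gc_fderiv_postMean`, `gc_fderiv_postMean_hessK`, `gc_hessK_norm_le`,
`gc_hessK_symm`, `gc_postCov_nonneg`), DbTower (`db_hpm_prob`, `db_hpm_integral`, `db_tower`), `lc_spd_prob`.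

Pointwise in `y` (`π = hpm μ s0 y`, a probability; `μ` has bounded support, so all moments are finite):
  `⟨postMean μ s0 y, v⟩ = ∫ ⟨x, v⟩ dπ`, so `⟨postMean y, v⟩² ≤ ∫ ⟨x, v⟩² dπ = hpost μ s0 (⟨·, v⟩²) y`  (Cauchy-Schwarz / variance ≥ 0),
  `⟨D b (y) v, v⟩ = s0⁻¹ postCov μ s0 y v v = s0⁻¹ (hpost μ s0 (⟨·, v⟩²) y - ⟨postMean y, v⟩²) ≤ s0⁻¹ hpost μ s0 (⟨·, v⟩²) y`.
`y ↦ hpost μ s0 (⟨·, v⟩²) y` is measurable and bounded by `r² |v|²`, hence integrable for the probability `dm η`.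
`s4o_form`: `LinearMap.mk₂ ℝ (fun u v => ∫ ⟨w, u⟩⟨w, v⟩ + ∫ ⟨b, u⟩⟨b, v⟩ + ∫ ⟨D b u, v⟩)`; integrability: `w ∈ L²`, `b` bounded continuous,
`D b = Id - s0 K` bounded (`‖K‖ ≤ s0⁻¹`) continuous; symmetry of the last term: `gc_fderiv_postMean` (`postCov` is symmetric) or `gc_hessK_symm`.
-/
set_option autoImplicit false
set_option linter.unusedSectionVars false

open MeasureTheory Filter Topology ProbabilityTheory InformationTheory
open scoped ContDiff ENNReal

namespace Claimed.Agent.R259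

variable {E : Type} [NormedAddCommGroup E] [InnerProductSpace ℝ E] [FiniteDimensional ℝ E]
  [MeasurableSpace E] [BorelSpace E]

variable {μ : Measure E} {a : ℝ} {η : E → ℝ}

theorem s4od_s0_pos : (0 : ℝ) < s0 := by unfold s0; norm_num

/-- bounded continuous functions are integrable for a finite measure -/
theorem s4od_integrable_of_bdd (m : Measure E) [IsFiniteMeasure m] {f : E → ℝ} (hf : Continuous f) {C : ℝ}
    (hC : ∀ x, |f x| ≤ C) : Integrable f m :=
  Integrable.of_bound hf.aestronglyMeasurable C (Eventually.of_forall hC)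

theorem s4od_sq_ae_le {r : ℝ} (hr : μ (Metric.closedBall 0 r)ᶜ = 0) (v : E) :
    ∀ᵐ x ∂μ, inner ℝ x v ^ 2 ≤ r ^ 2 * ‖v‖ ^ 2 := by
  have hae : ∀ᵐ x ∂μ, x ∈ Metric.closedBall (0 : E) r := by
    rw [ae_iff]
    exact hr
  filter_upwards [hae] with x hx
  have h1 : ‖x‖ ≤ r := by simpa using hx
  have h2 := abs_real_inner_le_norm x v
  calc inner ℝ x v ^ 2 = |inner ℝ x v| ^ 2 := (sq_abs _).symm
    _ ≤ (‖x‖ * ‖v‖) ^ 2 := by gcongr
    _ ≤ (r * ‖v‖) ^ 2 := by gcongr
    _ = _ := by ring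

theorem s4od_sq_integrable [IsProbabilityMeasure μ] (hb : BddSupp μ) (v : E) :
    Integrable (fun x => inner ℝ x v ^ 2) μ := by
  obtain ⟨r, hr⟩ := hb
  refine Integrable.of_bound (by fun_prop : Continuous fun x : E => inner ℝ x v ^ 2).aestronglyMeasurable
    (r ^ 2 * ‖v‖ ^ 2) ?_
  filter_upwards [s4od_sq_ae_le hr v] with x hx
  rwa [Real.norm_eq_abs, abs_of_nonneg (sq_nonneg _)]

theorem s4od_id_integrable [IsProbabilityMeasure μ] (hb : BddSupp μ) : Integrable (fun x : E => x) μ := by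
  obtain ⟨r, hr⟩ := hb
  refine Integrable.of_bound aestronglyMeasurable_id r ?_
  have hae : ∀ᵐ x ∂μ, x ∈ Metric.closedBall (0 : E) r := by
    rw [ae_iff]
    exact hr
  filter_upwards [hae] with x hx
  simpa using hx

theorem s4od_hpost_nonneg [IsProbabilityMeasure μ] (v y : E) : 0 ≤ hpost μ s0 (fun x => inner ℝ x v ^ 2) y := by
  rw [← db_hpm_integral s4od_s0_pos y]
  exact integral_nonneg fun x => sq_nonneg _

theorem s4od_hpost_le [IsProbabilityMeasure μ] {r : ℝ} (hr : μ (Metric.closedBall 0 r)ᶜ = 0) (v y : E) :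
    hpost μ s0 (fun x => inner ℝ x v ^ 2) y ≤ r ^ 2 * ‖v‖ ^ 2 := by
  have hs := s4od_s0_pos
  have hq := db_gconv_pos (ν := μ) hs y
  unfold hpost
  rw [smul_eq_mul, inv_mul_le_iff₀ hq]
  have h1 : ∫ x, gk s0 (y - x) • inner ℝ x v ^ 2 ∂μ ≤ ∫ x, gk s0 (y - x) * (r ^ 2 * ‖v‖ ^ 2) ∂μ := by
    refine integral_mono_ae (db_num_integrable hs (s4od_sq_integrable ⟨r, hr⟩ v) y)
      ((dbt_gk_integrable hs y).mul_const _) ?_
    filter_upwards [s4od_sq_ae_le hr v] with x hx
    exact mul_le_mul_of_nonneg_left hx (db_gk_pos hs _).le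
  rw [integral_mul_const] at h1
  exact h1

theorem s4od_hpost_integrable [IsProbabilityMeasure μ] (hb : BddSupp μ) (m : Measure E) [IsFiniteMeasure m] (v : E) :
    Integrable (hpost μ s0 fun x => inner ℝ x v ^ 2) m := by
  obtain ⟨r, hr⟩ := hb
  refine s4od_integrable_of_bdd m (dbt_hpost_continuous s4od_s0_pos (s4od_sq_integrable ⟨r, hr⟩ v))
    (C := r ^ 2 * ‖v‖ ^ 2) fun y => ?_
  rw [abs_of_nonneg (s4od_hpost_nonneg v y)]
  exact s4od_hpost_le hr v y

theorem s4od_postMean_inner [IsProbabilityMeasure μ] (hb : BddSupp μ) (v y : E) :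
    inner ℝ (postMean μ s0 y) v = ∫ x, inner ℝ x v ∂(hpm μ s0 y) := by
  have e : postMean μ s0 y = ∫ x, x ∂(hpm μ s0 y) := (db_hpm_integral s4od_s0_pos y fun x : E => x).symm
  rw [e, real_inner_comm, ← integral_inner (db_hpm_integrable s4od_s0_pos y (s4od_id_integrable hb))]
  simp only [real_inner_comm]

theorem s4od_inner_integrable [IsProbabilityMeasure μ] (hb : BddSupp μ) (v y : E) :
    Integrable (fun x => inner ℝ x v) (hpm μ s0 y) := by
  have h1 := (db_hpm_integrable s4od_s0_pos y (s4od_id_integrable hb)).const_inner (𝕜 := ℝ) v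
  simpa only [real_inner_comm] using h1

theorem s4od_bb_pt [IsProbabilityMeasure μ] (hb : BddSupp μ) (v y : E) :
    inner ℝ (postMean μ s0 y) v ^ 2 ≤ hpost μ s0 (fun x => inner ℝ x v ^ 2) y := by
  have := db_hpm_prob (ν := μ) s4od_s0_pos y
  rw [s4od_postMean_inner hb, ← db_hpm_integral s4od_s0_pos y]
  exact dbt_sq_integral_le _ (s4od_inner_integrable hb v y)
    (db_hpm_integrable s4od_s0_pos y (s4od_sq_integrable hb v))

theorem s4od_postCov_eq [IsProbabilityMeasure μ] (hb : BddSupp μ) (v y : E) :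
    postCov μ s0 y v v = hpost μ s0 (fun x => inner ℝ x v ^ 2) y - inner ℝ (postMean μ s0 y) v ^ 2 := by
  have := db_hpm_prob (ν := μ) s4od_s0_pos y
  have e1 : postCov μ s0 y v v =
      ∫ x, (inner ℝ (x - postMean μ s0 y) v * inner ℝ (x - postMean μ s0 y) v) ∂(hpm μ s0 y) := by
    rw [db_hpm_integral s4od_s0_pos y]
    rfl
  have i1 := s4od_inner_integrable hb v y
  have i2 := db_hpm_integrable s4od_s0_pos y (s4od_sq_integrable hb v)
  rw [e1, ← db_hpm_integral s4od_s0_pos y]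
  set m := inner ℝ (postMean μ s0 y) v with hm
  have e2 : ∀ x : E, inner ℝ (x - postMean μ s0 y) v * inner ℝ (x - postMean μ s0 y) v =
      inner ℝ x v ^ 2 - (2 * m) * inner ℝ x v + m ^ 2 := fun x => by
    rw [inner_sub_left]
    ring
  simp only [e2]
  have i3 : Integrable (fun x : E => 2 * m * inner ℝ x v) (hpm μ s0 y) := i1.const_mul _
  have i4 : Integrable (fun x : E => inner ℝ x v ^ 2 - 2 * m * inner ℝ x v) (hpm μ s0 y) := i2.sub i3
  have s1 : ∫ x, (inner ℝ x v ^ 2 - 2 * m * inner ℝ x v + m ^ 2) ∂(hpm μ s0 y) =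
      ∫ x, (inner ℝ x v ^ 2 - 2 * m * inner ℝ x v) ∂(hpm μ s0 y) + ∫ _x, m ^ 2 ∂(hpm μ s0 y) :=
    integral_add i4 (integrable_const _)
  have s2 : ∫ x, (inner ℝ x v ^ 2 - 2 * m * inner ℝ x v) ∂(hpm μ s0 y) =
      ∫ x, inner ℝ x v ^ 2 ∂(hpm μ s0 y) - ∫ x, 2 * m * inner ℝ x v ∂(hpm μ s0 y) := integral_sub i2 i3
  rw [s1, s2, integral_const_mul, ← s4od_postMean_inner hb]
  simp only [integral_const, probReal_univ, one_smul]
  ring

theorem s4o_dom_bb (h : BaseLaw μ a) (hη : SPD η) (v : E) :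
    ∫ x, inner ℝ (postMean μ s0 x) v ^ 2 ∂(dm η) ≤ pD μ η v := by
  have := h.prob
  have := lc_spd_prob hη
  have hi := s4od_hpost_integrable h.bdd (dm η) v
  unfold pD
  refine integral_mono ?_ hi fun y => s4od_bb_pt h.bdd v y
  refine hi.mono' ?_ (Eventually.of_forall fun y => ?_)
  · have hc : Continuous (postMean μ s0) := (gc_postMean_contDiff h.bdd s4od_s0_pos).continuous
    exact (by fun_prop : Continuous fun y => inner ℝ (postMean μ s0 y) v ^ 2).aestronglyMeasurable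
  · rw [Real.norm_eq_abs, abs_of_nonneg (sq_nonneg _)]
    exact s4od_bb_pt h.bdd v y

theorem s4od_fderiv_continuous [IsProbabilityMeasure μ] (hb : BddSupp μ) (u v : E) :
    Continuous fun y => inner ℝ (fderiv ℝ (postMean μ s0) y u) v := by
  have hc : Continuous (fderiv ℝ (postMean μ s0)) :=
    (gc_postMean_contDiff hb s4od_s0_pos).continuous_fderiv (by simp)
  have h2 : Continuous fun y => fderiv ℝ (postMean μ s0) y u := hc.clm_apply continuous_const
  exact h2.inner continuous_const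

theorem s4o_dom_mm (h : BaseLaw μ a) (hη : SPD η) (v : E) :
    ∫ x, inner ℝ (fderiv ℝ (postMean μ s0) x v) v ∂(dm η) ≤ s0⁻¹ * pD μ η v := by
  have := h.prob
  have := lc_spd_prob hη
  have hs := s4od_s0_pos
  have hi := (s4od_hpost_integrable h.bdd (dm η) v).const_mul s0⁻¹
  have hpt : ∀ y, inner ℝ (fderiv ℝ (postMean μ s0) y v) v ≤
      s0⁻¹ * hpost μ s0 (fun x => inner ℝ x v ^ 2) y := fun y => by
    rw [gc_fderiv_postMean h.bdd hs, s4od_postCov_eq h.bdd]
    refine mul_le_mul_of_nonneg_left ?_ (inv_nonneg.2 hs.le)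
    have := sq_nonneg (inner ℝ (postMean μ s0 y) v)
    linarith
  unfold pD
  rw [← integral_const_mul]
  refine integral_mono ?_ hi hpt
  refine hi.mono' (s4od_fderiv_continuous h.bdd v v).aestronglyMeasurable (Eventually.of_forall fun y => ?_)
  rw [Real.norm_eq_abs, abs_of_nonneg]
  · exact hpt y
  · rw [gc_fderiv_postMean h.bdd hs]
    exact mul_nonneg (inv_nonneg.2 hs.le) (gc_postCov_nonneg hs y v)

/-- gap branch: averaging the posterior under `μ_s` gives back the prior. -/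
theorem s4o_pD_gap (h : BaseLaw μ a) (v : E) : pD μ (gconv μ s0) v = ∫ x, inner ℝ x v ^ 2 ∂μ := by
  have := h.prob
  exact (db_tower s4od_s0_pos (s4od_sq_integrable h.bdd v)).2

/-- integrating a field of symmetric bilinear forms -/
theorem s4od_bilin (m : Measure E) (G : E → E → E → ℝ)
    (hadd : ∀ x u u' v, G x (u + u') v = G x u v + G x u' v)
    (hsmul : ∀ x (c : ℝ) u v, G x (c • u) v = c * G x u v)
    (hsymm : ∀ x u v, G x u v = G x v u) (hi : ∀ u v, Integrable (fun x => G x u v) m) :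
    ∃ B : E →ₗ[ℝ] E →ₗ[ℝ] ℝ, (∀ u v, B u v = B v u) ∧ ∀ u v, B u v = ∫ x, G x u v ∂m := by
  have H1 : ∀ u u' v, ∫ x, G x (u + u') v ∂m = ∫ x, G x u v ∂m + ∫ x, G x u' v ∂m := fun u u' v => by
    rw [← integral_add (hi u v) (hi u' v)]
    simp only [hadd]
  have H2 : ∀ (c : ℝ) u v, ∫ x, G x (c • u) v ∂m = c • ∫ x, G x u v ∂m := fun c u v => by
    rw [smul_eq_mul, ← integral_const_mul]
    simp only [hsmul]
  have HS : ∀ u v, ∫ x, G x u v ∂m = ∫ x, G x v u ∂m := fun u v => by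
    simp only [hsymm _ u v]
  refine ⟨LinearMap.mk₂ ℝ (fun u v => ∫ x, G x u v ∂m) H1 H2 ?_ ?_, fun u v => ?_, fun u v => ?_⟩
  · intro u v v'
    rw [HS u (v + v'), H1, HS v u, HS v' u]
  · intro c u v
    rw [HS u (c • v), H2, HS v u]
  · simp only [LinearMap.mk₂_apply]
    exact HS u v
  · simp only [LinearMap.mk₂_apply]

/-- the quadratic form `E ww* + E bb* + E M_s`. -/
theorem s4o_form (h : BaseLaw μ a) (hη : SPD η) {w : E → E} (hw : MemLp w 2 (dm η)) :
    ∃ B : E →ₗ[ℝ] E →ₗ[ℝ] ℝ, (∀ u v, B u v = B v u) ∧ ∀ v, B v v =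
      ∫ x, inner ℝ (w x) v ^ 2 ∂(dm η) + ∫ x, inner ℝ (postMean μ s0 x) v ^ 2 ∂(dm η) +
        ∫ x, inner ℝ (fderiv ℝ (postMean μ s0) x v) v ∂(dm η) := by
  have := h.prob
  have := lc_spd_prob hη
  have hs := s4od_s0_pos
  obtain ⟨r, hr⟩ := h.bdd
  have hbc : Continuous (postMean μ s0) := (gc_postMean_contDiff h.bdd hs).continuous
  have i1 : ∀ u v, Integrable (fun x => inner ℝ (w x) u * inner ℝ (w x) v) (dm η) := fun u v =>
    (hw.inner_const u).integrable_mul (hw.inner_const v)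
  have i2 : ∀ u v, Integrable (fun x => inner ℝ (postMean μ s0 x) u * inner ℝ (postMean μ s0 x) v) (dm η) :=
    fun u v => by
      refine s4od_integrable_of_bdd _ (by fun_prop) (C := (r * ‖u‖) * (r * ‖v‖)) fun x => ?_
      have hb := gc_postMean_norm_le hr hs x
      have hr0 : 0 ≤ r := (norm_nonneg _).trans hb
      rw [abs_mul]
      refine mul_le_mul ?_ ?_ (abs_nonneg _) (by positivity)
      · exact (abs_real_inner_le_norm _ _).trans (mul_le_mul_of_nonneg_right hb (norm_nonneg _))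
      · exact (abs_real_inner_le_norm _ _).trans (mul_le_mul_of_nonneg_right hb (norm_nonneg _))
  have i3 : ∀ u v, Integrable (fun x => inner ℝ (fderiv ℝ (postMean μ s0) x u) v) (dm η) := fun u v => by
    refine s4od_integrable_of_bdd _ (s4od_fderiv_continuous h.bdd u v) (C := (2 * ‖u‖) * ‖v‖) fun x => ?_
    refine (abs_real_inner_le_norm _ _).trans (mul_le_mul_of_nonneg_right ?_ (norm_nonneg _))
    rw [gc_fderiv_postMean_hessK h.bdd hs]
    have h1 : ‖s0 • hessK μ s0 x u‖ ≤ ‖u‖ := by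
      rw [norm_smul, Real.norm_eq_abs, abs_of_pos hs]
      have h2 := (hessK μ s0 x).le_opNorm u
      have h3 := gc_hessK_norm_le h.bdd h.dens hs x
      calc s0 * ‖hessK μ s0 x u‖ ≤ s0 * (s0⁻¹ * ‖u‖) :=
            mul_le_mul_of_nonneg_left (h2.trans (mul_le_mul_of_nonneg_right h3 (norm_nonneg _))) hs.le
        _ = ‖u‖ := by rw [← mul_assoc, mul_inv_cancel₀ hs.ne', one_mul]
    have := norm_sub_le u (s0 • hessK μ s0 x u)
    linarith
  obtain ⟨B, hB1, hB2⟩ := s4od_bilin (dm η) (fun x u v => inner ℝ (w x) u * inner ℝ (w x) v +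
      inner ℝ (postMean μ s0 x) u * inner ℝ (postMean μ s0 x) v + inner ℝ (fderiv ℝ (postMean μ s0) x u) v)
    (fun x u u' v => by
      simp only [inner_add_right, map_add, inner_add_left]
      ring)
    (fun x c u v => by
      simp only [inner_smul_right, map_smul, inner_smul_left, RCLike.conj_to_real]
      ring)
    (fun x u v => by
      rw [gc_fderiv_postMean h.bdd hs, gc_fderiv_postMean h.bdd hs, gcs_postCov_comm s0 x u v]
      ring)
    (fun u v => ((i1 u v).add (i2 u v)).add (i3 u v))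
  refine ⟨B, hB1, fun v => ?_⟩
  rw [hB2]
  have s1 : ∫ x, (inner ℝ (w x) v * inner ℝ (w x) v +
      inner ℝ (postMean μ s0 x) v * inner ℝ (postMean μ s0 x) v + inner ℝ (fderiv ℝ (postMean μ s0) x v) v) ∂(dm η) =
      ∫ x, (inner ℝ (w x) v * inner ℝ (w x) v +
        inner ℝ (postMean μ s0 x) v * inner ℝ (postMean μ s0 x) v) ∂(dm η) +
      ∫ x, inner ℝ (fderiv ℝ (postMean μ s0) x v) v ∂(dm η) := integral_add ((i1 v v).add (i2 v v)) (i3 v v)
  have s2 : ∫ x, (inner ℝ (w x) v * inner ℝ (w x) v +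
        inner ℝ (postMean μ s0 x) v * inner ℝ (postMean μ s0 x) v) ∂(dm η) =
      ∫ x, inner ℝ (w x) v * inner ℝ (w x) v ∂(dm η) +
        ∫ x, inner ℝ (postMean μ s0 x) v * inner ℝ (postMean μ s0 x) v ∂(dm η) := integral_add (i1 v v) (i2 v v)
  rw [s1, s2]
  simp only [sq]

end Claimed.Agent.R259
end

/- ===== packed: Claimed.Agent.R259.S4Out ===== -/
section
/-
Row 259 (S0499), section 4: package BP-S4-outliers (Lemma 4.4).   Owner / sub-captain: helper220.
EXPORTS `s4_tail_step`, `s4_proj_strict`, `s4_proj_gap`: PROVED here (glue) from the leaf files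
  S4OutLin (linear algebra), S4OutAff (affine estimator), S4OutTail (integrability in `u`), S4OutMgf, S4OutTrace, S4OutDom.

Strict branch.  `B = E ww* + E bb* + E M_s` (`s4o_form`), `e_1..e_l` = orthonormal eigenvectors of `B` with eigenvalue `≥ ε` (`s4o_spec`),
`Pj = ofam e`.  RANK:  `ε l ≤ ∑ B(e_i, e_i) ≤ I + 9 ∑ pD(e_i) ≤ I + 9 C a² (I/2 + l)`, so `l ≤ 3 I/ε` as soon as `9 C a² ≤ min(1, ε/2)`.
SMALL: affine estimator with `M = κ Pj`:  `κ E|Pj ẘ|² ≤ κ² l + lcPE(1)`, `lcPE(1) ≤ 2 d(2) ≤ 2 δ I`, `E|Pj w|² ≤ 2 E|Pj ẘ|² + 2 |E w|²`.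
-/
set_option autoImplicit false

open MeasureTheory Filter Topology ProbabilityTheory InformationTheory
open scoped ContDiff ENNReal

namespace Claimed.Agent.R259

variable {E : Type} [NormedAddCommGroup E] [InnerProductSpace ℝ E] [FiniteDimensional ℝ E]
  [MeasurableSpace E] [BorelSpace E]

/-! ### BP-S4-outliers: Lemma 4.4 -/

/-- affine estimator bound, conditionally on `U_r`, integrated. -/
theorem s4_tail_step {η : E → ℝ} (hη : SPD η) {w : E → E} (hw : MemLp w 2 (dm η)) {r : ℝ}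
    (hr : 0 < r) (M : E → E →L[ℝ] E) (hM : Measurable M) (hMb : ∃ C, ∀ u, ‖M u‖ ≤ C) :
    ∫ u, tailInt η w r (M u) u ∂(dm (gconv (dm η) r)) ≤ s4P (dm η) w r 1 - hpe (dm η) r w := by
  have := lc_spd_prob hη
  have h1 := s4o_tail_integrable hw hr M hM hMb
  have h2 := s4o_P_integrable (ν := dm η) hw hr (v := 1) zero_le_one
  have h3 : Integrable (fun u => ‖hpost (dm η) r w u‖ ^ 2) (dm (gconv (dm η) r)) :=
    (db_hpost_memLp hr hw).integrable_norm_pow (by norm_num)
  unfold s4P hpe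
  rw [← integral_sub h2 h3]
  refine integral_mono h1 (h2.sub h3) fun u => ?_
  have := db_hpm_prob (ν := dm η) hr u
  have h4 := s4o_affine (s4o_memLp_hpm hw hr u) (M u)
  rw [db_hpm_integral hr u w, db_hpm_integral hr u] at h4
  simp only [tailInt]
  linarith

/-- `E|Pj w|²` for a projection of rank `l`. -/
theorem s4o_small {m : Measure E} [IsProbabilityMeasure m] {w : E → E} (hw : MemLp w 2 m) {l : ℕ}
    {e : Fin l → E} (he : Orthonormal ℝ e) {κ : ℝ} (hκ : 0 < κ) (hκ1 : κ ≤ 1) :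
    ∫ x, ‖ofam e (w x)‖ ^ 2 ∂m ≤ 2 * κ * l + 2 * lcPE m w 1 w / κ + 2 * ‖∫ x, w x ∂m‖ ^ 2 := by
  set a := ∫ x, w x ∂m with ha
  have hwa : MemLp (fun x => w x - a) 2 m := hw.sub (memLp_const a)
  have hP : MemLp (fun x => ofam e (w x - a)) 2 m := (ofam e).comp_memLp' hwa
  have hPi : Integrable (fun x => ‖ofam e (w x - a)‖ ^ 2) m := hP.integrable_norm_pow (by norm_num)
  have h1 := s4o_affine hw (κ • ofam e)
  rw [s4o_ofam_hs he] at h1
  have h2 : ∀ x, 2 * inner ℝ ((κ • ofam e) (w x - a)) (w x - a) - ‖(κ • ofam e) (w x - a)‖ ^ 2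
      = (2 * κ - κ ^ 2) * ‖ofam e (w x - a)‖ ^ 2 := by
    intro x
    rw [ContinuousLinearMap.smul_apply, inner_smul_left, s4o_ofam_inner he, norm_smul, mul_pow,
      Real.norm_eq_abs, sq_abs]
    simp
    ring
  simp_rw [← ha, h2] at h1
  rw [integral_const_mul] at h1
  set J := ∫ x, ‖ofam e (w x - a)‖ ^ 2 ∂m with hJ
  have hJ0 : 0 ≤ J := integral_nonneg fun _ => by positivity
  have h3 : κ * J ≤ κ ^ 2 * l + lcPE m w 1 w := by
    have : κ * J ≤ (2 * κ - κ ^ 2) * J := by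
      apply mul_le_mul_of_nonneg_right _ hJ0
      nlinarith
    have h0 : 0 ≤ ‖a‖ ^ 2 := by positivity
    linarith
  have h4 : J ≤ κ * l + lcPE m w 1 w / κ := by
    rw [← sub_nonneg]
    have : κ * l + lcPE m w 1 w / κ - J = (κ ^ 2 * l + lcPE m w 1 w - κ * J) / κ := by
      field_simp
    rw [this]
    exact div_nonneg (by linarith) hκ.le
  have h5 : ∫ x, ‖ofam e (w x)‖ ^ 2 ∂m ≤ ∫ x, (2 * ‖ofam e (w x - a)‖ ^ 2 + 2 * ‖a‖ ^ 2) ∂m := by
    refine integral_mono_of_nonneg (Eventually.of_forall fun _ => by positivity)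
      ((hPi.const_mul 2).add (integrable_const _)) (Eventually.of_forall fun x => ?_)
    have e1 : ofam e (w x) = ofam e (w x - a) + ofam e a := by rw [← map_add]; simp
    have e2 := s4o_ofam_norm_le he a
    have e3 : ‖ofam e (w x)‖ ≤ ‖ofam e (w x - a)‖ + ‖a‖ := by
      rw [e1]; exact (norm_add_le _ _).trans (by linarith)
    have e4 : 0 ≤ ‖ofam e (w x)‖ := norm_nonneg _
    show ‖ofam e (w x)‖ ^ 2 ≤ 2 * ‖ofam e (w x - a)‖ ^ 2 + 2 * ‖a‖ ^ 2
    nlinarith [sq_nonneg (‖ofam e (w x - a)‖ - ‖a‖), norm_nonneg (ofam e (w x - a)), norm_nonneg a]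
  rw [integral_add (hPi.const_mul 2) (integrable_const _), integral_const_mul, integral_const] at h5
  simp only [probReal_univ, one_smul] at h5
  have : 2 * lcPE m w 1 w / κ = 2 * (lcPE m w 1 w / κ) := by ring
  rw [this]
  linarith

theorem s4o_mm_nonneg {μ : Measure E} {a : ℝ} (h : BaseLaw μ a) (m : Measure E) (v : E) :
    0 ≤ ∫ x, inner ℝ (fderiv ℝ (postMean μ s0) x v) v ∂m := by
  have := h.prob
  have hs : (0 : ℝ) < s0 := by unfold s0; norm_num
  refine integral_nonneg fun x => ?_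
  show 0 ≤ inner ℝ (fderiv ℝ (postMean μ s0) x v) v
  rw [gc_fderiv_postMean h.bdd hs]
  exact mul_nonneg (inv_nonneg.2 hs.le) (gc_postCov_nonneg hs x v)

/-- the three bounds outside of the outlier space. -/
theorem s4o_three {μ : Measure E} {a : ℝ} (h : BaseLaw μ a) {η : E → ℝ} {w : E → E} {ε : ℝ} (hε : 0 ≤ ε)
    {B : E →ₗ[ℝ] E →ₗ[ℝ] ℝ}
    (hBd : ∀ v, B v v = ∫ x, inner ℝ (w x) v ^ 2 ∂(dm η) + ∫ x, inner ℝ (postMean μ s0 x) v ^ 2 ∂(dm η) +
        ∫ x, inner ℝ (fderiv ℝ (postMean μ s0) x v) v ∂(dm η))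
    {l : ℕ} {e : Fin l → E} (he : Orthonormal ℝ e)
    (hperp : ∀ v, (∀ i, inner ℝ (e i) v = 0) → B v v ≤ ε * ‖v‖ ^ 2) (v : E) :
    ∫ x, inner ℝ (w x) (v - ofam e v) ^ 2 ∂(dm η) ≤ ε * ‖v‖ ^ 2 ∧
    ∫ x, inner ℝ (postMean μ s0 x) (v - ofam e v) ^ 2 ∂(dm η) ≤ ε * ‖v‖ ^ 2 ∧
    ∫ x, inner ℝ (fderiv ℝ (postMean μ s0) x (v - ofam e v)) (v - ofam e v) ∂(dm η) ≤ ε * ‖v‖ ^ 2 := by
  have h1 := hperp (v - ofam e v) (s4o_ofam_perp he v)
  have h2 : ε * ‖v - ofam e v‖ ^ 2 ≤ ε * ‖v‖ ^ 2 := by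
    have := s4o_ofam_sub_norm_le he v
    gcongr
  rw [hBd] at h1
  have n1 : 0 ≤ ∫ x, inner ℝ (w x) (v - ofam e v) ^ 2 ∂(dm η) := integral_nonneg fun _ => by positivity
  have n2 : 0 ≤ ∫ x, inner ℝ (postMean μ s0 x) (v - ofam e v) ^ 2 ∂(dm η) :=
    integral_nonneg fun _ => by positivity
  have n3 := s4o_mm_nonneg h (dm η) (v - ofam e v)
  refine ⟨by linarith, by linarith, by linarith⟩

/-- the rank of the outlier space. -/
theorem s4o_rank {μ : Measure E} {a : ℝ} (h : BaseLaw μ a) {η : E → ℝ} (hη : SPD η) {w : E → E}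
    (hw : MemLp w 2 (dm η)) {ε : ℝ} {B : E →ₗ[ℝ] E →ₗ[ℝ] ℝ}
    (hBd : ∀ v, B v v = ∫ x, inner ℝ (w x) v ^ 2 ∂(dm η) + ∫ x, inner ℝ (postMean μ s0 x) v ^ 2 ∂(dm η) +
        ∫ x, inner ℝ (fderiv ℝ (postMean μ s0) x v) v ∂(dm η))
    {l : ℕ} {e : Fin l → E} (he : Orthonormal ℝ e) (hge : ∀ i, ε ≤ B (e i) (e i)) :
    ε * l ≤ ∫ x, ‖w x‖ ^ 2 ∂(dm η) + 9 * ∑ i, pD μ η (e i) := by
  have h1 : ε * l ≤ ∑ i, B (e i) (e i) := by
    calc ε * l = ∑ _i : Fin l, ε := by simp [mul_comm]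
      _ ≤ _ := Finset.sum_le_sum fun i _ => hge i
  have hint : ∀ i, Integrable (fun x => inner ℝ (w x) (e i) ^ 2) (dm η) := fun i => by
    have : MemLp (fun x => inner ℝ (w x) (e i)) 2 (dm η) := hw.inner_const (e i)
    exact this.integrable_sq
  have h2 : ∑ i, ∫ x, inner ℝ (w x) (e i) ^ 2 ∂(dm η) ≤ ∫ x, ‖w x‖ ^ 2 ∂(dm η) := by
    rw [← integral_finsetSum _ fun i _ => hint i]
    refine integral_mono_of_nonneg (Eventually.of_forall fun _ => Finset.sum_nonneg fun _ _ => by positivity)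
      (hw.integrable_norm_pow (by norm_num)) (Eventually.of_forall fun x => ?_)
    show ∑ i, inner ℝ (w x) (e i) ^ 2 ≤ ‖w x‖ ^ 2
    have e1 := s4o_ofam_norm_sq he (w x)
    have e2 := s4o_ofam_norm_le he (w x)
    simp_rw [real_inner_comm (w x)] at e1
    rw [← e1]
    gcongr
  have h3 : ∀ i, B (e i) (e i) ≤ ∫ x, inner ℝ (w x) (e i) ^ 2 ∂(dm η) + 9 * pD μ η (e i) := fun i => by
    rw [hBd]
    have a1 := s4o_dom_bb h hη (e i)
    have a2 := s4o_dom_mm h hη (e i)
    have : s0⁻¹ = 8 := by unfold s0; norm_num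
    rw [this] at a2
    linarith
  calc ε * l ≤ ∑ i, B (e i) (e i) := h1
    _ ≤ ∑ i, (∫ x, inner ℝ (w x) (e i) ^ 2 ∂(dm η) + 9 * pD μ η (e i)) := Finset.sum_le_sum fun i _ => h3 i
    _ = ∑ i, ∫ x, inner ℝ (w x) (e i) ^ 2 ∂(dm η) + 9 * ∑ i, pD μ η (e i) := by
        rw [Finset.sum_add_distrib, Finset.mul_sum]
    _ ≤ _ := by linarith

/-- LEMMA 4.4 (i)+(ii), strict branch, from `d(2) ≤ δ I`. -/
theorem s4_proj_strict : ∀ ε : ℝ, 0 < ε → ∃ δ : ℝ, 0 < δ ∧ ∀ (E : Type)
    [NormedAddCommGroup E] [InnerProductSpace ℝ E] [FiniteDimensional ℝ E] [MeasurableSpace E]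
    [BorelSpace E] (μ : Measure E) (a : ℝ) (η : E → ℝ) (w : E → E) (f : E → ℝ),
    Crit μ a δ η w → StrictBranch μ s0 1 η w f →
    lcD (dm η) w 2 ≤ δ * ∫ x, ‖w x‖ ^ 2 ∂(dm η) → ∃ Pj : E →L[ℝ] E, OutlierProj μ η w w ε Pj := by
  intro ε hε
  obtain ⟨C, hC, hT⟩ := s4o_trace
  set κ : ℝ := min 1 (ε ^ 2 / 18) with hκdef
  have hκ : 0 < κ := lt_min one_pos (by positivity)
  have hκ1 : κ ≤ 1 := min_le_left _ _
  have hκ2 : κ ≤ ε ^ 2 / 18 := min_le_right _ _
  set θ : ℝ := min 1 (ε / 2) with hθdef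
  have hθ : 0 < θ := lt_min one_pos (by positivity)
  set δ : ℝ := min (min 1 (θ / (9 * C))) (min (κ * ε / 12) (ε / 6)) with hδdef
  have hδ : 0 < δ := lt_min (lt_min one_pos (by positivity)) (lt_min (by positivity) (by positivity))
  have hδ1 : δ ≤ 1 := (min_le_left _ _).trans (min_le_left _ _)
  have hδ2 : δ ≤ θ / (9 * C) := (min_le_left _ _).trans (min_le_right _ _)
  have hδ3 : δ ≤ κ * ε / 12 := (min_le_right _ _).trans (min_le_left _ _)
  have hδ4 : δ ≤ ε / 6 := (min_le_right _ _).trans (min_le_right _ _)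
  refine ⟨δ, hδ, ?_⟩
  intro E _ _ _ _ _ μ a η w f hCr hS hd
  have hb : BaseLaw μ a := hCr.base.toBaseLaw
  have hη := hCr.field.spd
  have hw := hCr.field.w_L2
  have := lc_spd_prob hη
  set I := ∫ x, ‖w x‖ ^ 2 ∂(dm η) with hIdef
  have hI : 0 < I := hCr.field.I_pos
  obtain ⟨B, hBs, hBd⟩ := s4o_form hb hη hw
  obtain ⟨l, e, he, hge, hperp⟩ := s4o_spec B hBs ε
  have h3 := s4o_three hb hε.le hBd he hperp
  -- rank
  have hr1 := s4o_rank hb hη hw hBd he hge
  have hr2 := hT E μ a η w f hb hη hS l e he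
  have hH : ∫ x, f x ^ 2 * Real.log (f x ^ 2) ∂(dm (gconv μ s0)) = I / 2 := by
    have := hS.I_eq
    rw [← hIdef] at this
    linarith
  rw [hH] at hr2
  have ha2 : 9 * (C * a ^ 2) ≤ θ := by
    have h1 : a ^ 2 ≤ δ := by
      have := hb.apos
      have h2 := hCr.a_small
      nlinarith
    have h2 : a ^ 2 ≤ θ / (9 * C) := h1.trans hδ2
    rw [le_div_iff₀ (by positivity)] at h2
    linarith
  have hl0 : (0 : ℝ) ≤ l := Nat.cast_nonneg l
  have hl : ε * l ≤ 3 * I := by
    have h1 : 9 * (C * a ^ 2 * (I / 2 + l)) ≤ θ * (I / 2 + l) := by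
      have : 0 ≤ I / 2 + (l : ℝ) := by positivity
      nlinarith
    have h2 : θ * (I / 2 + l) ≤ 1 * (I / 2) + ε / 2 * l := by
      have t1 : θ ≤ 1 := min_le_left _ _
      have t2 : θ ≤ ε / 2 := min_le_right _ _
      nlinarith
    rw [← hIdef] at hr1
    linarith
  -- small
  have hs1 := s4o_small hw he hκ hκ1
  have hpe : lcPE (dm η) w 1 w ≤ 2 * (δ * I) := by
    have h1 := (lc_D_inc hw (t₁ := 1) (t₂ := 2) zero_le_one (by norm_num)).1
    have h2 := lc_D_nonneg hw (t := 1) zero_le_one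
    linarith
  have hmean := hCr.mean_small
  rw [← hIdef] at hmean
  have hsmall : ∫ x, ‖ofam e (w x)‖ ^ 2 ∂(dm η) ≤ ε * I := by
    have t1 : 2 * κ * l ≤ ε / 3 * I := by
      have : κ * (ε * l) ≤ ε ^ 2 / 18 * (3 * I) := by
        apply mul_le_mul hκ2 hl (by positivity) (by positivity)
      have h5 : ε * (2 * κ * l) ≤ ε * (ε / 3 * I) := by nlinarith
      exact le_of_mul_le_mul_left h5 hε
    have t2 : 2 * lcPE (dm η) w 1 w / κ ≤ ε / 3 * I := by
      rw [div_le_iff₀ hκ]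
      have : δ * I ≤ κ * ε / 12 * I := by gcongr
      nlinarith
    have t3 : 2 * ‖∫ x, w x ∂(dm η)‖ ^ 2 ≤ ε / 3 * I := by
      have : δ * I ≤ ε / 6 * I := by gcongr
      linarith
    linarith
  exact ⟨ofam e,
    { proj := s4o_ofam_proj he
      small := hsmall
      bb := fun v => (h3 v).2.1
      ww := fun v => (h3 v).1
      mm := fun v => (h3 v).2.2 }⟩

/-- LEMMA 4.4 (i)+(ii), gap branch: `Pj = 0`. -/
theorem s4_proj_gap : ∀ ε : ℝ, 0 < ε → ∃ δ : ℝ, 0 < δ ∧ ∀ (E : Type)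
    [NormedAddCommGroup E] [InnerProductSpace ℝ E] [FiniteDimensional ℝ E] [MeasurableSpace E]
    [BorelSpace E] (μ : Measure E) (a : ℝ) (η : E → ℝ) (w : E → E) (φ : E → ℝ),
    Crit μ a δ η w → GapBranch μ s0 1 η w φ → OutlierProj μ η w 0 ε 0 := by
  intro ε hε
  refine ⟨min 1 (ε / 8), lt_min one_pos (by positivity), ?_⟩
  intro E _ _ _ _ _ μ a η w φ hCr hG
  have hb : BaseLaw μ a := hCr.base.toBaseLaw
  have hη := hCr.field.spd
  have hηe : η = gconv μ s0 := funext hG.η_eq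
  have ha2 : 8 * a ^ 2 ≤ ε := by
    have h0 := hb.apos
    have h1 : a ≤ 1 := hCr.a_small.trans (min_le_left _ _)
    have h2 : a ≤ ε / 8 := hCr.a_small.trans (min_le_right _ _)
    nlinarith
  have hpD : ∀ v, pD μ η v ≤ a ^ 2 * ‖v‖ ^ 2 := fun v => by
    rw [hηe, s4o_pD_gap hb]
    have := subg_cov hb v
    simp_rw [real_inner_comm _ v] at this
    exact this
  exact
    { proj := ⟨fun v => by simp, fun u v => by simp⟩
      small := by
        simp only [zero_apply, norm_zero, ne_eq, OfNat.ofNat_ne_zero, not_false_eq_true,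
          zero_pow, integral_zero]
        exact mul_nonneg hε.le (integral_nonneg fun _ => by positivity)
      bb := fun v => by
        simp only [zero_apply, sub_zero]
        have h1 := s4o_dom_bb hb hη v
        have h2 := hpD v
        have : 0 ≤ ‖v‖ ^ 2 := by positivity
        nlinarith
      ww := fun v => by
        simp only [Pi.zero_apply, inner_zero_left, ne_eq, OfNat.ofNat_ne_zero, not_false_eq_true, zero_pow,
          integral_zero]
        positivity
      mm := fun v => by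
        simp only [zero_apply, sub_zero]
        have h1 := s4o_dom_mm hb hη v
        have h2 := hpD v
        have h3 : s0⁻¹ = 8 := by unfold s0; norm_num
        rw [h3] at h1
        have : 0 ≤ ‖v‖ ^ 2 := by positivity
        nlinarith }

end Claimed.Agent.R259
end

/- ===== packed: Claimed.Agent.R259.S4Main ===== -/
section
/-
Row 259 (S0499), section 4 of the paper: MAIN EXPORTS `s4_strict`, `s4_gap` (Proposition 4.3 and Lemma 4.4 in
eps-delta form, uniform in `r`), PROVED from the exports of the packages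
  S4Hc (heat channel basics), S4Probe (L4.1), S4Curve (P4.3), S4Num (real analysis), S4Out (L4.4).
Owner: helper220.
-/
set_option autoImplicit false

open MeasureTheory Filter Topology ProbabilityTheory InformationTheory
open scoped ContDiff ENNReal

namespace Claimed.Agent.R259

variable {E : Type} [NormedAddCommGroup E] [InnerProductSpace ℝ E] [FiniteDimensional ℝ E]
  [MeasurableSpace E] [BorelSpace E]

/-! ### Glue -/

theorem s4_spd_prob {η : E → ℝ} (h : SPD η) : IsProbabilityMeasure (dm η) := by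
  constructor
  have hint : Integrable η := by
    by_contra hc
    have := integral_undef hc
    rw [h.2.2] at this
    exact one_ne_zero this
  rw [dm, withDensity_apply _ MeasurableSet.univ, Measure.restrict_univ,
    ← ofReal_integral_eq_lintegral_ofReal hint (Eventually.of_forall fun x => (h.2.1 x).le), h.2.2]
  simp

omit [BorelSpace E] in
theorem s4_lsi_mono {m : Measure E} {R R' : ℝ} (h : LSI m R) (hR : R ≤ R') : LSI m R' := by
  intro f hf
  have h0 : 0 ≤ nrg m f := integral_nonneg fun _ => by positivity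
  calc ent m (fun x => f x ^ 2) ≤ 2 * R * nrg m f := h f hf
    _ ≤ 2 * R' * nrg m f := by gcongr

theorem s4_crit_mono {μ : Measure E} {a δ δ' : ℝ} {η : E → ℝ} {w : E → E} (h : Crit μ a δ η w)
    (hδ : δ ≤ δ') : Crit μ a δ' η w := by
  have hI : 0 ≤ ∫ x, ‖w x‖ ^ 2 ∂(dm η) := integral_nonneg fun _ => by positivity
  exact
    { base := h.base
      field := h.field
      branch := h.branch
      mean_small := h.mean_small.trans (by gcongr)
      wKw_small := h.wKw_small.trans (by gcongr)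
      Kw_small := h.Kw_small.trans (by gcongr)
      a_small := h.a_small.trans hδ
      lsi_heat := fun t h0 h1 => s4_lsi_mono (h.lsi_heat t h0 h1) (by linarith) }

/-- from the two one-sided bounds to the uniform curve. -/
theorem s4_curve_glue {η : E → ℝ} {w : E → E} (hη : SPD η) (hw : MemLp w 2 (dm η))
    (hI : 0 < ∫ x, ‖w x‖ ^ 2 ∂(dm η)) {ε r0 δ₁ : ℝ}
    (hsq : ∀ mm : ℝ → ℝ, AntitoneOn mm (Set.Ioc 0 (1 / 4)) →
      (∀ r ∈ Set.Ioc (0 : ℝ) (1 / 4), 0 ≤ mm r) →
      (∀ r ∈ Set.Ioc (0 : ℝ) (1 / 4), mm r ≤ Real.exp (-r) + δ₁) →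
      (∀ z ∈ Set.Ioc (0 : ℝ) (1 / 4), 1 - Real.exp (-z) - δ₁ ≤ ∫ r in (0 : ℝ)..z, mm r) →
      ∀ r, r0 ≤ r → r ≤ 1 / 4 - r0 → |mm r - Real.exp (-r)| ≤ ε)
    (hup : ∀ r ∈ Set.Ioc (0 : ℝ) (1 / 4),
      hpe (dm η) r w ≤ (Real.exp (-r) + δ₁) * ∫ x, ‖w x‖ ^ 2 ∂(dm η))
    (hlow : ∀ z ∈ Set.Ioc (0 : ℝ) (1 / 4),
      (1 - Real.exp (-z) - δ₁) * ∫ x, ‖w x‖ ^ 2 ∂(dm η) ≤ ∫ r in (0 : ℝ)..z, hpe (dm η) r w) :
    CurveOK η w ε r0 := by
  have := s4_spd_prob hη
  set I := ∫ x, ‖w x‖ ^ 2 ∂(dm η) with hIdef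
  intro r h1 h2
  have key := hsq (fun r => hpe (dm η) r w / I)
    (fun x hx y _ hxy => by
      have := hc_pe_anti hw hx.1 hxy
      show hpe (dm η) y w / I ≤ hpe (dm η) x w / I
      gcongr)
    (fun r _ => div_nonneg (hc_pe_nonneg _ _ _) hI.le)
    (fun r hr => by
      show hpe (dm η) r w / I ≤ _
      rw [div_le_iff₀ hI]; exact hup r hr)
    (fun z hz => by
      rw [intervalIntegral.integral_div, le_div_iff₀ hI]; exact hlow z hz)
    r h1 h2
  have e : hpe (dm η) r w - Real.exp (-r) * I = (hpe (dm η) r w / I - Real.exp (-r)) * I := by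
    field_simp
  rw [e, abs_mul, abs_of_pos hI]
  gcongr

/-- SECTION 4, STRICT BRANCH. -/
theorem s4_strict : ∀ ε : ℝ, 0 < ε → ∀ r0 : ℝ, 0 < r0 → ∃ δ : ℝ, 0 < δ ∧ ∀ (E : Type)
    [NormedAddCommGroup E] [InnerProductSpace ℝ E] [FiniteDimensional ℝ E] [MeasurableSpace E]
    [BorelSpace E] (μ : Measure E) (a : ℝ) (η : E → ℝ) (w : E → E) (f : E → ℝ),
    Crit μ a δ η w → StrictBranch μ s0 1 η w f →
      CurveOK η w ε r0 ∧ TailOK η w ε r0 ∧ ∃ Pj : E →L[ℝ] E, OutlierProj μ η w w ε Pj := by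
  intro ε hε r0 hr0
  obtain ⟨δ₁', hδ₁', hsq'⟩ := s4_squeeze (ε / 2) (half_pos hε) r0 hr0
  -- the squeeze constant may be decreased
  set δ₁ := min δ₁' (ε / 2) with hδ₁def
  have hδ₁ : 0 < δ₁ := lt_min hδ₁' (half_pos hε)
  obtain ⟨T, hT, δ₂, hδ₂, hnum⟩ := s4_num δ₁ hδ₁
  obtain ⟨δG, hδG, hG⟩ := s4_proj_strict ε hε
  obtain ⟨δA, hδA, hA⟩ := s4_probes (min δ₂ δG) (lt_min hδ₂ hδG) (max T 2)
    (lt_of_lt_of_le (by norm_num) (le_max_right T 2))
  refine ⟨min (min δ₂ δG) δA, lt_min (lt_min hδ₂ hδG) hδA, ?_⟩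
  intro E _ _ _ _ _ μ a η w f hC hS
  set δ := min (min δ₂ δG) δA with hδdef
  have hδ0 : 0 ≤ δ := (lt_min (lt_min hδ₂ hδG) hδA).le
  have hδ2 : δ ≤ δ₂ := (min_le_left _ _).trans (min_le_left _ _)
  have hη := hC.field.spd
  have hw := hC.field.w_L2
  have hI := hC.field.I_pos
  have := s4_spd_prob hη
  set I := ∫ x, ‖w x‖ ^ 2 ∂(dm η) with hIdef
  have hd : ∀ T', 0 ≤ T' → T' ≤ max T 2 → lcD (dm η) w T' ≤ min δ₂ δG * I :=
    hA E μ a η w f (s4_crit_mono hC (min_le_right _ _)) hS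
  -- upper bound for `p_v`, `v ∈ {0, 1}`
  have hP : ∀ v, 0 ≤ v → v ≤ 1 → ∀ r ∈ Set.Ioc (0 : ℝ) (1 / 4),
      s4P (dm η) w r v ≤ (Real.exp (-r) + δ₁) * I := by
    intro v hv0 hv1 r hr
    have h1 := s4_upper hδ0 hC hS hr.1 hr.2 hv0 (lt_of_le_of_lt hv1 hT)
    have h2 : lcD (dm η) w T ≤ δ₂ * I :=
      (hd T (by linarith) (le_max_left _ _)).trans (by gcongr; exact min_le_left _ _)
    have h3 := (hnum δ hδ0 hδ2 r hr.1.le hr.2).1
    have hT1 : 0 < T - 1 := by linarith
    have hP0 : 0 ≤ s4P (dm η) w r v := by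
      refine integral_nonneg fun u => integral_nonneg fun l => ?_
      refine mul_nonneg (by positivity) (integral_nonneg fun x => (Real.exp_pos _).le)
    have h4 : (T - 1) / 2 * s4P (dm η) w r v ≤ (T - v) / 2 * s4P (dm η) w r v := by
      gcongr
    have h5 : (T - 1) / 2 * s4P (dm η) w r v ≤
        (T - 1) / 2 * ((Real.exp (-r / (1 + δ)) * ((1 + T) / (T - 1)) + 2 * δ₂ / (T - 1)) * I) := by
      calc (T - 1) / 2 * s4P (dm η) w r v ≤ _ := h4
        _ ≤ _ := h1
        _ ≤ Real.exp (-r / (1 + δ)) * ((1 + T) / 2 * I) + δ₂ * I := by gcongr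
        _ = _ := by field_simp
    have h6 := le_of_mul_le_mul_left h5 (by positivity)
    exact h6.trans (by gcongr)
  have hcurve' : CurveOK η w (ε / 2) r0 := by
    refine s4_curve_glue hη hw hI (δ₁ := δ₁) ?_ ?_ ?_
    · intro mm a1 a2 a3 a4
      exact hsq' mm a1 a2 (fun r hr => (a3 r hr).trans (by gcongr; exact min_le_left _ _))
        (fun z hz => le_trans (by gcongr; exact min_le_left _ _) (a4 z hz))
    · intro r hr
      rw [← s4_P_zero hw hr.1]
      exact hP 0 le_rfl zero_le_one r hr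
    · intro z hz
      refine le_trans ?_ (s4_lower hδ0 hC hS hz.1 hz.2)
      exact mul_le_mul_of_nonneg_right (hnum δ hδ0 hδ2 z hz.1.le hz.2).2.2 hI.le
  refine ⟨?_, ?_, ?_⟩
  · intro r h1 h2
    exact (hcurve' r h1 h2).trans (by gcongr; linarith)
  · intro r h1 h2 M hM hMb
    have hr : r ∈ Set.Ioc (0 : ℝ) (1 / 4) := ⟨by linarith, by linarith⟩
    have t1 := s4_tail_step hη hw hr.1 M hM hMb
    have t2 := hP 1 zero_le_one le_rfl r hr
    have t3 := (abs_le.mp (hcurve' r h1 h2)).1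
    have t4 : δ₁ ≤ ε / 2 := min_le_right _ _
    calc _ ≤ s4P (dm η) w r 1 - hpe (dm η) r w := t1
      _ ≤ (Real.exp (-r) + δ₁) * I - (Real.exp (-r) * I - ε / 2 * I) := by linarith
      _ = (δ₁ + ε / 2) * I := by ring
      _ ≤ ε * I := by gcongr; linarith
  · refine hG E μ a η w f (s4_crit_mono hC ((min_le_left _ _).trans (min_le_right _ _))) hS ?_
    exact (hd 2 (by norm_num) (le_max_right _ _)).trans (by gcongr; exact min_le_right _ _)

/-- SECTION 4, GAP BRANCH. -/
theorem s4_gap : ∀ ε : ℝ, 0 < ε → ∀ r0 : ℝ, 0 < r0 → ∃ δ : ℝ, 0 < δ ∧ ∀ (E : Type)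
    [NormedAddCommGroup E] [InnerProductSpace ℝ E] [FiniteDimensional ℝ E] [MeasurableSpace E]
    [BorelSpace E] (μ : Measure E) (a : ℝ) (η : E → ℝ) (w : E → E) (φ : E → ℝ),
    Crit μ a δ η w → GapBranch μ s0 1 η w φ →
      CurveOK η w ε r0 ∧ OutlierProj μ η w 0 ε 0 := by
  intro ε hε r0 hr0
  obtain ⟨δ₁, hδ₁, hsq⟩ := s4_squeeze ε hε r0 hr0
  obtain ⟨T, hT, δ₂, hδ₂, hnum⟩ := s4_num δ₁ hδ₁
  obtain ⟨δG, hδG, hG⟩ := s4_proj_gap ε hε
  refine ⟨min δ₂ δG, lt_min hδ₂ hδG, ?_⟩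
  intro E _ _ _ _ _ μ a η w φ hC hGap
  set δ := min δ₂ δG with hδdef
  have hδ0 : 0 ≤ δ := (lt_min hδ₂ hδG).le
  have hδ2 : δ ≤ δ₂ := min_le_left _ _
  have hI := hC.field.I_pos
  refine ⟨s4_curve_glue hC.field.spd hC.field.w_L2 hI hsq ?_ ?_,
    hG E μ a η w φ (s4_crit_mono hC (min_le_right _ _)) hGap⟩
  · intro r hr
    refine (s4_gap_upper hδ0 hC hGap hr.1 hr.2).trans ?_
    exact mul_le_mul_of_nonneg_right (hnum δ hδ0 hδ2 r hr.1.le hr.2).2.1 hI.le
  · intro z hz
    refine le_trans ?_ (s4_gap_lower hδ0 hC hGap hz.1 hz.2)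
    exact mul_le_mul_of_nonneg_right (hnum δ hδ0 hδ2 z hz.1.le hz.2).2.2 hI.le

end Claimed.Agent.R259
end

/- ===== packed: Claimed.Agent.R259.Br45 ===== -/
section
/-
Row 259 (S0499): BRIDGE from the exports of sections 3-4 (`Crit`, `CurveOK`, `TailOK`, `OutlierProj`,
generic inner product space, continuous linear maps) to the input of section 5 (`HiInput n`,
`HiInput.Small`, `EE n`, matrices).  Owner: helper115.
-/
set_option autoImplicit false

open MeasureTheory ProbabilityTheory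
open scoped ContDiff BigOperators Matrix
open Claimed.Agent.R260 (Mx mxFun mxSchur mxSq mxIP mxEig mxU mxRot)

namespace Claimed.Agent.R259

variable {n : ℕ}

/-- matrix of a continuous linear map in the standard basis -/
noncomputable def mxOf (T : EE n →L[ℝ] EE n) : Mx n := Matrix.of fun i j => T (eb j) i

/-! ### Block M: matrices against linear maps (pure linear algebra) -/

theorem br_sum_eb (v : EE n) : ∑ j, v j • (eb j : EE n) = v := by
  ext i
  simp [eb, Finset.sum_apply, Pi.single_apply]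

theorem br_mv_apply (A : Mx n) (v : EE n) (i : Fin n) : mv A v i = ∑ j, A i j * v j := rfl

theorem br_mv_mxOf (T : EE n →L[ℝ] EE n) (v : EE n) : mv (mxOf T) v = T v := by
  ext i
  conv_rhs => rw [← br_sum_eb v]
  rw [br_mv_apply, map_sum]
  simp only [map_smul, mxOf, Matrix.of_apply]
  rw [WithLp.ofLp_sum, Finset.sum_apply]
  refine Finset.sum_congr rfl fun j _ => ?_
  simp [mul_comm]

theorem br_mv_one_sub (A : Mx n) (v : EE n) : mv (1 - A) v = v - mv A v := by
  ext i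
  simp only [br_mv_apply, PiLp.sub_apply, Matrix.sub_apply, sub_mul, Finset.sum_sub_distrib]
  congr 1
  simp [Matrix.one_apply]

theorem br_mv_smul (c : ℝ) (A : Mx n) (v : EE n) : mv (c • A) v = c • mv A v := by
  ext i
  simp only [br_mv_apply, PiLp.smul_apply, Matrix.smul_apply, smul_eq_mul, Finset.mul_sum, mul_assoc]

theorem br_eb_apply (i j : Fin n) : (eb j : EE n) i = (1 : Mx n) i j := by
  simp [eb, Matrix.one_apply]

theorem br_inner_eb (v : EE n) (i : Fin n) : inner ℝ v (eb i) = v i := by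
  simp [eb, EuclideanSpace.inner_single_right]

theorem br_mxOf_apply (T : EE n →L[ℝ] EE n) (i j : Fin n) :
    mxOf T i j = inner ℝ (T (eb j)) (eb i) := by
  rw [br_inner_eb]; rfl

theorem br_mxOf_symm {T : EE n →L[ℝ] EE n} (h : ∀ u v, inner ℝ (T u) v = inner ℝ u (T v)) :
    (mxOf T).IsSymm := by
  ext i j
  rw [Matrix.transpose_apply, br_mxOf_apply, br_mxOf_apply, h, real_inner_comm]

theorem br_quad (A : Mx n) (x : Fin n → ℝ) :
    star x ⬝ᵥ (A *ᵥ x) = inner ℝ (mv A (WithLp.toLp 2 x)) (WithLp.toLp 2 x : EE n) := by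
  rw [PiLp.inner_apply]
  simp only [dotProduct, br_mv_apply, Matrix.mulVec, star_trivial, RCLike.inner_apply, conj_trivial]

theorem br_mxOf_psd {T : EE n →L[ℝ] EE n} (h : ∀ u v, inner ℝ (T u) v = inner ℝ u (T v))
    (h0 : ∀ u, 0 ≤ inner ℝ (T u) u) : (mxOf T).PosSemidef := by
  refine Matrix.PosSemidef.of_dotProduct_mulVec_nonneg ?_ fun x => ?_
  · exact Claimed.Agent.R260.mx_isHermitian_of_isSymm (br_mxOf_symm h)
  · rw [br_quad, br_mv_mxOf]
    exact h0 _

theorem br_mxOf_le {T : EE n →L[ℝ] EE n} (h : ∀ u v, inner ℝ (T u) v = inner ℝ u (T v)) {c : ℝ}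
    (h0 : ∀ u, inner ℝ (T u) u ≤ c * ‖u‖ ^ 2) : (c • (1 : Mx n) - mxOf T).PosSemidef := by
  refine Matrix.PosSemidef.of_dotProduct_mulVec_nonneg ?_ fun x => ?_
  · exact Claimed.Agent.R260.mx_isHermitian_of_isSymm
      (Matrix.IsSymm.sub (Matrix.isSymm_one.smul c) (br_mxOf_symm h))
  · rw [br_quad]
    have e : mv (c • (1 : Mx n) - mxOf T) (WithLp.toLp 2 x)
        = c • (WithLp.toLp 2 x : EE n) - T (WithLp.toLp 2 x) := by
      rw [← br_mv_mxOf T]
      ext i
      simp only [br_mv_apply, PiLp.sub_apply, PiLp.smul_apply, Matrix.sub_apply, Matrix.smul_apply,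
        sub_mul, Finset.sum_sub_distrib, smul_eq_mul]
      congr 1
      simp [Matrix.one_apply]
    rw [e, inner_sub_left, inner_smul_left, real_inner_self_eq_norm_sq]
    have := h0 (WithLp.toLp 2 x)
    simp only [conj_trivial]
    linarith

theorem br_mxOf_sq {T : EE n →L[ℝ] EE n} (h : ∀ v, T (T v) = T v) : mxOf T * mxOf T = mxOf T := by
  ext i j
  have h1 : (mxOf T * mxOf T) i j = mv (mxOf T) (T (eb j)) i := by
    rw [Matrix.mul_apply, br_mv_apply]
    rfl
  rw [h1, br_mv_mxOf, h]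
  rfl

/-! ### Block T: from the variational tail bound to spectral tails -/

/-- the continuous linear map of a matrix -/
noncomputable def clmOf (A : Mx n) : EE n →L[ℝ] EE n :=
  ∑ i, ∑ j, A i j • ((EuclideanSpace.proj j : EE n →L[ℝ] ℝ).smulRight (eb i : EE n))

theorem br_clmOf_apply (A : Mx n) (v : EE n) : clmOf A v = mv A v := by
  ext k
  simp only [clmOf, sum_apply, smul_apply, ContinuousLinearMap.smulRight_apply, br_mv_apply]
  rw [WithLp.ofLp_sum, Finset.sum_apply]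
  simp only [WithLp.ofLp_sum, Finset.sum_apply, PiLp.smul_apply, smul_eq_mul, eb]
  rw [Finset.sum_eq_single k]
  · simp
  · intro b _ hb
    simp [Ne.symm hb]
  · simp

theorem br_clmOf_measurable {Ω : Type} [MeasurableSpace Ω] {J : Ω → Mx n} (hJ : RM J) :
    Measurable fun o => clmOf (J o) := by
  unfold clmOf
  refine Finset.measurable_sum _ fun i _ => Finset.measurable_sum _ fun j _ => ?_
  exact (hJ i j).smul_const _

theorem br_clmOf_norm_le (A : Mx n) {C : ℝ} (hC : ∀ i j, |A i j| ≤ C) :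
    ‖clmOf A‖ ≤ ∑ _i : Fin n, ∑ j : Fin n,
      C * ‖((EuclideanSpace.proj j : EE n →L[ℝ] ℝ).smulRight (eb _i : EE n))‖ := by
  unfold clmOf
  refine (norm_sum_le _ _).trans (Finset.sum_le_sum fun i _ => ?_)
  refine (norm_sum_le _ _).trans (Finset.sum_le_sum fun j _ => ?_)
  rw [norm_smul, Real.norm_eq_abs]
  exact mul_le_mul_of_nonneg_right (hC i j) (norm_nonneg _)

theorem br_hsSq_clmOf (A : Mx n) : hsSq (clmOf A) = ∑ i, ∑ j, A i j ^ 2 := by
  rw [s5k_hsSq, Finset.sum_comm]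
  refine Finset.sum_congr rfl fun j _ => ?_
  rw [br_clmOf_apply, EuclideanSpace.real_norm_sq_eq]
  refine Finset.sum_congr rfl fun i _ => ?_
  rw [br_mv_apply]
  congr 1
  rw [Finset.sum_eq_single j]
  · simp [eb]
  · intro b _ hb
    simp [eb, hb]
  · simp

theorem br_inner_mv (P : Mx n) (x z : EE n) :
    inner ℝ (mv P x) z = ∑ a, ∑ b, P a b * (z a * x b) := by
  rw [PiLp.inner_apply]
  refine Finset.sum_congr rfl fun a _ => ?_
  simp only [RCLike.inner_apply, conj_trivial, br_mv_apply, Finset.mul_sum]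
  exact Finset.sum_congr rfl fun b _ => by ring

theorem br_mv_mul (P Q : Mx n) (x : EE n) : mv P (mv Q x) = mv (P * Q) x := by
  ext a
  simp only [br_mv_apply, Matrix.mul_apply, Finset.mul_sum, Finset.sum_mul]
  rw [Finset.sum_comm]
  exact Finset.sum_congr rfl fun b _ => Finset.sum_congr rfl fun d _ => by ring

theorem br_proj_quad {P : Mx n} (hPs : P.IsSymm) (hPP : P * P = P) (c : ℝ) (x : EE n) :
    2 * inner ℝ (clmOf (c • P) x) x - ‖clmOf (c • P) x‖ ^ 2
      = (2 * c - c ^ 2) * ∑ a, ∑ b, P a b * (x a * x b) := by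
  have h1 : ‖mv P x‖ ^ 2 = inner ℝ (mv P x) x := by
    rw [← real_inner_self_eq_norm_sq]
    conv_rhs => rw [← hPP, ← br_mv_mul]
    rw [br_inner_mv P x (mv P x), br_inner_mv P (mv P x) x, Finset.sum_comm]
    refine Finset.sum_congr rfl fun a _ => Finset.sum_congr rfl fun b _ => ?_
    rw [← hPs.apply a b]
    ring
  rw [br_clmOf_apply, br_mv_smul, inner_smul_left, norm_smul, mul_pow, h1, br_inner_mv]
  simp only [conj_trivial, Real.norm_eq_abs, sq_abs]
  ring

/-- posterior expectation of the pay-off of the linear estimator `c P` -/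
theorem br_quad_int {α : Type} [MeasurableSpace α] (π : Measure α) [IsProbabilityMeasure π]
    {w : α → EE n} (h1 : ∀ a, Integrable (fun y => w y a) π)
    (h2 : ∀ a b, Integrable (fun y => w y a * w y b) π) (hb : EE n)
    (hh : ∀ a, hb a = ∫ y, w y a ∂π) {P : Mx n} (hPs : P.IsSymm) (hPP : P * P = P) (c : ℝ) :
    ∫ y, (2 * inner ℝ (clmOf (c • P) (w y - hb)) (w y - hb) - ‖clmOf (c • P) (w y - hb)‖ ^ 2) ∂π
      = (2 * c - c ^ 2) * ∑ a, ∑ b, P a b * (∫ y, w y a * w y b ∂π - hb a * hb b) := by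
  simp only [br_proj_quad hPs hPP]
  rw [integral_const_mul]
  congr 1
  have he : ∀ a b, (fun y => (w y - hb) a * (w y - hb) b)
      = fun y => w y a * w y b - hb b * w y a - hb a * w y b + hb a * hb b := by
    intro a b
    funext y
    simp only [PiLp.sub_apply]
    ring
  have hi : ∀ a b, Integrable (fun y => (w y - hb) a * (w y - hb) b) π := by
    intro a b
    rw [he]
    exact (((h2 a b).sub ((h1 a).const_mul _)).sub ((h1 b).const_mul _)).add (integrable_const _)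
  have hv : ∀ a b, ∫ y, (w y - hb) a * (w y - hb) b ∂π = ∫ y, w y a * w y b ∂π - hb a * hb b := by
    intro a b
    have A1 : Integrable (fun y => w y a * w y b - hb b * w y a) π :=
      (h2 a b).sub ((h1 a).const_mul _)
    have A2 : Integrable (fun y => w y a * w y b - hb b * w y a - hb a * w y b) π :=
      A1.sub ((h1 b).const_mul _)
    rw [he, integral_add A2 (integrable_const _), integral_sub A1 ((h1 b).const_mul _),
      integral_sub (h2 a b) ((h1 a).const_mul _), integral_const_mul, integral_const_mul,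
      ← hh a, ← hh b]
    simp
    ring
  calc ∫ y, ∑ a, ∑ b, P a b * ((w y - hb) a * (w y - hb) b) ∂π
      = ∑ a, ∫ y, ∑ b, P a b * ((w y - hb) a * (w y - hb) b) ∂π :=
        integral_finsetSum _ fun a _ => integrable_finsetSum _ fun b _ => (hi a b).const_mul _
    _ = ∑ a, ∑ b, ∫ y, P a b * ((w y - hb) a * (w y - hb) b) ∂π :=
        Finset.sum_congr rfl fun a _ => integral_finsetSum _ fun b _ => (hi a b).const_mul _
    _ = _ := Finset.sum_congr rfl fun a _ => Finset.sum_congr rfl fun b _ => by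
        rw [integral_const_mul, hv]

theorem br_sum_mul_eq_trace (P C : Mx n) (hC : C.IsSymm) :
    ∑ a, ∑ b, P a b * C a b = Matrix.trace (P * C) := by
  simp only [Matrix.trace, Matrix.diag, Matrix.mul_apply]
  refine Finset.sum_congr rfl fun a _ => Finset.sum_congr rfl fun b _ => ?_
  rw [← hC.apply a b]

/-- With `M(u) = c P(u)`, `P(u) = 1_{C_r(u) > a}`, `c = a/(1+a)`:
`tailInt = 2c tr(PC) - c² tr(PC) - c² rank P ≥ (2c - c² - c²/a) tr(PC) = a/(1+a) tr(PC)`.
Needs: measurability of `u ↦ mxFun 1_{>a} (C_r(u))` (pointwise limit of polynomials in `C_r(u)`),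
the formula for `tailInt` in terms of `postCovMx`, integrability of `tr C_r(U_r)`. -/
theorem br_tail {η : EE n → ℝ} (hη : SPD η) {w : EE n → EE n} (_hwc : Continuous w)
    (hw : MemLp w 2 (dm η)) {ε r0 : ℝ} (hε : 0 ≤ ε) (h : TailOK η w ε r0) {r a : ℝ} (hr0 : 0 < r)
    (hr : r0 ≤ r) (hr' : r ≤ 1 / 4 - r0) (ha : 0 < a) :
    ∫ u, tailTr a (postCovMx (dm η) r w u) ∂(dm (gconv (dm η) r))
      ≤ (1 + a) / a * (ε * ∫ x, ‖w x‖ ^ 2 ∂(dm η)) := by
  classical
  have := s4_spd_prob hη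
  have : IsProbabilityMeasure (dm (gconv (dm η) r)) := s4_spd_prob (db_gconv_spd hr0)
  have hI0 : 0 ≤ ∫ x, ‖w x‖ ^ 2 ∂(dm η) := integral_nonneg fun _ => by positivity
  have hwI : Integrable w (dm η) := hw.integrable one_le_two
  have hwa : ∀ a, MemLp (fun y => w y a) 2 (dm η) := fun a => by
    have := (EuclideanSpace.proj a : EE n →L[ℝ] ℝ).comp_memLp' hw
    exact this
  have hw1 : ∀ a, Integrable (fun y => w y a) (dm η) := fun a => (hwa a).integrable one_le_two
  have hw2 : ∀ a b, Integrable (fun y => w y a * w y b) (dm η) := fun a b =>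
    (hwa a).integrable_mul (hwa b)
  set C : EE n → Mx n := fun u => postCovMx (dm η) r w u with hCdef
  have hCs : ∀ u, (C u).IsSymm := by
    intro u
    ext i j
    simp only [hCdef, postCovMx, Matrix.transpose_apply, Matrix.of_apply]
    simp only [mul_comm]
  have hCm : RM C := by
    intro i j
    have c1 : Continuous (hpost (dm η) r (fun y => w y i * w y j)) :=
      dbt_hpost_continuous hr0 (hw2 i j)
    have c2 : Continuous (hpost (dm η) r w) := dbt_hpost_continuous hr0 hwI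
    have c3 : ∀ k, Continuous fun u => hpost (dm η) r w u k := fun k =>
      (EuclideanSpace.proj k : EE n →L[ℝ] ℝ).continuous.comp c2
    exact (c1.sub ((c3 i).mul (c3 j))).measurable
  set ind : ℝ → ℝ := fun x => if a < x then 1 else 0 with hind
  have hindm : Measurable ind := Measurable.ite measurableSet_Ioi measurable_const measurable_const
  set P : EE n → Mx n := fun u => mxFun ind (C u) with hPdef
  have hPs : ∀ u, (P u).IsSymm := fun u => Claimed.Agent.R260.mxFun_isSymm _ _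
  have hPP : ∀ u, P u * P u = P u := by
    intro u
    rw [hPdef]
    simp only
    rw [← Claimed.Agent.R260.mxFun_mul]
    refine Claimed.Agent.R260.mxFun_congr fun i => ?_
    simp only [hind]
    split_ifs <;> simp
  have hPm : RM P := RM.of_mxFun hindm hCm hCs
  have hPb : ∀ u i j, |P u i j| ≤ 1 := fun u i j =>
    Claimed.Agent.R260.mxFun_apply_abs_le (fun k => by
      simp only [hind]
      split_ifs <;> simp) i j
  set c : ℝ := a / (1 + a) with hc
  have hc0 : 0 < c := by positivity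
  set M : EE n → EE n →L[ℝ] EE n := fun u => clmOf (c • P u) with hM
  have hMm : Measurable M := br_clmOf_measurable (fun i j => (hPm i j).const_mul c)
  have hMb : ∃ K, ∀ u, ‖M u‖ ≤ K :=
    ⟨_, fun u => br_clmOf_norm_le (c • P u) (C := c) fun i j => by
      rw [Matrix.smul_apply, smul_eq_mul, abs_mul, abs_of_pos hc0]
      exact mul_le_of_le_one_right hc0.le (hPb u i j)⟩
  have hT : ∀ u, Matrix.trace (P u * C u) = tailTr a (C u) := by
    intro u
    unfold tailTr
    congr 1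
    have e1 : P u * C u = mxFun ind (C u) * mxFun (fun x => x) (C u) := by
      rw [Claimed.Agent.R260.mxFun_id (hCs u)]
    rw [e1, ← Claimed.Agent.R260.mxFun_mul]
    refine Claimed.Agent.R260.mxFun_congr fun i => ?_
    simp only [hind]
    split_ifs <;> simp
  have hTP : ∀ u, a * Matrix.trace (P u) ≤ tailTr a (C u) := by
    intro u
    unfold tailTr
    rw [Claimed.Agent.R260.mxFun_trace, Claimed.Agent.R260.mxFun_trace, Finset.mul_sum]
    refine Finset.sum_le_sum fun i _ => ?_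
    simp only [hind]
    split_ifs with hi
    · simpa using hi.le
    · simp
  have key : ∀ u, tailInt η w r (M u) u
      = (2 * c - c ^ 2) * tailTr a (C u) - c ^ 2 * Matrix.trace (P u) := by
    intro u
    have := db_hpm_prob (ν := dm η) hr0 u
    unfold tailInt
    rw [← db_hpm_integral hr0 u]
    have hh : ∀ k, (hpost (dm η) r w u) k = ∫ y, w y k ∂(hpm (dm η) r u) := by
      intro k
      rw [← db_hpm_integral hr0 u]
      exact ((EuclideanSpace.proj k : EE n →L[ℝ] ℝ).integral_comp_comm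
        (db_hpm_integrable hr0 u hwI)).symm
    rw [br_quad_int (hpm (dm η) r u) (fun k => db_hpm_integrable hr0 u (hw1 k))
      (fun k l => db_hpm_integrable hr0 u (hw2 k l)) _ hh (hPs u) (hPP u) c]
    congr 1
    · congr 1
      rw [← hT u, ← br_sum_mul_eq_trace _ _ (hCs u)]
      refine Finset.sum_congr rfl fun k _ => Finset.sum_congr rfl fun l _ => ?_
      rw [db_hpm_integral hr0 u]
      rfl
    · rw [br_hsSq_clmOf]
      conv_rhs => rw [← hPP u, ← br_sum_mul_eq_trace _ _ (hPs u), Finset.mul_sum]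
      refine Finset.sum_congr rfl fun k _ => ?_
      rw [Finset.mul_sum]
      refine Finset.sum_congr rfl fun l _ => ?_
      rw [Matrix.smul_apply, smul_eq_mul]
      ring
  have hle : ∀ u, c * tailTr a (C u) ≤ tailInt η w r (M u) u := by
    intro u
    rw [key u]
    have h1 := hTP u
    have e : (2 * c - c ^ 2) * tailTr a (C u) - c ^ 2 * Matrix.trace (P u) - c * tailTr a (C u)
        = a / (1 + a) ^ 2 * (tailTr a (C u) - a * Matrix.trace (P u)) := by
      rw [hc]
      field_simp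
      ring
    have h2 : 0 ≤ a / (1 + a) ^ 2 * (tailTr a (C u) - a * Matrix.trace (P u)) :=
      mul_nonneg (by positivity) (sub_nonneg.2 h1)
    linarith
  have H := h r hr hr' M hMm hMb
  by_cases hI : Integrable (fun u => tailTr a (C u)) (dm (gconv (dm η) r))
  · have hPtr : Integrable (fun u => Matrix.trace (P u)) (dm (gconv (dm η) r)) := by
      refine Integrable.of_bound (C := ∑ _i : Fin n, (1 : ℝ)) ?_ (Filter.Eventually.of_forall fun u => ?_)
      · exact (Finset.measurable_sum _ fun i _ => hPm i i).aestronglyMeasurable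
      · rw [Real.norm_eq_abs]
        exact (Finset.abs_sum_le_sum_abs _ _).trans (Finset.sum_le_sum fun i _ => hPb u i i)
    have hTI : Integrable (fun u => tailInt η w r (M u) u) (dm (gconv (dm η) r)) := by
      simp only [key]
      exact (hI.const_mul _).sub (hPtr.const_mul _)
    have h3 : c * ∫ u, tailTr a (C u) ∂(dm (gconv (dm η) r))
        ≤ ε * ∫ x, ‖w x‖ ^ 2 ∂(dm η) := by
      rw [← integral_const_mul]
      exact (integral_mono (hI.const_mul _) hTI hle).trans H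
    have e : (1 + a) / a = c⁻¹ := by
      rw [hc, inv_div]
    rw [e, ← div_eq_inv_mul, le_div_iff₀ hc0, mul_comm]
    exact h3
  · rw [integral_undef hI]
    positivity

/-! ### Monotonicity of the exports of section 4 -/

theorem CurveOK.mono {η : EE n → ℝ} {w : EE n → EE n} {ε ε' r0 : ℝ} (h : CurveOK η w ε r0)
    (hε : ε ≤ ε') : CurveOK η w ε' r0 := fun r h1 h2 =>
  (h r h1 h2).trans (mul_le_mul_of_nonneg_right hε (integral_nonneg fun _ => by positivity))

theorem TailOK.mono {η : EE n → ℝ} {w : EE n → EE n} {ε ε' r0 : ℝ} (h : TailOK η w ε r0)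
    (hε : ε ≤ ε') : TailOK η w ε' r0 := fun r h1 h2 M hM hb =>
  (h r h1 h2 M hM hb).trans
    (mul_le_mul_of_nonneg_right hε (integral_nonneg fun _ => by positivity))

theorem OutlierProj.mono {μ : Measure (EE n)} {η : EE n → ℝ} {w om : EE n → EE n} {ε ε' : ℝ}
    {Pj : EE n →L[ℝ] EE n} (h : OutlierProj μ η w om ε Pj) (hε : ε ≤ ε') :
    OutlierProj μ η w om ε' Pj :=
  { proj := h.proj
    small := h.small.trans
      (mul_le_mul_of_nonneg_right hε (integral_nonneg fun _ => by positivity))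
    bb := fun v => (h.bb v).trans (mul_le_mul_of_nonneg_right hε (by positivity))
    ww := fun v => (h.ww v).trans (mul_le_mul_of_nonneg_right hε (by positivity))
    mm := fun v => (h.mm v).trans (mul_le_mul_of_nonneg_right hε (by positivity)) }

/-! ### The construction -/

/-- hypotheses of the bridge -/
structure BrHyp (μ : Measure (EE n)) (a ε : ℝ) (η : EE n → ℝ) (w om : EE n → EE n)
    (Pj : EE n →L[ℝ] EE n) : Prop where
  crit : Crit μ a ε η w
  branch : om = w ∨ om = 0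
  drift : ∀ y, gradient (fun z => Real.log (η z)) y = -(s0⁻¹ • (y - postMean μ s0 y)) + om y
  proj : OutlierProj μ η w om ε Pj

theorem br_s0_pos : (0 : ℝ) < s0 := by
  unfold s0
  norm_num

section construct

variable {μ : Measure (EE n)} {a ε : ℝ} {η : EE n → ℝ} {w om : EE n → EE n}
  {Pj : EE n →L[ℝ] EE n}

theorem BrHyp.b_L2 (h : BrHyp μ a ε η w om Pj) : MemLp (postMean μ s0) 2 (dm η) := by
  have := h.crit.base.prob
  have := s4_spd_prob h.crit.field.spd
  obtain ⟨r, hr⟩ := h.crit.base.bdd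
  exact MemLp.of_bound
    (gc_postMean_contDiff h.crit.base.bdd br_s0_pos).continuous.aestronglyMeasurable r
    (Filter.Eventually.of_forall fun y => gc_postMean_norm_le hr br_s0_pos y)

theorem BrHyp.Aw_L2 (h : BrHyp μ a ε η w om Pj) : MemLp (opA η w) 2 (dm η) := by
  have := h.crit.base.prob
  have e : opA η w = fun x => w x - hessK μ s0 x (w x) := by
    funext x
    rw [h.crit.field.eqn x, one_smul]
  rw [e]
  refine h.crit.field.w_L2.sub (h.crit.field.w_L2.of_le_mul (c := s0⁻¹) ?_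
    (Filter.Eventually.of_forall fun x => ?_))
  · exact ((gc_hessK_contDiff h.crit.base.bdd br_s0_pos).continuous.clm_apply
      h.crit.field.w_smooth.continuous).aestronglyMeasurable
  · exact ((hessK μ s0 x).le_opNorm _).trans (mul_le_mul_of_nonneg_right
      (gc_hessK_norm_le h.crit.base.bdd h.crit.base.dens br_s0_pos x) (norm_nonneg _))

/-- the input of section 5 -/
noncomputable def BrHyp.input (h : BrHyp μ a ε η w om Pj) : HiInput n :=
  have := h.crit.base.prob
  { η := η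
    spd := h.crit.field.spd
    lam := 1
    lam_pos := one_pos
    lsi := h.crit.field.lsi
    pi := lc_pi h.crit.field.spd h.crit.field.lsi
    b := postMean μ s0
    w := w
    om := om
    K := fun y => mxOf (hessK μ s0 y)
    Pi := mxOf Pj
    b_smooth := gc_postMean_contDiff h.crit.base.bdd br_s0_pos
    w_smooth := h.crit.field.w_smooth
    branch := h.branch
    drift := h.drift
    Db := fun y i j => by
      unfold dI
      rw [gc_fderiv_postMean_hessK h.crit.base.bdd br_s0_pos]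
      simp only [PiLp.sub_apply, PiLp.smul_apply, smul_eq_mul, br_eb_apply]
      rfl
    K_symm := fun y => br_mxOf_symm (gc_hessK_symm h.crit.base.bdd br_s0_pos y)
    K_nonneg := fun y => br_mxOf_psd (gc_hessK_symm h.crit.base.bdd br_s0_pos y)
      (gc_hessK_nonneg h.crit.base.bdd h.crit.base.dens br_s0_pos y)
    K_le := fun y => br_mxOf_le (gc_hessK_symm h.crit.base.bdd br_s0_pos y)
      (gc_hessK_le h.crit.base.bdd br_s0_pos y)
    w_symm := fun y i j => by
      unfold dI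
      rw [← br_inner_eb, ← br_inner_eb, h.crit.field.w_symm, real_inner_comm]
    mom2 := h.crit.field.mom2
    b_L2 := h.b_L2
    w_L2 := h.crit.field.w_L2
    Aw_L2 := h.Aw_L2
    I_pos := h.crit.field.I_pos
    Pi_sq := br_mxOf_sq h.proj.proj.1
    Pi_symm := br_mxOf_symm h.proj.proj.2 }

theorem BrHyp.small (h : BrHyp μ a ε η w om Pj) {δ : ℝ} (hδ : 0 < δ) (hεδ : ε ≤ δ)
    (hcurve : CurveOK η w δ δ) (htail : om = w → TailOK η w (δ ^ 2 / (1 + δ)) δ) :
    h.input.Small δ := by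
  have hprob := h.crit.base.prob
  have hI : 0 < ∫ x, ‖w x‖ ^ 2 ∂(dm η) := h.crit.field.I_pos
  have hmono : ε * ∫ x, ‖w x‖ ^ 2 ∂(dm η) ≤ δ * ∫ x, ‖w x‖ ^ 2 ∂(dm η) :=
    mul_le_mul_of_nonneg_right hεδ hI.le
  refine
    { lam_lo := ?_, lam_hi := ?_, eigen := ?_, mean := ?_, curv := ?_, pred := ?_, projw := ?_,
      outb := ?_, outom := ?_, outM := ?_, tail := ?_ }
  · change 1 - δ ≤ 1
    linarith
  · change (1 : ℝ) ≤ 1 + δ
    linarith
  · change nSq η (fun y => opA η w y - w y) ≤ δ * ∫ x, ‖w x‖ ^ 2 ∂(dm η)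
    refine le_trans (le_of_eq ?_) (h.crit.Kw_small.trans hmono)
    unfold nSq
    refine integral_congr_ae (Filter.Eventually.of_forall fun y => ?_)
    simp only [h.crit.field.eqn y, one_smul, sub_sub_cancel_left, norm_neg]
  · exact h.crit.mean_small.trans hmono
  · change ipF η w (fun y => mv (mxOf (hessK μ s0 y)) (w y)) ≤ δ * ∫ x, ‖w x‖ ^ 2 ∂(dm η)
    simp only [br_mv_mxOf]
    exact h.crit.wKw_small.trans hmono
  · intro r hr hr'
    have h1 := hcurve r hr hr'
    change |hpe (dm η) r w / (∫ x, ‖w x‖ ^ 2 ∂(dm η)) - Real.exp (-r)| ≤ δ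
    have e : hpe (dm η) r w / (∫ x, ‖w x‖ ^ 2 ∂(dm η)) - Real.exp (-r)
        = (hpe (dm η) r w - Real.exp (-r) * ∫ x, ‖w x‖ ^ 2 ∂(dm η)) / ∫ x, ‖w x‖ ^ 2 ∂(dm η) := by
      field_simp
    rw [e, abs_div, abs_of_pos hI, div_le_iff₀ hI]
    exact h1
  · change nSq η (fun y => mv (mxOf Pj) (w y)) ≤ δ * ∫ x, ‖w x‖ ^ 2 ∂(dm η)
    simp only [br_mv_mxOf]
    exact h.proj.small.trans hmono
  · intro v
    change ∫ y, inner ℝ (postMean μ s0 y) (mv (1 - mxOf Pj) v) ^ 2 ∂(dm η) ≤ δ * ‖v‖ ^ 2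
    simp only [br_mv_one_sub, br_mv_mxOf]
    exact (h.proj.bb v).trans (mul_le_mul_of_nonneg_right hεδ (by positivity))
  · intro v
    change ∫ y, inner ℝ (om y) (mv (1 - mxOf Pj) v) ^ 2 ∂(dm η) ≤ δ * ‖v‖ ^ 2
    simp only [br_mv_one_sub, br_mv_mxOf]
    exact (h.proj.ww v).trans (mul_le_mul_of_nonneg_right hεδ (by positivity))
  · intro v
    change ∫ y, inner ℝ (mv (1 - mxOf Pj) v)
      (mv (1 - s0 • mxOf (hessK μ s0 y)) (mv (1 - mxOf Pj) v)) ∂(dm η) ≤ δ * ‖v‖ ^ 2
    refine le_trans (le_of_eq ?_)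
      ((h.proj.mm v).trans (mul_le_mul_of_nonneg_right hεδ (by positivity)))
    refine integral_congr_ae (Filter.Eventually.of_forall fun y => ?_)
    simp only [br_mv_one_sub, br_mv_mxOf, br_mv_smul,
      gc_fderiv_postMean_hessK h.crit.base.bdd br_s0_pos]
    rw [real_inner_comm]
  · intro hom r a' hr hr' ha'
    change ∫ u, tailTr a' (postCovMx (dm η) r w u) ∂(dm (gconv (dm η) r))
      ≤ δ * ∫ x, ‖w x‖ ^ 2 ∂(dm η)
    have ha0 : 0 < a' := lt_of_lt_of_le hδ ha'
    have h1 := br_tail h.crit.field.spd h.crit.field.w_smooth.continuous h.crit.field.w_L2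
      (by positivity) (htail hom) (lt_of_lt_of_le hδ hr) hr hr' ha0
    refine h1.trans ?_
    rw [← mul_assoc]
    refine mul_le_mul_of_nonneg_right ?_ hI.le
    have h2 : (1 + a') / a' ≤ (1 + δ) / δ := by
      rw [div_le_div_iff₀ ha0 hδ]
      nlinarith
    calc (1 + a') / a' * (δ ^ 2 / (1 + δ)) ≤ (1 + δ) / δ * (δ ^ 2 / (1 + δ)) := by gcongr
      _ = δ := by field_simp

end construct

/-! ### The export of the bridge -/

/-- SECTIONS 3+4 DELIVER THE INPUT OF SECTION 5. -/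
theorem br_main : ∀ δ : ℝ, 0 < δ → ∃ ε : ℝ, 0 < ε ∧ ∀ (n : ℕ) (μ : Measure (EE n)) (a : ℝ)
    (η : EE n → ℝ) (w : EE n → EE n), Crit μ a ε η w → ∃ Z : HiInput n, Z.Small δ := by
  intro δ hδ
  have hδ' : 0 < min δ (δ ^ 2 / (1 + δ)) := lt_min hδ (by positivity)
  obtain ⟨ε1, hε1, H1⟩ := s4_strict _ hδ' δ hδ
  obtain ⟨ε2, hε2, H2⟩ := s4_gap _ hδ' δ hδ
  refine ⟨min (min ε1 ε2) δ, lt_min (lt_min hε1 hε2) hδ, ?_⟩
  intro n μ a η w hC
  have hI : 0 ≤ ∫ x, ‖w x‖ ^ 2 ∂(dm η) := integral_nonneg fun _ => by positivity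
  have hCδ : Crit μ a δ η w := s4_crit_mono hC (min_le_right _ _)
  rcases hC.branch with ⟨f, hf⟩ | ⟨φ, hφ⟩
  · obtain ⟨hc, ht, Pj, hP⟩ := H1 (EE n) μ a η w f
      (s4_crit_mono hC ((min_le_left _ _).trans (min_le_left _ _))) hf
    have hyp : BrHyp μ a δ η w w Pj :=
      { crit := hCδ
        branch := Or.inl rfl
        drift := hf.drift
        proj := hP.mono (min_le_left _ _) }
    exact ⟨hyp.input, hyp.small hδ le_rfl (hc.mono (min_le_left _ _))
      (fun _ => ht.mono (min_le_right _ _))⟩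
  · obtain ⟨hc, hP⟩ := H2 (EE n) μ a η w φ
      (s4_crit_mono hC ((min_le_left _ _).trans (min_le_right _ _))) hφ
    have hyp : BrHyp μ a δ η w 0 0 :=
      { crit := hCδ
        branch := Or.inr rfl
        drift := fun y => by rw [hφ.drift y]; simp
        proj := hP.mono (min_le_left _ _) }
    refine ⟨hyp.input, hyp.small hδ le_rfl (hc.mono (min_le_left _ _)) (fun h0 => ?_)⟩
    -- `w = 0` is impossible
    exfalso
    have := hC.field.I_pos
    rw [← h0] at this
    simp at this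

/-- generates the equation lemmas of the definitions above in this file (rule 6: unique names) -/
theorem br45_eqns_cite : True := by
  have := @mxOf.eq_1
  have := @clmOf.eq_1
  have := @BrHyp.input.eq_1
  trivial

end Claimed.Agent.R259
end
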