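/- Packed by merge_tool.py (helper293): 10 modules of Claimed.Agent.R259 in one file, same declarations.
   Old modules, in this order: S5TailLaw, S5TailL2, S5TailPM, S5TailSt, S5TailKey, S5TailCov, S5TailQV, S5TailA, S5TailBes, S5TailC -/
import Claimed.Agent.R260.GKRot
import Claimed.Agent.R259.Pack031
import Claimed.Agent.R259.Pack030
import Claimed.Agent.R259.Pack014
import Claimed.Agent.R259.Pack037

/- ===== packed: Claimed.Agent.R259.S5TailLaw ===== -/
section
/-
Row 259 (S0499), package BP-S5-tails: THE LAWS (leaf L-s5t-law).  Blueprint: helper125.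
LEAF FILE: the seat that claims the leaf owns this file, keeps names and statements and replaces every
`sorry` by a proof (helper lemmas with prefix `s5t_law_` are welcome).  No paper needed.

Tools: `gam_eq_std : gam n = stdGaussian (EE n)` (GamStd), `gc_law`, `gck_joint_law` (GcKernel),
`s5k_prob : SPD η → IsProbabilityMeasure (dm η)` (S5KitL2), `Claimed.Agent.R260.gk_rot_map` (R260/GKRot, rotation
invariance of `γ ⊗ γ`; `R260.gam m` is an abbreviation of `stdGaussian`; use it at `c = (√2)⁻¹`, where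
`√(1 - c²) = (√2)⁻¹`), `Measure.map_map`, `Measure.prod` associativity (`MeasurableEquiv.prodAssoc`,
`measurePreserving_prodAssoc`), `Measure.map_prod_map`.

* `s5t_law_U1`: `(y, g₀, g₁) ↦ ((y, y + √d g₀), g₁)` is `(φ × id) ∘ assoc⁻¹`.
* `s5t_law_U2`: first rotate `(g₀, g₁) ↦ (s, t) = ((g₀+g₁)/√2, (g₀-g₁)/√2)`; `√d (g₀ + g₁) = √(2d) s`.
-/
set_option autoImplicit false

open MeasureTheory ProbabilityTheory
open scoped ContDiff BigOperators Matrix
open Claimed.Agent.R260 (Mx)

namespace Claimed.Agent.R259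

variable {n : ℕ} {η : EE n → ℝ}

theorem s5t_gam_prob (n : ℕ) : IsProbabilityMeasure (gam n) := by
  rw [gam_eq_std]
  infer_instance

theorem s5t_Pr_prob (hη : SPD η) : IsProbabilityMeasure (s5tPr η) := by
  have := s5k_prob hη
  have := s5t_gam_prob n
  unfold s5tPr
  infer_instance

theorem s5t_J_prob (hη : SPD η) (r : ℝ) : IsProbabilityMeasure (s5tJ η r) := by
  have := s5k_prob hη
  have := s5t_gam_prob n
  unfold s5tJ
  exact Measure.isProbabilityMeasure_map (by fun_prop)

/-- first marginal of the joint law of `(Y, U_r)` -/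
theorem s5t_J_fst (hη : SPD η) (r : ℝ) : (s5tJ η r).map Prod.fst = dm η := by
  have := s5k_prob hη
  have := s5t_gam_prob n
  unfold s5tJ
  rw [Measure.map_map measurable_fst (by fun_prop)]
  have h : (Prod.fst ∘ fun p : EE n × EE n => (p.1, p.1 + Real.sqrt r • p.2)) = Prod.fst := rfl
  rw [h, Measure.map_fst_prod]
  simp only [measure_univ, one_smul]

/-- second marginal of the joint law of `(Y, U_r)` -/
theorem s5t_J_snd (hη : SPD η) {r : ℝ} (hr : 0 < r) :
    (s5tJ η r).map Prod.snd = dm (gconv (dm η) r) := by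
  have := s5k_prob hη
  unfold s5tJ
  rw [Measure.map_map measurable_snd (by fun_prop), gc_law hr, gam_eq_std]
  rfl

/-- `((Y, U₁), G₁) ∼ J_d ⊗ γ` -/
theorem s5t_law_U1 (hη : SPD η) (d : ℝ) :
    (s5tPr η).map (fun o => ((o.1, s5tU1 d o), o.2.2)) = (s5tJ η d).prod (gam n) := by
  have := s5k_prob hη
  have := s5t_gam_prob n
  have h1 : (s5tJ η d).prod (gam n)
      = (((dm η).prod (gam n)).prod (gam n)).map
          (Prod.map (fun p : EE n × EE n => (p.1, p.1 + Real.sqrt d • p.2)) id) := by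
    rw [← Measure.map_prod_map _ _ (by fun_prop) measurable_id, Measure.map_id]
    rfl
  have h2 : ((dm η).prod (gam n)).prod (gam n)
      = (s5tPr η).map (MeasurableEquiv.prodAssoc (α := EE n) (β := EE n) (γ := EE n)).symm := by
    have h := (measurePreserving_prodAssoc (dm η) (gam n) (gam n)).symm
    exact h.map_eq.symm
  rw [h1, h2, Measure.map_map (by fun_prop) (MeasurableEquiv.measurable _)]
  rfl

/-- `((Y, U₂), (G₀ - G₁)/√2) ∼ J_{2d} ⊗ γ` (rotation invariance) -/
theorem s5t_law_U2 (hη : SPD η) {d : ℝ} (hd : 0 ≤ d) :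
    (s5tPr η).map (fun o => ((o.1, s5tU2 d o), (Real.sqrt 2)⁻¹ • (o.2.1 - o.2.2)))
      = (s5tJ η (2 * d)).prod (gam n) := by
  have := s5k_prob hη
  have := s5t_gam_prob n
  set c : ℝ := (Real.sqrt 2)⁻¹ with hc
  have h2pos : (0 : ℝ) < Real.sqrt 2 := Real.sqrt_pos.2 (by norm_num)
  have hc0 : 0 ≤ c := (inv_pos.2 h2pos).le
  have hcsq : c ^ 2 = 1 / 2 := by
    rw [hc, inv_pow, Real.sq_sqrt (by norm_num)]
    norm_num
  have hc1 : c ≤ 1 := by nlinarith
  have hs : Real.sqrt (1 - c ^ 2) = c := by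
    rw [hcsq, show (1 : ℝ) - 1 / 2 = c ^ 2 by rw [hcsq]; norm_num, Real.sqrt_sq hc0]
  have hrot : ((gam n).prod (gam n)).map
      (fun p : EE n × EE n => (c • p.1 + c • p.2, c • p.1 - c • p.2)) = (gam n).prod (gam n) := by
    have h := Claimed.Agent.R260.gk_rot_map (m := n) (c := c) ⟨hc0, hc1⟩
    rw [hs] at h
    rw [gam_eq_std]
    exact h
  have hPr : s5tPr η = (s5tPr η).map
      (Prod.map id (fun p : EE n × EE n => (c • p.1 + c • p.2, c • p.1 - c • p.2))) := by
    unfold s5tPr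
    rw [← Measure.map_prod_map _ _ measurable_id (by fun_prop), Measure.map_id, hrot]
  rw [← s5t_law_U1 hη (2 * d)]
  conv_rhs => rw [hPr]
  rw [Measure.map_map (by unfold s5tU1; fun_prop) (by fun_prop)]
  congr 1
  funext o
  have hsq : Real.sqrt (2 * d) * c = Real.sqrt d := by
    rw [Real.sqrt_mul (by norm_num), hc]
    field_simp
  simp only [Function.comp, Prod.map, id, s5tU1, s5tU2, smul_add, smul_smul, hsq, smul_sub, add_assoc]

/-- `(Y, U₂) ∼ J_{2d}` -/
theorem s5t_law_YU2 (hη : SPD η) {d : ℝ} (hd : 0 ≤ d) :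
    (s5tPr η).map (fun o => (o.1, s5tU2 d o)) = s5tJ η (2 * d) := by
  have := s5t_J_prob hη (2 * d)
  have := s5t_gam_prob n
  have h := congrArg (Measure.map Prod.fst) (s5t_law_U2 hη hd)
  rw [Measure.map_map measurable_fst (by unfold s5tU2; fun_prop), Measure.map_fst_prod] at h
  simp only [measure_univ, one_smul] at h
  exact h

end Claimed.Agent.R259
end

/- ===== packed: Claimed.Agent.R259.S5TailL2 ===== -/
section
/-
Row 259 (S0499), package BP-S5-tails: the five random vectors are in `L²`, and their norms (leaf L-s5t-l2).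
Blueprint: helper125.  LEAF FILE: the seat that claims the leaf owns this file, keeps names and statements
and replaces every `sorry` by a proof (helper lemmas with prefix `s5t_l2_` are welcome).  No paper needed.

Tools.  `postE = hpost` (EntDefs) BY `rfl`; `dbt_hpost_continuous`, `db_hpost_memLp` (DbTower, proved);
the laws of `S5TailLaw.lean` (`s5t_law_U1`, `s5t_law_YU2`, `s5t_J_fst`, `s5t_J_snd`): a function of `U₁` (resp. `U₂`)
is `φ ∘ Prod.snd ∘ (o ↦ (o.1, U o))`, use `MemLp.comp_measurePreserving` / `memLp_map_measure_iff` and `integral_map`.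
`C₀`: for fixed `y`, `∫ ‖M g‖² dγ(g) = hs2 M` (`∫ g_b g_c dγ = δ_{bc}`: `s5b_hm_orth` with `j = k = 1`, or Mathlib's
`stdGaussian` covariance; `gam_eq_std`), then Tonelli (`integrable_prod_iff`, `integral_prod`).
-/
set_option autoImplicit false

open MeasureTheory ProbabilityTheory
open scoped ContDiff BigOperators Matrix
open Claimed.Agent.R260 (Mx)

namespace Claimed.Agent.R259

variable {n : ℕ} {η : EE n → ℝ} {w : EE n → EE n} {Q : EE n → Mx n} {d : ℝ}

/-- the posterior mean is continuous -/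
theorem s5t_h_cont (H : S5tData η w Q) {v : ℝ} (hv : 0 < v) : Continuous (postE (dm η) v w) := by
  have := s5k_prob H.spd
  exact dbt_hpost_continuous (ν := dm η) hv (H.w_L2.integrable one_le_two)

/-- a linear functional of the standard Gaussian: square integrable, with second moment `‖v‖²` -/
theorem s5t_l2_lin (v : EE n) :
    MemLp (fun g : EE n => inner ℝ v g) 2 (gam n) ∧ ∫ g, (inner ℝ v g) ^ 2 ∂(gam n) = ‖v‖ ^ 2 := by
  rw [gam_eq_std]
  have hm : MemLp (innerSL ℝ v : StrongDual ℝ (EE n)) 2 (stdGaussian (EE n)) :=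
    IsGaussian.memLp_dual _ _ 2 (by simp)
  refine ⟨hm, ?_⟩
  have h1 := variance_dual_stdGaussian (E := EE n) (innerSL ℝ v)
  rw [variance_eq_sub hm, integral_strongDual_stdGaussian, innerSL_apply_norm] at h1
  simpa using h1

/-- second moments of the standard Gaussian -/
theorem s5t_gam_mv (M : Mx n) :
    Integrable (fun g => ‖mv M g‖ ^ 2) (gam n) ∧ ∫ g, ‖mv M g‖ ^ 2 ∂(gam n) = hs2 M := by
  have e : ∀ g : EE n, ‖mv M g‖ ^ 2
      = ∑ i, (inner ℝ (WithLp.toLp 2 (M i) : EE n) g) ^ 2 := by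
    intro g
    rw [EuclideanSpace.real_norm_sq_eq]
    refine Finset.sum_congr rfl fun i _ => ?_
    rw [s5t_mv_apply, PiLp.inner_apply]
    congr 1
    refine Finset.sum_congr rfl fun j _ => ?_
    simp [mul_comm]
  have hi : ∀ i, Integrable (fun g : EE n => (inner ℝ (WithLp.toLp 2 (M i) : EE n) g) ^ 2) (gam n) :=
    fun i => (s5t_l2_lin _).1.integrable_sq
  simp_rw [e]
  refine ⟨integrable_finsetSum _ fun i _ => hi i, ?_⟩
  rw [integral_finsetSum _ fun i _ => hi i]
  unfold hs2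
  refine Finset.sum_congr rfl fun i _ => ?_
  rw [(s5t_l2_lin _).2, EuclideanSpace.real_norm_sq_eq]

/-- the law of `Y` -/
theorem s5t_l2_law_Y (hη : SPD η) : (s5tPr η).map Prod.fst = dm η := by
  have := s5k_prob hη
  have := s5t_gam_prob n
  unfold s5tPr
  rw [Measure.map_fst_prod]
  simp only [measure_univ, one_smul]

theorem s5t_l2_U1_meas (d : ℝ) : Measurable (s5tU1 (n := n) d) := by
  unfold s5tU1; fun_prop

theorem s5t_l2_U2_meas (d : ℝ) : Measurable (s5tU2 (n := n) d) := by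
  unfold s5tU2; fun_prop

/-- `(Y, U₁) ∼ J_d` -/
theorem s5t_l2_law_YU1 (hη : SPD η) (d : ℝ) :
    (s5tPr η).map (fun o => (o.1, s5tU1 d o)) = s5tJ η d := by
  have := s5t_J_prob hη d
  have := s5t_gam_prob n
  have h := congrArg (Measure.map Prod.fst) (s5t_law_U1 hη d)
  rw [Measure.map_map measurable_fst (by have := s5t_l2_U1_meas (n := n) d; fun_prop),
    Measure.map_fst_prod] at h
  simp only [measure_univ, one_smul] at h
  exact h

/-- the law of `U₁` -/
theorem s5t_l2_law_U1 (hη : SPD η) (hd : 0 < d) :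
    (s5tPr η).map (s5tU1 d) = dm (gconv (dm η) d) := by
  rw [← s5t_J_snd hη hd, ← s5t_l2_law_YU1 hη d,
    Measure.map_map measurable_snd (by have := s5t_l2_U1_meas (n := n) d; fun_prop)]
  rfl

/-- the law of `U₂` -/
theorem s5t_l2_law_U2 (hη : SPD η) (hd : 0 < d) :
    (s5tPr η).map (s5tU2 d) = dm (gconv (dm η) (2 * d)) := by
  rw [← s5t_J_snd hη (by positivity : 0 < 2 * d), ← s5t_law_YU2 hη hd.le,
    Measure.map_map measurable_snd (by have := s5t_l2_U2_meas (n := n) d; fun_prop)]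
  rfl

theorem s5t_W_memLp (H : S5tData η w Q) : MemLp (s5tW w) 2 (s5tPr η) := by
  have h : MemLp w 2 ((s5tPr η).map Prod.fst) := by rw [s5t_l2_law_Y H.spd]; exact H.w_L2
  exact h.comp_of_map measurable_fst.aemeasurable

theorem s5t_W_norm (H : S5tData η w Q) : ∫ o, ‖s5tW w o‖ ^ 2 ∂(s5tPr η) = nSq η w := by
  unfold nSq
  have hc : Continuous fun y => ‖w y‖ ^ 2 := H.w_cont.norm.pow 2
  rw [← s5t_l2_law_Y H.spd, integral_map measurable_fst.aemeasurable hc.aestronglyMeasurable]
  rfl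

theorem s5t_l2_h_memLp (H : S5tData η w Q) {v : ℝ} (hv : 0 < v) :
    MemLp (postE (dm η) v w) 2 (dm (gconv (dm η) v)) := by
  have := s5k_prob H.spd
  exact db_hpost_memLp (ν := dm η) hv H.w_L2

theorem s5t_A_memLp (H : S5tData η w Q) (hd : 0 < d) : MemLp (s5tA η w d) 2 (s5tPr η) := by
  have h : MemLp (postE (dm η) d w) 2 ((s5tPr η).map (s5tU1 d)) := by
    rw [s5t_l2_law_U1 H.spd hd]; exact s5t_l2_h_memLp H hd
  exact h.comp_of_map (s5t_l2_U1_meas d).aemeasurable

theorem s5t_A_norm (H : S5tData η w Q) (hd : 0 < d) :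
    ∫ o, ‖s5tA η w d o‖ ^ 2 ∂(s5tPr η) = s5tE η w d := by
  unfold s5tE nSq
  have hc : Continuous fun y => ‖postE (dm η) d w y‖ ^ 2 := (s5t_h_cont H hd).norm.pow 2
  rw [← s5t_l2_law_U1 H.spd hd, integral_map (s5t_l2_U1_meas d).aemeasurable
    hc.aestronglyMeasurable]
  rfl

theorem s5t_B_memLp (H : S5tData η w Q) (hd : 0 < d) : MemLp (s5tB η w d) 2 (s5tPr η) := by
  have h : MemLp (postE (dm η) (2 * d) w) 2 ((s5tPr η).map (s5tU2 d)) := by
    rw [s5t_l2_law_U2 H.spd hd]; exact s5t_l2_h_memLp H (by positivity)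
  exact h.comp_of_map (s5t_l2_U2_meas d).aemeasurable

theorem s5t_B_norm (H : S5tData η w Q) (hd : 0 < d) :
    ∫ o, ‖s5tB η w d o‖ ^ 2 ∂(s5tPr η) = s5tE η w (2 * d) := by
  unfold s5tE nSq
  have hc : Continuous fun y => ‖postE (dm η) (2 * d) w y‖ ^ 2 :=
    (s5t_h_cont H (by positivity : 0 < 2 * d)).norm.pow 2
  rw [← s5t_l2_law_U2 H.spd hd, integral_map (s5t_l2_U2_meas d).aemeasurable
    hc.aestronglyMeasurable]
  rfl

/-- the first chaos `c Q(Y) G`, `(Y, G) ∼ η ⊗ γ` -/
theorem s5t_l2_chaos (H : S5tData η w Q) (c : ℝ) :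
    MemLp (fun p : EE n × EE n => c • mv (Q p.1) p.2) 2 ((dm η).prod (gam n)) ∧
      ∫ p, ‖c • mv (Q p.1) p.2‖ ^ 2 ∂((dm η).prod (gam n)) = c ^ 2 * s5tN η Q := by
  have := s5k_prob H.spd
  have := s5t_gam_prob n
  have hm : Measurable fun p : EE n × EE n => c • mv (Q p.1) p.2 :=
    (s5t_mv_meas (H.Q_meas.comp measurable_fst) measurable_snd).const_smul c
  have e : ∀ y g : EE n, ‖c • mv (Q y) g‖ ^ 2 = c ^ 2 * ‖mv (Q y) g‖ ^ 2 := by
    intro y g
    rw [norm_smul, mul_pow, Real.norm_eq_abs, sq_abs]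
  have hi : Integrable (fun p : EE n × EE n => ‖c • mv (Q p.1) p.2‖ ^ 2) ((dm η).prod (gam n)) := by
    rw [integrable_prod_iff (hm.norm.pow_const 2).aestronglyMeasurable]
    refine ⟨Filter.Eventually.of_forall fun y => ?_, ?_⟩
    · simp_rw [e]
      exact (s5t_gam_mv (Q y)).1.const_mul _
    · simp_rw [e, Real.norm_eq_abs, abs_of_nonneg (mul_nonneg (sq_nonneg c) (sq_nonneg _)),
        integral_const_mul, (s5t_gam_mv _).2]
      exact H.Q_L2.integrable_hs2.const_mul _
  refine ⟨(memLp_two_iff_integrable_sq_norm hm.aestronglyMeasurable).2 hi, ?_⟩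
  rw [integral_prod _ hi]
  simp_rw [e, integral_const_mul, (s5t_gam_mv _).2]
  rfl

/-- `(Y, G₀) ∼ η ⊗ γ` -/
theorem s5t_l2_law_YG0 (hη : SPD η) :
    (s5tPr η).map (fun o => (o.1, o.2.1)) = (dm η).prod (gam n) := by
  have := s5k_prob hη
  have := s5t_gam_prob n
  have h : (fun o : S5tOm n => (o.1, o.2.1)) = Prod.map id Prod.fst := rfl
  unfold s5tPr
  rw [h, ← Measure.map_prod_map _ _ measurable_id measurable_fst, Measure.map_id,
    Measure.map_fst_prod]
  simp only [measure_univ, one_smul]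

/-- `(Y, G₁) ∼ η ⊗ γ` -/
theorem s5t_l2_law_YG1 (hη : SPD η) :
    (s5tPr η).map (fun o => (o.1, o.2.2)) = (dm η).prod (gam n) := by
  have := s5k_prob hη
  have := s5t_gam_prob n
  have h : (fun o : S5tOm n => (o.1, o.2.2)) = Prod.map id Prod.snd := rfl
  unfold s5tPr
  rw [h, ← Measure.map_prod_map _ _ measurable_id measurable_snd, Measure.map_id,
    Measure.map_snd_prod]
  simp only [measure_univ, one_smul]

theorem s5t_l2_chaos_meas (H : S5tData η w Q) (c : ℝ) :
    Measurable fun p : EE n × EE n => c • mv (Q p.1) p.2 :=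
  (s5t_mv_meas (H.Q_meas.comp measurable_fst) measurable_snd).const_smul c

theorem s5t_C0_memLp (H : S5tData η w Q) (hd : 0 < d) : MemLp (s5tC0 Q d) 2 (s5tPr η) := by
  have h := (s5t_l2_chaos H (Real.sqrt d)).1
  rw [← s5t_l2_law_YG0 H.spd] at h
  exact h.comp_of_map (by fun_prop)

theorem s5t_C0_norm (H : S5tData η w Q) (hd : 0 < d) :
    ∫ o, ‖s5tC0 Q d o‖ ^ 2 ∂(s5tPr η) = d * s5tN η Q := by
  have h := (s5t_l2_chaos H (Real.sqrt d)).2
  rw [← s5t_l2_law_YG0 H.spd, integral_map (by fun_prop)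
    ((s5t_l2_chaos_meas H _).norm.pow_const 2).aestronglyMeasurable, Real.sq_sqrt hd.le] at h
  exact h

theorem s5t_C1_memLp (H : S5tData η w Q) (hd : 0 < d) : MemLp (s5tC1 Q d) 2 (s5tPr η) := by
  have h := (s5t_l2_chaos H (Real.sqrt d)).1
  rw [← s5t_l2_law_YG1 H.spd] at h
  exact h.comp_of_map (by fun_prop)

theorem s5t_C1_norm (H : S5tData η w Q) (hd : 0 < d) :
    ∫ o, ‖s5tC1 Q d o‖ ^ 2 ∂(s5tPr η) = d * s5tN η Q := by
  have h := (s5t_l2_chaos H (Real.sqrt d)).2
  rw [← s5t_l2_law_YG1 H.spd, integral_map (by fun_prop)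
    ((s5t_l2_chaos_meas H _).norm.pow_const 2).aestronglyMeasurable, Real.sq_sqrt hd.le] at h
  exact h

end Claimed.Agent.R259
end

/- ===== packed: Claimed.Agent.R259.S5TailPM ===== -/
section
/-
Row 259 (S0499), package BP-S5-tails: the projection property of the posterior means (leaf L-s5t-pm).
Blueprint: helper125.  PROVED (helper54), modulo the black boxes of S5TailLaw / S5TailL2.  Extra exports: `s5t_pm_dis` (disintegration of `J_r`),
`s5t_pm_fst_memLp`, `s5t_pm_snd_memLp`, `s5t_pm_res_memLp`.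

PROOF.  BASE FACT `s5t_pm_J`: with `p = gconv (dm η) r`, `N(u) = ∫ gk r (u-y) • w y dη(y) = p(u) • h_r(u)`:
`∫ ⟨w(q.1), ψ(q.2)⟩ dJ_r = ∫_u ∫_y gk r (u-y) ⟨w y, ψ u⟩ dη(y) du`  (`gc_joint`; `gam_eq_std`; integrability on `J_r` since both
factors are in `L²(J_r)`)  `= ∫_u ⟨N u, ψ u⟩ du = ∫_u p(u) ⟨h_r u, ψ u⟩ du = ∫ ⟨h_r(q.2), ψ(q.2)⟩ dJ_r` (`s5t_J_snd`, `gck_integral_dm`).
`s5t_pm1`: transport by `s5t_law_U1` to `J_d ⊗ γ`, Fubini in the last variable; for a.e. `g`, `Ψ(·, g) ∈ L²(p_d)`.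
`s5t_pm2`: transport by `s5t_law_YU2` to `J_{2d}`.
-/
set_option autoImplicit false

open MeasureTheory ProbabilityTheory
open scoped ContDiff BigOperators Matrix
open Claimed.Agent.R260 (Mx)

namespace Claimed.Agent.R259

variable {n : ℕ} {η : EE n → ℝ} {w : EE n → EE n} {Q : EE n → Mx n} {d : ℝ}

/-- DISINTEGRATION of the joint law `J_r` along its second marginal, with the posterior laws. -/
theorem s5t_pm_dis (hη : SPD η) {r : ℝ} (hr : 0 < r) {F : EE n × EE n → ℝ}
    (hF : Integrable F (s5tJ η r)) :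
    Integrable (fun u => ∫ y, F (y, u) ∂(hpm (dm η) r u)) (dm (gconv (dm η) r)) ∧
    ∫ q, F q ∂(s5tJ η r) = ∫ u, (∫ y, F (y, u) ∂(hpm (dm η) r u)) ∂(dm (gconv (dm η) r)) := by
  have := s5k_prob hη
  have hm := (dbt_gconv_continuous (ν := dm η) hr).measurable
  have h0 : ∀ u, 0 ≤ gconv (dm η) r u := fun u => (db_gconv_pos hr u).le
  have e : ∀ u, gconv (dm η) r u • (∫ y, F (y, u) ∂(hpm (dm η) r u))
      = ∫ y, gk r (u - y) * F (y, u) ∂(dm η) := by
    intro u
    rw [db_hpm_integral hr u, dbt_gconv_smul_hpost hr]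
    rfl
  have hJ : s5tJ η r = ((dm η).prod volume).withDensity
      (fun p => ENNReal.ofReal (gk r (p.2 - p.1))) := by
    unfold s5tJ
    rw [gam_eq_std]
    exact gck_joint_law hr
  have hd : Measurable (fun p : EE n × EE n => ENNReal.ofReal (gk r (p.2 - p.1))) := by
    have := gck_measurable (E := EE n) r
    fun_prop
  constructor
  · rw [dbt_dm_integrable_iff hm h0]
    simp only [e]
    rw [hJ, integrable_withDensity_iff_integrable_smul' hd
      (Filter.Eventually.of_forall fun x => ENNReal.ofReal_lt_top)] at hF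
    have h1 := hF.integral_prod_right
    refine h1.congr (Filter.Eventually.of_forall fun u => ?_)
    refine integral_congr_ae (Filter.Eventually.of_forall fun y => ?_)
    simp only [ENNReal.toReal_ofReal (gc_gk_pos hr _).le, smul_eq_mul]
  · rw [dbt_dm_integral hm h0]
    simp only [e]
    have hF' : Integrable F (((dm η).prod (stdGaussian (EE n))).map
        (fun p => (p.1, p.1 + Real.sqrt r • p.2))) := by
      rw [← gam_eq_std]
      exact hF
    rw [← gc_joint hr hF']
    unfold s5tJ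
    rw [gam_eq_std, integral_map (by fun_prop) hF'.aestronglyMeasurable]

/-- functions of the first coordinate -/
theorem s5t_pm_fst_memLp (hη : SPD η) (r : ℝ) {V : Type} [NormedAddCommGroup V] {φ : EE n → V}
    (h : MemLp φ 2 (dm η)) : MemLp (fun q : EE n × EE n => φ q.1) 2 (s5tJ η r) := by
  rw [← s5t_J_fst hη r] at h
  exact (memLp_map_measure_iff h.1 measurable_fst.aemeasurable).1 h

/-- functions of the second coordinate -/
theorem s5t_pm_snd_memLp (hη : SPD η) {r : ℝ} (hr : 0 < r) {V : Type} [NormedAddCommGroup V]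
    {φ : EE n → V} (h : MemLp φ 2 (dm (gconv (dm η) r))) :
    MemLp (fun q : EE n × EE n => φ q.2) 2 (s5tJ η r) := by
  rw [← s5t_J_snd hη hr] at h
  exact (memLp_map_measure_iff h.1 measurable_snd.aemeasurable).1 h

/-- the residual `w(Y) - h_r(U_r)` is in `L²(J_r)` -/
theorem s5t_pm_res_memLp (H : S5tData η w Q) {r : ℝ} (hr : 0 < r) :
    MemLp (fun q : EE n × EE n => w q.1 - postE (dm η) r w q.2) 2 (s5tJ η r) := by
  have := s5k_prob H.spd
  exact (s5t_pm_fst_memLp H.spd r H.w_L2).sub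
    (s5t_pm_snd_memLp H.spd hr (db_hpost_memLp (ν := dm η) hr H.w_L2))

/-- BASE FACT: `E⟨w(Y) - h_r(U_r), ψ(U_r)⟩ = 0` -/
theorem s5t_pm_J (H : S5tData η w Q) {r : ℝ} (hr : 0 < r) {ψ : EE n → EE n} (hψ : Measurable ψ)
    (h2 : MemLp ψ 2 (dm (gconv (dm η) r))) :
    ∫ q, inner ℝ (w q.1 - postE (dm η) r w q.2) (ψ q.2) ∂(s5tJ η r) = 0 := by
  have := s5k_prob H.spd
  have hi := s5t_int_inner (s5t_pm_res_memLp H hr) (s5t_pm_snd_memLp H.spd hr h2)
  rw [(s5t_pm_dis H.spd hr hi).2]
  refine integral_eq_zero_of_ae (Filter.Eventually.of_forall fun u => ?_)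
  have := db_hpm_prob (ν := dm η) hr u
  have hw : Integrable w (hpm (dm η) r u) := db_hpm_integrable hr u (H.w_L2.integrable one_le_two)
  have h1 : Integrable (fun y => w y - postE (dm η) r w u) (hpm (dm η) r u) :=
    hw.sub (integrable_const _)
  simp only [Pi.zero_apply]
  simp_rw [real_inner_comm (ψ u)]
  rw [integral_inner h1, integral_sub hw (integrable_const _), db_hpm_integral hr u]
  simp only [integral_const, probReal_univ, one_smul]
  have : hpost (dm η) r w u - postE (dm η) r w u = 0 := sub_self _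
  rw [this, inner_zero_right]

/-- `E⟨W - A, Ψ(U₁, G₁)⟩ = 0` -/
theorem s5t_pm1 (H : S5tData η w Q) (hd : 0 < d) {Ψ : EE n × EE n → EE n} (hΨ : Measurable Ψ)
    (h2 : MemLp (fun o : S5tOm n => Ψ (s5tU1 d o, o.2.2)) 2 (s5tPr η)) :
    ∫ o, inner ℝ (s5tW w o - s5tA η w d o) (Ψ (s5tU1 d o, o.2.2)) ∂(s5tPr η) = 0 := by
  have := s5t_J_prob H.spd d
  have := s5t_gam_prob n
  have hlaw := s5t_law_U1 H.spd d
  have hT : Measurable (fun o : S5tOm n => ((o.1, s5tU1 d o), o.2.2)) := by
    unfold s5tU1; fun_prop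
  have hh := (s5t_h_cont H hd).measurable
  have hw := H.w_cont.measurable
  set G : (EE n × EE n) × EE n → ℝ :=
    fun z => inner ℝ (w z.1.1 - postE (dm η) d w z.1.2) (Ψ (z.1.2, z.2)) with hG
  have hGm : Measurable G := by
    have h1 : Measurable fun z : (EE n × EE n) × EE n => w z.1.1 - postE (dm η) d w z.1.2 :=
      (hw.comp (measurable_fst.comp measurable_fst)).sub
        (hh.comp (measurable_snd.comp measurable_fst))
    have h3 : Measurable fun z : (EE n × EE n) × EE n => Ψ (z.1.2, z.2) :=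
      hΨ.comp ((measurable_snd.comp measurable_fst).prodMk measurable_snd)
    exact h1.inner h3
  have hi : Integrable (fun o => inner ℝ (s5tW w o - s5tA η w d o) (Ψ (s5tU1 d o, o.2.2)))
      (s5tPr η) := s5t_int_inner ((s5t_W_memLp H).sub (s5t_A_memLp H hd)) h2
  have hGi : Integrable G ((s5tJ η d).prod (gam n)) := by
    rw [← hlaw, integrable_map_measure hGm.aestronglyMeasurable hT.aemeasurable]
    exact hi
  have e1 : ∫ o, inner ℝ (s5tW w o - s5tA η w d o) (Ψ (s5tU1 d o, o.2.2)) ∂(s5tPr η)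
      = ∫ z, G z ∂((s5tJ η d).prod (gam n)) := by
    rw [← hlaw, integral_map hT.aemeasurable hGm.aestronglyMeasurable]
    rfl
  rw [e1, integral_prod_symm _ hGi]
  -- square integrability of the slices
  have hN : Integrable (fun z : (EE n × EE n) × EE n => ‖Ψ (z.1.2, z.2)‖ ^ 2)
      ((s5tJ η d).prod (gam n)) := by
    have hm : Measurable fun z : (EE n × EE n) × EE n => ‖Ψ (z.1.2, z.2)‖ ^ 2 :=
      ((hΨ.comp ((measurable_snd.comp measurable_fst).prodMk measurable_snd)).norm).pow_const 2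
    rw [← hlaw, integrable_map_measure hm.aestronglyMeasurable hT.aemeasurable]
    exact s5t_int_sq h2
  refine integral_eq_zero_of_ae ?_
  filter_upwards [hN.prod_left_ae] with g hg
  have hψ : Measurable fun u => Ψ (u, g) := hΨ.comp (measurable_id.prodMk measurable_const)
  have h3 : MemLp (fun q : EE n × EE n => Ψ (q.2, g)) 2 (s5tJ η d) :=
    (memLp_two_iff_integrable_sq_norm (hψ.comp measurable_snd).aestronglyMeasurable).2 hg
  have h4 : MemLp (fun u => Ψ (u, g)) 2 (dm (gconv (dm η) d)) := by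
    rw [← s5t_J_snd H.spd hd]
    exact (memLp_map_measure_iff hψ.aestronglyMeasurable measurable_snd.aemeasurable).2 h3
  exact s5t_pm_J H hd hψ h4

/-- `E⟨W - B, Ψ(U₂)⟩ = 0` -/
theorem s5t_pm2 (H : S5tData η w Q) (hd : 0 < d) {Ψ : EE n → EE n} (hΨ : Measurable Ψ)
    (h2 : MemLp (fun o : S5tOm n => Ψ (s5tU2 d o)) 2 (s5tPr η)) :
    ∫ o, inner ℝ (s5tW w o - s5tB η w d o) (Ψ (s5tU2 d o)) ∂(s5tPr η) = 0 := by
  have hd2 : 0 < 2 * d := by positivity
  have hlaw := s5t_law_YU2 H.spd hd.le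
  have hT : Measurable (fun o : S5tOm n => (o.1, s5tU2 d o)) := by
    unfold s5tU2; fun_prop
  have hh := (s5t_h_cont H hd2).measurable
  have hw := H.w_cont.measurable
  have hGm : Measurable fun q : EE n × EE n =>
      inner ℝ (w q.1 - postE (dm η) (2 * d) w q.2) (Ψ q.2) :=
    ((hw.comp measurable_fst).sub (hh.comp measurable_snd)).inner (hΨ.comp measurable_snd)
  have h3 : MemLp (fun q : EE n × EE n => Ψ q.2) 2 (s5tJ η (2 * d)) := by
    rw [← hlaw]
    exact (memLp_map_measure_iff (hΨ.comp measurable_snd).aestronglyMeasurable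
      hT.aemeasurable).2 h2
  have h4 : MemLp Ψ 2 (dm (gconv (dm η) (2 * d))) := by
    rw [← s5t_J_snd H.spd hd2]
    exact (memLp_map_measure_iff hΨ.aestronglyMeasurable measurable_snd.aemeasurable).2 h3
  have e := s5t_pm_J H hd2 hΨ h4
  rw [← hlaw, integral_map hT.aemeasurable hGm.aestronglyMeasurable] at e
  exact e

end Claimed.Agent.R259
end

/- ===== packed: Claimed.Agent.R259.S5TailSt ===== -/
section
/-
Row 259 (S0499), package BP-S5-tails: correlations with the first chaos (leaf L-s5t-stein).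
Blueprint: helper125.  Proofs: helper115.

All integrands are products of two `L²(s5tPr η)` functions (`S5TailL2.lean`), hence integrable (`s5t_int_inner`); use
`integral_prod` (Fubini) freely.
* `s5t_W_C0`, `s5t_A_C1`: integrate FIRST over the Gaussian variable which appears only linearly (`∫ g_b dγ = 0`).
* `s5t_A_C0`: for fixed `y`: `∫ ⟨h(y + √d g), √d Q(y) g⟩ dγ(g) = √d ∑_{ab} Q_ab(y) ∫ h_a(y + √d g) g_b dγ = d hsI (Q y) (s5tX h d y)`
  (definition of `s5tX`; `√d * √d = d`; `s5t_inner_mv`).  The entry integrals converge for a.e. `y`.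
* `s5t_B_C1`: by `s5t_law_U2`, with `q = (Y, U₂)`, `t = (G₀-G₁)/√2`:  `√d G₁ = (q.2 - q.1)/2 - √(d/2) t`, so
  `E⟨B, C₁⟩ = (1/2) ∫ ⟨h_{2d}(q.2), Q(q.1)(q.2 - q.1)⟩ dJ_{2d} - 0`, and by definition of `J_{2d}` the first integral is
  `∫∫ ⟨h_{2d}(y + √(2d) g), √(2d) Q(y) g⟩ dγ dη = 2d κ(2d)` (same computation as for `s5t_A_C0`: isolate it as a lemma on
  `(dm η).prod (gam n)` for a general time `v`).
-/
set_option autoImplicit false

open MeasureTheory ProbabilityTheory
open scoped ContDiff BigOperators Matrix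
open Claimed.Agent.R260 (Mx)

namespace Claimed.Agent.R259

variable {n : ℕ} {η : EE n → ℝ} {w : EE n → EE n} {Q : EE n → Mx n} {d : ℝ}

/-- linear functionals have mean zero under the standard Gaussian -/
theorem s5t_st_lin (v : EE n) : ∫ g, inner ℝ v g ∂(gam n) = 0 := by
  rw [gam_eq_std]
  exact integral_strongDual_stdGaussian (innerSL ℝ v)

theorem s5t_st_coord_memLp (b : Fin n) : MemLp (fun g : EE n => g b) 2 (gam n) := by
  rw [gam_eq_std]
  exact IsGaussian.memLp_dual (stdGaussian (EE n)) (EuclideanSpace.proj b : EE n →L[ℝ] ℝ) 2 (by simp)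

/-- the law of `(Y, G₀)` -/
theorem s5t_st_law0 (hη : SPD η) :
    (s5tPr η).map (fun o => (o.1, o.2.1)) = (dm η).prod (gam n) := by
  have := s5k_prob hη
  have := s5t_gam_prob n
  have h : (fun o : S5tOm n => (o.1, o.2.1)) = Prod.map id Prod.fst := rfl
  unfold s5tPr
  rw [h, ← Measure.map_prod_map _ _ measurable_id measurable_fst, Measure.map_id,
    Measure.map_fst_prod]
  simp

/-- exchanging the two Gaussians preserves the law -/
theorem s5t_st_swap (hη : SPD η) :
    (s5tPr η).map (fun o => (o.1, (o.2.2, o.2.1))) = s5tPr η := by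
  have := s5k_prob hη
  have := s5t_gam_prob n
  have h : (fun o : S5tOm n => (o.1, (o.2.2, o.2.1))) = Prod.map id Prod.swap := rfl
  unfold s5tPr
  rw [h, ← Measure.map_prod_map _ _ measurable_id measurable_swap, Measure.map_id,
    Measure.prod_swap]


/-- `h_v(Y + √v G) ∈ L²` on the pair space -/
theorem s5t_st_h_memLp (H : S5tData η w Q) {v : ℝ} (hv : 0 < v) :
    MemLp (fun p : EE n × EE n => postE (dm η) v w (p.1 + Real.sqrt v • p.2)) 2
      ((dm η).prod (gam n)) := by
  have := s5k_prob H.spd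
  have h1 : MemLp (postE (dm η) v w) 2 (dm (gconv (dm η) v)) := db_hpost_memLp (ν := dm η) hv H.w_L2
  rw [← s5t_J_snd H.spd hv, s5tJ, Measure.map_map measurable_snd (by fun_prop)] at h1
  exact (memLp_map_measure_iff ((s5t_h_cont H hv).aestronglyMeasurable) (by fun_prop)).1 h1

/-- `Q(Y) G ∈ L²` on the pair space -/
theorem s5t_st_QG_memLp (H : S5tData η w Q) :
    MemLp (fun p : EE n × EE n => mv (Q p.1) p.2) 2 ((dm η).prod (gam n)) := by
  have h1 : MemLp (s5tC0 Q 1) 2 (s5tPr η) := s5t_C0_memLp H one_pos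
  have hm : Measurable fun p : EE n × EE n => mv (Q p.1) p.2 :=
    s5t_mv_meas (fun i j => (H.Q_meas i j).comp measurable_fst) measurable_snd
  rw [← s5t_st_law0 H.spd]
  refine (memLp_map_measure_iff hm.aestronglyMeasurable (by fun_prop)).2 ?_
  refine h1.congr_norm ?_ ?_
  · exact (hm.comp (by fun_prop : Measurable fun o : S5tOm n => (o.1, o.2.1))).aestronglyMeasurable
  · exact Filter.Eventually.of_forall fun o => by simp [s5tC0]

/-- THE STEIN COMPUTATION at a general time `v` on the pair space -/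
theorem s5t_st_key (H : S5tData η w Q) {v : ℝ} (hv : 0 < v) :
    ∫ p, inner ℝ (postE (dm η) v w (p.1 + Real.sqrt v • p.2)) (mv (Q p.1) p.2)
      ∂((dm η).prod (gam n)) = Real.sqrt v * s5tK η w Q v := by
  have := s5k_prob H.spd
  have := s5t_gam_prob n
  have hh := s5t_st_h_memLp H hv
  have hsv : 0 < Real.sqrt v := Real.sqrt_pos.2 hv
  rw [integral_prod _ (s5t_int_inner hh (s5t_st_QG_memLp H)), s5tK, ← integral_const_mul]
  have hae := (s5t_int_sq hh).prod_right_ae
  refine integral_congr_ae ?_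
  filter_upwards [hae] with y hy
  have hc : Continuous fun g : EE n => postE (dm η) v w (y + Real.sqrt v • g) :=
    (s5t_h_cont H hv).comp (by fun_prop)
  have hL : MemLp (fun g : EE n => postE (dm η) v w (y + Real.sqrt v • g)) 2 (gam n) :=
    (memLp_two_iff_integrable_sq_norm hc.aestronglyMeasurable).2 hy
  have hLa : ∀ a, MemLp (fun g : EE n => postE (dm η) v w (y + Real.sqrt v • g) a) 2 (gam n) :=
    fun a => (EuclideanSpace.proj a : EE n →L[ℝ] ℝ).comp_memLp' hL
  have hI : ∀ a b, Integrable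
      (fun g : EE n => postE (dm η) v w (y + Real.sqrt v • g) a * g b) (gam n) :=
    fun a b => (hLa a).integrable_mul (s5t_st_coord_memLp b)
  have hX : ∀ a b, ∫ g, postE (dm η) v w (y + Real.sqrt v • g) a * g b ∂(gam n)
      = Real.sqrt v * s5tX (postE (dm η) v w) v y a b := by
    intro a b
    rw [s5tX, Matrix.of_apply]
    field_simp
  simp only [s5t_inner_mv]
  calc ∫ g, ∑ a, ∑ b, Q y a b * (postE (dm η) v w (y + Real.sqrt v • g) a * g b) ∂(gam n)
      = ∑ a, ∫ g, ∑ b, Q y a b * (postE (dm η) v w (y + Real.sqrt v • g) a * g b) ∂(gam n) :=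
        integral_finsetSum _ fun a _ => integrable_finsetSum _ fun b _ => (hI a b).const_mul _
    _ = ∑ a, ∑ b, ∫ g, Q y a b * (postE (dm η) v w (y + Real.sqrt v • g) a * g b) ∂(gam n) :=
        Finset.sum_congr rfl fun a _ => integral_finsetSum _ fun b _ => (hI a b).const_mul _
    _ = ∑ a, ∑ b, Real.sqrt v * (Q y a b * s5tX (postE (dm η) v w) v y a b) :=
        Finset.sum_congr rfl fun a _ => Finset.sum_congr rfl fun b _ => by
          rw [integral_const_mul, hX]
          ring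
    _ = Real.sqrt v * hsI (Q y) (s5tX (postE (dm η) v w) v y) := by
        unfold hsI
        rw [Finset.mul_sum]
        exact Finset.sum_congr rfl fun a _ => (Finset.mul_sum _ _ _).symm

theorem s5t_W_C0 (H : S5tData η w Q) (hd : 0 < d) :
    ∫ o, inner ℝ (s5tW w o) (s5tC0 Q d o) ∂(s5tPr η) = 0 := by
  have := s5k_prob H.spd
  have := s5t_gam_prob n
  have hI := s5t_int_inner (s5t_W_memLp H) (s5t_C0_memLp H hd)
  unfold s5tPr at hI ⊢
  rw [integral_prod _ hI]
  refine integral_eq_zero_of_ae (Filter.Eventually.of_forall fun y => ?_)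
  have e : ∀ p : EE n × EE n, inner ℝ (s5tW w (y, p)) (s5tC0 Q d (y, p))
      = (fun g : EE n => inner ℝ (Real.sqrt d • mv (Q y)ᵀ (w y)) g) p.1 := by
    intro p
    simp only [s5tW, s5tC0]
    rw [inner_smul_right, inner_smul_left, s5t_inner_mv_left, Matrix.transpose_transpose]
    simp
  simp only [e, Pi.zero_apply]
  rw [integral_fun_fst, s5t_st_lin]
  simp

theorem s5t_A_C1 (H : S5tData η w Q) (hd : 0 < d) :
    ∫ o, inner ℝ (s5tA η w d o) (s5tC1 Q d o) ∂(s5tPr η) = 0 := by
  have := s5k_prob H.spd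
  have := s5t_gam_prob n
  have hI := s5t_int_inner (s5t_A_memLp H hd) (s5t_C1_memLp H hd)
  unfold s5tPr at hI ⊢
  rw [integral_prod _ hI]
  refine integral_eq_zero_of_ae (Filter.Eventually.of_forall fun y => ?_)
  simp only [Pi.zero_apply]
  by_cases hy : Integrable (fun p : EE n × EE n => inner ℝ (s5tA η w d (y, p)) (s5tC1 Q d (y, p)))
      ((gam n).prod (gam n))
  · rw [integral_prod _ hy]
    refine integral_eq_zero_of_ae (Filter.Eventually.of_forall fun g0 => ?_)
    have e : ∀ g1 : EE n, inner ℝ (s5tA η w d (y, g0, g1)) (s5tC1 Q d (y, g0, g1))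
        = inner ℝ (Real.sqrt d • mv (Q y)ᵀ (postE (dm η) d w (y + Real.sqrt d • g0))) g1 := by
      intro g1
      simp only [s5tA, s5tC1, s5tU1]
      rw [inner_smul_right, inner_smul_left, s5t_inner_mv_left, Matrix.transpose_transpose]
      simp
    simp only [e, Pi.zero_apply]
    exact s5t_st_lin _
  · exact integral_undef hy

theorem s5t_A_C0 (H : S5tData η w Q) (hd : 0 < d) :
    ∫ o, inner ℝ (s5tA η w d o) (s5tC0 Q d o) ∂(s5tPr η) = d * s5tK η w Q d := by
  have hm : Measurable fun p : EE n × EE n =>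
      inner ℝ (postE (dm η) d w (p.1 + Real.sqrt d • p.2)) (mv (Q p.1) p.2) := by
    have h1 : Measurable fun p : EE n × EE n => postE (dm η) d w (p.1 + Real.sqrt d • p.2) :=
      (s5t_h_cont H hd).measurable.comp (by fun_prop)
    have h2 : Measurable fun p : EE n × EE n => mv (Q p.1) p.2 :=
      s5t_mv_meas (fun i j => (H.Q_meas i j).comp measurable_fst) measurable_snd
    exact h1.inner h2
  have h := s5t_st_key H hd
  rw [← s5t_st_law0 H.spd, integral_map (by fun_prop) hm.aestronglyMeasurable] at h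
  have e : ∀ o : S5tOm n, inner ℝ (s5tA η w d o) (s5tC0 Q d o)
      = Real.sqrt d * inner ℝ (postE (dm η) d w (o.1 + Real.sqrt d • o.2.1)) (mv (Q o.1) o.2.1) := by
    intro o
    simp only [s5tA, s5tC0, s5tU1]
    rw [inner_smul_right]
  simp only [e]
  rw [integral_const_mul, h, ← mul_assoc, Real.mul_self_sqrt hd.le]

theorem s5t_B_C1 (H : S5tData η w Q) (hd : 0 < d) :
    ∫ o, inner ℝ (s5tB η w d o) (s5tC1 Q d o) ∂(s5tPr η) = d * s5tK η w Q (2 * d) := by
  have h2d : 0 < 2 * d := by positivity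
  have hB := s5t_B_memLp H hd
  have hmB : Measurable (s5tB η w d) := by
    unfold s5tB s5tU2
    exact (s5t_h_cont H h2d).measurable.comp (by fun_prop)
  have hmC0 : Measurable (s5tC0 Q d) := by
    unfold s5tC0
    have h1 : Measurable fun o : S5tOm n => o.2.1 := measurable_fst.comp measurable_snd
    exact (s5t_mv_meas (fun i j => (H.Q_meas i j).comp measurable_fst) h1).const_smul (Real.sqrt d)
  -- symmetry
  have hsym : ∫ o, inner ℝ (s5tB η w d o) (s5tC1 Q d o) ∂(s5tPr η)
      = ∫ o, inner ℝ (s5tB η w d o) (s5tC0 Q d o) ∂(s5tPr η) := by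
    conv_rhs => rw [← s5t_st_swap H.spd]
    rw [integral_map (by fun_prop) (hmB.inner hmC0).aestronglyMeasurable]
    refine integral_congr_ae (Filter.Eventually.of_forall fun o => ?_)
    simp only [s5tB, s5tC0, s5tC1, s5tU2]
    rw [add_right_comm]
  -- the sum
  have hsum : ∫ o, inner ℝ (s5tB η w d o) (s5tC0 Q d o) ∂(s5tPr η)
      + ∫ o, inner ℝ (s5tB η w d o) (s5tC1 Q d o) ∂(s5tPr η) = 2 * d * s5tK η w Q (2 * d) := by
    rw [← integral_add (s5t_int_inner hB (s5t_C0_memLp H hd)) (s5t_int_inner hB (s5t_C1_memLp H hd))]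
    have hm : Measurable fun q : EE n × EE n =>
        inner ℝ (postE (dm η) (2 * d) w q.2) (mv (Q q.1) (q.2 - q.1)) := by
      have h1 : Measurable fun q : EE n × EE n => postE (dm η) (2 * d) w q.2 :=
        (s5t_h_cont H h2d).measurable.comp measurable_snd
      have h2 : Measurable fun q : EE n × EE n => mv (Q q.1) (q.2 - q.1) :=
        s5t_mv_meas (fun i j => (H.Q_meas i j).comp measurable_fst)
          (measurable_snd.sub measurable_fst)
      exact h1.inner h2
    have e : ∀ o : S5tOm n, inner ℝ (s5tB η w d o) (s5tC0 Q d o)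
        + inner ℝ (s5tB η w d o) (s5tC1 Q d o)
        = (fun q : EE n × EE n => inner ℝ (postE (dm η) (2 * d) w q.2) (mv (Q q.1) (q.2 - q.1)))
            (o.1, s5tU2 d o) := by
      intro o
      simp only [s5tB, s5tC0, s5tC1, s5tU2]
      rw [← inner_add_right, ← s5t_mv_smul, ← s5t_mv_smul, ← s5t_mv_add]
      congr 2
      abel
    have hU : Measurable fun o : S5tOm n => (o.1, s5tU2 d o) := by
      unfold s5tU2
      fun_prop
    have e1 : ∫ o, (inner ℝ (s5tB η w d o) (s5tC0 Q d o) + inner ℝ (s5tB η w d o) (s5tC1 Q d o))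
          ∂(s5tPr η)
        = ∫ q, inner ℝ (postE (dm η) (2 * d) w q.2) (mv (Q q.1) (q.2 - q.1))
          ∂((s5tPr η).map fun o => (o.1, s5tU2 d o)) := by
      rw [integral_map hU.aemeasurable hm.aestronglyMeasurable]
      exact integral_congr_ae (Filter.Eventually.of_forall e)
    rw [e1, s5t_law_YU2 H.spd hd.le, s5tJ, integral_map (by fun_prop) hm.aestronglyMeasurable]
    have e2 : ∀ p : EE n × EE n,
        inner ℝ (postE (dm η) (2 * d) w (p.1 + Real.sqrt (2 * d) • p.2))
          (mv (Q p.1) (p.1 + Real.sqrt (2 * d) • p.2 - p.1))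
        = Real.sqrt (2 * d) * inner ℝ (postE (dm η) (2 * d) w (p.1 + Real.sqrt (2 * d) • p.2))
          (mv (Q p.1) p.2) := by
      intro p
      rw [add_sub_cancel_left, s5t_mv_smul, inner_smul_right]
    simp only [e2]
    rw [integral_const_mul, s5t_st_key H h2d, ← mul_assoc, Real.mul_self_sqrt h2d.le]
  linarith

end Claimed.Agent.R259
end

/- ===== packed: Claimed.Agent.R259.S5TailKey ===== -/
section
/-
Row 259 (S0499), package BP-S5-tails: the KEY identities for the two increments.  GLUE (proved).  Owner: helper125.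
  `E|W - A + C₀|² = ‖w‖² - E(d) + d ‖Q‖² - 2 d κ(d)`,   `E|A - B + C₁|² = E(d) - E(2d) + d ‖Q‖² - 2 d κ(2d)`.
-/
set_option autoImplicit false

open MeasureTheory ProbabilityTheory
open scoped ContDiff BigOperators Matrix
open Claimed.Agent.R260 (Mx)

namespace Claimed.Agent.R259

variable {n : ℕ} {η : EE n → ℝ} {w : EE n → EE n} {Q : EE n → Mx n} {d : ℝ}

/-- `E⟨W, A⟩ = E|A|²` -/
theorem s5t_W_A (H : S5tData η w Q) (hd : 0 < d) :
    ∫ o, inner ℝ (s5tW w o) (s5tA η w d o) ∂(s5tPr η) = s5tE η w d := by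
  have hA := s5t_A_memLp H hd
  have h := s5t_pm1 H hd (Ψ := fun p => postE (dm η) d w p.1)
    ((s5t_h_cont H hd).measurable.comp measurable_fst) hA
  have h2 := s5t_inner_eq_of_sub (s5t_W_memLp H) hA hA h
  rw [h2, ← s5t_A_norm H hd]
  simp_rw [real_inner_self_eq_norm_sq]

/-- `E⟨A, B⟩ = E|B|²` -/
theorem s5t_A_B (H : S5tData η w Q) (hd : 0 < d) :
    ∫ o, inner ℝ (s5tA η w d o) (s5tB η w d o) ∂(s5tPr η) = s5tE η w (2 * d) := by
  have hA := s5t_A_memLp H hd
  have hB := s5t_B_memLp H hd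
  have hW := s5t_W_memLp H
  have h2d : 0 < 2 * d := by positivity
  have h1 := s5t_pm1 H hd (Ψ := fun p => postE (dm η) (2 * d) w (p.1 + Real.sqrt d • p.2))
    ((s5t_h_cont H h2d).measurable.comp (by fun_prop)) hB
  have h2 := s5t_pm2 H hd (Ψ := postE (dm η) (2 * d) w) (s5t_h_cont H h2d).measurable hB
  have e1 := s5t_inner_eq_of_sub hW hA hB h1
  have e2 := s5t_inner_eq_of_sub hW hB hB h2
  rw [← e1, e2, ← s5t_B_norm H hd]
  simp_rw [real_inner_self_eq_norm_sq]

/-- KEY identity, first increment -/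
theorem s5t_key0 (H : S5tData η w Q) (hd : 0 < d) :
    s5tK0 η w Q d = nSq η w - s5tE η w d + d * s5tN η Q - 2 * (d * s5tK η w Q d) := by
  unfold s5tK0
  rw [s5t_expand (s5t_W_memLp H) (s5t_A_memLp H hd) (s5t_C0_memLp H hd), s5t_W_norm H,
    s5t_A_norm H hd, s5t_C0_norm H hd, s5t_W_A H hd, s5t_W_C0 H hd, s5t_A_C0 H hd]
  ring

/-- KEY identity, second increment -/
theorem s5t_key1 (H : S5tData η w Q) (hd : 0 < d) :
    s5tK1 η w Q d = s5tE η w d - s5tE η w (2 * d) + d * s5tN η Q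
      - 2 * (d * s5tK η w Q (2 * d)) := by
  unfold s5tK1
  rw [s5t_expand (s5t_A_memLp H hd) (s5t_B_memLp H hd) (s5t_C1_memLp H hd), s5t_A_norm H hd,
    s5t_B_norm H hd, s5t_C1_norm H hd, s5t_A_B H hd, s5t_A_C1 H hd, s5t_B_C1 H hd]
  ring

end Claimed.Agent.R259
end

/- ===== packed: Claimed.Agent.R259.S5TailCov ===== -/
section
/-
Row 259 (S0499), package BP-S5-tails: the conditional covariance matrix (leaf L-s5t-cov).
Blueprint: helper125.  PROVED (helper54), modulo the black boxes of S5TailLaw / S5TailL2 / S5TailMx.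
Extra exports: `s5t_cov_entry`, `s5t_cov_quad`, `s5t_cov_symm`, `s5t_cov_trP`, `s5t_cov_mean`, `s5t_cov_comp_memLp`, `s5t_cov_prod_int`.

Tools: `postE = hpost` by `rfl`; posterior laws `hpm ν r u` with `db_hpm_prob`, `db_hpm_integral`, `db_hpm_integrable`, `db_tower`,
`dbt_hpost_continuous` (DbTower, all proved).  `C(u) = postCovMx (dm η) r w u`, `h = postE (dm η) r w`, `π_u = hpm (dm η) r u`.
* `C(u)_{ab} = ∫ (w_a - h_a(u)) (w_b - h_b(u)) dπ_u`: symmetric, PSD (`v ⬝ C v = ∫ ⟨v, w - h(u)⟩² dπ_u ≥ 0`, `mk_psd_iff`).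
* entries are continuous in `u`, so `RM`.
* `tr C(u) = postE |w|² (u) - |h(u)|²`, integrable against `dm (gconv (dm η) r)` (`db_tower`, `db_hpost_memLp`).
* for a projection `P`:  `tr(P C(u)) = ∫ ‖mv P (w y - h u)‖² dπ_u(y)`; then `∫ (∫ F(y,u) dπ_u(y)) p(u) du = ∫ F dJ_r` (`gc_joint`), and
  `s5t_law_YU2` transports `J_{2d}` to `s5tPr η`.   `0 ≤ tr(P C) ≤ tr C` gives the integrability.
-/
set_option autoImplicit false

open MeasureTheory ProbabilityTheory
open scoped ContDiff BigOperators Matrix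
open Claimed.Agent.R260 (Mx)

namespace Claimed.Agent.R259

variable {n : ℕ} {η : EE n → ℝ} {w : EE n → EE n} {Q : EE n → Mx n} {d : ℝ}

/-- components of an `L²` field -/
theorem s5t_cov_comp_memLp {Ω : Type} [MeasurableSpace Ω] {ν : Measure Ω} {F : Ω → EE n}
    (hF : MemLp F 2 ν) (a : Fin n) : MemLp (fun y => F y a) 2 ν :=
  (EuclideanSpace.proj (𝕜 := ℝ) a).comp_memLp' hF

theorem s5t_cov_prod_int (H : S5tData η w Q) (a b : Fin n) :
    Integrable (fun y => w y a * w y b) (dm η) :=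
  (s5t_cov_comp_memLp H.w_L2 a).integrable_mul (s5t_cov_comp_memLp H.w_L2 b)

/-- the component of the posterior mean -/
theorem s5t_cov_mean (H : S5tData η w Q) {r : ℝ} (hr : 0 < r) (u : EE n) (a : Fin n) :
    ∫ y, w y a ∂(hpm (dm η) r u) = postE (dm η) r w u a := by
  have := s5k_prob H.spd
  have hw : Integrable w (hpm (dm η) r u) := db_hpm_integrable hr u (H.w_L2.integrable one_le_two)
  have h := (EuclideanSpace.proj (𝕜 := ℝ) a).integral_comp_comm hw
  rw [db_hpm_integral hr u w] at h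
  exact h

/-- `C(u)_{ab} = ∫ (w_a - h_a(u)) (w_b - h_b(u)) dπ_u` -/
theorem s5t_cov_entry (H : S5tData η w Q) {r : ℝ} (hr : 0 < r) (u : EE n) (a b : Fin n) :
    Integrable (fun y => (w y - postE (dm η) r w u) a * (w y - postE (dm η) r w u) b)
      (hpm (dm η) r u) ∧
    postCovMx (dm η) r w u a b =
      ∫ y, (w y - postE (dm η) r w u) a * (w y - postE (dm η) r w u) b ∂(hpm (dm η) r u) := by
  have := s5k_prob H.spd
  have := db_hpm_prob (ν := dm η) hr u
  set h := postE (dm η) r w u with hh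
  have hw : Integrable w (hpm (dm η) r u) := db_hpm_integrable hr u (H.w_L2.integrable one_le_two)
  have hc : ∀ c : Fin n, Integrable (fun y => w y c) (hpm (dm η) r u) := fun c =>
    (EuclideanSpace.proj (𝕜 := ℝ) c).integrable_comp hw
  have hab : Integrable (fun y => w y a * w y b) (hpm (dm η) r u) :=
    db_hpm_integrable hr u (s5t_cov_prod_int H a b)
  have e : ∀ y, (w y - h) a * (w y - h) b
      = w y a * w y b - h b * w y a - h a * w y b + h a * h b := by
    intro y
    simp only [PiLp.sub_apply]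
    ring
  simp only [e]
  have i1 := hab.sub ((hc a).const_mul (h b))
  have i2 := i1.sub ((hc b).const_mul (h a))
  refine ⟨i2.add (integrable_const _), ?_⟩
  have e1 := integral_add i2 (integrable_const (h a * h b))
  have e2 := integral_sub i1 ((hc b).const_mul (h a))
  have e3 := integral_sub hab ((hc a).const_mul (h b))
  simp only [Pi.sub_apply] at e1 e2 e3
  rw [e1, e2, e3, integral_const_mul, integral_const_mul, s5t_cov_mean H hr, s5t_cov_mean H hr,
    db_hpm_integral hr u]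
  simp only [integral_const, probReal_univ, one_smul, postCovMx, Matrix.of_apply, ← hh]
  have : hpost (dm η) r (fun y => w y a * w y b) u = postE (dm η) r (fun y => w y a * w y b) u := rfl
  rw [this]
  ring

/-- quadratic functionals of the conditional covariance -/
theorem s5t_cov_quad (H : S5tData η w Q) {r : ℝ} (hr : 0 < r) (u : EE n) (M : Mx n) :
    Integrable (fun y => inner ℝ (w y - postE (dm η) r w u) (mv M (w y - postE (dm η) r w u)))
      (hpm (dm η) r u) ∧
    ∑ a, ∑ b, M a b * postCovMx (dm η) r w u a b =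
      ∫ y, inner ℝ (w y - postE (dm η) r w u) (mv M (w y - postE (dm η) r w u))
        ∂(hpm (dm η) r u) := by
  simp only [s5t_inner_mv]
  have hi : ∀ a b, Integrable (fun y => M a b *
      ((w y - postE (dm η) r w u) a * (w y - postE (dm η) r w u) b)) (hpm (dm η) r u) :=
    fun a b => (s5t_cov_entry H hr u a b).1.const_mul _
  refine ⟨integrable_finsetSum _ fun a _ => integrable_finsetSum _ fun b _ => hi a b, ?_⟩
  rw [integral_finsetSum _ fun a _ => integrable_finsetSum _ fun b _ => hi a b]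
  refine Finset.sum_congr rfl fun a _ => ?_
  rw [integral_finsetSum _ fun b _ => hi a b]
  refine Finset.sum_congr rfl fun b _ => ?_
  rw [integral_const_mul, (s5t_cov_entry H hr u a b).2]

theorem s5t_cov_symm (r : ℝ) (u : EE n) : (postCovMx (dm η) r w u).IsSymm := by
  ext a b
  simp only [Matrix.transpose_apply, postCovMx, Matrix.of_apply]
  rw [mul_comm (postE (dm η) r w u b)]
  congr 2
  funext y
  ring

theorem s5t_cov_psd (H : S5tData η w Q) {r : ℝ} (hr : 0 < r) (u : EE n) :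
    (postCovMx (dm η) r w u).PosSemidef := by
  rw [mk_psd_iff]
  refine ⟨s5t_cov_symm r u, fun v => ?_⟩
  have e : v ⬝ᵥ (postCovMx (dm η) r w u *ᵥ v)
      = ∑ a, ∑ b, (Matrix.of fun a b => v a * v b : Mx n) a b * postCovMx (dm η) r w u a b := by
    simp only [dotProduct, Matrix.mulVec, Matrix.of_apply, Finset.mul_sum]
    exact Finset.sum_congr rfl fun a _ => Finset.sum_congr rfl fun b _ => by ring
  rw [e, (s5t_cov_quad H hr u _).2]
  refine integral_nonneg fun y => ?_
  simp only [s5t_inner_mv, Matrix.of_apply]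
  set z := w y - postE (dm η) r w u
  have : ∑ a, ∑ b, v a * v b * (z a * z b) = (∑ a, v a * z a) ^ 2 := by
    rw [sq, Finset.sum_mul_sum]
    exact Finset.sum_congr rfl fun a _ => Finset.sum_congr rfl fun b _ => by ring
  rw [this]
  positivity

theorem s5t_cov_RM (H : S5tData η w Q) {r : ℝ} (hr : 0 < r) : RM (postCovMx (dm η) r w) := by
  have := s5k_prob H.spd
  intro a b
  have h1 : Continuous (postE (dm η) r (fun y => w y a * w y b)) :=
    dbt_hpost_continuous (ν := dm η) hr (s5t_cov_prod_int H a b)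
  have h2 := s5t_h_cont H hr
  have hc : ∀ c : Fin n, Continuous fun u => postE (dm η) r w u c := fun c =>
    (EuclideanSpace.proj (𝕜 := ℝ) c).continuous.comp h2
  exact (h1.sub ((hc a).mul (hc b))).measurable

theorem s5t_cov_trace_int (H : S5tData η w Q) {r : ℝ} (hr : 0 < r) :
    Integrable (fun u => Matrix.trace (postCovMx (dm η) r w u)) (dm (gconv (dm η) r)) := by
  have := s5k_prob H.spd
  simp only [Matrix.trace, Matrix.diag_apply, postCovMx, Matrix.of_apply]
  refine integrable_finsetSum _ fun a _ => ?_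
  have h1 : Integrable (postE (dm η) r (fun y => w y a * w y a)) (dm (gconv (dm η) r)) :=
    (db_tower (ν := dm η) hr (s5t_cov_prod_int H a a)).1
  have h2 : MemLp (postE (dm η) r w) 2 (dm (gconv (dm η) r)) := db_hpost_memLp (ν := dm η) hr H.w_L2
  have h3 := s5t_cov_comp_memLp h2 a
  exact h1.sub (h3.integrable_mul h3)

/-- `tr(P C(u)) = ∫ ‖P (w - h(u))‖² dπ_u` for a projection `P` -/
theorem s5t_cov_trP (H : S5tData η w Q) {r : ℝ} (hr : 0 < r) (u : EE n) {P : Mx n}
    (hP : S5tPrj P) :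
    Matrix.trace (P * postCovMx (dm η) r w u) =
      ∫ y, ‖mv P (w y - postE (dm η) r w u)‖ ^ 2 ∂(hpm (dm η) r u) := by
  have e : Matrix.trace (P * postCovMx (dm η) r w u)
      = ∑ a, ∑ b, P a b * postCovMx (dm η) r w u a b := by
    simp only [Matrix.trace, Matrix.diag_apply, Matrix.mul_apply]
    refine Finset.sum_congr rfl fun a _ => Finset.sum_congr rfl fun b _ => ?_
    rw [← (s5t_cov_symm (η := η) (w := w) r u).apply a b]
  rw [e, (s5t_cov_quad H hr u P).2]
  refine integral_congr_ae (Filter.Eventually.of_forall fun y => ?_)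
  simp only
  rw [← real_inner_self_eq_norm_sq, s5t_prj_inner hP]

theorem s5t_cov_trP_int (H : S5tData η w Q) {r : ℝ} (hr : 0 < r) {P : EE n → Mx n} (hP : RM P)
    (hp : ∀ u, S5tPrj (P u)) :
    Integrable (fun u => Matrix.trace (P u * postCovMx (dm η) r w u)) (dm (gconv (dm η) r)) := by
  refine (s5t_cov_trace_int H hr).mono' (hP.mul (s5t_cov_RM H hr)).meas_trace.aestronglyMeasurable
    (Filter.Eventually.of_forall fun u => ?_)
  have hC := s5t_cov_psd H hr u
  have h0 := mk_trace_mul_nonneg (s5t_prj_psd (hp u)) hC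
  rw [Real.norm_eq_abs, abs_of_nonneg h0, Matrix.trace_mul_comm]
  have h1 := mk_trace_mul_mono hC (s5t_prj_psd (s5t_prj_one_sub (hp u)))
  rwa [Matrix.mul_one] at h1

theorem s5t_cov_tail_int (H : S5tData η w Q) {r : ℝ} (hr : 0 < r) {a : ℝ} (ha : 0 ≤ a) :
    Integrable (fun u => tailTr a (postCovMx (dm η) r w u)) (dm (gconv (dm η) r)) := by
  refine (s5t_cov_trace_int H hr).mono'
    (s5t_tailTr_meas a (s5t_cov_RM H hr) fun u => s5t_cov_symm r u).aestronglyMeasurable
    (Filter.Eventually.of_forall fun u => ?_)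
  rw [Real.norm_eq_abs, abs_of_nonneg (s5t_tailTr_nonneg ha _)]
  exact s5t_tailTr_le_trace ha (s5t_cov_psd H hr u)

/-- `E tr(P(U₂) C_{2d}(U₂)) = E|P(U₂)(W - B)|²` -/
theorem s5t_cov (H : S5tData η w Q) (hd : 0 < d) {P : EE n → Mx n} (hP : RM P)
    (hp : ∀ u, S5tPrj (P u)) :
    ∫ u, Matrix.trace (P u * postCovMx (dm η) (2 * d) w u) ∂(dm (gconv (dm η) (2 * d)))
      = ∫ o, ‖mv (P (s5tU2 d o)) (s5tW w o - s5tB η w d o)‖ ^ 2 ∂(s5tPr η) := by
  have hd2 : 0 < 2 * d := by positivity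
  have hlaw := s5t_law_YU2 H.spd hd.le
  have hT : Measurable (fun o : S5tOm n => (o.1, s5tU2 d o)) := by
    unfold s5tU2; fun_prop
  have hL : MemLp (fun q : EE n × EE n => mv (P q.2) (w q.1 - postE (dm η) (2 * d) w q.2)) 2
      (s5tJ η (2 * d)) :=
    s5t_mv_memLp (P := fun q : EE n × EE n => P q.2) (hP.comp measurable_snd) (fun q => hp q.2)
      (s5t_pm_res_memLp H hd2)
  have hi := s5t_int_sq hL
  simp only [s5t_cov_trP H hd2 _ (hp _)]
  rw [← (s5t_pm_dis H.spd hd2 hi).2, ← hlaw, integral_map hT.aemeasurable (by rw [hlaw]; exact hi.1)]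
  rfl

end Claimed.Agent.R259
end

/- ===== packed: Claimed.Agent.R259.S5TailQV ===== -/
section
/-
Row 259 (S0499), package BP-S5-tails: the quadratic variation trick (leaf L-s5t-qv).
Blueprint: helper125.  LEAF FILE: the seat that claims the leaf owns this file, keeps names and statements
and replaces every `sorry` by a proof (helper lemmas with prefix `s5t_qv_` are welcome).  No paper needed.

PROOF.  `√d (G₀ - G₁) = √(2d) t` with `t = (G₀ - G₁)/√2`.  By `s5t_law_U2` the triple `((Y, U₂), t)` has the law `J_{2d} ⊗ γ`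
(`integral_map`, `integrable_map_measure`), so the integral is `∫_q ∫_t ‖mv (M q) (√(2d) t)‖² dγ(t) dJ(q) = 2d ∫ hs2 (M q) dJ(q)`
(`s5t_gam_mv`, `s5t_mv_smul`, `integral_prod`, `integrable_prod_iff`).
-/
set_option autoImplicit false

open MeasureTheory ProbabilityTheory
open scoped ContDiff BigOperators Matrix
open Claimed.Agent.R260 (Mx)

namespace Claimed.Agent.R259

variable {n : ℕ} {η : EE n → ℝ} {d : ℝ}

theorem s5t_qv (hη : SPD η) (hd : 0 < d) {M : EE n × EE n → Mx n} (hM : RM M)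
    (hi : Integrable (fun q => hs2 (M q)) (s5tJ η (2 * d))) :
    Integrable (fun o : S5tOm n => ‖mv (M (o.1, s5tU2 d o)) (Real.sqrt d • (o.2.1 - o.2.2))‖ ^ 2)
      (s5tPr η) ∧
    ∫ o, ‖mv (M (o.1, s5tU2 d o)) (Real.sqrt d • (o.2.1 - o.2.2))‖ ^ 2 ∂(s5tPr η)
      = 2 * d * ∫ q, hs2 (M q) ∂(s5tJ η (2 * d)) := by
  have := s5t_J_prob hη (2 * d)
  have := s5t_gam_prob n
  have := s5t_Pr_prob hη
  have h2d : (0 : ℝ) ≤ 2 * d := by linarith
  -- the map and the function
  set Φ : S5tOm n → (EE n × EE n) × EE n :=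
    fun o => ((o.1, s5tU2 d o), (Real.sqrt 2)⁻¹ • (o.2.1 - o.2.2)) with hΦ
  set F : (EE n × EE n) × EE n → ℝ := fun z => ‖mv (M z.1) (Real.sqrt (2 * d) • z.2)‖ ^ 2 with hF
  have hΦm : Measurable Φ := by
    rw [hΦ]
    unfold s5tU2
    fun_prop
  have hFm : Measurable F := by
    have h1 : Measurable fun z : (EE n × EE n) × EE n => mv (M z.1) (Real.sqrt (2 * d) • z.2) :=
      s5t_mv_meas (P := fun z : (EE n × EE n) × EE n => M z.1)
        (fun i j => (hM i j).comp measurable_fst) (by fun_prop)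
    exact h1.norm.pow_const 2
  have hlaw : (s5tPr η).map Φ = (s5tJ η (2 * d)).prod (gam n) := s5t_law_U2 hη hd.le
  have hFΦ : ∀ o, F (Φ o) = ‖mv (M (o.1, s5tU2 d o)) (Real.sqrt d • (o.2.1 - o.2.2))‖ ^ 2 := by
    intro o
    have hsq : Real.sqrt (2 * d) * (Real.sqrt 2)⁻¹ = Real.sqrt d := by
      have h2pos : (0 : ℝ) < Real.sqrt 2 := Real.sqrt_pos.2 (by norm_num)
      rw [Real.sqrt_mul (by norm_num)]
      field_simp
    simp only [hF, hΦ, smul_smul, hsq]
  have hFe : ∀ q t, F (q, t) = 2 * d * ‖mv (M q) t‖ ^ 2 := by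
    intro q t
    simp only [hF]
    rw [s5t_mv_smul, norm_smul, mul_pow, Real.norm_eq_abs, sq_abs, Real.sq_sqrt h2d]
  have hin : ∀ q, ∫ t, F (q, t) ∂(gam n) = 2 * d * hs2 (M q) := by
    intro q
    simp only [hFe]
    rw [integral_const_mul, (s5t_gam_mv (M q)).2]
  have hFi : Integrable F ((s5tJ η (2 * d)).prod (gam n)) := by
    rw [integrable_prod_iff hFm.aestronglyMeasurable]
    constructor
    · refine Filter.Eventually.of_forall fun q => ?_
      simp only [hFe]
      exact (s5t_gam_mv (M q)).1.const_mul _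
    · have e : (fun q => ∫ t, ‖F (q, t)‖ ∂(gam n)) = fun q => 2 * d * hs2 (M q) := by
        funext q
        rw [← hin q]
        refine integral_congr_ae (Filter.Eventually.of_forall fun t => ?_)
        show ‖F (q, t)‖ = F (q, t)
        rw [Real.norm_eq_abs, abs_of_nonneg]
        simp only [hF]
        positivity
      rw [e]
      exact hi.const_mul _
  constructor
  · have h1 : Integrable F ((s5tPr η).map Φ) := by rw [hlaw]; exact hFi
    have h2 := (integrable_map_measure hFm.aestronglyMeasurable hΦm.aemeasurable).1 h1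
    refine h2.congr (Filter.Eventually.of_forall fun o => ?_)
    exact hFΦ o
  · calc ∫ o, ‖mv (M (o.1, s5tU2 d o)) (Real.sqrt d • (o.2.1 - o.2.2))‖ ^ 2 ∂(s5tPr η)
        = ∫ o, F (Φ o) ∂(s5tPr η) := by simp only [hFΦ]
      _ = ∫ z, F z ∂((s5tPr η).map Φ) :=
          (integral_map hΦm.aemeasurable hFm.aestronglyMeasurable).symm
      _ = ∫ z, F z ∂((s5tJ η (2 * d)).prod (gam n)) := by rw [hlaw]
      _ = ∫ q, ∫ t, F (q, t) ∂(gam n) ∂(s5tJ η (2 * d)) := integral_prod F hFi
      _ = 2 * d * ∫ q, hs2 (M q) ∂(s5tJ η (2 * d)) := by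
          simp only [hin]
          rw [integral_const_mul]

end Claimed.Agent.R259
end

/- ===== packed: Claimed.Agent.R259.S5TailA ===== -/
section
/-
Row 259 (S0499), package BP-S5-tails: lower bound of the conditional covariance along a measurable field of projections
(part (A) of the proof of TAILQ).  GLUE (proved).  Owner: helper125.
  `(d/2) E|P(U₂) Q(Y)|²_HS ≤ E tr(P C_{2d})(U₂) + E|W - A + C₀|² + E|A - B + C₁|²`.
-/
set_option autoImplicit false

open MeasureTheory ProbabilityTheory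
open scoped ContDiff BigOperators Matrix
open Claimed.Agent.R260 (Mx)

namespace Claimed.Agent.R259

variable {n : ℕ} {η : EE n → ℝ} {w : EE n → EE n} {Q : EE n → Mx n} {d : ℝ}

/-- functions of `Y` on the joint law -/
theorem s5t_J_fst_RL2 (H : S5tData η w Q) (r : ℝ) : RL2 (s5tJ η r) (fun q => Q q.1) := by
  intro i j
  have h := H.Q_L2 i j
  rw [← s5t_J_fst H.spd r] at h
  exact h.comp_of_map measurable_fst.aemeasurable

theorem s5t_J_fst_integral (hη : SPD η) (r : ℝ) {f : EE n → ℝ} (hf : Measurable f) :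
    ∫ q, f q.1 ∂(s5tJ η r) = ∫ y, f y ∂(dm η) := by
  rw [← s5t_J_fst hη r, integral_map measurable_fst.aemeasurable hf.aestronglyMeasurable]

theorem s5t_J_snd_integral (hη : SPD η) {r : ℝ} (hr : 0 < r) {f : EE n → ℝ} (hf : Measurable f) :
    ∫ q, f q.2 ∂(s5tJ η r) = ∫ u, f u ∂(dm (gconv (dm η) r)) := by
  rw [← s5t_J_snd hη hr, integral_map measurable_snd.aemeasurable hf.aestronglyMeasurable]

theorem s5t_J_snd_integrable (hη : SPD η) {r : ℝ} (hr : 0 < r) {f : EE n → ℝ} (hf : Measurable f) :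
    Integrable (fun q : EE n × EE n => f q.2) (s5tJ η r) ↔
      Integrable f (dm (gconv (dm η) r)) := by
  rw [← s5t_J_snd hη hr, integrable_map_measure hf.aestronglyMeasurable measurable_snd.aemeasurable]
  rfl

/-- the pointwise inequality behind part (A) -/
theorem s5t_partA_pt {P : Mx n} (hP : S5tPrj P) (W A B C0 C1 : EE n) :
    1 / 4 * ‖mv P (C0 - C1)‖ ^ 2 - ‖W - A + C0‖ ^ 2 - ‖A - B + C1‖ ^ 2 ≤
      ‖mv P (W - B)‖ ^ 2 - 2 * inner ℝ (W - A) (mv P (A - B)) := by
  have hx : ∀ x y : EE n, ‖y‖ ^ 2 ≤ 2 * ‖x + y‖ ^ 2 + 2 * ‖x‖ ^ 2 := by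
    intro x y
    have h := parallelogram_law_with_norm ℝ (x + y) x
    have e : x + y - x = y := by abel
    rw [e] at h
    nlinarith [norm_nonneg (x + y + x)]
  set x0 := mv P (W - A) with hx0
  set x1 := mv P (A - B) with hx1
  set y0 := mv P C0 with hy0
  set y1 := mv P C1 with hy1
  have e1 : mv P (W - B) = x0 + x1 := by
    rw [hx0, hx1, ← s5t_mv_add]
    congr 1
    abel
  have e2 : inner ℝ (W - A) x1 = inner ℝ x0 x1 := (s5t_prj_inner hP _ _).symm
  have e3 : mv P (C0 - C1) = y0 - y1 := s5t_mv_sub _ _ _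
  have e4 : ‖x0 + y0‖ ≤ ‖W - A + C0‖ := by
    rw [hx0, hy0, ← s5t_mv_add]
    exact s5t_prj_mv_le hP _
  have e5 : ‖x1 + y1‖ ≤ ‖A - B + C1‖ := by
    rw [hx1, hy1, ← s5t_mv_add]
    exact s5t_prj_mv_le hP _
  have e4' : ‖x0 + y0‖ ^ 2 ≤ ‖W - A + C0‖ ^ 2 := by gcongr
  have e5' : ‖x1 + y1‖ ^ 2 ≤ ‖A - B + C1‖ ^ 2 := by gcongr
  have p := parallelogram_law_with_norm ℝ y0 y1
  have h0 := hx x0 y0
  have h1 := hx x1 y1
  have e6 := norm_add_sq_real x0 x1
  rw [e1, e2, e3]
  nlinarith [sq_nonneg ‖y0 + y1‖]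

/-- PART (A) -/
theorem s5t_partA (H : S5tData η w Q) (hd : 0 < d) {P : EE n → Mx n} (hP : RM P)
    (hp : ∀ u, S5tPrj (P u)) :
    d / 2 * ∫ q, hs2 (P q.2 * Q q.1) ∂(s5tJ η (2 * d)) ≤
      ∫ u, Matrix.trace (P u * postCovMx (dm η) (2 * d) w u) ∂(dm (gconv (dm η) (2 * d)))
        + s5tK0 η w Q d + s5tK1 η w Q d := by
  have h2d : 0 < 2 * d := by positivity
  have hW := s5t_W_memLp H
  have hA := s5t_A_memLp H hd
  have hB := s5t_B_memLp H hd
  have hC0 := s5t_C0_memLp H hd
  have hC1 := s5t_C1_memLp H hd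
  have hU2 : Measurable (s5tU2 d : S5tOm n → EE n) := by unfold s5tU2; fun_prop
  have hPo : RM fun o : S5tOm n => P (s5tU2 d o) := hP.comp hU2
  have hpo : ∀ o : S5tOm n, S5tPrj (P (s5tU2 d o)) := fun o => hp _
  -- the cross term
  have hPa1 : MemLp (fun o => mv (P (s5tU2 d o)) (s5tA η w d o - s5tB η w d o)) 2 (s5tPr η) :=
    s5t_mv_memLp hPo hpo (hA.sub hB)
  have hcross : ∫ o, inner ℝ (s5tW w o - s5tA η w d o)
      (mv (P (s5tU2 d o)) (s5tA η w d o - s5tB η w d o)) ∂(s5tPr η) = 0 := by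
    refine s5t_pm1 H hd (Ψ := fun p => mv (P (p.1 + Real.sqrt d • p.2))
      (postE (dm η) d w p.1 - postE (dm η) (2 * d) w (p.1 + Real.sqrt d • p.2))) ?_ hPa1
    refine s5t_mv_meas (hP.comp (by fun_prop)) ?_
    exact ((s5t_h_cont H hd).measurable.comp measurable_fst).sub
      ((s5t_h_cont H h2d).measurable.comp (by fun_prop))
  -- the quadratic variation
  have hM : RM fun q : EE n × EE n => P q.2 * Q q.1 :=
    (hP.comp measurable_snd).mul (H.Q_meas.comp measurable_fst)
  have hMi : Integrable (fun q : EE n × EE n => hs2 (P q.2 * Q q.1)) (s5tJ η (2 * d)) := by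
    refine ((s5t_J_fst_RL2 H (2 * d)).integrable_hs2).mono' hM.meas_hs2.aestronglyMeasurable
      (Filter.Eventually.of_forall fun q => ?_)
    rw [Real.norm_eq_abs, abs_of_nonneg (hs2_nonneg _)]
    exact s5t_prj_hs2_le (hp _) _
  obtain ⟨hqi, hqv⟩ := s5t_qv H.spd hd hM hMi
  have eC : ∀ o : S5tOm n, mv (P (s5tU2 d o)) (s5tC0 Q d o - s5tC1 Q d o)
      = mv (P (s5tU2 d o) * Q o.1) (Real.sqrt d • (o.2.1 - o.2.2)) := by
    intro o
    unfold s5tC0 s5tC1
    rw [s5t_mv_mul, s5t_mv_smul (Q o.1), s5t_mv_sub (Q o.1), smul_sub]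
  -- integrate the pointwise inequality
  have hpt : ∀ o : S5tOm n,
      1 / 4 * ‖mv (P (s5tU2 d o) * Q o.1) (Real.sqrt d • (o.2.1 - o.2.2))‖ ^ 2
        - ‖s5tW w o - s5tA η w d o + s5tC0 Q d o‖ ^ 2
        - ‖s5tA η w d o - s5tB η w d o + s5tC1 Q d o‖ ^ 2 ≤
      ‖mv (P (s5tU2 d o)) (s5tW w o - s5tB η w d o)‖ ^ 2
        - 2 * inner ℝ (s5tW w o - s5tA η w d o)
          (mv (P (s5tU2 d o)) (s5tA η w d o - s5tB η w d o)) := by
    intro o
    rw [← eC]
    exact s5t_partA_pt (hpo o) _ _ _ _ _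
  have i1 := hqi.const_mul (1 / 4)
  have i2 := s5t_int_sq ((hW.sub hA).add hC0)
  have i3 := s5t_int_sq ((hA.sub hB).add hC1)
  have i4 := s5t_int_sq (s5t_mv_memLp hPo hpo (hW.sub hB))
  have i5 := (s5t_int_inner (hW.sub hA) hPa1).const_mul 2
  have hint := integral_mono ((i1.sub i2).sub i3) (i4.sub i5) hpt
  have l1 := integral_sub (i1.sub i2) i3
  have l2 := integral_sub i1 i2
  have l3 := integral_sub i4 i5
  simp only [Pi.sub_apply, Pi.add_apply] at l1 l2 l3 hint
  rw [l1, l2, l3, integral_const_mul, integral_const_mul, hqv] at hint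
  rw [hcross, ← s5t_cov H hd hP hp] at hint
  unfold s5tK0 s5tK1
  linarith

end Claimed.Agent.R259
end

/- ===== packed: Claimed.Agent.R259.S5TailBes ===== -/
section
/-
Row 259 (S0499), package BP-S5-tails: the `U`-measurable approximant `X` of `Q(Y)` (leaf L-s5t-bes).
Blueprint: helper125.  LEAF FILE: the seat that claims the leaf owns this file, keeps names and statements
and replaces every `sorry` by a proof (helper lemmas with prefix `s5t_bes_` are welcome).  No paper needed.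
Proved by helper297.

PROOF of `s5t_bes`.  `Zf = A - B + C₁ ∈ L²(s5tPr η)` (`S5TailL2.lean`).  By Fubini, for a.e. `(y, g₀)` (law `dm η ⊗ γ`) the functions
`g₁ ↦ B(y,g₀,g₁)` and `g₁ ↦ Zf(y,g₀,g₁)` are in `L²(γ)`.  For such `(y, g₀)`, `u = y + √d g₀`:
`∫ Zf_a g_b dγ(g) = h_d(u)_a ∫ g_b - ∫ h_{2d}(u + √d g)_a g_b dγ + √d ∑_c Q_ac(y) ∫ g_c g_b dγ = √d (Q(y) - X(u))_{ab}`,
so by `s5t_bessel1`:  `d hs2 (Q y - X u) ≤ ∫ ‖Zf‖² dγ(g₁)`.  Integrate in `(y, g₀)`; `s5tJ η d` is by definition the image of `dm η ⊗ γ`.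
Integrability: measurable (`s5t_X_RM`) and dominated by the integrable function `(y,g₀) ↦ d⁻¹ ∫ ‖Zf‖² dγ`.
`s5t_bessel1`: Bessel inequality for the orthonormal system `g_b` in `L²(γ)`, componentwise (`s5b_hm_bessel` with `J = 1`, or `hm_bessel 1`, or
directly: `0 ≤ ∫ (f_a - ∑_b c_ab g_b)²`).
`s5t_X_RM`: `StronglyMeasurable.integral_prod_right` (the integrand is jointly continuous).
-/
set_option autoImplicit false

open MeasureTheory ProbabilityTheory
open scoped ContDiff BigOperators Matrix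
open Claimed.Agent.R260 (Mx)

namespace Claimed.Agent.R259

variable {n : ℕ} {η : EE n → ℝ} {w : EE n → EE n} {Q : EE n → Mx n} {d : ℝ}

/-! ### first and second moments of the standard Gaussian -/

theorem s5t_bes_coord_memLp (b : Fin n) : MemLp (fun g : EE n => g b) 2 (gam n) := by
  rw [gam_eq_std]
  exact IsGaussian.memLp_dual (stdGaussian (EE n)) (EuclideanSpace.proj b) 2 (by simp)

theorem s5t_bes_coord_mean (b : Fin n) : ∫ g : EE n, g b ∂(gam n) = 0 := by
  rw [gam_eq_std]
  exact integral_strongDual_stdGaussian (EuclideanSpace.proj b)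

theorem s5t_bes_coord_mul (b c : Fin n) :
    ∫ g : EE n, g b * g c ∂(gam n) = if b = c then 1 else 0 := by
  rw [gam_eq_std]
  have h := covarianceBilin_apply (μ := stdGaussian (EE n)) IsGaussian.memLp_two_id
    (EuclideanSpace.basisFun (Fin n) ℝ b) (EuclideanSpace.basisFun (Fin n) ℝ c)
  rw [covarianceBilin_stdGaussian] at h
  simp only [id_eq, integral_id_stdGaussian, sub_zero, EuclideanSpace.basisFun_inner] at h
  rw [← h, innerSL_apply_apply ℝ, (EuclideanSpace.basisFun (Fin n) ℝ).inner_eq_ite]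

/-- scalar Bessel inequality for the first chaos -/
theorem s5t_bes_scalar {φ : EE n → ℝ} (hφ : MemLp φ 2 (gam n)) :
    ∑ b, (∫ g, φ g * g b ∂(gam n)) ^ 2 ≤ ∫ g, φ g ^ 2 ∂(gam n) := by
  set c : Fin n → ℝ := fun b => ∫ g, φ g * g b ∂(gam n) with hc
  have hint : ∀ b, Integrable (fun g : EE n => φ g * g b) (gam n) := fun b =>
    hφ.integrable_mul (s5t_bes_coord_memLp b)
  have hint2 : ∀ b b', Integrable (fun g : EE n => g b * g b') (gam n) := fun b b' =>
    (s5t_bes_coord_memLp b).integrable_mul (s5t_bes_coord_memLp b')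
  have hsq : Integrable (fun g => φ g ^ 2) (gam n) := hφ.integrable_sq
  have e : ∀ g : EE n, (φ g - ∑ b, c b * g b) ^ 2
      = φ g ^ 2 - 2 * ∑ b, c b * (φ g * g b) + ∑ b, ∑ b', c b * c b' * (g b * g b') := by
    intro g
    have e1 : ∑ b, c b * (φ g * g b) = φ g * ∑ b, c b * g b := by
      rw [Finset.mul_sum]
      exact Finset.sum_congr rfl fun b _ => by ring
    have e2 : ∑ b, ∑ b', c b * c b' * (g b * g b') = (∑ b, c b * g b) * ∑ b, c b * g b := by
      rw [Finset.sum_mul_sum]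
      exact Finset.sum_congr rfl fun b _ => Finset.sum_congr rfl fun b' _ => by ring
    rw [e1, e2]
    ring
  have i2 : Integrable (fun g : EE n => ∑ b, c b * (φ g * g b)) (gam n) :=
    integrable_finsetSum _ fun b _ => (hint b).const_mul _
  have i3 : Integrable (fun g : EE n => ∑ b, ∑ b', c b * c b' * (g b * g b')) (gam n) :=
    integrable_finsetSum _ fun b _ => integrable_finsetSum _ fun b' _ => (hint2 b b').const_mul _
  have I2 : ∫ g : EE n, ∑ b, c b * (φ g * g b) ∂(gam n) = ∑ b, c b ^ 2 := by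
    rw [integral_finsetSum _ fun b _ => (hint b).const_mul _]
    refine Finset.sum_congr rfl fun b _ => ?_
    rw [integral_const_mul, sq]
  have I3 : ∫ g : EE n, ∑ b, ∑ b', c b * c b' * (g b * g b') ∂(gam n) = ∑ b, c b ^ 2 := by
    rw [integral_finsetSum _ fun b _ => integrable_finsetSum _ fun b' _ =>
      (hint2 b b').const_mul _]
    refine Finset.sum_congr rfl fun b _ => ?_
    rw [integral_finsetSum _ fun b' _ => (hint2 b b').const_mul _]
    simp_rw [integral_const_mul, s5t_bes_coord_mul]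
    simp [sq]
  have h0 : 0 ≤ ∫ g, (φ g - ∑ b, c b * g b) ^ 2 ∂(gam n) := integral_nonneg fun g => sq_nonneg _
  simp_rw [e] at h0
  have e1 := integral_add (hsq.sub (i2.const_mul 2)) i3
  have e2 := integral_sub hsq (i2.const_mul 2)
  simp only [Pi.sub_apply] at e1
  rw [e1, e2, integral_const_mul, I2, I3] at h0
  linarith

theorem s5t_bes_proj_memLp {Ω : Type} [MeasurableSpace Ω] {ν : Measure Ω} {f : Ω → EE n}
    (hf : MemLp f 2 ν) (a : Fin n) : MemLp (fun g => f g a) 2 ν :=
  (EuclideanSpace.proj (𝕜 := ℝ) a).comp_memLp' hf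

/-- Bessel inequality for the first chaos -/
theorem s5t_bessel1 {f : EE n → EE n} (hf : MemLp f 2 (gam n)) :
    ∑ a, ∑ b, (∫ g, f g a * g b ∂(gam n)) ^ 2 ≤ ∫ g, ‖f g‖ ^ 2 ∂(gam n) := by
  have h1 : ∫ g, ‖f g‖ ^ 2 ∂(gam n) = ∑ a, ∫ g, f g a ^ 2 ∂(gam n) := by
    rw [← integral_finsetSum _ fun a _ => (s5t_bes_proj_memLp hf a).integrable_sq]
    refine integral_congr_ae (Filter.Eventually.of_forall fun g => ?_)
    simp only [EuclideanSpace.real_norm_sq_eq]
  rw [h1]
  exact Finset.sum_le_sum fun a _ => s5t_bes_scalar (s5t_bes_proj_memLp hf a)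

theorem s5t_X_RM {h : EE n → EE n} (hh : Continuous h) (r : ℝ) : RM (s5tX h r) := by
  have := s5t_gam_prob n
  intro a b
  have hc : Continuous fun p : EE n × EE n => h (p.1 + Real.sqrt r • p.2) a * p.2 b := by
    have h1 : Continuous fun p : EE n × EE n => h (p.1 + Real.sqrt r • p.2) :=
      hh.comp (by fun_prop)
    have h2 : Continuous fun p : EE n × EE n => h (p.1 + Real.sqrt r • p.2) a :=
      (EuclideanSpace.proj (𝕜 := ℝ) a).continuous.comp h1
    have h3 : Continuous fun p : EE n × EE n => p.2 b :=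
      (EuclideanSpace.proj (𝕜 := ℝ) b).continuous.comp continuous_snd
    exact h2.mul h3
  have hm := (hc.stronglyMeasurable.integral_prod_right' (ν := gam n)).measurable
  simp only [s5tX, Matrix.of_apply]
  exact hm.const_mul _

/-- the section estimate: Bessel for `g ↦ v - h(u + √d g) + √d M g` -/
theorem s5t_bes_section {h : EE n → EE n} (hh : Continuous h) (v u : EE n) (M : Mx n) (hd : 0 < d)
    (hq : Integrable (fun g => ‖v - h (u + Real.sqrt d • g) + Real.sqrt d • mv M g‖ ^ 2) (gam n)) :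
    d * hs2 (M - s5tX h d u)
      ≤ ∫ g, ‖v - h (u + Real.sqrt d • g) + Real.sqrt d • mv M g‖ ^ 2 ∂(gam n) := by
  have := s5t_gam_prob n
  have hsd : 0 < Real.sqrt d := Real.sqrt_pos.2 hd
  set f : EE n → EE n := fun g => v - h (u + Real.sqrt d • g) + Real.sqrt d • mv M g with hf
  have hfm : Measurable f := by
    refine (measurable_const.sub (hh.measurable.comp (by fun_prop))).add ?_
    exact (s5t_mv_meas (P := fun _ : EE n => M) (fun i j => measurable_const)
      measurable_id).const_smul (Real.sqrt d)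
  have hfL : MemLp f 2 (gam n) := (memLp_two_iff_integrable_sq_norm hfm.aestronglyMeasurable).2 hq
  -- the linear part
  have hlin : ∀ a, MemLp (fun g : EE n => ∑ c, M a c * g c) 2 (gam n) := fun a =>
    memLp_finsetSum _ fun c _ => (s5t_bes_coord_memLp c).const_mul _
  -- the nonlinear part
  have hφ : ∀ a, MemLp (fun g : EE n => h (u + Real.sqrt d • g) a) 2 (gam n) := by
    intro a
    have h1 : MemLp (fun g : EE n => v a + Real.sqrt d * ∑ c, M a c * g c - f g a) 2 (gam n) :=
      ((memLp_const (v a)).add ((hlin a).const_mul _)).sub (s5t_bes_proj_memLp hfL a)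
    have e : (fun g : EE n => v a + Real.sqrt d * ∑ c, M a c * g c - f g a)
        = fun g : EE n => h (u + Real.sqrt d • g) a := by
      funext g
      simp only [hf, PiLp.add_apply, PiLp.sub_apply, PiLp.smul_apply, s5t_mv_apply, smul_eq_mul]
      ring
    rwa [e] at h1
  have hcoef : ∀ a b, ∫ g, f g a * g b ∂(gam n) = Real.sqrt d * (M - s5tX h d u) a b := by
    intro a b
    have e : ∀ g : EE n, f g a * g b = v a * g b - h (u + Real.sqrt d • g) a * g b
        + Real.sqrt d * ∑ c, M a c * (g c * g b) := by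
      intro g
      simp only [hf, PiLp.add_apply, PiLp.sub_apply, PiLp.smul_apply, s5t_mv_apply, smul_eq_mul,
        Finset.mul_sum, Finset.sum_mul, add_mul, sub_mul]
      congr 1
      exact Finset.sum_congr rfl fun c _ => by ring
    have i1 : Integrable (fun g : EE n => v a * g b) (gam n) :=
      ((s5t_bes_coord_memLp b).integrable one_le_two).const_mul _
    have i2 : Integrable (fun g : EE n => h (u + Real.sqrt d • g) a * g b) (gam n) :=
      (hφ a).integrable_mul (s5t_bes_coord_memLp b)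
    have i3' : ∀ c, Integrable (fun g : EE n => M a c * (g c * g b)) (gam n) := fun c =>
      ((s5t_bes_coord_memLp c).integrable_mul (s5t_bes_coord_memLp b)).const_mul _
    have i3 : Integrable (fun g : EE n => Real.sqrt d * ∑ c, M a c * (g c * g b)) (gam n) :=
      (integrable_finsetSum _ fun c _ => i3' c).const_mul _
    simp_rw [e]
    have e1 := integral_add (i1.sub i2) i3
    have e2 := integral_sub i1 i2
    simp only [Pi.sub_apply] at e1
    rw [e1, e2, integral_const_mul, integral_const_mul, s5t_bes_coord_mean,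
      integral_finsetSum _ fun c _ => i3' c]
    simp_rw [integral_const_mul, s5t_bes_coord_mul]
    simp only [s5tX, Matrix.sub_apply, Matrix.of_apply, mul_ite, mul_one, mul_zero,
      Finset.sum_ite_eq', Finset.mem_univ, if_true]
    field_simp
    ring
  have hB := s5t_bessel1 hfL
  refine le_trans (le_of_eq ?_) hB
  unfold hs2
  rw [Finset.mul_sum]
  refine Finset.sum_congr rfl fun a _ => ?_
  rw [Finset.mul_sum]
  refine Finset.sum_congr rfl fun b _ => ?_
  rw [hcoef, mul_pow, Real.sq_sqrt hd.le]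

/-- `d E|Q(Y) - X(U_d)|² ≤ E|A - B + C₁|²`, `X = s5tX h_{2d} d` -/
theorem s5t_bes (H : S5tData η w Q) (hd : 0 < d) :
    Integrable (fun q : EE n × EE n => hs2 (Q q.1 - s5tX (postE (dm η) (2 * d) w) d q.2))
      (s5tJ η d) ∧
    d * ∫ q, hs2 (Q q.1 - s5tX (postE (dm η) (2 * d) w) d q.2) ∂(s5tJ η d) ≤ s5tK1 η w Q d := by
  have hprobJ := s5t_J_prob H.spd d
  have hprobG := s5t_gam_prob n
  set h1 := postE (dm η) d w with hh1
  set h2 := postE (dm η) (2 * d) w with hh2
  have h1c : Continuous h1 := s5t_h_cont H hd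
  have h2c : Continuous h2 := s5t_h_cont H (by positivity)
  set Z : (EE n × EE n) × EE n → EE n := fun p =>
    h1 p.1.2 - h2 (p.1.2 + Real.sqrt d • p.2) + Real.sqrt d • mv (Q p.1.1) p.2 with hZ
  set T : S5tOm n → (EE n × EE n) × EE n := fun o => ((o.1, s5tU1 d o), o.2.2) with hT
  have hTm : Measurable T := by
    rw [hT]
    unfold s5tU1
    fun_prop
  have hZm : Measurable Z := by
    refine ((h1c.measurable.comp (by fun_prop)).sub (h2c.measurable.comp (by fun_prop))).add ?_
    exact (s5t_mv_meas (P := fun p : (EE n × EE n) × EE n => Q p.1.1)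
      (fun i j => (H.Q_meas i j).comp (by fun_prop))
      (F := fun p : (EE n × EE n) × EE n => p.2) (by fun_prop)).const_smul (Real.sqrt d)
  have hZT : ∀ o, Z (T o) = s5tA η w d o - s5tB η w d o + s5tC1 Q d o := by
    intro o
    simp only [hZ, hT, s5tA, s5tB, s5tC1, s5tU1, s5tU2, hh1, hh2]
  have hL2 : MemLp (fun o => Z (T o)) 2 (s5tPr η) := by
    simp_rw [hZT]
    exact ((s5t_A_memLp H hd).sub (s5t_B_memLp H hd)).add (s5t_C1_memLp H hd)
  have hZL2 : MemLp Z 2 ((s5tJ η d).prod (gam n)) := by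
    rw [← s5t_law_U1 H.spd d]
    exact (memLp_map_measure_iff hZm.aestronglyMeasurable hTm.aemeasurable).2 hL2
  have hK1 : s5tK1 η w Q d = ∫ p, ‖Z p‖ ^ 2 ∂((s5tJ η d).prod (gam n)) := by
    rw [← s5t_law_U1 H.spd d, integral_map hTm.aemeasurable
      (hZm.norm.pow_const 2).aestronglyMeasurable]
    unfold s5tK1
    simp_rw [← hZT]
  have hZsq : Integrable (fun p => ‖Z p‖ ^ 2) ((s5tJ η d).prod (gam n)) := s5t_int_sq hZL2
  have hsec : ∀ᵐ q ∂(s5tJ η d), Integrable (fun g => ‖Z (q, g)‖ ^ 2) (gam n) :=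
    hZsq.prod_right_ae
  have hout : Integrable (fun q => ∫ g, ‖Z (q, g)‖ ^ 2 ∂(gam n)) (s5tJ η d) :=
    hZsq.integral_prod_left
  have hfub : ∫ p, ‖Z p‖ ^ 2 ∂((s5tJ η d).prod (gam n))
      = ∫ q, ∫ g, ‖Z (q, g)‖ ^ 2 ∂(gam n) ∂(s5tJ η d) := integral_prod _ hZsq
  have key : ∀ᵐ q ∂(s5tJ η d),
      d * hs2 (Q q.1 - s5tX h2 d q.2) ≤ ∫ g, ‖Z (q, g)‖ ^ 2 ∂(gam n) := by
    filter_upwards [hsec] with q hq
    exact s5t_bes_section h2c (h1 q.2) q.2 (Q q.1) hd hq
  have hXm := s5t_X_RM h2c d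
  have hmeas : Measurable fun q : EE n × EE n => hs2 (Q q.1 - s5tX h2 d q.2) := by
    unfold hs2
    refine Finset.measurable_sum _ fun a _ => Finset.measurable_sum _ fun b _ => ?_
    simp only [Matrix.sub_apply]
    exact (((H.Q_meas a b).comp measurable_fst).sub ((hXm a b).comp measurable_snd)).pow_const 2
  have hint : Integrable (fun q : EE n × EE n => hs2 (Q q.1 - s5tX h2 d q.2)) (s5tJ η d) := by
    refine (hout.const_mul d⁻¹).mono' hmeas.aestronglyMeasurable ?_
    filter_upwards [key] with q hq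
    rw [Real.norm_eq_abs, abs_of_nonneg (hs2_nonneg _), ← div_eq_inv_mul, le_div_iff₀ hd]
    linarith
  refine ⟨hint, ?_⟩
  rw [hK1, hfub, ← integral_const_mul]
  exact integral_mono_ae (hint.const_mul d) hout key

end Claimed.Agent.R259
end

/- ===== packed: Claimed.Agent.R259.S5TailC ===== -/
section
/-
Row 259 (S0499), package BP-S5-tails: absorption and transfer (parts (B), (C), (D) of the proof of TAILQ).
GLUE (proved).  Owner: helper125.
-/
set_option autoImplicit false

open MeasureTheory ProbabilityTheory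
open scoped ContDiff BigOperators Matrix
open Claimed.Agent.R260 (Mx)

namespace Claimed.Agent.R259

variable {n : ℕ} {η : EE n → ℝ} {w : EE n → EE n} {Q : EE n → Mx n} {d : ℝ}

/-- THE MAIN INEQUALITY of TAILQ for one datum: `r = 2d`, threshold `c = 2κ`. -/
theorem s5t_main_ineq (H : S5tData η w Q) (hd : 0 < d) {κ τ : ℝ} (hκ : 0 < κ)
    (htail : ∫ u, tailTr (d * κ ^ 2 / 8) (postCovMx (dm η) (2 * d) w u)
      ∂(dm (gconv (dm η) (2 * d))) ≤ τ) :
    ∫ y, tailTr (4 * κ ^ 2) (Q y * (Q y)ᵀ) ∂(dm η) ≤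
      40 * (s5tK1 η w Q (2 * d) / (2 * d))
        + 64 / d * (τ + s5tK0 η w Q d + s5tK1 η w Q d) := by
  have h2d : 0 < 2 * d := by positivity
  have h4d : 0 < 2 * (2 * d) := by positivity
  have hκ2 : 0 < κ ^ 2 := by positivity
  set X : EE n → Mx n := s5tX (postE (dm η) (2 * (2 * d)) w) (2 * d) with hX
  set P : EE n → Mx n := fun u => s5tP (κ ^ 2) (X u * (X u)ᵀ) with hPdef
  set C : EE n → Mx n := postCovMx (dm η) (2 * d) w with hC
  set J := s5tJ η (2 * d) with hJ
  set pm := dm (gconv (dm η) (2 * d)) with hpm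
  have hXm : RM X := s5t_X_RM (s5t_h_cont H h4d) _
  have hSs : ∀ u, (X u * (X u)ᵀ).IsSymm := fun u => mk_isSymm_of_psd (mk_psd_gram _)
  have hPm : RM P := s5t_P_RM _ (hXm.mul hXm.transpose) hSs
  have hp : ∀ u, S5tPrj (P u) := fun u => s5t_P_prj _ _
  obtain ⟨hbi, hbes⟩ := s5t_bes H h2d
  -- square integrable fields on `J`
  have hQJ : RL2 J (fun q => Q q.1) := s5t_J_fst_RL2 H _
  have hDm : RM fun q : EE n × EE n => Q q.1 - X q.2 :=
    (H.Q_meas.comp measurable_fst).sub (hXm.comp measurable_snd)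
  have hDJ : RL2 J (fun q => Q q.1 - X q.2) := RL2.of_hs2_le hDm hbi fun _ => le_rfl
  have hXJ : RL2 J (fun q => X q.2) := by
    have h := hQJ.sub hDJ
    have e : (fun q : EE n × EE n => Q q.1 - (Q q.1 - X q.2)) = fun q => X q.2 := by
      funext q
      abel
    rwa [e] at h
  have hPXm : RM fun u => P u * X u := hPm.mul hXm
  have hPXi : Integrable (fun q : EE n × EE n => hs2 (P q.2 * X q.2)) J := by
    refine hXJ.integrable_hs2.mono' (hPXm.comp measurable_snd).meas_hs2.aestronglyMeasurable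
      (Filter.Eventually.of_forall fun q => ?_)
    rw [Real.norm_eq_abs, abs_of_nonneg (hs2_nonneg _)]
    exact s5t_prj_hs2_le (hp _) _
  have hPQm : RM fun q : EE n × EE n => P q.2 * Q q.1 :=
    (hPm.comp measurable_snd).mul (H.Q_meas.comp measurable_fst)
  have hPQi : Integrable (fun q : EE n × EE n => hs2 (P q.2 * Q q.1)) J := by
    refine hQJ.integrable_hs2.mono' hPQm.meas_hs2.aestronglyMeasurable
      (Filter.Eventually.of_forall fun q => ?_)
    rw [Real.norm_eq_abs, abs_of_nonneg (hs2_nonneg _)]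
    exact s5t_prj_hs2_le (hp _) _
  set x := ∫ q, hs2 (P q.2 * X q.2) ∂J with hx
  set y := ∫ q, hs2 (P q.2 * Q q.1) ∂J with hy
  set bb := ∫ q, hs2 (Q q.1 - X q.2) ∂J with hbb
  set K := s5tK0 η w Q d + s5tK1 η w Q d with hK
  -- (1)
  have h1 : x ≤ 2 * y + 2 * bb := by
    have hpt : ∀ q : EE n × EE n, hs2 (P q.2 * X q.2) ≤
        2 * hs2 (P q.2 * Q q.1) + 2 * hs2 (Q q.1 - X q.2) := by
      intro q
      have e : P q.2 * X q.2 = P q.2 * Q q.1 - P q.2 * (Q q.1 - X q.2) := by
        rw [Matrix.mul_sub]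
        abel
      rw [e]
      have := hs2_sub_le (P q.2 * Q q.1) (P q.2 * (Q q.1 - X q.2))
      have := s5t_prj_hs2_le (hp q.2) (Q q.1 - X q.2)
      linarith
    have := integral_mono hPXi ((hPQi.const_mul 2).add (hbi.const_mul 2)) hpt
    rw [integral_add' (hPQi.const_mul 2) (hbi.const_mul 2), integral_const_mul,
      integral_const_mul] at this
    exact this
  -- (2)
  have h2 : d / 2 * y ≤ ∫ u, Matrix.trace (P u * C u) ∂pm + K := by
    have := s5t_partA H hd hPm hp
    rw [hK]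
    linarith
  -- (4)
  have hPXp : Integrable (fun u => hs2 (P u * X u)) pm :=
    (s5t_J_snd_integrable H.spd h2d hPXm.meas_hs2).mp hPXi
  have hxp : ∫ u, hs2 (P u * X u) ∂pm = x :=
    (s5t_J_snd_integral H.spd h2d hPXm.meas_hs2).symm
  have htrP : Integrable (fun u => Matrix.trace (P u)) pm := by
    refine (hPXp.const_mul (κ ^ 2)⁻¹).mono' hPm.meas_trace.aestronglyMeasurable
      (Filter.Eventually.of_forall fun u => ?_)
    rw [Real.norm_eq_abs, abs_of_nonneg (s5t_prj_trace_nonneg (hp u)), inv_mul_eq_div,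
      le_div_iff₀ hκ2, mul_comm]
    exact s5t_rank_le _ _
  have h4 : κ ^ 2 * ∫ u, Matrix.trace (P u) ∂pm ≤ x := by
    rw [← hxp, ← integral_const_mul]
    exact integral_mono (htrP.const_mul _) hPXp fun u => s5t_rank_le _ _
  -- (3)
  have ha : 0 ≤ d * κ ^ 2 / 8 := by positivity
  have h3 : ∫ u, Matrix.trace (P u * C u) ∂pm ≤
      d * κ ^ 2 / 8 * ∫ u, Matrix.trace (P u) ∂pm + τ := by
    have hti := s5t_cov_tail_int H h2d ha
    have := integral_mono (s5t_cov_trP_int H h2d hPm hp) ((htrP.const_mul _).add hti)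
      fun u => s5t_tr_le (s5t_cov_psd H h2d u) (hp u) ha
    rw [integral_add' (htrP.const_mul _) hti, integral_const_mul] at this
    linarith
  -- absorption
  have h5 : x ≤ 8 / d * (τ + K) + 4 * bb := by
    have e1 : d * κ ^ 2 / 8 * ∫ u, Matrix.trace (P u) ∂pm ≤ d / 8 * x := by
      have : d * κ ^ 2 / 8 * ∫ u, Matrix.trace (P u) ∂pm
          = d / 8 * (κ ^ 2 * ∫ u, Matrix.trace (P u) ∂pm) := by ring
      rw [this]
      exact mul_le_mul_of_nonneg_left h4 (by positivity)
    have e2 : d / 2 * y ≤ d / 8 * x + τ + K := by linarith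
    have e3 : y ≤ x / 4 + 2 / d * (τ + K) := by
      have : y = 2 / d * (d / 2 * y) := by field_simp
      rw [this]
      calc 2 / d * (d / 2 * y) ≤ 2 / d * (d / 8 * x + τ + K) :=
            mul_le_mul_of_nonneg_left e2 (by positivity)
        _ = x / 4 + 2 / d * (τ + K) := by field_simp; ring
    have e4 : 8 / d * (τ + K) = 4 * (2 / d * (τ + K)) := by ring
    rw [e4]
    linarith
  -- (5) transfer
  have hbb : bb ≤ s5tK1 η w Q (2 * d) / (2 * d) := by
    rw [le_div_iff₀ h2d, mul_comm]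
    exact hbes
  have hQQm : Measurable fun y => tailTr (4 * κ ^ 2) (Q y * (Q y)ᵀ) :=
    s5t_tailTr_meas _ (H.Q_meas.mul H.Q_meas.transpose)
      fun y => mk_isSymm_of_psd (mk_psd_gram _)
  have h6 : ∫ y, tailTr (4 * κ ^ 2) (Q y * (Q y)ᵀ) ∂(dm η) ≤ 8 * bb + 8 * x := by
    rw [← s5t_J_fst_integral H.spd (2 * d) hQQm]
    have hpt : ∀ q : EE n × EE n, tailTr (4 * κ ^ 2) (Q q.1 * (Q q.1)ᵀ) ≤
        8 * hs2 (Q q.1 - X q.2) + 8 * hs2 (P q.2 * X q.2) := by
      intro q
      have t1 := s5t_transfer hκ.le (Q q.1) ((1 - P q.2) * X q.2) (s5t_clip_le hκ2.le (X q.2))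
      have e : Q q.1 - (1 - P q.2) * X q.2 = (Q q.1 - X q.2) + P q.2 * X q.2 := by
        rw [Matrix.sub_mul, Matrix.one_mul]
        abel
      rw [e] at t1
      have := hs2_add_le (Q q.1 - X q.2) (P q.2 * X q.2)
      linarith
    have := integral_mono_of_nonneg
      (Filter.Eventually.of_forall fun q : EE n × EE n =>
        s5t_tailTr_nonneg (by positivity : (0 : ℝ) ≤ 4 * κ ^ 2) (Q q.1 * (Q q.1)ᵀ))
      ((hbi.const_mul 8).add (hPXi.const_mul 8)) (Filter.Eventually.of_forall hpt)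
    rw [integral_add' (hbi.const_mul 8) (hPXi.const_mul 8), integral_const_mul,
      integral_const_mul] at this
    exact this
  have e5 : 64 / d * (τ + s5tK0 η w Q d + s5tK1 η w Q d) = 8 * (8 / d * (τ + K)) := by
    rw [hK]
    ring
  rw [e5]
  linarith

end Claimed.Agent.R259
end
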