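/- Packed by merge_tool.py (helper293): 10 modules of Claimed.Agent.R259 in one file, same declarations.
   Old modules, in this order: S5BesHe, S5BesHm, S5BesSc, S5BesKer, S5BesFam, S5BesPost, S5BesMain, S5Bessel, S5TailIbpB, S5TailIbp -/
import Claimed.Agent.R259.Pack017
import Claimed.Agent.R259.Pack012
import Claimed.Agent.R259.Pack035
import Claimed.Agent.R259.Pack031
import Claimed.Agent.R259.Pack014

/- ===== packed: Claimed.Agent.R259.S5BesHe ===== -/
section
/-
Row 259 (S0499), Lemma 5.2: one dimensional Hermite polynomials (leaf L-s5b-he1).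
Blueprint owner: helper202.  LEAF FILE: the seat that claims the leaf owns this file, keeps names and
statements and replaces every `sorry` by a proof.

`he j x = aeval x (hermite j)` (HmDefs).  `φ(x) = (2π)^{-1/2} exp(-x²/2)` is written out.
PROOF of the orthogonality: Stein's identity `∫ (x p - p') q φ = ∫ p q' φ` for polynomials and
`hermite (k+1) = X * hermite k - derivative (hermite k)` (`Polynomial.hermite_succ`) give
`∫ he_j q φ = ∫ q^{(j)} φ`; `hermite k` is monic of degree `k` (`Polynomial.hermite_monic`,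
`Polynomial.natDegree_hermite`).
-/
set_option autoImplicit false

open MeasureTheory
open scoped ContDiff BigOperators

namespace Claimed.Agent.R259

/-- the Hermite polynomial with real coefficients -/
noncomputable def s5bHeP (j : ℕ) : Polynomial ℝ := (Polynomial.hermite j).map (algebraMap ℤ ℝ)

theorem s5b_he_eq (j : ℕ) (x : ℝ) : he j x = Polynomial.aeval x (s5bHeP j) := by
  unfold he s5bHeP
  rw [Polynomial.aeval_map_algebraMap]

theorem s5b_heP_natDegree (j : ℕ) : (s5bHeP j).natDegree = j := by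
  unfold s5bHeP
  rw [(Polynomial.hermite_monic j).natDegree_map, Polynomial.natDegree_hermite]

theorem s5b_heP_monic (j : ℕ) : (s5bHeP j).Monic := (Polynomial.hermite_monic j).map _

/-- polynomials are integrable against the Gaussian weight -/
theorem s5b_poly_integrable (p : Polynomial ℝ) :
    Integrable (fun x : ℝ => Polynomial.aeval x p * Real.exp (-(x ^ 2 / 2))) := by
  induction p using Polynomial.induction_on' with
  | add p q hp hq =>
    have h := hp.add hq
    refine h.congr (Filter.Eventually.of_forall fun x => ?_)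
    simp only [Pi.add_apply, map_add]
    ring
  | monomial n a =>
    have h := (integrable_rpow_mul_exp_neg_mul_sq (b := 1 / 2) (by norm_num) (s := (n : ℝ))
      (by have : (0 : ℝ) ≤ n := Nat.cast_nonneg n; linarith)).const_mul a
    refine h.congr (Filter.Eventually.of_forall fun x => ?_)
    simp only [Polynomial.aeval_monomial, Real.rpow_natCast, Algebra.algebraMap_self,
      RingHom.id_apply]
    have : -(1 / 2 : ℝ) * x ^ 2 = -(x ^ 2 / 2) := by ring
    rw [this]
    ring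

/-- `d/dx [He_k(x) e^{-x²/2}] = - He_{k+1}(x) e^{-x²/2}` -/
theorem s5b_he_deriv (k : ℕ) (x : ℝ) :
    HasDerivAt (fun t => he k t * Real.exp (-(t ^ 2 / 2)))
      (-(he (k + 1) x * Real.exp (-(x ^ 2 / 2)))) x := by
  have d1 : HasDerivAt (fun t => he k t)
      (Polynomial.aeval x (Polynomial.derivative (Polynomial.hermite k))) x :=
    Polynomial.hasDerivAt_aeval (Polynomial.hermite k) x
  have d2 : HasDerivAt (fun t : ℝ => Real.exp (-(t ^ 2 / 2)))
      (Real.exp (-(x ^ 2 / 2)) * (-x)) x := by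
    have d3 : HasDerivAt (fun t : ℝ => -(t ^ 2 / 2)) (-x) x := by
      have h := ((hasDerivAt_pow 2 x).div_const 2).neg
      refine h.congr_deriv ?_
      norm_num
    exact d3.exp
  refine (d1.mul d2).congr_deriv ?_
  have h : he (k + 1) x =
      x * he k x - Polynomial.aeval x (Polynomial.derivative (Polynomial.hermite k)) := by
    unfold he
    rw [Polynomial.hermite_succ, map_sub, map_mul, Polynomial.aeval_X]
  rw [h]
  ring

/-- `∫ He_j q e^{-x²/2} = ∫ q^{(j)} e^{-x²/2}` -/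
theorem s5b_he_stein (j : ℕ) (q : Polynomial ℝ) :
    ∫ x : ℝ, he j x * Polynomial.aeval x q * Real.exp (-(x ^ 2 / 2)) =
      ∫ x : ℝ, Polynomial.aeval x (Polynomial.derivative^[j] q) * Real.exp (-(x ^ 2 / 2)) := by
  induction j generalizing q with
  | zero =>
    refine integral_congr_ae (Filter.Eventually.of_forall fun x => ?_)
    simp [he]
  | succ j ih =>
    have hint : ∀ (i : ℕ) (p : Polynomial ℝ), Integrable
        (fun x : ℝ => Polynomial.aeval x p * (he i x * Real.exp (-(x ^ 2 / 2)))) := by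
      intro i p
      refine (s5b_poly_integrable (p * s5bHeP i)).congr (Filter.Eventually.of_forall fun x => ?_)
      simp only [map_mul, s5b_he_eq]
      ring
    have hibp := integral_mul_deriv_eq_deriv_mul_of_integrable
      (u := fun x : ℝ => Polynomial.aeval x q)
      (u' := fun x : ℝ => Polynomial.aeval x (Polynomial.derivative q))
      (v := fun x : ℝ => he j x * Real.exp (-(x ^ 2 / 2)))
      (v' := fun x : ℝ => -(he (j + 1) x * Real.exp (-(x ^ 2 / 2))))
      (fun x _ => Polynomial.hasDerivAt_aeval q x) (fun x _ => s5b_he_deriv j x)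
      (by
        refine (hint (j + 1) q).neg.congr (Filter.Eventually.of_forall fun x => ?_)
        simp only [Pi.neg_apply, Pi.mul_apply]
        ring)
      (hint j _) (hint j q)
    have h1 : ∫ x : ℝ, he (j + 1) x * Polynomial.aeval x q * Real.exp (-(x ^ 2 / 2)) =
        -∫ x : ℝ, Polynomial.aeval x q * -(he (j + 1) x * Real.exp (-(x ^ 2 / 2))) := by
      rw [← integral_neg]
      refine integral_congr_ae (Filter.Eventually.of_forall fun x => ?_)
      simp only
      ring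
    rw [h1, hibp, neg_neg, Function.iterate_succ_apply, ← ih]
    refine integral_congr_ae (Filter.Eventually.of_forall fun x => ?_)
    simp only
    ring

theorem s5b_gauss_integral : ∫ x : ℝ, Real.exp (-(x ^ 2 / 2)) = Real.sqrt (2 * Real.pi) := by
  have h := integral_gaussian (1 / 2)
  have h1 : (fun x : ℝ => Real.exp (-(1 / 2) * x ^ 2)) = fun x : ℝ => Real.exp (-(x ^ 2 / 2)) := by
    funext x
    congr 1
    ring
  rw [h1] at h
  rw [h]
  congr 1
  ring

/-- unnormalised orthogonality, `k < j` -/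
theorem s5b_he_orth_lt {j k : ℕ} (h : k < j) :
    ∫ x : ℝ, he j x * he k x * Real.exp (-(x ^ 2 / 2)) = 0 := by
  have h1 := s5b_he_stein j (s5bHeP k)
  rw [Polynomial.iterate_derivative_eq_zero (by rw [s5b_heP_natDegree]; exact h)] at h1
  simp only [map_zero, zero_mul, integral_zero] at h1
  rw [← h1]
  refine integral_congr_ae (Filter.Eventually.of_forall fun x => ?_)
  simp only [s5b_he_eq k]

/-- unnormalised orthogonality, the diagonal -/
theorem s5b_he_orth_self (j : ℕ) :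
    ∫ x : ℝ, he j x * he j x * Real.exp (-(x ^ 2 / 2)) =
      (j.factorial : ℝ) * Real.sqrt (2 * Real.pi) := by
  have h1 := s5b_he_stein j (s5bHeP j)
  have h2 : Polynomial.derivative^[j] (s5bHeP j) = Polynomial.C (j.factorial : ℝ) := by
    have hd : (Polynomial.derivative^[j] (s5bHeP j)).natDegree ≤ 0 := by
      have := Polynomial.natDegree_iterate_derivative (s5bHeP j) j
      rw [s5b_heP_natDegree, Nat.sub_self] at this
      exact this
    rw [Polynomial.eq_C_of_natDegree_le_zero hd, Polynomial.coeff_iterate_derivative, zero_add,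
      Nat.descFactorial_self]
    have hc : (s5bHeP j).coeff j = 1 := by
      have := (s5b_heP_monic j).coeff_natDegree
      rwa [s5b_heP_natDegree] at this
    rw [hc]
    simp
  rw [h2] at h1
  simp only [Polynomial.aeval_C, Algebra.algebraMap_self, RingHom.id_apply] at h1
  rw [integral_const_mul, s5b_gauss_integral] at h1
  rw [← h1]
  refine integral_congr_ae (Filter.Eventually.of_forall fun x => ?_)
  simp only [s5b_he_eq j]

/-- orthogonality of the Hermite polynomials -/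
theorem s5b_he_orth (j k : ℕ) :
    ∫ x : ℝ, he j x * he k x * ((Real.sqrt (2 * Real.pi))⁻¹ * Real.exp (-(x ^ 2 / 2))) =
      if j = k then (j.factorial : ℝ) else 0 := by
  have h0 : ∫ x : ℝ, he j x * he k x * ((Real.sqrt (2 * Real.pi))⁻¹ * Real.exp (-(x ^ 2 / 2))) =
      (Real.sqrt (2 * Real.pi))⁻¹ * ∫ x : ℝ, he j x * he k x * Real.exp (-(x ^ 2 / 2)) := by
    rw [← integral_const_mul]
    refine integral_congr_ae (Filter.Eventually.of_forall fun x => ?_)
    simp only
    ring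
  rw [h0]
  have hpi : Real.sqrt (2 * Real.pi) ≠ 0 := by
    have : 0 < 2 * Real.pi := by positivity
    exact (Real.sqrt_pos.2 this).ne'
  rcases lt_trichotomy j k with h | h | h
  · rw [if_neg h.ne]
    have h1 : ∫ x : ℝ, he j x * he k x * Real.exp (-(x ^ 2 / 2)) =
        ∫ x : ℝ, he k x * he j x * Real.exp (-(x ^ 2 / 2)) := by
      refine integral_congr_ae (Filter.Eventually.of_forall fun x => ?_)
      simp only
      ring
    rw [h1, s5b_he_orth_lt h, mul_zero]
  · subst h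
    rw [if_pos rfl, s5b_he_orth_self]
    field_simp
  · rw [if_neg h.ne', s5b_he_orth_lt h, mul_zero]

theorem s5b_he_zero (x : ℝ) : he 0 x = 1 := by
  simp [he]

theorem s5b_he_contDiff (k : ℕ) : ContDiff ℝ ∞ (he k) :=
  Polynomial.contDiff_aeval (Polynomial.hermite k) _

/-- polynomial growth -/
theorem s5b_he_growth (k : ℕ) : ∃ C : ℝ, ∀ x : ℝ, |he k x| ≤ C * (1 + |x|) ^ k := by
  refine ⟨∑ i ∈ Finset.range (k + 1), |(s5bHeP k).coeff i|, fun x => ?_⟩
  rw [s5b_he_eq, Polynomial.aeval_eq_sum_range, s5b_heP_natDegree, Finset.sum_mul]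
  refine (Finset.abs_sum_le_sum_abs _ _).trans (Finset.sum_le_sum fun i hi => ?_)
  rw [smul_eq_mul, abs_mul, abs_pow]
  refine mul_le_mul_of_nonneg_left ?_ (abs_nonneg _)
  have hi' : i ≤ k := Nat.lt_succ_iff.1 (Finset.mem_range.1 hi)
  have h1 : |x| ^ i ≤ (1 + |x|) ^ i := pow_le_pow_left₀ (abs_nonneg x) (by linarith) i
  have h2 : (1 + |x|) ^ i ≤ (1 + |x|) ^ k :=
    pow_le_pow_right₀ (by linarith [abs_nonneg x]) hi'
  exact h1.trans h2

end Claimed.Agent.R259
end

/- ===== packed: Claimed.Agent.R259.S5BesHm ===== -/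
section
/-
Row 259 (S0499), Lemma 5.2: orthogonality of the Hermite tensors `hm j z β = ∏_i He_{cnt β i}(z_i)`
under `gam n = dm (gk 1)` (leaf L-s5b-hmN).
Blueprint owner: helper202.  LEAF FILE: the seat that claims the leaf owns this file, keeps names and
statements and replaces every `sorry` by a proof.

HINTS.  `gk 1 z = ∏_i (2π)^{-1/2} exp(-z_i²/2)`; `dfk_integral_dm` (DefBase) turns `gam n` into a Lebesgue
integral on `EE n`; `EuclideanSpace.volume_preserving_measurableEquiv` / `PiLp.volume_preserving_ofLp`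
move it to `Fin n → ℝ`; `MeasureTheory.integral_fintype_prod_eq_prod` factorises.
Counting: the group `Equiv.Perm (Fin j)` acts on `Idx n j` by `β ↦ β ∘ σ`; orbit of `β` =
`{β' | cnt β' = cnt β}`, stabiliser has `∏_i (cnt β i)!` elements (`DomMulAct.stabilizer_card`),
orbit-stabiliser (`MulAction.card_orbit_mul_card_stabilizer_eq_card_group`).
-/
set_option autoImplicit false

open MeasureTheory
open scoped ContDiff BigOperators

namespace Claimed.Agent.R259

variable {n : ℕ}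

theorem s5b_gam_prob : IsProbabilityMeasure (gam n) := dfk_gk_prob one_pos

/-! ### the Gaussian measure as a product -/

/-- the one dimensional standard Gaussian density -/
noncomputable def s5bPhi (x : ℝ) : ℝ := (Real.sqrt (2 * Real.pi))⁻¹ * Real.exp (-(x ^ 2 / 2))

theorem s5b_gk_prod (z : EE n) : gk (1 : ℝ) z = ∏ i, s5bPhi (z i) := by
  unfold gk s5bPhi
  rw [finrank_euclideanSpace_fin, Finset.prod_mul_distrib, Finset.prod_const, Finset.card_univ,
    Fintype.card_fin, ← Real.exp_sum, EuclideanSpace.norm_sq_eq]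
  congr 1
  · have hpi : (0 : ℝ) ≤ 2 * Real.pi := by positivity
    rw [mul_one, Real.sqrt_eq_rpow, ← Real.rpow_neg hpi, ← Real.rpow_natCast, ← Real.rpow_mul hpi]
    congr 1
    ring
  · congr 1
    rw [Finset.sum_neg_distrib, ← Finset.sum_div]
    simp only [Real.norm_eq_abs, sq_abs]
    ring

theorem s5b_gam_integral_prod (F : Fin n → ℝ → ℝ) :
    ∫ z, ∏ i, F i (z i) ∂(gam n) = ∏ i, ∫ x : ℝ, F i x * s5bPhi x := by
  unfold gam
  rw [dfk_integral_dm (dfk_gk_cont 1).measurable (fun x => (dfk_gk_pos one_pos x).le)]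
  have h1 : ∀ z : EE n, gk (1 : ℝ) z • ∏ i, F i (z i) = ∏ i, (F i (z i) * s5bPhi (z i)) := by
    intro z
    rw [s5b_gk_prod, smul_eq_mul, Finset.prod_mul_distrib, mul_comm]
  simp_rw [h1]
  rw [← integral_fintype_prod_volume_eq_prod (fun i x => F i x * s5bPhi x)]
  exact (PiLp.volume_preserving_ofLp (Fin n)).integral_comp
    (MeasurableEquiv.toLp 2 (Fin n → ℝ)).symm.measurableEmbedding
    (fun y : Fin n → ℝ => ∏ i, (F i (y i) * s5bPhi (y i)))

theorem s5b_gam_integrable_prod (F : Fin n → ℝ → ℝ)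
    (hF : ∀ i, Integrable (fun x : ℝ => F i x * s5bPhi x)) :
    Integrable (fun z : EE n => ∏ i, F i (z i)) (gam n) := by
  unfold gam
  rw [dfk_integrable_dm (dfk_gk_cont 1).measurable (fun x => (dfk_gk_pos one_pos x).le)]
  have h1 : ∀ z : EE n, gk (1 : ℝ) z • ∏ i, F i (z i) = ∏ i, (F i (z i) * s5bPhi (z i)) := by
    intro z
    rw [s5b_gk_prod, smul_eq_mul, Finset.prod_mul_distrib, mul_comm]
  simp_rw [h1]
  have h2 : Integrable (fun y : Fin n → ℝ => ∏ i, (F i (y i) * s5bPhi (y i))) :=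
    Integrable.fintype_prod (μ := fun _ => volume) hF
  exact ((PiLp.volume_preserving_ofLp (Fin n)).integrable_comp_emb
    (MeasurableEquiv.toLp 2 (Fin n → ℝ)).symm.measurableEmbedding).2 h2

theorem s5b_poly_phi_integrable (p : Polynomial ℝ) :
    Integrable (fun x : ℝ => Polynomial.aeval x p * s5bPhi x) := by
  refine ((s5b_poly_integrable p).const_mul (Real.sqrt (2 * Real.pi))⁻¹).congr
    (Filter.Eventually.of_forall fun x => ?_)
  simp only [s5bPhi]
  ring

/-! ### the Hermite tensors -/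

theorem s5b_hm_apply (j : ℕ) (z : EE n) (β : Idx n j) : hm j z β = ∏ i, he (cnt β i) (z i) := rfl

theorem s5b_hm_zero (z : EE n) (β : Idx n 0) : hm 0 z β = 1 := by
  rw [s5b_hm_apply]
  refine Finset.prod_eq_one fun i _ => ?_
  have : cnt β i = 0 := by
    unfold cnt
    simp
  rw [this, s5b_he_zero]

theorem s5b_hm_contDiff (j : ℕ) : ContDiff ℝ ∞ (hm j : EE n → TT n j) := by
  rw [contDiff_euclidean]
  intro β
  have h : ContDiff ℝ ∞ fun z : EE n => ∏ i, he (cnt β i) (z i) :=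
    contDiff_prod fun i _ =>
      (s5b_he_contDiff (cnt β i)).comp (contDiff_euclidean.1 contDiff_id i)
  exact h

/-- the Hermite tensors have moments of all orders; here: square integrable -/
theorem s5b_hm_memLp (j : ℕ) (β : Idx n j) : MemLp (fun z : EE n => hm j z β) 2 (gam n) := by
  have hc : Continuous (fun z : EE n => hm j z β) :=
    (contDiff_euclidean.1 (s5b_hm_contDiff j) β).continuous
  rw [memLp_two_iff_integrable_sq hc.aestronglyMeasurable]
  have h := s5b_gam_integrable_prod (n := n) (fun i x => he (cnt β i) x ^ 2) (fun i => by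
    refine (s5b_poly_phi_integrable (s5bHeP (cnt β i) ^ 2)).congr
      (Filter.Eventually.of_forall fun x => ?_)
    simp only [map_pow, s5b_he_eq])
  refine h.congr (Filter.Eventually.of_forall fun z => ?_)
  simp only [s5b_hm_apply, Finset.prod_pow]

/-- orthogonality relations -/
theorem s5b_hm_orth (j k : ℕ) (β : Idx n j) (β' : Idx n k) :
    ∫ z, hm j z β * hm k z β' ∂(gam n) =
      if cnt β = cnt β' then ∏ i, ((cnt β i).factorial : ℝ) else 0 := by
  have h1 : ∀ z : EE n, hm j z β * hm k z β' =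
      ∏ i, (he (cnt β i) (z i) * he (cnt β' i) (z i)) := by
    intro z
    rw [s5b_hm_apply, s5b_hm_apply, Finset.prod_mul_distrib]
  simp_rw [h1]
  rw [s5b_gam_integral_prod (fun i x => he (cnt β i) x * he (cnt β' i) x)]
  have h2 : ∀ i, ∫ x : ℝ, he (cnt β i) x * he (cnt β' i) x * s5bPhi x =
      if cnt β i = cnt β' i then ((cnt β i).factorial : ℝ) else 0 :=
    fun i => s5b_he_orth (cnt β i) (cnt β' i)
  simp_rw [h2]
  by_cases h : cnt β = cnt β'
  · rw [if_pos h]
    refine Finset.prod_congr rfl fun i _ => ?_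
    rw [if_pos (congrFun h i)]
  · rw [if_neg h]
    obtain ⟨i, hi⟩ := Function.ne_iff.1 h
    exact Finset.prod_eq_zero (Finset.mem_univ i) (if_neg hi)

/-- `∑_i cnt β i = j` -/
theorem s5b_cnt_sum {j : ℕ} (β : Idx n j) : ∑ i, cnt β i = j := by
  have h := Finset.card_eq_sum_card_fiberwise (f := β) (s := Finset.univ) (t := Finset.univ)
    (fun _ _ => Finset.mem_coe.2 (Finset.mem_univ _))
  rw [Finset.card_univ, Fintype.card_fin] at h
  exact h.symm

/-! ### the multinomial count -/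

theorem s5b_cnt_comp {j : ℕ} (β : Idx n j) (σ : Equiv.Perm (Fin j)) : cnt (β ∘ σ) = cnt β := by
  funext i
  unfold cnt
  refine Finset.card_bijective σ σ.bijective fun r => ?_
  simp

/-- equal counts: the tuples differ by a permutation of the slots -/
theorem s5b_cnt_exists_perm {j : ℕ} {β β' : Idx n j} (h : cnt β' = cnt β) :
    ∃ σ : Equiv.Perm (Fin j), β ∘ σ = β' := by
  have hcard : ∀ i, Fintype.card {r // β' r = i} = Fintype.card {r // β r = i} := by
    intro i
    rw [Fintype.card_subtype, Fintype.card_subtype]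
    exact congrFun h i
  let e : ∀ i, {r // β' r = i} ≃ {r // β r = i} := fun i => Fintype.equivOfCardEq (hcard i)
  refine ⟨(Equiv.sigmaFiberEquiv β').symm.trans
    ((Equiv.sigmaCongrRight e).trans (Equiv.sigmaFiberEquiv β)), ?_⟩
  funext r
  simp only [Function.comp_apply, Equiv.trans_apply, Equiv.sigmaFiberEquiv, Equiv.coe_fn_mk,
    Equiv.coe_fn_symm_mk, Equiv.sigmaCongrRight_apply]
  exact (e (β' r) ⟨r, rfl⟩).2

theorem s5b_fiber_card {j : ℕ} (β β' : Idx n j) (h : cnt β' = cnt β) :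
    (Finset.univ.filter fun σ : Equiv.Perm (Fin j) => β ∘ σ = β').card =
      ∏ i, (cnt β i).factorial := by
  obtain ⟨σ₀, hσ₀⟩ := s5b_cnt_exists_perm h
  have h1 := DomMulAct.stabilizer_card β
  have h2 : ∀ i, Fintype.card {a // β a = i} = cnt β i := fun i => Fintype.card_subtype _
  simp_rw [h2] at h1
  rw [← h1, Fintype.card_subtype]
  refine Finset.card_bijective (fun σ => σ * σ₀⁻¹) (Group.mulRight_bijective σ₀⁻¹) fun σ => ?_
  simp only [Finset.mem_filter, Finset.mem_univ, true_and]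
  constructor
  · intro hσ
    funext r
    have : β (σ (σ₀⁻¹ r)) = β' (σ₀⁻¹ r) := congrFun hσ _
    simp only [Function.comp_apply, Equiv.Perm.coe_mul]
    rw [this, ← hσ₀]
    simp
  · intro hσ
    funext r
    have : β ((σ * σ₀⁻¹) (σ₀ r)) = β (σ₀ r) := congrFun hσ _
    have h3 : σ₀⁻¹ (σ₀ r) = r := by simp
    simp only [Equiv.Perm.coe_mul, Function.comp_apply, h3] at this
    rw [Function.comp_apply, this, ← hσ₀]
    rfl

/-- multinomial count -/
theorem s5b_cnt_card {j : ℕ} (β : Idx n j) :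
    ((Finset.univ.filter fun β' : Idx n j => cnt β' = cnt β).card : ℝ) *
      ∏ i, ((cnt β i).factorial : ℝ) = (j.factorial : ℝ) := by
  have h := Finset.card_eq_sum_card_fiberwise (f := fun σ : Equiv.Perm (Fin j) => β ∘ σ)
    (s := Finset.univ) (t := Finset.univ.filter fun β' : Idx n j => cnt β' = cnt β)
    (fun σ _ => Finset.mem_coe.2 (Finset.mem_filter.2 ⟨Finset.mem_univ _, s5b_cnt_comp β σ⟩))
  rw [Finset.card_univ, Fintype.card_perm, Fintype.card_fin,
    Finset.sum_congr rfl (fun β' hβ' => s5b_fiber_card β β' (Finset.mem_filter.1 hβ').2),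
    Finset.sum_const, smul_eq_mul] at h
  rw [h]
  push_cast
  ring

/-- the coefficient of a function depends on `β` only through `cnt β` -/
theorem s5b_hm_congr {j : ℕ} {β β' : Idx n j} (h : cnt β = cnt β') (z : EE n) :
    hm j z β = hm j z β' := by
  simp [hm, h]

end Claimed.Agent.R259
end

/- ===== packed: Claimed.Agent.R259.S5BesSc ===== -/
section
/-
Row 259 (S0499), Lemma 5.2: the finite Bessel inequality for scalar functions on Gauss space
(leaf L-s5b-bessel).
Blueprint owner: helper202.  LEAF FILE: the seat that claims the leaf owns this file, keeps names and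
statements and replaces every `sorry` by a proof.

PROOF.  `c_β = ∫ f hm_β`, `P = ∑_{j ≤ J} (1/j!) ∑_β c_β hm_β`, `S = ∑_j (1/j!) ∑_β c_β²`.
`∫ f P = S`.  `∫ P² = ∑_{j,k} (1/(j! k!)) ∑_{β,β'} c_β c_β' ∫ hm_β hm_β'`; by `s5b_hm_orth` only
`cnt β = cnt β'` survives (which forces `j = k` by `s5b_cnt_sum`), there `c_β' = c_β`
(`s5b_hm_congr`), and `#{β'} ∏ (cnt β i)! = j!` (`s5b_cnt_card`): `∫ P² = S`.
`0 ≤ ∫ (f - P)² = ∫ f² - 2 S + S`.
-/
set_option autoImplicit false

open MeasureTheory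
open scoped ContDiff BigOperators

namespace Claimed.Agent.R259

variable {n : ℕ}

/-- the Hermite polynomial with coefficients `c` -/
noncomputable def s5bP (J : ℕ) (c : ∀ j, Idx n j → ℝ) (z : EE n) : ℝ :=
  ∑ j ∈ Finset.range (J + 1), ((j.factorial : ℝ))⁻¹ * ∑ β : Idx n j, c j β * hm j z β

theorem s5b_P_memLp (J : ℕ) (c : ∀ j, Idx n j → ℝ) : MemLp (s5bP J c) 2 (gam n) := by
  unfold s5bP
  refine memLp_finsetSum _ fun j _ => MemLp.const_mul ?_ _
  exact memLp_finsetSum _ fun β _ => (s5b_hm_memLp j β).const_mul _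

theorem s5b_integral_mul_P {g : EE n → ℝ} (hg : MemLp g 2 (gam n)) (J : ℕ)
    (c : ∀ j, Idx n j → ℝ) :
    ∫ z, g z * s5bP J c z ∂(gam n) =
      ∑ j ∈ Finset.range (J + 1), ((j.factorial : ℝ))⁻¹ *
        ∑ β : Idx n j, c j β * ∫ z, g z * hm j z β ∂(gam n) := by
  have hint : ∀ j (β : Idx n j), Integrable (fun z => g z * hm j z β) (gam n) :=
    fun j β => hg.integrable_mul (s5b_hm_memLp j β)
  have e1 : ∀ z, g z * s5bP J c z = ∑ j ∈ Finset.range (J + 1), ∑ β : Idx n j,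
      (((j.factorial : ℝ))⁻¹ * c j β) * (g z * hm j z β) := by
    intro z
    unfold s5bP
    rw [Finset.mul_sum]
    refine Finset.sum_congr rfl fun j _ => ?_
    rw [Finset.mul_sum, Finset.mul_sum]
    refine Finset.sum_congr rfl fun β _ => ?_
    ring
  simp_rw [e1]
  rw [integral_finsetSum _ fun j _ => integrable_finsetSum _ fun β _ => (hint j β).const_mul _]
  refine Finset.sum_congr rfl fun j _ => ?_
  rw [integral_finsetSum _ fun β _ => (hint j β).const_mul _, Finset.mul_sum]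
  refine Finset.sum_congr rfl fun β _ => ?_
  rw [integral_const_mul]
  ring

/-- the reproducing property of the kernel `∑_k (1/k!) ∑_β' hm_β'(z) hm_β'(z')` -/
theorem s5b_repro (J : ℕ) (c : ∀ j, Idx n j → ℝ)
    (hc : ∀ j (β β' : Idx n j), cnt β = cnt β' → c j β = c j β') {j : ℕ}
    (hj : j ∈ Finset.range (J + 1)) (β : Idx n j) :
    ∑ k ∈ Finset.range (J + 1), ((k.factorial : ℝ))⁻¹ *
      ∑ β' : Idx n k, c k β' * ∫ z, hm j z β * hm k z β' ∂(gam n) = c j β := by
  rw [Finset.sum_eq_single_of_mem j hj]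
  · have h1 : ∑ β' : Idx n j, c j β' * ∫ z, hm j z β * hm j z β' ∂(gam n) =
        c j β * (((Finset.univ.filter fun β' : Idx n j => cnt β' = cnt β).card : ℝ) *
          ∏ i, ((cnt β i).factorial : ℝ)) := by
      have h2 : ∀ β' : Idx n j, c j β' * ∫ z, hm j z β * hm j z β' ∂(gam n) =
          if cnt β' = cnt β then c j β * ∏ i, ((cnt β i).factorial : ℝ) else 0 := by
        intro β'
        rw [s5b_hm_orth]
        by_cases h : cnt β' = cnt β
        · rw [if_pos h, if_pos h.symm, hc j β' β h]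
        · rw [if_neg h, if_neg (fun h' => h h'.symm), mul_zero]
      simp_rw [h2]
      rw [← Finset.sum_filter, Finset.sum_const, nsmul_eq_mul]
      ring
    rw [h1, s5b_cnt_card]
    have hf : (j.factorial : ℝ) ≠ 0 := by positivity
    field_simp
  · intro k _ hk
    rw [Finset.sum_eq_zero, mul_zero]
    intro β' _
    rw [s5b_hm_orth, if_neg, mul_zero]
    intro h
    apply hk
    rw [← s5b_cnt_sum β', ← s5b_cnt_sum β, h]

theorem s5b_hm_bessel {f : EE n → ℝ} (hf : MemLp f 2 (gam n)) (J : ℕ) :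
    ∑ j ∈ Finset.range (J + 1), ((j.factorial : ℝ))⁻¹ *
        ∑ β : Idx n j, (∫ z, f z * hm j z β ∂(gam n)) ^ 2 ≤ ∫ z, f z ^ 2 ∂(gam n) := by
  set c : ∀ j, Idx n j → ℝ := fun j β => ∫ z, f z * hm j z β ∂(gam n) with hcdef
  have hc : ∀ j (β β' : Idx n j), cnt β = cnt β' → c j β = c j β' := by
    intro j β β' h
    simp only [hcdef]
    refine integral_congr_ae (Filter.Eventually.of_forall fun z => ?_)
    simp only [s5b_hm_congr h z]
  have hP := s5b_P_memLp (n := n) J c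
  have hfP : ∫ z, f z * s5bP J c z ∂(gam n) =
      ∑ j ∈ Finset.range (J + 1), ((j.factorial : ℝ))⁻¹ * ∑ β : Idx n j, c j β ^ 2 := by
    rw [s5b_integral_mul_P hf]
    refine Finset.sum_congr rfl fun j _ => ?_
    congr 1
    refine Finset.sum_congr rfl fun β _ => ?_
    rw [sq]
  have hPP : ∫ z, s5bP J c z * s5bP J c z ∂(gam n) =
      ∑ j ∈ Finset.range (J + 1), ((j.factorial : ℝ))⁻¹ * ∑ β : Idx n j, c j β ^ 2 := by
    rw [s5b_integral_mul_P hP]
    refine Finset.sum_congr rfl fun j hj => ?_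
    congr 1
    refine Finset.sum_congr rfl fun β _ => ?_
    have h1 : ∫ z, s5bP J c z * hm j z β ∂(gam n) = ∫ z, hm j z β * s5bP J c z ∂(gam n) := by
      refine integral_congr_ae (Filter.Eventually.of_forall fun z => ?_)
      simp only
      ring
    rw [h1, s5b_integral_mul_P (s5b_hm_memLp j β), s5b_repro J c hc hj β, sq]
  have h0 : 0 ≤ ∫ z, (f z - s5bP J c z) ^ 2 ∂(gam n) := integral_nonneg fun z => sq_nonneg _
  have hexp : ∫ z, (f z - s5bP J c z) ^ 2 ∂(gam n) =
      ∫ z, f z ^ 2 ∂(gam n) - 2 * ∫ z, f z * s5bP J c z ∂(gam n) +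
        ∫ z, s5bP J c z * s5bP J c z ∂(gam n) := by
    have i1 : Integrable (fun z => f z ^ 2) (gam n) := hf.integrable_sq
    have i2 : Integrable (fun z => f z * s5bP J c z) (gam n) := hf.integrable_mul hP
    have i3 : Integrable (fun z => s5bP J c z * s5bP J c z) (gam n) := hP.integrable_mul hP
    have i4 : Integrable (fun z => f z ^ 2 - 2 * (f z * s5bP J c z)) (gam n) :=
      i1.sub (i2.const_mul 2)
    rw [← integral_const_mul, ← integral_sub i1 (i2.const_mul 2), ← integral_add i4 i3]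
    refine integral_congr_ae (Filter.Eventually.of_forall fun z => ?_)
    simp only
    ring
  rw [hexp, hfP, hPP] at h0
  linarith

end Claimed.Agent.R259
end

/- ===== packed: Claimed.Agent.R259.S5BesKer ===== -/
section
/-
Row 259 (S0499), Lemma 5.2: differentiation of the Hermite coefficients under the integral sign
(leaf L-s5b-ker).
Owner: helper202.  PROVED (uses the statements `s5b_he_growth`, `s5b_he_deriv`, `s5b_he_contDiff` of S5BesHe).

PROOF of `s5b_hcS_hasFDerivAt`.  Change of variables `u = y + √r z`: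
`hcS r f j β y = ∫ f(u) K_β(u - y) du`, `K_β(x) = gk r x * hm j ((√r)⁻¹ • x) β`  (`s5b_hcS_kernel`).
`K_β` is smooth and `∂_{x_i} K_β = -(√r)⁻¹ K_{snoc β i}` (one dimensional `s5b_he_deriv`;
`cnt (snoc β i) = cnt β + e_i`).  `hasFDerivAt_integral_of_dominated_of_fderiv_le` on the ball
`‖y - y₀‖ < 1`, `R = ‖y₀‖ + 1`: `gk r (u-y) ≤ c exp(-(‖u‖² - 2R‖u‖)/(2r))`,
`|hm ..| ≤ C (1 + (‖u‖+R)/√r)^{j+1}` (`s5b_he_growth`), `|f u| ≤ C exp((‖u‖+1)²/(4r))`: the product is
`≤ C' exp(-‖u‖²/(8r))`, integrable (`dfk_integrable_rexp_neg_sq`).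
-/
set_option autoImplicit false

open MeasureTheory
open scoped ContDiff BigOperators

namespace Claimed.Agent.R259

variable {n : ℕ}

theorem s5bk_cnt_snoc {j : ℕ} (β : Idx n j) (l i : Fin n) :
    cnt (Fin.snoc β l : Idx n (j + 1)) i = cnt β i + if l = i then 1 else 0 := by
  unfold cnt
  rw [Finset.card_filter, Finset.card_filter, Fin.sum_univ_castSucc]
  simp [Fin.snoc_castSucc, Fin.snoc_last]

/-- `ψ_k(t) = He_k(t) e^{-t²/2}` -/
noncomputable def psiH (k : ℕ) (t : ℝ) : ℝ := he k t * Real.exp (-(t ^ 2 / 2))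

theorem s5bk_psi_bound (k : ℕ) : ∃ C : ℝ, 0 ≤ C ∧ ∀ t : ℝ, |psiH k t| ≤ C * Real.exp (-(3 / 8 * t ^ 2)) := by
  obtain ⟨C, hC⟩ := s5b_he_growth k
  have hC0 : 0 ≤ C := by
    have := hC 0
    simp at this
    exact (abs_nonneg _).trans this
  refine ⟨C * ((k.factorial : ℝ) * Real.exp 3), by positivity, fun t => ?_⟩
  unfold psiH
  rw [abs_mul, abs_of_pos (Real.exp_pos _)]
  have h1 : (1 + |t|) ^ k ≤ (k.factorial : ℝ) * Real.exp (1 + |t|) := by
    have := Real.pow_div_factorial_le_exp (1 + |t|) (by positivity) k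
    rwa [div_le_iff₀ (by positivity), mul_comm] at this
  have h2 : Real.exp (1 + |t|) * Real.exp (-(t ^ 2 / 2)) ≤ Real.exp 3 * Real.exp (-(3 / 8 * t ^ 2)) := by
    rw [← Real.exp_add, ← Real.exp_add]
    apply Real.exp_le_exp.mpr
    have : t ^ 2 = |t| ^ 2 := (sq_abs t).symm
    nlinarith [sq_nonneg (|t| - 4)]
  calc |he k t| * Real.exp (-(t ^ 2 / 2)) ≤ (C * (1 + |t|) ^ k) * Real.exp (-(t ^ 2 / 2)) := by
        gcongr; exact hC t
    _ ≤ (C * ((k.factorial : ℝ) * Real.exp (1 + |t|))) * Real.exp (-(t ^ 2 / 2)) := by gcongr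
    _ = C * (k.factorial : ℝ) * (Real.exp (1 + |t|) * Real.exp (-(t ^ 2 / 2))) := by ring
    _ ≤ C * (k.factorial : ℝ) * (Real.exp 3 * Real.exp (-(3 / 8 * t ^ 2))) := by gcongr
    _ = _ := by ring

theorem s5bk_psi_deriv (k : ℕ) (t : ℝ) : HasDerivAt (psiH k) (-(psiH (k + 1) t)) t :=
  s5b_he_deriv k t

/-- product kernel -/
noncomputable def PsiH (a : Fin n → ℕ) (x : EE n) : ℝ := ∏ i, psiH (a i) (x i)

theorem s5bk_Psi_bound (a : Fin n → ℕ) :
    ∃ C : ℝ, 0 ≤ C ∧ ∀ x : EE n, |PsiH a x| ≤ C * Real.exp (-(3 / 8 * ‖x‖ ^ 2)) := by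
  choose C hC0 hC using fun i => s5bk_psi_bound (a i)
  refine ⟨∏ i, C i, Finset.prod_nonneg fun i _ => hC0 i, fun x => ?_⟩
  unfold PsiH
  rw [Finset.abs_prod]
  have e : Real.exp (-(3 / 8 * ‖x‖ ^ 2)) = ∏ i, Real.exp (-(3 / 8 * (x i) ^ 2)) := by
    rw [← Real.exp_sum, EuclideanSpace.norm_sq_eq]
    congr 1
    simp only [Real.norm_eq_abs, sq_abs]
    rw [Finset.sum_neg_distrib, Finset.mul_sum]
  rw [e, ← Finset.prod_mul_distrib]
  exact Finset.prod_le_prod (fun i _ => abs_nonneg _) fun i _ => hC i (x i)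

theorem s5bk_gk_scale {r : ℝ} (hr : 0 < r) (x : EE n) :
    gk r x = (Real.sqrt r)⁻¹ ^ (Module.finrank ℝ (EE n)) * gk 1 ((Real.sqrt r)⁻¹ • x) := by
  unfold gk
  have hs : 0 < Real.sqrt r := Real.sqrt_pos.mpr hr
  have h1 : ‖(Real.sqrt r)⁻¹ • x‖ ^ 2 = ‖x‖ ^ 2 / r := by
    rw [norm_smul, mul_pow, Real.norm_eq_abs, sq_abs, inv_pow, Real.sq_sqrt hr.le]
    ring
  rw [h1]
  have h2 : -(‖x‖ ^ 2 / r) / (2 * 1) = -‖x‖ ^ 2 / (2 * r) := by
    field_simp
  rw [h2, ← mul_assoc]
  congr 1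
  have h3 : (2 * Real.pi * r) ^ (-(Module.finrank ℝ (EE n) : ℝ) / 2) =
      (2 * Real.pi * 1) ^ (-(Module.finrank ℝ (EE n) : ℝ) / 2) *
        r ^ (-(Module.finrank ℝ (EE n) : ℝ) / 2) := by
    rw [mul_one, Real.mul_rpow (by positivity) hr.le]
  rw [h3, mul_comm]
  congr 1
  rw [Real.sqrt_eq_rpow, ← Real.rpow_neg hr.le, ← Real.rpow_natCast, ← Real.rpow_mul hr.le]
  congr 1
  ring

theorem s5b_gam_kernel {r : ℝ} (hr : 0 < r) (y : EE n) (F : EE n → ℝ) :
    ∫ z, F z ∂(gam n) = ∫ u, gk r (u - y) * F ((Real.sqrt r)⁻¹ • (u - y)) := by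
  have hs : 0 < Real.sqrt r := Real.sqrt_pos.mpr hr
  unfold gam
  rw [dfk_integral_dm (dfk_gk_cont 1).measurable (fun x => (dfk_gk_pos one_pos x).le)]
  simp_rw [s5bk_gk_scale hr, smul_eq_mul, mul_assoc]
  rw [integral_const_mul,
    integral_sub_right_eq_self (fun u => gk 1 ((Real.sqrt r)⁻¹ • u) * F ((Real.sqrt r)⁻¹ • u)) y,
    Measure.integral_comp_smul volume (fun z => gk 1 z * F z) (Real.sqrt r)⁻¹, smul_eq_mul,
    ← mul_assoc, abs_of_pos (by positivity), mul_inv_cancel₀ (by positivity), one_mul]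

theorem s5bk_gam_integrable {r : ℝ} (hr : 0 < r) (y : EE n) (F : EE n → ℝ) :
    Integrable F (gam n) ↔ Integrable (fun u => gk r (u - y) * F ((Real.sqrt r)⁻¹ • (u - y))) := by
  have hs : 0 < Real.sqrt r := Real.sqrt_pos.mpr hr
  unfold gam
  rw [dfk_integrable_dm (dfk_gk_cont 1).measurable (fun x => (dfk_gk_pos one_pos x).le)]
  simp_rw [s5bk_gk_scale hr, smul_eq_mul, mul_assoc]
  rw [integrable_const_mul_iff (IsUnit.mk0 _ (by positivity))]
  rw [← integrable_comp_smul_iff volume (fun z => gk 1 z * F z) (R := (Real.sqrt r)⁻¹)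
    (by positivity)]
  constructor
  · intro h
    exact h.comp_sub_right y
  · intro h
    have := h.comp_add_right y
    simpa using this


/-- raise the multi-index at `l` -/
def aInc (a : Fin n → ℕ) (l : Fin n) : Fin n → ℕ := fun i => a i + if l = i then 1 else 0

theorem s5bk_cnt_snoc' {j : ℕ} (β : Idx n j) (l : Fin n) :
    cnt (Fin.snoc β l : Idx n (j + 1)) = aInc (cnt β) l := funext (s5bk_cnt_snoc β l)

theorem s5bk_kernel_eq (z : EE n) (j : ℕ) (β : Idx n j) :
    gk 1 z * hm j z β =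
      (2 * Real.pi * 1) ^ (-(Module.finrank ℝ (EE n) : ℝ) / 2) * PsiH (cnt β) z := by
  unfold gk PsiH psiH
  rw [Finset.prod_mul_distrib, mul_assoc]
  congr 1
  have e : Real.exp (-‖z‖ ^ 2 / (2 * 1)) = ∏ i, Real.exp (-((z i) ^ 2 / 2)) := by
    rw [← Real.exp_sum, EuclideanSpace.norm_sq_eq]
    congr 1
    simp only [Real.norm_eq_abs, sq_abs]
    rw [Finset.sum_neg_distrib, ← Finset.sum_div]
    ring
  rw [e, mul_comm]
  congr 1

theorem s5bk_PsiH_continuous (a : Fin n → ℕ) : Continuous (PsiH a : EE n → ℝ) := by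
  unfold PsiH psiH
  refine continuous_finsetProd _ fun i _ => ?_
  have := (s5b_he_contDiff (a i)).continuous
  fun_prop

theorem s5bk_dom {r : ℝ} (hr : 0 < r) {f : EE n → ℝ} (hf : GrowS r f) (a : Fin n → ℕ) {R : ℝ}
    (hR : 0 ≤ R) : ∃ Cb : ℝ, 0 ≤ Cb ∧ ∀ y : EE n, ‖y‖ ≤ R → ∀ u : EE n,
      |f u * PsiH a ((Real.sqrt r)⁻¹ • (u - y))| ≤ Cb * Real.exp (-(1 / (16 * r)) * ‖u‖ ^ 2) := by
  obtain ⟨Cf, hCf⟩ := hf.2
  obtain ⟨Ca, hCa0, hCa⟩ := s5bk_Psi_bound a
  have hCf0 : 0 ≤ Cf := by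
    have h1 := (abs_nonneg _).trans (hCf 0)
    exact nonneg_of_mul_nonneg_left h1 (Real.exp_pos _)
  refine ⟨Cf * Ca * Real.exp (((6 * R + 4) ^ 2 + 4) / (16 * r)), by positivity, fun y hy u => ?_⟩
  have h1 : ‖(Real.sqrt r)⁻¹ • (u - y)‖ ^ 2 = ‖u - y‖ ^ 2 / r := by
    rw [norm_smul, mul_pow, Real.norm_eq_abs, sq_abs, inv_pow, Real.sq_sqrt hr.le]
    ring
  have h2 := hCa ((Real.sqrt r)⁻¹ • (u - y))
  rw [h1] at h2
  have ht : ‖u‖ ≤ ‖u - y‖ + R := by
    calc ‖u‖ = ‖(u - y) + y‖ := by simp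
      _ ≤ ‖u - y‖ + ‖y‖ := norm_add_le _ _
      _ ≤ ‖u - y‖ + R := by gcongr
  have hd : ‖u‖ ^ 2 - 2 * R * ‖u‖ ≤ ‖u - y‖ ^ 2 := by
    rcases le_total R ‖u‖ with h | h
    · have : ‖u‖ - R ≤ ‖u - y‖ := by linarith
      nlinarith [norm_nonneg (u - y), norm_nonneg u]
    · nlinarith [norm_nonneg (u - y), norm_nonneg u, sq_nonneg ‖u - y‖]
  have hexp : (‖u‖ + 1) ^ 2 / (4 * r) + -(3 / 8 * (‖u - y‖ ^ 2 / r)) ≤
      ((6 * R + 4) ^ 2 + 4) / (16 * r) + -(1 / (16 * r)) * ‖u‖ ^ 2 := by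
    have h3 : 4 * (‖u‖ + 1) ^ 2 - 6 * ‖u - y‖ ^ 2 ≤ (6 * R + 4) ^ 2 + 4 - ‖u‖ ^ 2 := by
      nlinarith [sq_nonneg (‖u‖ - (6 * R + 4))]
    have e1 : (‖u‖ + 1) ^ 2 / (4 * r) + -(3 / 8 * (‖u - y‖ ^ 2 / r)) =
        (4 * (‖u‖ + 1) ^ 2 - 6 * ‖u - y‖ ^ 2) / (16 * r) := by
      field_simp; ring
    have e2 : ((6 * R + 4) ^ 2 + 4) / (16 * r) + -(1 / (16 * r)) * ‖u‖ ^ 2 =
        ((6 * R + 4) ^ 2 + 4 - ‖u‖ ^ 2) / (16 * r) := by
      field_simp; ring
    rw [e1, e2]
    gcongr
  rw [abs_mul]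
  calc |f u| * |PsiH a ((Real.sqrt r)⁻¹ • (u - y))|
      ≤ (Cf * Real.exp ((‖u‖ + 1) ^ 2 / (4 * r))) *
          (Ca * Real.exp (-(3 / 8 * (‖u - y‖ ^ 2 / r)))) :=
        mul_le_mul (hCf u) h2 (abs_nonneg _) (by positivity)
    _ = Cf * Ca * Real.exp ((‖u‖ + 1) ^ 2 / (4 * r) + -(3 / 8 * (‖u - y‖ ^ 2 / r))) := by
        rw [Real.exp_add]; ring
    _ ≤ Cf * Ca * Real.exp (((6 * R + 4) ^ 2 + 4) / (16 * r) + -(1 / (16 * r)) * ‖u‖ ^ 2) := by
        gcongr
    _ = _ := by rw [Real.exp_add]; ring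

/-- the kernel integral -/
noncomputable def kS (r : ℝ) (f : EE n → ℝ) (a : Fin n → ℕ) (y : EE n) : ℝ :=
  ∫ u, f u * PsiH a ((Real.sqrt r)⁻¹ • (u - y))

theorem s5bk_kS_integrable {r : ℝ} (hr : 0 < r) {f : EE n → ℝ} (hf : GrowS r f) (a : Fin n → ℕ)
    (y : EE n) : Integrable (fun u => f u * PsiH a ((Real.sqrt r)⁻¹ • (u - y))) := by
  obtain ⟨Cb, hCb0, hCb⟩ := s5bk_dom hr hf a (norm_nonneg y)
  have hi : Integrable (fun u : EE n => Cb * Real.exp (-(1 / (16 * r)) * ‖u‖ ^ 2)) :=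
    (dfk_integrable_rexp_neg_sq (by positivity)).const_mul Cb
  refine hi.mono' ?_ (Filter.Eventually.of_forall fun u => hCb y le_rfl u)
  exact (hf.1.mul ((s5bk_PsiH_continuous a).measurable.comp (by fun_prop))).aestronglyMeasurable


theorem s5bk_PsiH_inc (a : Fin n → ℕ) (l : Fin n) (x : EE n) :
    PsiH (aInc a l) x = psiH (a l + 1) (x l) * ∏ i ∈ Finset.univ.erase l, psiH (a i) (x i) := by
  unfold PsiH
  rw [← Finset.mul_prod_erase Finset.univ _ (Finset.mem_univ l)]
  congr 1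
  · simp [aInc]
  · refine Finset.prod_congr rfl fun i hi => ?_
    have : l ≠ i := (Finset.ne_of_mem_erase hi).symm
    simp [aInc, this]

theorem s5bk_Psi_hasFDerivAt (a : Fin n → ℕ) (s : ℝ) (u y : EE n) :
    HasFDerivAt (fun y : EE n => PsiH a (s • (u - y)))
      (∑ l, (s * PsiH (aInc a l) (s • (u - y))) • (EuclideanSpace.proj l : EE n →L[ℝ] ℝ)) y := by
  have h1 : ∀ i ∈ (Finset.univ : Finset (Fin n)),
      HasFDerivAt (fun y : EE n => psiH (a i) (s * (u i - y i)))
        ((s * psiH (a i + 1) (s * (u i - y i))) • (EuclideanSpace.proj i : EE n →L[ℝ] ℝ)) y := by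
    intro i _
    have hp : HasFDerivAt (fun y : EE n => s * (u i - y i))
        ((-s) • (EuclideanSpace.proj i : EE n →L[ℝ] ℝ)) y := by
      have h0 : HasFDerivAt (fun y : EE n => y i) (EuclideanSpace.proj i : EE n →L[ℝ] ℝ) y :=
        (EuclideanSpace.proj i : EE n →L[ℝ] ℝ).hasFDerivAt
      have h3 : HasFDerivAt (fun y : EE n => s * (u i - y i))
          (s • ((0 : EE n →L[ℝ] ℝ) - (EuclideanSpace.proj i : EE n →L[ℝ] ℝ))) y :=
        ((hasFDerivAt_const (u i) y).sub h0).const_mul s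
      refine h3.congr_fderiv ?_
      simp
    have h4 := (s5bk_psi_deriv (a i) (s * (u i - y i))).comp_hasFDerivAt y hp
    refine h4.congr_fderiv ?_
    rw [smul_smul]
    congr 1
    ring
  have h2 := HasFDerivAt.finsetProd h1
  have e1 : (fun y : EE n => PsiH a (s • (u - y))) =
      fun y : EE n => ∏ i, psiH (a i) (s * (u i - y i)) := by
    funext y
    simp [PsiH]
  rw [e1]
  refine h2.congr_fderiv ?_
  refine Finset.sum_congr rfl fun l _ => ?_
  rw [s5bk_PsiH_inc, smul_smul]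
  congr 1
  simp only [PiLp.smul_apply, PiLp.sub_apply, smul_eq_mul]
  ring

theorem s5bk_kS_hasFDerivAt {r : ℝ} (hr : 0 < r) {f : EE n → ℝ} (hf : GrowS r f) (a : Fin n → ℕ)
    (y₀ : EE n) :
    HasFDerivAt (kS r f a)
      (∑ l, ((Real.sqrt r)⁻¹ * kS r f (aInc a l) y₀) • (EuclideanSpace.proj l : EE n →L[ℝ] ℝ))
      y₀ := by
  set s := (Real.sqrt r)⁻¹ with hs
  have hs0 : 0 < s := by have := Real.sqrt_pos.mpr hr; positivity
  have hR : 0 ≤ ‖y₀‖ + 1 := by positivity
  choose Cb hCb0 hCb using fun l => s5bk_dom hr hf (aInc a l) hR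
  let F' : EE n → EE n → (EE n →L[ℝ] ℝ) := fun y u =>
    f u • ∑ l, (s * PsiH (aInc a l) (s • (u - y))) • (EuclideanSpace.proj l : EE n →L[ℝ] ℝ)
  have hmeasP : ∀ (b : Fin n → ℕ) (y : EE n), Measurable fun u : EE n => PsiH b (s • (u - y)) :=
    fun b y => (s5bk_PsiH_continuous b).measurable.comp (by fun_prop)
  have hint : ∀ l, Integrable (fun u => f u * PsiH (aInc a l) (s • (u - y₀))) := fun l =>
    s5bk_kS_integrable hr hf (aInc a l) y₀
  have key := hasFDerivAt_integral_of_dominated_of_fderiv_le (μ := (volume : Measure (EE n)))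
    (F := fun y u => f u * PsiH a (s • (u - y))) (F' := F') (x₀ := y₀)
    (bound := fun u => ∑ l, s * (Cb l * Real.exp (-(1 / (16 * r)) * ‖u‖ ^ 2)))
    (Metric.ball_mem_nhds y₀ one_pos)
    (Filter.Eventually.of_forall fun y => (hf.1.mul (hmeasP a y)).aestronglyMeasurable)
    (s5bk_kS_integrable hr hf a y₀) ?_ ?_ ?_ ?_
  · have e : ∫ u, F' y₀ u =
        ∑ l, (s * kS r f (aInc a l) y₀) • (EuclideanSpace.proj l : EE n →L[ℝ] ℝ) := by
      have e1 : ∀ u, F' y₀ u = ∑ l, (s * (f u * PsiH (aInc a l) (s • (u - y₀)))) •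
          (EuclideanSpace.proj l : EE n →L[ℝ] ℝ) := by
        intro u
        simp only [F', Finset.smul_sum, smul_smul]
        refine Finset.sum_congr rfl fun l _ => ?_
        congr 1
        ring
      simp_rw [e1]
      rw [integral_finsetSum _ fun l _ => ((hint l).const_mul s).smul_const _]
      refine Finset.sum_congr rfl fun l _ => ?_
      rw [integral_smul_const, integral_const_mul]
      rfl
    rw [← e]
    exact key
  · -- measurability of F'
    refine (hf.1.aestronglyMeasurable).smul ?_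
    refine Finset.aestronglyMeasurable_fun_sum _ fun l _ => ?_
    exact (((hmeasP (aInc a l) y₀).const_mul s).aestronglyMeasurable).smul_const _
  · -- bound
    refine Filter.Eventually.of_forall fun u y hy => ?_
    have hy' : ‖y‖ ≤ ‖y₀‖ + 1 := by
      have h1 : ‖y - y₀‖ < 1 := by simpa [dist_eq_norm] using hy
      calc ‖y‖ = ‖(y - y₀) + y₀‖ := by simp
        _ ≤ ‖y - y₀‖ + ‖y₀‖ := norm_add_le _ _
        _ ≤ ‖y₀‖ + 1 := by linarith
    simp only [F', Finset.smul_sum, smul_smul]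
    refine (norm_sum_le _ _).trans (Finset.sum_le_sum fun l _ => ?_)
    rw [norm_smul]
    have h1 : ‖(EuclideanSpace.proj l : EE n →L[ℝ] ℝ)‖ ≤ 1 := by
      refine ContinuousLinearMap.opNorm_le_bound _ zero_le_one fun v => ?_
      rw [one_mul]
      exact PiLp.norm_apply_le v l
    have h2 := hCb l y hy' u
    calc ‖f u * (s * PsiH (aInc a l) (s • (u - y)))‖ * ‖(EuclideanSpace.proj l : EE n →L[ℝ] ℝ)‖
        ≤ ‖f u * (s * PsiH (aInc a l) (s • (u - y)))‖ * 1 := by gcongr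
      _ = s * |f u * PsiH (aInc a l) (s • (u - y))| := by
          rw [mul_one, Real.norm_eq_abs, mul_left_comm, abs_mul, abs_of_pos hs0]
      _ ≤ s * (Cb l * Real.exp (-(1 / (16 * r)) * ‖u‖ ^ 2)) := by gcongr
  · exact integrable_finsetSum _ fun l _ =>
      ((dfk_integrable_rexp_neg_sq (by positivity)).const_mul (Cb l)).const_mul s
  · refine Filter.Eventually.of_forall fun u y _ => ?_
    exact (s5bk_Psi_hasFDerivAt a s u y).const_mul (f u)


/-- the normalising constant of the kernel -/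
noncomputable def cKer (n : ℕ) (r : ℝ) : ℝ :=
  (Real.sqrt r)⁻¹ ^ (Module.finrank ℝ (EE n)) *
    (2 * Real.pi * 1) ^ (-(Module.finrank ℝ (EE n) : ℝ) / 2)

theorem s5bk_kernel_r {r : ℝ} (hr : 0 < r) (x : EE n) (j : ℕ) (β : Idx n j) :
    gk r x * hm j ((Real.sqrt r)⁻¹ • x) β = cKer n r * PsiH (cnt β) ((Real.sqrt r)⁻¹ • x) := by
  rw [s5bk_gk_scale hr, mul_assoc, s5bk_kernel_eq, ← mul_assoc]
  rfl

theorem s5bk_shift {r : ℝ} (hr : 0 < r) (y u : EE n) :
    y + Real.sqrt r • ((Real.sqrt r)⁻¹ • (u - y)) = u := by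
  have hs : Real.sqrt r ≠ 0 := (Real.sqrt_pos.mpr hr).ne'
  rw [smul_smul, mul_inv_cancel₀ hs, one_smul]
  abel

theorem s5b_hcS_kernel {r : ℝ} (hr : 0 < r) (f : EE n → ℝ) (j : ℕ) (β : Idx n j) (y : EE n) :
    hcS r f j β y = ∫ u, f u * (gk r (u - y) * hm j ((Real.sqrt r)⁻¹ • (u - y)) β) := by
  unfold hcS
  rw [s5b_gam_kernel hr y]
  refine integral_congr_ae (Filter.Eventually.of_forall fun u => ?_)
  simp only [s5bk_shift hr]
  ring

theorem s5bk_hcS_eq {r : ℝ} (hr : 0 < r) (f : EE n → ℝ) (j : ℕ) (β : Idx n j) (y : EE n) :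
    hcS r f j β y = cKer n r * kS r f (cnt β) y := by
  rw [s5b_hcS_kernel hr]
  unfold kS
  rw [← integral_const_mul]
  refine integral_congr_ae (Filter.Eventually.of_forall fun u => ?_)
  simp only [s5bk_kernel_r hr]
  ring

theorem s5b_hcS_integrable {r : ℝ} (hr : 0 < r) {f : EE n → ℝ} (hf : GrowS r f) (j : ℕ)
    (β : Idx n j) (y : EE n) :
    Integrable (fun z => f (y + Real.sqrt r • z) * hm j z β) (gam n) := by
  rw [s5bk_gam_integrable hr y]
  refine ((s5bk_kS_integrable hr hf (cnt β) y).const_mul (cKer n r)).congr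
    (Filter.Eventually.of_forall fun u => ?_)
  simp only [s5bk_shift hr]
  have := s5bk_kernel_r hr (u - y) j β
  calc cKer n r * (f u * PsiH (cnt β) ((Real.sqrt r)⁻¹ • (u - y)))
      = f u * (cKer n r * PsiH (cnt β) ((Real.sqrt r)⁻¹ • (u - y))) := by ring
    _ = f u * (gk r (u - y) * hm j ((Real.sqrt r)⁻¹ • (u - y)) β) := by rw [this]
    _ = _ := by ring

theorem s5b_hcS_hasFDerivAt {r : ℝ} (hr : 0 < r) {f : EE n → ℝ} (hf : GrowS r f) (j : ℕ)
    (β : Idx n j) (y : EE n) :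
    ∃ L : EE n →L[ℝ] ℝ, HasFDerivAt (hcS r f j β) L y ∧
      ∀ i, L (eb i) = (Real.sqrt r)⁻¹ * hcS r f (j + 1) (Fin.snoc β i) y := by
  have e : hcS r f j β = fun y => cKer n r * kS r f (cnt β) y := funext (s5bk_hcS_eq hr f j β)
  refine ⟨_, by rw [e]; exact (s5bk_kS_hasFDerivAt hr hf (cnt β) y).const_mul (cKer n r), ?_⟩
  intro i
  rw [s5bk_hcS_eq hr, s5bk_cnt_snoc']
  simp only [FunLike.coe_smul, Pi.smul_apply, FunLike.coe_sum, Finset.sum_apply, smul_eq_mul]
  rw [Finset.sum_eq_single i]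
  · simp [eb]
    ring
  · intro l _ hl
    simp [eb, hl]
  · simp

/-- generates the equation lemmas of the definitions above in this file (rule 6: unique names) -/
theorem s5besker_eqns_cite : True := by
  have := @psiH.eq_1
  have := @PsiH.eq_1
  have := @aInc.eq_1
  have := @kS.eq_1
  have := @cKer.eq_1
  trivial

end Claimed.Agent.R259
end

/- ===== packed: Claimed.Agent.R259.S5BesFam ===== -/
section
/-
Row 259 (S0499), Lemma 5.2: the fields `hcF r h j` form a family closed under differentiation, hence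
they are smooth (leaf L-s5b-fam).
Blueprint owner: helper202.  Proved by helper202.
-/
set_option autoImplicit false

open MeasureTheory
open scoped ContDiff BigOperators

namespace Claimed.Agent.R259

variable {n : ℕ}

theorem s5bf_sum_eb (v : EE n) : v = ∑ i, v i • (eb i : EE n) := by
  ext k
  simp [eb, Finset.sum_apply, Pi.single_apply]

theorem s5bf_fderiv_apply {d : ℕ} (T : EE n → TT n d) (y v : EE n) (β : Idx n d) :
    fderiv ℝ T y v β = ∑ i, v i * tD T y (Fin.snoc β i) := by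
  conv_lhs => rw [s5bf_sum_eb v]
  simp [tD, dI, map_sum, Finset.sum_apply]

theorem s5b_family_smooth (G : (j : ℕ) → EE n → TT n (j + 1)) (hd : ∀ j, Differentiable ℝ (G j))
    (ht : ∀ j, tD (G j) = G (j + 1)) : ∀ j, ContDiff ℝ ∞ (G j) := by
  have key : ∀ N : ℕ, ∀ j, ContDiff ℝ N (G j) := by
    intro N
    induction N with
    | zero => intro j; exact contDiff_zero.2 (hd j).continuous
    | succ N ih =>
      intro j
      have hN : ((N + 1 : ℕ) : WithTop ℕ∞) = (N : WithTop ℕ∞) + 1 := by norm_cast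
      rw [hN, contDiff_succ_iff_fderiv]
      refine ⟨hd j, by simp, ?_⟩
      rw [contDiff_clm_apply_iff]
      intro v
      rw [contDiff_euclidean]
      intro β
      have e : (fun y => fderiv ℝ (G j) y v β)
          = fun y => ∑ i, v i * G (j + 1) y (Fin.snoc β i) := by
        funext y
        rw [← ht j, s5bf_fderiv_apply]
      rw [e]
      exact ContDiff.sum fun i _ => contDiff_const.mul ((contDiff_euclidean.1 (ih (j + 1))) _)
  intro j
  exact contDiff_infty.2 (fun N => key N j)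

theorem s5bf_comp_hasFDerivAt {r : ℝ} (hr : 0 < r) {h : EE n → EE n}
    (hh : ∀ a, GrowS r (fun u => h u a)) (j : ℕ) (α : Idx n (j + 1)) (y : EE n) :
    ∃ L : EE n →L[ℝ] ℝ, HasFDerivAt (fun y => hcF r h j y α) L y ∧
      ∀ i, L (eb i) = hcF r h (j + 1) y (Fin.snoc α i) := by
  obtain ⟨L, hL, hLi⟩ := s5b_hcS_hasFDerivAt hr (hh (α 0)) j (Fin.tail α) y
  refine ⟨(Real.sqrt r)⁻¹ ^ j • L, ?_, ?_⟩
  · simpa [hcF] using hL.const_mul ((Real.sqrt r)⁻¹ ^ j)
  · intro i
    have e1 : (Fin.snoc α i : Idx n (j + 2)) 0 = α 0 := by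
      have : (0 : Fin (j + 2)) = Fin.castSucc (0 : Fin (j + 1)) := rfl
      rw [this, Fin.snoc_castSucc]
    have e2 : Fin.tail (Fin.snoc α i : Idx n (j + 2)) = Fin.snoc (Fin.tail α) i := by
      funext k
      refine Fin.lastCases ?_ (fun k => ?_) k
      · simp only [Fin.tail, Fin.succ_last, Fin.snoc_last]
      · simp only [Fin.tail, Fin.succ_castSucc, Fin.snoc_castSucc]
    simp only [hcF, e1, e2, FunLike.coe_smul, Pi.smul_apply, smul_eq_mul, hLi i]
    ring

theorem s5b_hcF_differentiable {r : ℝ} (hr : 0 < r) {h : EE n → EE n}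
    (hh : ∀ a, GrowS r (fun u => h u a)) (j : ℕ) : Differentiable ℝ (hcF r h j) := by
  rw [differentiable_euclidean]
  intro α y
  obtain ⟨L, hL, -⟩ := s5bf_comp_hasFDerivAt hr hh j α y
  exact hL.differentiableAt

theorem s5b_hcF_tD {r : ℝ} (hr : 0 < r) {h : EE n → EE n} (hh : ∀ a, GrowS r (fun u => h u a))
    (j : ℕ) : tD (hcF r h j) = hcF r h (j + 1) := by
  funext y
  ext α
  obtain ⟨L, hL, hLi⟩ := s5bf_comp_hasFDerivAt hr hh j (Fin.init α) y
  have hd := (s5b_hcF_differentiable hr hh j y).hasFDerivAt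
  have h2 : HasFDerivAt (fun y => hcF r h j y (Fin.init α))
      ((EuclideanSpace.proj (Fin.init α) : TT n (j + 1) →L[ℝ] ℝ).comp (fderiv ℝ (hcF r h j) y)) y :=
    (EuclideanSpace.proj (Fin.init α) : TT n (j + 1) →L[ℝ] ℝ).hasFDerivAt.comp y hd
  have h3 := h2.unique hL
  have h4 := hLi (α (Fin.last _))
  rw [← h3, Fin.snoc_init_self] at h4
  simpa [tD, dI] using h4

/-- order zero: `hcF r h 0 = vecT (y ↦ E h(y + √r G))` -/
theorem s5b_hcF_zero {r : ℝ} (hr : 0 < r) {h : EE n → EE n} (hh : ∀ a, GrowS r (fun u => h u a)) :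
    hcF r h 0 = vecT (fun y => ∫ z, h (y + Real.sqrt r • z) ∂(gam n)) := by
  funext y
  ext α
  have hi : ∀ a, Integrable (fun z => h (y + Real.sqrt r • z) a) (gam n) := by
    intro a
    have := s5b_hcS_integrable hr (hh a) 0 (fun k => k.elim0) y
    simpa [s5b_hm_zero] using this
  have hI : Integrable (fun z => h (y + Real.sqrt r • z)) (gam n) := Integrable.of_eval_piLp hi
  have e := (EuclideanSpace.proj (α 0) : EE n →L[ℝ] ℝ).integral_comp_comm hI
  simp only [hcF, vecT, hcS, s5b_hm_zero, mul_one, pow_zero, one_mul]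
  exact e

/-- squared norm of `hcF` in terms of the scalar coefficients (`α = Fin.cons a β`) -/
theorem s5b_hcF_norm {r : ℝ} (hr : 0 < r) (h : EE n → EE n) (j : ℕ) (y : EE n) :
    r ^ j * ‖hcF r h j y‖ ^ 2 = ∑ a, ∑ β : Idx n j, hcS r (fun u => h u a) j β y ^ 2 := by
  have hs : r ^ j * ((Real.sqrt r)⁻¹ ^ j) ^ 2 = 1 := by
    rw [← pow_mul, mul_comm j 2, pow_mul, inv_pow, Real.sq_sqrt hr.le, inv_pow]
    exact mul_inv_cancel₀ (pow_ne_zero _ hr.ne')
  rw [EuclideanSpace.norm_sq_eq, Finset.mul_sum]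
  rw [← (Fin.consEquiv (fun _ : Fin (j + 1) => Fin n)).sum_comp, Fintype.sum_prod_type]
  refine Finset.sum_congr rfl fun a _ => Finset.sum_congr rfl fun β _ => ?_
  simp only [hcF, Fin.consEquiv, Equiv.coe_fn_mk, Fin.cons_zero, Fin.tail_cons, Real.norm_eq_abs,
    sq_abs, mul_pow]
  rw [← mul_assoc, hs, one_mul]

end Claimed.Agent.R259
end

/- ===== packed: Claimed.Agent.R259.S5BesPost ===== -/
section
/-
Row 259 (S0499), Lemma 5.2: the posterior mean `h_r = postE (dm η) r w` and the law of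
`U_r = Y + √r G` (leaf L-s5b-post).  Blueprint owner: helper202.  DONE (helper221), statements verbatim, no own sorry.
Extra exports (prefix `s5bp_`): s5bp_postE_eq (postE = hpost, rfl), s5bp_gam (gam n = stdGaussian), s5bp_prob, s5bp_ball_pos,
s5bp_gconv_lower, s5bp_num_continuous, s5bp_gconv_continuous, s5bp_post_continuous (postE m r w is CONTINUOUS for integrable w),
s5bp_law (Banach valued: Φ integrable for the law of U_r => (y,z) -> Φ (y + √r z) integrable for dm η x gam n).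
-/
set_option autoImplicit false
set_option linter.unusedSectionVars false
set_option linter.style.haveILetI false

open MeasureTheory
open scoped ContDiff BigOperators

namespace Claimed.Agent.R259

variable {n : ℕ} {η : EE n → ℝ}

theorem s5bp_postE_eq {V : Type} [NormedAddCommGroup V] [NormedSpace ℝ V] (μ : Measure (EE n))
    (r : ℝ) (F : EE n → V) : postE μ r F = hpost μ r F := rfl

theorem s5bp_gam : gam n = ProbabilityTheory.stdGaussian (EE n) := by
  unfold gam
  rw [gc_dm_gk one_pos]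
  simp

theorem s5bp_prob (h : SPD η) : IsProbabilityMeasure (dm η) := by
  obtain ⟨hc, hpos, hint⟩ := h
  constructor
  unfold dm
  have hi : Integrable η := by
    by_contra hcon
    rw [integral_undef hcon] at hint
    exact zero_ne_one hint
  rw [withDensity_apply _ MeasurableSet.univ, Measure.restrict_univ,
    ← ofReal_integral_eq_lintegral_ofReal hi (Filter.Eventually.of_forall fun z => (hpos z).le),
    hint, ENNReal.ofReal_one]

theorem s5bp_ball_pos (h : SPD η) : 0 < (dm η).real (Metric.ball (0 : EE n) 1) := by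
  haveI := s5bp_prob h
  rw [Measure.real, ENNReal.toReal_pos_iff]
  refine ⟨?_, measure_lt_top _ _⟩
  rw [pos_iff_ne_zero]
  intro h0
  unfold dm at h0
  rw [withDensity_apply_eq_zero' (by
    have := h.1.continuous.measurable
    fun_prop)] at h0
  have : {x | ENNReal.ofReal (η x) ≠ 0} = Set.univ := by
    ext x
    simp [h.2.1 x]
  rw [this, Set.univ_inter] at h0
  exact (Metric.measure_ball_pos volume (0 : EE n) one_pos).ne' h0

/-- lower bound of the regularised density -/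
theorem s5bp_gconv_lower (h : SPD η) {r : ℝ} (hr : 0 < r) (u : EE n) :
    (2 * Real.pi * r) ^ (-(Module.finrank ℝ (EE n) : ℝ) / 2) * Real.exp (-(‖u‖ + 1) ^ 2 / (2 * r))
      * (dm η).real (Metric.ball (0 : EE n) 1) ≤ gconv (dm η) r u := by
  haveI := s5bp_prob h
  set c := (2 * Real.pi * r) ^ (-(Module.finrank ℝ (EE n) : ℝ) / 2)
    * Real.exp (-(‖u‖ + 1) ^ 2 / (2 * r)) with hc
  have h1 : ∫ _y in Metric.ball (0 : EE n) 1, c ∂(dm η) ≤ ∫ y in Metric.ball (0 : EE n) 1, gk r (u - y) ∂(dm η) := by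
    refine setIntegral_mono_on (integrable_const _).integrableOn
      (gck_gconv_integrable hr u).integrableOn measurableSet_ball fun y hy => ?_
    rw [hc]
    unfold gk
    apply mul_le_mul_of_nonneg_left _ (Real.rpow_nonneg (by positivity) _)
    apply Real.exp_le_exp.2
    rw [neg_div, neg_div]
    apply neg_le_neg
    apply div_le_div_of_nonneg_right _ (by positivity)
    have hy1 : ‖y‖ < 1 := by simpa using hy
    have : ‖u - y‖ ≤ ‖u‖ + 1 := (norm_sub_le u y).trans (by linarith)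
    exact pow_le_pow_left₀ (norm_nonneg _) this 2
  have h2 : ∫ y in Metric.ball (0 : EE n) 1, gk r (u - y) ∂(dm η) ≤ gconv (dm η) r u :=
    setIntegral_le_integral (gck_gconv_integrable hr u)
      (Filter.Eventually.of_forall fun y => (gc_gk_pos hr _).le)
  rw [setIntegral_const, smul_eq_mul, mul_comm] at h1
  exact h1.trans h2

theorem s5bp_num_continuous {m : Measure (EE n)} [IsProbabilityMeasure m] {w : EE n → EE n}
    (hw : Integrable w m) (r : ℝ) (hr : 0 < r) :
    Continuous (fun u => ∫ y, gk r (u - y) • w y ∂m) := by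
  have hc := gck_continuous (E := EE n) r
  refine continuous_of_dominated (bound := fun y =>
    (2 * Real.pi * r) ^ (-(Module.finrank ℝ (EE n) : ℝ) / 2) * ‖w y‖) (fun u => ?_) (fun u => ?_)
    (hw.norm.const_mul _) (Filter.Eventually.of_forall fun y => by fun_prop)
  · exact (hcx_int_k hr hw u).aestronglyMeasurable
  · refine Filter.Eventually.of_forall fun y => ?_
    rw [norm_smul, Real.norm_eq_abs, abs_of_pos (gc_gk_pos hr _)]
    exact mul_le_mul_of_nonneg_right (gck_le hr _) (norm_nonneg _)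

theorem s5bp_gconv_continuous {m : Measure (EE n)} [IsProbabilityMeasure m] (r : ℝ) (hr : 0 < r) :
    Continuous (gconv m r) := by
  have hc := gck_continuous (E := EE n) r
  unfold gconv
  refine continuous_of_dominated (bound := fun _ =>
    (2 * Real.pi * r) ^ (-(Module.finrank ℝ (EE n) : ℝ) / 2)) (fun u => ?_) (fun u => ?_)
    (integrable_const _) (Filter.Eventually.of_forall fun y => by fun_prop)
  · exact (gck_gconv_integrable hr u).aestronglyMeasurable
  · refine Filter.Eventually.of_forall fun y => ?_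
    rw [Real.norm_eq_abs, abs_of_pos (gc_gk_pos hr _)]
    exact gck_le hr _

theorem s5bp_post_continuous {m : Measure (EE n)} [IsProbabilityMeasure m] {w : EE n → EE n}
    (hw : Integrable w m) (r : ℝ) (hr : 0 < r) : Continuous (postE m r w) := by
  unfold postE
  exact ((s5bp_gconv_continuous r hr).inv₀ fun u => (gcm_gconv_pos hr u).ne').smul
    (s5bp_num_continuous hw r hr)

theorem s5bp_real_aux {c e β W X : ℝ} (hc0 : 0 < c) (he0 : 0 < e) (hβ0 : 0 < β)
    (h4 : c * e * β * X ≤ c * W) : X ≤ W / β * e⁻¹ := by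
  rw [div_mul_eq_mul_div, le_div_iff₀ hβ0, ← div_eq_mul_inv, le_div_iff₀ he0]
  have : c * (X * β * e) ≤ c * W := by
    calc c * (X * β * e) = c * e * β * X := by ring
      _ ≤ c * W := h4
  exact le_of_mul_le_mul_left this hc0

theorem s5b_post_grow (hη : SPD η) {w : EE n → EE n} (hw : MemLp w 2 (dm η)) {r : ℝ} (hr : 0 < r)
    (a : Fin n) : GrowS r (fun u => postE (dm η) r w u a) := by
  haveI := s5bp_prob hη
  have hw1 : Integrable w (dm η) := hw.integrable (by norm_num)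
  have hcont := s5bp_post_continuous hw1 r hr
  refine ⟨?_, ?_⟩
  · have : Continuous (fun u => postE (dm η) r w u a) :=
      (EuclideanSpace.proj a : EE n →L[ℝ] ℝ).continuous.comp hcont
    exact this.measurable
  set β := (dm η).real (Metric.ball (0 : EE n) 1) with hβ
  have hβ0 : 0 < β := s5bp_ball_pos hη
  set W := ∫ y, ‖w y‖ ^ 2 ∂(dm η) with hW
  have hW0 : 0 ≤ W := integral_nonneg fun y => by positivity
  set c := (2 * Real.pi * r) ^ (-(Module.finrank ℝ (EE n) : ℝ) / 2) with hc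
  have hc0 : 0 < c := Real.rpow_pos_of_pos (by positivity) _
  refine ⟨Real.sqrt (W / β), fun u => ?_⟩
  have h1 : |postE (dm η) r w u a| ≤ ‖postE (dm η) r w u‖ := by
    rw [← Real.norm_eq_abs]
    exact PiLp.norm_apply_le _ a
  refine h1.trans ?_
  have hZ := gcm_gconv_pos (μ := dm η) hr u
  have h2 : gconv (dm η) r u * ‖postE (dm η) r w u‖ ^ 2 ≤ c * W := by
    refine (hcx_pt hr hw u).trans ?_
    rw [hW, ← integral_const_mul]
    refine integral_mono (hcx_int_k hr (hcx_sq_int hw) u) ((hcx_sq_int hw).const_mul _) fun y => ?_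
    exact mul_le_mul_of_nonneg_right (gck_le hr _) (by positivity)
  have h3 := s5bp_gconv_lower hη hr u
  rw [← hc, ← hβ] at h3
  set e := Real.exp (-(‖u‖ + 1) ^ 2 / (2 * r)) with he
  have he0 : 0 < e := Real.exp_pos _
  have h4 : c * e * β * ‖postE (dm η) r w u‖ ^ 2 ≤ c * W :=
    (mul_le_mul_of_nonneg_right h3 (by positivity)).trans h2
  have h5 : ‖postE (dm η) r w u‖ ^ 2 ≤ W / β * e⁻¹ := s5bp_real_aux hc0 he0 hβ0 h4
  have h6 : e⁻¹ = Real.exp ((‖u‖ + 1) ^ 2 / (4 * r)) ^ 2 := by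
    rw [he, ← Real.exp_neg, ← Real.exp_nat_mul]
    congr 1
    push_cast
    field_simp
    ring
  rw [h6] at h5
  have h7 : ‖postE (dm η) r w u‖ ^ 2
      ≤ (Real.sqrt (W / β) * Real.exp ((‖u‖ + 1) ^ 2 / (4 * r))) ^ 2 := by
    rw [mul_pow, Real.sq_sqrt (div_nonneg hW0 hβ0.le)]
    exact h5
  exact (abs_le_of_sq_le_sq' h7 (mul_nonneg (Real.sqrt_nonneg _) (Real.exp_pos _).le)).2

theorem s5b_post_memLp (hη : SPD η) {w : EE n → EE n} (hw : MemLp w 2 (dm η)) {r : ℝ}
    (hr : 0 < r) : MemLp (postE (dm η) r w) 2 (dm (gconv (dm η) r)) := by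
  haveI := s5bp_prob hη
  exact hcx_hpost_memLp hr hw

/-- Fubini for functions of `U_r = Y + √r G`, Banach valued -/
theorem s5bp_law {V : Type} [NormedAddCommGroup V] [NormedSpace ℝ V] (hη : SPD η) {r : ℝ}
    (hr : 0 < r) {Φ : EE n → V} (hΦ : Integrable Φ (dm (gconv (dm η) r))) :
    Integrable (fun p : EE n × EE n => Φ (p.1 + Real.sqrt r • p.2)) ((dm η).prod (gam n)) := by
  haveI := s5bp_prob hη
  rw [gc_law hr, integrable_map_measure hΦ.aestronglyMeasurable (by fun_prop)] at hΦ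
  · rw [s5bp_gam]
    exact hΦ


/-- Fubini for functions of `U_r = Y + √r G` -/
theorem s5b_law (hη : SPD η) {r : ℝ} (hr : 0 < r) {Φ : EE n → ℝ}
    (hΦ : Integrable Φ (dm (gconv (dm η) r))) :
    (∀ᵐ y ∂(dm η), Integrable (fun z => Φ (y + Real.sqrt r • z)) (gam n)) ∧
    Integrable (fun y => ∫ z, Φ (y + Real.sqrt r • z) ∂(gam n)) (dm η) ∧
    ∫ y, ∫ z, Φ (y + Real.sqrt r • z) ∂(gam n) ∂(dm η) = ∫ u, Φ u ∂(dm (gconv (dm η) r)) := by
  haveI := s5bp_prob hη
  haveI : IsProbabilityMeasure (gam n) := by rw [s5bp_gam]; infer_instance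
  have h := s5bp_law hη hr hΦ
  refine ⟨h.prod_right_ae, h.integral_prod_left, ?_⟩
  rw [← integral_prod _ h]
  have hΦ' := hΦ
  rw [gc_law hr] at hΦ' ⊢
  rw [integral_map (by fun_prop) hΦ'.aestronglyMeasurable, s5bp_gam]

/-- the projection property of the conditional expectation:
`E⟨w(Y), h(U_r)⟩ = E|h(U_r)|²` -/
theorem s5b_post_corr (hη : SPD η) {w : EE n → EE n} (hw : MemLp w 2 (dm η)) {r : ℝ}
    (hr : 0 < r) :
    ∫ y, inner ℝ (w y) (∫ z, postE (dm η) r w (y + Real.sqrt r • z) ∂(gam n)) ∂(dm η) =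
      nSq (gconv (dm η) r) (postE (dm η) r w) := by
  haveI := s5bp_prob hη
  haveI : IsProbabilityMeasure (gam n) := by rw [s5bp_gam]; infer_instance
  haveI := gc_isProb (μ := dm η) hr
  have hw1 : Integrable w (dm η) := hw.integrable (by norm_num)
  set h := postE (dm η) r w with hh
  have hcont : Continuous h := s5bp_post_continuous hw1 r hr
  have hL2 : MemLp h 2 (dm (gconv (dm η) r)) := s5b_post_memLp hη hw hr
  have hh1 : Integrable h (dm (gconv (dm η) r)) := hL2.integrable (by norm_num)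
  have hh2 : Integrable (fun u => ‖h u‖ ^ 2) (dm (gconv (dm η) r)) := hcx_sq_int hL2
  -- integrability on the product space
  have hP1 := s5bp_law hη hr hh1
  have hP2 := s5bp_law hη hr hh2
  have hW2 : Integrable (fun p : EE n × EE n => ‖w p.1‖ ^ 2) ((dm η).prod (gam n)) :=
    (hcx_sq_int hw).comp_fst _
  have hF : Integrable (fun p : EE n × EE n => inner ℝ (w p.1) (h (p.1 + Real.sqrt r • p.2)))
      ((dm η).prod (gam n)) := by
    refine (hW2.add hP2).mono' ?_ (Filter.Eventually.of_forall fun p => ?_)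
    · exact hw.aestronglyMeasurable.comp_fst.inner hP1.aestronglyMeasurable
    · rw [Real.norm_eq_abs]
      have h1 := abs_real_inner_le_norm (w p.1) (h (p.1 + Real.sqrt r • p.2))
      show _ ≤ ‖w p.1‖ ^ 2 + ‖h (p.1 + Real.sqrt r • p.2)‖ ^ 2
      nlinarith [sq_nonneg (‖w p.1‖ - ‖h (p.1 + Real.sqrt r • p.2)‖), norm_nonneg (w p.1),
        norm_nonneg (h (p.1 + Real.sqrt r • p.2))]
  -- step 1: pull the inner product inside
  have e1 : ∫ y, inner ℝ (w y) (∫ z, h (y + Real.sqrt r • z) ∂(gam n)) ∂(dm η)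
      = ∫ p, inner ℝ (w p.1) (h (p.1 + Real.sqrt r • p.2)) ∂((dm η).prod (gam n)) := by
    rw [integral_prod _ hF]
    refine integral_congr_ae ?_
    filter_upwards [hP1.prod_right_ae] with y hy
    exact (integral_inner (𝕜 := ℝ) hy (w y)).symm
  rw [e1]
  -- step 2: disintegration
  have hJ : Integrable (fun q : EE n × EE n => inner ℝ (w q.1) (h q.2))
      (((dm η).prod (ProbabilityTheory.stdGaussian (EE n))).map
        (fun p => (p.1, p.1 + Real.sqrt r • p.2))) := by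
    rw [integrable_map_measure _ (by fun_prop)]
    · rw [← s5bp_gam]
      exact hF
    · rw [gck_joint_law hr]
      refine AEStronglyMeasurable.mono_ac (withDensity_absolutelyContinuous _ _) ?_
      exact hw.aestronglyMeasurable.comp_fst.inner
        (hcont.comp continuous_snd).aestronglyMeasurable
  have e2 := gc_joint (μ := dm η) hr hJ
  rw [s5bp_gam, e2]
  unfold nSq
  rw [gck_integral_dm (gck_gconv_measurable r) (gck_gconv_nonneg hr)]
  refine integral_congr_ae (Filter.Eventually.of_forall fun u => ?_)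
  show ∫ x, gk r (u - x) * inner ℝ (w x) (h u) ∂(dm η) = gconv (dm η) r u • ‖h u‖ ^ 2
  have e3 : ∀ x, gk r (u - x) * inner ℝ (w x) (h u) = inner ℝ (h u) (gk r (u - x) • w x) := by
    intro x
    rw [real_inner_smul_right, real_inner_comm]
  simp_rw [e3]
  rw [integral_inner (𝕜 := ℝ) (hcx_int_k hr hw1 u)]
  have e4 : ∫ x, gk r (u - x) • w x ∂(dm η) = gconv (dm η) r u • h u := by
    rw [hh]
    unfold postE
    rw [smul_smul, mul_inv_cancel₀ (gcm_gconv_pos hr u).ne', one_smul]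
  rw [e4, real_inner_smul_right, real_inner_self_eq_norm_sq, smul_eq_mul]

end Claimed.Agent.R259
end

/- ===== packed: Claimed.Agent.R259.S5BesMain ===== -/
section
/-
Row 259 (S0499), Lemma 5.2 (Bessel inequality for the prediction): GLUE.  Owner: helper202.
-/
set_option autoImplicit false

open MeasureTheory
open scoped ContDiff BigOperators

namespace Claimed.Agent.R259

variable {n : ℕ}

/-- pointwise Bessel inequality for the fields `hcF` -/
theorem s5b_pointwise {r : ℝ} (hr : 0 < r) {h : EE n → EE n} (hh : ∀ a, GrowS r (fun u => h u a))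
    {y : EE n} (hy : Integrable (fun z => ‖h (y + Real.sqrt r • z)‖ ^ 2) (gam n)) (J : ℕ) :
    ∑ j ∈ Finset.range (J + 1), r ^ j / (j.factorial : ℝ) * ‖hcF r h j y‖ ^ 2 ≤
      ∫ z, ‖h (y + Real.sqrt r • z)‖ ^ 2 ∂(gam n) := by
  have hmeas : ∀ a, Measurable (fun z : EE n => h (y + Real.sqrt r • z) a) := fun a =>
    (hh a).1.comp (by fun_prop)
  have hsq : ∀ a, Integrable (fun z => (h (y + Real.sqrt r • z) a) ^ 2) (gam n) := by
    intro a
    refine hy.mono' ((hmeas a).pow_const 2).aestronglyMeasurable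
      (Filter.Eventually.of_forall fun z => ?_)
    rw [Real.norm_eq_abs, abs_of_nonneg (by positivity), EuclideanSpace.norm_sq_eq]
    have := Finset.single_le_sum (f := fun i => ‖h (y + Real.sqrt r • z) i‖ ^ 2)
      (fun i _ => by positivity) (Finset.mem_univ a)
    simpa [Real.norm_eq_abs, sq_abs] using this
  have hL2 : ∀ a, MemLp (fun z => h (y + Real.sqrt r • z) a) 2 (gam n) := fun a =>
    (memLp_two_iff_integrable_sq (hmeas a).aestronglyMeasurable).mpr (hsq a)
  have hb := fun a => s5b_hm_bessel (hL2 a) J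
  calc ∑ j ∈ Finset.range (J + 1), r ^ j / (j.factorial : ℝ) * ‖hcF r h j y‖ ^ 2
      = ∑ j ∈ Finset.range (J + 1), ∑ a, ((j.factorial : ℝ))⁻¹ *
          ∑ β : Idx n j, hcS r (fun u => h u a) j β y ^ 2 := by
        refine Finset.sum_congr rfl fun j _ => ?_
        rw [← Finset.mul_sum, ← s5b_hcF_norm hr h j y]
        ring
    _ = ∑ a, ∑ j ∈ Finset.range (J + 1), ((j.factorial : ℝ))⁻¹ *
          ∑ β : Idx n j, hcS r (fun u => h u a) j β y ^ 2 := Finset.sum_comm
    _ ≤ ∑ a, ∫ z, (h (y + Real.sqrt r • z) a) ^ 2 ∂(gam n) :=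
        Finset.sum_le_sum fun a _ => hb a
    _ = ∫ z, ‖h (y + Real.sqrt r • z)‖ ^ 2 ∂(gam n) := by
        rw [← integral_finsetSum _ fun a _ => hsq a]
        refine integral_congr_ae (Filter.Eventually.of_forall fun z => ?_)
        simp only [EuclideanSpace.norm_sq_eq, Real.norm_eq_abs, sq_abs]

/-- LEMMA 5.2 (statement of `s5_bessel`). -/
theorem s5b_main (Z : HiInput n) {r : ℝ} (hr : 0 < r) :
    (∀ j, ContDiff ℝ ∞ (Z.gD r j)) ∧ (∀ j, MemLp (Z.gD r j) 2 (dm Z.η)) ∧
    ipF Z.η (vecT Z.w) (Z.gD r 0) = predM Z.η Z.w r * Z.I ∧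
    ∀ J : ℕ, ∑ j ∈ Finset.range (J + 1), r ^ j / (j.factorial : ℝ) * nSq Z.η (Z.gD r j)
      ≤ predM Z.η Z.w r * Z.I := by
  have hI : 0 < Z.I := Z.I_pos
  set h := Z.hR r with hh0
  have hh : ∀ a, GrowS r (fun u => h u a) := fun a => s5b_post_grow Z.spd Z.w_L2 hr a
  have hgD : ∀ j, Z.gD r j = hcF r h j := by
    intro j
    induction j with
    | zero => exact (s5b_hcF_zero hr hh).symm
    | succ j ih =>
      show tD (Z.gD r j) = _
      rw [ih, s5b_hcF_tD hr hh]
  have hsm : ∀ j, ContDiff ℝ ∞ (hcF r h j) :=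
    s5b_family_smooth (fun j => hcF r h j) (s5b_hcF_differentiable hr hh) (s5b_hcF_tD hr hh)
  have hpost := s5b_post_memLp Z.spd Z.w_L2 hr
  have hΦ : Integrable (fun u => ‖h u‖ ^ 2) (dm (gconv (dm Z.η) r)) :=
    (memLp_two_iff_integrable_sq_norm hpost.1).mp hpost
  obtain ⟨hae, hΨ, hint⟩ := s5b_law Z.spd hr hΦ
  have hpred : predM Z.η Z.w r * Z.I = ∫ u, ‖h u‖ ^ 2 ∂(dm (gconv (dm Z.η) r)) := by
    unfold predM HiInput.I
    rw [div_mul_cancel₀ _ Z.I_pos.ne']
    rfl
  have hpt : ∀ J : ℕ, ∀ᵐ y ∂(dm Z.η),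
      ∑ j ∈ Finset.range (J + 1), r ^ j / (j.factorial : ℝ) * ‖hcF r h j y‖ ^ 2 ≤
        ∫ z, ‖h (y + Real.sqrt r • z)‖ ^ 2 ∂(gam n) := fun J => by
    filter_upwards [hae] with y hy
    exact s5b_pointwise hr hh hy J
  have hsqint : ∀ j, Integrable (fun y => ‖hcF r h j y‖ ^ 2) (dm Z.η) := by
    intro j
    have hc : (0 : ℝ) < r ^ j / (j.factorial : ℝ) := by positivity
    refine (hΨ.const_mul (r ^ j / (j.factorial : ℝ))⁻¹).mono'
      ((hsm j).continuous.norm.pow 2).aestronglyMeasurable ?_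
    filter_upwards [hpt j] with y hy
    rw [Real.norm_eq_abs, abs_of_nonneg (by positivity)]
    have h1 : r ^ j / (j.factorial : ℝ) * ‖hcF r h j y‖ ^ 2 ≤
        ∑ i ∈ Finset.range (j + 1), r ^ i / (i.factorial : ℝ) * ‖hcF r h i y‖ ^ 2 :=
      Finset.single_le_sum (f := fun i => r ^ i / (i.factorial : ℝ) * ‖hcF r h i y‖ ^ 2)
        (fun i _ => by positivity) (Finset.self_mem_range_succ j)
    rw [inv_mul_eq_div, le_div_iff₀ hc, mul_comm]
    exact h1.trans hy
  refine ⟨fun j => by rw [hgD]; exact hsm j, fun j => ?_, ?_, fun J => ?_⟩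
  · rw [hgD]
    exact (memLp_two_iff_integrable_sq_norm (hsm j).continuous.aestronglyMeasurable).mpr (hsqint j)
  · rw [hpred]
    have := s5b_post_corr Z.spd Z.w_L2 hr
    unfold nSq at this
    refine Eq.trans ?_ this
    unfold ipF
    refine integral_congr_ae (Filter.Eventually.of_forall fun y => ?_)
    show inner ℝ (vecT Z.w y) (vecT (Z.gR r) y) = _
    rw [vecT_eq, vecT_eq, LinearIsometryEquiv.inner_map_map]
    rfl
  · rw [hpred, ← hint]
    simp_rw [hgD]
    unfold nSq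
    simp_rw [← integral_const_mul]
    rw [← integral_finsetSum _ fun j _ => (hsqint j).const_mul _]
    exact integral_mono_ae (integrable_finsetSum _ fun j _ => (hsqint j).const_mul _) hΨ (hpt J)

end Claimed.Agent.R259
end

/- ===== packed: Claimed.Agent.R259.S5Bessel ===== -/
section
/-
Row 259 (S0499), Lemma 5.2 of the paper.  EXPORT FILE of package BP-S5-bessel.
The package owner owns this file: keep names and statements, replace the sorries by citations of
helper files `S5Bessel*.lean` (which import `S5Defs`, never this file).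
-/
set_option autoImplicit false

open MeasureTheory ProbabilityTheory
open scoped ContDiff BigOperators Matrix
open Claimed.Agent.R260 (Mx mxFun mxSchur mxSq mxIP mxEig mxU mxRot)

namespace Claimed.Agent.R259

variable {n : ℕ}

/-- BP-S5-BESSEL (Lemma 5.2).  Smoothness, square integrability, correlation with `w` and the
Bessel inequality for the derivatives of `g_r`. -/
theorem s5_bessel (Z : HiInput n) {r : ℝ} (hr : 0 < r) :
    (∀ j, ContDiff ℝ ∞ (Z.gD r j)) ∧ (∀ j, MemLp (Z.gD r j) 2 (dm Z.η)) ∧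
    ipF Z.η (vecT Z.w) (Z.gD r 0) = predM Z.η Z.w r * Z.I ∧
    ∀ J : ℕ, ∑ j ∈ Finset.range (J + 1), r ^ j / (j.factorial : ℝ) * nSq Z.η (Z.gD r j)
      ≤ predM Z.η Z.w r * Z.I :=
  s5b_main Z hr

end Claimed.Agent.R259
end

/- ===== packed: Claimed.Agent.R259.S5TailIbpB ===== -/
section
/-
Row 259 (S0499), package BP-S5-tails: the correlation `⟨Dw, Dg_v⟩` (second half of leaf L-s5t-ibp).  helper125.
-/
set_option autoImplicit false

open MeasureTheory ProbabilityTheory
open scoped ContDiff BigOperators Matrix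
open Claimed.Agent.R260 (Mx)

namespace Claimed.Agent.R259

variable {n : ℕ}

theorem s5t_ibp_hm1 (z : EE n) (β : Idx n 1) : hm 1 z β = z (β 0) := by
  show ∏ i, he (cnt β i) (z i) = z (β 0)
  have hc : ∀ i, cnt β i = if β 0 = i then 1 else 0 := by
    intro i
    unfold cnt
    rw [Finset.univ_unique, Finset.filter_singleton]
    have h0 : (default : Fin 1) = 0 := rfl
    rw [h0]
    split_ifs <;> simp
  rw [Finset.prod_eq_single (β 0)]
  · rw [hc, if_pos rfl]
    simp [he]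
  · intro i _ hi
    rw [hc, if_neg (Ne.symm hi)]
    simp [he]
  · intro h
    exact absurd (Finset.mem_univ _) h

theorem s5t_ibp_gD1 (Z : HiInput n) {v : ℝ} (hv : 0 < v) (y : EE n) (α : Idx n (1 + 1)) :
    Z.gD v 1 y α = s5tX (postE (dm Z.η) v Z.w) v y (α 0) (α 1) := by
  have hh : ∀ a, GrowS v (fun u => Z.hR v u a) := fun a => s5b_post_grow Z.spd Z.w_L2 hv a
  have h0 : Z.gD v 0 = hcF v (Z.hR v) 0 := (s5b_hcF_zero hv hh).symm
  have h1 : Z.gD v 1 = hcF v (Z.hR v) 1 := by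
    show tD (Z.gD v 0) = _
    rw [h0, s5b_hcF_tD hv hh]
  rw [h1]
  show (Real.sqrt v)⁻¹ ^ 1 * hcS v (fun u => Z.hR v u (α 0)) 1 (Fin.tail α) y = _
  unfold hcS s5tX
  simp only [s5t_ibp_hm1, pow_one]
  rfl

theorem s5t_ibp_pt (Z : HiInput n) {v : ℝ} (hv : 0 < v) (y : EE n) :
    hsI (s5tQ Z.w y) (s5tX (postE (dm Z.η) v Z.w) v y)
      = inner ℝ (tD (vecT Z.w) y) (Z.gD v 1 y) := by
  have hw : DifferentiableAt ℝ Z.w y := (Z.w_smooth.differentiable (by norm_cast)) y
  rw [PiLp.inner_apply]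
  simp only [RCLike.inner_apply, conj_trivial, s5t_ibp_gD1 Z hv, s5cv_tD_apply hw]
  unfold hsI
  rw [← Fintype.sum_prod_type']
  refine (Fintype.sum_equiv (finTwoArrowEquiv (Fin n)) _ _ fun α => ?_).symm
  show _ = s5tQ Z.w y (α 0) (α 1) * _
  rw [mul_comm]
  rfl

/-- `⟨Dw, Dg_v⟩ = ⟨g_v, A w⟩` -/
theorem s5t_ibp_key (Z : HiInput n) {v : ℝ} (hv : 0 < v) :
    ipF Z.η (tD (vecT Z.w)) (Z.gD v 1) = ipF Z.η (Z.gD v 0) (opA Z.η (vecT Z.w)) := by
  obtain ⟨hsm, hL2, -, -⟩ := s5_bessel Z hv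
  have hAf2 : MemLp (opA Z.η (vecT Z.w)) 2 (dm Z.η) := s5cv_opA_memLp Z
  have hDf2 : MemLp (tD (vecT Z.w)) 2 (dm Z.η) := s5cv_tD_memLp Z
  set c : ℝ := Real.sqrt (nSq Z.η (Z.gD v 1)) + Real.sqrt (nSq Z.η (Z.gD v 0)) with hc
  have hc0 : 0 ≤ c := add_nonneg (Real.sqrt_nonneg _) (Real.sqrt_nonneg _)
  have hbound : ∀ t : ℝ, 0 < t →
      |ipF Z.η (tD (vecT Z.w)) (Z.gD v 1) - ipF Z.η (Z.gD v 0) (opA Z.η (vecT Z.w))|
        ≤ c * Real.sqrt t := by
    intro t ht
    obtain ⟨φ, hφ, -, a2, a3⟩ := s5l_approx Z ht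
    have hDφ2 : MemLp (tD φ) 2 (dm Z.η) := s5k_test_memLp Z.spd (s5k_tD_test hφ)
    have hAφ2 : MemLp (opA Z.η φ) 2 (dm Z.η) := s5k_test_memLp Z.spd (s5k_opA_test Z.spd hφ)
    have e1 : ipF Z.η (Z.gD v 1) (tD φ) = ipF Z.η (Z.gD v 0) (opA Z.η φ) :=
      s5k_ibp_tD Z.spd ((hsm 0).of_le (by norm_cast)) hφ
    have e2 := s5k_ip_sub_right (hL2 1) hDφ2 hDf2
    have e3 := s5k_ip_sub_right (hL2 0) hAφ2 hAf2
    have b2 := s5k_ip_abs_le (hL2 1) (hDφ2.sub hDf2)
    have b3 := s5k_ip_abs_le (hL2 0) (hAφ2.sub hAf2)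
    have c2 : Real.sqrt (nSq Z.η (fun y => tD φ y - tD (vecT Z.w) y)) ≤ Real.sqrt t :=
      Real.sqrt_le_sqrt a2
    have c3 : Real.sqrt (nSq Z.η (fun y => opA Z.η φ y - opA Z.η (vecT Z.w) y)) ≤ Real.sqrt t :=
      Real.sqrt_le_sqrt a3
    have d2 : |ipF Z.η (Z.gD v 1) (fun y => tD φ y - tD (vecT Z.w) y)|
        ≤ Real.sqrt (nSq Z.η (Z.gD v 1)) * Real.sqrt t :=
      b2.trans (mul_le_mul_of_nonneg_left c2 (Real.sqrt_nonneg _))
    have d3 : |ipF Z.η (Z.gD v 0) (fun y => opA Z.η φ y - opA Z.η (vecT Z.w) y)|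
        ≤ Real.sqrt (nSq Z.η (Z.gD v 0)) * Real.sqrt t :=
      b3.trans (mul_le_mul_of_nonneg_left c3 (Real.sqrt_nonneg _))
    have e4 : ipF Z.η (tD (vecT Z.w)) (Z.gD v 1) - ipF Z.η (Z.gD v 0) (opA Z.η (vecT Z.w))
        = ipF Z.η (Z.gD v 0) (fun y => opA Z.η φ y - opA Z.η (vecT Z.w) y)
          - ipF Z.η (Z.gD v 1) (fun y => tD φ y - tD (vecT Z.w) y) := by
      rw [e2, e3, e1, s5k_ip_comm (tD (vecT Z.w))]
      ring
    rw [e4, hc]
    have := abs_sub (ipF Z.η (Z.gD v 0) (fun y => opA Z.η φ y - opA Z.η (vecT Z.w) y))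
      (ipF Z.η (Z.gD v 1) (fun y => tD φ y - tD (vecT Z.w) y))
    nlinarith
  apply eq_of_abs_sub_le_all
  intro ε hε
  have ht : 0 < (ε / (c + 1)) ^ 2 := by positivity
  refine (hbound _ ht).trans ?_
  rw [Real.sqrt_sq (by positivity)]
  have : c * (ε / (c + 1)) = c / (c + 1) * ε := by ring
  rw [this]
  have h1 : c / (c + 1) ≤ 1 := by
    rw [div_le_one (by positivity)]
    linarith
  nlinarith

/-- `⟨Dw, Dg_v⟩ ≥ (m(v) - √(δ m(v))) I` -/
theorem s5t_ibp_corr (Z : HiInput n) {δ : ℝ} (hS : Z.Small δ) {v : ℝ} (hv : 0 < v) :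
    predM Z.η Z.w v * Z.I - Real.sqrt (δ * predM Z.η Z.w v) * Z.I
      ≤ s5tK Z.η Z.w (s5tQ Z.w) v := by
  obtain ⟨hsm, hL2, hcorr, hbes⟩ := s5_bessel Z hv
  have hI : 0 < Z.I := Z.I_pos
  have hf2 : MemLp (vecT Z.w) 2 (dm Z.η) := s5cc_vecT_memLp Z.w_L2
  have hAf2 : MemLp (opA Z.η (vecT Z.w)) 2 (dm Z.η) := s5cv_opA_memLp Z
  have hK : s5tK Z.η Z.w (s5tQ Z.w) v = ipF Z.η (tD (vecT Z.w)) (Z.gD v 1) := by
    unfold s5tK ipF
    simp only [s5t_ibp_pt Z hv]
  rw [hK, s5t_ibp_key Z hv]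
  set m := predM Z.η Z.w v with hm
  have hG0 : nSq Z.η (Z.gD v 0) ≤ m * Z.I := by
    have := hbes 0
    simpa using this
  have hmI : 0 ≤ m * Z.I := (s5k_nSq_nonneg _ _).trans hG0
  have b1 : nSq Z.η (fun y => opA Z.η (vecT Z.w) y - vecT Z.w y) ≤ δ * Z.I := by
    rw [s5cv_opA Z.η (Z.w_smooth.of_le (by norm_cast))]
    simp only [s5cv_sub]
    rw [s5cv_nSq]
    exact hS.eigen
  have e1 : ipF Z.η (Z.gD v 0) (opA Z.η (vecT Z.w))
      = m * Z.I + ipF Z.η (Z.gD v 0) (fun y => opA Z.η (vecT Z.w) y - vecT Z.w y) := by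
    rw [s5k_ip_sub_right (hL2 0) hAf2 hf2, s5k_ip_comm (Z.gD v 0) (vecT Z.w), hcorr]
    ring
  have b2 := s5k_ip_abs_le (hL2 0) (hAf2.sub hf2)
  have b3 : Real.sqrt (nSq Z.η (Z.gD v 0))
      * Real.sqrt (nSq Z.η (fun y => opA Z.η (vecT Z.w) y - vecT Z.w y))
      ≤ Real.sqrt (m * Z.I) * Real.sqrt (δ * Z.I) :=
    mul_le_mul (Real.sqrt_le_sqrt hG0) (Real.sqrt_le_sqrt b1) (Real.sqrt_nonneg _)
      (Real.sqrt_nonneg _)
  have b4 : Real.sqrt (m * Z.I) * Real.sqrt (δ * Z.I) = Real.sqrt (δ * m) * Z.I := by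
    rw [← Real.sqrt_mul hmI]
    have : m * Z.I * (δ * Z.I) = δ * m * Z.I ^ 2 := by ring
    rw [this, Real.sqrt_mul' _ (by positivity), Real.sqrt_sq hI.le]
  rw [e1]
  have h6 : -(Real.sqrt (δ * m) * Z.I)
      ≤ ipF Z.η (Z.gD v 0) (fun y => opA Z.η (vecT Z.w) y - vecT Z.w y) :=
    (abs_le.mp (b2.trans (b3.trans b4.le))).1
  linarith

end Claimed.Agent.R259
end

/- ===== packed: Claimed.Agent.R259.S5TailIbp ===== -/
section
/-
Row 259 (S0499), package BP-S5-tails: the two facts about `Q = Dw` which use integration by parts (leaf L-s5t-ibp).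
Blueprint: helper125.  LEAF FILE: the seat that claims the leaf owns this file, keeps names and statements
and replaces every `sorry` by a proof (helper lemmas with prefix `s5t_ibp_` are welcome).  No paper needed.

Tools.  `op_core_classical_vec` (OP.lean) applied to `f = Z.w` (or `vecT Z.w = vecL ∘ Z.w`, `s5k_opA_clm`): `hsSq (fderiv w)` is integrable,
`∫ hsSq (fderiv w) = ∫ ⟨w, A w⟩`, and there are test fields `φ_k → w` in graph norm.  `s5k_hsSq : hsSq L = ∑ i, ‖L (eb i)‖²`, so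
`hsSq (fderiv ℝ w y) = hs2 (s5tQ w y)`.  `s5_bessel Z hv` (S5Bessel.lean): `gD v j` smooth, in `L²`, `ipF (vecT w) (gD v 0) = predM * I`,
`nSq (gD v 0) ≤ predM * I` (`J = 0`).  `s5k_ibp_tD` (S5KitIbp): `ipF (tD F) (tD T) = ipF F (opA η T)` for `T` test, `F ∈ C¹`.  `S5KitL2.lean`: Cauchy-Schwarz.
* `s5t_data`: `w` smooth; entries of `Q` are continuous; `RL2` from the integrability of `hs2 (Q y)` (`RL2.of_hs2_le`).
* `s5t_Q_norm`: `‖Q‖² = ⟨w, A w⟩ = I + ⟨w, (A-1)w⟩ ≤ I + √I √(δ I)`  (`Small.eigen`).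
* `s5t_Q_corr`: (a) pointwise `hsI (Q y) (s5tX h_v v y) = ⟨tD (vecT w) y, gD v 1 y⟩`, because `Z.gD v 1 = hcF v (Z.hR v) 1` (first lines of the proof of
  `s5b_main` in S5BesMain.lean: `s5b_hcF_zero`, `s5b_hcF_tD`, `s5b_post_grow`) and `hm 1 z β = z (β 0)`;
  (b) `⟨tD φ_k, gD v 1⟩ = ⟨opA η φ_k, gD v 0⟩` (`s5k_ibp_tD` with `F = gD v 0`, `tD (gD v 0) = gD v 1` by definition), pass to the limit `k → ∞` on both
  sides (Cauchy-Schwarz): `κ(v) = ⟨A w, g_v⟩`;   (c) `⟨A w, g_v⟩ = ⟨w, g_v⟩ + ⟨(A-1) w, g_v⟩ ≥ m I - √(δ I) √(m I)`.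
-/
set_option autoImplicit false

open MeasureTheory ProbabilityTheory
open scoped ContDiff BigOperators Matrix
open Claimed.Agent.R260 (Mx)

namespace Claimed.Agent.R259

variable {n : ℕ}

theorem s5t_ibp_hs2 (w : EE n → EE n) (y : EE n) : hs2 (s5tQ w y) = hsSq (fderiv ℝ w y) := by
  rw [s5k_hsSq, hs2, Finset.sum_comm]
  refine Finset.sum_congr rfl fun b _ => ?_
  rw [EuclideanSpace.real_norm_sq_eq]
  rfl

theorem s5t_ibp_RM (Z : HiInput n) : RM (s5tQ Z.w) := by
  intro a b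
  have h1 : Continuous (dI b Z.w) := (s5kt_dI_contDiff Z.w_smooth b).continuous
  exact ((EuclideanSpace.proj a : EE n →L[ℝ] ℝ).continuous.comp h1).measurable

theorem s5t_data (Z : HiInput n) : S5tData Z.η Z.w (s5tQ Z.w) := by
  have h := op_core_classical_vec Z.spd.1 Z.spd.2.1 Z.w_smooth Z.w_L2 Z.Aw_L2
  exact ⟨Z.spd, Z.w_smooth.continuous, Z.w_L2, s5t_ibp_RM Z,
    RL2.of_hs2_le (s5t_ibp_RM Z) h.1 fun y => (s5t_ibp_hs2 Z.w y).le⟩

theorem s5t_E_eq (Z : HiInput n) (v : ℝ) : s5tE Z.η Z.w v = predM Z.η Z.w v * Z.I := by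
  unfold s5tE predM HiInput.I
  rw [div_mul_cancel₀ _ Z.I_pos.ne']

/-- `‖Dw‖² ≤ (1 + √δ) I` -/
theorem s5t_Q_norm (Z : HiInput n) {δ : ℝ} (hS : Z.Small δ) :
    s5tN Z.η (s5tQ Z.w) ≤ (1 + Real.sqrt δ) * Z.I := by
  have h := op_core_classical_vec Z.spd.1 Z.spd.2.1 Z.w_smooth Z.w_L2 Z.Aw_L2
  have hI : 0 < Z.I := Z.I_pos
  have e1 : s5tN Z.η (s5tQ Z.w) = ipF Z.η Z.w (opA Z.η Z.w) := by
    unfold s5tN ipF
    simp only [s5t_ibp_hs2]
    exact h.2.1
  have hD : MemLp (fun y => opA Z.η Z.w y - Z.w y) 2 (dm Z.η) := Z.Aw_L2.sub Z.w_L2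
  have e2 : ipF Z.η Z.w (opA Z.η Z.w) = Z.I + ipF Z.η Z.w (fun y => opA Z.η Z.w y - Z.w y) := by
    rw [s5k_ip_sub_right Z.w_L2 Z.Aw_L2 Z.w_L2, s5k_ip_self]
    unfold HiInput.I
    ring
  have h3 := (le_abs_self _).trans (s5k_ip_abs_le Z.w_L2 hD)
  have h4 : Real.sqrt (nSq Z.η (fun y => opA Z.η Z.w y - Z.w y)) ≤ Real.sqrt (δ * Z.I) :=
    Real.sqrt_le_sqrt hS.eigen
  have hδ : 0 ≤ δ := by
    have := (s5k_nSq_nonneg Z.η (fun y => opA Z.η Z.w y - Z.w y)).trans hS.eigen
    by_contra hc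
    push Not at hc
    nlinarith
  have h5 : Real.sqrt (nSq Z.η Z.w) * Real.sqrt (δ * Z.I) = Real.sqrt δ * Z.I := by
    change Real.sqrt Z.I * Real.sqrt (δ * Z.I) = _
    rw [Real.sqrt_mul hδ, mul_comm (Real.sqrt δ), ← mul_assoc, Real.mul_self_sqrt hI.le, mul_comm]
  rw [e1, e2]
  have h6 := mul_le_mul_of_nonneg_left h4 (Real.sqrt_nonneg (nSq Z.η Z.w))
  linarith

/-- `⟨Dw, Dg_v⟩ ≥ (m(v) - √(δ m(v))) I` -/
theorem s5t_Q_corr (Z : HiInput n) {δ : ℝ} (hS : Z.Small δ) {v : ℝ} (hv : 0 < v) :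
    predM Z.η Z.w v * Z.I - Real.sqrt (δ * predM Z.η Z.w v) * Z.I
      ≤ s5tK Z.η Z.w (s5tQ Z.w) v :=
  s5t_ibp_corr Z hS hv

end Claimed.Agent.R259
end
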