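/- Packed by merge_tool.py (helper293): 7 modules of Claimed.Agent.R259 in one file, same declarations.
   Old modules, in this order: S5Con, S5Chain, S7ScOU, S7ScVal, S7FishB, S7FishD, S7Fish -/
import Claimed.Agent.R259.Pack019
import Claimed.Agent.R259.Pack017
import Claimed.Agent.R259.Pack016
import Claimed.Agent.R259.Pack027
import Claimed.Agent.R259.Pack048
import Claimed.Agent.R259.Pack035
import Claimed.Agent.R259.Pack021
import Claimed.Agent.R259.Pack002

/- ===== packed: Claimed.Agent.R259.S5Con ===== -/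
section
/-
Row 259 (S0499), Lemmas 5.3 and 5.4 of the paper.  EXPORT FILE of package BP-S5-constr.
The package owner owns this file: keep names and statements, replace the sorries by citations of
helper files `S5Con*.lean` (which import `S5Defs`, `S5Bessel`, never this file).
-/
set_option autoImplicit false

open MeasureTheory ProbabilityTheory
open scoped ContDiff BigOperators Matrix
open Claimed.Agent.R260 (Mx mxFun mxSchur mxSq mxIP mxEig mxU mxRot)

namespace Claimed.Agent.R259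

variable {n : ℕ}

/-- BP-S5-L0.  Level zero: a test field close to `w` in graph norm (`op_core_classical_vec`). -/
theorem s5_level0 : ∀ ε : ℝ, 0 < ε → ∃ δ : ℝ, 0 < δ ∧ ∀ (n : ℕ) (Z : HiInput n), Z.Small δ →
    ∃ T0 : EE n → TT n 1, Z.Lvl T0 ε ∧
      nSq Z.η (fun y => T0 y - vecT Z.w y) ≤ ε * Z.I ∧
      nSq Z.η (fun y => tD T0 y - tD (vecT Z.w) y) ≤ ε * Z.I :=
  s5l_main

/-- BP-S5-SMOOTH (Lemma 5.3, second half, resolvent-free form).  A smooth field which almost
saturates the Poincare inequality is `H¹`-close to a test field which is a strong approximate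
eigenfunction.  (Proof: Cauchy-Schwarz for the positive form `E(u,v) - lam <u,v>` on centred fields
and `op_core_dense_vec`.) -/
theorem s5_smooth : ∃ C : ℝ, ∀ (n : ℕ) (ι : Type) [Fintype ι] (η : EE n → ℝ) (lam I δ : ℝ), SPD η →
    PI (dm η) lam⁻¹ → 0 < I → 0 < δ → δ ≤ 1 / 4 → 1 - δ ≤ lam → lam ≤ 1 + δ →
    ∀ S : EE n → EuclideanSpace ℝ ι, ContDiff ℝ ∞ S → MemLp S 2 (dm η) → MemLp (fD S) 2 (dm η) →
      ‖meanF η S‖ ^ 2 ≤ δ * I → |nSq η S - I| ≤ δ * I → nSq η (fD S) ≤ (1 + δ) * I →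
      ∃ φ : EE n → EuclideanSpace ℝ ι, IsTestV φ ∧
        nSq η (fun y => φ y - S y) ≤ C * δ * I ∧ nSq η (fun y => fD φ y - fD S y) ≤ C * δ * I ∧
        nSq η (fun y => opA η φ y - φ y) ≤ C * δ * I :=
  s5s_main

/-- BP-S5-STEP (Lemma 5.4, induction step): Bessel budget, symmetrisation, centring, smoothing. -/
theorem s5_step (l : ℕ) : ∀ ε : ℝ, 0 < ε → ∃ δ : ℝ, 0 < δ ∧
    ∀ (n : ℕ) (Z : HiInput n) (T : (l : ℕ) → EE n → TT n (l + 1)), Z.Small δ → Z.Chain l T δ →
      ∃ T' : EE n → TT n (l + 1 + 1), Z.Lvl T' ε ∧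
        nSq Z.η (fun y => tD (T l) y - T' y) ≤ ε * Z.I :=
  s5c_step (fun _ Z _ hr => s5_bessel Z hr) s5_smooth s5c_center l

end Claimed.Agent.R259
end

/- ===== packed: Claimed.Agent.R259.S5Chain ===== -/
section
/-
Row 259 (S0499), Lemma 5.4 of the paper: GLUE (induction on the level).  Owner: helper88.
-/
set_option autoImplicit false

open MeasureTheory ProbabilityTheory
open scoped ContDiff BigOperators Matrix
open Claimed.Agent.R260 (Mx mxFun mxSchur mxSq mxIP mxEig mxU mxRot)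

namespace Claimed.Agent.R259

variable {n : ℕ}

theorem HiInput.I_pos' (Z : HiInput n) : 0 < Z.I := Z.I_pos

/-- the smallness hypotheses are monotone in the defect -/
theorem HiInput.Small.mono {Z : HiInput n} {δ δ' : ℝ} (h : Z.Small δ) (hd : δ ≤ δ') :
    Z.Small δ' := by
  have hI : 0 ≤ Z.I := Z.I_pos'.le
  have hm : δ * Z.I ≤ δ' * Z.I := mul_le_mul_of_nonneg_right hd hI
  have hv : ∀ v : EE n, δ * ‖v‖ ^ 2 ≤ δ' * ‖v‖ ^ 2 := fun v =>
    mul_le_mul_of_nonneg_right hd (by positivity)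
  refine ⟨by linarith [h.lam_lo], by linarith [h.lam_hi], h.eigen.trans hm, h.mean.trans hm,
    h.curv.trans hm, fun r h1 h2 => (h.pred r (hd.trans h1) (by linarith)).trans hd,
    h.projw.trans hm, fun v => (h.outb v).trans (hv v), fun v => (h.outom v).trans (hv v),
    fun v => (h.outM v).trans (hv v),
    fun ho r a h1 h2 h3 => (h.tail ho r a (hd.trans h1) (by linarith) (hd.trans h3)).trans hm⟩

theorem HiInput.Lvl.mono {Z : HiInput n} {d : ℕ} {T : EE n → TT n (d + 1)} {ε ε' : ℝ}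
    (h : Z.Lvl T ε) (hd : ε ≤ ε') : Z.Lvl T ε' := by
  have hm : ε * Z.I ≤ ε' * Z.I := mul_le_mul_of_nonneg_right hd Z.I_pos'.le
  exact ⟨h.test, h.symm, h.norm.trans hm, h.eigen.trans hm, h.mean.trans hm, h.proj.trans hm⟩

theorem HiInput.Chain.mono {Z : HiInput n} {L : ℕ} {T : (l : ℕ) → EE n → TT n (l + 1)} {ε ε' : ℝ}
    (h : Z.Chain L T ε) (hd : ε ≤ ε') : Z.Chain L T ε' := by
  have hm : ε * Z.I ≤ ε' * Z.I := mul_le_mul_of_nonneg_right hd Z.I_pos'.le
  exact ⟨fun l hl => (h.lvl l hl).mono hd, fun l hl => (h.deriv l hl).trans hm, h.zero.trans hm,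
    h.zeroD.trans hm⟩

/-- a chain restricts to lower levels -/
theorem HiInput.Chain.restrict {Z : HiInput n} {L L' : ℕ} {T : (l : ℕ) → EE n → TT n (l + 1)}
    {ε : ℝ} (h : Z.Chain L T ε) (hL : L' ≤ L) : Z.Chain L' T ε :=
  ⟨fun l hl => h.lvl l (hl.trans hL), fun l hl => h.deriv l (lt_of_lt_of_le hl hL), h.zero, h.zeroD⟩

/-- Lemma 5.4.  GLUE (induction on `L` from `s5_level0`, `s5_step`). -/
theorem s5_chain (L : ℕ) : ∀ ε : ℝ, 0 < ε → ∃ δ : ℝ, 0 < δ ∧
    ∀ (n : ℕ) (Z : HiInput n), Z.Small δ → ∃ T : (l : ℕ) → EE n → TT n (l + 1), Z.Chain L T ε := by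
  induction L with
  | zero =>
    intro ε hε
    obtain ⟨δ, hδ, H⟩ := s5_level0 ε hε
    refine ⟨δ, hδ, fun n Z hZ => ?_⟩
    obtain ⟨T0, h1, h2, h3⟩ := H n Z hZ
    refine ⟨Function.update (fun l => (0 : EE n → TT n (l + 1))) 0 T0, ?_, ?_, ?_, ?_⟩
    · intro l hl
      obtain rfl : l = 0 := by omega
      simpa using h1
    · intro l hl
      omega
    · simpa using h2
    · simpa using h3
  | succ L ih =>
    intro ε hε
    obtain ⟨δ1, hδ1, H1⟩ := s5_step L ε hε
    obtain ⟨δ2, hδ2, H2⟩ := ih (min ε δ1) (lt_min hε hδ1)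
    refine ⟨min δ1 δ2, lt_min hδ1 hδ2, fun n Z hZ => ?_⟩
    obtain ⟨T, hT⟩ := H2 n Z (hZ.mono (min_le_right _ _))
    obtain ⟨T', hT', hd⟩ := H1 n Z T (hZ.mono (min_le_left _ _)) (hT.mono (min_le_right _ _))
    have hTε : Z.Chain L T ε := hT.mono (min_le_left _ _)
    have hne : ∀ l, l ≤ L → Function.update T (L + 1) T' l = T l := fun l hl =>
      Function.update_of_ne (by omega) _ _
    refine ⟨Function.update T (L + 1) T', ?_, ?_, ?_, ?_⟩
    · intro l hl
      rcases Nat.lt_or_ge l (L + 1) with h | h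
      · rw [hne l (by omega)]
        exact hTε.lvl l (by omega)
      · obtain rfl : l = L + 1 := by omega
        simpa using hT'
    · intro l hl
      rcases Nat.lt_or_ge l L with h | h
      · rw [hne l (by omega), hne (l + 1) (by omega)]
        exact hTε.deriv l h
      · obtain rfl : l = L := by omega
        rw [hne l le_rfl, Function.update_self]
        exact hd
    · rw [hne 0 (by omega)]
      exact hTε.zero
    · rw [hne 0 (by omega)]
      exact hTε.zeroD

end Claimed.Agent.R259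
end

/- ===== packed: Claimed.Agent.R259.S7ScOU ===== -/
section
/-
Row 259 (S0499), package BP-S7-SCALAR: the Ornstein-Uhlenbeck semigroup on nice functions.
de Bruijn's identity (only `C¹` is used) and the two end points.

`N_{c,s} f(y) = E f(c y + s g)`; `Ψ(θ) = E ψ(N_{cos θ, sin θ} l)`, `ψ(r) = r log r`;
`Ψ'(θ) = - sin θ cos θ E[(N l1)²/N l]` (differentiation under the integral, reflection of `γ ⊗ γ`,
Stein in the second variable); `θ(u) = arccos e^{-u}`.
-/
set_option autoImplicit false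

open MeasureTheory ProbabilityTheory Filter Topology
open scoped BigOperators

namespace Claimed.Agent.R259

/-- `N_{c,s} f (y) = E f(c y + s g)` -/
noncomputable def s7sN (c s : ℝ) (f : ℝ → ℝ) (y : ℝ) : ℝ :=
  ∫ g, f (c * y + s * g) ∂(gaussianReal 0 1)

theorem s7scou_eqns_cite : True := by
  have := @s7sN.eq_1
  trivial

theorem s7sP_eq_N (u : ℝ) (f : ℝ → ℝ) :
    s7sP u f = s7sN (Real.exp (-u)) (Real.sqrt (1 - Real.exp (-u) ^ 2)) f := rfl

section bdd
variable {f : ℝ → ℝ} {C : ℝ}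

theorem s7sN_integrable (hf : Continuous f) (hb : ∀ x, |f x| ≤ C) (c s y : ℝ) :
    Integrable (fun g => f (c * y + s * g)) (gaussianReal 0 1) := by
  refine (integrable_const C).mono' (by fun_prop) (Eventually.of_forall fun g => ?_)
  simpa using hb _

theorem s7sN_abs_le (hb : ∀ x, |f x| ≤ C) (c s y : ℝ) : |s7sN c s f y| ≤ C := by
  unfold s7sN
  have := norm_integral_le_of_norm_le_const (μ := gaussianReal 0 1)
    (f := fun g => f (c * y + s * g)) (C := C) (Eventually.of_forall fun g => by simpa using hb _)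
  simpa using this

theorem s7sN_continuous (hf : Continuous f) (hb : ∀ x, |f x| ≤ C) (c s : ℝ) :
    Continuous (s7sN c s f) := by
  unfold s7sN
  refine continuous_of_dominated (bound := fun _ => C) (fun y => by fun_prop)
    (fun y => Eventually.of_forall fun g => by simpa using hb _) (integrable_const C)
    (Eventually.of_forall fun g => by fun_prop)

theorem s7sN_le (hf : Continuous f) (hb : ∀ x, |f x| ≤ C) {b : ℝ} (h : ∀ x, f x ≤ b) (c s y : ℝ) :
    s7sN c s f y ≤ b := by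
  unfold s7sN
  have := integral_mono (s7sN_integrable hf hb c s y) (integrable_const b) (fun g => h _)
  simpa using this

theorem s7sN_ge (hf : Continuous f) (hb : ∀ x, |f x| ≤ C) {b : ℝ} (h : ∀ x, b ≤ f x) (c s y : ℝ) :
    b ≤ s7sN c s f y := by
  unfold s7sN
  have := integral_mono (integrable_const b) (s7sN_integrable hf hb c s y) (fun g => h _)
  simpa using this

end bdd

section nice
variable {l l1 : ℝ → ℝ} {a0 C1 : ℝ}

theorem S7sNice.abs_le (h : S7sNice l l1 a0 C1) (x : ℝ) : |l x| ≤ 1 := by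
  rw [abs_of_pos (h.pos x)]; exact h.ub x

theorem S7sNice.N_ge (h : S7sNice l l1 a0 C1) (c s y : ℝ) : a0 ≤ s7sN c s l y :=
  s7sN_ge h.continuous h.abs_le h.lb c s y

theorem S7sNice.N_le (h : S7sNice l l1 a0 C1) (c s y : ℝ) : s7sN c s l y ≤ 1 :=
  s7sN_le h.continuous h.abs_le h.ub c s y

theorem S7sNice.N_pos (h : S7sNice l l1 a0 C1) (c s y : ℝ) : 0 < s7sN c s l y :=
  h.a0_pos.trans_le (h.N_ge c s y)

/-- derivative in `y` -/
theorem S7sNice.N_hasDerivAt (h : S7sNice l l1 a0 C1) (c s y : ℝ) :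
    HasDerivAt (s7sN c s l) (c * s7sN c s l1 y) y := by
  have key := hasDerivAt_integral_of_dominated_loc_of_deriv_le (μ := gaussianReal 0 1)
    (F := fun y g => l (c * y + s * g)) (F' := fun y g => c * l1 (c * y + s * g)) (x₀ := y)
    (s := Set.univ) (bound := fun _ => |c| * C1) univ_mem
    (Eventually.of_forall fun y => by have := h.continuous; fun_prop)
    (s7sN_integrable h.continuous h.abs_le c s y)
    (by have := h.cont1; fun_prop)
    (Eventually.of_forall fun g y _ => by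
      rw [Real.norm_eq_abs, abs_mul]
      exact mul_le_mul_of_nonneg_left (h.bd1 _) (abs_nonneg _))
    (integrable_const _)
    (Eventually.of_forall fun g y _ => by
      have h1 : HasDerivAt (fun y : ℝ => c * y + s * g) c y := by
        simpa using ((hasDerivAt_id y).const_mul c).add_const (s * g)
      have h2 := (h.der (c * y + s * g)).comp y h1
      rw [mul_comm (l1 _) c] at h2
      exact h2)
  have := key.2
  rw [integral_const_mul] at this
  exact this

/-- derivative in the angle -/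
theorem S7sNice.N_hasDerivAt_angle (h : S7sNice l l1 a0 C1) (θ y : ℝ) :
    HasDerivAt (fun θ => s7sN (Real.cos θ) (Real.sin θ) l y)
      (∫ g, l1 (Real.cos θ * y + Real.sin θ * g) * (-Real.sin θ * y + Real.cos θ * g)
        ∂(gaussianReal 0 1)) θ := by
  have key := hasDerivAt_integral_of_dominated_loc_of_deriv_le (μ := gaussianReal 0 1)
    (F := fun θ g => l (Real.cos θ * y + Real.sin θ * g))
    (F' := fun θ g => l1 (Real.cos θ * y + Real.sin θ * g) * (-Real.sin θ * y + Real.cos θ * g))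
    (x₀ := θ) (s := Set.univ) (bound := fun g => C1 * (|y| + |g|)) univ_mem
    (Eventually.of_forall fun θ => by have := h.continuous; fun_prop)
    (s7sN_integrable h.continuous h.abs_le _ _ y)
    (by have := h.cont1; fun_prop)
    (Eventually.of_forall fun g θ _ => by
      rw [Real.norm_eq_abs, abs_mul]
      apply mul_le_mul (h.bd1 _) _ (abs_nonneg _) h.C1_nonneg
      calc |-Real.sin θ * y + Real.cos θ * g| ≤ |-Real.sin θ * y| + |Real.cos θ * g| :=
            abs_add_le _ _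
        _ = |Real.sin θ| * |y| + |Real.cos θ| * |g| := by rw [abs_mul, abs_mul, abs_neg]
        _ ≤ 1 * |y| + 1 * |g| := by
            gcongr
            · exact Real.abs_sin_le_one θ
            · exact Real.abs_cos_le_one θ
        _ = |y| + |g| := by ring)
    (((integrable_const |y|).add s7s_integrable_abs).const_mul C1)
    (Eventually.of_forall fun g θ _ => by
      have h1 : HasDerivAt (fun θ : ℝ => Real.cos θ * y + Real.sin θ * g)
          (-Real.sin θ * y + Real.cos θ * g) θ :=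
        ((Real.hasDerivAt_cos θ).mul_const y).add ((Real.hasDerivAt_sin θ).mul_const g)
      exact (h.der _).comp θ h1)
  exact key.2

end nice

/-- a continuous function of linear growth is integrable for `γ ⊗ γ` -/
theorem s7s_integrable_prod_of_growth {H : ℝ × ℝ → ℝ} (hH : Continuous H) (A B : ℝ)
    (hb : ∀ p, |H p| ≤ A + B * (|p.1| + |p.2|)) :
    Integrable H ((gaussianReal 0 1).prod (gaussianReal 0 1)) := by
  have i1 : Integrable (fun p : ℝ × ℝ => |p.1|) ((gaussianReal 0 1).prod (gaussianReal 0 1)) :=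
    s7s_integrable_abs.comp_fst _
  have i2 : Integrable (fun p : ℝ × ℝ => |p.2|) ((gaussianReal 0 1).prod (gaussianReal 0 1)) :=
    s7s_integrable_abs.comp_snd _
  refine ((integrable_const A).add ((i1.add i2).const_mul B)).mono' hH.aestronglyMeasurable
    (Eventually.of_forall fun p => ?_)
  simpa using hb p

section nice
variable {l l1 : ℝ → ℝ} {a0 C1 : ℝ}

theorem S7sNice.log_N_abs_le (h : S7sNice l l1 a0 C1) (c s y : ℝ) :
    |Real.log (s7sN c s l y) + 1| ≤ 1 + |Real.log a0| := by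
  have h1 : Real.log a0 ≤ Real.log (s7sN c s l y) := Real.log_le_log h.a0_pos (h.N_ge c s y)
  have h2 : Real.log (s7sN c s l y) ≤ 0 := Real.log_nonpos (h.N_pos c s y).le (h.N_le c s y)
  have h3 : |Real.log a0| = -Real.log a0 := abs_of_nonpos (h1.trans h2)
  rw [h3, _root_.abs_le]
  constructor <;> linarith

theorem S7sNice.N_cont (h : S7sNice l l1 a0 C1) (c s : ℝ) : Continuous (s7sN c s l) :=
  s7sN_continuous h.continuous h.abs_le c s

theorem S7sNice.N1_cont (h : S7sNice l l1 a0 C1) (c s : ℝ) : Continuous (s7sN c s l1) :=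
  s7sN_continuous h.cont1 h.bd1 c s

theorem S7sNice.logN_cont (h : S7sNice l l1 a0 C1) (c s : ℝ) :
    Continuous (fun y => Real.log (s7sN c s l y)) :=
  (h.N_cont c s).log fun y => (h.N_pos c s y).ne'

/-- the ratio `N l1 / N l` -/
theorem S7sNice.ratio_abs_le (h : S7sNice l l1 a0 C1) (c s y : ℝ) :
    |s7sN c s l1 y / s7sN c s l y| ≤ C1 / a0 := by
  rw [abs_div, abs_of_pos (h.N_pos c s y)]
  exact div_le_div₀ h.C1_nonneg (s7sN_abs_le h.bd1 c s y) h.a0_pos (h.N_ge c s y)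

theorem S7sNice.ratio_cont (h : S7sNice l l1 a0 C1) (c s : ℝ) :
    Continuous (fun y => s7sN c s l1 y / s7sN c s l y) :=
  (h.N1_cont c s).div (h.N_cont c s) fun y => (h.N_pos c s y).ne'

/-- the key identity: rotation + Stein -/
theorem S7sNice.key_identity (h : S7sNice l l1 a0 C1) (c s : ℝ) (hcs : c ^ 2 + s ^ 2 = 1) :
    ∫ y, (Real.log (s7sN c s l y) + 1)
        * (∫ g, l1 (c * y + s * g) * (-s * y + c * g) ∂(gaussianReal 0 1)) ∂(gaussianReal 0 1)
      = -(s * c) * ∫ y, (s7sN c s l1 y) ^ 2 / s7sN c s l y ∂(gaussianReal 0 1) := by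
  have hc1 : |c| ≤ 1 := by
    rw [← abs_one, ← sq_le_sq]; nlinarith [sq_nonneg s]
  have hs1 : |s| ≤ 1 := by
    rw [← abs_one, ← sq_le_sq]; nlinarith [sq_nonneg c]
  have hC1 := h.C1_nonneg
  set Lψ : ℝ := 1 + |Real.log a0| with hLψ
  have hLψ0 : 0 ≤ Lψ := by positivity
  -- the two functions on the product
  set H : ℝ × ℝ → ℝ := fun p => (Real.log (s7sN c s l p.1) + 1)
    * (l1 (c * p.1 + s * p.2) * (-s * p.1 + c * p.2)) with hH
  set K : ℝ × ℝ → ℝ := fun p => l1 (c * p.1 + s * p.2) * (s7sN c s l1 p.1 / s7sN c s l p.1) with hK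
  have hHc : Continuous H := by
    have h1 : Continuous (fun p : ℝ × ℝ => Real.log (s7sN c s l p.1)) :=
      (h.logN_cont c s).comp continuous_fst
    have := h.cont1
    exact (h1.add continuous_const).mul (by fun_prop)
  have hKc : Continuous K := by
    have h1 : Continuous (fun p : ℝ × ℝ => s7sN c s l1 p.1 / s7sN c s l p.1) :=
      (h.ratio_cont c s).comp continuous_fst
    have := h.cont1
    exact Continuous.mul (by fun_prop) h1
  have hHi : Integrable H ((gaussianReal 0 1).prod (gaussianReal 0 1)) := by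
    apply s7s_integrable_prod_of_growth hHc 0 (Lψ * C1)
    intro p
    rw [hH]
    simp only [abs_mul, zero_add]
    have h1 := h.log_N_abs_le c s p.1
    have h2 := h.bd1 (c * p.1 + s * p.2)
    have h3 : |-s * p.1 + c * p.2| ≤ |p.1| + |p.2| := by
      calc |-s * p.1 + c * p.2| ≤ |-s * p.1| + |c * p.2| := abs_add_le _ _
        _ = |s| * |p.1| + |c| * |p.2| := by rw [abs_mul, abs_mul, abs_neg]
        _ ≤ 1 * |p.1| + 1 * |p.2| := by gcongr
        _ = _ := by ring
    calc _ ≤ Lψ * (C1 * (|p.1| + |p.2|)) := by gcongr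
      _ = _ := by ring
  have hKi : Integrable K ((gaussianReal 0 1).prod (gaussianReal 0 1)) := by
    apply s7s_integrable_prod_of_growth hKc (C1 * (C1 / a0)) 0
    intro p
    rw [hK]
    simp only [abs_mul, zero_mul, add_zero]
    have h1 := h.ratio_abs_le c s p.1
    have h2 := h.bd1 (c * p.1 + s * p.2)
    gcongr
  -- rotated forms
  have hHR : ∀ p : ℝ × ℝ, H (c * p.1 + s * p.2, s * p.1 - c * p.2)
      = -(l1 p.1 * (p.2 * (Real.log (s7sN c s l (c * p.1 + s * p.2)) + 1))) := by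
    intro p
    rw [hH]
    simp only
    have e1 : c * (c * p.1 + s * p.2) + s * (s * p.1 - c * p.2) = p.1 := by
      linear_combination p.1 * hcs
    have e2 : -s * (c * p.1 + s * p.2) + c * (s * p.1 - c * p.2) = -p.2 := by
      linear_combination -p.2 * hcs
    rw [e1, e2]
    ring
  have hKR : ∀ p : ℝ × ℝ, K (c * p.1 + s * p.2, s * p.1 - c * p.2)
      = l1 p.1 * (s7sN c s l1 (c * p.1 + s * p.2) / s7sN c s l (c * p.1 + s * p.2)) := by
    intro p
    rw [hK]
    simp only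
    have e1 : c * (c * p.1 + s * p.2) + s * (s * p.1 - c * p.2) = p.1 := by
      linear_combination p.1 * hcs
    rw [e1]
  -- Stein
  have hst : ∀ m : ℝ, ∫ m', m' * (Real.log (s7sN c s l (c * m + s * m')) + 1) ∂(gaussianReal 0 1)
      = ∫ m', s * c * (s7sN c s l1 (c * m + s * m') / s7sN c s l (c * m + s * m'))
          ∂(gaussianReal 0 1) := by
    intro m
    apply s7s_stein _ _ _ _ (C1 / a0)
    · intro m'
      rw [abs_mul, abs_mul]
      have := h.ratio_abs_le c s (c * m + s * m')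
      calc _ ≤ 1 * 1 * (C1 / a0) := by gcongr
        _ = _ := by ring
    · intro m'
      have h1 : HasDerivAt (fun m' : ℝ => c * m + s * m') s m' := by
        simpa using ((hasDerivAt_id m').const_mul s).const_add (c * m)
      have h2 := (h.N_hasDerivAt c s (c * m + s * m')).comp m' h1
      have h3 := (h2.log (h.N_pos c s _).ne').add_const 1
      refine h3.congr_deriv ?_
      simp only [Function.comp_apply]
      ring
    · exact continuous_const.mul ((h.ratio_cont c s).comp (by fun_prop))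
  calc ∫ y, (Real.log (s7sN c s l y) + 1)
        * (∫ g, l1 (c * y + s * g) * (-s * y + c * g) ∂(gaussianReal 0 1)) ∂(gaussianReal 0 1)
      = ∫ y, ∫ g, H (y, g) ∂(gaussianReal 0 1) ∂(gaussianReal 0 1) := by
        congr 1; ext y; rw [← integral_const_mul]
    _ = ∫ p, H p ∂((gaussianReal 0 1).prod (gaussianReal 0 1)) := (integral_prod _ hHi).symm
    _ = ∫ p : ℝ × ℝ, H (c * p.1 + s * p.2, s * p.1 - c * p.2)
          ∂((gaussianReal 0 1).prod (gaussianReal 0 1)) := (s7s_rot_integral c s hcs H).symm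
    _ = ∫ m, ∫ m', H (c * m + s * m', s * m - c * m') ∂(gaussianReal 0 1) ∂(gaussianReal 0 1) :=
        integral_prod _ ((s7s_rot_integrable c s hcs H).2 hHi)
    _ = ∫ m, ∫ m', -(s * c) * K (c * m + s * m', s * m - c * m') ∂(gaussianReal 0 1)
          ∂(gaussianReal 0 1) := by
        congr 1; ext m
        have e1 : ∀ m', H (c * m + s * m', s * m - c * m')
            = -l1 m * (m' * (Real.log (s7sN c s l (c * m + s * m')) + 1)) := by
          intro m'; rw [hHR (m, m')]; ring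
        have e2 : ∀ m', -(s * c) * K (c * m + s * m', s * m - c * m')
            = -l1 m * (s * c * (s7sN c s l1 (c * m + s * m') / s7sN c s l (c * m + s * m'))) := by
          intro m'; rw [hKR (m, m')]; ring
        simp_rw [e1, e2]
        rw [integral_const_mul, integral_const_mul, hst m]
    _ = -(s * c) * ∫ m, ∫ m', K (c * m + s * m', s * m - c * m') ∂(gaussianReal 0 1)
          ∂(gaussianReal 0 1) := by
        simp_rw [integral_const_mul]
    _ = -(s * c) * ∫ p : ℝ × ℝ, K (c * p.1 + s * p.2, s * p.1 - c * p.2)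
          ∂((gaussianReal 0 1).prod (gaussianReal 0 1)) := by
        rw [integral_prod _ ((s7s_rot_integrable c s hcs K).2 hKi)]
    _ = -(s * c) * ∫ p, K p ∂((gaussianReal 0 1).prod (gaussianReal 0 1)) := by
        rw [s7s_rot_integral c s hcs K]
    _ = -(s * c) * ∫ y, ∫ g, K (y, g) ∂(gaussianReal 0 1) ∂(gaussianReal 0 1) := by
        rw [integral_prod _ hKi]
    _ = _ := by
        congr 2; ext y
        rw [hK]
        simp only
        rw [integral_mul_const]
        change s7sN c s l1 y * _ = _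
        ring

end nice

section nice
variable {l l1 : ℝ → ℝ} {a0 C1 : ℝ}

/-- the angular derivative of `N l` is of linear growth -/
theorem S7sNice.angle_abs_le (h : S7sNice l l1 a0 C1) (θ y : ℝ) :
    |∫ g, l1 (Real.cos θ * y + Real.sin θ * g) * (-Real.sin θ * y + Real.cos θ * g)
        ∂(gaussianReal 0 1)| ≤ C1 * (|y| + 1) := by
  have hb : ∀ g : ℝ, ‖l1 (Real.cos θ * y + Real.sin θ * g) * (-Real.sin θ * y + Real.cos θ * g)‖
      ≤ C1 * (|y| + |g|) := by
    intro g
    rw [Real.norm_eq_abs, abs_mul]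
    apply mul_le_mul (h.bd1 _) _ (abs_nonneg _) h.C1_nonneg
    calc |-Real.sin θ * y + Real.cos θ * g| ≤ |-Real.sin θ * y| + |Real.cos θ * g| :=
          abs_add_le _ _
      _ = |Real.sin θ| * |y| + |Real.cos θ| * |g| := by rw [abs_mul, abs_mul, abs_neg]
      _ ≤ 1 * |y| + 1 * |g| := by
          gcongr
          · exact Real.abs_sin_le_one θ
          · exact Real.abs_cos_le_one θ
      _ = |y| + |g| := by ring
  have h1 := norm_integral_le_of_norm_le
    (((integrable_const |y|).add s7s_integrable_abs).const_mul C1) (Eventually.of_forall hb)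
  rw [Real.norm_eq_abs] at h1
  refine h1.trans ?_
  simp only [Pi.add_apply]
  rw [integral_const_mul, integral_add (integrable_const _) s7s_integrable_abs]
  have := s7s_int_abs_le
  have hC := h.C1_nonneg
  simp only [integral_const, probReal_univ, smul_eq_mul, one_mul]
  gcongr

/-- `Ψ(θ) = E ψ(N_θ l)` is differentiable, `Ψ' = - sin θ cos θ FI` -/
theorem S7sNice.Psi_hasDerivAt (h : S7sNice l l1 a0 C1) (θ : ℝ) :
    HasDerivAt (fun θ => ∫ y, s7sN (Real.cos θ) (Real.sin θ) l y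
        * Real.log (s7sN (Real.cos θ) (Real.sin θ) l y) ∂(gaussianReal 0 1))
      (-(Real.sin θ * Real.cos θ) * ∫ y, (s7sN (Real.cos θ) (Real.sin θ) l1 y) ^ 2
        / s7sN (Real.cos θ) (Real.sin θ) l y ∂(gaussianReal 0 1)) θ := by
  have hC1 := h.C1_nonneg
  rw [← h.key_identity (Real.cos θ) (Real.sin θ) (Real.cos_sq_add_sin_sq θ)]
  have key := hasDerivAt_integral_of_dominated_loc_of_deriv_le (μ := gaussianReal 0 1)
    (F := fun θ y => s7sN (Real.cos θ) (Real.sin θ) l y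
        * Real.log (s7sN (Real.cos θ) (Real.sin θ) l y))
    (F' := fun θ y => (Real.log (s7sN (Real.cos θ) (Real.sin θ) l y) + 1)
        * (∫ g, l1 (Real.cos θ * y + Real.sin θ * g) * (-Real.sin θ * y + Real.cos θ * g)
          ∂(gaussianReal 0 1)))
    (x₀ := θ) (s := Set.univ) (bound := fun y => (1 + |Real.log a0|) * (C1 * (|y| + 1))) univ_mem
    (Eventually.of_forall fun θ =>
      ((h.N_cont _ _).mul (h.logN_cont _ _)).aestronglyMeasurable)
    ?_ ?_
    (Eventually.of_forall fun y θ _ => by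
      rw [Real.norm_eq_abs, abs_mul]
      exact mul_le_mul (h.log_N_abs_le _ _ y) (h.angle_abs_le θ y) (abs_nonneg _) (by positivity))
    (((s7s_integrable_abs.add (integrable_const 1)).const_mul C1).const_mul _)
    (Eventually.of_forall fun y θ _ => by
      have h1 := h.N_hasDerivAt_angle θ y
      have h2 := (Real.hasDerivAt_mul_log (h.N_pos (Real.cos θ) (Real.sin θ) y).ne').comp θ h1
      exact h2)
  · exact key.2
  · -- integrability of `ψ(N l)`
    refine (integrable_const (1 * (1 + (1 + |Real.log a0|)))).mono'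
      ((h.N_cont _ _).mul (h.logN_cont _ _)).aestronglyMeasurable (Eventually.of_forall fun y => ?_)
    rw [Real.norm_eq_abs, abs_mul]
    have h1 : |s7sN (Real.cos θ) (Real.sin θ) l y| ≤ 1 := s7sN_abs_le h.abs_le _ _ y
    have h2 := h.log_N_abs_le (Real.cos θ) (Real.sin θ) y
    have h3 : |Real.log (s7sN (Real.cos θ) (Real.sin θ) l y)| ≤ 1 + (1 + |Real.log a0|) := by
      have := abs_sub_abs_le_abs_sub (Real.log (s7sN (Real.cos θ) (Real.sin θ) l y)) (-1)
      simp only [abs_neg, abs_one, sub_neg_eq_add] at this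
      linarith
    exact mul_le_mul h1 h3 (abs_nonneg _) zero_le_one
  · -- measurability of the derivative
    apply AEStronglyMeasurable.mul
    · exact ((h.logN_cont _ _).add continuous_const).aestronglyMeasurable
    · apply StronglyMeasurable.aestronglyMeasurable
      apply StronglyMeasurable.integral_prod_right
        (f := fun y g => l1 (Real.cos θ * y + Real.sin θ * g) * (-Real.sin θ * y + Real.cos θ * g))
      apply Continuous.stronglyMeasurable
      have := h.cont1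
      unfold Function.uncurry
      fun_prop

/-- `d/du Φ_u(l) = - α² FI_u(l)` for `u > 0` -/
theorem S7sNice.Phi_hasDerivAt (h : S7sNice l l1 a0 C1) {u : ℝ} (hu : 0 < u) :
    HasDerivAt (fun u => s7sPhi u l) (-(Real.exp (-u) ^ 2 * s7sFI u l l1)) u := by
  set α := Real.exp (-u) with hα
  have hα0 : 0 < α := Real.exp_pos _
  have hα1 : α < 1 := by rw [hα, Real.exp_lt_one_iff]; linarith
  have hβ2 : 0 < 1 - α ^ 2 := by nlinarith
  set β := Real.sqrt (1 - α ^ 2) with hβ
  have hβ0 : 0 < β := Real.sqrt_pos.2 hβ2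
  -- the angle
  have hθ : HasDerivAt (fun u : ℝ => Real.arccos (Real.exp (-u))) (α / β) u := by
    have h1 : HasDerivAt (fun u : ℝ => Real.exp (-u)) (-α) u := by
      have := (hasDerivAt_neg u).exp
      simpa [hα] using this
    have h2 := (Real.hasDerivAt_arccos (x := α) (by linarith) (by linarith)).comp u h1
    refine h2.congr_deriv ?_
    rw [← hβ]
    field_simp
  have hcos : Real.cos (Real.arccos α) = α := Real.cos_arccos (by linarith) hα1.le
  have hsin : Real.sin (Real.arccos α) = β := Real.sin_arccos α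
  have h3 := (h.Psi_hasDerivAt (Real.arccos α)).comp u hθ
  rw [hcos, hsin] at h3
  have h4 : HasDerivAt (fun u => s7sPhi u l)
      (-(β * α) * (∫ y, s7sN α β l1 y ^ 2 / s7sN α β l y ∂(gaussianReal 0 1)) * (α / β)) u := by
    refine h3.congr_of_eventuallyEq ?_
    filter_upwards [Ioi_mem_nhds hu] with v hv
    have hv0 : (0 : ℝ) < v := hv
    have hv1 : Real.exp (-v) ≤ 1 := by rw [Real.exp_le_one_iff]; linarith
    simp only [Function.comp_apply]
    rw [Real.cos_arccos (by linarith [Real.exp_pos (-v)]) hv1, Real.sin_arccos]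
    rfl
  refine h4.congr_deriv ?_
  have : s7sFI u l l1 = ∫ y, s7sN α β l1 y ^ 2 / s7sN α β l y ∂(gaussianReal 0 1) := rfl
  rw [this]
  field_simp

theorem s7sFI_nonneg (h : S7sNice l l1 a0 C1) (u : ℝ) : 0 ≤ s7sFI u l l1 := by
  unfold s7sFI
  apply integral_nonneg
  intro y
  rw [s7sP_eq_N, s7sP_eq_N]
  exact div_nonneg (sq_nonneg _) (h.N_pos _ _ y).le

/-- L-s7s-debruijn.  `∫_{u0}^{u1} α² FI_u(l) du = Φ_{u0}(l) - Φ_{u1}(l)`. -/
theorem s7s_debruijn (h : S7sNice l l1 a0 C1) {u0 u1 : ℝ}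
    (h0 : 0 < u0) (h01 : u0 ≤ u1) :
    IntervalIntegrable (fun u => Real.exp (-u) ^ 2 * s7sFI u l l1) volume u0 u1 ∧
    ∫ u in u0..u1, Real.exp (-u) ^ 2 * s7sFI u l l1 = s7sPhi u0 l - s7sPhi u1 l := by
  have hd : ∀ u ∈ Set.uIcc u0 u1, HasDerivAt (fun u => -s7sPhi u l)
      (Real.exp (-u) ^ 2 * s7sFI u l l1) u := by
    intro u hu
    rw [Set.uIcc_of_le h01] at hu
    have h1 := (h.Phi_hasDerivAt (h0.trans_le hu.1)).neg
    rw [neg_neg] at h1
    exact h1
  have hint : IntervalIntegrable (fun u => Real.exp (-u) ^ 2 * s7sFI u l l1) volume u0 u1 := by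
    apply intervalIntegral.intervalIntegrable_deriv_of_nonneg (g := fun u => -s7sPhi u l)
    · intro u hu
      exact (hd u hu).continuousAt.continuousWithinAt
    · intro u hu
      apply hd u
      rw [min_eq_left h01, max_eq_right h01] at hu
      rw [Set.uIcc_of_le h01]
      exact Set.Ioo_subset_Icc_self hu
    · intro u _
      exact mul_nonneg (sq_nonneg _) (s7sFI_nonneg h u)
  refine ⟨hint, ?_⟩
  rw [intervalIntegral.integral_eq_sub_of_hasDerivAt hd hint]
  ring

end nice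

/-- `r log r` is Lipschitz on `[a0,1]` -/
theorem s7s_mul_log_lip {a0 : ℝ} (ha0 : 0 < a0) {r r' : ℝ} (hr : r ∈ Set.Icc a0 1)
    (hr' : r' ∈ Set.Icc a0 1) :
    |r * Real.log r - r' * Real.log r'| ≤ (1 + |Real.log a0|) * |r - r'| := by
  have := Convex.norm_image_sub_le_of_norm_hasDerivWithin_le (f := fun r => r * Real.log r)
    (f' := fun r => Real.log r + 1) (s := Set.Icc a0 1) (C := 1 + |Real.log a0|)
    (fun x hx => (Real.hasDerivAt_mul_log (ha0.trans_le hx.1).ne').hasDerivWithinAt)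
    (fun x hx => by
      have h1 : Real.log a0 ≤ Real.log x := Real.log_le_log ha0 hx.1
      have h2 : Real.log x ≤ 0 := Real.log_nonpos (ha0.trans_le hx.1).le hx.2
      have h3 : |Real.log a0| = -Real.log a0 := abs_of_nonpos (h1.trans h2)
      rw [h3, Real.norm_eq_abs, abs_le]
      constructor <;> linarith)
    (convex_Icc a0 1) hr' hr
  simpa using this

section nice
variable {l l1 : ℝ → ℝ} {a0 C1 : ℝ}

theorem S7sNice.lip (h : S7sNice l l1 a0 C1) (x y : ℝ) : |l y - l x| ≤ C1 * |y - x| :=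
  s7s_lip_of_deriv l l1 h.der C1 h.bd1 x y

/-- comparison of `N_{c,s} l (y)` with `E l(c' y + s' g)` -/
theorem S7sNice.N_sub_N_le (h : S7sNice l l1 a0 C1) (c s c' s' y : ℝ) :
    |s7sN c s l y - s7sN c' s' l y| ≤ C1 * (|c - c'| * |y| + |s - s'|) := by
  have hC1 := h.C1_nonneg
  unfold s7sN
  rw [← integral_sub (s7sN_integrable h.continuous h.abs_le c s y)
    (s7sN_integrable h.continuous h.abs_le c' s' y)]
  have hb : ∀ g : ℝ, ‖l (c * y + s * g) - l (c' * y + s' * g)‖
      ≤ C1 * (|c - c'| * |y| + |s - s'| * |g|) := by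
    intro g
    rw [Real.norm_eq_abs]
    refine (h.lip _ _).trans ?_
    apply mul_le_mul_of_nonneg_left _ hC1
    have : c * y + s * g - (c' * y + s' * g) = (c - c') * y + (s - s') * g := by ring
    rw [this]
    refine (abs_add_le _ _).trans ?_
    rw [abs_mul, abs_mul]
  have h1 := norm_integral_le_of_norm_le
    (((integrable_const (|c - c'| * |y|)).add (s7s_integrable_abs.const_mul |s - s'|)).const_mul C1)
    (Eventually.of_forall hb)
  rw [Real.norm_eq_abs] at h1
  refine h1.trans ?_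
  simp only [Pi.add_apply]
  rw [integral_const_mul, integral_add (integrable_const _) (s7s_integrable_abs.const_mul _),
    integral_const_mul |s - s'| (fun g : ℝ => |g|)]
  simp only [integral_const, probReal_univ, smul_eq_mul, one_mul]
  have := s7s_int_abs_le
  have : |s - s'| * ∫ g, |g| ∂(gaussianReal 0 1) ≤ |s - s'| * 1 := by gcongr
  gcongr
  linarith

theorem S7sNice.psiN_integrable (h : S7sNice l l1 a0 C1) (c s : ℝ) :
    Integrable (fun y => s7sN c s l y * Real.log (s7sN c s l y)) (gaussianReal 0 1) := by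
  refine (integrable_const (1 * (1 + (1 + |Real.log a0|)))).mono'
    ((h.N_cont _ _).mul (h.logN_cont _ _)).aestronglyMeasurable (Eventually.of_forall fun y => ?_)
  rw [Real.norm_eq_abs, abs_mul]
  have h1 : |s7sN c s l y| ≤ 1 := s7sN_abs_le h.abs_le _ _ y
  have h2 := h.log_N_abs_le c s y
  have h3 : |Real.log (s7sN c s l y)| ≤ 1 + (1 + |Real.log a0|) := by
    have := abs_sub_abs_le_abs_sub (Real.log (s7sN c s l y)) (-1)
    simp only [abs_neg, abs_one, sub_neg_eq_add] at this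
    linarith
  exact mul_le_mul h1 h3 (abs_nonneg _) zero_le_one

/-- comparison of `E ψ(N_{c,s} l)` with `E ψ(N_{c',s'} l)` -/
theorem S7sNice.psiN_sub_le (h : S7sNice l l1 a0 C1) (c s c' s' : ℝ) :
    |∫ y, s7sN c s l y * Real.log (s7sN c s l y) ∂(gaussianReal 0 1)
      - ∫ y, s7sN c' s' l y * Real.log (s7sN c' s' l y) ∂(gaussianReal 0 1)|
      ≤ (1 + |Real.log a0|) * (C1 * (|c - c'| + |s - s'|)) := by
  have hC1 := h.C1_nonneg
  rw [← integral_sub (h.psiN_integrable c s) (h.psiN_integrable c' s')]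
  have hb : ∀ y : ℝ, ‖s7sN c s l y * Real.log (s7sN c s l y)
      - s7sN c' s' l y * Real.log (s7sN c' s' l y)‖
      ≤ (1 + |Real.log a0|) * (C1 * (|c - c'| * |y| + |s - s'|)) := by
    intro y
    rw [Real.norm_eq_abs]
    refine (s7s_mul_log_lip h.a0_pos ⟨h.N_ge c s y, h.N_le c s y⟩
      ⟨h.N_ge c' s' y, h.N_le c' s' y⟩).trans ?_
    apply mul_le_mul_of_nonneg_left (h.N_sub_N_le c s c' s' y) (by positivity)
  have h1 := norm_integral_le_of_norm_le
    ((((s7s_integrable_abs.const_mul |c - c'|).add (integrable_const |s - s'|)).const_mul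
      C1).const_mul (1 + |Real.log a0|)) (Eventually.of_forall hb)
  rw [Real.norm_eq_abs] at h1
  refine h1.trans ?_
  simp only [Pi.add_apply]
  rw [integral_const_mul, integral_const_mul,
    integral_add (s7s_integrable_abs.const_mul _) (integrable_const _), integral_const_mul]
  simp only [integral_const, probReal_univ, smul_eq_mul, one_mul]
  have := s7s_int_abs_le
  have : |c - c'| * ∫ g, |g| ∂(gaussianReal 0 1) ≤ |c - c'| * 1 := by gcongr
  gcongr
  linarith

theorem s7sN_one_zero (f : ℝ → ℝ) (y : ℝ) : s7sN 1 0 f y = f y := by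
  simp [s7sN]

theorem s7sN_zero_one (f : ℝ → ℝ) (y : ℝ) : s7sN 0 1 f y = ∫ g, f g ∂(gaussianReal 0 1) := by
  simp [s7sN]

end nice

/-- L-s7s-endpoints.  `Φ_{u0}(l) - Φ_{u1}(l) ≥ ent γ l - η`, uniformly in the class. -/
theorem s7s_endpoints (a0 C1 η : ℝ) (_ha0 : 0 < a0) (hη : 0 < η) :
    ∃ u0 u1 : ℝ, 0 < u0 ∧ u0 < u1 ∧ ∀ l l1 : ℝ → ℝ, S7sNice l l1 a0 C1 →
      ent (gaussianReal 0 1) l - η ≤ s7sPhi u0 l - s7sPhi u1 l := by
  set A : ℝ := (1 + |Real.log a0|) * (|C1| + 1) with hA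
  have hA0 : 0 < A := by positivity
  set δ : ℝ := η / (2 * A) with hδ
  have hδ0 : 0 < δ := by positivity
  -- small `u0`
  have hc0 : Continuous (fun a : ℝ => |a - 1| + |Real.sqrt (1 - a ^ 2) - 0|) := by fun_prop
  have hc1 : Continuous (fun a : ℝ => |a - 0| + |Real.sqrt (1 - a ^ 2) - 1|) := by fun_prop
  have ht0 : Tendsto (fun u : ℝ => |Real.exp (-u) - 1| + |Real.sqrt (1 - Real.exp (-u) ^ 2) - 0|)
      (𝓝 0) (𝓝 0) := by
    have h1 : Continuous (fun u : ℝ => |Real.exp (-u) - 1| + |Real.sqrt (1 - Real.exp (-u) ^ 2) - 0|) := by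
      fun_prop
    have := h1.tendsto 0
    simpa using this
  have ht1 : Tendsto (fun u : ℝ => |Real.exp (-u) - 0| + |Real.sqrt (1 - Real.exp (-u) ^ 2) - 1|)
      atTop (𝓝 0) := by
    have h1 := (hc1.tendsto 0).comp Real.tendsto_exp_neg_atTop_nhds_zero
    simpa [Function.comp_def] using h1
  obtain ⟨u0, hu0a, hu0⟩ : ∃ u0 : ℝ,
      |Real.exp (-u0) - 1| + |Real.sqrt (1 - Real.exp (-u0) ^ 2) - 0| < δ ∧ 0 < u0 := by
    have h1 : ∀ᶠ u in 𝓝[>] (0 : ℝ),
        |Real.exp (-u) - 1| + |Real.sqrt (1 - Real.exp (-u) ^ 2) - 0| < δ :=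
      (ht0.eventually (gt_mem_nhds hδ0)).filter_mono nhdsWithin_le_nhds
    exact (h1.and self_mem_nhdsWithin).exists
  obtain ⟨u1, hu1a, hu1⟩ : ∃ u1 : ℝ,
      |Real.exp (-u1) - 0| + |Real.sqrt (1 - Real.exp (-u1) ^ 2) - 1| < δ ∧ u0 < u1 :=
    ((ht1.eventually (gt_mem_nhds hδ0)).and (eventually_gt_atTop u0)).exists
  refine ⟨u0, u1, hu0, hu1, fun l l1 h => ?_⟩
  have hC1 := h.C1_nonneg
  have e0 := h.psiN_sub_le (Real.exp (-u0)) (Real.sqrt (1 - Real.exp (-u0) ^ 2)) 1 0
  have e1 := h.psiN_sub_le (Real.exp (-u1)) (Real.sqrt (1 - Real.exp (-u1) ^ 2)) 0 1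
  simp only [s7sN_one_zero] at e0
  simp only [s7sN_zero_one, integral_const, probReal_univ, smul_eq_mul, one_mul] at e1
  have hP0 : s7sPhi u0 l = ∫ y, s7sN (Real.exp (-u0)) (Real.sqrt (1 - Real.exp (-u0) ^ 2)) l y
      * Real.log (s7sN (Real.exp (-u0)) (Real.sqrt (1 - Real.exp (-u0) ^ 2)) l y)
      ∂(gaussianReal 0 1) := rfl
  have hP1 : s7sPhi u1 l = ∫ y, s7sN (Real.exp (-u1)) (Real.sqrt (1 - Real.exp (-u1) ^ 2)) l y
      * Real.log (s7sN (Real.exp (-u1)) (Real.sqrt (1 - Real.exp (-u1) ^ 2)) l y)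
      ∂(gaussianReal 0 1) := rfl
  rw [← hP0] at e0
  rw [← hP1] at e1
  have hb : ∀ d : ℝ, 0 ≤ d → d < δ → (1 + |Real.log a0|) * (C1 * d) ≤ η / 2 := by
    intro d hd0 hd
    have h1 : (1 + |Real.log a0|) * (C1 * d) ≤ A * δ := by
      rw [hA, mul_assoc]
      apply mul_le_mul_of_nonneg_left _ (by positivity)
      apply mul_le_mul _ hd.le hd0 (by positivity)
      rw [abs_of_nonneg hC1]; linarith
    have h2 : A * δ = η / 2 := by rw [hδ]; field_simp
    linarith
  have f0 := e0.trans (hb _ (by positivity) hu0a)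
  have f1 := e1.trans (hb _ (by positivity) hu1a)
  rw [abs_le] at f0 f1
  unfold ent
  linarith [f0.1, f1.2]

end Claimed.Agent.R259
end

/- ===== packed: Claimed.Agent.R259.S7ScVal ===== -/
section
/-
Row 259 (S0499), package BP-S7-SCALAR: the value of the optimal quantised test.

For `Q = ∑_j 1_{Sh j}(b) q_j(a)`: integrate `g` first (`s7s_triple`), reflect `(n,g')` and use Stein
(`S7sNice.val_term`); this gives `∑_j E_y[2 β² q_j P_u l1_j - 4 q_j² P_u l_j] = (β⁴/4) ∑_j FI_u` for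
the optimal `q_j` (`s7s_val`).  Then `κ β⁴ = α²`, Fubini in `(u,x)` and de Bruijn (`s7s_J_opt`).
-/
set_option autoImplicit false

open MeasureTheory ProbabilityTheory Filter Topology
open scoped BigOperators

namespace Claimed.Agent.R259

/-! ### Generalities -/

theorem s7s_beta_sq_nonneg (u : ℝ) : 0 ≤ Real.sqrt (1 - Real.exp (-u) ^ 2) ^ 2 := sq_nonneg _

theorem s7s_beta_sq_le (u : ℝ) : Real.sqrt (1 - Real.exp (-u) ^ 2) ^ 2 ≤ 1 := by
  have h1 : Real.sqrt (1 - Real.exp (-u) ^ 2) ≤ 1 :=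
    Real.sqrt_le_one.2 (by nlinarith [sq_nonneg (Real.exp (-u))])
  exact pow_le_one₀ (Real.sqrt_nonneg _) h1

theorem s7s_alpha_beta {u : ℝ} (hu : 0 < u) :
    Real.exp (-u) ^ 2 + Real.sqrt (1 - Real.exp (-u) ^ 2) ^ 2 = 1 := by
  have h1 : Real.exp (-u) < 1 := by rw [Real.exp_lt_one_iff]; linarith
  have h0 := Real.exp_pos (-u)
  rw [Real.sq_sqrt (by nlinarith)]
  ring

/-- joint measurability of `(u,x,a) ↦ P_u(F(a' · - 4t + log x))(a)` -/
theorem s7s_P_meas (F : ℝ → ℝ) (hF : Continuous F) (t : ℝ) :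
    Measurable (fun p : ℝ × ℝ × ℝ =>
      s7sP p.1 (fun n => F (Real.sqrt (8 * t) * n - 4 * t + Real.log p.2.1)) p.2.2) := by
  unfold s7sP
  apply StronglyMeasurable.measurable
  apply StronglyMeasurable.integral_prod_right (f := fun (p : ℝ × ℝ × ℝ) g =>
    F (Real.sqrt (8 * t) * ouS p.1 p.2.2 g - 4 * t + Real.log p.2.1))
  apply Measurable.stronglyMeasurable
  apply hF.measurable.comp
  unfold ouS
  fun_prop

theorem s7s_PL_meas {t : ℝ} {J : ℕ} {a0 C1 : ℝ}
    (h : ∀ j ≤ J, S7sNice (s7sLam t J j) (deriv (s7sLam t J j)) a0 C1) (j : ℕ) (hj : j ≤ J) :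
    Measurable (fun p : ℝ × ℝ × ℝ => s7sP p.1 (s7sL t J j p.2.1) p.2.2) :=
  s7s_P_meas (s7sLam t J j) (h j hj).continuous t

theorem s7s_PL1_meas {t : ℝ} {J : ℕ} {a0 C1 : ℝ}
    (h : ∀ j ≤ J, S7sNice (s7sLam t J j) (deriv (s7sLam t J j)) a0 C1) (j : ℕ) (hj : j ≤ J) :
    Measurable (fun p : ℝ × ℝ × ℝ => s7sP p.1 (s7sL1 t J j p.2.1) p.2.2) :=
  s7s_P_meas (fun τ => Real.sqrt (8 * t) * deriv (s7sLam t J j) τ)
    (continuous_const.mul (h j hj).cont1) t

/-- `l_{x,j}` is nice, with constants that do not depend on `x` and `j`. -/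
theorem s7s_L_nice {t : ℝ} {J : ℕ} {a0 C1 : ℝ}
    (h : ∀ j ≤ J, S7sNice (s7sLam t J j) (deriv (s7sLam t J j)) a0 C1) (j : ℕ) (hj : j ≤ J)
    (x : ℝ) : S7sNice (s7sL t J j x) (s7sL1 t J j x) a0 (|Real.sqrt (8 * t)| * C1) := by
  have := (h j hj).comp_affine (Real.sqrt (8 * t)) (-(4 * t) + Real.log x)
  have e1 : (fun n => s7sLam t J j (Real.sqrt (8 * t) * n + (-(4 * t) + Real.log x)))
      = s7sL t J j x := by
    funext n; unfold s7sL; congr 1; ring
  have e2 : (fun n => Real.sqrt (8 * t)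
        * deriv (s7sLam t J j) (Real.sqrt (8 * t) * n + (-(4 * t) + Real.log x)))
      = s7sL1 t J j x := by
    funext n; unfold s7sL1; congr 2; ring
  rwa [e1, e2] at this

/-- the coefficient `q_j` of the optimal test -/
noncomputable def s7sq (t : ℝ) (J j : ℕ) (u x a : ℝ) : ℝ :=
  Real.sqrt (1 - Real.exp (-u) ^ 2) ^ 2 * s7sP u (s7sL1 t J j x) a
      / (4 * s7sP u (s7sL t J j x) a)

theorem s7scval_eqns_cite : True := by
  have := @s7sq.eq_1
  trivial

theorem s7sQ_eq (t : ℝ) (J : ℕ) (u x a b : ℝ) :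
    s7sQ t J u x a b
      = ∑ j ∈ Finset.range (J + 1), (s7sSh J j).indicator (fun _ => s7sq t J j u x a) b := rfl

theorem s7sq_abs_le {t : ℝ} {J : ℕ} {a0 C1 : ℝ}
    (h : ∀ j ≤ J, S7sNice (s7sLam t J j) (deriv (s7sLam t J j)) a0 C1) (j : ℕ) (hj : j ≤ J)
    (u x a : ℝ) : |s7sq t J j u x a| ≤ |Real.sqrt (8 * t)| * C1 / a0 := by
  have hn := s7s_L_nice h j hj x
  have h1 := hn.ratio_abs_le (Real.exp (-u)) (Real.sqrt (1 - Real.exp (-u) ^ 2)) a
  have e : s7sq t J j u x a = Real.sqrt (1 - Real.exp (-u) ^ 2) ^ 2 / 4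
      * (s7sN (Real.exp (-u)) (Real.sqrt (1 - Real.exp (-u) ^ 2)) (s7sL1 t J j x) a
        / s7sN (Real.exp (-u)) (Real.sqrt (1 - Real.exp (-u) ^ 2)) (s7sL t J j x) a) := by
    unfold s7sq
    rw [s7sP_eq_N, s7sP_eq_N]
    have := (hn.N_pos (Real.exp (-u)) (Real.sqrt (1 - Real.exp (-u) ^ 2)) a).ne'
    field_simp
  rw [e, abs_mul]
  have h2 : |Real.sqrt (1 - Real.exp (-u) ^ 2) ^ 2 / 4| ≤ 1 := by
    rw [abs_of_nonneg (by positivity)]
    have := s7s_beta_sq_le u
    linarith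
  calc _ ≤ 1 * (|Real.sqrt (8 * t)| * C1 / a0) := mul_le_mul h2 h1 (abs_nonneg _) zero_le_one
    _ = _ := one_mul _

theorem s7sq_meas {t : ℝ} {J : ℕ} {a0 C1 : ℝ}
    (h : ∀ j ≤ J, S7sNice (s7sLam t J j) (deriv (s7sLam t J j)) a0 C1) (j : ℕ) (hj : j ≤ J) :
    Measurable (fun p : ℝ × ℝ × ℝ => s7sq t J j p.1 p.2.1 p.2.2) := by
  unfold s7sq
  have h1 := s7s_PL_meas h j hj
  have h2 := s7s_PL1_meas h j hj
  exact ((by fun_prop : Measurable (fun p : ℝ × ℝ × ℝ =>
    Real.sqrt (1 - Real.exp (-p.1) ^ 2) ^ 2)).mul h2).div (measurable_const.mul h1)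

/-- L-s7s-val (1): joint measurability of the optimal test. -/
theorem s7s_Q_meas (t : ℝ) (ht : 1 ≤ t) (J : ℕ) :
    Measurable (fun p : ℝ × ℝ × ℝ × ℝ => s7sQ t J p.1 p.2.1 p.2.2.1 p.2.2.2) := by
  obtain ⟨a0, C1, h⟩ := s7s_lam_nice t ht J
  simp only [s7sQ_eq]
  apply Finset.measurable_sum
  intro j hj
  have hj' : j ≤ J := Nat.lt_succ_iff.1 (Finset.mem_range.1 hj)
  have e : (fun p : ℝ × ℝ × ℝ × ℝ =>
      (s7sSh J j).indicator (fun _ => s7sq t J j p.1 p.2.1 p.2.2.1) p.2.2.2)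
      = Set.indicator {p : ℝ × ℝ × ℝ × ℝ | p.2.2.2 ∈ s7sSh J j}
        (fun p => s7sq t J j p.1 p.2.1 p.2.2.1) := by
    funext p
    by_cases hp : p.2.2.2 ∈ s7sSh J j
    · rw [Set.indicator_of_mem hp, Set.indicator_of_mem (show p ∈ {p : ℝ × ℝ × ℝ × ℝ |
        p.2.2.2 ∈ s7sSh J j} from hp)]
    · rw [Set.indicator_of_notMem hp, Set.indicator_of_notMem (show p ∉ {p : ℝ × ℝ × ℝ × ℝ |
        p.2.2.2 ∈ s7sSh J j} from hp)]
  rw [e]
  have hm1 : Measurable (fun p : ℝ × ℝ × ℝ × ℝ => (p.1, p.2.1, p.2.2.1)) := by fun_prop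
  have hm2 : Measurable (fun p : ℝ × ℝ × ℝ × ℝ => p.2.2.2) := by fun_prop
  exact ((s7sq_meas h j hj').comp hm1).indicator (hm2 (s7s_sh_meas J j))

/-- L-s7s-val (2): the optimal test is bounded. -/
theorem s7s_Q_bdd (t : ℝ) (ht : 1 ≤ t) (J : ℕ) :
    ∃ B : ℝ, ∀ u x a b : ℝ, |s7sQ t J u x a b| ≤ B := by
  obtain ⟨a0, C1, h⟩ := s7s_lam_nice t ht J
  refine ⟨∑ _j ∈ Finset.range (J + 1), |Real.sqrt (8 * t)| * C1 / a0, fun u x a b => ?_⟩
  rw [s7sQ_eq]
  refine (Finset.abs_sum_le_sum_abs _ _).trans (Finset.sum_le_sum fun j hj => ?_)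
  have hj' : j ≤ J := Nat.lt_succ_iff.1 (Finset.mem_range.1 hj)
  have h1 := s7sq_abs_le h j hj' u x a
  by_cases hb : b ∈ s7sSh J j
  · rw [Set.indicator_of_mem hb]; exact h1
  · rw [Set.indicator_of_notMem hb, abs_zero]; exact (abs_nonneg _).trans h1

/-- a sum over the shells picks one term -/
theorem s7s_sh_pick (J : ℕ) (b : ℝ) : ∃ j0 ≤ J, b ∈ s7sSh J j0 ∧
    ∀ v : ℕ → ℝ, ∑ j ∈ Finset.range (J + 1), (s7sSh J j).indicator (fun _ => v j) b = v j0 := by
  have hb : b ∈ ⋃ j ∈ Finset.Icc 0 J, s7sSh J j := by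
    rw [s7s_sh_union J 0 (Nat.zero_le _)]
    simp only [Set.mem_ofPred_eq, Nat.cast_zero]
    positivity
  simp only [Set.mem_iUnion, Finset.mem_Icc] at hb
  obtain ⟨j0, ⟨-, hj0⟩, hbj⟩ := hb
  refine ⟨j0, hj0, hbj, fun v => ?_⟩
  rw [Finset.sum_eq_single j0]
  · rw [Set.indicator_of_mem hbj]
  · intro j hj hne
    have hj' : j ≤ J := Nat.lt_succ_iff.1 (Finset.mem_range.1 hj)
    apply Set.indicator_of_notMem
    intro hbj'
    exact (Set.disjoint_left.1 (s7s_sh_disj J j j0 hj' hj0 hne)) hbj' hbj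
  · intro hn
    exact absurd (Finset.mem_range.2 (Nat.lt_succ_iff.2 hj0)) hn

section nice
variable {l l1 : ℝ → ℝ} {a0 C1 : ℝ}

/-- growth of the linear part of a test -/
theorem s7s_h_growth (c s : ℝ) (hcs : c ^ 2 + s ^ 2 = 1) (q : ℝ → ℝ) (B : ℝ)
    (hqb : ∀ y, |q y| ≤ B) (p : ℝ × ℝ) :
    |2 * (p.1 - c * (c * p.1 + s * p.2)) * q (c * p.1 + s * p.2) - 4 * q (c * p.1 + s * p.2) ^ 2|
      ≤ 4 * B ^ 2 + 4 * B * (|p.1| + |p.2|) := by
  have hc1 : |c| ≤ 1 := by
    rw [← abs_one, ← sq_le_sq]; nlinarith [sq_nonneg s]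
  have hs1 : |s| ≤ 1 := by
    rw [← abs_one, ← sq_le_sq]; nlinarith [sq_nonneg c]
  have hB : 0 ≤ B := (abs_nonneg _).trans (hqb 0)
  set y := c * p.1 + s * p.2 with hy
  have h1 : |y| ≤ |p.1| + |p.2| := by
    calc |y| ≤ |c * p.1| + |s * p.2| := abs_add_le _ _
      _ = |c| * |p.1| + |s| * |p.2| := by rw [abs_mul, abs_mul]
      _ ≤ 1 * |p.1| + 1 * |p.2| := by gcongr
      _ = _ := by ring
  have h2 : |p.1 - c * y| ≤ 2 * (|p.1| + |p.2|) := by
    calc |p.1 - c * y| ≤ |p.1| + |c * y| := abs_sub _ _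
      _ = |p.1| + |c| * |y| := by rw [abs_mul]
      _ ≤ |p.1| + 1 * (|p.1| + |p.2|) := by gcongr
      _ ≤ _ := by nlinarith [abs_nonneg p.1, abs_nonneg p.2]
  calc _ ≤ |2 * (p.1 - c * y) * q y| + |4 * q y ^ 2| := abs_sub _ _
    _ = 2 * |p.1 - c * y| * |q y| + 4 * |q y| ^ 2 := by
        rw [abs_mul, abs_mul, abs_mul, abs_pow]; norm_num
    _ ≤ 2 * (2 * (|p.1| + |p.2|)) * B + 4 * B ^ 2 := by
        have := hqb y
        gcongr
    _ = _ := by ring

/-- Lemma A: rotation and Stein for one shell -/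
theorem S7sNice.val_term (h : S7sNice l l1 a0 C1) (c s : ℝ) (hcs : c ^ 2 + s ^ 2 = 1)
    (q : ℝ → ℝ) (hq : Continuous q) (B : ℝ) (hqb : ∀ y, |q y| ≤ B) :
    ∫ p : ℝ × ℝ, (2 * (p.1 - c * (c * p.1 + s * p.2)) * q (c * p.1 + s * p.2)
        - 4 * q (c * p.1 + s * p.2) ^ 2) * l p.1 ∂((gaussianReal 0 1).prod (gaussianReal 0 1))
      = ∫ y, (2 * s ^ 2 * q y * s7sN c s l1 y - 4 * (q y) ^ 2 * s7sN c s l y)
          ∂(gaussianReal 0 1) := by
  have hB : 0 ≤ B := (abs_nonneg _).trans (hqb 0)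
  set H : ℝ × ℝ → ℝ := fun p => (2 * (p.1 - c * (c * p.1 + s * p.2)) * q (c * p.1 + s * p.2)
        - 4 * q (c * p.1 + s * p.2) ^ 2) * l p.1 with hH
  have hHc : Continuous H := by
    have := h.continuous
    fun_prop
  have hHi : Integrable H ((gaussianReal 0 1).prod (gaussianReal 0 1)) := by
    apply s7s_integrable_prod_of_growth hHc (4 * B ^ 2) (4 * B)
    intro p
    rw [hH]
    simp only [abs_mul]
    have h1 := s7s_h_growth c s hcs q B hqb p
    have h2 := h.abs_le p.1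
    calc _ ≤ (4 * B ^ 2 + 4 * B * (|p.1| + |p.2|)) * 1 := by gcongr
      _ = _ := mul_one _
  have hHR : ∀ y w : ℝ, H (c * y + s * w, s * y - c * w)
      = 2 * s * q y * (w * l (c * y + s * w)) - 4 * q y ^ 2 * l (c * y + s * w) := by
    intro y w
    rw [hH]
    simp only
    have e1 : c * (c * y + s * w) + s * (s * y - c * w) = y := by
      linear_combination y * hcs
    rw [e1]
    ring
  have hst : ∀ y : ℝ, ∫ w, w * l (c * y + s * w) ∂(gaussianReal 0 1) = s * s7sN c s l1 y := by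
    intro y
    rw [s7s_stein (fun w => l (c * y + s * w)) (fun w => s * l1 (c * y + s * w)) _ _ (|s| * C1),
      integral_const_mul]
    · rfl
    · intro w
      rw [abs_mul]
      exact mul_le_mul_of_nonneg_left (h.bd1 _) (abs_nonneg _)
    · intro w
      have h1 : HasDerivAt (fun w : ℝ => c * y + s * w) s w := by
        simpa using ((hasDerivAt_id w).const_mul s).const_add (c * y)
      have h2 := (h.der (c * y + s * w)).comp w h1
      rw [mul_comm (l1 _) s] at h2
      exact h2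
    · have := h.cont1
      fun_prop
  have hi1 : ∀ y : ℝ, Integrable (fun w => w * l (c * y + s * w)) (gaussianReal 0 1) := by
    intro y
    refine s7s_integrable_abs.mono' (by have := h.continuous; fun_prop)
      (Eventually.of_forall fun w => ?_)
    rw [Real.norm_eq_abs, abs_mul]
    calc _ ≤ |w| * 1 := by gcongr; exact h.abs_le _
      _ = _ := mul_one _
  calc ∫ p, H p ∂((gaussianReal 0 1).prod (gaussianReal 0 1))
      = ∫ p : ℝ × ℝ, H (c * p.1 + s * p.2, s * p.1 - c * p.2)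
          ∂((gaussianReal 0 1).prod (gaussianReal 0 1)) := (s7s_rot_integral c s hcs H).symm
    _ = ∫ y, ∫ w, H (c * y + s * w, s * y - c * w) ∂(gaussianReal 0 1) ∂(gaussianReal 0 1) :=
        integral_prod _ ((s7s_rot_integrable c s hcs H).2 hHi)
    _ = _ := by
        congr 1; ext y
        simp_rw [hHR]
        rw [integral_sub ((hi1 y).const_mul _)
          ((s7sN_integrable h.continuous h.abs_le c s y).const_mul _), integral_const_mul,
          integral_const_mul, hst y]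
        change _ - 4 * q y ^ 2 * s7sN c s l y = _
        ring

end nice

/-- Lemma B: the third Gaussian variable is integrated out -/
theorem s7s_triple (S : Set ℝ) (hS : MeasurableSet S) (σ : ℝ → ℝ) (hσ : Measurable σ)
    (h : ℝ × ℝ → ℝ) (hh : Integrable h ((gaussianReal 0 1).prod (gaussianReal 0 1))) :
    Integrable (fun w : ℝ × ℝ × ℝ => S.indicator (fun _ => h (w.1, w.2.1)) (σ w.1 * w.2.2))
      ((gaussianReal 0 1).prod ((gaussianReal 0 1).prod (gaussianReal 0 1))) ∧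
    ∫ w : ℝ × ℝ × ℝ, S.indicator (fun _ => h (w.1, w.2.1)) (σ w.1 * w.2.2)
        ∂((gaussianReal 0 1).prod ((gaussianReal 0 1).prod (gaussianReal 0 1)))
      = ∫ p : ℝ × ℝ, h p * (gaussianReal 0 1).real {g : ℝ | σ p.1 * g ∈ S}
          ∂((gaussianReal 0 1).prod (gaussianReal 0 1)) := by
  set F : ℝ × ℝ × ℝ → ℝ := fun w => S.indicator (fun _ => h (w.1, w.2.1)) (σ w.1 * w.2.2) with hF
  have hmp : MeasurePreserving (MeasurableEquiv.prodAssoc : (ℝ × ℝ) × ℝ ≃ᵐ ℝ × ℝ × ℝ)
      (((gaussianReal 0 1).prod (gaussianReal 0 1)).prod (gaussianReal 0 1))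
      ((gaussianReal 0 1).prod ((gaussianReal 0 1).prod (gaussianReal 0 1))) :=
    ⟨MeasurableEquiv.prodAssoc.measurable, Measure.prodAssoc_prod⟩
  have hFA : ∀ z : (ℝ × ℝ) × ℝ, F (MeasurableEquiv.prodAssoc z)
      = Set.indicator {z : (ℝ × ℝ) × ℝ | σ z.1.1 * z.2 ∈ S} (fun z => h z.1) z := by
    intro z
    rw [hF]
    by_cases hz : σ z.1.1 * z.2 ∈ S
    · rw [Set.indicator_of_mem (show z ∈ {z : (ℝ × ℝ) × ℝ | σ z.1.1 * z.2 ∈ S} from hz)]
      exact Set.indicator_of_mem hz _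
    · rw [Set.indicator_of_notMem (show z ∉ {z : (ℝ × ℝ) × ℝ | σ z.1.1 * z.2 ∈ S} from hz)]
      exact Set.indicator_of_notMem hz _
  have hmS : MeasurableSet {z : (ℝ × ℝ) × ℝ | σ z.1.1 * z.2 ∈ S} := by
    have : Measurable (fun z : (ℝ × ℝ) × ℝ => σ z.1.1 * z.2) := by fun_prop
    exact this hS
  have hi : Integrable (fun z : (ℝ × ℝ) × ℝ => F (MeasurableEquiv.prodAssoc z))
      (((gaussianReal 0 1).prod (gaussianReal 0 1)).prod (gaussianReal 0 1)) := by
    simp_rw [hFA]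
    exact (hh.comp_fst _).indicator hmS
  refine ⟨(hmp.integrable_comp_emb MeasurableEquiv.prodAssoc.measurableEmbedding).1 hi, ?_⟩
  rw [← hmp.integral_comp' F, integral_prod _ hi]
  congr 1; ext p
  have hmS' : MeasurableSet {g : ℝ | σ p.1 * g ∈ S} := by
    have : Measurable (fun g : ℝ => σ p.1 * g) := by fun_prop
    exact this hS
  have e : (fun g : ℝ => F (MeasurableEquiv.prodAssoc (p, g)))
      = Set.indicator {g : ℝ | σ p.1 * g ∈ S} (fun _ => h p) := by
    funext g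
    rw [hFA]
    by_cases hz : σ p.1 * g ∈ S
    · rw [Set.indicator_of_mem (show g ∈ {g : ℝ | σ p.1 * g ∈ S} from hz)]
      exact Set.indicator_of_mem (s := {z : (ℝ × ℝ) × ℝ | σ z.1.1 * z.2 ∈ S}) hz _
    · rw [Set.indicator_of_notMem (show g ∉ {g : ℝ | σ p.1 * g ∈ S} from hz)]
      exact Set.indicator_of_notMem (s := {z : (ℝ × ℝ) × ℝ | σ z.1.1 * z.2 ∈ S}) hz _
  rw [e, integral_indicator_const _ hmS', smul_eq_mul, mul_comm]

theorem s7s_gx_meas (t x : ℝ) : Measurable (gx t t x) := by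
  unfold gx fL
  fun_prop

theorem s7sq_cont {t : ℝ} {J : ℕ} {a0 C1 : ℝ}
    (h : ∀ j ≤ J, S7sNice (s7sLam t J j) (deriv (s7sLam t J j)) a0 C1) (j : ℕ) (hj : j ≤ J)
    (u x : ℝ) : Continuous (s7sq t J j u x) := by
  have hn := s7s_L_nice h j hj x
  unfold s7sq
  rw [s7sP_eq_N, s7sP_eq_N]
  exact (continuous_const.mul (hn.N1_cont _ _)).div (continuous_const.mul (hn.N_cont _ _))
    fun a => (mul_pos (by norm_num) (hn.N_pos _ _ a)).ne'

/-- L-s7s-val (3): the value at fixed `(u,x)`. -/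
theorem s7s_val (t : ℝ) (ht : 1 ≤ t) (J : ℕ) (u x : ℝ) (hu : 0 < u) (hx : 0 < x) :
    s7sI t u x (fun a b => (s7sQ t J u x a b : ℂ))
      = Real.sqrt (1 - Real.exp (-u) ^ 2) ^ 4 / 4
        * ∑ j ∈ Finset.range (J + 1), s7sFI u (s7sL t J j x) (s7sL1 t J j x) := by
  obtain ⟨a0, C1, h⟩ := s7s_lam_nice t ht J
  set α := Real.exp (-u) with hα
  set β := Real.sqrt (1 - α ^ 2) with hβ
  have hcs : α ^ 2 + β ^ 2 = 1 := s7s_alpha_beta hu
  set B : ℝ := |Real.sqrt (8 * t)| * C1 / a0 with hB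
  -- the linear part
  set hh : ℕ → ℝ × ℝ → ℝ := fun j p =>
    2 * (p.1 - α * (α * p.1 + β * p.2)) * s7sq t J j u x (α * p.1 + β * p.2)
      - 4 * s7sq t J j u x (α * p.1 + β * p.2) ^ 2 with hhh
  have hhi : ∀ j ≤ J, Integrable (hh j) ((gaussianReal 0 1).prod (gaussianReal 0 1)) := by
    intro j hj
    have hc := s7sq_cont h j hj u x
    apply s7s_integrable_prod_of_growth (by rw [hhh]; fun_prop) (4 * B ^ 2) (4 * B)
    intro p
    exact s7s_h_growth α β hcs _ B (s7sq_abs_le h j hj u x) p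
  -- pointwise form of the integrand
  have hpt : ∀ w : ℝ × ℝ × ℝ,
      (2 * (w.1 - Real.exp (-u) * ouS u w.1 w.2.1)
        * ((s7sQ t J u x (ouS u w.1 w.2.1) (gx t t x w.1 * w.2.2) : ℝ) : ℂ).re
      - 4 * ‖((s7sQ t J u x (ouS u w.1 w.2.1) (gx t t x w.1 * w.2.2) : ℝ) : ℂ)‖ ^ 2)
      = ∑ j ∈ Finset.range (J + 1),
          (s7sSh J j).indicator (fun _ => hh j (w.1, w.2.1)) (gx t t x w.1 * w.2.2) := by
    intro w
    obtain ⟨j0, -, -, hpick⟩ := s7s_sh_pick J (gx t t x w.1 * w.2.2)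
    rw [hpick (fun j => hh j (w.1, w.2.1)), s7sQ_eq, hpick (fun j => s7sq t J j u x (ouS u w.1 w.2.1))]
    rw [Complex.ofReal_re, Complex.norm_real, Real.norm_eq_abs, sq_abs]
    rfl
  unfold s7sI
  simp_rw [hpt]
  rw [integral_finsetSum _ (fun j hj => (s7s_triple (s7sSh J j) (s7s_sh_meas J j) (gx t t x)
    (s7s_gx_meas t x) (hh j) (hhi j (Nat.lt_succ_iff.1 (Finset.mem_range.1 hj)))).1),
    Finset.mul_sum]
  apply Finset.sum_congr rfl
  intro j hj
  have hj' : j ≤ J := Nat.lt_succ_iff.1 (Finset.mem_range.1 hj)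
  have hn := s7s_L_nice h j hj' x
  rw [(s7s_triple (s7sSh J j) (s7s_sh_meas J j) (gx t t x)
    (s7s_gx_meas t x) (hh j) (hhi j hj')).2]
  have e1 : ∀ p : ℝ × ℝ, (gaussianReal 0 1).real {g : ℝ | gx t t x p.1 * g ∈ s7sSh J j}
      = s7sL t J j x p.1 := by
    intro p
    rw [s7s_gx_eq t x p.1 hx]
    rfl
  simp_rw [e1]
  rw [hn.val_term α β hcs (s7sq t J j u x) (s7sq_cont h j hj' u x) B (s7sq_abs_le h j hj' u x)]
  unfold s7sFI
  rw [← integral_const_mul]
  congr 1; ext y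
  rw [s7sP_eq_N, s7sP_eq_N, ← hα, ← hβ]
  have hpos := (hn.N_pos α β y).ne'
  have e2 : s7sq t J j u x y = β ^ 2 * s7sN α β (s7sL1 t J j x) y
      / (4 * s7sN α β (s7sL t J j x) y) := rfl
  rw [e2]
  field_simp
  ring

theorem S7sNice.FI_le {l l1 : ℝ → ℝ} {a0 C1 : ℝ} (h : S7sNice l l1 a0 C1) (u : ℝ) :
    s7sFI u l l1 ≤ C1 ^ 2 / a0 := by
  unfold s7sFI
  rw [s7sP_eq_N, s7sP_eq_N]
  have hb : ∀ y, ‖s7sN (Real.exp (-u)) (Real.sqrt (1 - Real.exp (-u) ^ 2)) l1 y ^ 2
      / s7sN (Real.exp (-u)) (Real.sqrt (1 - Real.exp (-u) ^ 2)) l y‖ ≤ C1 ^ 2 / a0 := by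
    intro y
    rw [Real.norm_eq_abs, abs_div, abs_of_pos (h.N_pos _ _ y), abs_pow]
    exact div_le_div₀ (by positivity)
      (pow_le_pow_left₀ (abs_nonneg _) (s7sN_abs_le h.bd1 _ _ y) 2) h.a0_pos (h.N_ge _ _ y)
  have := norm_integral_le_of_norm_le_const (μ := gaussianReal 0 1) (Eventually.of_forall hb)
  simp only [probReal_univ, mul_one] at this
  exact (le_abs_self _).trans this

theorem s7s_FI_meas {t : ℝ} {J : ℕ} {a0 C1 : ℝ}
    (h : ∀ j ≤ J, S7sNice (s7sLam t J j) (deriv (s7sLam t J j)) a0 C1) (j : ℕ) (hj : j ≤ J) :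
    Measurable (fun p : ℝ × ℝ => s7sFI p.1 (s7sL t J j p.2) (s7sL1 t J j p.2)) := by
  have hm : Measurable (fun z : (ℝ × ℝ) × ℝ => (z.1.1, z.1.2, z.2)) := by fun_prop
  have h1 : Measurable (fun z : (ℝ × ℝ) × ℝ => s7sP z.1.1 (s7sL1 t J j z.1.2) z.2) := by
    have h0 := s7s_PL1_meas h j hj
    have h1 := h0.comp hm
    exact h1
  have h2 : Measurable (fun z : (ℝ × ℝ) × ℝ => s7sP z.1.1 (s7sL t J j z.1.2) z.2) := by
    have h0 := s7s_PL_meas h j hj
    have h1 := h0.comp hm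
    exact h1
  have h3 : StronglyMeasurable (fun z : (ℝ × ℝ) × ℝ =>
      s7sP z.1.1 (s7sL1 t J j z.1.2) z.2 ^ 2 / s7sP z.1.1 (s7sL t J j z.1.2) z.2) :=
    ((h1.pow_const 2).div h2).stronglyMeasurable
  have h4 := StronglyMeasurable.integral_prod_right' (ν := gaussianReal 0 1) h3
  exact h4.measurable

theorem s7s_kap_beta {u : ℝ} (hu : 0 < u) :
    kap u * Real.sqrt (1 - Real.exp (-u) ^ 2) ^ 4 = Real.exp (-u) ^ 2 := by
  have h1 : Real.exp (-u) < 1 := by rw [Real.exp_lt_one_iff]; linarith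
  have h0 := Real.exp_pos (-u)
  have h2 : 0 < 1 - Real.exp (-u) ^ 2 := by nlinarith
  have h3 : Real.sqrt (1 - Real.exp (-u) ^ 2) ^ 4 = (1 - Real.exp (-u) ^ 2) ^ 2 := by
    have : Real.sqrt (1 - Real.exp (-u) ^ 2) ^ 4 = (Real.sqrt (1 - Real.exp (-u) ^ 2) ^ 2) ^ 2 := by
      ring
    rw [this, Real.sq_sqrt h2.le]
  rw [h3]
  unfold kap
  field_simp

/-- L-s7s-val (4): integration in `(u,x)`. -/
theorem s7s_J_opt (t : ℝ) (ht : 1 ≤ t) (J : ℕ) (u0 u1 x0 x1 : ℝ) (hu0 : 0 < u0) (hu : u0 < u1)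
    (hx0 : 0 < x0) (_hx : x0 < x1) :
    IntegrableOn (fun x => s7sD t J u0 u1 x / x ^ 2) (Set.Icc x0 x1) ∧
    s7sJ t u0 u1 x0 x1 (fun u x a b => (s7sQ t J u x a b : ℂ))
      = 1 / 4 * ∫ x in Set.Icc x0 x1, s7sD t J u0 u1 x / x ^ 2 := by
  obtain ⟨a0, C1, h⟩ := s7s_lam_nice t ht J
  set C : ℝ := |Real.sqrt (8 * t)| * C1 with hC
  have ha0 : 0 < a0 := (h 0 (Nat.zero_le _)).a0_pos
  set f : ℝ → ℝ → ℝ := fun u x => Real.exp (-u) ^ 2
    * (∑ j ∈ Finset.range (J + 1), s7sFI u (s7sL t J j x) (s7sL1 t J j x)) / x ^ 2 with hf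
  -- measurability and bound
  have hfm : Measurable (Function.uncurry f) := by
    have h1 : Measurable (fun p : ℝ × ℝ =>
        ∑ j ∈ Finset.range (J + 1), s7sFI p.1 (s7sL t J j p.2) (s7sL1 t J j p.2)) :=
      Finset.measurable_sum _ fun j hj =>
        s7s_FI_meas h j (Nat.lt_succ_iff.1 (Finset.mem_range.1 hj))
    exact ((by fun_prop : Measurable (fun p : ℝ × ℝ => Real.exp (-p.1) ^ 2)).mul h1).div
      (by fun_prop)
  have hfb : ∀ u x, 0 < u → x0 ≤ x → ‖f u x‖ ≤ ((J : ℝ) + 1) * (C ^ 2 / a0) / x0 ^ 2 := by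
    intro u x hu hx
    have hS0 : 0 ≤ ∑ j ∈ Finset.range (J + 1), s7sFI u (s7sL t J j x) (s7sL1 t J j x) :=
      Finset.sum_nonneg fun j hj =>
        s7sFI_nonneg (s7s_L_nice h j (Nat.lt_succ_iff.1 (Finset.mem_range.1 hj)) x) u
    have hS1 : ∑ j ∈ Finset.range (J + 1), s7sFI u (s7sL t J j x) (s7sL1 t J j x)
        ≤ ((J : ℝ) + 1) * (C ^ 2 / a0) := by
      have := Finset.sum_le_sum (s := Finset.range (J + 1)) fun j hj =>
        (s7s_L_nice h j (Nat.lt_succ_iff.1 (Finset.mem_range.1 hj)) x).FI_le u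
      simp only [Finset.sum_const, Finset.card_range, nsmul_eq_mul] at this
      push_cast at this
      exact this
    have hα : Real.exp (-u) ^ 2 ≤ 1 := by
      apply pow_le_one₀ (Real.exp_pos _).le
      rw [Real.exp_le_one_iff]; linarith
    have hxp : 0 < x := hx0.trans_le hx
    rw [hf, Real.norm_eq_abs, abs_of_nonneg (by positivity)]
    apply div_le_div₀ (by positivity) _ (by positivity) (by gcongr)
    calc _ ≤ 1 * (((J : ℝ) + 1) * (C ^ 2 / a0)) := by gcongr
      _ = _ := one_mul _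
  have hfi : Integrable (Function.uncurry f)
      ((volume.restrict (Set.Icc u0 u1)).prod (volume.restrict (Set.Icc x0 x1))) := by
    rw [Measure.prod_restrict]
    refine Measure.integrableOn_of_bounded (M := ((J : ℝ) + 1) * (C ^ 2 / a0) / x0 ^ 2) ?_ ?_ ?_
    · rw [Measure.prod_prod]
      simp only [Real.volume_Icc]
      exact ENNReal.mul_ne_top ENNReal.ofReal_ne_top ENNReal.ofReal_ne_top
    · exact hfm.aestronglyMeasurable
    · apply ae_restrict_of_forall_mem (measurableSet_Icc.prod measurableSet_Icc)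
      rintro ⟨u, x⟩ ⟨hu', hx'⟩
      exact hfb u x (hu0.trans_le hu'.1) hx'.1
  -- de Bruijn at fixed `x`
  have hdB : ∀ x : ℝ, ∫ u in Set.Icc u0 u1, f u x = s7sD t J u0 u1 x / x ^ 2 := by
    intro x
    have hj : ∀ j ∈ Finset.range (J + 1),
        IntegrableOn (fun u => Real.exp (-u) ^ 2 * s7sFI u (s7sL t J j x) (s7sL1 t J j x))
          (Set.Icc u0 u1) ∧
        ∫ u in Set.Icc u0 u1, Real.exp (-u) ^ 2 * s7sFI u (s7sL t J j x) (s7sL1 t J j x)
          = s7sPhi u0 (s7sL t J j x) - s7sPhi u1 (s7sL t J j x) := by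
      intro j hj
      obtain ⟨h1, h2⟩ := s7s_debruijn
        (s7s_L_nice h j (Nat.lt_succ_iff.1 (Finset.mem_range.1 hj)) x) hu0 hu.le
      constructor
      · rw [integrableOn_Icc_iff_integrableOn_Ioc]
        exact (intervalIntegrable_iff_integrableOn_Ioc_of_le hu.le).1 h1
      · rw [integral_Icc_eq_integral_Ioc, ← intervalIntegral.integral_of_le hu.le, h2]
    have e : ∀ u, f u x = (∑ j ∈ Finset.range (J + 1),
        Real.exp (-u) ^ 2 * s7sFI u (s7sL t J j x) (s7sL1 t J j x)) / x ^ 2 := by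
      intro u
      simp only [hf, Finset.mul_sum]
    simp_rw [e]
    rw [integral_div, integral_finsetSum _ (fun j hj' => (hj j hj').1)]
    unfold s7sD
    congr 1
    exact Finset.sum_congr rfl fun j hj' => (hj j hj').2
  constructor
  · have := hfi.integral_prod_right
    refine this.congr (Eventually.of_forall fun x => ?_)
    exact hdB x
  · unfold s7sJ
    have e1 : ∀ u ∈ Set.Icc u0 u1, kap u * ∫ x in Set.Icc x0 x1,
        s7sI t u x (fun a b => (s7sQ t J u x a b : ℂ)) / x ^ 2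
        = 1 / 4 * ∫ x in Set.Icc x0 x1, f u x := by
      intro u hu'
      have hup : 0 < u := hu0.trans_le hu'.1
      rw [← integral_const_mul, ← integral_const_mul]
      apply setIntegral_congr_fun measurableSet_Icc
      intro x hx'
      simp only [hf]
      rw [s7s_val t ht J u x hup (hx0.trans_le hx'.1)]
      linear_combination ((∑ j ∈ Finset.range (J + 1), s7sFI u (s7sL t J j x) (s7sL1 t J j x))
        / x ^ 2 / 4) * s7s_kap_beta hup
    rw [setIntegral_congr_fun measurableSet_Icc e1, integral_const_mul,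
      integral_integral_swap hfi]
    simp_rw [hdB]

end Claimed.Agent.R259
end

/- ===== packed: Claimed.Agent.R259.S7FishB ===== -/
section
/-
Row 259 (S0499), section 7, package L-S7-FISH-B (block B of S7Fish.lean): regularity of the observation density in `y`.
Prover: helper65.  No sorry.  Never imports S7Fish.lean.
-/
set_option autoImplicit false

open MeasureTheory ProbabilityTheory
open scoped BigOperators Matrix Topology ContDiff
open Claimed.Agent.R260 (Mx mxFun mxSchur mxSq mxIP mxEig mxU mxRot)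

namespace Claimed.Agent.R259

variable {n : ℕ}

/-! ### lines -/

theorem s7fb_line {f : EE n → ℝ} {y : EE n} (hf : DifferentiableAt ℝ f y) (v : EE n) :
    HasDerivAt (fun s : ℝ => f (y + s • v)) (fderiv ℝ f y v) 0 :=
  hf.hasFDerivAt.hasLineDerivAt v

/-! ### the field `ρ` -/

section rho

variable (X : HierData n) (k : ℕ)

theorem s7fb_T_cd1 (l : ℕ) : ContDiff ℝ 1 (X.T l) := (X.T_test l).1.of_le (by exact_mod_cast le_top)

theorem s7fb_T_cd (l : ℕ) (α : Idx n (l + 1)) : ContDiff ℝ 1 fun y => X.T l y α :=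
  (EuclideanSpace.proj α : TT n (l + 1) →L[ℝ] ℝ).contDiff.comp (s7fb_T_cd1 X l)

theorem s7fb_T_fderiv (l : ℕ) (α : Idx n (l + 1)) (i : Fin n) (y : EE n) :
    fderiv ℝ (fun y => X.T l y α) y (eb i) = dI i (X.T l) y α := by
  have h1 : HasFDerivAt (X.T l) (fderiv ℝ (X.T l) y) y :=
    ((s7fb_T_cd1 X l).differentiable one_ne_zero y).hasFDerivAt
  have h2 := ((EuclideanSpace.proj α : TT n (l + 1) →L[ℝ] ℝ).hasFDerivAt (x := X.T l y)).comp y h1
  have h3 : fderiv ℝ (fun y => X.T l y α) y =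
      (EuclideanSpace.proj α : TT n (l + 1) →L[ℝ] ℝ).comp (fderiv ℝ (X.T l) y) := h2.fderiv
  rw [h3]
  rfl

theorem s7fb_T_line (l : ℕ) (α : Idx n (l + 1)) (i : Fin n) (y : EE n) :
    HasDerivAt (fun s : ℝ => X.T l (y + s • eb i) α) (dI i (X.T l) y α) 0 := by
  rw [← s7fb_T_fderiv]
  exact s7fb_line ((s7fb_T_cd X l α).differentiable one_ne_zero y) (eb i)

theorem s7fb_rho_apply (y : EE n) (a b : Fin n) :
    X.rho k y a b = X.nrm k * ∑ l ∈ Finset.Ico k (2 * k), ∑ β : Idx n l,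
      X.T l y (Fin.cons a β) * X.T l y (Fin.cons b β) := by
  unfold HierData.rho red flat
  simp [Matrix.sum_apply, Matrix.mul_apply]

theorem s7fb_Drho_apply (i : Fin n) (y : EE n) (a b : Fin n) :
    X.Drho k i y a b = X.nrm k * ∑ l ∈ Finset.Ico k (2 * k), ∑ β : Idx n l,
      (dI i (X.T l) y (Fin.cons a β) * X.T l y (Fin.cons b β)
        + X.T l y (Fin.cons a β) * dI i (X.T l) y (Fin.cons b β)) := by
  unfold HierData.Drho flat
  simp [Matrix.sum_apply, Matrix.mul_apply, Finset.sum_add_distrib]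

theorem s7fb_rho_cd : s7fbCD fun y => X.rho k y := by
  intro a b
  simp only [s7fb_rho_apply]
  exact contDiff_const.mul (ContDiff.sum fun l _ => ContDiff.sum fun β _ =>
    (s7fb_T_cd X l _).mul (s7fb_T_cd X l _))

theorem s7fb_rho_md (i : Fin n) (y : EE n) :
    s7fbMD (fun s => X.rho k (y + s • eb i)) (X.Drho k i y) 0 := by
  intro a b
  simp only [s7fb_rho_apply, s7fb_Drho_apply]
  refine (HasDerivAt.const_mul _ (HasDerivAt.fun_sum fun l _ => HasDerivAt.fun_sum fun β _ =>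
    (s7fb_T_line X l (Fin.cons a β) i y).mul (s7fb_T_line X l (Fin.cons b β) i y))).congr_deriv ?_
  simp

end rho

/-! ### the covariance along a curve -/

theorem s7fb_B_posDef {L T : ℝ} (hL : 1 ≤ L) (hTp : 0 < T) {ρ : Mx n} (hρ : ρ.PosSemidef) :
    ((1 : Mx n) + (T / L) • ρ).PosDef :=
  Matrix.PosDef.add_posSemidef Matrix.PosDef.one (hρ.smul (by positivity))

theorem s7fb_B_det {L T : ℝ} (hL : 1 ≤ L) (hTp : 0 < T) {ρ : Mx n} (hρ : ρ.PosSemidef) :
    ((1 : Mx n) + (T / L) • ρ).det ≠ 0 := (s7fb_B_posDef hL hTp hρ).det_pos.ne'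

theorem s7fb_obsE_md {L T : ℝ} (hL : 1 ≤ L) (hTp : 0 < T) {ρ : ℝ → Mx n} {Δ : Mx n} {t : ℝ}
    (h : s7fbMD ρ Δ t) (hρ : (ρ t).PosSemidef) :
    s7fbMD (fun s => obsE L T (ρ s)) (-(obsE L T (ρ t) * ((T / L) • Δ) * obsE L T (ρ t))) t := by
  have h1 : s7fbMD (fun s => (1 : Mx n) + (T / L) • ρ s) ((T / L) • Δ) t :=
    ((s7fbMD_const 1 t).add (h.smul (T / L))).congr_val (zero_add _)
  exact h1.inv (s7fb_B_det hL hTp hρ)

theorem s7fb_obsDC_alg {L T : ℝ} (hL : 1 ≤ L) (hTp : 0 < T) {ρ : Mx n} (hρ : ρ.PosSemidef) (Δ : Mx n) :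
    T • (Δ * obsE L T ρ + ρ * (-(obsE L T ρ * ((T / L) • Δ) * obsE L T ρ))) = obsDC L T ρ Δ := by
  have hBE : ((1 : Mx n) + (T / L) • ρ) * obsE L T ρ = 1 :=
    Matrix.mul_nonsing_inv _ (isUnit_iff_ne_zero.2 (s7fb_B_det hL hTp hρ))
  set E : Mx n := obsE L T ρ with hE
  have h1 : E = 1 - (T / L) • (ρ * E) := by
    rw [Matrix.add_mul, Matrix.one_mul, Matrix.smul_mul] at hBE
    exact eq_sub_of_add_eq hBE
  unfold obsDC
  rw [← hE]
  congr 1
  have h2 : Δ * E + ρ * (-(E * ((T / L) • Δ) * E)) = (1 - (T / L) • (ρ * E)) * (Δ * E) := by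
    simp only [Matrix.mul_neg, Matrix.mul_smul, Matrix.smul_mul, Matrix.add_mul, Matrix.neg_mul,
      Matrix.one_mul, Matrix.mul_assoc, sub_eq_add_neg]
  rw [h2, ← h1, Matrix.mul_assoc]

theorem s7fb_obsC_md {L T : ℝ} (hL : 1 ≤ L) (hTp : 0 < T) {ρ : ℝ → Mx n} {Δ : Mx n} {t : ℝ}
    (h : s7fbMD ρ Δ t) (hρ : (ρ t).PosSemidef) :
    s7fbMD (fun s => obsC L T (ρ s)) (obsDC L T (ρ t) Δ) t := by
  have h1 := (s7fbMD_const (1 : Mx n) t).add ((h.mul (s7fb_obsE_md hL hTp h hρ)).smul T)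
  refine h1.congr_val ?_
  rw [zero_add]
  exact s7fb_obsDC_alg hL hTp hρ Δ

/-! ### the square root of the Gaussian density -/

theorem s7fb_sqrt_gdC {C : Mx n} (h : 0 < C.det) (z : EE n) :
    Real.sqrt (gdC C z) =
      Real.exp (-(Real.log ((2 * Real.pi) ^ n * C.det)) / 4 - inner ℝ z (mv C⁻¹ z) / 4) := by
  have hx : 0 < (2 * Real.pi) ^ n * C.det := by positivity
  have h1 : Real.sqrt ((2 * Real.pi) ^ n * C.det) = Real.exp (Real.log ((2 * Real.pi) ^ n * C.det) / 2) := by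
    rw [Real.exp_half, Real.exp_log hx]
  have h2 : gdC C z =
      Real.exp (-(Real.log ((2 * Real.pi) ^ n * C.det)) / 2 - inner ℝ z (mv C⁻¹ z) / 2) := by
    unfold gdC
    rw [h1, ← Real.exp_neg, ← Real.exp_add]
    congr 1
    ring
  rw [h2, ← Real.exp_half]
  congr 1
  ring

theorem s7fb_quad_md {M : ℝ → Mx n} {M' : Mx n} {t : ℝ} (h : s7fbMD M M' t) (z : EE n) :
    HasDerivAt (fun s => inner ℝ z (mv (M s) z)) (inner ℝ z (mv M' z)) t := by
  simp only [s7fa_inner_mv, dotProduct, Matrix.mulVec]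
  exact HasDerivAt.fun_sum fun a _ =>
    (HasDerivAt.fun_sum fun b _ => (h a b).mul_const (z b)).const_mul (z a)

theorem s7fb_quad_cd {V : Type} [NormedAddCommGroup V] [NormedSpace ℝ V] {M : V → Mx n}
    (h : s7fbCD M) (z : EE n) : ContDiff ℝ 1 fun y => inner ℝ z (mv (M y) z) := by
  simp only [s7fa_inner_mv, dotProduct, Matrix.mulVec]
  exact ContDiff.sum fun a _ => contDiff_const.mul
    (ContDiff.sum fun b _ => (h a b).mul contDiff_const)

theorem s7fb_quad_neg (M : Mx n) (z : EE n) : inner ℝ z (mv (-M) z) = -inner ℝ z (mv M z) := by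
  simp only [s7fa_inner_mv, Matrix.neg_mulVec, dotProduct_neg]

theorem s7fb_sqrt_md {C : ℝ → Mx n} {C' : Mx n} {t : ℝ} (h : s7fbMD C C' t)
    (hdet : ∀ s, 0 < (C s).det) (z : EE n) :
    HasDerivAt (fun s => Real.sqrt (gdC (C s) z))
      (Real.sqrt (gdC (C t) z) *
        (((inner ℝ z (mv ((C t)⁻¹ * C' * (C t)⁻¹) z) - Matrix.trace ((C t)⁻¹ * C')) / 2) / 2)) t := by
  have hpi : (0 : ℝ) < (2 * Real.pi) ^ n := by positivity
  have hx : (2 * Real.pi) ^ n * (C t).det ≠ 0 := (mul_pos hpi (hdet t)).ne'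
  have h1 := ((h.det' (hdet t).ne').const_mul ((2 * Real.pi) ^ n)).log hx
  have h2 := s7fb_quad_md (h.inv (hdet t).ne') z
  have h3 : HasDerivAt (fun s => Real.exp (-(Real.log ((2 * Real.pi) ^ n * (C s).det)) / 4
      - inner ℝ z (mv (C s)⁻¹ z) / 4))
      (Real.exp (-(Real.log ((2 * Real.pi) ^ n * (C t).det)) / 4 - inner ℝ z (mv (C t)⁻¹ z) / 4) *
        (-((2 * Real.pi) ^ n * ((C t).det * Matrix.trace ((C t)⁻¹ * C')) /
            ((2 * Real.pi) ^ n * (C t).det)) / 4
          - inner ℝ z (mv (-((C t)⁻¹ * C' * (C t)⁻¹)) z) / 4)) t :=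
    ((h1.neg.div_const 4).sub (h2.div_const 4)).exp
  simp only [s7fb_sqrt_gdC (hdet _)]
  refine h3.congr_deriv ?_
  rw [s7fb_quad_neg]
  congr 1
  have hd := (hdet t).ne'
  have hp := hpi.ne'
  field_simp
  ring

/-! ### assembly -/

section main

variable (X : HierData n) (k : ℕ)

theorem s7fb_obsC_cd {L T : ℝ} (hL : 1 ≤ L) (hTp : 0 < T) : s7fbCD fun y => obsC L T (X.rho k y) := by
  have h1 : s7fbCD fun y => (1 : Mx n) + (T / L) • X.rho k y :=
    (s7fbCD_const 1).add ((s7fb_rho_cd X k).smul (T / L))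
  have h2 : s7fbCD fun y => obsE L T (X.rho k y) :=
    h1.inv fun y => s7fb_B_det hL hTp (s7fa_rho_psd X k y)
  exact (s7fbCD_const 1).add (((s7fb_rho_cd X k).mul h2).smul T)

theorem s7fb_obsC_det_pos {L T : ℝ} (hL : 1 ≤ L) (hTp : 0 < T) (y : EE n) :
    0 < (obsC L T (X.rho k y)).det :=
  lt_of_lt_of_le one_pos (s7fa_obsC_det_ge hL hTp (s7fa_rho_psd X k y))

theorem s7fb_sqrtF_cd {L T : ℝ} (hL : 1 ≤ L) (hTp : 0 < T) (z : EE n) :
    ContDiff ℝ 1 fun y => Real.sqrt (X.obsF k L T y z) := by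
  unfold HierData.obsF
  simp only [s7fb_sqrt_gdC (s7fb_obsC_det_pos X k hL hTp _)]
  have hC := s7fb_obsC_cd X k hL hTp
  have h1 : ContDiff ℝ 1 fun y => Real.log ((2 * Real.pi) ^ n * (obsC L T (X.rho k y)).det) :=
    (contDiff_const.mul hC.det).log fun y =>
      (mul_pos (by positivity) (s7fb_obsC_det_pos X k hL hTp y)).ne'
  have h2 : ContDiff ℝ 1 fun y => inner ℝ z (mv (obsC L T (X.rho k y))⁻¹ z) :=
    s7fb_quad_cd (hC.inv fun y => (s7fb_obsC_det_pos X k hL hTp y).ne') z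
  exact ((h1.neg.div_const 4).sub (h2.div_const 4)).exp

/-- the compact set outside of which all fields of the band vanish -/
def s7fbK : Set (EE n) := ⋃ l ∈ Finset.Ico k (2 * k), tsupport (X.T l)

theorem s7fbK_compact : IsCompact (s7fbK X k) :=
  Finset.isCompact_biUnion _ fun l _ => (X.T_test l).2

theorem s7fb_T_zero {y : EE n} (hy : y ∉ s7fbK X k) {l : ℕ} (hl : l ∈ Finset.Ico k (2 * k)) :
    X.T l y = 0 := by
  by_contra h
  exact hy (Set.mem_biUnion hl (subset_tsupport _ h))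

theorem s7fb_rho_zero {y : EE n} (hy : y ∉ s7fbK X k) : X.rho k y = 0 := by
  ext a b
  rw [s7fb_rho_apply]
  have : ∑ l ∈ Finset.Ico k (2 * k), ∑ β : Idx n l,
      X.T l y (Fin.cons a β) * X.T l y (Fin.cons b β) = 0 :=
    Finset.sum_eq_zero fun l hl => Finset.sum_eq_zero fun β _ => by
      rw [s7fb_T_zero X k hy hl]
      simp
  rw [this]
  simp

theorem s7fb_Drho_zero (i : Fin n) {y : EE n} (hy : y ∉ s7fbK X k) : X.Drho k i y = 0 := by
  ext a b
  rw [s7fb_Drho_apply]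
  have : ∑ l ∈ Finset.Ico k (2 * k), ∑ β : Idx n l,
      (dI i (X.T l) y (Fin.cons a β) * X.T l y (Fin.cons b β)
        + X.T l y (Fin.cons a β) * dI i (X.T l) y (Fin.cons b β)) = 0 :=
    Finset.sum_eq_zero fun l hl => Finset.sum_eq_zero fun β _ => by
      rw [s7fb_T_zero X k hy hl]
      simp
  rw [this]
  simp

theorem s7fb_sqrtF_bddC1 {L T : ℝ} (hL : 1 ≤ L) (hTp : 0 < T) (z : EE n) :
    IsBddC1 fun y => Real.sqrt (X.obsF k L T y z) := by
  have hcd := s7fb_sqrtF_cd X k hL hTp z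
  refine ⟨hcd, ⟨1, fun y => ?_⟩, ?_⟩
  · rw [abs_of_nonneg (Real.sqrt_nonneg _)]
    rw [Real.sqrt_le_one]
    refine (s7fa_obsF_le X k hL hTp y z).trans (Real.exp_le_one_iff.2 ?_)
    have : 0 ≤ ‖z‖ ^ 2 / (2 * (1 + L)) := by positivity
    rw [neg_div]
    linarith
  · set c : ℝ := Real.sqrt (gdC (obsC L T 0) z) with hc
    have hsupp : HasCompactSupport fun y => Real.sqrt (X.obsF k L T y z) - c := by
      refine HasCompactSupport.of_support_subset_isCompact (s7fbK_compact X k) fun y hy => ?_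
      by_contra hyK
      apply hy
      show Real.sqrt (X.obsF k L T y z) - c = 0
      unfold HierData.obsF
      rw [s7fb_rho_zero X k hyK, hc, sub_self]
    have h1 : fderiv ℝ (fun y => Real.sqrt (X.obsF k L T y z) - c) =
        fderiv ℝ fun y => Real.sqrt (X.obsF k L T y z) := by
      funext y
      rw [fderiv_sub_const]
    have h2 := hsupp.fderiv (𝕜 := ℝ)
    rw [h1] at h2
    exact (hcd.continuous_fderiv one_ne_zero).bounded_above_of_compact_support h2

theorem s7fb_norm_gradient_sq (f : EE n → ℝ) (y : EE n) :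
    ‖gradient f y‖ ^ 2 = ∑ i, (fderiv ℝ f y (eb i)) ^ 2 := by
  rw [EuclideanSpace.norm_sq_eq]
  refine Finset.sum_congr rfl fun i _ => ?_
  have h : gradient f y i = fderiv ℝ f y (eb i) := by
    have h1 : inner ℝ (gradient f y) (eb i) = fderiv ℝ f y (eb i) := by
      unfold gradient
      exact InnerProductSpace.toDual_symm_apply
    rw [← h1]
    unfold eb
    rw [EuclideanSpace.inner_single_right]
    simp
  rw [h, Real.norm_eq_abs, sq_abs]

theorem s7fb_sqrtF_pd {L T : ℝ} (hL : 1 ≤ L) (hTp : 0 < T) (y z : EE n) (i : Fin n) :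
    fderiv ℝ (fun y => Real.sqrt (X.obsF k L T y z)) y (eb i) =
      Real.sqrt (X.obsF k L T y z) *
        (((inner ℝ z (mv ((obsC L T (X.rho k y))⁻¹ * obsDC L T (X.rho k y) (X.Drho k i y) *
            (obsC L T (X.rho k y))⁻¹) z)
          - Matrix.trace ((obsC L T (X.rho k y))⁻¹ * obsDC L T (X.rho k y) (X.Drho k i y))) / 2) / 2) := by
  have h1 := s7fb_line ((s7fb_sqrtF_cd X k hL hTp z).differentiable one_ne_zero y) (eb i)
  have e0 : X.rho k (y + (0 : ℝ) • eb i) = X.rho k y := by rw [zero_smul, add_zero]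
  have h2 : s7fbMD (fun s : ℝ => obsC L T (X.rho k (y + s • eb i)))
      (obsDC L T (X.rho k y) (X.Drho k i y)) 0 := by
    have h3 := s7fb_obsC_md hL hTp (s7fb_rho_md X k i y) (by rw [e0]; exact s7fa_rho_psd X k y)
    rwa [e0] at h3
  have h4 := s7fb_sqrt_md h2 (fun s => s7fb_obsC_det_pos X k hL hTp _) z
  rw [e0] at h4
  exact h1.unique h4

theorem s7fb_sqrtF_grad {L T : ℝ} (hL : 1 ≤ L) (hTp : 0 < T) (y z : EE n) :
    ‖gradient (fun y => Real.sqrt (X.obsF k L T y z)) y‖ ^ 2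
      = X.obsF k L T y z / 4 * ∑ i,
        ((inner ℝ z (mv ((obsC L T (X.rho k y))⁻¹ * obsDC L T (X.rho k y) (X.Drho k i y) *
            (obsC L T (X.rho k y))⁻¹) z)
          - Matrix.trace ((obsC L T (X.rho k y))⁻¹ * obsDC L T (X.rho k y) (X.Drho k i y))) / 2) ^ 2 := by
  rw [s7fb_norm_gradient_sq, Finset.mul_sum]
  refine Finset.sum_congr rfl fun i _ => ?_
  rw [s7fb_sqrtF_pd X k hL hTp y z i, mul_pow, Real.sq_sqrt (s7fa_obsF_pos X k hL hTp y z).le]
  ring

theorem s7fb_dI_cont (l : ℕ) (i : Fin n) : Continuous fun y => dI i (X.T l) y :=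
  ((s7fb_T_cd1 X l).continuous_fderiv one_ne_zero).clm_apply continuous_const

theorem s7fb_rho_cont :
    (Continuous fun y => X.rho k y) ∧ (∀ i, Continuous fun y => X.Drho k i y) ∧
      (∀ i, HasCompactSupport fun y => X.Drho k i y) ∧ ∀ i y, (X.Drho k i y).IsSymm := by
  refine ⟨s7fa_rho_cont X k, fun i => ?_, fun i => ?_, fun i y => ?_⟩
  · unfold HierData.Drho
    have h1 : Continuous fun y => ∑ l ∈ Finset.Ico k (2 * k),
        (flat (dI i (X.T l) y) * (flat (X.T l y))ᵀ + flat (X.T l y) * (flat (dI i (X.T l) y))ᵀ) := by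
      refine continuous_finsetSum _ fun l _ => ?_
      have h := s7fa_flat_cont (X.T_test l).1.continuous
      have h' := s7fa_flat_cont (s7fb_dI_cont X l i)
      exact (h'.matrix_mul h.matrix_transpose).add (h.matrix_mul h'.matrix_transpose)
    exact h1.const_smul (X.nrm k)
  · refine HasCompactSupport.of_support_subset_isCompact (s7fbK_compact X k) fun y hy => ?_
    by_contra hyK
    exact hy (s7fb_Drho_zero X k i hyK)
  · unfold HierData.Drho Matrix.IsSymm
    rw [Matrix.transpose_smul, Matrix.transpose_sum]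
    congr 1
    refine Finset.sum_congr rfl fun l _ => ?_
    rw [Matrix.transpose_add, Matrix.transpose_mul, Matrix.transpose_mul, Matrix.transpose_transpose,
      Matrix.transpose_transpose, add_comm]

end main

end Claimed.Agent.R259
end

/- ===== packed: Claimed.Agent.R259.S7FishD ===== -/
section
/-
Row 259 (S0499), section 7, package L-S7-FISH-TOP (block D of S7Fish.lean): the Fisher bound
`∫ dz Ent_η(F(·,z)) ≤ U(T)`.
Prover: helper65.  No sorry.  Never imports S7Fish.lean.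
-/
set_option autoImplicit false

open MeasureTheory ProbabilityTheory
open scoped BigOperators Matrix Topology ContDiff
open Claimed.Agent.R260 (Mx mxFun mxSchur mxSq mxIP mxEig mxU mxRot)

namespace Claimed.Agent.R259

variable {n : ℕ} (X : HierData n) (k : ℕ)

theorem s7fd_prob : IsProbabilityMeasure (dm X.η) := by
  have h0 : ∀ x, 0 ≤ X.η x := fun x => (X.spd.2.1 x).le
  have h1 : ∫ x, X.η x = 1 := X.spd.2.2
  have hi : Integrable X.η volume := by
    by_contra hcon
    rw [integral_undef hcon] at h1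
    norm_num at h1
  refine ⟨?_⟩
  unfold dm
  rw [withDensity_apply _ MeasurableSet.univ, Measure.restrict_univ,
    ← ofReal_integral_eq_lintegral_ofReal hi (Filter.Eventually.of_forall h0), h1]
  simp

/-- the score in the direction `i` -/
noncomputable def s7fdS (L T : ℝ) (i : Fin n) (y z : EE n) : ℝ :=
  (inner ℝ z (mv ((obsC L T (X.rho k y))⁻¹ * obsDC L T (X.rho k y) (X.Drho k i y) *
      (obsC L T (X.rho k y))⁻¹) z)
    - Matrix.trace ((obsC L T (X.rho k y))⁻¹ * obsDC L T (X.rho k y) (X.Drho k i y))) / 2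

/-- four times the energy density of `√F` -/
noncomputable def s7fdH (L T : ℝ) (y z : EE n) : ℝ :=
  X.obsF k L T y z * ∑ i, s7fdS X k L T i y z ^ 2

/-! ### continuity -/

theorem s7fd_obsE_cont {L T : ℝ} (hL : 1 ≤ L) (hTp : 0 < T) :
    Continuous fun y => obsE L T (X.rho k y) := by
  have h0 : Continuous fun a : ℝ => (1 + T / L * max a 0)⁻¹ :=
    Continuous.inv₀ (by fun_prop) fun a => (s7fa_den_pos hL hTp (le_max_right a 0)).ne'
  have h2 : (fun y => obsE L T (X.rho k y)) =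
      fun y => mxFun (fun a => (1 + T / L * max a 0)⁻¹) (X.rho k y) := by
    funext y
    have hρ := s7fa_rho_psd X k y
    rw [s7fa_obsE hL hTp hρ]
    refine Claimed.Agent.R260.mxFun_congr fun i => ?_
    rw [max_eq_left (s7fa_eig_nonneg hρ i)]
  rw [h2]
  exact s7fa_mxFun_cont h0 (s7fa_rho_cont X k) fun y => s7fa_isSymm (s7fa_rho_psd X k y)

theorem s7fd_obsDC_cont {L T : ℝ} (hL : 1 ≤ L) (hTp : 0 < T) (i : Fin n) :
    Continuous fun y => obsDC L T (X.rho k y) (X.Drho k i y) := by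
  unfold obsDC
  have hE := s7fd_obsE_cont X k hL hTp
  have hD := (s7fb_rho_cont X k).2.1 i
  exact ((hE.matrix_mul hD).matrix_mul hE).const_smul T

theorem s7fdS_cont {L T : ℝ} (hL : 1 ≤ L) (hTp : 0 < T) (i : Fin n) :
    Continuous fun p : EE n × EE n => s7fdS X k L T i p.1 p.2 := by
  unfold s7fdS
  have hCi := s7fa_obsC_inv_cont X k hL hTp
  have hDC := s7fd_obsDC_cont X k hL hTp i
  have h1 : Continuous fun p : EE n × EE n => (obsC L T (X.rho k p.1))⁻¹ *
      obsDC L T (X.rho k p.1) (X.Drho k i p.1) * (obsC L T (X.rho k p.1))⁻¹ :=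
    ((hCi.matrix_mul hDC).matrix_mul hCi).comp continuous_fst
  have h2 : Continuous fun p : EE n × EE n =>
      Matrix.trace ((obsC L T (X.rho k p.1))⁻¹ * obsDC L T (X.rho k p.1) (X.Drho k i p.1)) :=
    ((hCi.matrix_mul hDC).matrix_trace).comp continuous_fst
  exact ((continuous_snd.inner (s7fa_mv_cont2 h1 continuous_snd)).sub h2).div_const 2

theorem s7fdH_cont {L T : ℝ} (hL : 1 ≤ L) (hTp : 0 < T) :
    Continuous fun p : EE n × EE n => s7fdH X k L T p.1 p.2 := by
  unfold s7fdH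
  exact (s7fa_obsF_cont X k hL hTp).mul
    (continuous_finsetSum _ fun i _ => (s7fdS_cont X k hL hTp i).pow 2)

theorem s7fdH_nonneg {L T : ℝ} (hL : 1 ≤ L) (hTp : 0 < T) (y z : EE n) : 0 ≤ s7fdH X k L T y z :=
  mul_nonneg (s7fa_obsF_pos X k hL hTp y z).le (Finset.sum_nonneg fun _ _ => sq_nonneg _)

/-! ### the Fisher information -/

theorem s7fd_obsDC_symm (L T : ℝ) {ρ Δ : Mx n} (hρ : ρ.IsSymm) (hΔ : Δ.IsSymm) :
    (obsDC L T ρ Δ).IsSymm := by
  have hE : (obsE L T ρ).IsSymm := by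
    unfold obsE
    exact s7fa_inv_isSymm (Matrix.isSymm_one.add (hρ.smul _))
  unfold obsDC Matrix.IsSymm
  rw [Matrix.transpose_smul, Matrix.transpose_mul, Matrix.transpose_mul, hE.eq, hΔ.eq,
    Matrix.mul_assoc]

theorem s7fd_fish_cont {L T : ℝ} (hL : 1 ≤ L) (hTp : 0 < T) (i : Fin n) :
    Continuous fun y => fish L T (X.rho k y) (X.Drho k i y) := by
  unfold fish
  have hCi := s7fa_obsC_inv_cont X k hL hTp
  have hDC := s7fd_obsDC_cont X k hL hTp i
  exact (((hCi.matrix_mul hDC).matrix_mul hCi).matrix_mul hDC).matrix_trace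

theorem s7fd_fish_integrable {L T : ℝ} (hL : 1 ≤ L) (hTp : 0 < T) (i : Fin n) :
    Integrable (fun y => fish L T (X.rho k y) (X.Drho k i y)) (dm X.η) := by
  have := s7fd_prob X
  have hc := s7fd_fish_cont X k hL hTp i
  have hs : HasCompactSupport fun y => fish L T (X.rho k y) (X.Drho k i y) := by
    refine HasCompactSupport.of_support_subset_isCompact (s7fbK_compact X k) fun y hy => ?_
    by_contra hyK
    apply hy
    show fish L T (X.rho k y) (X.Drho k i y) = 0
    unfold fish obsDC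
    rw [s7fb_Drho_zero X k i hyK]
    simp
  obtain ⟨C, hC⟩ := hc.bounded_above_of_compact_support hs
  exact Integrable.of_bound hc.aestronglyMeasurable C (Filter.Eventually.of_forall hC)

theorem s7fd_inner {L T : ℝ} (hL : 1 ≤ L) (hTp : 0 < T) (y : EE n) :
    Integrable (fun z => s7fdH X k L T y z) volume ∧
      ∫ z, s7fdH X k L T y z = ∑ i, 1 / 2 * fish L T (X.rho k y) (X.Drho k i y) := by
  have hρ := s7fa_rho_psd X k y
  have hC := (s7fa_obsC_posDef hL hTp hρ).1
  have h : ∀ i, Integrable (fun z => X.obsF k L T y z * s7fdS X k L T i y z ^ 2) volume ∧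
      ∫ z, X.obsF k L T y z * s7fdS X k L T i y z ^ 2 =
        1 / 2 * fish L T (X.rho k y) (X.Drho k i y) := fun i => s7fc_gauss_var hC
    (s7fd_obsDC_symm L T (s7fa_isSymm hρ) ((s7fb_rho_cont X k).2.2.2 i y))
  have e : (fun z => s7fdH X k L T y z) = fun z => ∑ i, X.obsF k L T y z * s7fdS X k L T i y z ^ 2 := by
    funext z
    unfold s7fdH
    rw [Finset.mul_sum]
  rw [e]
  refine ⟨integrable_finsetSum _ fun i _ => (h i).1, ?_⟩
  rw [integral_finsetSum _ fun i _ => (h i).1]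
  exact Finset.sum_congr rfl fun i _ => (h i).2

theorem s7fdH_integrable {L T : ℝ} (hL : 1 ≤ L) (hTp : 0 < T) :
    Integrable (fun p : EE n × EE n => s7fdH X k L T p.1 p.2) ((dm X.η).prod volume) := by
  have := s7fd_prob X
  rw [integrable_prod_iff (s7fdH_cont X k hL hTp).aestronglyMeasurable]
  refine ⟨Filter.Eventually.of_forall fun y => (s7fd_inner X k hL hTp y).1, ?_⟩
  have e : (fun y => ∫ z, ‖s7fdH X k L T y z‖) =
      fun y => ∑ i, 1 / 2 * fish L T (X.rho k y) (X.Drho k i y) := by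
    funext y
    rw [← (s7fd_inner X k hL hTp y).2]
    refine integral_congr_ae (Filter.Eventually.of_forall fun z => ?_)
    exact Real.norm_of_nonneg (s7fdH_nonneg X k hL hTp y z)
  rw [e]
  exact integrable_finsetSum _ fun i _ => (s7fd_fish_integrable X k hL hTp i).const_mul _

/-! ### the entropy at fixed `z` -/

theorem s7fd_obsF_le_one {L T : ℝ} (hL : 1 ≤ L) (hTp : 0 < T) (y z : EE n) : X.obsF k L T y z ≤ 1 := by
  refine (s7fa_obsF_le X k hL hTp y z).trans (Real.exp_le_one_iff.2 ?_)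
  have : 0 ≤ ‖z‖ ^ 2 / (2 * (1 + L)) := by positivity
  rw [neg_div]
  linarith

theorem s7fd_obsF_cont_left {L T : ℝ} (hL : 1 ≤ L) (hTp : 0 < T) (z : EE n) :
    Continuous fun y => X.obsF k L T y z := by
  have h1 : Continuous fun y : EE n => (y, z) := by fun_prop
  show Continuous ((fun p : EE n × EE n => X.obsF k L T p.1 p.2) ∘ fun y : EE n => (y, z))
  exact (s7fa_obsF_cont X k hL hTp).comp h1

theorem s7fd_ent_nonneg {L T : ℝ} (hL : 1 ≤ L) (hTp : 0 < T) (z : EE n) :
    0 ≤ ent (dm X.η) fun y => X.obsF k L T y z := by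
  have := s7fd_prob X
  have hc := s7fd_obsF_cont_left X k hL hTp z
  have h0 : ∀ y, 0 ≤ X.obsF k L T y z := fun y => (s7fa_obsF_pos X k hL hTp y z).le
  refine lsic_ent_nonneg' h0 ?_ (lsic_integrable_mul_log hc.aestronglyMeasurable h0
    (s7fd_obsF_le_one X k hL hTp · z))
  refine Integrable.of_bound hc.aestronglyMeasurable 1 (Filter.Eventually.of_forall fun y => ?_)
  rw [Real.norm_of_nonneg (h0 y)]
  exact s7fd_obsF_le_one X k hL hTp y z

theorem s7fd_ent_le {L T : ℝ} (hL : 1 ≤ L) (hTp : 0 < T) (z : EE n) :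
    ent (dm X.η) (fun y => X.obsF k L T y z) ≤ (2 * X.lam)⁻¹ * ∫ y, s7fdH X k L T y z ∂(dm X.η) := by
  have := s7fd_prob X
  have h1 := lsic_LSI_ext X.lsi (s7fb_sqrtF_bddC1 X k hL hTp z)
  have e1 : (fun y => Real.sqrt (X.obsF k L T y z) ^ 2) = fun y => X.obsF k L T y z := by
    funext y
    exact Real.sq_sqrt (s7fa_obsF_pos X k hL hTp y z).le
  have e2 : nrg (dm X.η) (fun y => Real.sqrt (X.obsF k L T y z)) =
      1 / 4 * ∫ y, s7fdH X k L T y z ∂(dm X.η) := by
    unfold nrg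
    rw [← integral_const_mul]
    refine integral_congr_ae (Filter.Eventually.of_forall fun y => ?_)
    show ‖gradient (fun y => Real.sqrt (X.obsF k L T y z)) y‖ ^ 2 = 1 / 4 * s7fdH X k L T y z
    rw [s7fb_sqrtF_grad X k hL hTp y z]
    unfold s7fdH s7fdS
    ring
  rw [e1, e2] at h1
  refine h1.trans (le_of_eq ?_)
  have := X.lam_pos.ne'
  field_simp
  ring

theorem s7fd_ent_meas {L T : ℝ} (hL : 1 ≤ L) (hTp : 0 < T) :
    StronglyMeasurable fun z => ent (dm X.η) fun y => X.obsF k L T y z := by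
  have := s7fd_prob X
  unfold ent
  have hF : Continuous fun p : EE n × EE n => X.obsF k L T p.2 p.1 := by
    show Continuous ((fun p : EE n × EE n => X.obsF k L T p.1 p.2) ∘ Prod.swap)
    exact (s7fa_obsF_cont X k hL hTp).comp continuous_swap
  have hFl : Continuous fun p : EE n × EE n => X.obsF k L T p.2 p.1 * Real.log (X.obsF k L T p.2 p.1) := by
    show Continuous ((fun x : ℝ => x * Real.log x) ∘ fun p : EE n × EE n => X.obsF k L T p.2 p.1)
    exact Real.continuous_mul_log.comp hF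
  have h1 : StronglyMeasurable fun z => ∫ y, X.obsF k L T y z * Real.log (X.obsF k L T y z) ∂(dm X.η) :=
    hFl.stronglyMeasurable.integral_prod_right' (ν := dm X.η)
  have h2 : StronglyMeasurable fun z => ∫ y, X.obsF k L T y z ∂(dm X.η) :=
    hF.stronglyMeasurable.integral_prod_right' (ν := dm X.η)
  exact h1.sub (h2.mul (Real.measurable_log.comp h2.measurable).stronglyMeasurable)

/-- **The Fisher bound.** -/
theorem s7fd_fisher {L T : ℝ} (hL : 1 ≤ L) (hTp : 0 < T) :
    Integrable (fun z => ent (dm X.η) fun y => X.obsF k L T y z) volume ∧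
      ∫ z, ent (dm X.η) (fun y => X.obsF k L T y z) ≤ X.obsU k L T := by
  have := s7fd_prob X
  have hH := s7fdH_integrable X k hL hTp
  have hg : Integrable (fun z => (2 * X.lam)⁻¹ * ∫ y, s7fdH X k L T y z ∂(dm X.η)) volume :=
    hH.integral_prod_right.const_mul _
  have hi : Integrable (fun z => ent (dm X.η) fun y => X.obsF k L T y z) volume := by
    refine hg.mono' (s7fd_ent_meas X k hL hTp).aestronglyMeasurable
      (Filter.Eventually.of_forall fun z => ?_)
    rw [Real.norm_of_nonneg (s7fd_ent_nonneg X k hL hTp z)]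
    exact s7fd_ent_le X k hL hTp z
  refine ⟨hi, (integral_mono hi hg fun z => s7fd_ent_le X k hL hTp z).trans (le_of_eq ?_)⟩
  rw [integral_const_mul, ← integral_integral_swap hH]
  simp_rw [(s7fd_inner X k hL hTp _).2]
  rw [integral_finsetSum _ fun i _ => (s7fd_fish_integrable X k hL hTp i).const_mul _]
  simp_rw [integral_const_mul]
  unfold HierData.obsU
  rw [← Finset.mul_sum]
  have := X.lam_pos.ne'
  field_simp
  ring

end Claimed.Agent.R259
end

/- ===== packed: Claimed.Agent.R259.S7Fish ===== -/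
section
/-
Row 259 (S0499), section 7: the Gaussian observation density and the FISHER BOUND (first half of P7.2).
EXPORT FILE of the packages L-S7-FISH-A (block A), L-S7-FISH-B (block B), L-S7-FISH-C (block C),
L-S7-FISH-TOP (block D).  Keep names and statements; each block owner replaces the sorries of his block by
citations of helper files `S7FishA*.lean`, ... (prefix `s7f`), which never import this file.

`ρ = X.rho k y` is positive semidefinite, smooth in `y` with compact support, `∂_i ρ = X.Drho k i y`;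
`E = obsE = (1+Tρ/L)⁻¹`, `C = obsC = 1 + TρE = (q ↦ 1 + f_L(Tq))(ρ)`, `1 ≤ C ≤ 1+L`, `∂_i C = obsDC = T E (∂_iρ) E`
(`1 - (T/L)ρE = E`), `h_T(R)² = C` for `R = ρ^{1/2}`.
-/
set_option autoImplicit false

open MeasureTheory ProbabilityTheory
open scoped BigOperators Matrix
open Claimed.Agent.R260 (Mx mxFun mxSchur mxSq mxIP mxEig mxU mxRot)

namespace Claimed.Agent.R259

variable {n : ℕ}

/-- the score `½(⟨z, C⁻¹ D C⁻¹ z⟩ - tr(C⁻¹ D))` of the centred Gaussian family in the direction `D` -/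
noncomputable def scoreC (C Dc : Mx n) (z : EE n) : ℝ :=
  (inner ℝ z (mv (C⁻¹ * Dc * C⁻¹) z) - Matrix.trace (C⁻¹ * Dc)) / 2

/-! ### Block A: matrix facts, bounds, push-forward (`~500` lines) -/

theorem s7_rho_psd (X : HierData n) (k : ℕ) (y : EE n) : (X.rho k y).PosSemidef :=
  s7fa_rho_psd X k y

theorem s7_obsC_posDef {L T : ℝ} (hL : 1 ≤ L) (hTp : 0 < T) {ρ : Mx n} (hρ : ρ.PosSemidef) :
    (obsC L T ρ).PosDef ∧ (obsC L T ρ - 1).PosSemidef
      ∧ ((1 + L) • (1 : Mx n) - obsC L T ρ).PosSemidef :=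
  s7fa_obsC_posDef hL hTp hρ

/-- `h_T(ρ^{1/2})² = C_T(ρ)` -/
theorem s7_hT_sq {L T : ℝ} (hL : 1 ≤ L) (hTp : 0 < T) {ρ : Mx n} (hρ : ρ.PosSemidef) :
    (mxFun (hT L T) (mxFun Real.sqrt ρ)).PosDef ∧
      mxFun (hT L T) (mxFun Real.sqrt ρ) * mxFun (hT L T) (mxFun Real.sqrt ρ) = obsC L T ρ :=
  s7fa_hT_sq hL hTp hρ

/-- the law of `S G` has the density `gdC (S²)` (linear change of variables) -/
theorem s7_gdC_map {S : Mx n} (hS : S.PosDef) :
    (gam n).map (fun G => mv S G) = dm (gdC (S * S)) :=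
  s7fa_gdC_map hS

theorem s7_obsF_map (X : HierData n) (k : ℕ) {L T : ℝ} (hL : 1 ≤ L) (hTp : 0 < T) (y : EE n) :
    (gam n).map (fun G => mv (mxFun (hT L T) (X.R k y)) G) = dm (X.obsF k L T y) :=
  s7fa_obsF_map X k hL hTp y

theorem s7_obsF_pos (X : HierData n) (k : ℕ) {L T : ℝ} (hL : 1 ≤ L) (hTp : 0 < T) (y z : EE n) :
    0 < X.obsF k L T y z :=
  s7fa_obsF_pos X k hL hTp y z

theorem s7_obsF_le (X : HierData n) (k : ℕ) {L T : ℝ} (hL : 1 ≤ L) (hTp : 0 < T) (y z : EE n) :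
    X.obsF k L T y z ≤ Real.exp (-‖z‖ ^ 2 / (2 * (1 + L))) :=
  s7fa_obsF_le X k hL hTp y z

theorem s7_obsF_cont (X : HierData n) (k : ℕ) {L T : ℝ} (hL : 1 ≤ L) (hTp : 0 < T) :
    Continuous fun p : EE n × EE n => X.obsF k L T p.1 p.2 :=
  s7fa_obsF_cont X k hL hTp

/-! ### Block B: regularity in `y` (`~700` lines)

`ρ` is a polynomial in the test fields `X.T l`; `A⁻¹ = det⁻¹ • adjugate`; differentiate `C C⁻¹ = 1`;
JACOBI: `∂ det C = det C · tr(C⁻¹ ∂C)` (from `Matrix.det_one_add_smul` and `det (C + sD) = det C · det (1 + s C⁻¹ D)`, or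
from the Leibniz formula).  Outside the supports of the `X.T l` the function `y ↦ obsF y z` is constant. -/

theorem s7_sqrtF_bddC1 (X : HierData n) (k : ℕ) {L T : ℝ} (hL : 1 ≤ L) (hTp : 0 < T) (z : EE n) :
    IsBddC1 fun y => Real.sqrt (X.obsF k L T y z) :=
  s7fb_sqrtF_bddC1 X k hL hTp z

theorem s7_sqrtF_grad (X : HierData n) (k : ℕ) {L T : ℝ} (hL : 1 ≤ L) (hTp : 0 < T) (y z : EE n) :
    ‖gradient (fun y => Real.sqrt (X.obsF k L T y z)) y‖ ^ 2
      = X.obsF k L T y z / 4 * ∑ i, scoreC (obsC L T (X.rho k y))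
          (obsDC L T (X.rho k y) (X.Drho k i y)) z ^ 2 :=
  s7fb_sqrtF_grad X k hL hTp y z

/-- `y ↦ (ρ, ∂_iρ)` is continuous and `∂_i ρ` has compact support -/
theorem s7_rho_cont (X : HierData n) (k : ℕ) :
    (Continuous fun y => X.rho k y) ∧ (∀ i, Continuous fun y => X.Drho k i y) ∧
      (∀ i, HasCompactSupport fun y => X.Drho k i y) ∧ ∀ i y, (X.Drho k i y).IsSymm :=
  s7fb_rho_cont X k

/-! ### Block C: the Gaussian variance identity (`~400` lines)

`z = C^{1/2} G` (`s7_gdC_map`), `Ã = C^{-1/2} D C^{-1/2}`, `E (⟨G,ÃG⟩ - tr Ã)² = 2 tr Ã²` (two Gaussian integrations by parts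
`R260.gk_ibp`, or diagonalisation and rotation invariance). -/

theorem s7_gauss_var {C Dc : Mx n} (hC : C.PosDef) (hD : Dc.IsSymm) :
    Integrable (fun z => gdC C z * scoreC C Dc z ^ 2) volume ∧
      ∫ z, gdC C z * scoreC C Dc z ^ 2 = 1 / 2 * Matrix.trace (C⁻¹ * Dc * C⁻¹ * Dc) :=
  s7fc_gauss_var hC hD

/-! ### Block D: the Fisher bound (`~400` lines)

For every `z`: `lsic_LSI_ext X.lsi (s7_sqrtF_bddC1 ..)` gives `ent η F(·,z) ≤ 2 λ⁻¹ ∫ |∇√F|² dη`; `0 ≤ ent` (`lsic_ent_nonneg'`);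
Tonelli in `(y,z)` with `s7_sqrtF_grad`, `s7_gauss_var`: `∫ dz ∫ |∇√F|² dη = ⅛ ∑_i ∫ fish dη`. -/

theorem s7_fisher (X : HierData n) (k : ℕ) {L T : ℝ} (hL : 1 ≤ L) (hTp : 0 < T) :
    Integrable (fun z => ent (dm X.η) fun y => X.obsF k L T y z) volume ∧
      ∫ z, ent (dm X.η) (fun y => X.obsF k L T y z) ≤ X.obsU k L T :=
  s7fd_fisher X k hL hTp

end Claimed.Agent.R259
end
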