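/- Packed by merge_tool.py (helper293): 8 modules of Claimed.Agent.R259 in one file, same declarations.
   Old modules, in this order: S5TailQ, S5TailTAct, S5TailTFam, S5TailTKit, S5TailTMain, S5TailT, S5Tail, S5CurvMain -/
import Claimed.Agent.R259.Pack018
import Claimed.Agent.R259.Pack019
import Claimed.Agent.R259.Pack031
import Claimed.Agent.R259.Pack020
import Claimed.Agent.R259.Pack017
import Claimed.Agent.R259.Pack014
import Claimed.Agent.R259.Pack024
import Claimed.Agent.R259.Pack023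
import Claimed.Agent.R259.Pack049
import Claimed.Agent.R259.Pack026
import Claimed.Agent.R259.Pack028

/- ===== packed: Claimed.Agent.R259.S5TailQ ===== -/
section
/-
Row 259 (S0499), package BP-S5-tails: TAILQ (Lemma 5.6, first half).  GLUE (proved).  Owner: helper125.
-/
set_option autoImplicit false

open MeasureTheory ProbabilityTheory
open scoped ContDiff BigOperators Matrix
open Claimed.Agent.R260 (Mx)

namespace Claimed.Agent.R259

variable {n : ℕ}

/-! ### scalar estimates -/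

theorem s5t_num_sqrt {δ m e : ℝ} (hδ0 : 0 ≤ δ) (hδ1 : δ ≤ 1) (he : 0 ≤ e)
    (hm : |m - Real.exp (-e)| ≤ δ) : Real.sqrt (δ * m) ≤ 2 * Real.sqrt δ := by
  have h1 : Real.exp (-e) ≤ 1 := Real.exp_le_one_iff.mpr (by linarith)
  have h2 : m ≤ 4 := by
    have := (abs_le.mp hm).2
    linarith
  calc Real.sqrt (δ * m) ≤ Real.sqrt (δ * 4) :=
        Real.sqrt_le_sqrt (mul_le_mul_of_nonneg_left h2 hδ0)
    _ = 2 * Real.sqrt δ := by
        rw [Real.sqrt_mul hδ0, show (4 : ℝ) = 2 ^ 2 by norm_num, Real.sqrt_sq (by norm_num)]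
        ring

theorem s5t_num0 {e δ m : ℝ} (he0 : 0 < e) (he1 : e ≤ 1) (hδ0 : 0 ≤ δ) (hδ1 : δ ≤ 1)
    (hm : |m - Real.exp (-e)| ≤ δ) :
    1 - m + e * (1 + Real.sqrt δ) - 2 * (e * (m - Real.sqrt (δ * m)))
      ≤ 2 * e ^ 2 + 8 * Real.sqrt δ := by
  have hs := s5t_num_sqrt hδ0 hδ1 he0.le hm
  have hs0 : 0 ≤ Real.sqrt δ := Real.sqrt_nonneg _
  have hδs : δ ≤ Real.sqrt δ := by
    have h := Real.sq_sqrt hδ0
    have h1 : Real.sqrt δ ≤ 1 := Real.sqrt_le_one.mpr hδ1
    nlinarith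
  have h1 : 1 - e ≤ Real.exp (-e) := by
    have := Real.add_one_le_exp (-e)
    linarith
  have h2 : 1 - e - δ ≤ m := by
    have := (abs_le.mp hm).1
    linarith
  nlinarith [mul_nonneg he0.le hs0, mul_nonneg he0.le hδ0, mul_le_mul_of_nonneg_left hs he0.le,
    mul_le_mul_of_nonneg_left h2 he0.le, mul_le_mul_of_nonneg_right he1 hs0,
    mul_le_mul_of_nonneg_right he1 hδ0]

theorem s5t_num1 {e δ m m' : ℝ} (he0 : 0 < e) (he1 : e ≤ 1) (hδ0 : 0 ≤ δ) (hδ1 : δ ≤ 1)
    (hm : |m - Real.exp (-e)| ≤ δ) (hm' : |m' - Real.exp (-(2 * e))| ≤ δ) :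
    m - m' + e * (1 + Real.sqrt δ) - 2 * (e * (m' - Real.sqrt (δ * m')))
      ≤ 4 * e ^ 2 + 9 * Real.sqrt δ := by
  have hs := s5t_num_sqrt hδ0 hδ1 (by positivity : (0 : ℝ) ≤ 2 * e) hm'
  have hs0 : 0 ≤ Real.sqrt δ := Real.sqrt_nonneg _
  have hδs : δ ≤ Real.sqrt δ := by
    have h := Real.sq_sqrt hδ0
    have h1 : Real.sqrt δ ≤ 1 := Real.sqrt_le_one.mpr hδ1
    nlinarith
  have h1 : 1 - 2 * e ≤ Real.exp (-(2 * e)) := by
    have := Real.add_one_le_exp (-(2 * e))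
    linarith
  have h2 : 1 - 2 * e - δ ≤ m' := by
    have := (abs_le.mp hm').1
    linarith
  have h3 : Real.exp (-e) - Real.exp (-(2 * e)) ≤ e := by
    have e1 : Real.exp (-(2 * e)) = Real.exp (-e) * Real.exp (-e) := by
      rw [← Real.exp_add]
      congr 1
      ring
    have e2 : 1 - e ≤ Real.exp (-e) := by
      have := Real.add_one_le_exp (-e)
      linarith
    have e3 : Real.exp (-e) ≤ 1 := Real.exp_le_one_iff.mpr (by linarith)
    have e4 : 0 < Real.exp (-e) := Real.exp_pos _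
    rw [e1]
    nlinarith
  have h4 : m - m' ≤ e + 2 * δ := by
    have := (abs_le.mp hm).2
    have := (abs_le.mp hm').1
    linarith
  nlinarith [mul_nonneg he0.le hs0, mul_nonneg he0.le hδ0, mul_le_mul_of_nonneg_left hs he0.le,
    mul_le_mul_of_nonneg_left h2 he0.le, mul_le_mul_of_nonneg_right he1 hs0,
    mul_le_mul_of_nonneg_right he1 hδ0]

/-! ### the increments for a datum -/

theorem s5t_K0_le (Z : HiInput n) {δ d : ℝ} (hS : Z.Small δ) (hδ0 : 0 ≤ δ) (hδ1 : δ ≤ 1)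
    (hd0 : 0 < d) (hd1 : d ≤ 1) (h1 : δ ≤ d) (h2 : d ≤ 1 / 4 - δ) :
    s5tK0 Z.η Z.w (s5tQ Z.w) d ≤ (2 * d ^ 2 + 8 * Real.sqrt δ) * Z.I := by
  have hI : 0 < Z.I := Z.I_pos
  rw [s5t_key0 (s5t_data Z) hd0, s5t_E_eq]
  have hN := s5t_Q_norm Z hS
  have hK := s5t_Q_corr Z hS hd0
  have hnum := s5t_num0 hd0 hd1 hδ0 hδ1 (hS.pred d h1 h2)
  have e : nSq Z.η Z.w = Z.I := rfl
  rw [e]
  have a1 := mul_le_mul_of_nonneg_left hN hd0.le
  have a2 := mul_le_mul_of_nonneg_left hK hd0.le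
  have a3 := mul_le_mul_of_nonneg_right hnum hI.le
  nlinarith

theorem s5t_K1_le (Z : HiInput n) {δ d : ℝ} (hS : Z.Small δ) (hδ0 : 0 ≤ δ) (hδ1 : δ ≤ 1)
    (hd0 : 0 < d) (hd1 : d ≤ 1) (h1 : δ ≤ d) (h2 : 2 * d ≤ 1 / 4 - δ) :
    s5tK1 Z.η Z.w (s5tQ Z.w) d ≤ (4 * d ^ 2 + 9 * Real.sqrt δ) * Z.I := by
  have hI : 0 < Z.I := Z.I_pos
  rw [s5t_key1 (s5t_data Z) hd0, s5t_E_eq, s5t_E_eq]
  have hN := s5t_Q_norm Z hS
  have hK := s5t_Q_corr Z hS (by positivity : 0 < 2 * d)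
  have hnum := s5t_num1 hd0 hd1 hδ0 hδ1 (hS.pred d h1 (by linarith))
    (hS.pred (2 * d) (by linarith) h2)
  have a1 := mul_le_mul_of_nonneg_left hN hd0.le
  have a2 := mul_le_mul_of_nonneg_left hK hd0.le
  have a3 := mul_le_mul_of_nonneg_right hnum hI.le
  nlinarith

/-- TAILQ (statement of `s5_tailQ`) -/
theorem s5t_tailQ : ∀ c : ℝ, 0 < c → ∀ ε : ℝ, 0 < ε → ∃ δ : ℝ, 0 < δ ∧
    ∀ (n : ℕ) (Z : HiInput n), Z.Small δ → Z.om = Z.w →
      ∫ y, tailTr (c ^ 2) (red (tD (vecT Z.w) y)) ∂(dm Z.η) ≤ ε * Z.I := by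
  intro c hc ε hε
  set d : ℝ := min (ε / 1500) (1 / 32) with hd
  have hd0 : 0 < d := lt_min (by positivity) (by norm_num)
  have hd1 : d ≤ ε / 1500 := min_le_left _ _
  have hd2 : d ≤ 1 / 32 := min_le_right _ _
  set s : ℝ := min (min (ε * d / 3000) d) (d * c ^ 2 / 32) with hs
  have hs0 : 0 < s := lt_min (lt_min (by positivity) hd0) (by positivity)
  have hs1 : s ≤ ε * d / 3000 := (min_le_left _ _).trans (min_le_left _ _)
  have hs2 : s ≤ d := (min_le_left _ _).trans (min_le_right _ _)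
  have hs3 : s ≤ d * c ^ 2 / 32 := min_le_right _ _
  have hs4 : s ≤ 1 := by linarith
  have hss : s ^ 2 ≤ s := by nlinarith
  refine ⟨s ^ 2, by positivity, ?_⟩
  intro n Z hS hom
  have hI : 0 < Z.I := Z.I_pos
  have hsq : Real.sqrt (s ^ 2) = s := Real.sqrt_sq hs0.le
  have hδ0 : (0 : ℝ) ≤ s ^ 2 := by positivity
  have hδ1 : s ^ 2 ≤ 1 := by linarith
  have hκ : 0 < c / 2 := by positivity
  have htail := hS.tail hom (2 * d) (d * (c / 2) ^ 2 / 8) (by linarith) (by linarith)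
    (by
      have : d * (c / 2) ^ 2 / 8 = d * c ^ 2 / 32 := by ring
      rw [this]
      linarith)
  have hmain := s5t_main_ineq (s5t_data Z) hd0 hκ htail
  have k0 := s5t_K0_le Z hS hδ0 hδ1 hd0 (by linarith) (by linarith) (by linarith)
  have k1 := s5t_K1_le Z hS hδ0 hδ1 hd0 (by linarith) (by linarith) (by linarith)
  have k2 := s5t_K1_le Z hS hδ0 hδ1 (by positivity : 0 < 2 * d) (by linarith) (by linarith)
    (by linarith)
  rw [hsq] at k0 k1 k2
  have e1 : ∀ y, tailTr (c ^ 2) (red (tD (vecT Z.w) y))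
      = tailTr (4 * (c / 2) ^ 2) (s5tQ Z.w y * (s5tQ Z.w y)ᵀ) := by
    intro y
    rw [s5t_red_Q]
    congr 1
    ring
  simp_rw [e1]
  refine hmain.trans ?_
  have b1 : s5tK1 Z.η Z.w (s5tQ Z.w) (2 * d) / (2 * d) ≤ (8 * d + 9 * s / (2 * d)) * Z.I := by
    rw [div_le_iff₀ (by positivity)]
    refine k2.trans (le_of_eq ?_)
    field_simp
    ring
  have b2 : 64 / d * (s ^ 2 * Z.I + s5tK0 Z.η Z.w (s5tQ Z.w) d + s5tK1 Z.η Z.w (s5tQ Z.w) d)
      ≤ (384 * d + 1152 * s / d) * Z.I := by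
    have : s ^ 2 * Z.I + s5tK0 Z.η Z.w (s5tQ Z.w) d + s5tK1 Z.η Z.w (s5tQ Z.w) d
        ≤ (6 * d ^ 2 + 18 * s) * Z.I := by nlinarith
    calc 64 / d * (s ^ 2 * Z.I + s5tK0 Z.η Z.w (s5tQ Z.w) d + s5tK1 Z.η Z.w (s5tQ Z.w) d)
        ≤ 64 / d * ((6 * d ^ 2 + 18 * s) * Z.I) :=
          mul_le_mul_of_nonneg_left this (by positivity)
      _ = (384 * d + 1152 * s / d) * Z.I := by
          field_simp
          ring
  have b3 : s / d ≤ ε / 3000 := by
    rw [div_le_iff₀ hd0]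
    linarith
  have b4 : 40 * (8 * d + 9 * s / (2 * d)) + (384 * d + 1152 * s / d) ≤ ε := by
    have : 9 * s / (2 * d) = 9 / 2 * (s / d) := by ring
    rw [this]
    have : 1152 * s / d = 1152 * (s / d) := by ring
    rw [this]
    linarith
  calc 40 * (s5tK1 Z.η Z.w (s5tQ Z.w) (2 * d) / (2 * d))
        + 64 / d * (s ^ 2 * Z.I + s5tK0 Z.η Z.w (s5tQ Z.w) d + s5tK1 Z.η Z.w (s5tQ Z.w) d)
      ≤ 40 * ((8 * d + 9 * s / (2 * d)) * Z.I) + (384 * d + 1152 * s / d) * Z.I := by linarith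
    _ = (40 * (8 * d + 9 * s / (2 * d)) + (384 * d + 1152 * s / d)) * Z.I := by ring
    _ ≤ ε * Z.I := mul_le_mul_of_nonneg_right b4 hI.le

end Claimed.Agent.R259
end

/- ===== packed: Claimed.Agent.R259.S5TailTAct ===== -/
section
/-
Row 259 (S0499), package BP-S5-tails, TAILT: algebra of the slot action on coefficient vectors (leaf L-s5v-act).
Blueprint: helper125.  LEAF FILE: the seat that claims the leaf owns this file, keeps names and statements and replaces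
every `sorry` by a proof (helper lemmas with prefix `s5v_act_` are welcome).  PURE FINITE SUMS, no paper.

Hints.  Everything is `ext p; simp [s5vAct, s5vAct0, ctrI, ...]` + `Finset.sum_comm` / `Finset.mul_sum`.
`s5vL_apply`: `LinearIsometryEquiv.piLpCongrLeft_apply`, `Equiv.piCongrLeft'_apply` (compare `tPerm_apply` in S5Kit.lean).
Norms: `EuclideanSpace.norm_sq_eq`, `Fintype.sum_prod_type`; `hs2 A = ∑ i, ∑ j, A i j ^ 2`; `flat t i β = t (Fin.cons i β)`;
for `s5v_act_norm` reindex the columns `Idx n (j+1) ≃ Fin n × Idx n j` (`Fin.consEquiv` / `Fin.cons_self_tail`).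
Contractions: `‖s5vAct P c‖² = ∑_{(b,k)} ‖mv P (c((·,b),k))‖²` and `s5t_prj_mv_le` (S5TailKit), or `s5t_prj_hs2_le` (S5TailMx) after viewing
`c` as an `n × (Fin n × κ)` matrix.
Measurability: coordinates (`measurable_pi_lambda`, `(PiLp.continuous_toLp 2 _).measurable`), compare `s5t_mv_meas` in S5TailKit.lean.
-/
set_option autoImplicit false

open MeasureTheory
open scoped ContDiff BigOperators Matrix
open Claimed.Agent.R260 (Mx)

namespace Claimed.Agent.R259

variable {n : ℕ} {κ : Type} [Fintype κ]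

theorem s5vL_apply (j : ℕ) (t : TT n (j + 1 + 1)) (p : (Fin n × Fin n) × Idx n j) :
    s5vL j t p = t (Fin.cons p.1.1 (Fin.cons p.1.2 p.2)) := by
  rfl

theorem s5vAct_apply (M : Mx n) (c : EuclideanSpace ℝ ((Fin n × Fin n) × κ))
    (p : (Fin n × Fin n) × κ) : s5vAct M c p = ∑ a', M p.1.1 a' * c ((a', p.1.2), p.2) := rfl

theorem s5vAct0_apply (M : Mx n) (v : EuclideanSpace ℝ (Fin n × Fin n)) (p : Fin n × Fin n) :
    s5vAct0 M v p = ∑ a', M p.1 a' * v (a', p.2) := rfl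

theorem s5v_act_ctrI_apply {ι : Type} [Fintype ι] {j : ℕ} (c : EuclideanSpace ℝ (ι × Idx n j))
    (h : TT n j) (a : ι) : ctrI c h a = ∑ β, c (a, β) * h β := rfl

/-- order zero: the contraction with `𝔥_0 = 1` is an isometry -/
theorem s5v_act_norm_ctrI_zero {ι : Type} [Fintype ι] (c : EuclideanSpace ℝ (ι × Idx n 0))
    (x : EE n) : ‖ctrI c (hm 0 x)‖ ^ 2 = ‖c‖ ^ 2 := by
  rw [EuclideanSpace.real_norm_sq_eq, EuclideanSpace.real_norm_sq_eq, Fintype.sum_prod_type]
  refine Finset.sum_congr rfl fun a _ => ?_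
  rw [s5v_act_ctrI_apply, Fintype.sum_unique, Fintype.sum_unique, s5b_hm_zero, mul_one]

/-! ### linearity -/

theorem s5vAct0_add (M : Mx n) (u v : EuclideanSpace ℝ (Fin n × Fin n)) :
    s5vAct0 M (u + v) = s5vAct0 M u + s5vAct0 M v := by
  ext p
  simp only [s5vAct0_apply, PiLp.add_apply, mul_add, Finset.sum_add_distrib]

theorem s5vAct0_sub (M : Mx n) (u v : EuclideanSpace ℝ (Fin n × Fin n)) :
    s5vAct0 M (u - v) = s5vAct0 M u - s5vAct0 M v := by
  ext p
  simp only [s5vAct0_apply, PiLp.sub_apply, mul_sub, Finset.sum_sub_distrib]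

theorem s5vAct0_smul (M : Mx n) (a : ℝ) (v : EuclideanSpace ℝ (Fin n × Fin n)) :
    s5vAct0 M (a • v) = a • s5vAct0 M v := by
  ext p
  simp only [s5vAct0_apply, PiLp.smul_apply, smul_eq_mul, Finset.mul_sum]
  exact Finset.sum_congr rfl fun k _ => by ring

theorem s5vAct0_sum (M : Mx n) {J : Type} (s : Finset J)
    (v : J → EuclideanSpace ℝ (Fin n × Fin n)) :
    s5vAct0 M (∑ j ∈ s, v j) = ∑ j ∈ s, s5vAct0 M (v j) := by
  ext p
  simp only [s5vAct0_apply, WithLp.ofLp_sum, Finset.sum_apply, Finset.mul_sum]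
  exact Finset.sum_comm

/-! ### compatibility with the contraction of the tensor slots -/

theorem s5vAct0_ctrI (M : Mx n) {j : ℕ} (c : EuclideanSpace ℝ ((Fin n × Fin n) × Idx n j))
    (h : TT n j) : s5vAct0 M (ctrI c h) = ctrI (s5vAct M c) h := by
  ext p
  simp only [s5vAct0_apply, s5v_act_ctrI_apply, s5vAct_apply, Finset.mul_sum, Finset.sum_mul]
  rw [Finset.sum_comm]
  exact Finset.sum_congr rfl fun β _ => Finset.sum_congr rfl fun k _ => by ring

theorem s5vAct_coefSym (M : Mx n) {j : ℕ} {c : EuclideanSpace ℝ ((Fin n × Fin n) × Idx n j)}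
    (hc : CoefSym c) : CoefSym (s5vAct M c) := by
  intro σ a β
  simp only [s5vAct_apply]
  exact Finset.sum_congr rfl fun k _ => by rw [hc σ]

/-! ### norms -/

theorem s5vAct0_le {P : Mx n} (hP : S5tPrj P) (v : EuclideanSpace ℝ (Fin n × Fin n)) :
    ‖s5vAct0 P v‖ ≤ ‖v‖ := by
  have h : ‖s5vAct0 P v‖ ^ 2 ≤ ‖v‖ ^ 2 := by
    have e1 : ∀ u : EuclideanSpace ℝ (Fin n × Fin n),
        ‖u‖ ^ 2 = hs2 (Matrix.of fun a b => u (a, b) : Mx n) := by
      intro u
      rw [EuclideanSpace.real_norm_sq_eq, Fintype.sum_prod_type]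
      rfl
    have e2 : (Matrix.of fun a b => s5vAct0 P v (a, b) : Mx n)
        = P * (Matrix.of fun a b => v (a, b) : Mx n) := by
      ext a b
      rw [Matrix.mul_apply]
      rfl
    rw [e1, e1, e2]
    exact s5t_prj_hs2_le hP _
  exact le_of_sq_le_sq h (norm_nonneg _) |> fun h' => h'

theorem s5vAct_le {P : Mx n} (hP : S5tPrj P) (c : EuclideanSpace ℝ ((Fin n × Fin n) × κ)) :
    ‖s5vAct P c‖ ≤ ‖c‖ := by
  have h : ‖s5vAct P c‖ ^ 2 ≤ ‖c‖ ^ 2 := by
    have e1 : ∀ u : EuclideanSpace ℝ ((Fin n × Fin n) × κ),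
        ‖u‖ ^ 2 = hs2 (Matrix.of fun (a : Fin n) (q : Fin n × κ) => u ((a, q.1), q.2)) := by
      intro u
      rw [EuclideanSpace.real_norm_sq_eq, Fintype.sum_prod_type, Fintype.sum_prod_type]
      unfold hs2
      refine Finset.sum_congr rfl fun a _ => ?_
      rw [Fintype.sum_prod_type]
      rfl
    have e2 : (Matrix.of fun (a : Fin n) (q : Fin n × κ) => s5vAct P c ((a, q.1), q.2))
        = P * (Matrix.of fun (a : Fin n) (q : Fin n × κ) => c ((a, q.1), q.2)) := by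
      ext a q
      rw [Matrix.mul_apply]
      rfl
    rw [e1, e1, e2]
    exact s5t_prj_hs2_le hP _
  exact abs_le_of_sq_le_sq' h (norm_nonneg _) |>.2 |> fun h' => (le_abs_self _).trans (by simpa using h')

theorem s5v_flat_norm {d : ℕ} (t : TT n (d + 1)) : hs2 (flat t) = ‖t‖ ^ 2 := by
  exact hs2_flat t

/-- `|M_{(1)} t|² = |M flat(t)|²_HS` -/
theorem s5v_act_norm (M : Mx n) (j : ℕ) (t : TT n (j + 1 + 1)) :
    ‖s5vAct M (s5vL j t)‖ ^ 2 = hs2 (M * flat t) := by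
  rw [EuclideanSpace.real_norm_sq_eq, Fintype.sum_prod_type, Fintype.sum_prod_type]
  unfold hs2
  refine Finset.sum_congr rfl fun a _ => ?_
  rw [s6tn_sum_cons]
  refine Finset.sum_congr rfl fun b _ => Finset.sum_congr rfl fun β _ => ?_
  rw [Matrix.mul_apply]
  rfl

/-- order zero: `ctrI · (hm 0 x)` forgets the empty tensor index -/
theorem s5v_act0_norm (M : Mx n) (t : TT n (0 + 1 + 1)) (x : EE n) :
    ‖s5vAct0 M (ctrI (s5vL 0 t) (hm 0 x))‖ ^ 2 = hs2 (M * flat t) := by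
  rw [s5vAct0_ctrI, s5v_act_norm_ctrI_zero, s5v_act_norm]

theorem s5v_ctrI0_norm (t : TT n (0 + 1 + 1)) (x : EE n) :
    ‖ctrI (s5vL 0 t) (hm 0 x)‖ = ‖t‖ := by
  have h := s5v_act_norm_ctrI_zero (s5vL 0 t) x
  rw [(s5vL 0).norm_map] at h
  exact (sq_eq_sq₀ (norm_nonneg _) (norm_nonneg _)).1 h

/-! ### measurability -/

section meas

variable {Ω : Type} [MeasurableSpace Ω]

theorem s5vAct_meas {M : Ω → Mx n} (hM : RM M) {c : Ω → EuclideanSpace ℝ ((Fin n × Fin n) × κ)}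
    (hc : Measurable c) : Measurable fun o => s5vAct (M o) (c o) := by
  have h : Measurable fun o => (fun p => ∑ a', M o p.1.1 a' * c o ((a', p.1.2), p.2) :
      (Fin n × Fin n) × κ → ℝ) := by
    refine measurable_pi_lambda _ fun p => ?_
    refine Finset.measurable_sum _ fun a' _ => (hM _ _).mul ?_
    exact (EuclideanSpace.proj (𝕜 := ℝ) ((a', p.1.2), p.2)).continuous.measurable.comp hc
  exact (PiLp.continuous_toLp 2 (fun _ : (Fin n × Fin n) × κ => ℝ)).measurable.comp h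

theorem s5vAct0_meas {M : Ω → Mx n} (hM : RM M) {v : Ω → EuclideanSpace ℝ (Fin n × Fin n)}
    (hv : Measurable v) : Measurable fun o => s5vAct0 (M o) (v o) := by
  have h : Measurable fun o => (fun p => ∑ a', M o p.1 a' * v o (a', p.2) : Fin n × Fin n → ℝ) := by
    refine measurable_pi_lambda _ fun p => ?_
    refine Finset.measurable_sum _ fun a' _ => (hM _ _).mul ?_
    exact (EuclideanSpace.proj (𝕜 := ℝ) (a', p.2)).continuous.measurable.comp hv
  exact (PiLp.continuous_toLp 2 (fun _ : Fin n × Fin n => ℝ)).measurable.comp h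

theorem s5v_flat_RM {d : ℕ} {t : Ω → TT n (d + 1)} (ht : Measurable t) : RM fun o => flat (t o) := by
  intro i β
  exact (EuclideanSpace.proj (𝕜 := ℝ) (Fin.cons i β : Idx n (d + 1))).continuous.measurable.comp ht

theorem s5v_ctrI_meas {ι : Type} [Fintype ι] {j : ℕ} {c : Ω → EuclideanSpace ℝ (ι × Idx n j)}
    (hc : Measurable c) {h : Ω → TT n j} (hh : Measurable h) :
    Measurable fun o => ctrI (c o) (h o) := by
  have h : Measurable fun o => (fun a => ∑ β, c o (a, β) * h o β : ι → ℝ) := by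
    refine measurable_pi_lambda _ fun a => ?_
    refine Finset.measurable_sum _ fun β _ => Measurable.mul ?_ ?_
    · exact (EuclideanSpace.proj (𝕜 := ℝ) (a, β)).continuous.measurable.comp hc
    · exact (EuclideanSpace.proj (𝕜 := ℝ) β).continuous.measurable.comp hh
  exact (PiLp.continuous_toLp 2 (fun _ : ι => ℝ)).measurable.comp h

end meas

end Claimed.Agent.R259
end

/- ===== packed: Claimed.Agent.R259.S5TailTFam ===== -/
section
/-
Row 259 (S0499), package BP-S5-tails, TAILT: the coefficient family `F_j = T_{j+1}` (leaf L-s5v-fam).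
Blueprint: helper125.  LEAF FILE: the seat that claims the leaf owns this file, keeps names and statements and replaces
every `sorry` by a proof (helper lemmas with prefix `s5v_fam_` are welcome).  No paper needed.

Hints.  For `j + 1 ≤ L`: `s5vF L T j = fun y => s5vL j (T (j+1) y)` (`if_pos`), i.e. a constant continuous linear ISOMETRY
`Λ = (s5vL j).toContinuousLinearEquiv.toContinuousLinearMap` after `T (j+1)`; for `j + 1 > L` it is the zero field.
Kit (S5KitClm.lean): `s5k_test_clm`, `s5k_opA_clm`, `s5k_dI_clm`; `LinearIsometryEquiv.norm_map`.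
* `s5v_fam_sym`: `TSym t` with the permutation of `Fin (j+2)` which fixes `0, 1` and acts as `σ` on the rest
  (e.g. `Fin.cons a (Fin.cons b (β ∘ σ)) = Fin.cons a (Fin.cons b β) ∘ σ'`, `σ'` built with `Equiv.Perm.decomposeFin` /
  `finSuccEquiv`-conjugation, or defined by hand with `Fin.cases`).
* `s5v_fam_metB`: `dI i (F j) y (a, β) = dI i (T (j+1)) y (cons .. β)` (`s5k_dI_clm` + `s5vL_apply`), `tD S y α = dI (α last) S y (init α)`
  (`s5k_tD_apply`), and `Fin.cons a (Fin.cons b (Fin.snoc β i)) = Fin.snoc (Fin.cons a (Fin.cons b β)) i` (`Fin.cons_snoc_eq_snoc_cons`);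
  the sum over `(a, β, i)` is the sum over `Idx n (j+3)` (`EuclideanSpace.norm_sq_eq`, reindex with `s5vE` and `Fin.snocEquiv`/`Fin.init`, `Fin.last`).
-/
set_option autoImplicit false

open MeasureTheory
open scoped ContDiff BigOperators Matrix
open Claimed.Agent.R260 (Mx)

namespace Claimed.Agent.R259

variable {n : ℕ} {L : ℕ} {T : (l : ℕ) → EE n → TT n (l + 1)}

theorem s5v_fam_eq {j : ℕ} (hj : j + 1 ≤ L) (y : EE n) :
    s5vF L T j y = s5vL j (T (j + 1) y) := by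
  unfold s5vF
  rw [if_pos hj]

/-- `s5vL` as a continuous linear map -/
noncomputable def s5vC (n j : ℕ) :
    TT n (j + 1 + 1) →L[ℝ] EuclideanSpace ℝ ((Fin n × Fin n) × Idx n j) :=
  (s5vL j).toLinearIsometry.toContinuousLinearMap

theorem s5vC_apply (j : ℕ) (t : TT n (j + 1 + 1)) : s5vC n j t = s5vL j t := rfl

theorem s5vC_norm (j : ℕ) (t : TT n (j + 1 + 1)) : ‖s5vC n j t‖ = ‖t‖ := (s5vL j).norm_map t

theorem s5v_fam_fun {j : ℕ} (h : j + 1 ≤ L) : s5vF L T j = fun y => s5vC n j (T (j + 1) y) := by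
  funext y
  exact if_pos h

theorem s5v_fam_cons_comp {j : ℕ} (a : Fin n) (β : Idx n j) (σ : Equiv.Perm (Fin j)) :
    (Fin.cons a (β ∘ σ) : Idx n (j + 1))
      = (Fin.cons a β : Idx n (j + 1)) ∘ (Equiv.Perm.decomposeFin.symm (0, σ)) := by
  funext r
  refine Fin.cases ?_ (fun r => ?_) r
  · simp
  · simp

theorem s5v_fam_test (hT : ∀ l ≤ L, IsTestV (T l)) (j : ℕ) : IsTestV (s5vF L T j) := by
  by_cases h : j + 1 ≤ L
  · rw [s5v_fam_fun h]
    exact s5k_test_clm _ (hT _ h)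
  · have e : s5vF L T j = fun _ => 0 := by
      funext y
      exact if_neg h
    rw [e]
    exact ⟨contDiff_const, HasCompactSupport.zero⟩

theorem s5v_fam_sym (hS : ∀ l ≤ L, ∀ y, TSym (T l y)) (j : ℕ) (y : EE n) (a : Fin n × Fin n)
    (σ : Equiv.Perm (Fin j)) (β : Idx n j) :
    s5vF L T j y (a, β ∘ σ) = s5vF L T j y (a, β) := by
  by_cases h : j + 1 ≤ L
  · rw [s5v_fam_eq h]
    simp only [s5vL_apply]
    rw [s5v_fam_cons_comp, s5v_fam_cons_comp]
    exact hS _ h y _ _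
  · have e : s5vF L T j y = 0 := if_neg h
    rw [e]
    rfl

theorem s5v_fam_nSq (η : EE n → ℝ) {j : ℕ} (hj : j + 1 ≤ L) :
    nSq η (s5vF L T j) = nSq η (T (j + 1)) := by
  rw [s5v_fam_fun hj]
  unfold nSq
  simp only [s5vC_norm]

theorem s5v_fam_dfA (η : EE n → ℝ) (hT : ∀ l ≤ L, IsTestV (T l)) {j : ℕ} (hj : j + 1 ≤ L) :
    nSq η (fun y => opA η (s5vF L T j) y - s5vF L T j y)
      = nSq η (fun y => opA η (T (j + 1)) y - T (j + 1) y) := by
  rw [s5v_fam_fun hj]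
  unfold nSq
  refine integral_congr_ae (Filter.Eventually.of_forall fun y => ?_)
  simp only []
  rw [s5k_opA_clm η _ ((hT _ hj).1.of_le (by norm_cast)), ← map_sub, s5vC_norm]

theorem s5v_fam_metB (η : EE n → ℝ) (hT : ∀ l ≤ L, IsTestV (T l)) {j : ℕ} (hj : j + 1 + 1 ≤ L) :
    metB η (s5vF L T) j = nSq η (fun y => tD (T (j + 1)) y - T (j + 1 + 1) y) := by
  have h1 : j + 1 ≤ L := by omega
  unfold metB nSq
  refine integral_congr_ae (Filter.Eventually.of_forall fun y => ?_)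
  simp only []
  have eR : ‖tD (T (j + 1)) y - T (j + 1 + 1) y‖ ^ 2
      = ∑ a : Fin n × Fin n, ∑ β : Idx n j, ∑ i,
          ((tD (T (j + 1)) y - T (j + 1 + 1) y)
            (Fin.snoc (Fin.cons a.1 (Fin.cons a.2 β) : Idx n (j + 1 + 1)) i)) ^ 2 := by
    rw [EuclideanSpace.real_norm_sq_eq, s5kt_sum_snoc, Finset.sum_comm,
      ← (s5vE n j).symm.sum_comp, Fintype.sum_prod_type]
    rfl
  rw [eR, s5v_fam_fun h1, s5v_fam_fun (j := j + 1) hj]
  refine Finset.sum_congr rfl fun a _ => Finset.sum_congr rfl fun β _ =>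
    Finset.sum_congr rfl fun i _ => ?_
  rw [s5k_dI_clm _ (((hT _ h1).1.differentiable (by simp)) y)]
  simp only [s5vC_apply, s5vL_apply, PiLp.sub_apply, s5k_tD_apply, Fin.snoc_last, Fin.init_snoc]
  rw [Fin.cons_snoc_eq_snoc_cons, Fin.cons_snoc_eq_snoc_cons]

/-- generates the equation lemmas of the definitions above in this file (rule 6: unique names) -/
theorem s5tailtfam_eqns_cite : True := by
  have := @s5vC.eq_1
  trivial

end Claimed.Agent.R259
end

/- ===== packed: Claimed.Agent.R259.S5TailTKit ===== -/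
section
/-
Row 259 (S0499), Lemma 5.6 of the paper, second half (propagation of the operator tails to the higher levels): KIT.
Owner: helper88.  Everything at the coefficient level of `MetGoal` (`ι × Idx n j`).

A. chaos lower bound: `∫ ‖∑_{j ≤ m} w_j F_j : 𝔥_j(x)‖² dγ = ∑ w_j² j! ‖F_j‖² ≥ w_{j0}² j0! ‖F_{j0}‖²` (symmetric coefficients).
C. integrals over a coupling `(Y_0, N)` with independent components.
K. the two exports `s5u_chaos`, `s5u_chaos_int` in the form used by the glue of helper125.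
(The action on the first output index and the family `F_j = T_{j+1}` are in `S5TailTAct.lean`, `S5TailTFam.lean`.)
-/
set_option autoImplicit false

open MeasureTheory ProbabilityTheory
open scoped ContDiff BigOperators Matrix
open Claimed.Agent.R260 (Mx mxFun mxSchur mxSq mxIP mxEig mxU mxRot)

namespace Claimed.Agent.R259

variable {n : ℕ}

/-! ### A. chaos -/

section chaos

variable {ι : Type} [Fintype ι]

theorem s5u_ctrI_apply {j : ℕ} (c : EuclideanSpace ℝ (ι × Idx n j)) (h : TT n j) (a : ι) :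
    ctrI c h a = ∑ β, c (a, β) * h β := rfl

theorem s5u_inner_int {j j' : ℕ} (c : EuclideanSpace ℝ (ι × Idx n j))
    (c' : EuclideanSpace ℝ (ι × Idx n j')) :
    Integrable (fun x : EE n => inner ℝ (ctrI c (hm j x)) (ctrI c' (hm j' x)))
      (stdGaussian (EE n)) := by
  have h1 : ∀ x : EE n, inner ℝ (ctrI c (hm j x)) (ctrI c' (hm j' x))
      = ∑ a, ∑ β, ∑ β', (c (a, β) * c' (a, β')) * (hm j x β * hm j' x β') := by
    intro x
    rw [PiLp.inner_apply]
    refine Finset.sum_congr rfl fun a _ => ?_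
    simp only [s5u_ctrI_apply, RCLike.inner_apply, conj_trivial]
    rw [Finset.sum_mul_sum, Finset.sum_comm]
    exact Finset.sum_congr rfl fun β _ => Finset.sum_congr rfl fun β' _ => by ring
  simp only [h1]
  exact integrable_finsetSum _ fun a _ => integrable_finsetSum _ fun β _ =>
    integrable_finsetSum _ fun β' _ =>
      (R260.gk_integrable_mul (hm_memLp j β 2) (hm_memLp j' β' 2)).const_mul _

theorem s5u_iso {j : ℕ} {c : EuclideanSpace ℝ (ι × Idx n j)} (hc : CoefSym c) :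
    ∫ x : EE n, inner ℝ (ctrI c (hm j x)) (ctrI c (hm j x)) ∂(stdGaussian (EE n))
      = (j.factorial : ℝ) * ‖c‖ ^ 2 := by
  have h := Hs_isometry (n := n) j (κ := 1) zero_le_one hc
  rw [gaussK_one, one_pow, mul_one] at h
  rw [← h]
  refine integral_congr_ae (Filter.Eventually.of_forall fun x => ?_)
  simp only []
  rw [real_inner_self_eq_norm_sq, Hs_one_eq_hm, ctrI_eq_hcon]

theorem s5u_orth {j j' : ℕ} (hj : j ≠ j') {c : EuclideanSpace ℝ (ι × Idx n j)}
    {c' : EuclideanSpace ℝ (ι × Idx n j')} (hc : CoefSym c) (hc' : CoefSym c') :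
    ∫ x : EE n, inner ℝ (ctrI c (hm j x)) (ctrI c' (hm j' x)) ∂(stdGaussian (EE n)) = 0 := by
  have h := Hs_orthogonal (n := n) hj hc hc'
  rw [← h]
  refine integral_congr_ae (Filter.Eventually.of_forall fun x => ?_)
  simp only []
  rw [Hs_one_eq_hm, Hs_one_eq_hm, ctrI_eq_hcon, ctrI_eq_hcon]

theorem s5u_norm_sq_sum (m : ℕ) (w : ℕ → ℝ) (c : (j : ℕ) → EuclideanSpace ℝ (ι × Idx n j))
    (x : EE n) :
    ‖∑ j ∈ Finset.range (m + 1), w j • ctrI (c j) (hm j x)‖ ^ 2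
      = ∑ j ∈ Finset.range (m + 1), ∑ k ∈ Finset.range (m + 1),
          (w j * w k) * inner ℝ (ctrI (c j) (hm j x)) (ctrI (c k) (hm k x)) := by
  rw [← real_inner_self_eq_norm_sq, sum_inner]
  refine Finset.sum_congr rfl fun j _ => ?_
  rw [inner_sum]
  refine Finset.sum_congr rfl fun k _ => ?_
  rw [real_inner_smul_left, real_inner_smul_right]
  ring

theorem s5u_chaos_int0 (m : ℕ) (w : ℕ → ℝ) (c : (j : ℕ) → EuclideanSpace ℝ (ι × Idx n j)) :
    Integrable (fun x : EE n => ‖∑ j ∈ Finset.range (m + 1), w j • ctrI (c j) (hm j x)‖ ^ 2)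
      (stdGaussian (EE n)) := by
  simp only [s5u_norm_sq_sum]
  exact integrable_finsetSum _ fun j _ => integrable_finsetSum _ fun k _ =>
    (s5u_inner_int _ _).const_mul _

theorem s5u_chaos_eq (m : ℕ) (w : ℕ → ℝ) (c : (j : ℕ) → EuclideanSpace ℝ (ι × Idx n j))
    (hc : ∀ j, CoefSym (c j)) :
    ∫ x : EE n, ‖∑ j ∈ Finset.range (m + 1), w j • ctrI (c j) (hm j x)‖ ^ 2 ∂(stdGaussian (EE n))
      = ∑ j ∈ Finset.range (m + 1), w j ^ 2 * (j.factorial : ℝ) * ‖c j‖ ^ 2 := by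
  simp only [s5u_norm_sq_sum]
  rw [integral_finsetSum _ fun j _ => integrable_finsetSum _ fun k _ =>
    (s5u_inner_int _ _).const_mul _]
  refine Finset.sum_congr rfl fun j hj => ?_
  rw [integral_finsetSum _ fun k _ => (s5u_inner_int _ _).const_mul _]
  rw [Finset.sum_eq_single j]
  · rw [integral_const_mul, s5u_iso (hc j)]
    ring
  · intro k _ hk
    rw [integral_const_mul, s5u_orth (Ne.symm hk) (hc j) (hc k), mul_zero]
  · intro h
    exact absurd hj h

/-- chaos lower bound -/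
theorem s5u_chaos_lower (m : ℕ) (w : ℕ → ℝ) (c : (j : ℕ) → EuclideanSpace ℝ (ι × Idx n j))
    (hc : ∀ j, CoefSym (c j)) {j0 : ℕ} (hj0 : j0 ≤ m) :
    w j0 ^ 2 * (j0.factorial : ℝ) * ‖c j0‖ ^ 2
      ≤ ∫ x : EE n, ‖∑ j ∈ Finset.range (m + 1), w j • ctrI (c j) (hm j x)‖ ^ 2
          ∂(stdGaussian (EE n)) := by
  rw [s5u_chaos_eq m w c hc]
  exact Finset.single_le_sum (f := fun j => w j ^ 2 * (j.factorial : ℝ) * ‖c j‖ ^ 2)
    (fun j _ => by positivity) (Finset.mem_range.2 (by omega))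

end chaos

/-! ### C. integrals over the coupling -/

theorem s5u_pair {Ω : Type} [MeasurableSpace Ω] {P : Measure Ω} [IsProbabilityMeasure P]
    {μ : Measure (EE n)} [IsProbabilityMeasure μ] {Y0 N : Ω → EE n} (hY : Measurable Y0)
    (hN : Measurable N) (lawY : P.map Y0 = μ) (lawN : P.map N = gam n) (hind : IndepFun Y0 N P)
    {g : EE n × EE n → ℝ} (hg : Measurable g) (hint : Integrable (fun o => g (Y0 o, N o)) P)
    {G : EE n → ℝ} (hG0 : ∀ y, 0 ≤ G y)
    (hle : ∀ y, G y ≤ ∫ x, g (y, x) ∂(stdGaussian (EE n))) :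
    ∫ y, G y ∂μ ≤ ∫ o, g (Y0 o, N o) ∂P := by
  have hmap : P.map (fun o => (Y0 o, N o)) = μ.prod (stdGaussian (EE n)) := by
    rw [(indepFun_iff_map_prod_eq_prod_map_map hY.aemeasurable hN.aemeasurable).1 hind, lawY, lawN,
      gam_eq_stdGaussian]
  have hgi : Integrable g (μ.prod (stdGaussian (EE n))) := by
    rw [← hmap]
    exact (integrable_map_measure hg.aestronglyMeasurable (hY.prodMk hN).aemeasurable).2 hint
  have e : ∫ o, g (Y0 o, N o) ∂P = ∫ y, ∫ x, g (y, x) ∂(stdGaussian (EE n)) ∂μ := by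
    rw [← integral_prod _ hgi, ← hmap,
      integral_map (hY.prodMk hN).aemeasurable hg.aestronglyMeasurable]
  rw [e]
  exact integral_mono_of_nonneg (Filter.Eventually.of_forall hG0) hgi.integral_prod_left
    (Filter.Eventually.of_forall hle)

/-! ### K. exports -/

section exports

variable {ι : Type} [Fintype ι]

/-- (K1) chaos lower bound -/
theorem s5u_chaos (m : ℕ) (a : ℕ → ℝ) (c : (j : ℕ) → EuclideanSpace ℝ (ι × Idx n j))
    (hc : ∀ j, CoefSym (c j)) {j0 : ℕ} (hj0 : j0 ≤ m) :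
    a j0 ^ 2 * (j0.factorial : ℝ) * ‖c j0‖ ^ 2
      ≤ ∫ x, ‖∑ j ∈ Finset.range (m + 1), a j • ctrI (c j) (hm j x)‖ ^ 2 ∂(gam n) := by
  rw [gam_eq_stdGaussian]
  exact s5u_chaos_lower m a c hc hj0

theorem s5u_field_meas (m : ℕ) (a : ℕ → ℝ) (c : (j : ℕ) → EE n → EuclideanSpace ℝ (ι × Idx n j))
    (hmeas : ∀ j, Measurable (c j)) :
    Measurable fun p : EE n × EE n =>
      ∑ j ∈ Finset.range (m + 1), a j • ctrI (c j p.1) (hm j p.2) := by
  refine Finset.measurable_sum _ fun j _ => ?_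
  exact (s5v_ctrI_meas ((hmeas j).comp measurable_fst)
    ((s5b_hm_contDiff j).continuous.measurable.comp measurable_snd)).const_smul (a j)

/-- (K1int) the Hermite field on the product space -/
theorem s5u_chaos_int {η : EE n → ℝ} (hη : SPD η) (m : ℕ) (a : ℕ → ℝ)
    (c : (j : ℕ) → EE n → EuclideanSpace ℝ (ι × Idx n j)) (hmeas : ∀ j, Measurable (c j))
    (hbd : ∀ j, ∃ C : ℝ, ∀ y, ‖c j y‖ ≤ C) (hc : ∀ j y, CoefSym (c j y)) {j0 : ℕ} (hj0 : j0 ≤ m) :
    MemLp (fun p : EE n × EE n => ∑ j ∈ Finset.range (m + 1), a j • ctrI (c j p.1) (hm j p.2)) 2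
        ((dm η).prod (gam n)) ∧
      a j0 ^ 2 * (j0.factorial : ℝ) * ∫ y, ‖c j0 y‖ ^ 2 ∂(dm η)
        ≤ ∫ p : EE n × EE n, ‖∑ j ∈ Finset.range (m + 1), a j • ctrI (c j p.1) (hm j p.2)‖ ^ 2
            ∂((dm η).prod (gam n)) := by
  have hprob := s5k_prob hη
  rw [gam_eq_stdGaussian]
  have hM := s5u_field_meas m a c hmeas
  have hsq : ∀ j, Integrable (fun y => ‖c j y‖ ^ 2) (dm η) := by
    intro j
    obtain ⟨C, hC⟩ := hbd j
    refine Integrable.of_bound ((hmeas j).norm.pow_const 2).aestronglyMeasurable (C ^ 2)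
      (Filter.Eventually.of_forall fun y => ?_)
    rw [Real.norm_eq_abs, abs_of_nonneg (by positivity)]
    exact pow_le_pow_left₀ (norm_nonneg _) (hC y) 2
  have hS : Integrable (fun y => ∑ j ∈ Finset.range (m + 1),
      a j ^ 2 * (j.factorial : ℝ) * ‖c j y‖ ^ 2) (dm η) :=
    integrable_finsetSum _ fun j _ => (hsq j).const_mul _
  have hint : Integrable (fun p : EE n × EE n =>
      ‖∑ j ∈ Finset.range (m + 1), a j • ctrI (c j p.1) (hm j p.2)‖ ^ 2)
      ((dm η).prod (stdGaussian (EE n))) := by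
    rw [integrable_prod_iff (hM.norm.pow_const 2).aestronglyMeasurable]
    refine ⟨Filter.Eventually.of_forall fun y => s5u_chaos_int0 m a (fun j => c j y), ?_⟩
    refine hS.congr (Filter.Eventually.of_forall fun y => ?_)
    simp only [Real.norm_eq_abs, abs_sq]
    exact (s5u_chaos_eq m a (fun j => c j y) (fun j => hc j y)).symm
  refine ⟨(memLp_two_iff_integrable_sq_norm hM.aestronglyMeasurable).2 hint, ?_⟩
  rw [integral_prod _ hint, ← integral_const_mul]
  refine integral_mono ((hsq j0).const_mul _) hint.integral_prod_left fun y => ?_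
  exact s5u_chaos_lower m a (fun j => c j y) (fun j => hc j y) hj0

end exports

end Claimed.Agent.R259
end

/- ===== packed: Claimed.Agent.R259.S5TailTMain ===== -/
section
/-
Row 259 (S0499), package BP-S5-tails, TAILT: the inequality for one datum, on the coupling space of `MetGoal`.
GLUE (proved).  Owner: helper125.
-/
set_option autoImplicit false

open MeasureTheory ProbabilityTheory
open scoped ContDiff BigOperators Matrix
open Claimed.Agent.R260 (Mx)

namespace Claimed.Agent.R259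

variable {n : ℕ}

/-! ### tools -/

section tools

variable {Ω : Type} [MeasurableSpace Ω] {ν : Measure Ω}

/-- Minkowski's inequality in `L²` -/
theorem s5v_l2_tri {V : Type} [NormedAddCommGroup V] [InnerProductSpace ℝ V] {U W : Ω → V}
    (hU : MemLp U 2 ν) (hW : MemLp W 2 ν) :
    Real.sqrt (∫ o, ‖U o + W o‖ ^ 2 ∂ν) ≤
      Real.sqrt (∫ o, ‖U o‖ ^ 2 ∂ν) + Real.sqrt (∫ o, ‖W o‖ ^ 2 ∂ν) := by
  set a := ∫ o, ‖U o‖ ^ 2 ∂ν with ha
  set c := ∫ o, ‖W o‖ ^ 2 ∂ν with hc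
  set b := ∫ o, inner ℝ (U o) (W o) ∂ν with hb
  have ha0 : 0 ≤ a := integral_nonneg fun _ => by positivity
  have hc0 : 0 ≤ c := integral_nonneg fun _ => by positivity
  have hex : ∀ s : ℝ, ∫ o, ‖U o + s • W o‖ ^ 2 ∂ν = a + 2 * s * b + s ^ 2 * c := by
    intro s
    have e : ∀ o, ‖U o + s • W o‖ ^ 2
        = ‖U o‖ ^ 2 + 2 * s * inner ℝ (U o) (W o) + s ^ 2 * ‖W o‖ ^ 2 := by
      intro o
      rw [norm_add_sq_real, inner_smul_right, norm_smul, mul_pow, Real.norm_eq_abs, sq_abs]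
      ring
    simp_rw [e]
    exact mk_integral_add3 (s5t_int_sq hU) (s5t_int_inner hU hW) (s5t_int_sq hW) _ _
  have hcs : |b| ≤ Real.sqrt a * Real.sqrt c := by
    refine mk_cs_aux ha0 hc0 fun s => ?_
    rw [← hex s]
    exact integral_nonneg fun _ => by positivity
  have h1 := hex 1
  simp only [one_smul, mul_one, one_pow, one_mul] at h1
  rw [h1]
  apply Real.sqrt_le_iff.mpr
  refine ⟨by positivity, ?_⟩
  have := le_abs_self b
  nlinarith [Real.sq_sqrt ha0, Real.sq_sqrt hc0, Real.sqrt_nonneg a, Real.sqrt_nonneg c]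

theorem s5v_act0_memLp {M : Ω → Mx n} (hM : RM M) (hp : ∀ o, S5tPrj (M o))
    {v : Ω → EuclideanSpace ℝ (Fin n × Fin n)} (hv : MemLp v 2 ν) :
    MemLp (fun o => s5vAct0 (M o) (v o)) 2 ν := by
  have hm : AEStronglyMeasurable (fun o => s5vAct0 (M o) (v o)) ν := by
    have h1 : Measurable fun o => s5vAct0 (M o) (hv.1.mk v o) :=
      s5vAct0_meas hM hv.1.stronglyMeasurable_mk.measurable
    refine h1.aestronglyMeasurable.congr ?_
    filter_upwards [hv.1.ae_eq_mk] with o ho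
    rw [ho]
  exact hv.mono hm (Filter.Eventually.of_forall fun o => s5vAct0_le (hp o) _)

end tools

/-- THE INEQUALITY OF TAILT FOR ONE DATUM. -/
theorem s5v_main (hmet : MetGoal) (m : ℕ) {t : ℝ} (ht : 0 < t) : ∃ C : ℝ, 0 ≤ C ∧
    ∀ (n : ℕ) (η : EE n → ℝ), SPD η → ∀ T : (l : ℕ) → EE n → TT n (l + 1),
      (∀ l ≤ m + 2, IsTestV (T l)) → (∀ l ≤ m + 2, ∀ y, TSym (T l y)) →
      ∀ l0 : ℕ, l0 ≤ m → ∀ c κ ε' : ℝ, 0 < c → 0 ≤ κ → 0 < ε' →
      Real.sqrt (Real.exp (-t) ^ 2 * ((2 * t) ^ l0 / (l0.factorial : ℝ)) *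
          ∫ y, tailTr (c ^ 2) (red (T (l0 + 1) y)) ∂(dm η)) ≤
        Real.sqrt (2 * κ / c ^ 2 * nSq η (T (l0 + 1))
            + 2 * ∫ y, tailTr κ (red (T (0 + 1) y)) ∂(dm η))
          + C * ∑ j ∈ Finset.range (m + 1),
              (Real.sqrt (nSq η (fun y => opA η (T (j + 1)) y - T (j + 1) y))
                + Real.sqrt (nSq η (fun y => tD (T (j + 1)) y - T (j + 1 + 1) y)))
          + Real.sqrt ((2 * t) ^ (m + 1) / ((m + 1).factorial : ℝ))
              * Real.sqrt (nSq η (T (m + 1 + 1)))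
          + ε' := by
  obtain ⟨C, hC⟩ := hmet m t ht
  refine ⟨max C 0, le_max_right _ _, ?_⟩
  intro n η hη T hT hS l0 hl0 c κ ε' hc hκ hε'
  have hc2 : 0 < c ^ 2 := by positivity
  set F := s5vF (m + 2) T with hF
  have hFt : ∀ j, IsTestV (F j) := s5v_fam_test hT
  have hFs : ∀ j y, CoefSym (F j y) := fun j y σ a β => s5v_fam_sym hS j y a σ β
  obtain ⟨Ω, mΩ, P, Y0, N, Yt, hP, hY0m, hNm, hYtm, hY0, hYt, hN, hind, hb⟩ :=
    hC n (Fin n × Fin n) η hη F hFt (fun j y a σ β => s5v_fam_sym hS j y a σ β) ε' hε'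
  have hprobη := s5k_prob hη
  have hlaw : P.map (fun o => (Y0 o, N o)) = (dm η).prod (gam n) := by
    rw [(indepFun_iff_map_prod_eq_prod_map_map hY0m.aemeasurable hNm.aemeasurable).mp hind,
      hY0, hN]
  have hYNm : Measurable fun o => (Y0 o, N o) := hY0m.prodMk hNm
  -- the projection field
  have hTl : IsTestV (T (l0 + 1)) := hT _ (by omega)
  have hT1 : IsTestV (T (0 + 1)) := hT _ (by omega)
  set Pf : EE n → Mx n := fun y => s5tP (c ^ 2) (red (T (l0 + 1) y)) with hPf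
  have hflm : RM fun y => flat (T (l0 + 1) y) := s5v_flat_RM hTl.1.continuous.measurable
  have hf1m : RM fun y => flat (T (0 + 1) y) := s5v_flat_RM hT1.1.continuous.measurable
  have hPfm : RM Pf :=
    s5t_P_RM _ (hflm.mul hflm.transpose) fun y => mk_isSymm_of_psd (mk_psd_gram _)
  have hPfp : ∀ y, S5tPrj (Pf y) := fun y => s5t_P_prj _ _
  -- the two chaos expansions
  set a : ℕ → ℝ := fun j => Real.exp (-t) * (Real.sqrt (2 * t) ^ j / (j.factorial : ℝ)) with ha
  have hFm : ∀ j, Measurable (F j) := fun j => (hFt j).1.continuous.measurable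
  have hFb : ∀ j, ∃ B : ℝ, ∀ y, ‖F j y‖ ≤ B := fun j =>
    (hFt j).2.exists_bound_of_continuous (hFt j).1.continuous
  obtain ⟨hS0, -⟩ := s5u_chaos_int hη m a F hFm hFb hFs hl0
  obtain ⟨hSP, hlow⟩ := s5u_chaos_int hη m a (fun j y => s5vAct (Pf y) (F j y))
    (fun j => s5vAct_meas hPfm (hFm j))
    (fun j => by
      obtain ⟨B, hB⟩ := hFb j
      exact ⟨B, fun y => (s5vAct_le (hPfp y) _).trans (hB y)⟩)
    (fun j y => s5vAct_coefSym _ (hFs j y)) hl0
  set S0 : EE n × EE n → EuclideanSpace ℝ (Fin n × Fin n) :=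
    fun p => ∑ j ∈ Finset.range (m + 1), a j • ctrI (F j p.1) (hm j p.2) with hS0def
  have hact : ∀ p : EE n × EE n, s5vAct0 (Pf p.1) (S0 p)
      = ∑ j ∈ Finset.range (m + 1), a j • ctrI (s5vAct (Pf p.1) (F j p.1)) (hm j p.2) := by
    intro p
    rw [hS0def]
    simp only [s5vAct0_sum, s5vAct0_smul, s5vAct0_ctrI]
  -- the random vectors on the coupling space
  set S : Ω → EuclideanSpace ℝ (Fin n × Fin n) := fun o => S0 (Y0 o, N o) with hSdef
  set G : Ω → EuclideanSpace ℝ (Fin n × Fin n) := fun o => ctrI (F 0 (Yt o)) (hm 0 (N o))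
    with hGdef
  have hF0 : ∀ y, F 0 y = s5vL 0 (T (0 + 1) y) := fun y => s5v_fam_eq (by omega) y
  have hSm : MemLp S 2 P := by
    rw [← hlaw] at hS0
    exact hS0.comp_of_map hYNm.aemeasurable
  obtain ⟨B1, hB1⟩ := hT1.2.exists_bound_of_continuous hT1.1.continuous
  have hGmeas : Measurable G :=
    s5v_ctrI_meas ((hFm 0).comp hYtm) ((s5b_hm_contDiff 0).continuous.measurable.comp hNm)
  have hGm : MemLp G 2 P := by
    refine MemLp.of_bound hGmeas.aestronglyMeasurable B1 (Filter.Eventually.of_forall fun o => ?_)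
    rw [hGdef]
    simp only [hF0]
    rw [s5v_ctrI0_norm]
    exact hB1 _
  have hPom : RM fun o => Pf (Y0 o) := hPfm.comp hY0m
  have hPop : ∀ o, S5tPrj (Pf (Y0 o)) := fun o => hPfp _
  -- Minkowski
  have hU2 := s5v_act0_memLp hPom hPop hGm
  have hU3 := s5v_act0_memLp hPom hPop (hSm.sub hGm)
  have hmink : Real.sqrt (∫ o, ‖s5vAct0 (Pf (Y0 o)) (S o)‖ ^ 2 ∂P) ≤
      Real.sqrt (∫ o, ‖s5vAct0 (Pf (Y0 o)) (G o)‖ ^ 2 ∂P)
        + Real.sqrt (∫ o, ‖G o - S o‖ ^ 2 ∂P) := by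
    have h1 := s5v_l2_tri hU2 hU3
    have e : ∀ o, s5vAct0 (Pf (Y0 o)) (G o) + s5vAct0 (Pf (Y0 o)) ((S - G) o)
        = s5vAct0 (Pf (Y0 o)) (S o) := by
      intro o
      rw [← s5vAct0_add]
      congr 1
      simp
    simp only [e] at h1
    have h2 : ∫ o, ‖s5vAct0 (Pf (Y0 o)) ((S - G) o)‖ ^ 2 ∂P ≤ ∫ o, ‖G o - S o‖ ^ 2 ∂P := by
      refine integral_mono (s5t_int_sq hU3) (s5t_int_sq (hGm.sub hSm)) fun o => ?_
      have := s5vAct0_le (hPop o) ((S - G) o)
      have e2 : ‖(S - G) o‖ = ‖G o - S o‖ := by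
        rw [Pi.sub_apply, norm_sub_rev]
      rw [e2] at this
      show ‖s5vAct0 (Pf (Y0 o)) ((S - G) o)‖ ^ 2 ≤ ‖(G - S) o‖ ^ 2
      rw [Pi.sub_apply]
      exact pow_le_pow_left₀ (norm_nonneg _) this 2
    have := Real.sqrt_le_sqrt h2
    linarith
  -- the left hand side
  have hleft : Real.exp (-t) ^ 2 * ((2 * t) ^ l0 / (l0.factorial : ℝ)) *
      ∫ y, tailTr (c ^ 2) (red (T (l0 + 1) y)) ∂(dm η) ≤
      ∫ o, ‖s5vAct0 (Pf (Y0 o)) (S o)‖ ^ 2 ∂P := by
    have e1 : ∫ o, ‖s5vAct0 (Pf (Y0 o)) (S o)‖ ^ 2 ∂P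
        = ∫ p, ‖∑ j ∈ Finset.range (m + 1),
            a j • ctrI (s5vAct (Pf p.1) (F j p.1)) (hm j p.2)‖ ^ 2 ∂((dm η).prod (gam n)) := by
      rw [← hlaw, integral_map hYNm.aemeasurable]
      · refine integral_congr_ae (Filter.Eventually.of_forall fun o => ?_)
        exact congrArg (fun v => ‖v‖ ^ 2) (hact (Y0 o, N o))
      · rw [hlaw]
        exact (hSP.1.norm.pow 2)
    have e2 : ∀ y, ‖s5vAct (Pf y) (F l0 y)‖ ^ 2 = tailTr (c ^ 2) (red (T (l0 + 1) y)) := by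
      intro y
      rw [hF, s5v_fam_eq (by omega) y, s5v_act_norm]
      exact (s5t_tailTr_eq _ _).symm
    have e3 : a l0 ^ 2 * (l0.factorial : ℝ)
        = Real.exp (-t) ^ 2 * ((2 * t) ^ l0 / (l0.factorial : ℝ)) := by
      have hf : (l0.factorial : ℝ) ≠ 0 := by positivity
      have hs : (Real.sqrt (2 * t) ^ l0) ^ 2 = (2 * t) ^ l0 := by
        rw [← pow_mul, mul_comm l0 2, pow_mul, Real.sq_sqrt (by positivity)]
      rw [ha]
      simp only
      rw [mul_pow, div_pow, hs]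
      field_simp
    rw [e1, ← e3]
    simp only [e2] at hlow
    exact hlow
  -- the clipped term
  have hmid : ∫ o, ‖s5vAct0 (Pf (Y0 o)) (G o)‖ ^ 2 ∂P ≤
      2 * κ / c ^ 2 * nSq η (T (l0 + 1)) + 2 * ∫ y, tailTr κ (red (T (0 + 1) y)) ∂(dm η) := by
    have e1 : ∀ o, ‖s5vAct0 (Pf (Y0 o)) (G o)‖ ^ 2 = hs2 (Pf (Y0 o) * flat (T (0 + 1) (Yt o))) := by
      intro o
      rw [hGdef]
      simp only [hF0]
      exact s5v_act0_norm _ _ _
    -- integrability on `dm η`
    obtain ⟨Bl, hBl⟩ := hTl.2.exists_bound_of_continuous hTl.1.continuous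
    have htr_le : ∀ y, Matrix.trace (Pf y) ≤ (c ^ 2)⁻¹ * ‖T (l0 + 1) y‖ ^ 2 := by
      intro y
      rw [inv_mul_eq_div, le_div_iff₀ hc2, mul_comm, ← s5v_flat_norm]
      exact (s5t_rank_le _ _).trans (s5t_prj_hs2_le (hPfp y) _)
    have hTli : Integrable (fun y => ‖T (l0 + 1) y‖ ^ 2) (dm η) :=
      s5k_int_sq (s5k_test_memLp hη hTl)
    have hT1i : Integrable (fun y => ‖T (0 + 1) y‖ ^ 2) (dm η) :=
      s5k_int_sq (s5k_test_memLp hη hT1)
    have htri : Integrable (fun y => Matrix.trace (Pf y)) (dm η) := by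
      refine (hTli.const_mul (c ^ 2)⁻¹).mono' hPfm.meas_trace.aestronglyMeasurable
        (Filter.Eventually.of_forall fun y => ?_)
      rw [Real.norm_eq_abs, abs_of_nonneg (s5t_prj_trace_nonneg (hPfp y))]
      exact htr_le y
    have htlm : Measurable fun y => tailTr κ (red (T (0 + 1) y)) :=
      s5t_tailTr_meas _ (hf1m.mul hf1m.transpose) fun y => mk_isSymm_of_psd (mk_psd_gram _)
    have htli : Integrable (fun y => tailTr κ (red (T (0 + 1) y))) (dm η) := by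
      refine hT1i.mono' htlm.aestronglyMeasurable (Filter.Eventually.of_forall fun y => ?_)
      rw [Real.norm_eq_abs, abs_of_nonneg (s5t_tailTr_nonneg hκ _), ← s5v_flat_norm,
        hs2_eq_trace]
      exact s5t_tailTr_le_trace hκ (mk_psd_gram _)
    -- transport to the coupling space
    have i1 : Integrable (fun o => Matrix.trace (Pf (Y0 o))) P := by
      rw [← hY0] at htri
      exact htri.comp_aemeasurable hY0m.aemeasurable
    have i2 : Integrable (fun o => tailTr κ (red (T (0 + 1) (Yt o)))) P := by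
      rw [← hYt] at htli
      exact htli.comp_aemeasurable hYtm.aemeasurable
    have j1 : ∫ o, Matrix.trace (Pf (Y0 o)) ∂P = ∫ y, Matrix.trace (Pf y) ∂(dm η) := by
      rw [← hY0, integral_map hY0m.aemeasurable hPfm.meas_trace.aestronglyMeasurable]
    have j2 : ∫ o, tailTr κ (red (T (0 + 1) (Yt o))) ∂P
        = ∫ y, tailTr κ (red (T (0 + 1) y)) ∂(dm η) := by
      rw [← hYt, integral_map hYtm.aemeasurable htlm.aestronglyMeasurable]
    have hpt : ∀ o, ‖s5vAct0 (Pf (Y0 o)) (G o)‖ ^ 2 ≤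
        2 * κ * Matrix.trace (Pf (Y0 o)) + 2 * tailTr κ (red (T (0 + 1) (Yt o))) := by
      intro o
      rw [e1]
      exact s5t_prj_split (hPop o) hκ _
    have h1 := integral_mono (s5t_int_sq hU2) ((i1.const_mul (2 * κ)).add (i2.const_mul 2)) hpt
    have h2 := integral_add (i1.const_mul (2 * κ)) (i2.const_mul 2)
    simp only [Pi.add_apply] at h1
    rw [h2, integral_const_mul, integral_const_mul, j1, j2] at h1
    have h3 : ∫ y, Matrix.trace (Pf y) ∂(dm η) ≤ (c ^ 2)⁻¹ * nSq η (T (l0 + 1)) := by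
      unfold nSq
      rw [← integral_const_mul]
      exact integral_mono htri (hTli.const_mul _) htr_le
    have h4 : 2 * κ * ∫ y, Matrix.trace (Pf y) ∂(dm η) ≤ 2 * κ / c ^ 2 * nSq η (T (l0 + 1)) := by
      have := mul_le_mul_of_nonneg_left h3 (by positivity : (0 : ℝ) ≤ 2 * κ)
      calc _ ≤ 2 * κ * ((c ^ 2)⁻¹ * nSq η (T (l0 + 1))) := this
        _ = _ := by ring
    linarith
  -- the error of the expansion
  have herr : Real.sqrt (∫ o, ‖G o - S o‖ ^ 2 ∂P) ≤
      max C 0 * ∑ j ∈ Finset.range (m + 1),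
          (Real.sqrt (nSq η (fun y => opA η (T (j + 1)) y - T (j + 1) y))
            + Real.sqrt (nSq η (fun y => tD (T (j + 1)) y - T (j + 1 + 1) y)))
        + Real.sqrt ((2 * t) ^ (m + 1) / ((m + 1).factorial : ℝ))
            * Real.sqrt (nSq η (T (m + 1 + 1)))
        + ε' := by
    have e1 : ∀ o, ctrI (F 0 (Yt o)) (hm 0 (N o)) - Real.exp (-t) • ∑ j ∈ Finset.range (m + 1),
        (Real.sqrt (2 * t) ^ j / (j.factorial : ℝ)) • ctrI (F j (Y0 o)) (hm j (N o))
        = G o - S o := by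
      intro o
      rw [hGdef, hSdef, hS0def, ha]
      simp only [Finset.smul_sum, smul_smul]
    simp only [e1] at hb
    have e2 : ∑ j ∈ Finset.range (m + 1),
        (Real.sqrt (nSq η (fun y => opA η (F j) y - F j y)) + Real.sqrt (metB η F j))
        = ∑ j ∈ Finset.range (m + 1),
          (Real.sqrt (nSq η (fun y => opA η (T (j + 1)) y - T (j + 1) y))
            + Real.sqrt (nSq η (fun y => tD (T (j + 1)) y - T (j + 1 + 1) y))) := by
      refine Finset.sum_congr rfl fun j hj => ?_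
      have hj' : j < m + 1 := Finset.mem_range.mp hj
      rw [hF, s5v_fam_dfA η hT (by omega), s5v_fam_metB η hT (by omega)]
    have e3 : nSq η (F (m + 1)) = nSq η (T (m + 1 + 1)) := s5v_fam_nSq η (by omega)
    rw [e2, e3] at hb
    have hsum : 0 ≤ ∑ j ∈ Finset.range (m + 1),
          (Real.sqrt (nSq η (fun y => opA η (T (j + 1)) y - T (j + 1) y))
            + Real.sqrt (nSq η (fun y => tD (T (j + 1)) y - T (j + 1 + 1) y))) :=
      Finset.sum_nonneg fun j _ => add_nonneg (Real.sqrt_nonneg _) (Real.sqrt_nonneg _)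
    have := mul_le_mul_of_nonneg_right (le_max_left C 0) hsum
    linarith
  have h1 := Real.sqrt_le_sqrt hleft
  have h2 := Real.sqrt_le_sqrt hmid
  linarith

end Claimed.Agent.R259
end

/- ===== packed: Claimed.Agent.R259.S5TailT ===== -/
section
/-
Row 259 (S0499), package BP-S5-tails: TAILT (Lemma 5.6, second half).  GLUE (proved).  Owner: helper125.
-/
set_option autoImplicit false

open MeasureTheory ProbabilityTheory
open scoped ContDiff BigOperators Matrix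
open Claimed.Agent.R260 (Mx)

namespace Claimed.Agent.R259

variable {n : ℕ}

/-! ### from `Q = Dw` to `T_1` -/

theorem s5v_flat_sub {d : ℕ} (s t : TT n (d + 1)) : flat (s - t) = flat s - flat t := by
  ext i β
  rfl

theorem s5v_Dw_contDiff (Z : HiInput n) : ContDiff ℝ ∞ (tD (vecT Z.w)) := by
  apply s5k_tD_contDiff
  have : vecT Z.w = fun y => vecL (Z.w y) := funext (vecT_eq _)
  rw [this]
  exact (vecL (n := n)).contDiff.comp Z.w_smooth

theorem s5v_Dw_norm (Z : HiInput n) (y : EE n) :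
    ‖tD (vecT Z.w) y‖ ^ 2 = hs2 (s5tQ Z.w y) := by
  rw [← s5v_flat_norm, hs2_eq_trace, hs2_eq_trace, ← s5t_red_Q]
  rfl

theorem s5v_Dw_memLp (Z : HiInput n) : MemLp (tD (vecT Z.w)) 2 (dm Z.η) := by
  rw [memLp_two_iff_integrable_sq_norm (s5v_Dw_contDiff Z).continuous.aestronglyMeasurable]
  simp_rw [s5v_Dw_norm]
  exact (s5t_data Z).Q_L2.integrable_hs2

/-- tails of a test field close to `Dw` -/
theorem s5v_T1_tail (Z : HiInput n) {T1 : EE n → TT n (1 + 1)} (hT1 : IsTestV T1) {k : ℝ}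
    (hk : 0 ≤ k) :
    ∫ y, tailTr (4 * k ^ 2) (red (T1 y)) ∂(dm Z.η) ≤
      8 * nSq Z.η (fun y => T1 y - tD (vecT Z.w) y)
        + 8 * ∫ y, tailTr (k ^ 2) (red (tD (vecT Z.w) y)) ∂(dm Z.η) := by
  have hk2 : 0 ≤ k ^ 2 := by positivity
  have hDw := s5v_Dw_memLp Z
  have hT := s5k_test_memLp Z.spd hT1
  have hfm : RM fun y => flat (tD (vecT Z.w) y) :=
    s5v_flat_RM (s5v_Dw_contDiff Z).continuous.measurable
  have i1 : Integrable (fun y => ‖T1 y - tD (vecT Z.w) y‖ ^ 2) (dm Z.η) := s5k_int_sq (hT.sub hDw)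
  have i2 : Integrable (fun y => tailTr (k ^ 2) (red (tD (vecT Z.w) y))) (dm Z.η) := by
    refine (s5k_int_sq hDw).mono'
      (s5t_tailTr_meas _ (hfm.mul hfm.transpose)
        fun y => mk_isSymm_of_psd (mk_psd_gram _)).aestronglyMeasurable
      (Filter.Eventually.of_forall fun y => ?_)
    rw [Real.norm_eq_abs, abs_of_nonneg (s5t_tailTr_nonneg hk2 _), ← s5v_flat_norm, hs2_eq_trace]
    exact s5t_tailTr_le_trace hk2 (mk_psd_gram _)
  have hpt : ∀ y, tailTr (4 * k ^ 2) (red (T1 y)) ≤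
      8 * ‖T1 y - tD (vecT Z.w) y‖ ^ 2 + 8 * tailTr (k ^ 2) (red (tD (vecT Z.w) y)) := by
    intro y
    set A := flat (T1 y) with hA
    set Qf := flat (tD (vecT Z.w) y) with hQf
    have t1 := s5t_transfer hk A ((1 - s5tP (k ^ 2) (Qf * Qfᵀ)) * Qf) (s5t_clip_le hk2 Qf)
    have e : A - (1 - s5tP (k ^ 2) (Qf * Qfᵀ)) * Qf = (A - Qf) + s5tP (k ^ 2) (Qf * Qfᵀ) * Qf := by
      rw [Matrix.sub_mul, Matrix.one_mul]
      abel
    rw [e] at t1
    have t2 := hs2_add_le (A - Qf) (s5tP (k ^ 2) (Qf * Qfᵀ) * Qf)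
    have e1 : hs2 (A - Qf) = ‖T1 y - tD (vecT Z.w) y‖ ^ 2 := by
      rw [hA, hQf, ← s5v_flat_sub, s5v_flat_norm]
    have e2 : hs2 (s5tP (k ^ 2) (Qf * Qfᵀ) * Qf) = tailTr (k ^ 2) (Qf * Qfᵀ) :=
      (s5t_tailTr_eq _ _).symm
    have t3 : tailTr (4 * k ^ 2) (red (T1 y)) = tailTr (4 * k ^ 2) (A * Aᵀ) := rfl
    have t4 : tailTr (k ^ 2) (red (tD (vecT Z.w) y)) = tailTr (k ^ 2) (Qf * Qfᵀ) := rfl
    rw [t3, t4]
    linarith
  have := integral_mono_of_nonneg
    (Filter.Eventually.of_forall fun y =>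
      s5t_tailTr_nonneg (by positivity : (0 : ℝ) ≤ 4 * k ^ 2) (red (T1 y)))
    ((i1.const_mul 8).add (i2.const_mul 8)) (Filter.Eventually.of_forall hpt)
  have h2 := integral_add (i1.const_mul 8) (i2.const_mul 8)
  simp only [Pi.add_apply] at this
  rw [h2, integral_const_mul, integral_const_mul] at this
  exact this

/-- `‖T_1 - Dw‖² ≤ 4 δ I` along a chain -/
theorem s5v_T1_close (Z : HiInput n) {L : ℕ} (hL : 1 ≤ L) {T : (l : ℕ) → EE n → TT n (l + 1)}
    {δ : ℝ} (hC : Z.Chain L T δ) :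
    nSq Z.η (fun y => T (0 + 1) y - tD (vecT Z.w) y) ≤ 4 * δ * Z.I := by
  have h1 := hC.deriv 0 (by omega)
  have h2 := hC.zeroD
  rw [s5k_nSq_sub_comm] at h1
  have hT1 := s5k_test_memLp Z.spd (hC.lvl (0 + 1) (by omega)).test
  have hT0 := s5k_test_memLp Z.spd (s5k_tD_test (hC.lvl 0 (by omega)).test)
  have := s5k_cl_trans hT1 hT0 (s5v_Dw_memLp Z) h1 h2
  linarith

/-! ### the choice of the parameters -/

/-- TAILT (statement of `s5_tailT`) -/
theorem s5v_tailT (hmet : MetGoal) (l : ℕ) (hl : 1 ≤ l) : ∀ c : ℝ, 0 < c → ∀ ε : ℝ, 0 < ε →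
    ∃ L' : ℕ, ∃ δ : ℝ, 0 < δ ∧
    ∀ (n : ℕ) (Z : HiInput n) (T : (l : ℕ) → EE n → TT n (l + 1)), Z.Small δ → Z.om = Z.w →
      Z.Chain L' T δ → ∫ y, tailTr (c ^ 2) (red (T l y)) ∂(dm Z.η) ≤ ε * Z.I := by
  obtain ⟨l0, rfl⟩ : ∃ l0, l = l0 + 1 := ⟨l - 1, by omega⟩
  intro c hc ε hε
  have hc2 : 0 < c ^ 2 := by positivity
  set A0 : ℝ := Real.exp (-(1 / 2)) ^ 2 * ((2 * (1 / 2)) ^ l0 / (l0.factorial : ℝ)) with hA0
  have hA0p : 0 < A0 := by positivity
  set ρ : ℝ := A0 * ε / 16 with hρ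
  have hρp : 0 < ρ := by positivity
  -- the number of terms
  obtain ⟨m0, hm0⟩ := exists_nat_ge (2 / ρ)
  set m : ℕ := max l0 m0 with hm
  have hl0m : l0 ≤ m := le_max_left _ _
  have hfac : 2 / ((m + 1).factorial : ℝ) ≤ ρ := by
    have h1 : (m0 : ℝ) ≤ ((m + 1).factorial : ℝ) := by
      have : m0 ≤ (m + 1).factorial :=
        ((le_max_right l0 m0).trans (Nat.le_succ m)).trans (Nat.self_le_factorial _)
      exact_mod_cast this
    have h2 : 2 / ρ ≤ ((m + 1).factorial : ℝ) := hm0.trans h1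
    rw [div_le_iff₀ (by positivity)]
    rw [div_le_iff₀ hρp] at h2
    linarith
  obtain ⟨C, hC0, hmain⟩ := s5v_main hmet m (t := 1 / 2) (by norm_num)
  -- the clipping level
  set k : ℝ := Real.sqrt (ρ * c ^ 2 / 48) with hk
  have hk0 : 0 ≤ k := Real.sqrt_nonneg _
  have hkp : 0 < k := Real.sqrt_pos.mpr (by positivity)
  have hk2 : k ^ 2 = ρ * c ^ 2 / 48 := Real.sq_sqrt (by positivity)
  obtain ⟨δQ, hδQ, hQ⟩ := s5t_tailQ k hkp (ρ / 48) (by positivity)
  set D : ℝ := 2 * (C + 1) * (m + 1) with hD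
  have hDp : 0 < D := by positivity
  set δ : ℝ := min (min δQ 1) (min (ρ / 192) (ρ / D ^ 2)) with hδ
  have hδp : 0 < δ := lt_min (lt_min hδQ one_pos) (lt_min (by positivity) (by positivity))
  have hδ1 : δ ≤ δQ := (min_le_left _ _).trans (min_le_left _ _)
  have hδ2 : δ ≤ 1 := (min_le_left _ _).trans (min_le_right _ _)
  have hδ3 : δ ≤ ρ / 192 := (min_le_right _ _).trans (min_le_left _ _)
  have hδ4 : δ ≤ ρ / D ^ 2 := (min_le_right _ _).trans (min_le_right _ _)
  refine ⟨m + 2, δ, hδp, ?_⟩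
  intro n Z T hS hom hCh
  have hI : 0 < Z.I := Z.I_pos
  set R : ℝ := Real.sqrt (ρ * Z.I) with hR
  have hRp : 0 < R := Real.sqrt_pos.mpr (by positivity)
  have hR2 : R ^ 2 = ρ * Z.I := Real.sq_sqrt (by positivity)
  have hineq := hmain n Z.η Z.spd T (fun l hl => (hCh.lvl l hl).test)
    (fun l hl => (hCh.lvl l hl).symm) l0 hl0m c (4 * k ^ 2) R hc (by positivity) hRp
  have hnorm : ∀ l ≤ m + 2, nSq Z.η (T l) ≤ 2 * Z.I := by
    intro l hl
    have h1 := (abs_le.mp (hCh.lvl l hl).norm).2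
    have h2 : δ * Z.I ≤ 1 * Z.I := mul_le_mul_of_nonneg_right hδ2 hI.le
    linarith
  -- term 1
  have ht1 : Real.sqrt (2 * (4 * k ^ 2) / c ^ 2 * nSq Z.η (T (l0 + 1))
      + 2 * ∫ y, tailTr (4 * k ^ 2) (red (T (0 + 1) y)) ∂(dm Z.η)) ≤ R := by
    apply Real.sqrt_le_sqrt
    have a1 : 2 * (4 * k ^ 2) / c ^ 2 = ρ / 6 := by
      rw [hk2]
      field_simp
      ring
    have a2 := hnorm (l0 + 1) (by omega)
    have a3 := s5v_T1_tail Z (T1 := T (0 + 1)) (hCh.lvl (0 + 1) (by omega)).test hk0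
    have a4 := s5v_T1_close Z (by omega : 1 ≤ m + 2) hCh
    have a5 := hQ n Z (s5c_small_mono hS hδ1) hom
    have a6 : 4 * δ * Z.I ≤ 4 * (ρ / 192) * Z.I :=
      mul_le_mul_of_nonneg_right (by linarith) hI.le
    have a7 : ρ / 6 * nSq Z.η (T (l0 + 1)) ≤ ρ / 6 * (2 * Z.I) :=
      mul_le_mul_of_nonneg_left a2 (by positivity)
    rw [a1]
    nlinarith
  -- term 2
  have hsq : Real.sqrt (δ * Z.I) ≤ R / D := by
    apply Real.sqrt_le_iff.mpr
    refine ⟨by positivity, ?_⟩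
    rw [div_pow, hR2]
    have : δ * Z.I ≤ ρ / D ^ 2 * Z.I := mul_le_mul_of_nonneg_right hδ4 hI.le
    calc δ * Z.I ≤ ρ / D ^ 2 * Z.I := this
      _ = ρ * Z.I / D ^ 2 := by ring
  have ht2 : C * ∑ j ∈ Finset.range (m + 1),
      (Real.sqrt (nSq Z.η (fun y => opA Z.η (T (j + 1)) y - T (j + 1) y))
        + Real.sqrt (nSq Z.η (fun y => tD (T (j + 1)) y - T (j + 1 + 1) y))) ≤ R := by
    have b1 : ∑ j ∈ Finset.range (m + 1),
        (Real.sqrt (nSq Z.η (fun y => opA Z.η (T (j + 1)) y - T (j + 1) y))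
          + Real.sqrt (nSq Z.η (fun y => tD (T (j + 1)) y - T (j + 1 + 1) y)))
        ≤ ∑ _j ∈ Finset.range (m + 1), 2 * (R / D) := by
      refine Finset.sum_le_sum fun j hj => ?_
      have hj' : j < m + 1 := Finset.mem_range.mp hj
      have c1 := Real.sqrt_le_sqrt (hCh.lvl (j + 1) (by omega)).eigen
      have c2 := Real.sqrt_le_sqrt (hCh.deriv (j + 1) (by omega))
      linarith
    rw [Finset.sum_const, Finset.card_range, nsmul_eq_mul] at b1
    have b2 := mul_le_mul_of_nonneg_left b1 hC0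
    have b3 : C * (((m + 1 : ℕ) : ℝ) * (2 * (R / D))) = C / (C + 1) * R := by
      rw [hD]
      push_cast
      field_simp
    have b4 : C / (C + 1) ≤ 1 := by
      rw [div_le_one (by positivity)]
      linarith
    have b5 := mul_le_mul_of_nonneg_right b4 hRp.le
    linarith
  -- term 3
  have ht3 : Real.sqrt ((2 * (1 / 2)) ^ (m + 1) / ((m + 1).factorial : ℝ))
      * Real.sqrt (nSq Z.η (T (m + 1 + 1))) ≤ R := by
    rw [← Real.sqrt_mul (by positivity)]
    apply Real.sqrt_le_sqrt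
    have d1 := hnorm (m + 1 + 1) (by omega)
    have d2 : ((2 : ℝ) * (1 / 2)) ^ (m + 1) = 1 := by norm_num
    rw [d2]
    have d3 : 1 / ((m + 1).factorial : ℝ) * nSq Z.η (T (m + 1 + 1))
        ≤ 1 / ((m + 1).factorial : ℝ) * (2 * Z.I) :=
      mul_le_mul_of_nonneg_left d1 (by positivity)
    have d4 : 1 / ((m + 1).factorial : ℝ) * (2 * Z.I) = 2 / ((m + 1).factorial : ℝ) * Z.I := by
      ring
    have d5 := mul_le_mul_of_nonneg_right hfac hI.le
    linarith
  -- conclusion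
  have hfin : Real.sqrt (A0 * ∫ y, tailTr (c ^ 2) (red (T (l0 + 1) y)) ∂(dm Z.η)) ≤ 4 * R := by
    rw [← hA0] at hineq
    linarith
  have hsq2 := (Real.sqrt_le_iff.mp hfin).2
  have e1 : (4 * R) ^ 2 = A0 * (ε * Z.I) := by
    rw [mul_pow, hR2, hρ]
    ring
  rw [e1] at hsq2
  exact le_of_mul_le_mul_left hsq2 hA0p

end Claimed.Agent.R259
end

/- ===== packed: Claimed.Agent.R259.S5Tail ===== -/
section
/-
Row 259 (S0499), Lemma 5.6 of the paper (operator tails in the strict branch).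
EXPORT FILE of package BP-S5-tails.  The package owner owns this file: keep names and statements,
replace the sorries by citations of helper files `S5Tail*.lean` (which never import this file).
-/
set_option autoImplicit false

open MeasureTheory ProbabilityTheory
open scoped ContDiff BigOperators Matrix
open Claimed.Agent.R260 (Mx mxFun mxSchur mxSq mxIP mxEig mxU mxRot)

namespace Claimed.Agent.R259

variable {n : ℕ}

/-- BP-S5-TAILQ (Lemma 5.6, first half): vanishing operator tails of `Q = Dw`. -/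
theorem s5_tailQ : ∀ c : ℝ, 0 < c → ∀ ε : ℝ, 0 < ε → ∃ δ : ℝ, 0 < δ ∧
    ∀ (n : ℕ) (Z : HiInput n), Z.Small δ → Z.om = Z.w →
      ∫ y, tailTr (c ^ 2) (red (tD (vecT Z.w) y)) ∂(dm Z.η) ≤ ε * Z.I :=
  s5t_tailQ

/-- BP-S5-TAILT (Lemma 5.6, second half): propagation to the higher levels through the coupling. -/
theorem s5_tailT (hmet : MetGoal) (l : ℕ) (hl : 1 ≤ l) : ∀ c : ℝ, 0 < c → ∀ ε : ℝ, 0 < ε →
    ∃ L' : ℕ, ∃ δ : ℝ, 0 < δ ∧
    ∀ (n : ℕ) (Z : HiInput n) (T : (l : ℕ) → EE n → TT n (l + 1)), Z.Small δ → Z.om = Z.w →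
      Z.Chain L' T δ → ∫ y, tailTr (c ^ 2) (red (T l y)) ∂(dm Z.η) ≤ ε * Z.I :=
  s5v_tailT hmet l hl

end Claimed.Agent.R259
end

/- ===== packed: Claimed.Agent.R259.S5CurvMain ===== -/
section
/-
Row 259 (S0499), package BP-S5-curv: the curvature estimate of Proposition 5.1, eps-delta GLUE.
Owner: helper19.
-/
set_option autoImplicit false

open MeasureTheory
open scoped ContDiff BigOperators Matrix
open Claimed.Agent.R260 (Mx mxSq)

namespace Claimed.Agent.R259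

variable {n d : ℕ}

/-- `⟨S, K S⟩ ≤ 2 ⟨R, K R⟩ + 16 ‖S - R‖²` (integrated), for fields in `L²` -/
theorem s5v_K_transfer (Z : HiInput n) (r : Fin d) {S R : EE n → TT n d}
    (hSc : Continuous S) (hRc : Continuous R) (mS : MemLp S 2 (dm Z.η)) (mR : MemLp R 2 (dm Z.η)) :
    ipF Z.η S (fun y => slot r (Z.K y) (S y)) ≤
      2 * ipF Z.η R (fun y => slot r (Z.K y) (R y)) + 16 * nSq Z.η (fun y => S y - R y) := by
  have hKc := s5v_K_continuous Z
  have mK : ∀ {W : EE n → TT n d}, Continuous W → MemLp W 2 (dm Z.η) →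
      MemLp (fun y => slot r (Z.K y) (W y)) 2 (dm Z.η) := fun hW mW =>
    MemLp.of_le_mul (c := 8) mW (s5v_slot_continuous r hKc hW).aestronglyMeasurable
      (Filter.Eventually.of_forall fun y => s5v_K_norm_le Z r y _)
  have mD : MemLp (fun y => S y - R y) 2 (dm Z.η) := mS.sub mR
  unfold ipF nSq
  rw [← integral_const_mul, ← integral_const_mul, ← integral_add
    ((s5k_int_inner mR (mK hRc mR)).const_mul 2) ((s5k_int_sq mD).const_mul 16)]
  refine integral_mono (s5k_int_inner mS (mK hSc mS))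
    (((s5k_int_inner mR (mK hRc mR)).const_mul 2).add ((s5k_int_sq mD).const_mul 16)) fun y => ?_
  have h1 := s5v_slot_psd_add r (Z.K_nonneg y) (R y) (S y - R y)
  have e : R y + (S y - R y) = S y := by abel
  rw [e] at h1
  have h2 : inner ℝ (S y - R y) (slot r (Z.K y) (S y - R y)) ≤ 8 * ‖S y - R y‖ ^ 2 := by
    calc inner ℝ (S y - R y) (slot r (Z.K y) (S y - R y))
        ≤ ‖S y - R y‖ * ‖slot r (Z.K y) (S y - R y)‖ := real_inner_le_norm _ _
      _ ≤ ‖S y - R y‖ * (8 * ‖S y - R y‖) :=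
          mul_le_mul_of_nonneg_left (s5v_K_norm_le Z r y _) (norm_nonneg _)
      _ = 8 * ‖S y - R y‖ ^ 2 := by ring
  show inner ℝ (S y) (slot r (Z.K y) (S y)) ≤
    2 * inner ℝ (R y) (slot r (Z.K y) (R y)) + 16 * ‖S y - R y‖ ^ 2
  linarith

/-- level zero -/
theorem s5v_level_zero : ∀ ε : ℝ, 0 < ε → ∃ δ : ℝ, 0 < δ ∧
    ∀ (n : ℕ) (Z : HiInput n) (T : (l : ℕ) → EE n → TT n (l + 1)), Z.Small δ → Z.Chain 0 T δ →
      ipF Z.η (T 0) (fun y => slot 0 (Z.K y) (T 0 y)) ≤ ε * Z.I := by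
  intro ε hε
  refine ⟨ε / 18, by positivity, fun n Z T hZ hT => ?_⟩
  have hη := Z.spd
  have hI : 0 < Z.I := Z.I_pos
  have hT0 := (hT.lvl 0 le_rfl).test
  have cw : Continuous (vecT Z.w) := by
    have : vecT Z.w = fun y => vecL (Z.w y) := funext fun y => vecT_eq Z.w y
    rw [this]
    exact vecL.continuous.comp Z.w_smooth.continuous
  have mw : MemLp (vecT Z.w) 2 (dm Z.η) := by
    refine MemLp.of_le_mul (c := 1) Z.w_L2 cw.aestronglyMeasurable
      (Filter.Eventually.of_forall fun y => ?_)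
    rw [vecT_eq, LinearIsometryEquiv.norm_map, one_mul]
  have h1 := s5v_K_transfer Z 0 hT0.1.continuous cw (s5k_test_memLp hη hT0) mw
  have e : ipF Z.η (vecT Z.w) (fun y => slot 0 (Z.K y) (vecT Z.w y)) =
      ipF Z.η Z.w (fun y => mv (Z.K y) (Z.w y)) := by
    unfold ipF
    congr 1
    funext y
    show inner ℝ (vecT Z.w y) (slot 0 (Z.K y) (vecT Z.w y)) = inner ℝ (Z.w y) (mv (Z.K y) (Z.w y))
    rw [vecT_eq, slot_vecL, LinearIsometryEquiv.inner_map_map]
  rw [e] at h1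
  have h2 := hZ.curv
  have h3 := hT.zero
  calc ipF Z.η (T 0) (fun y => slot 0 (Z.K y) (T 0 y))
      ≤ 2 * (ε / 18 * Z.I) + 16 * (ε / 18 * Z.I) := by linarith
    _ = ε * Z.I := by ring

/-- level `k + 1` -/
theorem s5v_level_succ (hmet : MetGoal) (k : ℕ) : ∀ ε : ℝ, 0 < ε → ∃ L' : ℕ, ∃ δ : ℝ, 0 < δ ∧
    ∀ (n : ℕ) (Z : HiInput n) (T : (l : ℕ) → EE n → TT n (l + 1)), Z.Small δ → Z.Chain L' T δ →
      ipF Z.η (T (k + 1)) (fun y => slot 0 (Z.K y) (T (k + 1) y)) ≤ ε * Z.I := by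
  intro ε hε
  obtain ⟨θ, hθ0, hθ1, hθε⟩ : ∃ θ : ℝ, 0 < θ ∧ θ ≤ 1 ∧ 406 * θ ≤ ε := by
    refine ⟨min 1 (ε / 406), lt_min one_pos (by positivity), min_le_left _ _, ?_⟩
    have : min 1 (ε / 406) ≤ ε / 406 := min_le_right _ _
    linarith
  obtain ⟨L1, δ1, hδ1, H1⟩ := s5_tailT hmet (k + 1) (by omega) θ hθ0 (θ ^ 2) (by positivity)
  refine ⟨max L1 (k + 1), min δ1 (θ ^ 2), lt_min hδ1 (by positivity), fun n Z T hZ hT => ?_⟩
  have hη := Z.spd
  have hI : 0 < Z.I := Z.I_pos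
  have hI0 : 0 ≤ Z.I := hI.le
  have hT2 : Z.Chain (max L1 (k + 1)) T (θ ^ 2) := hT.mono (min_le_right _ _)
  have hZ2 : Z.Small (θ ^ 2) := hZ.mono (min_le_right _ _)
  have lF := hT2.lvl k (by omega)
  have lS := hT2.lvl (k + 1) (le_max_right _ _)
  have hθ2 : θ ^ 2 ≤ 1 := by nlinarith
  have nrm : ∀ {e : ℕ} {W : EE n → TT n (e + 1)}, Z.Lvl W (θ ^ 2) → nSq Z.η W ≤ 2 ^ 2 * Z.I := by
    intro e W h
    have := (abs_le.mp h.norm).2
    nlinarith
  have hFS := hT2.deriv k (lt_of_lt_of_le (Nat.lt_succ_self k) (le_max_right _ _))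
  have step : ipF Z.η (tD (T k)) (fun y => slot (Fin.last (k + 1)) (Z.K y) (tD (T k) y))
      ≤ 195 * θ * Z.I := by
    rcases Z.branch with hs | hg
    · exact s5v_strict_step Z hs hθ0 hθ1 lF.test lS.test lS.symm lF.eigen (nrm lF) lS.eigen (nrm lS)
        hFS hZ2.eigen (H1 n Z T (hZ.mono (min_le_left _ _)) hs
          ((hT.restrict (le_max_left _ _)).mono (min_le_left _ _)))
    · exact s5v_gap_step Z hg hθ0 hθ1 lF.test lS.test lF.eigen (nrm lF) lS.eigen (nrm lS) hFS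
  have hDF := s5k_tD_test lF.test
  have h1 := s5v_K_transfer Z (Fin.last (k + 1)) lS.test.1.continuous hDF.1.continuous
    (s5k_test_memLp hη lS.test) (s5k_test_memLp hη hDF)
  have e : ipF Z.η (T (k + 1)) (fun y => slot 0 (Z.K y) (T (k + 1) y)) =
      ipF Z.η (T (k + 1)) (fun y => slot (Fin.last (k + 1)) (Z.K y) (T (k + 1) y)) := by
    unfold ipF
    congr 1
    funext y
    exact s5v_slot_sym (lS.symm y) _ _ _
  have h2 : nSq Z.η (fun y => T (k + 1) y - tD (T k) y) ≤ θ ^ 2 * Z.I := by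
    rw [s5k_nSq_sub_comm]
    exact hFS
  rw [e]
  have h3 : θ ^ 2 * Z.I ≤ θ * Z.I := by
    apply mul_le_mul_of_nonneg_right _ hI0
    nlinarith
  calc ipF Z.η (T (k + 1)) (fun y => slot (Fin.last (k + 1)) (Z.K y) (T (k + 1) y))
      ≤ 2 * (195 * θ * Z.I) + 16 * (θ * Z.I) := by linarith
    _ = 406 * θ * Z.I := by ring
    _ ≤ ε * Z.I := mul_le_mul_of_nonneg_right hθε hI0

/-- the curvature estimate at every level -/
theorem s5v_curv (hmet : MetGoal) (l : ℕ) : ∀ ε : ℝ, 0 < ε → ∃ L' : ℕ, ∃ δ : ℝ, 0 < δ ∧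
    ∀ (n : ℕ) (Z : HiInput n) (T : (l : ℕ) → EE n → TT n (l + 1)), Z.Small δ → Z.Chain L' T δ →
      ipF Z.η (T l) (fun y => slot 0 (Z.K y) (T l y)) ≤ ε * Z.I := by
  cases l with
  | zero =>
    intro ε hε
    obtain ⟨δ, hδ, H⟩ := s5v_level_zero ε hε
    exact ⟨0, δ, hδ, H⟩
  | succ k => exact s5v_level_succ hmet k

end Claimed.Agent.R259
end
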