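/- Packed by merge_tool.py (helper293): 12 modules of Claimed.Agent.R259 in one file, same declarations.
   Old modules, in this order: S6RootPoinRho, S6RootPoinA, S6RootPoin, S6RootFin, S6Root, S6Col, S6BlkPt, S6BlkCost, S6BlkInt, S6BlkIntB, S6BlkMain, S6Blk -/
import Claimed.Agent.R259.Pack040
import Claimed.Agent.R259.Pack031
import Claimed.Agent.R259.Pack020
import Claimed.Agent.R259.Pack046
import Claimed.Agent.R259.Pack050
import Claimed.Agent.R259.Pack029

/- ===== packed: Claimed.Agent.R259.S6RootPoinRho ===== -/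
section
/-
Row 259 (S0499), Lemma 6.1 of the paper (Poincare inequality for `R`), package BP-S6-root.  Architect: helper57.  Prefix `s6r_`.
LEAF L-S6R-PoinRho: the entries of `ρ` are test functions with derivative `D_iρ`.
-/
set_option autoImplicit false

open MeasureTheory
open scoped BigOperators Matrix
open Claimed.Agent.R260 (Mx mxFun mxSchur mxSq mxIP mxEig mxU mxRot mxDK)

namespace Claimed.Agent.R259

variable {n : ℕ}

/-! ### leaf L-S6R-PoinRho -/

/-- scalar functions (constant + test) with explicit directional derivatives -/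
def TCd (u : EE n → ℝ) (du : Fin n → EE n → ℝ) : Prop :=
  IsTestC u ∧ ∀ i y, fderiv ℝ u y (eb i) = du i y

theorem s6r_tcd_eqns_cite : True := by
  have := @TCd.eq_1
  trivial

theorem TCd.mul {u v : EE n → ℝ} {du dv : Fin n → EE n → ℝ} (hu : TCd u du) (hv : TCd v dv) :
    TCd (fun y => u y * v y) (fun i y => du i y * v y + u y * dv i y) := by
  refine ⟨s6r_testC_mul hu.1 hv.1, fun i y => ?_⟩
  rw [fderiv_fun_mul (hu.1.differentiable y) (hv.1.differentiable y), add_apply, smul_apply,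
    smul_apply, hu.2, hv.2, smul_eq_mul, smul_eq_mul]
  ring

theorem TCd.sum {ι : Type} (s : Finset ι) {u : ι → EE n → ℝ} {du : ι → Fin n → EE n → ℝ}
    (h : ∀ j ∈ s, TCd (u j) (du j)) :
    TCd (fun y => ∑ j ∈ s, u j y) (fun i y => ∑ j ∈ s, du j i y) := by
  refine ⟨s6r_testC_sum s fun j hj => (h j hj).1, fun i y => ?_⟩
  rw [fderiv_fun_sum fun j hj => (h j hj).1.differentiable y, sum_apply]
  exact Finset.sum_congr rfl fun j hj => (h j hj).2 i y

theorem TCd.const_mul (c : ℝ) {u : EE n → ℝ} {du : Fin n → EE n → ℝ} (hu : TCd u du) :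
    TCd (fun y => c * u y) (fun i y => c * du i y) := by
  refine ⟨hu.1.const_mul c, fun i y => ?_⟩
  rw [fderiv_const_mul (hu.1.differentiable y), smul_apply, hu.2, smul_eq_mul]

/-- the entries of a test tensor field -/
theorem s6r_tcd_entry {d : ℕ} {T : EE n → TT n d} (hT : IsTestV T) (α : Idx n d) :
    TCd (fun y => T y α) (fun i y => dI i T y α) := by
  have hc : ContDiff ℝ (⊤ : ℕ∞) fun y => T y α :=
    (EuclideanSpace.proj (𝕜 := ℝ) α).contDiff.comp hT.1
  refine ⟨IsTest.isTestC ⟨hc, ?_⟩, fun i y => ?_⟩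
  · exact hT.2.comp_left (g := fun t : TT n d => t α) rfl
  · have h1 : HasFDerivAt T (fderiv ℝ T y) y :=
      (hT.1.differentiable (by simp) y).hasFDerivAt
    have h2 := (EuclideanSpace.proj (𝕜 := ℝ) α).hasFDerivAt.comp y h1
    have h3 : fderiv ℝ (fun y => T y α) y
        = (EuclideanSpace.proj (𝕜 := ℝ) α).comp (fderiv ℝ T y) := h2.fderiv
    rw [h3]
    rfl

/-- the entries of `ρ` are test functions, `D_iρ` is their derivative. -/
theorem s6r_tc_rho (X : HierData n) (k : ℕ) : MxTC (X.rho k) (fun i y => X.Drho k i y) := by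
  intro a b
  have key := TCd.const_mul (X.nrm k) (TCd.sum (Finset.Ico k (2 * k))
    (u := fun l y => ∑ β : Idx n l, X.T l y (Fin.cons a β) * X.T l y (Fin.cons b β))
    (du := fun l i y => ∑ β : Idx n l, (dI i (X.T l) y (Fin.cons a β) * X.T l y (Fin.cons b β)
      + X.T l y (Fin.cons a β) * dI i (X.T l) y (Fin.cons b β)))
    fun l _ => TCd.sum Finset.univ fun β _ =>
      (s6r_tcd_entry (X.T_test l) (Fin.cons a β)).mul (s6r_tcd_entry (X.T_test l) (Fin.cons b β)))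
  have e1 : (fun y => X.rho k y a b) = fun y => X.nrm k * ∑ l ∈ Finset.Ico k (2 * k),
      ∑ β : Idx n l, X.T l y (Fin.cons a β) * X.T l y (Fin.cons b β) := by
    funext y
    simp only [HierData.rho, red, flat, Matrix.smul_apply, Matrix.sum_apply, Matrix.mul_apply,
      Matrix.transpose_apply, Matrix.of_apply, smul_eq_mul]
  have e2 : ∀ i y, X.Drho k i y a b = X.nrm k * ∑ l ∈ Finset.Ico k (2 * k),
      ∑ β : Idx n l, (dI i (X.T l) y (Fin.cons a β) * X.T l y (Fin.cons b β)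
      + X.T l y (Fin.cons a β) * dI i (X.T l) y (Fin.cons b β)) := by
    intro i y
    simp only [HierData.Drho, flat, Matrix.smul_apply, Matrix.sum_apply, Matrix.add_apply,
      Matrix.mul_apply, Matrix.transpose_apply, Matrix.of_apply, smul_eq_mul,
      Finset.sum_add_distrib]
  rw [e1]
  refine ⟨key.1, fun i y => ?_⟩
  rw [key.2]
  exact (e2 i y).symm

end Claimed.Agent.R259
end

/- ===== packed: Claimed.Agent.R259.S6RootPoinA ===== -/
section
/-
Row 259 (S0499), Lemma 6.1 of the paper (Poincare inequality for `R`), package BP-S6-root.  Owner: helper57.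
Aggregator of the four leaves of the Poincare step.
-/

end

/- ===== packed: Claimed.Agent.R259.S6RootPoin ===== -/
section
/-
Row 259 (S0499), Lemma 6.1 of the paper (Poincare inequality for `R`), package BP-S6-root.  Owner: helper57.  Prefix `s6r_`.

PART 6c (glue): `E|R|² - |E R|² ≤ λ⁻¹ ∑_i E|D_iR|²`, where `D_iR` is the algebraic Sylvester solution.
`R` is never differentiated: apply `s6r_PI_C1` to `f_ε(x) = √(x+ε²) - ε`, use the pointwise bound `|sylXe ε| ≤ |sylX|`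
and `|f_ε(ρ) - R|² ≤ n ε²`, let `ε → 0`.
-/
set_option autoImplicit false

open MeasureTheory
open scoped BigOperators Matrix
open Claimed.Agent.R260 (Mx mxFun mxSchur mxSq mxIP mxEig mxU mxRot mxDK)

namespace Claimed.Agent.R259

variable {n : ℕ} (X : HierData n) (k : ℕ)

/-- the spectra of `ρ(y)` lie in a fixed interval -/
theorem s6r_spec : ∃ B : ℝ, ∀ y i, mxEig (X.rho k y) i ∈ Set.Icc 0 B := by
  obtain ⟨C, hC⟩ := (s6r_RB_rho X k).hs2_le
  refine ⟨Real.sqrt C, fun y i => ⟨mk_eig_nonneg (s6r_rho_psd X k y) i, ?_⟩⟩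
  apply Real.le_sqrt_of_sq_le
  have h1 := Claimed.Agent.R260.mxEig_sq_le (s6r_rho_isSymm X k y) i
  rw [mxSq_eq_hs2] at h1
  exact h1.trans (hC y)

theorem s6r_hasDeriv_reg {ε : ℝ} (hε : 0 < ε) {a : ℝ} (ha : 0 ≤ a) :
    HasDerivAt (fun x => Real.sqrt (x + ε ^ 2) - ε) ((2 * Real.sqrt (a + ε ^ 2))⁻¹) a := by
  have h0 : a + ε ^ 2 ≠ 0 := by positivity
  have h1 : HasDerivAt (fun x => x + ε ^ 2) 1 a := (hasDerivAt_id a).add_const _
  have h2 := (h1.sqrt h0).sub_const ε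
  simpa [one_div] using h2

theorem s6r_cont_reg {ε : ℝ} (hε : 0 < ε) (B : ℝ) :
    ContinuousOn (fun x => (2 * Real.sqrt (x + ε ^ 2))⁻¹) (Set.Icc 0 B) := by
  apply ContinuousOn.inv₀
  · exact (continuous_const.mul (Real.continuous_sqrt.comp (continuous_id.add continuous_const))).continuousOn
  · intro x hx
    have : 0 < x + ε ^ 2 := by have := hx.1; positivity
    have := Real.sqrt_pos.2 this
    positivity

/-- the regularised inequality -/
theorem s6r_poin_reg {ε : ℝ} (hε : 0 < ε) :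
    ∫ y, hs2 (mxFun (fun x => Real.sqrt (x + ε ^ 2) - ε) (X.rho k y)) ∂(dm X.η)
        - hs2 (rMean (dm X.η) fun y => mxFun (fun x => Real.sqrt (x + ε ^ 2) - ε) (X.rho k y))
      ≤ X.lam⁻¹ * X.eD k := by
  have := s6r_prob X
  obtain ⟨B, hB⟩ := s6r_spec X k
  have hκ : 0 ≤ X.lam⁻¹ := (inv_pos.2 X.lam_pos).le
  have h1 := s6r_PI_C1 hκ X.pi (s6r_rho_isSymm X k) (s6r_tc_rho X k) hB
    (fun a ha => (s6r_hasDeriv_reg hε ha.1).hasDerivWithinAt) (s6r_cont_reg hε B)
  refine h1.trans (mul_le_mul_of_nonneg_left ?_ hκ)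
  unfold HierData.eD
  refine Finset.sum_le_sum fun i _ => ?_
  refine integral_mono_of_nonneg (Filter.Eventually.of_forall fun y => hs2_nonneg _)
    (s6r_integrable_DR X k i) (Filter.Eventually.of_forall fun y => ?_)
  show hs2 _ ≤ mxSq _
  rw [mxSq_eq_hs2, s6r_DR, ← s6r_gram, ← s6r_dgram, sylXe_eq_mxDK hε]
  exact hs2_sylXe_le_sylX _ _ _

theorem s6r_RB_reg (ε : ℝ) :
    RB fun y => mxFun (fun x => Real.sqrt (x + ε ^ 2) - ε) (X.rho k y) := by
  obtain ⟨B, hB⟩ := s6r_spec X k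
  have hc : Continuous fun x : ℝ => Real.sqrt (x + ε ^ 2) - ε :=
    (Real.continuous_sqrt.comp (continuous_id.add continuous_const)).sub continuous_const
  obtain ⟨C, hC⟩ := isCompact_Icc.exists_bound_of_continuousOn (hc.continuousOn (s := Set.Icc 0 B))
  exact RB.of_mxFun hc.measurable (s6r_RB_rho X k).rm (s6r_rho_isSymm X k)
    (C := C) fun y i => hC _ (hB y i)

/-- **Poincare inequality for the reduced square root** -/
theorem s6r_poincare :
    ∫ y, hs2 (X.R k y) ∂(dm X.η) - hs2 (rMean (dm X.η) (X.R k)) ≤ X.lam⁻¹ * X.eD k := by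
  have := s6r_prob X
  have hκe : 0 ≤ X.lam⁻¹ * X.eD k :=
    mul_nonneg (inv_pos.2 X.lam_pos).le (s6r_eD_nonneg X k)
  rw [← Real.sqrt_le_sqrt_iff hκe]
  apply le_of_forall_pos_le_add
  intro ε' hε'
  have hn : 0 < Real.sqrt n + 1 := by positivity
  obtain ⟨ε, hε, hεdef⟩ : ∃ ε : ℝ, 0 < ε ∧ ε = ε' / (Real.sqrt n + 1) := ⟨_, by positivity, rfl⟩
  have h1 := mk_sqrt_var_le (μ := dm X.η) (s6r_RB_R X k).toL2 (s6r_RB_reg X k ε).toL2
  have h2 := Real.sqrt_le_sqrt (s6r_poin_reg X k hε)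
  have h3 : ∫ y, hs2 (X.R k y - mxFun (fun x => Real.sqrt (x + ε ^ 2) - ε) (X.rho k y)) ∂(dm X.η)
      ≤ n * ε ^ 2 := by
    have h4 : ∀ y, hs2 (X.R k y - mxFun (fun x => Real.sqrt (x + ε ^ 2) - ε) (X.rho k y))
        ≤ n * ε ^ 2 := by
      intro y
      rw [hs2_sub_comm, s6r_R, ← s6r_gram]
      exact hs2_sqrt_reg_sub_le _ hε.le
    calc _ ≤ ∫ _y, (n * ε ^ 2 : ℝ) ∂(dm X.η) :=
          integral_mono ((s6r_RB_R X k).sub (s6r_RB_reg X k ε)).toL2.integrable_hs2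
            (integrable_const _) h4
      _ = n * ε ^ 2 := by simp
  have h5 : Real.sqrt (n * ε ^ 2) ≤ ε' := by
    rw [Real.sqrt_mul (Nat.cast_nonneg n), Real.sqrt_sq hε.le, hεdef, ← mul_div_assoc,
      div_le_iff₀ hn]
    nlinarith [Real.sqrt_nonneg (n : ℝ)]
  have h6 := Real.sqrt_le_sqrt h3
  linarith

end Claimed.Agent.R259
end

/- ===== packed: Claimed.Agent.R259.S6RootFin ===== -/
section
/-
Row 259 (S0499), Lemmas 6.1-6.3 of the paper, package BP-S6-root.  Owner: helper57.  Prefix `s6r_`.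

PART 7 (glue): `s6r_meas` and `s6r_sat` = the two exports of `S6Root.lean`.
-/
set_option autoImplicit false

open MeasureTheory
open scoped BigOperators Matrix
open Claimed.Agent.R260 (Mx mxFun mxSchur mxSq mxIP mxEig mxU mxRot)

namespace Claimed.Agent.R259

variable {n : ℕ}

theorem s6r_meas (X : HierData n) (k : ℕ) :
    (∀ a b, Measurable fun y => X.R k y a b) ∧
    (∀ i a b, Measurable fun y => X.DR k i y a b) ∧
    (∀ i a b, Measurable fun y => X.Hhat k y i a b) ∧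
    (∀ i, Integrable (fun y => mxSq (X.DR k i y)) (dm X.η)) ∧
    (∀ i, Integrable (fun y => mxSq (X.Hhat k y i * X.R k y)) (dm X.η)) :=
  ⟨s6r_RM_R X k, fun i => s6r_RM_DR X k i, fun i => s6r_RM_Hhat X k i,
    fun i => s6r_integrable_DR X k i, fun i => s6r_integrable_HR X k i⟩

/-- the real arithmetic of Lemma 6.3 -/
theorem s6r_arith_fin {ε s lam t mR e c a d act κ : ℝ} (hε : 0 < ε)
    (hs0 : 0 < s) (hs : s ≤ ε / 120) (hε1 : ε ≤ 1) (hκ0 : 0 ≤ κ) (hκ1 : κ ≤ 1 / 4)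
    (hκ : κ ≤ ε / 16) (hlam : 1 - s ^ 2 ≤ lam) (hlam0 : 0 < lam) (ht : 1 - s ^ 2 ≤ t)
    (hm : mR ≤ 3 * s) (hpoin : t - mR ≤ lam⁻¹ * e) (hid : a = e + c / 4) (hc : 0 ≤ c)
    (hsat : (1 - κ) * a ≤ d) (hd : d ≤ 1 + 5 * s) (hact : act = d + a - 2 * e) :
    |e - 1| ≤ ε ∧ c ≤ ε ∧ |a - 1| ≤ ε ∧ act ≤ ε := by
  have hs1 : s ≤ 1 / 120 := by linarith
  have hss : s ^ 2 ≤ s := by nlinarith
  -- lower bound for `e`
  have h1 : lam * (t - mR) ≤ e := by
    have := mul_le_mul_of_nonneg_left hpoin hlam0.le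
    rwa [mul_inv_cancel_left₀ hlam0.ne'] at this
  have h2 : 1 - s ^ 2 - 3 * s ≤ t - mR := by linarith
  have h3 : 0 ≤ 1 - s ^ 2 - 3 * s := by nlinarith
  have h4 : (1 - s ^ 2) * (1 - s ^ 2 - 3 * s) ≤ lam * (t - mR) :=
    mul_le_mul hlam h2 h3 hlam0.le
  have h5 : 1 - 5 * s ≤ e := by nlinarith
  -- upper bound for `a`
  have h6 : a ≤ 1 + 10 * s + 2 * κ := by
    by_contra hcon
    have hcon := not_le.mp hcon
    have h7 : (1 - κ) * (1 + 10 * s + 2 * κ) < (1 - κ) * a :=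
      mul_lt_mul_of_pos_left hcon (by linarith)
    nlinarith
  have h8 : e ≤ a := by linarith
  refine ⟨abs_le.2 ⟨by linarith, by linarith⟩, by linarith, abs_le.2 ⟨by linarith, by linarith⟩,
    by linarith⟩

/-- Lemmas 6.1-6.3 for one band -/
theorem s6r_sat_one (X : HierData n) (k : ℕ) {ε s : ℝ} (hε : 0 < ε) (hε1 : ε ≤ 1) (hs0 : 0 < s)
    (hs : s ≤ ε / 120) (hk8 : 8 ≤ k) (hk : 2 / (k : ℝ) ≤ ε / 16) (hX : X.Small (3 * k) (s ^ 2)) :
    |X.eD k - 1| ≤ ε ∧ X.cHat k ≤ ε ∧ |X.aHat k - 1| ≤ ε ∧ X.actHat k ≤ ε := by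
  have hk1 : 1 ≤ k := by omega
  have hδ : 0 < s ^ 2 := by positivity
  have hδ1 : s ^ 2 ≤ 1 := by nlinarith
  have hsq : Real.sqrt (s ^ 2) = s := Real.sqrt_sq hs0.le
  have hk' : (8 : ℝ) ≤ k := by exact_mod_cast hk8
  have hκ0 : 0 ≤ 2 / (k : ℝ) := by positivity
  have hκ1 : 2 / (k : ℝ) ≤ 1 / 4 := by
    rw [div_le_iff₀ (by linarith)]
    linarith
  have ht : 1 - s ^ 2 ≤ ∫ y, hs2 (X.R k y) ∂(dm X.η) := by
    simp only [s6r_hs2_R]
    have := (abs_le.1 (s6r_mass X k hk1 hX)).1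
    linarith
  have hm := s6r_center X k hk1 hδ hδ1 hX
  have hd := s6r_dD_le X k hk1 hδ hδ1 hX
  rw [hsq] at hm hd
  exact s6r_arith_fin hε hs0 hs hε1 hκ0 hκ1 hk hX.lam_lo X.lam_pos ht hm (s6r_poincare X k)
    (s6r_int_id X k) (s6r_cHat_nonneg X k) (s6r_int_sat X k hk1) hd (s6r_int_act X k hk1)

theorem s6r_sat : ∀ ε : ℝ, 0 < ε → ∃ k₀ : ℕ, ∀ k : ℕ, k₀ ≤ k → ∃ δ : ℝ, 0 < δ ∧
    ∀ (n : ℕ) (X : HierData n), X.Small (3 * k) δ →
      |X.eD k - 1| ≤ ε ∧ X.cHat k ≤ ε ∧ |X.aHat k - 1| ≤ ε ∧ X.actHat k ≤ ε := by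
  intro ε hε
  obtain ⟨ε₁, hε₁, hε₁1, hε₁ε⟩ : ∃ ε₁ : ℝ, 0 < ε₁ ∧ ε₁ ≤ 1 ∧ ε₁ ≤ ε :=
    ⟨min ε 1, lt_min hε one_pos, min_le_right _ _, min_le_left _ _⟩
  obtain ⟨N, hN⟩ := exists_nat_ge (32 / ε₁)
  refine ⟨max 8 N, fun k hk => ⟨(ε₁ / 120) ^ 2, by positivity, fun n X hX => ?_⟩⟩
  have hk8 : 8 ≤ k := (le_max_left _ _).trans hk
  have hkN : (N : ℝ) ≤ k := by exact_mod_cast (le_max_right _ _).trans hk
  have hk0 : (0 : ℝ) < k := by
    have : (8 : ℝ) ≤ k := by exact_mod_cast hk8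
    linarith
  have hκ : 2 / (k : ℝ) ≤ ε₁ / 16 := by
    have h1 : 32 / ε₁ ≤ k := hN.trans hkN
    rw [div_le_iff₀ hε₁] at h1
    rw [div_le_div_iff₀ hk0 (by norm_num)]
    linarith
  obtain ⟨h1, h2, h3, h4⟩ := s6r_sat_one X k hε₁ hε₁1 (by positivity) le_rfl hk8 hκ hX
  exact ⟨h1.trans hε₁ε, h2.trans hε₁ε, h3.trans hε₁ε, h4.trans hε₁ε⟩

end Claimed.Agent.R259
end

/- ===== packed: Claimed.Agent.R259.S6Root ===== -/
section
/-
Row 259 (S0499), Lemmas 6.1-6.3 of the paper (sharp energy of the reduced square root).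
EXPORT FILE of package BP-S6-root.  The package owner owns this file: keep names and statements, replace the sorries by citations of
helper files with the same prefix (which never import this file).

Order of choices everywhere: `ε` -> `k₀` (band length, errors `O(1/k)`) -> auxiliary parameters
-> `δ` (defect of the hierarchy).  No sequences, no diagonal arguments.
-/
set_option autoImplicit false

open MeasureTheory ProbabilityTheory
open scoped ContDiff BigOperators Matrix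
open Claimed.Agent.R260 (Mx mxFun mxSchur mxSq mxIP mxEig mxU mxRot)

namespace Claimed.Agent.R259

variable {n : ℕ}

/-- BP-S6-MEAS.  Measurability and integrability of the algebraic objects. -/
theorem s6_meas (X : HierData n) (k : ℕ) :
    (∀ a b, Measurable fun y => X.R k y a b) ∧
    (∀ i a b, Measurable fun y => X.DR k i y a b) ∧
    (∀ i a b, Measurable fun y => X.Hhat k y i a b) ∧
    (∀ i, Integrable (fun y => mxSq (X.DR k i y)) (dm X.η)) ∧
    (∀ i, Integrable (fun y => mxSq (X.Hhat k y i * X.R k y)) (dm X.η)) :=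
  s6r_meas X k

/-- BP-S6-SAT (Lemmas 6.1-6.3).  Saturation of the square-root energy:
`e → 1`, `c → 0`, `a → 1`, derivative action error `→ 0`. -/
theorem s6_sat : ∀ ε : ℝ, 0 < ε → ∃ k₀ : ℕ, ∀ k : ℕ, k₀ ≤ k → ∃ δ : ℝ, 0 < δ ∧
    ∀ (n : ℕ) (X : HierData n), X.Small (3 * k) δ →
      |X.eD k - 1| ≤ ε ∧ X.cHat k ≤ ε ∧ |X.aHat k - 1| ≤ ε ∧ X.actHat k ≤ ε :=
  s6r_sat

end Claimed.Agent.R259
end

/- ===== packed: Claimed.Agent.R259.S6Col ===== -/
section
/-
Row 259 (S0499), Lemmas 6.4-6.5 of the paper (bounded columns).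
EXPORT FILE of package BP-S6-col.  The package owner owns this file: keep names and statements, replace the sorries by citations of
helper files with the same prefix (which never import this file).

Order of choices everywhere: `ε` -> `k₀` (band length, errors `O(1/k)`) -> auxiliary parameters
-> `δ` (defect of the hierarchy).  No sequences, no diagonal arguments.
-/
set_option autoImplicit false

open MeasureTheory ProbabilityTheory
open scoped ContDiff BigOperators Matrix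
open Claimed.Agent.R260 (Mx mxFun mxSchur mxSq mxIP mxEig mxU mxRot)

namespace Claimed.Agent.R259

variable {n : ℕ}

/-- BP-S6-TRUNC (first half of Lemma 6.4).  The Sylvester column can be compressed to a column with
`S ≤ 4` at vanishing weighted cost. -/
theorem s6_trunc : ∀ ε : ℝ, 0 < ε → ∃ k₀ : ℕ, ∀ k : ℕ, k₀ ≤ k → ∃ δ : ℝ, 0 < δ ∧
    ∀ (n : ℕ) (X : HierData n), X.Small (3 * k) δ →
      ∃ H : EE n × ℝ → Fin n → Mx n, HierData.ColOK H ∧ (∀ p q, p.1 = q.1 → H p = H q) ∧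
        ∀ h : ℝ, 0 < h → X.clD k h H ≤ ε :=
  s6c_trunc s6_sat (fun _ X k => s6_meas X k)

/-- BP-S6-COL (perturbation accounting of Lemma 6.4, its last step, and Lemma 6.5).
EVERY admissible column that is weighted-close to the Sylvester column has small defects.
The closeness threshold `κ` is chosen BEFORE the band length `k` (needed by the glue `s6_model`). -/
theorem s6_col : ∀ ε : ℝ, 0 < ε → ∃ κ : ℝ, 0 < κ ∧ ∃ k₀ : ℕ, ∀ k : ℕ, k₀ ≤ k → ∃ δ : ℝ, 0 < δ ∧
    ∀ (n : ℕ) (X : HierData n), X.Small (3 * k) δ →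
      ∀ (h : ℝ) (H : EE n × ℝ → Fin n → Mx n), 0 < h → HierData.ColOK H → X.clD k h H ≤ κ →
        X.actD k h H ≤ ε ∧ X.comD k h H ≤ ε ∧ X.sD k h H ≤ ε ∧ X.ccD k h H ≤ ε ∧
          X.exD k h H ≤ ε :=
  s6c_col s6_sat (fun _ X k => s6_meas X k)

end Claimed.Agent.R259
end

/- ===== packed: Claimed.Agent.R259.S6BlkPt ===== -/
section
/-
Row 259 (S0499), Lemma 6.6 of the paper (random logarithmic blocks), package BP-S6-blocks.
Owner: helper144.

POINTWISE ALGEBRA of the three modifications `colA`, `colO`, `colC`: they produce block columns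
(`BlkCol`), and the costs of `colO` and `colC` are bounded by index exchange defects.
-/
set_option autoImplicit false

open scoped BigOperators Matrix
open Claimed.Agent.R260 (Mx mxFun mxSchur mxSq mxIP mxEig mxU mxRot)

namespace Claimed.Agent.R259

variable {n : ℕ}

/-! ### auxiliary vector lemmas -/

theorem s6q_mulVec_dot (P : Mx n) (x z : Fin n → ℝ) : (P *ᵥ x) ⬝ᵥ z = x ⬝ᵥ (Pᵀ *ᵥ z) := by
  rw [dotProduct_comm, Matrix.dotProduct_mulVec, ← Matrix.mulVec_transpose, dotProduct_comm]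

/-- Pythagoras for vectors -/
theorem s6q_pyth_vec (Rs : Mx n) (w : ℝ → Fin n → ℝ) :
    (∑ β ∈ spSet Rs, spP Rs β *ᵥ w β) ⬝ᵥ (∑ β ∈ spSet Rs, spP Rs β *ᵥ w β)
      = ∑ β ∈ spSet Rs, (spP Rs β *ᵥ w β) ⬝ᵥ (spP Rs β *ᵥ w β) := by
  rw [sum_dotProduct]
  refine Finset.sum_congr rfl fun β hβ => ?_
  rw [dotProduct_sum, Finset.sum_eq_single β]
  · intro β' _ hne
    rw [s6q_mulVec_dot, (s6q_spP_isSymm Rs β).eq, Matrix.mulVec_mulVec,
      s6q_spP_mul_ne Rs (Ne.symm hne), Matrix.zero_mulVec, dotProduct_zero]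
  · exact fun h => absurd hβ h

/-- the common estimate of steps A and B -/
theorem s6q_key_vec (Rs : Mx n) {H : Fin n → Mx n} (hH : ColB H 4) (v : Fin n → ℝ) :
    ∑ β ∈ spSet Rs, ∑ j, (spP Rs β *ᵥ (H j *ᵥ (spP Rs β *ᵥ v))) ⬝ᵥ
        (spP Rs β *ᵥ (H j *ᵥ (spP Rs β *ᵥ v))) ≤ 4 * (v ⬝ᵥ v) := by
  calc ∑ β ∈ spSet Rs, ∑ j, (spP Rs β *ᵥ (H j *ᵥ (spP Rs β *ᵥ v))) ⬝ᵥ
        (spP Rs β *ᵥ (H j *ᵥ (spP Rs β *ᵥ v)))
      ≤ ∑ β ∈ spSet Rs, ∑ j, (H j *ᵥ (spP Rs β *ᵥ v)) ⬝ᵥ (H j *ᵥ (spP Rs β *ᵥ v)) := by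
        refine Finset.sum_le_sum fun β _ => Finset.sum_le_sum fun j _ => ?_
        have h := s6q_spP_opB Rs β (H j *ᵥ (spP Rs β *ᵥ v))
        rwa [one_pow, one_mul] at h
    _ = ∑ β ∈ spSet Rs, (spP Rs β *ᵥ v) ⬝ᵥ (colS H *ᵥ (spP Rs β *ᵥ v)) :=
        Finset.sum_congr rfl fun β _ => (s6k_colS_quad H hH.symm _).symm
    _ ≤ ∑ β ∈ spSet Rs, 4 * ((spP Rs β *ᵥ v) ⬝ᵥ (spP Rs β *ᵥ v)) :=
        Finset.sum_le_sum fun β _ => hH.le _
    _ = 4 * ∑ β ∈ spSet Rs, (spP Rs β *ᵥ v) ⬝ᵥ (spP Rs β *ᵥ v) := by rw [Finset.mul_sum]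
    _ ≤ 4 * (v ⬝ᵥ v) := mul_le_mul_of_nonneg_left (s6q_bessel_vec Rs v) (by norm_num)

/-! ### step A: rows and columns -/

theorem s6q_colA_symm (Rs : Mx n) {H : Fin n → Mx n} (hs : ∀ i, (H i).IsSymm) (i : Fin n) :
    (colA Rs H i).IsSymm :=
  s6q_pinch_isSymm Rs (hs i)

/-- Kadison-Schwarz for the pinching: `|pinch(Z) v|² = ∑_β |P_β Z P_β v|² ≤ ∑_β |Z P_β v|²`, hence
`∑_i |A_i v|² ≤ ∑_β ⟨P_β v, S P_β v⟩ ≤ 4 ∑_β |P_β v|² ≤ 4 |v|²`. -/
theorem s6q_colA_ColB (Rs : Mx n) {H : Fin n → Mx n} (hH : ColB H 4) : ColB (colA Rs H) 4 := by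
  refine ⟨s6q_colA_symm Rs hH.symm, fun v => ?_⟩
  rw [s6k_colS_quad _ (s6q_colA_symm Rs hH.symm)]
  have h1 : ∀ i, colA Rs H i *ᵥ v
      = ∑ β ∈ spSet Rs, spP Rs β *ᵥ (H i *ᵥ (spP Rs β *ᵥ v)) := by
    intro i
    unfold colA
    rw [s6q_pinch_eq, Matrix.sum_mulVec]
    exact Finset.sum_congr rfl fun β _ => by
      rw [Matrix.mulVec_mulVec, Matrix.mulVec_mulVec, Matrix.mul_assoc]
  simp only [h1, s6q_pyth_vec Rs (fun β => H _ *ᵥ (spP Rs β *ᵥ v))]
  rw [Finset.sum_comm]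
  exact s6q_key_vec Rs hH v

/-! ### step B: the outer index -/

theorem s6q_colO_colA_eq (Rs : Mx n) (H : Fin n → Mx n) (i : Fin n) :
    colO Rs (colA Rs H) i
      = ∑ β ∈ spSet Rs, ∑ j, spP Rs β i j • (spP Rs β * H j * spP Rs β) := by
  rw [s6q_colO_eq]
  refine Finset.sum_congr rfl fun β hβ => Finset.sum_congr rfl fun j _ => ?_
  unfold colA
  rw [(s6q_spP_pinch Rs (H j) hβ).1]

theorem s6q_colAt_colO (Rs : Mx n) (H : Fin n → Mx n) (v : EE n) :
    colAt (colO Rs (colA Rs H)) v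
      = ∑ β ∈ spSet Rs, ∑ j, (spP Rs β *ᵥ (fun i => v i)) j •
          (spP Rs β * H j * spP Rs β) := by
  unfold colAt
  simp only [s6q_colO_colA_eq, Finset.smul_sum, smul_smul]
  rw [Finset.sum_comm]
  refine Finset.sum_congr rfl fun β _ => ?_
  rw [Finset.sum_comm]
  refine Finset.sum_congr rfl fun j _ => ?_
  rw [← Finset.sum_smul]
  congr 1
  simp only [Matrix.mulVec, dotProduct]
  refine Finset.sum_congr rfl fun i _ => ?_
  rw [(s6q_spP_isSymm Rs β).apply i j, mul_comm]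

theorem s6q_colO_mulVec (Rs : Mx n) (H : Fin n → Mx n) (i : Fin n) (v : Fin n → ℝ) :
    colO Rs (colA Rs H) i *ᵥ v
      = ∑ β ∈ spSet Rs, spP Rs β *ᵥ (∑ j, spP Rs β i j • (H j *ᵥ (spP Rs β *ᵥ v))) := by
  rw [s6q_colO_colA_eq, Matrix.sum_mulVec]
  refine Finset.sum_congr rfl fun β _ => ?_
  rw [Matrix.sum_mulVec, Matrix.mulVec_sum]
  refine Finset.sum_congr rfl fun j _ => ?_
  rw [Matrix.smul_mulVec, Matrix.mulVec_smul, Matrix.mulVec_mulVec, Matrix.mulVec_mulVec,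
    Matrix.mul_assoc]

theorem s6q_colO_symm (Rs : Mx n) {H : Fin n → Mx n} (hs : ∀ i, (H i).IsSymm) (i : Fin n) :
    (colO Rs (colA Rs H) i).IsSymm := by
  rw [s6q_colO_colA_eq]
  unfold Matrix.IsSymm
  rw [Matrix.transpose_sum]
  refine Finset.sum_congr rfl fun β _ => ?_
  rw [Matrix.transpose_sum]
  refine Finset.sum_congr rfl fun j _ => ?_
  rw [Matrix.transpose_smul, Matrix.transpose_mul, Matrix.transpose_mul,
    (s6q_spP_isSymm Rs β).eq, (hs j).eq, Matrix.mul_assoc]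

theorem s6q_colO_ColB (Rs : Mx n) {H : Fin n → Mx n} (hH : ColB H 4) :
    ColB (colO Rs (colA Rs H)) 4 := by
  refine ⟨s6q_colO_symm Rs hH.symm, fun v => ?_⟩
  rw [s6k_colS_quad _ (s6q_colO_symm Rs hH.symm)]
  simp only [s6q_colO_mulVec,
    s6q_pyth_vec Rs (fun β => ∑ j, spP Rs β _ j • (H j *ᵥ (spP Rs β *ᵥ v)))]
  rw [Finset.sum_comm]
  refine le_trans (Finset.sum_le_sum fun β _ => ?_) (s6q_key_vec Rs hH v)
  have h := s6q_oAct_vec (s6q_spP_opB Rs β) (fun j => spP Rs β *ᵥ (H j *ᵥ (spP Rs β *ᵥ v)))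
  rw [one_pow, one_mul] at h
  refine le_trans (le_of_eq ?_) h
  refine Finset.sum_congr rfl fun i _ => ?_
  have e : spP Rs β *ᵥ (∑ j, spP Rs β i j • (H j *ᵥ (spP Rs β *ᵥ v)))
      = ∑ j, spP Rs β i j • (spP Rs β *ᵥ (H j *ᵥ (spP Rs β *ᵥ v))) := by
    rw [Matrix.mulVec_sum]
    exact Finset.sum_congr rfl fun j _ => Matrix.mulVec_smul _ _ _
  rw [e]

/-- `B = colO Rs (colA Rs H)` is a block column.
`B_i = ∑_β ∑_j (P_β)_ij P_β H_j P_β`, `B[v] = ∑_β P_β H[P_β v] P_β`. -/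
theorem s6q_colO_blk {Rs : Mx n} (hs : Rs.IsSymm) {H : Fin n → Mx n} (hH : ColB H 4) :
    BlkCol Rs (colO Rs (colA Rs H)) := by
  refine ⟨s6q_colO_symm Rs hH.symm, fun i => ?_, fun v => ?_, fun v hv => ?_,
    s6q_colO_ColB Rs hH⟩
  · rw [s6q_colO_colA_eq, Matrix.sum_mul, Matrix.mul_sum]
    refine Finset.sum_congr rfl fun β _ => ?_
    rw [Matrix.sum_mul, Matrix.mul_sum]
    refine Finset.sum_congr rfl fun j _ => ?_
    rw [Matrix.smul_mul, Matrix.mul_smul, Matrix.mul_assoc, s6q_spP_mul hs, ← Matrix.mul_assoc,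
      ← Matrix.mul_assoc, s6q_mul_spP hs, Matrix.mul_smul, Matrix.smul_mul, Matrix.smul_mul]
  · rw [s6q_colAt_colO, s6q_colAt_colO, Matrix.mul_sum]
    refine Finset.sum_congr rfl fun β _ => ?_
    rw [Matrix.mul_sum]
    refine Finset.sum_congr rfl fun j _ => ?_
    have e1 : (fun i => (mv Rs v) i) = Rs *ᵥ (fun i => v i) := rfl
    rw [e1, Matrix.mulVec_mulVec, s6q_spP_mul hs, Matrix.smul_mulVec, Matrix.mul_smul,
      ← Matrix.mul_assoc, ← Matrix.mul_assoc, s6q_mul_spP hs, Matrix.smul_mul, Matrix.smul_mul,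
      Pi.smul_apply, smul_eq_mul, smul_smul, mul_comm]
  · have hv' : Rs *ᵥ (fun i => v i) = 0 := by
      funext i
      exact congrArg (fun w : EE n => w i) hv
    constructor
    · rw [s6q_colAt_colO]
      refine Finset.sum_eq_zero fun β hβ => Finset.sum_eq_zero fun j _ => ?_
      rw [s6q_spP_ker hs hv' hβ, Pi.zero_apply, zero_smul]
    · intro i
      unfold mv
      rw [s6q_colO_mulVec]
      have : ∑ β ∈ spSet Rs, spP Rs β *ᵥ
          (∑ j, spP Rs β i j • (H j *ᵥ (spP Rs β *ᵥ (fun i => v i)))) = 0 := by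
        refine Finset.sum_eq_zero fun β hβ => ?_
        rw [s6q_spP_ker hs hv' hβ]
        simp
      rw [this]
      rfl

/-- `∑_j 1_ij M_j = M_i` -/
theorem s6q_one_oAct (M : Fin n → Mx n) (i : Fin n) : ∑ j, (1 : Mx n) i j • M j = M i := by
  simp only [Matrix.one_apply, ite_smul, one_smul, zero_smul]
  rw [Finset.sum_ite_eq]
  simp

/-- `(A_i - B_i) = ∑_β ∑_j (1 - P_β)_ij P_β A_j` -/
theorem s6q_colA_sub_colO (Rs : Mx n) (H : Fin n → Mx n) (i : Fin n) :
    colA Rs H i - colO Rs (colA Rs H) i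
      = ∑ β ∈ spSet Rs, ∑ j, (1 - spP Rs β) i j • (spP Rs β * H j * spP Rs β) := by
  rw [s6q_colO_colA_eq]
  unfold colA
  rw [s6q_pinch_eq, ← Finset.sum_sub_distrib]
  refine Finset.sum_congr rfl fun β _ => ?_
  simp only [Matrix.sub_apply, sub_smul]
  rw [Finset.sum_sub_distrib, s6q_one_oAct (fun j => spP Rs β * H j * spP Rs β)]

/-- the exchanged tensor is killed -/
theorem s6q_costB_kill {R : Mx n} (hR : R.IsSymm) (g : ℝ → ℝ) (H : Fin n → Mx n) {β : ℝ}
    (hβ : β ∈ spSet (mxFun g R)) (i : Fin n) :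
    ∑ j, (1 - spP (mxFun g R) β) i j •
      (exch (fun c => colA (mxFun g R) H c * R) j * spP (mxFun g R) β) = 0 := by
  have hz : ∀ c, (1 - spP (mxFun g R) β) * (colA (mxFun g R) H c * R * spP (mxFun g R) β) = 0 := by
    intro c
    unfold colA
    have e : pinch (mxFun g R) (H c) * R * spP (mxFun g R) β
        = spP (mxFun g R) β * (H c * spP (mxFun g R) β * R) := by
      rw [Matrix.mul_assoc, ← s6q_spP_comm hR g β, ← Matrix.mul_assoc,
        (s6q_spP_pinch (mxFun g R) (H c) hβ).2]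
      simp only [Matrix.mul_assoc]
    rw [e, ← Matrix.mul_assoc, Matrix.sub_mul, Matrix.one_mul, s6q_spP_mul_self, sub_self,
      Matrix.zero_mul]
  ext c b
  have h := congrFun (congrFun (hz c) i) b
  rw [Matrix.mul_apply] at h
  rw [Matrix.sum_apply, Matrix.zero_apply]
  rw [Matrix.zero_apply] at h
  rw [← h]
  refine Finset.sum_congr rfl fun j _ => ?_
  rw [Matrix.smul_apply, smul_eq_mul, Matrix.mul_apply, Matrix.mul_apply]
  rfl

/-- COST OF STEP B `≤` exchange defect of `A = colA Rs H`, `Rs = g(R)`.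
Proof: `T_i = A_i R`, `T' = exch T`; `(A_i - B_i) R = ∑_β Q_β(T)_i` with
`Q_β(W)_i = ∑_j (1 - P_β)_ij P_β W_j P_β`; `Q_β(T') = 0` because `(1 - P_β) A_a P_β = 0`;
`|∑_β Q_β(W)|² = ∑_β |Q_β W|² ≤ ∑_β |P_β W|² ≤ |W|²` (`s6q_pyth`, `s6q_oAct_c3Sq`, `s6q_bessel`). -/
theorem s6q_costB {R : Mx n} (hR : R.IsSymm) (g : ℝ → ℝ) {H : Fin n → Mx n}
    (hs : ∀ i, (H i).IsSymm) :
    ∑ i, mxSq ((colO (mxFun g R) (colA (mxFun g R) H) i - colA (mxFun g R) H i) * R)
      ≤ exP (colA (mxFun g R) H) R := by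
  rw [s6q_exP_eq]
  obtain ⟨W, hW⟩ : ∃ W : Fin n → Mx n, W = fun i => colA (mxFun g R) H i * R
      - exch (fun j => colA (mxFun g R) H j * R) i := ⟨_, rfl⟩
  rw [← hW]
  obtain ⟨Rs, hRs⟩ : ∃ Rs : Mx n, Rs = mxFun g R := ⟨_, rfl⟩
  -- the representation through `W`
  have rep : ∀ i, (colA (mxFun g R) H i - colO (mxFun g R) (colA (mxFun g R) H) i) * R
      = ∑ β ∈ spSet (mxFun g R), spP (mxFun g R) β *
          (∑ j, (1 - spP (mxFun g R) β) i j • (W j * spP (mxFun g R) β)) := by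
    intro i
    rw [s6q_colA_sub_colO, Matrix.sum_mul]
    refine Finset.sum_congr rfl fun β hβ => ?_
    have e1 : ∑ j, (1 - spP (mxFun g R) β) i j • (W j * spP (mxFun g R) β)
        = ∑ j, (1 - spP (mxFun g R) β) i j •
            (colA (mxFun g R) H j * R * spP (mxFun g R) β) := by
      have h0 := s6q_costB_kill hR g H hβ i
      rw [hW]
      simp only [Matrix.sub_mul, smul_sub]
      rw [Finset.sum_sub_distrib, h0, sub_zero]
    rw [e1, Matrix.sum_mul, Matrix.mul_sum]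
    refine Finset.sum_congr rfl fun j _ => ?_
    rw [Matrix.smul_mul, Matrix.mul_smul]
    congr 1
    unfold colA
    rw [← Matrix.mul_assoc, ← Matrix.mul_assoc, (s6q_spP_pinch (mxFun g R) (H j) hβ).1,
      Matrix.mul_assoc _ R, ← s6q_spP_comm hR g β, ← Matrix.mul_assoc,
      Matrix.mul_assoc _ (spP (mxFun g R) β) (spP (mxFun g R) β), s6q_spP_mul_self]
  have neg : ∀ i, mxSq ((colO (mxFun g R) (colA (mxFun g R) H) i - colA (mxFun g R) H i) * R)
      = mxSq ((colA (mxFun g R) H i - colO (mxFun g R) (colA (mxFun g R) H) i) * R) := by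
    intro i
    rw [← s6k_mxSq_neg, ← Matrix.neg_mul, neg_sub]
  simp only [neg, rep]
  rw [← hRs]
  simp only [s6q_pyth Rs (fun β => ∑ j, (1 - spP Rs β) _ j • (W j * spP Rs β))]
  rw [Finset.sum_comm]
  calc ∑ β ∈ spSet Rs, ∑ i, mxSq (spP Rs β * ∑ j, (1 - spP Rs β) i j • (W j * spP Rs β))
      = ∑ β ∈ spSet Rs, c3Sq (oAct (1 - spP Rs β) (fun j => spP Rs β * W j * spP Rs β)) := by
        refine Finset.sum_congr rfl fun β _ => ?_
        unfold c3Sq oAct
        refine Finset.sum_congr rfl fun i _ => ?_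
        rw [Matrix.mul_sum]
        congr 1
        refine Finset.sum_congr rfl fun j _ => ?_
        rw [Matrix.mul_smul, ← Matrix.mul_assoc]
    _ ≤ ∑ β ∈ spSet Rs, c3Sq (fun j => spP Rs β * W j * spP Rs β) := by
        refine Finset.sum_le_sum fun β _ => ?_
        have h := s6q_oAct_c3Sq (s6q_one_sub_spP_opB Rs β) (fun j => spP Rs β * W j * spP Rs β)
        rwa [one_pow, one_mul] at h
    _ ≤ ∑ β ∈ spSet Rs, ∑ j, mxSq (spP Rs β * W j) := by
        refine Finset.sum_le_sum fun β _ => ?_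
        unfold c3Sq
        refine Finset.sum_le_sum fun j _ => ?_
        have h := s6k_opB_mxSq_right (s6q_spP_opB Rs β) (s6q_spP_isSymm Rs β) (spP Rs β * W j)
        rwa [one_pow, one_mul] at h
    _ = ∑ j, ∑ β ∈ spSet Rs, mxSq (spP Rs β * W j) := Finset.sum_comm
    _ ≤ c3Sq W := Finset.sum_le_sum fun j _ => s6q_bessel Rs (W j)

end Claimed.Agent.R259
end

/- ===== packed: Claimed.Agent.R259.S6BlkCost ===== -/
section
/-
Row 259 (S0499), Lemma 6.6 of the paper (random logarithmic blocks), package BP-S6-blocks.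
Owner: helper144.

COST OF STEP A, averaged over the random offset `θ ~ unif[0,h)` at a FIXED point `y`
((6.block-error) of the paper with the constant `2 δ/h` instead of `δ/h`).
-/
set_option autoImplicit false

open MeasureTheory
open scoped BigOperators Matrix
open Claimed.Agent.R260 (Mx mxFun mxSchur mxSq mxIP mxEig mxU mxRot)

namespace Claimed.Agent.R259

variable {n : ℕ}

/-! ### formulas in the eigenbasis of `R` -/

theorem s6q_rot_mulR (R Z : Mx n) (hR : R.IsSymm) (a b : Fin n) :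
    mxRot R (Z * R) a b = mxRot R Z a b * mxEig R b := by
  have h := Claimed.Agent.R260.mxRot_mul_mxFun_apply (fun x => x) R Z a b
  rwa [Claimed.Agent.R260.mxFun_id hR] at h

theorem s6q_rot_Rmul (R Z : Mx n) (hR : R.IsSymm) (a b : Fin n) :
    mxRot R (R * Z) a b = mxEig R a * mxRot R Z a b := by
  have h := Claimed.Agent.R260.mxRot_mxFun_mul_apply (fun x => x) R Z a b
  rwa [Claimed.Agent.R260.mxFun_id hR] at h

theorem s6q_rot_mul (R Z : Mx n) (hR : R.IsSymm) :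
    mxSq (Z * R) = ∑ a, ∑ b, (mxRot R Z a b) ^ 2 * (mxEig R b) ^ 2 := by
  rw [Claimed.Agent.R260.mxSq_rot R]
  refine Finset.sum_congr rfl fun a _ => Finset.sum_congr rfl fun b _ => ?_
  rw [s6q_rot_mulR R Z hR, mul_pow]

theorem s6q_rot_cmm (R Z : Mx n) (hR : R.IsSymm) :
    mxSq (cmm Z R) = ∑ a, ∑ b, (mxRot R Z a b) ^ 2 * (mxEig R a - mxEig R b) ^ 2 := by
  rw [Claimed.Agent.R260.mxSq_rot R]
  refine Finset.sum_congr rfl fun a _ => Finset.sum_congr rfl fun b _ => ?_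
  unfold cmm
  rw [Claimed.Agent.R260.mxRot_sub, Matrix.sub_apply, s6q_rot_mulR R Z hR, s6q_rot_Rmul R Z hR]
  ring

theorem s6q_w0_bounds (a b : ℝ) : 0 ≤ pw0 a b ∧ pw0 a b ≤ 1 := by
  unfold pw0
  split_ifs <;> simp

theorem s6q_w0_sq (a b : ℝ) : (pw0 a b - 1) ^ 2 = 1 - pw0 a b := by
  unfold pw0
  split_ifs <;> simp

/-- uses `R260.mxSchur_mxFun` -/
theorem s6q_rot_pinch (R Z : Mx n) (hR : R.IsSymm) (g : ℝ → ℝ) :
    mxSq ((pinch (mxFun g R) Z - Z) * R)
      = ∑ a, ∑ b, (1 - pw0 (g (mxEig R a)) (g (mxEig R b))) *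
          ((mxRot R Z a b) ^ 2 * (mxEig R b) ^ 2) := by
  rw [Claimed.Agent.R260.mxSq_rot R]
  refine Finset.sum_congr rfl fun a _ => Finset.sum_congr rfl fun b _ => ?_
  unfold pinch
  rw [s6q_rot_mulR _ _ hR, Claimed.Agent.R260.mxRot_sub, Matrix.sub_apply,
    Claimed.Agent.R260.mxSchur_mxFun, Claimed.Agent.R260.mxRot_mxSchur_apply, ← s6q_w0_sq]
  ring

/-! ### the scalar lemma -/

theorem s6q_floor_measurable (h x : ℝ) : Measurable fun θ : ℝ => ⌊(x - θ) / h⌋ :=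
  Int.measurable_floor.comp ((measurable_const.sub measurable_id).div_const h)

theorem s6q_rnd_measurable (h x : ℝ) : Measurable fun θ => HierData.rnd h θ x := by
  unfold HierData.rnd
  by_cases hx : x ≤ 0
  · simp only [hx, if_true]
    exact measurable_const
  · simp only [hx, if_false]
    refine Real.measurable_exp.comp (measurable_id.add (measurable_const.mul ?_))
    exact (Measurable.of_discrete (f := fun z : ℤ => (z : ℝ))).comp
      (s6q_floor_measurable h (Real.log x))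

theorem s6q_w0_measurable (h x x' : ℝ) :
    Measurable fun θ => pw0 (HierData.rnd h θ x) (HierData.rnd h θ x') := by
  unfold pw0
  refine Measurable.ite ?_ measurable_const measurable_const
  exact (measurableSet_eq_fun (s6q_rnd_measurable h x) (s6q_rnd_measurable h x')).inter
    ((s6q_rnd_measurable h x) (measurableSet_singleton (0 : ℝ)).compl)

/-- location of the offsets which separate `x ≤ x'` -/
theorem s6q_sep_loc {h x x' θ : ℝ} (hh : 0 < h) (hx : x ≤ x') (hθ : θ ∈ Set.Ico 0 h)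
    (hne : ⌊(x - θ) / h⌋ ≠ ⌊(x' - θ) / h⌋) :
    θ ∈ Set.Ioc (x - ⌊x / h⌋ * h) (x' - ⌊x / h⌋ * h) ∪
      Set.Ioc (x - (⌊x / h⌋ + 1) * h) (x' - (⌊x / h⌋ + 1) * h) := by
  obtain ⟨m, hm⟩ : ∃ m : ℤ, m = ⌊(x - θ) / h⌋ + 1 := ⟨_, rfl⟩
  have hmono : ⌊(x - θ) / h⌋ ≤ ⌊(x' - θ) / h⌋ :=
    Int.floor_le_floor (div_le_div_of_nonneg_right (by linarith) hh.le)
  have hlt : ⌊(x - θ) / h⌋ < ⌊(x' - θ) / h⌋ := lt_of_le_of_ne hmono hne
  have h1 : (x - θ) / h < m := by
    rw [hm]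
    push_cast
    exact Int.lt_floor_add_one _
  have h2 : (m : ℝ) ≤ (x' - θ) / h := by
    have : m ≤ ⌊(x' - θ) / h⌋ := by omega
    exact Int.le_floor.mp this
  have h3 : (m : ℝ) - 1 ≤ (x - θ) / h := by
    have : ((⌊(x - θ) / h⌋ : ℤ) : ℝ) ≤ (x - θ) / h := Int.floor_le _
    rw [hm]
    push_cast
    linarith
  rw [div_lt_iff₀ hh] at h1
  rw [le_div_iff₀ hh] at h2 h3
  -- `m ∈ {⌊x/h⌋, ⌊x/h⌋ + 1}`
  have h4 : m ≤ ⌊x / h⌋ + 1 := by
    have : m - 1 ≤ ⌊x / h⌋ := by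
      apply Int.le_floor.mpr
      rw [le_div_iff₀ hh]
      push_cast
      linarith [hθ.1]
    omega
  have h5 : ⌊x / h⌋ ≤ m := by
    have h6 : ((⌊x / h⌋ : ℤ) : ℝ) ≤ x / h := Int.floor_le _
    rw [le_div_iff₀ hh] at h6
    have h7 : ((⌊x / h⌋ : ℤ) : ℝ) * h < (m + 1) * h := by nlinarith [hθ.2]
    have h8 : ((⌊x / h⌋ : ℤ) : ℝ) < (m : ℝ) + 1 := lt_of_mul_lt_mul_right h7 hh.le
    have h9 : ⌊x / h⌋ < m + 1 := by exact_mod_cast h8
    omega
  rcases (by omega : m = ⌊x / h⌋ ∨ m = ⌊x / h⌋ + 1) with h6 | h6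
  · left
    rw [← h6]
    exact ⟨by linarith, by linarith⟩
  · right
    have h7 : ((⌊x / h⌋ : ℤ) : ℝ) + 1 = m := by rw [h6]; push_cast; ring
    rw [h7]
    exact ⟨by linarith, by linarith⟩

/-- for `x ≤ x'`: if the floors differ at `θ ∈ [0,h)`, then `θ ∈ (x - m h, x' - m h]` for
`m = ⌊x/h⌋` or `m = ⌊x/h⌋ + 1`.  Hence the probability is at most `2 (x' - x)/h`. -/
theorem s6q_sep_prob {h x x' : ℝ} (hh : 0 < h) (hx : x ≤ x') :
    ∫ θ, (if ⌊(x - θ) / h⌋ = ⌊(x' - θ) / h⌋ then (0 : ℝ) else 1) ∂(unifM h) ≤ 2 * (x' - x) / h := by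
  have hS : MeasurableSet {θ : ℝ | ⌊(x - θ) / h⌋ = ⌊(x' - θ) / h⌋}ᶜ :=
    (measurableSet_eq_fun (s6q_floor_measurable h x) (s6q_floor_measurable h x')).compl
  have e1 : (fun θ : ℝ => if ⌊(x - θ) / h⌋ = ⌊(x' - θ) / h⌋ then (0 : ℝ) else 1)
      = Set.indicator {θ : ℝ | ⌊(x - θ) / h⌋ = ⌊(x' - θ) / h⌋}ᶜ 1 := by
    funext θ
    by_cases hθ : ⌊(x - θ) / h⌋ = ⌊(x' - θ) / h⌋
    · simp [hθ]
    · simp [hθ]
  rw [e1, integral_indicator_one hS]
  unfold Measure.real
  refine ENNReal.toReal_le_of_le_ofReal (by have := sub_nonneg.mpr hx; positivity) ?_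
  unfold unifM
  rw [Measure.smul_apply, Measure.restrict_apply hS, smul_eq_mul]
  have h1 : volume ({θ : ℝ | ⌊(x - θ) / h⌋ = ⌊(x' - θ) / h⌋}ᶜ ∩ Set.Ico 0 h)
      ≤ ENNReal.ofReal (x' - x) + ENNReal.ofReal (x' - x) := by
    refine (measure_mono (fun θ hθ => s6q_sep_loc hh hx hθ.2 hθ.1)).trans
      ((measure_union_le _ _).trans (le_of_eq ?_))
    rw [Real.volume_Ioc, Real.volume_Ioc]
    congr 2 <;> ring
  refine (mul_le_mul_right h1 _).trans (le_of_eq ?_)
  rw [← ENNReal.ofReal_add (sub_nonneg.mpr hx) (sub_nonneg.mpr hx),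
    ← ENNReal.ofReal_mul (inv_nonneg.mpr hh.le)]
  congr 1
  field_simp
  ring

theorem s6q_sep_prob_abs {h : ℝ} (hh : 0 < h) (x x' : ℝ) :
    ∫ θ, (if ⌊(x - θ) / h⌋ = ⌊(x' - θ) / h⌋ then (0 : ℝ) else 1) ∂(unifM h)
      ≤ 2 * |x' - x| / h := by
  rcases le_total x x' with hx | hx
  · rw [abs_of_nonneg (sub_nonneg.mpr hx)]
    exact s6q_sep_prob hh hx
  · rw [abs_of_nonpos (sub_nonpos.mpr hx), neg_sub]
    have h1 := s6q_sep_prob hh hx
    simp only [eq_comm (a := ⌊(x' - _) / h⌋)] at h1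
    exact h1

theorem s6q_w0_integrable {h : ℝ} (hh : 0 < h) (ra rb : ℝ) :
    Integrable (fun θ => 1 - pw0 (HierData.rnd h θ ra) (HierData.rnd h θ rb)) (unifM h) := by
  have := s6i_prob_unif hh
  refine Integrable.of_bound
    (measurable_const.sub (s6q_w0_measurable h ra rb)).aestronglyMeasurable 1
    (Filter.Eventually.of_forall fun θ => ?_)
  have h1 := s6q_w0_bounds (HierData.rnd h θ ra) (HierData.rnd h θ rb)
  rw [Real.norm_eq_abs, abs_le]
  constructor <;> linarith [h1.1, h1.2]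

theorem s6q_w0_int_bounds {h : ℝ} (hh : 0 < h) (ra rb : ℝ) :
    0 ≤ ∫ θ, (1 - pw0 (HierData.rnd h θ ra) (HierData.rnd h θ rb)) ∂(unifM h) ∧
      ∫ θ, (1 - pw0 (HierData.rnd h θ ra) (HierData.rnd h θ rb)) ∂(unifM h) ≤ 1 := by
  have := s6i_prob_unif hh
  constructor
  · exact integral_nonneg fun θ => sub_nonneg.mpr (s6q_w0_bounds _ _).2
  · calc ∫ θ, (1 - pw0 (HierData.rnd h θ ra) (HierData.rnd h θ rb)) ∂(unifM h)
        ≤ ∫ _θ, (1 : ℝ) ∂(unifM h) :=
          integral_mono (s6q_w0_integrable hh ra rb) (integrable_const 1)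
            (fun θ => by
              have := (s6q_w0_bounds (HierData.rnd h θ ra) (HierData.rnd h θ rb)).1
              show 1 - pw0 _ _ ≤ 1
              linarith)
      _ = 1 := by simp

theorem s6q_w0_pos {h ra rb : ℝ} (hh : 0 < h) (ha : 0 < ra) (hb : 0 < rb) (θ : ℝ) :
    1 - pw0 (HierData.rnd h θ ra) (HierData.rnd h θ rb)
      = if ⌊(Real.log ra - θ) / h⌋ = ⌊(Real.log rb - θ) / h⌋ then (0 : ℝ) else 1 := by
  unfold pw0 HierData.rnd
  rw [if_neg (not_le.mpr ha), if_neg (not_le.mpr hb)]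
  by_cases hf : ⌊(Real.log ra - θ) / h⌋ = ⌊(Real.log rb - θ) / h⌋
  · rw [if_pos hf, hf, if_pos ⟨rfl, (Real.exp_pos _).ne'⟩, sub_self]
  · rw [if_neg hf, if_neg, sub_zero]
    rintro ⟨h1, -⟩
    apply hf
    have h2 := Real.exp_injective h1
    have h3 : h * (⌊(Real.log ra - θ) / h⌋ : ℝ) = h * (⌊(Real.log rb - θ) / h⌋ : ℝ) := by linarith
    exact_mod_cast mul_left_cancel₀ hh.ne' h3

theorem s6q_log_gap {δ u v : ℝ} (hu : 0 < u) (hv : 0 < v) (h : δ < Real.log v - Real.log u) :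
    u * (1 + δ) < v := by
  have h1 : u * Real.exp (Real.log v - Real.log u) = v := by
    rw [Real.exp_sub, Real.exp_log hv, Real.exp_log hu]
    field_simp
  have h2 := Real.add_one_le_exp (Real.log v - Real.log u)
  calc u * (1 + δ) < u * Real.exp (Real.log v - Real.log u) :=
        mul_lt_mul_of_pos_left (by linarith) hu
    _ = v := h1

/-- `r_b² P(a,b not in the same positive block) ≤ (2δ/h) r_b² + (4/δ² + 1)(r_a - r_b)²` -/
theorem s6q_scalar {h δ ra rb : ℝ} (hh : 0 < h) (hδ : 0 < δ) (hδ1 : δ ≤ 1) (ha : 0 ≤ ra)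
    (hb : 0 ≤ rb) :
    (∫ θ, (1 - pw0 (HierData.rnd h θ ra) (HierData.rnd h θ rb)) ∂(unifM h)) * rb ^ 2
      ≤ 2 * δ / h * rb ^ 2 + (4 / δ ^ 2 + 1) * (ra - rb) ^ 2 := by
  obtain ⟨I0, I1⟩ := s6q_w0_int_bounds hh ra rb
  have t1 : 0 ≤ 2 * δ / h * rb ^ 2 := by positivity
  have t2 : 0 ≤ (4 / δ ^ 2 + 1) * (ra - rb) ^ 2 := by positivity
  -- the far case
  have far : δ ^ 2 * rb ^ 2 ≤ 4 * (ra - rb) ^ 2 →
      (∫ θ, (1 - pw0 (HierData.rnd h θ ra) (HierData.rnd h θ rb)) ∂(unifM h)) * rb ^ 2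
      ≤ 2 * δ / h * rb ^ 2 + (4 / δ ^ 2 + 1) * (ra - rb) ^ 2 := by
    intro hfar
    have h1 : rb ^ 2 ≤ 4 / δ ^ 2 * (ra - rb) ^ 2 := by
      rw [div_mul_eq_mul_div, le_div_iff₀ (by positivity)]
      linarith
    have h2 : (∫ θ, (1 - pw0 (HierData.rnd h θ ra) (HierData.rnd h θ rb)) ∂(unifM h)) * rb ^ 2
        ≤ 1 * rb ^ 2 := mul_le_mul_of_nonneg_right I1 (sq_nonneg _)
    nlinarith [sq_nonneg (ra - rb)]
  rcases hb.eq_or_lt with hb0 | hb0
  · rw [← hb0]
    have : (0 : ℝ) ^ 2 = 0 := by norm_num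
    rw [this, mul_zero, mul_zero, zero_add]
    positivity
  rcases ha.eq_or_lt with ha0 | ha0
  · apply far
    rw [← ha0]
    nlinarith [sq_nonneg rb, mul_nonneg hδ.le (sub_nonneg.mpr hδ1), sq_nonneg δ]
  by_cases hD : |Real.log rb - Real.log ra| ≤ δ
  · have h1 := s6q_sep_prob_abs hh (Real.log ra) (Real.log rb)
    simp only [← s6q_w0_pos hh ha0 hb0] at h1
    have h2 : 2 * |Real.log rb - Real.log ra| / h ≤ 2 * δ / h :=
      div_le_div_of_nonneg_right (by linarith) hh.le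
    have h3 := mul_le_mul_of_nonneg_right (h1.trans h2) (sq_nonneg rb)
    linarith
  · apply far
    rw [not_le, lt_abs] at hD
    rcases hD with hD | hD
    · have h1 := s6q_log_gap ha0 hb0 hD
      have h0 : 0 ≤ rb - ra := by nlinarith [mul_pos ha0 hδ]
      have h2 : δ * rb ≤ 2 * (rb - ra) := by
        nlinarith [mul_nonneg (sub_nonneg.mpr hδ1) h0]
      have h3 : 0 ≤ δ * rb := by positivity
      nlinarith
    · have hD' : δ < Real.log ra - Real.log rb := by linarith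
      have h1 := s6q_log_gap hb0 ha0 hD'
      have h2 : δ * rb ≤ 2 * (ra - rb) := by nlinarith
      have h3 : 0 ≤ δ * rb := by positivity
      nlinarith

/-! ### the averaged cost -/

theorem s6q_costA {R : Mx n} (hR : R.IsSymm) (hpos : ∀ i, 0 ≤ mxEig R i) (H : Fin n → Mx n)
    {h δ : ℝ} (hh : 0 < h) (hδ : 0 < δ) (hδ1 : δ ≤ 1) :
    ∫ θ, ∑ i, mxSq ((colA (mxFun (HierData.rnd h θ) R) H i - H i) * R) ∂(unifM h)
      ≤ 2 * δ / h * ∑ i, mxSq (H i * R) + (4 / δ ^ 2 + 1) * ∑ i, mxSq (cmm (H i) R) := by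
  have e1 : ∀ θ, ∑ i, mxSq ((colA (mxFun (HierData.rnd h θ) R) H i - H i) * R)
      = ∑ i, ∑ a, ∑ b,
        (1 - pw0 (HierData.rnd h θ (mxEig R a)) (HierData.rnd h θ (mxEig R b))) *
          ((mxRot R (H i) a b) ^ 2 * (mxEig R b) ^ 2) :=
    fun θ => Finset.sum_congr rfl fun i _ => s6q_rot_pinch R (H i) hR _
  simp only [e1]
  have hint : ∀ (i a b : Fin n), Integrable (fun θ =>
      (1 - pw0 (HierData.rnd h θ (mxEig R a)) (HierData.rnd h θ (mxEig R b))) *
          ((mxRot R (H i) a b) ^ 2 * (mxEig R b) ^ 2)) (unifM h) :=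
    fun i a b => (s6q_w0_integrable hh _ _).mul_const _
  rw [integral_finsetSum _ (fun i _ => integrable_finsetSum _ fun a _ =>
    integrable_finsetSum _ fun b _ => hint i a b), Finset.mul_sum, Finset.mul_sum,
    ← Finset.sum_add_distrib]
  refine Finset.sum_le_sum fun i _ => ?_
  rw [integral_finsetSum _ (fun a _ => integrable_finsetSum _ fun b _ => hint i a b),
    s6q_rot_mul R (H i) hR, s6q_rot_cmm R (H i) hR, Finset.mul_sum, Finset.mul_sum,
    ← Finset.sum_add_distrib]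
  refine Finset.sum_le_sum fun a _ => ?_
  rw [integral_finsetSum _ (fun b _ => hint i a b), Finset.mul_sum, Finset.mul_sum,
    ← Finset.sum_add_distrib]
  refine Finset.sum_le_sum fun b _ => ?_
  rw [integral_mul_const]
  have h1 := mul_le_mul_of_nonneg_left (s6q_scalar hh hδ hδ1 (hpos a) (hpos b))
    (sq_nonneg (mxRot R (H i) a b))
  linarith

end Claimed.Agent.R259
end

/- ===== packed: Claimed.Agent.R259.S6BlkInt ===== -/
section
/-
Row 259 (S0499), Lemma 6.6 of the paper (random logarithmic blocks), package BP-S6-blocks.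
Owner: helper144.

MEASURABILITY of the three modifications as fields on `𝒟 = EE n × ℝ` and the INTEGRATED cost
inequalities.  Measurability of Borel functional calculus / Schur multipliers: `MkBorel` (helper57).
-/
set_option autoImplicit false

open MeasureTheory
open scoped BigOperators Matrix
open Claimed.Agent.R260 (Mx mxFun mxSchur mxSq mxIP mxEig mxU mxRot)

namespace Claimed.Agent.R259

noncomputable section

variable {n : ℕ}

namespace HierData

variable (X : HierData n) (k : ℕ) (h : ℝ)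

/-- step A as a field on `𝒟` -/
def fA (H : EE n × ℝ → Fin n → Mx n) (p : EE n × ℝ) : Fin n → Mx n := colA (X.Rs k h p) (H p)

/-- step B as a field on `𝒟` -/
def fB (H : EE n × ℝ → Fin n → Mx n) (p : EE n × ℝ) : Fin n → Mx n :=
  colO (X.Rs k h p) (X.fA k h H p)

/-- step C as a field on `𝒟` -/
def fC (H : EE n × ℝ → Fin n → Mx n) (p : EE n × ℝ) : Fin n → Mx n := colC (X.fB k h H p)

/-- weighted distance of two columns on `𝒟` -/
def dD (H H' : EE n × ℝ → Fin n → Mx n) : ℝ := ∫ p, X.pCl k (H p) (H' p) p.1 ∂(X.Qm h)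

end HierData

end

/-- generates the equation lemmas of the definitions above in this file (rule 6: unique names) -/
theorem s6blkint_eqns_cite : True := by
  have := @HierData.fA.eq_1
  have := @HierData.fB.eq_1
  have := @HierData.fC.eq_1
  have := @HierData.dD.eq_1
  trivial

variable {n : ℕ}

/-! ### abstract measurability -/

section meas

variable {Ω : Type} [MeasurableSpace Ω]

theorem s6q_w0_meas : Measurable (Function.uncurry pw0) := by
  have e : Function.uncurry pw0 = fun p : ℝ × ℝ => if p.1 = p.2 ∧ p.1 ≠ 0 then (1 : ℝ) else 0 := by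
    funext p
    rfl
  rw [e]
  refine Measurable.ite ?_ measurable_const measurable_const
  exact (measurableSet_eq_fun measurable_fst measurable_snd).inter
    (measurableSet_eq_fun measurable_fst measurable_const).compl

theorem s6q_meas_colA {Rs : Ω → Mx n} (hRs : RM Rs) (hs : ∀ ω, (Rs ω).IsSymm)
    {H : Ω → Fin n → Mx n} (hH : ∀ i, RM fun ω => H ω i) (i : Fin n) :
    RM fun ω => colA (Rs ω) (H ω) i :=
  RM.of_mxSchur s6q_w0_meas hRs hs (hH i)

theorem s6q_meas_colO {Rs : Ω → Mx n} (hRs : RM Rs) (hs : ∀ ω, (Rs ω).IsSymm)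
    {H : Ω → Fin n → Mx n} (hH : ∀ i, RM fun ω => H ω i) (i : Fin n) :
    RM fun ω => colO (Rs ω) (H ω) i := by
  intro a b
  have hZ : RM fun ω => (Matrix.of fun i' a' => H ω i' a' b : Mx n) := fun i' a' => hH i' a' b
  exact RM.of_mxSchur s6q_w0_meas hRs hs hZ i a

theorem s6q_meas_colC {H : Ω → Fin n → Mx n} (hH : ∀ i, RM fun ω => H ω i) (i : Fin n) :
    RM fun ω => colC (H ω) i := by
  have hG : RM fun ω => gram3 (H ω) := fun a b => ((hH a).transpose.mul (hH b)).meas_trace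
  have hM := RM.of_mxFun s6p_chiF_continuous.measurable hG fun ω => s6q_gram3_isSymm (H ω)
  unfold colC oAct
  exact RM.sum _ fun j _ => RM.smul (hM i j) (hH j)

end meas

/-! ### the rounded matrix -/

/-- scaling: `rnd h θ x = e^θ rnd h 0 (e^{-θ} x)` -/
theorem s6q_rnd_scale (h θ x : ℝ) :
    HierData.rnd h θ x = Real.exp θ * HierData.rnd h 0 (Real.exp (-θ) * x) := by
  unfold HierData.rnd
  have hpos := Real.exp_pos (-θ)
  by_cases hx : x ≤ 0
  · have h2 : Real.exp (-θ) * x ≤ 0 := mul_nonpos_of_nonneg_of_nonpos hpos.le hx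
    rw [if_pos hx, if_pos h2, mul_zero]
  · have hx' : 0 < x := not_le.mp hx
    have h2 : ¬ Real.exp (-θ) * x ≤ 0 := not_le.mpr (mul_pos hpos hx')
    rw [if_neg hx, if_neg h2, Real.log_mul hpos.ne' hx'.ne', Real.log_exp, ← Real.exp_add]
    have e : (-θ + Real.log x - 0) / h = (Real.log x - θ) / h := by ring
    rw [e, zero_add]

theorem s6q_rnd0_measurable (h : ℝ) : Measurable (HierData.rnd h 0) := by
  unfold HierData.rnd
  refine Measurable.ite measurableSet_Iic measurable_const ?_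
  refine Real.measurable_exp.comp (measurable_const.add (measurable_const.mul ?_))
  have h1 : Measurable fun x : ℝ => (Real.log x - 0) / h :=
    (Real.measurable_log.sub measurable_const).div_const h
  exact (measurable_from_top (f := fun z : ℤ => (z : ℝ))).comp (Int.measurable_floor.comp h1)

/-- functional calculus of a multiple of a symmetric matrix -/
theorem s6q_mxFun_smul_arg {A : Mx n} (hA : A.IsSymm) (c : ℝ) (f : ℝ → ℝ) :
    mxFun f (c • A) = mxFun (fun x => f (c * x)) A := by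
  have e : c • A = mxFun (fun x => c * x) A := by
    rw [Claimed.Agent.R260.mxFun_smul, Claimed.Agent.R260.mxFun_id hA]
  rw [e, Claimed.Agent.R260.mxFun_comp]

/-- `R_*(y,θ) = e^θ rnd_0(e^{-θ} R(y))` -/
theorem s6q_Rs_scale (X : HierData n) (k : ℕ) (h : ℝ) (p : EE n × ℝ) :
    X.Rs k h p = Real.exp p.2 • mxFun (HierData.rnd h 0) (Real.exp (-p.2) • X.R k p.1) := by
  unfold HierData.Rs
  rw [s6q_mxFun_smul_arg (s6b_R_isSymm X k p.1), ← Claimed.Agent.R260.mxFun_smul]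
  exact Claimed.Agent.R260.mxFun_congr fun i => s6q_rnd_scale h p.2 _

theorem s6q_Rs_meas (X : HierData n) (k : ℕ) (h : ℝ) : RM (X.Rs k h) := by
  have e : X.Rs k h = fun p : EE n × ℝ =>
      Real.exp p.2 • mxFun (HierData.rnd h 0) (Real.exp (-p.2) • X.R k p.1) := by
    funext p
    exact s6q_Rs_scale X k h p
  rw [e]
  have hR : RM fun p : EE n × ℝ => X.R k p.1 := fun a b => (s6i_Rp_bdm X k a b).1
  have h1 : RM fun p : EE n × ℝ => Real.exp (-p.2) • X.R k p.1 :=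
    RM.smul (Real.measurable_exp.comp measurable_snd.neg) hR
  refine RM.smul (Real.measurable_exp.comp measurable_snd)
    (RM.of_mxFun (s6q_rnd0_measurable h) h1 fun p => ?_)
  unfold Matrix.IsSymm
  rw [Matrix.transpose_smul, (s6b_R_isSymm X k p.1).eq]

theorem s6q_Rs_isSymm (X : HierData n) (k : ℕ) (h : ℝ) (p : EE n × ℝ) : (X.Rs k h p).IsSymm :=
  Claimed.Agent.R260.mxFun_isSymm _ _

theorem s6q_R_eig_nonneg (X : HierData n) (k : ℕ) (y : EE n) (i : Fin n) :
    0 ≤ mxEig (X.R k y) i := by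
  obtain ⟨j, hj⟩ := Claimed.Agent.R260.mxEig_mxFun_mem Real.sqrt (X.rho k y) i
  unfold HierData.R
  rw [hj]
  exact Real.sqrt_nonneg _

theorem s6q_Rs_int (X : HierData n) (k : ℕ) {h : ℝ} (hh : 0 < h) :
    Integrable (fun p => mxSq (X.Rs k h p)) (X.Qm h) := by
  have := s6i_prob_Qm X hh
  have hdom : Integrable (fun p : EE n × ℝ => mxSq (X.R k p.1)) (X.Qm h) :=
    (BdM.mx_sq (s6i_Rp_bdm X k)).integrable _
  refine hdom.mono' (s6i_meas_sq (s6q_Rs_meas X k h)).aestronglyMeasurable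
    (Filter.Eventually.of_forall fun p => ?_)
  rw [Real.norm_eq_abs, abs_of_nonneg (Claimed.Agent.R260.mxSq_nonneg _)]
  have h1 := (s6q_weight_le (s6b_R_isSymm X k p.1) (s6q_R_eig_nonneg X k p.1) (θ := p.2) hh 1).1
  rwa [Matrix.one_mul, Matrix.one_mul] at h1

/-! ### the three fields are admissible columns -/

section fields

variable (X : HierData n) (k : ℕ) {h : ℝ} {H : EE n × ℝ → Fin n → Mx n}

theorem s6q_fA_ok (hH : HierData.ColOK H) : HierData.ColOK (X.fA k h H) := by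
  refine ⟨fun i => s6q_meas_colA (s6q_Rs_meas X k h) (s6q_Rs_isSymm X k h) hH.meas i,
    fun p i => s6q_colA_symm _ (hH.symm p) i,
    fun p => s6k_psd_of_ColB (s6q_colA_ColB _ (s6i_ColB hH p))⟩

theorem s6q_fB_blk (hH : HierData.ColOK H) (p : EE n × ℝ) :
    BlkCol (X.Rs k h p) (X.fB k h H p) :=
  s6q_colO_blk (s6q_Rs_isSymm X k h p) (s6i_ColB hH p)

theorem s6q_fB_ok (hH : HierData.ColOK H) : HierData.ColOK (X.fB k h H) := by
  refine ⟨fun i => s6q_meas_colO (s6q_Rs_meas X k h) (s6q_Rs_isSymm X k h)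
      (s6q_fA_ok X k hH).meas i,
    fun p i => (s6q_fB_blk X k hH p).symm i,
    fun p => s6k_psd_of_ColB (s6q_fB_blk X k hH p).col⟩

theorem s6q_fC_blk (hH : HierData.ColOK H) (p : EE n × ℝ) :
    BlkCol (X.Rs k h p) (X.fC k h H p) :=
  s6q_colC_blk (s6q_Rs_isSymm X k h p) (s6q_fB_blk X k hH p)

theorem s6q_fC_ok (hH : HierData.ColOK H) : HierData.ColOK (X.fC k h H) := by
  refine ⟨fun i => s6q_meas_colC (s6q_fB_ok X k hH).meas i,
    fun p i => (s6q_fC_blk X k hH p).symm i,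
    fun p => s6k_psd_of_ColB (s6q_fC_blk X k hH p).col⟩

end fields

end Claimed.Agent.R259
end

/- ===== packed: Claimed.Agent.R259.S6BlkIntB ===== -/
section
/-
Row 259 (S0499), Lemma 6.6 of the paper (random logarithmic blocks), package BP-S6-blocks.
Owner: helper144.

INTEGRATED cost inequalities of the three steps.
-/
set_option autoImplicit false

open MeasureTheory
open scoped BigOperators Matrix
open Claimed.Agent.R260 (Mx mxFun mxSchur mxSq mxIP mxEig mxU mxRot)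

namespace Claimed.Agent.R259

variable {n : ℕ}

section fields

variable (X : HierData n) (k : ℕ) {h : ℝ} {H : EE n × ℝ → Fin n → Mx n}

/-! ### integrated inequalities -/

theorem s6q_pCl_bdm {H' : EE n × ℝ → Fin n → Mx n} (hH : HierData.ColOK H)
    (hH' : HierData.ColOK H') : BdM fun p => X.pCl k (H p) (H' p) p.1 := by
  unfold HierData.pCl
  exact BdM.sum _ fun i _ => BdM.mx_sq
    (BdM.mx_mul (BdM.mx_sub (s6i_H_bdm hH i) (s6i_H_bdm hH' i)) (s6i_Rp_bdm X k))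

theorem s6q_pCl_tri (A B C : Fin n → Mx n) (y : EE n) :
    X.pCl k A C y ≤ 2 * X.pCl k A B y + 2 * X.pCl k B C y := by
  unfold HierData.pCl
  rw [Finset.mul_sum, Finset.mul_sum, ← Finset.sum_add_distrib]
  refine Finset.sum_le_sum fun i _ => ?_
  have e : (A i - C i) * X.R k y = (A i - B i) * X.R k y + (B i - C i) * X.R k y := by
    rw [← Matrix.add_mul, sub_add_sub_cancel]
  rw [e]
  exact s6k_mxSq_add_le _ _

/-- triangle inequality for the weighted distance to the Sylvester column -/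
theorem s6q_clD_tri (hh : 0 < h) {H' : EE n × ℝ → Fin n → Mx n} (hH : HierData.ColOK H)
    (hH' : HierData.ColOK H') (hm : S6Meas X k) :
    X.clD k h H ≤ 2 * X.dD k h H H' + 2 * X.clD k h H' := by
  have := s6i_prob_Qm X hh
  obtain ⟨i1, e1⟩ := s6i_clD X k hh hH hm
  obtain ⟨i2, e2⟩ := s6i_clD X k hh hH' hm
  have i3 := (s6q_pCl_bdm X k hH hH').integrable (X.Qm h)
  rw [e1, e2]
  unfold HierData.dD
  rw [← integral_const_mul, ← integral_const_mul, ← integral_add (i3.const_mul 2) (i2.const_mul 2)]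
  exact integral_mono i1 ((i3.const_mul 2).add (i2.const_mul 2)) fun p => s6q_pCl_tri X k _ _ _ _

theorem s6q_bdm_comp {Ω Ω' : Type} [MeasurableSpace Ω] [MeasurableSpace Ω'] {f : Ω → ℝ}
    (hf : BdM f) {φ : Ω' → Ω} (hφ : Measurable φ) : BdM fun ω => f (φ ω) :=
  ⟨hf.1.comp hφ, hf.2.choose, fun ω => hf.2.choose_spec (φ ω)⟩

/-- STEP A: Fubini (`integral_prod`) + `s6q_costA` at every `y`; `H` does not depend on `θ`. -/
theorem s6q_dD_A (hh : 0 < h) (hH : HierData.ColOK H) (hy : ∀ p q, p.1 = q.1 → H p = H q)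
    {δ : ℝ} (hδ : 0 < δ) (hδ1 : δ ≤ 1) :
    X.dD k h (X.fA k h H) H
      ≤ 2 * δ / h * X.enD k h H + (4 / δ ^ 2 + 1) * X.comD k h H := by
  have hQ := s6i_prob_Qm X hh
  have hη := s6i_prob_eta X
  have hu := s6i_prob_unif hh
  obtain ⟨b1, b2, _⟩ := s6i_col_bdm X k hH
  have hφ : Measurable fun y : EE n => ((y, 0) : EE n × ℝ) := measurable_id.prodMk measurable_const
  have c1 : BdM fun y : EE n => X.pHr k (H (y, 0)) y := s6q_bdm_comp b1 hφ
  have c2 : BdM fun y : EE n => X.pCm k (H (y, 0)) y := s6q_bdm_comp b2 hφ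
  have e1 : X.enD k h H = ∫ y, X.pHr k (H (y, 0)) y ∂(dm X.η) := by
    rw [s6i_enD X k hh hH, ← s6i_integral_fst X hh]
    exact integral_congr_ae (Filter.Eventually.of_forall fun p => by
      show X.pHr k (H p) p.1 = X.pHr k (H (p.1, 0)) p.1
      rw [hy p (p.1, 0) rfl])
  have e2 : X.comD k h H = ∫ y, X.pCm k (H (y, 0)) y ∂(dm X.η) := by
    rw [s6i_comD X k hh hH, ← s6i_integral_fst X hh]
    exact integral_congr_ae (Filter.Eventually.of_forall fun p => by
      show X.pCm k (H p) p.1 = X.pCm k (H (p.1, 0)) p.1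
      rw [hy p (p.1, 0) rfl])
  have i0 : Integrable (fun p => X.pCl k (X.fA k h H p) (H p) p.1) ((dm X.η).prod (unifM h)) :=
    (s6q_pCl_bdm X k (s6q_fA_ok X k hH) hH).integrable (X.Qm h)
  rw [e1, e2]
  unfold HierData.dD
  have e3 : ∫ p, X.pCl k (X.fA k h H p) (H p) p.1 ∂(X.Qm h)
      = ∫ y, ∫ θ, X.pCl k (X.fA k h H (y, θ)) (H (y, θ)) y ∂(unifM h) ∂(dm X.η) :=
    integral_prod _ i0
  rw [e3, ← integral_const_mul, ← integral_const_mul,
    ← integral_add ((c1.integrable _).const_mul _) ((c2.integrable _).const_mul _)]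
  refine integral_mono i0.integral_prod_left
    (((c1.integrable _).const_mul _).add ((c2.integrable _).const_mul _)) fun y => ?_
  have h1 := s6q_costA (s6b_R_isSymm X k y) (s6q_R_eig_nonneg X k y) (H (y, 0)) hh hδ hδ1
  refine le_trans (le_of_eq ?_) h1
  refine integral_congr_ae (Filter.Eventually.of_forall fun θ => ?_)
  show X.pCl k (X.fA k h H (y, θ)) (H (y, θ)) y = _
  rw [HierData.pCl, HierData.fA, hy (y, θ) (y, 0) rfl]
  rfl

/-- STEP B: `s6q_costB` + `integral_mono`. -/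
theorem s6q_dD_B (hh : 0 < h) (hH : HierData.ColOK H) :
    X.dD k h (X.fB k h H) (X.fA k h H) ≤ X.exD k h (X.fA k h H) := by
  have hQ := s6i_prob_Qm X hh
  unfold HierData.dD HierData.exD
  refine integral_mono ((s6q_pCl_bdm X k (s6q_fB_ok X k hH) (s6q_fA_ok X k hH)).integrable _)
    ((s6i_ex_bdm X k (s6q_fA_ok X k hH)).integrable _) fun p => ?_
  exact s6q_costB (s6b_R_isSymm X k p.1) (HierData.rnd h p.2) (hH.symm p)

/-- STEP C: `s6q_costC`, `s6q_weight_le`, `s6q_exP_le` + `integral_mono`. -/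
theorem s6q_dD_C (hh : 0 < h) (hH : HierData.ColOK H) :
    X.dD k h (X.fC k h H) (X.fB k h H) ≤ Real.exp (2 * h) * X.exD k h (X.fB k h H) := by
  have hQ := s6i_prob_Qm X hh
  unfold HierData.dD HierData.exD
  rw [← integral_const_mul]
  refine integral_mono ((s6q_pCl_bdm X k (s6q_fC_ok X k hH) (s6q_fB_ok X k hH)).integrable _)
    (((s6i_ex_bdm X k (s6q_fB_ok X k hH)).integrable _).const_mul _) fun p => ?_
  have hR := s6b_R_isSymm X k p.1
  have hpos := s6q_R_eig_nonneg X k p.1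
  have h1 : X.pCl k (X.fC k h H p) (X.fB k h H p) p.1
      ≤ Real.exp (2 * h) * ∑ i, mxSq ((X.fC k h H p i - X.fB k h H p i) * X.Rs k h p) := by
    unfold HierData.pCl
    rw [Finset.mul_sum]
    exact Finset.sum_le_sum fun i _ => (s6q_weight_le hR hpos (θ := p.2) hh _).2
  have h2 : ∑ i, mxSq ((X.fC k h H p i - X.fB k h H p i) * X.Rs k h p)
      ≤ exP (X.fB k h H p) (X.Rs k h p) :=
    s6q_costC (s6q_Rs_isSymm X k h p) (s6q_fB_blk X k hH p)
  have h3 : exP (X.fB k h H p) (X.Rs k h p) ≤ exP (X.fB k h H p) (X.R k p.1) :=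
    s6q_exP_le hR hpos hh _
  exact h1.trans (mul_le_mul_of_nonneg_left (h2.trans h3) (Real.exp_pos _).le)

end fields

end Claimed.Agent.R259
end

/- ===== packed: Claimed.Agent.R259.S6BlkMain ===== -/
section
/-
Row 259 (S0499), Lemma 6.6 of the paper (random logarithmic blocks), package BP-S6-blocks.
Owner: helper144.

GLUE: `s6_block` from `s6_trunc`, `s6_col` (three times), `s6_meas` and the leaves of `S6BlkPt`,
`S6BlkCost`, `S6BlkInt`.  Order of choices:
`ε → h → (κ₃,k₃) → (κ₂,k₂) → d (= the paper's δ) → (κ₁,k₁) → k₀ (s6_trunc) → k → δ`.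
-/
set_option autoImplicit false

open MeasureTheory
open scoped BigOperators Matrix
open Claimed.Agent.R260 (Mx mxFun mxSchur mxSq mxIP mxEig mxU mxRot)

namespace Claimed.Agent.R259

variable {n : ℕ}

theorem s6q_exp_le {h : ℝ} (h1 : h ≤ 1) : Real.exp (2 * h) ≤ 8 := by
  have h2 : Real.exp (2 * h) ≤ Real.exp 1 * Real.exp 1 := by
    rw [← Real.exp_add]
    exact Real.exp_le_exp.mpr (by linarith)
  have h3 := Real.exp_one_lt_d9
  have h4 := Real.exp_pos 1
  nlinarith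

/-- the block model built from a bounded column -/
noncomputable def s6qModel (X : HierData n) (k : ℕ) {h : ℝ} (hh : 0 < h)
    {H : EE n × ℝ → Fin n → Mx n} (hH : HierData.ColOK H) : BlockModel n (X.Qm h) where
  Rs := X.Rs k h
  H := X.fC k h H
  Rs_meas := s6q_Rs_meas X k h
  H_meas := (s6q_fC_ok X k hH).meas
  Rs_psd := fun p => s6q_Rs_psd h p.2
  Rs_int := s6q_Rs_int X k hh
  H_symm := (s6q_fC_ok X k hH).symm
  comm := fun p i => (s6q_fC_blk X k hH p).comm i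
  outer := fun p v => (s6q_fC_blk X k hH p).outer v
  ker := fun p v hv => (s6q_fC_blk X k hH p).ker v hv
  col := (s6q_fC_ok X k hH).col
  flt := fun _ v => s6q_colC_flt _ v

/-- generates the equation lemmas of the definition above in this file (rule 6: unique names) -/
theorem s6blkmain_eqns_cite : True := by
  have := @s6qModel.eq_1
  trivial

/-- **BP-S6-BLOCK** = `s6_block` of S6Blk.lean. -/
theorem s6q_block : ∀ ε : ℝ, 0 < ε → ∃ k₀ : ℕ, ∀ k : ℕ, k₀ ≤ k → ∃ h : ℝ, 0 < h ∧ h ≤ ε ∧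
    ∃ δ : ℝ, 0 < δ ∧ ∀ (n : ℕ) (X : HierData n), X.Small (3 * k) δ →
      ∃ B : BlockModel n (X.Qm h), B.Rs = X.Rs k h ∧ X.clD k h B.H ≤ ε := by
  intro ε hε
  obtain ⟨h, hh, hhε, hh1⟩ : ∃ h : ℝ, 0 < h ∧ h ≤ ε ∧ h ≤ 1 :=
    ⟨min ε 1, lt_min hε one_pos, min_le_left _ _, min_le_right _ _⟩
  have hexp := s6q_exp_le hh1
  obtain ⟨κ₃, hκ₃, k₃, hk₃⟩ := s6_col (ε / 32) (by positivity)
  obtain ⟨c₃, hc₃, hc₃a, hc₃b⟩ : ∃ c : ℝ, 0 < c ∧ c ≤ κ₃ ∧ c ≤ ε / 4 :=
    ⟨min κ₃ (ε / 4), lt_min hκ₃ (by positivity), min_le_left _ _, min_le_right _ _⟩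
  obtain ⟨κ₂, hκ₂, k₂, hk₂⟩ := s6_col (c₃ / 4) (by positivity)
  obtain ⟨c₂, hc₂, hc₂a, hc₂b⟩ : ∃ c : ℝ, 0 < c ∧ c ≤ κ₂ ∧ c ≤ c₃ / 4 :=
    ⟨min κ₂ (c₃ / 4), lt_min hκ₂ (by positivity), min_le_left _ _, min_le_right _ _⟩
  obtain ⟨d, hd, hd1, hd2⟩ : ∃ d : ℝ, 0 < d ∧ d ≤ 1 ∧ d ≤ c₂ * h / 96 :=
    ⟨min 1 (c₂ * h / 96), lt_min one_pos (by positivity), min_le_left _ _, min_le_right _ _⟩
  obtain ⟨κ₁, hκ₁, k₁, hk₁⟩ := s6_col (c₂ * d ^ 2 / 30) (by positivity)
  obtain ⟨c₁, hc₁, hc₁a, hc₁b⟩ : ∃ c : ℝ, 0 < c ∧ c ≤ κ₁ ∧ c ≤ c₂ / 6 :=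
    ⟨min κ₁ (c₂ / 6), lt_min hκ₁ (by positivity), min_le_left _ _, min_le_right _ _⟩
  obtain ⟨k₀, hk₀⟩ := s6_trunc c₁ hc₁
  refine ⟨max (max k₀ k₁) (max (max k₂ k₃) 1), fun k hk => ⟨h, hh, hhε, ?_⟩⟩
  have hka : k₀ ≤ k := ((le_max_left _ _).trans (le_max_left _ _)).trans hk
  have hkb : k₁ ≤ k := ((le_max_right _ _).trans (le_max_left _ _)).trans hk
  have hkc : k₂ ≤ k := (((le_max_left _ _).trans (le_max_left _ _)).trans (le_max_right _ _)).trans hk
  have hkd : k₃ ≤ k := (((le_max_right _ _).trans (le_max_left _ _)).trans (le_max_right _ _)).trans hk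
  have hk0 : 0 < k := ((le_max_right _ _).trans (le_max_right _ _)).trans hk
  obtain ⟨δ₀, hδ₀, g0⟩ := hk₀ k hka
  obtain ⟨δ₁, hδ₁, g1⟩ := hk₁ k hkb
  obtain ⟨δ₂, hδ₂, g2⟩ := hk₂ k hkc
  obtain ⟨δ₃, hδ₃, g3⟩ := hk₃ k hkd
  refine ⟨min (min δ₀ δ₁) (min (min δ₂ δ₃) 1),
    lt_min (lt_min hδ₀ hδ₁) (lt_min (lt_min hδ₂ hδ₃) one_pos), ?_⟩
  intro n X hX
  have hXa : X.Small (3 * k) δ₀ :=
    s6c_small_mono ((min_le_left _ _).trans (min_le_left _ _)) hX
  have hXb : X.Small (3 * k) δ₁ :=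
    s6c_small_mono ((min_le_left _ _).trans (min_le_right _ _)) hX
  have hXc : X.Small (3 * k) δ₂ :=
    s6c_small_mono (((min_le_right _ _).trans (min_le_left _ _)).trans (min_le_left _ _)) hX
  have hXd : X.Small (3 * k) δ₃ :=
    s6c_small_mono (((min_le_right _ _).trans (min_le_left _ _)).trans (min_le_right _ _)) hX
  have hXe : X.Small (3 * k) 1 :=
    s6c_small_mono ((min_le_right _ _).trans (min_le_right _ _)) hX
  have hm : S6Meas X k := s6_meas X k
  obtain ⟨H, hH, hy, hcl⟩ := g0 n X hXa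
  have hcl0 := hcl h hh
  -- stage 1
  have s1 := (g1 n X hXb h H hh hH (hcl0.trans hc₁a)).2.1
  have hen : X.enD k h H ≤ 8 := by
    have := s6c_enD_le X k hh hH hk0 hXe
    linarith
  have hAok := s6q_fA_ok X k (h := h) hH
  have hBok := s6q_fB_ok X k (h := h) hH
  have hCok := s6q_fC_ok X k (h := h) hH
  have hA : X.clD k h (X.fA k h H) ≤ c₂ := by
    have t1 := s6q_clD_tri X k hh hAok hH hm
    have t2 := s6q_dD_A X k hh hH hy hd hd1
    have t3 : 2 * d / h * X.enD k h H ≤ c₂ / 6 := by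
      have u1 : 2 * d / h * X.enD k h H ≤ 2 * d / h * 8 :=
        mul_le_mul_of_nonneg_left hen (by positivity)
      have u2 : 2 * d / h * 8 ≤ c₂ / 6 := by
        rw [div_mul_eq_mul_div, div_le_iff₀ hh]
        nlinarith
      linarith
    have t4 : (4 / d ^ 2 + 1) * X.comD k h H ≤ c₂ / 6 := by
      have u1 : (4 / d ^ 2 + 1) * X.comD k h H ≤ (4 / d ^ 2 + 1) * (c₂ * d ^ 2 / 30) :=
        mul_le_mul_of_nonneg_left s1 (by positivity)
      have u2 : (4 / d ^ 2 + 1) * (c₂ * d ^ 2 / 30) = (4 + d ^ 2) * c₂ / 30 := by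
        field_simp
      have u3 : d ^ 2 ≤ 1 := by nlinarith
      have u4 : (4 + d ^ 2) * c₂ / 30 ≤ c₂ / 6 := by nlinarith
      linarith
    linarith
  -- stage 2
  have s2 := (g2 n X hXc h (X.fA k h H) hh hAok (hA.trans hc₂a)).2.2.2.2
  have hB : X.clD k h (X.fB k h H) ≤ c₃ := by
    have t1 := s6q_clD_tri X k hh hBok hAok hm
    have t2 := s6q_dD_B X k hh hH
    linarith
  -- stage 3
  have s3 := (g3 n X hXd h (X.fB k h H) hh hBok (hB.trans hc₃a)).2.2.2.2
  have hC : X.clD k h (X.fC k h H) ≤ ε := by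
    have t1 := s6q_clD_tri X k hh hCok hBok hm
    have t2 := s6q_dD_C X k hh hH
    have t3 : Real.exp (2 * h) * X.exD k h (X.fB k h H) ≤ 8 * (ε / 32) := by
      have u0 : 0 ≤ X.exD k h (X.fB k h H) :=
        integral_nonneg fun p => Finset.sum_nonneg fun i _ => Finset.sum_nonneg fun a _ =>
          Finset.sum_nonneg fun b _ => sq_nonneg _
      calc Real.exp (2 * h) * X.exD k h (X.fB k h H) ≤ 8 * X.exD k h (X.fB k h H) :=
            mul_le_mul_of_nonneg_right hexp u0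
        _ ≤ 8 * (ε / 32) := mul_le_mul_of_nonneg_left s3 (by norm_num)
    linarith
  exact ⟨s6qModel X k hh hH, rfl, hC⟩

end Claimed.Agent.R259
end

/- ===== packed: Claimed.Agent.R259.S6Blk ===== -/
section
/-
Row 259 (S0499), Lemma 6.6 of the paper (random logarithmic blocks).
EXPORT FILE of package BP-S6-blocks.  The package owner owns this file: keep names and statements, replace the sorries by citations of
helper files with the same prefix (which never import this file).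

Order of choices everywhere: `ε` -> `k₀` (band length, errors `O(1/k)`) -> auxiliary parameters
-> `δ` (defect of the hierarchy).  No sequences, no diagonal arguments.
-/
set_option autoImplicit false

open MeasureTheory ProbabilityTheory
open scoped ContDiff BigOperators Matrix
open Claimed.Agent.R260 (Mx mxFun mxSchur mxSq mxIP mxEig mxU mxRot)

namespace Claimed.Agent.R259

variable {n : ℕ}

/-- BP-S6-BLOCK (Lemma 6.6).  Random logarithmic blocks, restriction of all three indices to the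
blocks, clipping of the input map.  Output: a block model over `(𝒟, η ⊗ unif[0,h))` with
`R_* = X.Rs k h`, weighted-close to the Sylvester column. -/
theorem s6_block : ∀ ε : ℝ, 0 < ε → ∃ k₀ : ℕ, ∀ k : ℕ, k₀ ≤ k → ∃ h : ℝ, 0 < h ∧ h ≤ ε ∧ ∃ δ : ℝ, 0 < δ ∧
    ∀ (n : ℕ) (X : HierData n), X.Small (3 * k) δ →
      ∃ B : BlockModel n (X.Qm h), B.Rs = X.Rs k h ∧ X.clD k h B.H ≤ ε :=
  s6q_block

end Claimed.Agent.R259
end
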