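/- Packed by merge_tool.py (helper293): 6 modules of Claimed.Agent.R259 in one file, same declarations.
   Old modules, in this order: S7StabMx, S7StabPt, S7UpInt, S7StabMeas, S7StabGau, S7StabDom -/
import Claimed.Agent.R259.Pack038
import Claimed.Agent.R259.Pack036
import Claimed.Agent.R259.Pack047
import Claimed.Agent.R259.Pack030

/- ===== packed: Claimed.Agent.R259.S7StabMx ===== -/
section
/-
Row 259 (S0499), section 7, package BP-S7-STAB: real matrix lemmas.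
Owner: helper239.  Prefix `s7t`.

* `s7t_two_basis` : `‖f(A) - f(B)‖² = ∑_{ij} (f(a_i) - f(b_j))² W_ij²`, `W = U_Aᵀ U_B`;
* `s7t_L73`       : matrix Lemma 7.3, `∫_0^∞ ‖h_T(A) - h_T(B)‖² dT/T² ≤ 4 log(1+L) ‖A - B‖²`;
* `s7tPsiM`       : the rational cutoff `Ψ_T = ψ_T(R)`; `∫_0^∞ ‖M Ψ_T‖² dT/T² = (4/x0) ‖M R‖²`;
* `s7t_hT_eq`     : `h_T(A) = (obsC L T A²)^{1/2}`;
* `s7t_psd_mul`   : the product of two commuting positive semidefinite matrices.
-/
set_option autoImplicit false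

open MeasureTheory Set
open scoped BigOperators Matrix
open Claimed.Agent.R260

namespace Claimed.Agent.R259

variable {n : ℕ}

theorem s7t_mxSq_orth (U V F : Mx n) (hU : U * Uᵀ = 1) (hV : V * Vᵀ = 1) :
    mxSq (Uᵀ * F * V) = mxSq F := by
  unfold mxSq
  have e : (Uᵀ * F * V)ᵀ * (Uᵀ * F * V) = Vᵀ * (Fᵀ * (U * Uᵀ) * F) * V := by
    simp only [Matrix.transpose_mul, Matrix.transpose_transpose, Matrix.mul_assoc]
  rw [e, hU, Matrix.mul_one, Matrix.trace_mul_comm, ← Matrix.mul_assoc, hV, Matrix.one_mul]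

/-- the two-eigenbases formula -/
theorem s7t_two_basis (f : ℝ → ℝ) (A B : Mx n) :
    mxSq (mxFun f A - mxFun f B) = ∑ i, ∑ j,
      (f (mxEig A i) - f (mxEig B j)) ^ 2 * (((mxU A)ᵀ * mxU B) i j) ^ 2 := by
  rw [← s7t_mxSq_orth (mxU A) (mxU B) _ (mxU_mul_transpose A) (mxU_mul_transpose B)]
  have e : (mxU A)ᵀ * (mxFun f A - mxFun f B) * mxU B =
      Matrix.diagonal (fun i => f (mxEig A i)) * ((mxU A)ᵀ * mxU B) -
        ((mxU A)ᵀ * mxU B) * Matrix.diagonal (fun i => f (mxEig B i)) := by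
    unfold mxFun
    rw [Matrix.mul_sub, Matrix.sub_mul]
    congr 1
    · calc (mxU A)ᵀ * (mxU A * Matrix.diagonal (fun i => f (mxEig A i)) * (mxU A)ᵀ) * mxU B
          = ((mxU A)ᵀ * mxU A) * Matrix.diagonal (fun i => f (mxEig A i)) *
              ((mxU A)ᵀ * mxU B) := by simp only [Matrix.mul_assoc]
        _ = _ := by rw [mxU_transpose_mul, Matrix.one_mul]
    · calc (mxU A)ᵀ * (mxU B * Matrix.diagonal (fun i => f (mxEig B i)) * (mxU B)ᵀ) * mxU B
          = ((mxU A)ᵀ * mxU B) * Matrix.diagonal (fun i => f (mxEig B i)) *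
              ((mxU B)ᵀ * mxU B) := by simp only [Matrix.mul_assoc]
        _ = _ := by rw [mxU_transpose_mul, Matrix.mul_one]
  rw [e, mxSq_eq_sum]
  refine Finset.sum_congr rfl fun i _ => Finset.sum_congr rfl fun j _ => ?_
  rw [Matrix.sub_apply, Matrix.diagonal_mul, Matrix.mul_diagonal]
  ring

/-- **matrix Lemma 7.3** (constant `4 log(1+L)`) -/
theorem s7t_L73 {A B : Mx n} (hA : A.IsSymm) (hB : B.IsSymm) (hA0 : ∀ i, 0 ≤ mxEig A i)
    (hB0 : ∀ i, 0 ≤ mxEig B i) {L : ℝ} (hL : 1 ≤ L) :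
    IntegrableOn (fun T => mxSq (mxFun (hT L T) A - mxFun (hT L T) B) / T ^ 2) (Ioi 0) ∧
      ∫ T in Ioi (0 : ℝ), mxSq (mxFun (hT L T) A - mxFun (hT L T) B) / T ^ 2 ≤
        4 * Real.log (1 + L) * mxSq (A - B) := by
  set W := (mxU A)ᵀ * mxU B with hW
  have e : (fun T => mxSq (mxFun (hT L T) A - mxFun (hT L T) B) / T ^ 2) = fun T => ∑ i, ∑ j,
      (hT L T (mxEig A i) - hT L T (mxEig B j)) ^ 2 / T ^ 2 * (W i j) ^ 2 := by
    funext T
    rw [s7t_two_basis, Finset.sum_div]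
    refine Finset.sum_congr rfl fun i _ => ?_
    rw [Finset.sum_div]
    refine Finset.sum_congr rfl fun j _ => ?_
    ring
  have hint : ∀ i j, IntegrableOn (fun T =>
      (hT L T (mxEig A i) - hT L T (mxEig B j)) ^ 2 / T ^ 2 * (W i j) ^ 2) (Ioi 0) := fun i j =>
    (s7t_hT_int hL (hA0 i) (hB0 j)).1.mul_const _
  rw [e]
  refine ⟨integrable_finsetSum _ fun i _ => integrable_finsetSum _ fun j _ => hint i j, ?_⟩
  rw [integral_finsetSum _ fun i _ => integrable_finsetSum _ fun j _ => hint i j]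
  have e2 : mxSq (A - B) = ∑ i, ∑ j, (mxEig A i - mxEig B j) ^ 2 * (W i j) ^ 2 := by
    have := s7t_two_basis (fun a => a) A B
    rwa [mxFun_id hA, mxFun_id hB] at this
  rw [e2, Finset.mul_sum]
  refine Finset.sum_le_sum fun i _ => ?_
  rw [integral_finsetSum _ fun j _ => hint i j, Finset.mul_sum]
  refine Finset.sum_le_sum fun j _ => ?_
  rw [integral_mul_const, ← mul_assoc]
  exact mul_le_mul_of_nonneg_right (s7t_hT_int hL (hA0 i) (hB0 j)).2 (sq_nonneg _)

/-! ### the rational cutoff -/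

/-- `Ψ_T = 2 (T/x0) R² (1 + (T/x0) R²)⁻¹` -/
noncomputable def s7tPsiM (x0 T : ℝ) (R : Mx n) : Mx n :=
  (2 * (T / x0)) • (R * R * obsE x0 T (R * R))

/-- generates the equation lemma in this file -/
theorem s7tabmx_eqns_cite : True := by
  have := @s7tPsiM.eq_1
  trivial

theorem s7t_PsiM_eq {R : Mx n} (hR : R.IsSymm) {x0 T : ℝ} (hx : 0 < x0) (hTp : 0 ≤ T) :
    s7tPsiM x0 T R = mxFun (s7tPsi x0 T) R := by
  unfold s7tPsiM
  rw [s7u_obsE hR hx hTp, s7u_sq_eq hR]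
  have : mxFun (s7tPsi x0 T) R = mxFun (fun β => 2 * (T / x0) * (β ^ 2 * s7uE x0 T β)) R := rfl
  rw [this, mxFun_smul, mxFun_mul]

theorem s7t_mxSq_mul_mxFun (M R : Mx n) (g : ℝ → ℝ) :
    mxSq (M * mxFun g R) = ∑ a, ∑ b, (mxRot R M a b) ^ 2 * g (mxEig R b) ^ 2 := by
  rw [mxSq_rot R]
  refine Finset.sum_congr rfl fun a _ => Finset.sum_congr rfl fun b _ => ?_
  rw [mxRot_mul_mxFun_apply, mul_pow]

theorem s7t_Psi_int {R : Mx n} (hR : R.IsSymm) {x0 : ℝ} (hx : 0 < x0) (M : Mx n) :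
    IntegrableOn (fun T => mxSq (M * s7tPsiM x0 T R) / T ^ 2) (Ioi 0) ∧
      ∫ T in Ioi (0 : ℝ), mxSq (M * s7tPsiM x0 T R) / T ^ 2 = 4 / x0 * mxSq (M * R) := by
  have hcongr : EqOn (fun T => mxSq (M * s7tPsiM x0 T R) / T ^ 2) (fun T => ∑ a, ∑ b,
      (mxRot R M a b) ^ 2 * (s7tPsi x0 T (mxEig R b) ^ 2 / T ^ 2)) (Ioi 0) := by
    intro T hTp
    have hT' : (0 : ℝ) < T := hTp
    simp only
    rw [s7t_PsiM_eq hR hx hT'.le, s7t_mxSq_mul_mxFun, Finset.sum_div]
    refine Finset.sum_congr rfl fun a _ => ?_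
    rw [Finset.sum_div]
    refine Finset.sum_congr rfl fun b _ => ?_
    ring
  have hint : ∀ a b, IntegrableOn (fun T =>
      (mxRot R M a b) ^ 2 * (s7tPsi x0 T (mxEig R b) ^ 2 / T ^ 2)) (Ioi 0) := fun a b =>
    (s7t_psi_int hx (mxEig R b)).1.const_mul _
  have hsum : IntegrableOn (fun T => ∑ a, ∑ b,
      (mxRot R M a b) ^ 2 * (s7tPsi x0 T (mxEig R b) ^ 2 / T ^ 2)) (Ioi 0) :=
    integrable_finsetSum _ fun a _ => integrable_finsetSum _ fun b _ => hint a b
  refine ⟨hsum.congr_fun hcongr.symm measurableSet_Ioi, ?_⟩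
  rw [setIntegral_congr_fun measurableSet_Ioi hcongr,
    integral_finsetSum _ fun a _ => integrable_finsetSum _ fun b _ => hint a b]
  have e2 : mxSq (M * R) = ∑ a, ∑ b, (mxRot R M a b) ^ 2 * (mxEig R b) ^ 2 := by
    have := s7t_mxSq_mul_mxFun M R (fun a => a)
    rwa [mxFun_id hR] at this
  rw [e2, Finset.mul_sum]
  refine Finset.sum_congr rfl fun a _ => ?_
  rw [integral_finsetSum _ fun b _ => hint a b, Finset.mul_sum]
  refine Finset.sum_congr rfl fun b _ => ?_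
  rw [integral_const_mul, (s7t_psi_int hx (mxEig R b)).2]
  ring

/-! ### `h_T(A)` as the square root of a rational function -/

theorem s7t_hT_scalar (L T v : ℝ) : hT L T v = Real.sqrt (s7uC L T v) := by
  unfold hT fL s7uC s7uE
  congr 1
  rw [div_eq_mul_inv (T * v ^ 2) (1 + T * v ^ 2 / L)]
  have : T * v ^ 2 / L = T / L * v ^ 2 := by ring
  rw [this]
  ring

theorem s7t_hT_eq {A : Mx n} (hA : A.IsSymm) {L T : ℝ} (hL : 0 < L) (hTp : 0 ≤ T) :
    mxFun (hT L T) A = mxFun Real.sqrt (obsC L T (A * A)) := by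
  rw [s7u_obsC hA hL hTp, mxFun_comp]
  exact mxFun_congr fun i => s7t_hT_scalar L T _

/-! ### commuting positive semidefinite matrices -/

theorem s7t_psd_mul {A E : Mx n} (hA : A.PosSemidef) (hE : E.PosSemidef) (hc : E * A = A * E) :
    (A * E).PosSemidef := by
  set S := mxFun Real.sqrt A with hS
  have hSS : S * S = A := s7u_sqrt_mul_sqrt hA
  have hSE : E * S = S * E := mxFun_commute_of (s7u_psd_symm hA) hc
  have hSt : Sᴴ = S := by
    rw [Matrix.conjTranspose_eq_transpose_of_trivial]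
    exact mxFun_isSymm _ _
  have e : A * E = S * E * Sᴴ := by
    rw [hSt, Matrix.mul_assoc, hSE, ← Matrix.mul_assoc, hSS]
  rw [e]
  exact hE.mul_mul_conjTranspose_same S

end Claimed.Agent.R259
end

/- ===== packed: Claimed.Agent.R259.S7StabPt ===== -/
section
/-
Row 259 (S0499), section 7, package BP-S7-STAB: the pointwise estimates for the pay-off of a bounded test.
Owner: helper239.  Prefix `s7t`.

At a fixed datum `d`, scale `T ≥ 0`, parameter `u` with `‖c_k(u,x)‖ ≤ S`; `Ψ = s7tPsiM P.x0 T (B.Rs d)`: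
* `s7t_tQ_sq_le`  : `‖Q‖² ≤ K² S² ‖Ψ‖²`;
* `s7t_tQ_sub_le` : `‖Q(z) - Q(z')‖² ≤ 4 K S² (∑ r_k²) |z - z'|²`;
* `s7t_trace_le`  : `|tr(M Y)| ≤ ‖M Ψ‖ ‖Y‖` for `Y = Π Y`;
* `s7t_pay_abs`, `s7t_pay_diff` : the two bounds used in the integration.
-/
set_option autoImplicit false

open MeasureTheory Set
open scoped BigOperators Matrix
open Claimed.Agent.R260

namespace Claimed.Agent.R259

variable {n : ℕ}

/-! ### elementary facts on `mxSq`, `colAt` -/

theorem s7t_mxSq_smul (c : ℝ) (X : Mx n) : mxSq (c • X) = c ^ 2 * mxSq X := by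
  rw [mxSq_eq_sum, mxSq_eq_sum, Finset.mul_sum]
  refine Finset.sum_congr rfl fun i _ => ?_
  rw [Finset.mul_sum]
  refine Finset.sum_congr rfl fun j _ => ?_
  rw [Matrix.smul_apply, smul_eq_mul, mul_pow]

theorem s7t_mxSq_sub_le (X Y : Mx n) : mxSq (X - Y) ≤ 2 * mxSq X + 2 * mxSq Y := by
  rw [mxSq_eq_sum, mxSq_eq_sum, mxSq_eq_sum, Finset.mul_sum, Finset.mul_sum,
    ← Finset.sum_add_distrib]
  refine Finset.sum_le_sum fun i _ => ?_
  rw [Finset.mul_sum, Finset.mul_sum, ← Finset.sum_add_distrib]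
  refine Finset.sum_le_sum fun j _ => ?_
  rw [Matrix.sub_apply]
  nlinarith [sq_nonneg (X i j + Y i j)]

theorem s7t_mxSq_mxFun (g : ℝ → ℝ) (R : Mx n) : mxSq (mxFun g R) = ∑ i, g (mxEig R i) ^ 2 := by
  unfold mxSq
  rw [mxFun_isSymm, ← mxFun_mul, mxFun_trace]
  exact Finset.sum_congr rfl fun i _ => (pow_two _).symm

theorem s7t_colAt_sub (H : Fin n → Mx n) (z z' : EE n) :
    colAt H (z - z') = colAt H z - colAt H z' := by
  unfold colAt
  rw [← Finset.sum_sub_distrib]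
  refine Finset.sum_congr rfl fun i _ => ?_
  rw [← sub_smul]
  rfl

theorem s7t_colAt_smul (H : Fin n → Mx n) (c : ℝ) (z : EE n) :
    colAt H (c • z) = c • colAt H z := by
  unfold colAt
  rw [Finset.smul_sum]
  refine Finset.sum_congr rfl fun i _ => ?_
  rw [smul_smul]
  rfl

theorem s7t_colAt_symm {H : Fin n → Mx n} (hH : ∀ i, (H i).IsSymm) (z : EE n) :
    (colAt H z).IsSymm := by
  unfold colAt Matrix.IsSymm
  rw [Matrix.transpose_sum]
  refine Finset.sum_congr rfl fun i _ => ?_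
  rw [Matrix.transpose_smul, hH i]

/-! ### the spectral projection `Π = 1_{T R² ≥ x0}` -/

/-- the spectral projection onto `{T β² ≥ x0}` -/
noncomputable def s7tPi (x0 T : ℝ) (R : Mx n) : CMx n :=
  mxFunC (fun β => if x0 ≤ T * β ^ 2 then 1 else 0) R

/-- generates the equation lemma in this file -/
theorem s7tabpt_eqns_cite : True := by
  have := @s7tPi.eq_1
  trivial

theorem s7t_Pi_mul_coef (P : Tst) (k : Fin P.K) (u T : ℝ) (R : Mx n) :
    s7tPi P.x0 T R * mxFunC (fun v => P.c k u (T * v ^ 2)) R =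
      mxFunC (fun v => P.c k u (T * v ^ 2)) R := by
  unfold s7tPi
  rw [← mxFunC_mul]
  refine mxFunC_congr fun i => ?_
  by_cases h : P.x0 ≤ T * mxEig R i ^ 2
  · rw [if_pos h, one_mul]
  · rw [if_neg h, zero_mul, P.c_supp k u _ (fun hm => h hm.1)]

/-- `|tr(M Y)| ≤ ‖M Ψ‖ ‖Y‖` if `Π Y = Y` -/
theorem s7t_trace_le {R : Mx n} (hR : R.IsSymm) {x0 T : ℝ} (hx : 0 < x0) (hTp : 0 ≤ T) (M : Mx n)
    {Y : CMx n} (hY : s7tPi x0 T R * Y = Y) :
    ‖Matrix.trace (toC M * Y)‖ ≤ Real.sqrt (mxSq (M * s7tPsiM x0 T R)) * Real.sqrt (cSq Y) := by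
  set ξ : ℝ → ℂ := fun β => if x0 ≤ T * β ^ 2 then (((s7tPsi x0 T β)⁻¹ : ℝ) : ℂ) else 0 with hξ
  have e1 : s7tPi x0 T R = toC (s7tPsiM x0 T R) * mxFunC ξ R := by
    rw [s7t_PsiM_eq hR hx hTp, ← mxFunC_ofReal, ← mxFunC_mul]
    unfold s7tPi
    refine mxFunC_congr fun i => ?_
    rw [hξ]
    by_cases h : x0 ≤ T * mxEig R i ^ 2
    · have h1 := s7t_psi_ge hx hTp h
      simp only [if_pos h]
      rw [← Complex.ofReal_mul, mul_inv_cancel₀ (by linarith), Complex.ofReal_one]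
    · simp only [if_neg h, mul_zero]
  have hξ1 : ∀ i, ‖ξ (mxEig R i)‖ ≤ 1 := by
    intro i
    rw [hξ]
    by_cases h : x0 ≤ T * mxEig R i ^ 2
    · have h1 := s7t_psi_ge hx hTp h
      simp only [if_pos h]
      rw [Complex.norm_real, Real.norm_of_nonneg (by positivity)]
      exact inv_le_one_of_one_le₀ h1
    · simp only [if_neg h, norm_zero, zero_le_one]
  have e2 : toC M * Y = toC (M * s7tPsiM x0 T R) * (mxFunC ξ R * Y) := by
    conv_lhs => rw [← hY, e1]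
    rw [toC_mul]
    simp only [Matrix.mul_assoc]
  rw [e2]
  refine (cSq_trace_mul_le _ _).trans ?_
  rw [cSq_toC]
  refine mul_le_mul_of_nonneg_left (Real.sqrt_le_sqrt ?_) (Real.sqrt_nonneg _)
  have := cSq_mxFunC_mul_le hξ1 Y
  simpa using this

/-- the Hilbert-Schmidt norm of a coefficient -/
theorem s7t_coef_le (P : Tst) (k : Fin P.K) {u T S : ℝ} (hTp : 0 ≤ T)
    (hS : ∀ x, ‖P.c k u x‖ ≤ S) {R : Mx n} (hR : R.IsSymm) :
    cSq (mxFunC (fun v => P.c k u (T * v ^ 2)) R) ≤ S ^ 2 * mxSq (s7tPsiM P.x0 T R) := by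
  rw [cSq_mxFunC, s7t_PsiM_eq hR P.x0_pos hTp, s7t_mxSq_mxFun, Finset.mul_sum]
  refine Finset.sum_le_sum fun i _ => ?_
  have hS0 : 0 ≤ S := (norm_nonneg _).trans (hS 0)
  by_cases h : P.x0 ≤ T * mxEig R i ^ 2
  · have h1 := s7t_psi_ge P.x0_pos hTp h
    have h2 : ‖P.c k u (T * mxEig R i ^ 2)‖ ^ 2 ≤ S ^ 2 :=
      pow_le_pow_left₀ (norm_nonneg _) (hS _) 2
    have h3 : 1 ≤ s7tPsi P.x0 T (mxEig R i) ^ 2 := one_le_pow₀ h1
    nlinarith [sq_nonneg S]
  · rw [P.c_supp k u _ (fun hm => h hm.1), norm_zero, zero_pow two_ne_zero]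
    positivity

section Block

variable {D : Type} [MeasurableSpace D] {Q : Measure D} (B : BlockModel n Q)

theorem s7t_Rs_symm (d : D) : (B.Rs d).IsSymm := s7u_psd_symm (B.Rs_psd d)

theorem s7t_Pi_tQ (P : Tst) (u T : ℝ) (d : D) (y z : EE n) :
    s7tPi P.x0 T (B.Rs d) * B.tQ P u T d y z = B.tQ P u T d y z := by
  unfold BlockModel.tQ
  rw [Finset.mul_sum]
  refine Finset.sum_congr rfl fun k _ => ?_
  rw [← Matrix.mul_assoc, ← Matrix.mul_assoc, s7t_Pi_mul_coef]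

theorem s7t_tQ_sq_le (P : Tst) {u T S : ℝ} (hTp : 0 ≤ T) (hS : ∀ k x, ‖P.c k u x‖ ≤ S) (d : D)
    (y z : EE n) :
    cSq (B.tQ P u T d y z) ≤ (P.K : ℝ) ^ 2 * S ^ 2 * mxSq (s7tPsiM P.x0 T (B.Rs d)) := by
  unfold BlockModel.tQ
  refine (cSq_sum_le _ _).trans ?_
  have h1 : ∀ k ∈ (Finset.univ : Finset (Fin P.K)),
      cSq (mxFunC (fun v => P.c k u (T * v ^ 2)) (B.Rs d) * cE (P.s k) (colAt (B.H d) y)
        * cE (P.r k) (colAt (B.H d) z)) ≤ S ^ 2 * mxSq (s7tPsiM P.x0 T (B.Rs d)) := by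
    intro k _
    rw [cSq_mul_unitary _ (cE_mul_conjTranspose _ _), cSq_mul_unitary _ (cE_mul_conjTranspose _ _)]
    exact s7t_coef_le P k hTp (hS k) (s7t_Rs_symm B d)
  have h2 := Finset.sum_le_sum h1
  rw [Finset.sum_const, Finset.card_univ, Fintype.card_fin, nsmul_eq_mul] at h2
  rw [Finset.card_univ, Fintype.card_fin]
  calc (P.K : ℝ) * _ ≤ (P.K : ℝ) * ((P.K : ℝ) * (S ^ 2 * mxSq (s7tPsiM P.x0 T (B.Rs d)))) :=
        mul_le_mul_of_nonneg_left h2 (Nat.cast_nonneg _)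
    _ = _ := by ring

theorem s7t_tQ_sub_le (P : Tst) {u S : ℝ} (T : ℝ) (hS : ∀ k x, ‖P.c k u x‖ ≤ S) (d : D)
    (y z z' : EE n) :
    cSq (B.tQ P u T d y z - B.tQ P u T d y z') ≤
      4 * (P.K : ℝ) * S ^ 2 * (∑ k, P.r k ^ 2) * ‖z - z'‖ ^ 2 := by
  unfold BlockModel.tQ
  rw [← Finset.sum_sub_distrib]
  refine (cSq_sum_le _ _).trans ?_
  have h1 : ∀ k ∈ (Finset.univ : Finset (Fin P.K)),
      cSq (mxFunC (fun v => P.c k u (T * v ^ 2)) (B.Rs d) * cE (P.s k) (colAt (B.H d) y)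
          * cE (P.r k) (colAt (B.H d) z) -
        mxFunC (fun v => P.c k u (T * v ^ 2)) (B.Rs d) * cE (P.s k) (colAt (B.H d) y)
          * cE (P.r k) (colAt (B.H d) z')) ≤ S ^ 2 * (P.r k ^ 2 * (4 * ‖z - z'‖ ^ 2)) := by
    intro k _
    rw [← Matrix.mul_sub, Matrix.mul_assoc]
    refine (cSq_mxFunC_mul_le (f := fun v => P.c k u (T * v ^ 2)) (A := B.Rs d) (C := S)
      (fun i => hS k _) _).trans ?_
    refine mul_le_mul_of_nonneg_left ?_ (sq_nonneg _)
    rw [cSq_unitary_mul _ (cE_conjTranspose_mul _ _)]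
    refine (cE_sub_le _ (s7t_colAt_symm (B.H_symm d) z) (s7t_colAt_symm (B.H_symm d) z')).trans ?_
    refine mul_le_mul_of_nonneg_left ?_ (sq_nonneg _)
    rw [← s7t_colAt_sub]
    exact B.flt d _
  have h2 := Finset.sum_le_sum h1
  rw [Finset.card_univ, Fintype.card_fin]
  calc (P.K : ℝ) * _ ≤ (P.K : ℝ) * ∑ k, S ^ 2 * (P.r k ^ 2 * (4 * ‖z - z'‖ ^ 2)) :=
        mul_le_mul_of_nonneg_left h2 (Nat.cast_nonneg _)
    _ = _ := by
        rw [← Finset.mul_sum, ← Finset.sum_mul]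
        ring

/-- scalar inequality behind `s7t_pay_abs` -/
theorem s7t_abs_aux {A q τ : ℝ} (hA : 0 ≤ A) (hq : 0 ≤ q)
    (hτ : |τ| ≤ Real.sqrt A * Real.sqrt q) : |2 * τ - 4 * q| ≤ A + 5 * q := by
  have h1 : Real.sqrt A * Real.sqrt q ≤ (A + q) / 2 := by
    have a1 := Real.sq_sqrt hA
    have a2 := Real.sq_sqrt hq
    nlinarith [sq_nonneg (Real.sqrt A - Real.sqrt q)]
  have h2 := abs_le.1 (hτ.trans h1)
  rw [abs_le]
  constructor <;> linarith [h2.1, h2.2]

theorem s7t_pay_abs (P : Tst) {u T S : ℝ} (hTp : 0 ≤ T) (hS : ∀ k x, ‖P.c k u x‖ ≤ S) (d : D)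
    (v y z : EE n) :
    |B.pay d v (B.tQ P u T d y z)| ≤ mxSq (colAt (B.H d) v * s7tPsiM P.x0 T (B.Rs d)) +
      5 * ((P.K : ℝ) ^ 2 * S ^ 2 * mxSq (s7tPsiM P.x0 T (B.Rs d))) := by
  unfold BlockModel.pay
  have h1 := s7t_trace_le (s7t_Rs_symm B d) P.x0_pos hTp (colAt (B.H d) v) (s7t_Pi_tQ B P u T d y z)
  have h2 := (Complex.abs_re_le_norm _).trans h1
  have h3 := s7t_abs_aux (mxSq_nonneg _) (cSq_nonneg _) h2
  have h4 := s7t_tQ_sq_le B P hTp hS d y z
  linarith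

/-- scalar inequality behind `s7t_pay_diff` -/
theorem s7t_diff_aux {A e q q' qb τ s : ℝ} (hA : 0 ≤ A) (he : 0 ≤ e) (hq : 0 ≤ q) (hq' : 0 ≤ q')
    (hqb : q ≤ qb) (hqb' : q' ≤ qb) (hs : 0 < s) (hτ : |τ| ≤ Real.sqrt A * Real.sqrt e)
    (h1 : Real.sqrt q ≤ Real.sqrt q' + Real.sqrt e) (h2 : Real.sqrt q' ≤ Real.sqrt q + Real.sqrt e) :
    |2 * τ - 4 * (q - q')| ≤ e / (2 * s) + s * (4 * A + 64 * qb) := by
  set a := Real.sqrt A with ha
  set x := Real.sqrt e with hx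
  set y := Real.sqrt q with hy
  set y' := Real.sqrt q' with hy'
  set b := Real.sqrt qb with hb
  have hqb0 : 0 ≤ qb := hq.trans hqb
  have a0 : 0 ≤ a := Real.sqrt_nonneg _
  have x0 : 0 ≤ x := Real.sqrt_nonneg _
  have y0 : 0 ≤ y := Real.sqrt_nonneg _
  have y0' : 0 ≤ y' := Real.sqrt_nonneg _
  have b0 : 0 ≤ b := Real.sqrt_nonneg _
  have eA : A = a ^ 2 := (Real.sq_sqrt hA).symm
  have ee : e = x ^ 2 := (Real.sq_sqrt he).symm
  have eq1 : q = y ^ 2 := (Real.sq_sqrt hq).symm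
  have eq2 : q' = y' ^ 2 := (Real.sq_sqrt hq').symm
  have eqb : qb = b ^ 2 := (Real.sq_sqrt hqb0).symm
  have yb : y ≤ b := Real.sqrt_le_sqrt hqb
  have yb' : y' ≤ b := Real.sqrt_le_sqrt hqb'
  -- `|q - q'| ≤ x (y + y') ≤ 2 b x`
  have h3 : |q - q'| ≤ 2 * b * x := by
    rw [eq1, eq2, show y ^ 2 - y' ^ 2 = (y - y') * (y + y') by ring, abs_mul,
      abs_of_nonneg (add_nonneg y0 y0')]
    have h4 : |y - y'| ≤ x := abs_le.2 ⟨by linarith, by linarith⟩
    calc |y - y'| * (y + y') ≤ x * (2 * b) :=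
          mul_le_mul h4 (by linarith) (add_nonneg y0 y0') x0
      _ = 2 * b * x := by ring
  have h5 : |2 * τ - 4 * (q - q')| ≤ x * (2 * a + 8 * b) := by
    have h6 := abs_le.1 hτ
    have h7 := abs_le.1 h3
    rw [abs_le]
    constructor <;> nlinarith [h6.1, h6.2, h7.1, h7.2]
  refine h5.trans ?_
  -- Young
  have h8 : x * (2 * a + 8 * b) ≤ x ^ 2 / (2 * s) + s * (2 * a + 8 * b) ^ 2 / 2 := by
    have h9 : 0 ≤ (x / s - (2 * a + 8 * b)) ^ 2 * s / 2 := by positivity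
    have e1 : (x / s - (2 * a + 8 * b)) ^ 2 * s / 2 =
        x ^ 2 / (2 * s) + s * (2 * a + 8 * b) ^ 2 / 2 - x * (2 * a + 8 * b) := by
      field_simp
      ring
    linarith
  have h10 : (2 * a + 8 * b) ^ 2 ≤ 2 * (4 * a ^ 2 + 64 * b ^ 2) := by
    nlinarith [sq_nonneg (2 * a - 8 * b)]
  have h11 : s * (2 * a + 8 * b) ^ 2 / 2 ≤ s * (4 * a ^ 2 + 64 * b ^ 2) := by
    have := mul_le_mul_of_nonneg_left h10 hs.le
    linarith
  rw [ee, eA, eqb]
  linarith

theorem s7t_pay_diff (P : Tst) {u T S s : ℝ} (hTp : 0 ≤ T) (hS : ∀ k x, ‖P.c k u x‖ ≤ S)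
    (hs : 0 < s) (d : D) (v y z z' : EE n) :
    |B.pay d v (B.tQ P u T d y z) - B.pay d v (B.tQ P u T d y z')| ≤
      4 * (P.K : ℝ) * S ^ 2 * (∑ k, P.r k ^ 2) * ‖z - z'‖ ^ 2 / (2 * s) +
      s * (4 * mxSq (colAt (B.H d) v * s7tPsiM P.x0 T (B.Rs d)) +
        64 * ((P.K : ℝ) ^ 2 * S ^ 2 * mxSq (s7tPsiM P.x0 T (B.Rs d)))) := by
  set Q1 := B.tQ P u T d y z with hQ1
  set Q2 := B.tQ P u T d y z' with hQ2
  have hPi : s7tPi P.x0 T (B.Rs d) * (Q1 - Q2) = Q1 - Q2 := by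
    rw [Matrix.mul_sub, hQ1, hQ2, s7t_Pi_tQ, s7t_Pi_tQ]
  have h1 := s7t_trace_le (s7t_Rs_symm B d) P.x0_pos hTp (colAt (B.H d) v) hPi
  have h2 := (Complex.abs_re_le_norm _).trans h1
  have t1 : Real.sqrt (cSq Q1) ≤ Real.sqrt (cSq Q2) + Real.sqrt (cSq (Q1 - Q2)) := by
    have := cSq_sqrt_add_le Q2 (Q1 - Q2)
    rwa [add_sub_cancel] at this
  have t2 : Real.sqrt (cSq Q2) ≤ Real.sqrt (cSq Q1) + Real.sqrt (cSq (Q1 - Q2)) := by
    have := cSq_sqrt_add_le Q1 (-(Q1 - Q2))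
    rw [cSq_neg] at this
    have e : Q1 + -(Q1 - Q2) = Q2 := by abel
    rwa [e] at this
  have h3 := s7t_diff_aux (mxSq_nonneg _) (cSq_nonneg (Q1 - Q2)) (cSq_nonneg Q1) (cSq_nonneg Q2)
    (s7t_tQ_sq_le B P hTp hS d y z) (s7t_tQ_sq_le B P hTp hS d y z') hs h2 t1 t2
  have e : B.pay d v Q1 - B.pay d v Q2 =
      2 * (Matrix.trace (toC (colAt (B.H d) v) * (Q1 - Q2))).re - 4 * (cSq Q1 - cSq Q2) := by
    unfold BlockModel.pay
    rw [Matrix.mul_sub, Matrix.trace_sub, Complex.sub_re]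
    ring
  rw [e]
  refine h3.trans ?_
  have h4 := s7t_tQ_sub_le B P T hS d y z z'
  have h5 : cSq (Q1 - Q2) / (2 * s) ≤
      4 * (P.K : ℝ) * S ^ 2 * (∑ k, P.r k ^ 2) * ‖z - z'‖ ^ 2 / (2 * s) :=
    div_le_div_of_nonneg_right h4 (by positivity)
  linarith

/-- the vector `v = N - α N_u` -/
theorem s7t_v_le {u : ℝ} (hu : 0 ≤ u) (H : Fin n → Mx n) (Ψ : Mx n) (a b : EE n) :
    mxSq (colAt H (a - Real.exp (-u) • ouV u a b) * Ψ) ≤
      2 * mxSq (colAt H a * Ψ) + 2 * mxSq (colAt H b * Ψ) := by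
  set α := Real.exp (-u) with hα
  have hα0 : 0 < α := Real.exp_pos _
  have hα1 : α ≤ 1 := Real.exp_le_one_iff.2 (by linarith)
  set σ := Real.sqrt (1 - α ^ 2) with hσ
  have hσ0 : 0 ≤ σ := Real.sqrt_nonneg _
  have hσ2 : σ ^ 2 = 1 - α ^ 2 := Real.sq_sqrt (by nlinarith)
  have e : a - α • ouV u a b = (1 - α ^ 2) • a - (α * σ) • b := by
    unfold ouV
    rw [← hα, ← hσ, smul_add, smul_smul, smul_smul, sub_smul, one_smul, pow_two]
    abel
  rw [e, s7t_colAt_sub, s7t_colAt_smul, s7t_colAt_smul, Matrix.sub_mul, Matrix.smul_mul,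
    Matrix.smul_mul]
  refine (s7t_mxSq_sub_le _ _).trans ?_
  rw [s7t_mxSq_smul, s7t_mxSq_smul]
  have h1 : (1 - α ^ 2) ^ 2 ≤ 1 := by
    have : 0 ≤ 1 - α ^ 2 := by nlinarith
    have : 1 - α ^ 2 ≤ 1 := by nlinarith
    nlinarith
  have h2 : (α * σ) ^ 2 ≤ 1 := by
    rw [mul_pow, hσ2]
    nlinarith [sq_nonneg α]
  have n1 := mxSq_nonneg (colAt H a * Ψ)
  have n2 := mxSq_nonneg (colAt H b * Ψ)
  nlinarith

end Block

end Claimed.Agent.R259
end

/- ===== packed: Claimed.Agent.R259.S7UpInt ===== -/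
section
/-
Row 259 (S0499), section 7, package BP-S7-UPPER: measurability, Tonelli and the integrated bound.
Owner: helper239.  Prefix `s7u`.
-/
set_option autoImplicit false

open MeasureTheory Set
open scoped BigOperators Matrix
open Claimed.Agent.R260

namespace Claimed.Agent.R259

variable {n : ℕ}

/-! ### entrywise measurable matrix fields -/

section Meas

variable {Ω : Type} [MeasurableSpace Ω]

/-- entrywise measurable matrix field -/
def S7uMeas (F : Ω → Mx n) : Prop := ∀ a b, Measurable fun ω => F ω a b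

/-- generates the equation lemma in this file -/
theorem s7upint_eqns_cite : True := by
  have := @S7uMeas.eq_1
  trivial

theorem S7uMeas.const (M : Mx n) : S7uMeas (fun _ : Ω => M) := fun _ _ => measurable_const

theorem S7uMeas.add {F G : Ω → Mx n} (hF : S7uMeas F) (hG : S7uMeas G) :
    S7uMeas fun ω => F ω + G ω := fun a b => (hF a b).add (hG a b)

theorem S7uMeas.sub {F G : Ω → Mx n} (hF : S7uMeas F) (hG : S7uMeas G) :
    S7uMeas fun ω => F ω - G ω := fun a b => (hF a b).sub (hG a b)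

theorem S7uMeas.smul {c : Ω → ℝ} {F : Ω → Mx n} (hc : Measurable c) (hF : S7uMeas F) :
    S7uMeas fun ω => c ω • F ω := fun a b => hc.mul (hF a b)

theorem S7uMeas.mul {F G : Ω → Mx n} (hF : S7uMeas F) (hG : S7uMeas G) :
    S7uMeas fun ω => F ω * G ω := fun a b => by
  simp only [Matrix.mul_apply]
  exact Finset.measurable_sum _ fun j _ => (hF a j).mul (hG j b)

theorem S7uMeas.transpose {F : Ω → Mx n} (hF : S7uMeas F) : S7uMeas fun ω => (F ω)ᵀ :=
  fun a b => hF b a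

theorem S7uMeas.trace {F : Ω → Mx n} (hF : S7uMeas F) : Measurable fun ω => Matrix.trace (F ω) := by
  simp only [Matrix.trace, Matrix.diag_apply]
  exact Finset.measurable_sum _ fun j _ => hF j j

theorem S7uMeas.det {F : Ω → Mx n} (hF : S7uMeas F) : Measurable fun ω => (F ω).det := by
  simp only [Matrix.det_apply]
  exact Finset.measurable_sum _ fun σ _ =>
    (Finset.measurable_prod _ fun j _ => hF (σ j) j).const_smul _

theorem S7uMeas.adjugate {F : Ω → Mx n} (hF : S7uMeas F) : S7uMeas fun ω => (F ω).adjugate := by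
  intro a b
  simp only [Matrix.adjugate_apply]
  refine S7uMeas.det fun i j => ?_
  simp only [Matrix.updateRow_apply]
  by_cases h : i = b
  · simp only [h, if_true]
    exact measurable_const
  · simp only [h, if_false]
    exact hF i j

theorem S7uMeas.inv {F : Ω → Mx n} (hF : S7uMeas F) : S7uMeas fun ω => (F ω)⁻¹ := by
  intro a b
  simp only [Matrix.inv_def, Matrix.smul_apply, Ring.inverse_eq_inv', smul_eq_mul]
  exact hF.det.inv.mul (hF.adjugate a b)

theorem S7uMeas.mxSq {F : Ω → Mx n} (hF : S7uMeas F) : Measurable fun ω => mxSq (F ω) :=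
  (hF.transpose.mul hF).trace

/-- `fish` is jointly measurable -/
theorem s7u_fish_measurable {ρ Δ : Ω → Mx n} (hρ : S7uMeas ρ) (hΔ : S7uMeas Δ) {T : Ω → ℝ}
    (hT : Measurable T) (L : ℝ) : Measurable fun ω => fish L (T ω) (ρ ω) (Δ ω) := by
  have hE : S7uMeas fun ω => obsE L (T ω) (ρ ω) :=
    ((S7uMeas.const 1).add (S7uMeas.smul (hT.div_const L) hρ)).inv
  have hC : S7uMeas fun ω => (obsC L (T ω) (ρ ω))⁻¹ :=
    ((S7uMeas.const 1).add (S7uMeas.smul hT (hρ.mul hE))).inv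
  have hDC : S7uMeas fun ω => obsDC L (T ω) (ρ ω) (Δ ω) := S7uMeas.smul hT ((hE.mul hΔ).mul hE)
  exact (((hC.mul hDC).mul hC).mul hDC).trace

end Meas

/-! ### the commutator is square integrable -/

/-- `‖[Ĥ,R]‖² ≤ 4 ‖ĤR‖²` for a Schur multiplier with symmetric weight -/
theorem s7u_cmm_le {R Δ : Mx n} (hR : R.IsSymm) (hΔ : Δ.IsSymm) {w : ℝ → ℝ → ℝ}
    (hw : ∀ a b, w a b = w b a) :
    mxSq (cmm (mxSchur w R Δ) R) ≤ 4 * mxSq (mxSchur w R Δ * R) := by
  set H := mxSchur w R Δ with hH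
  have hsym : ∀ a b, mxRot R H a b = mxRot R H b a := fun a b => by
    rw [hH, mxRot_mxSchur_apply, mxRot_mxSchur_apply, hw, mxRot_symm_apply R hΔ]
  have h1 : mxSq (H * R) = ∑ a, ∑ b, (mxRot R H a b * mxEig R b) ^ 2 := by
    rw [mxSq_rot R]
    refine Finset.sum_congr rfl fun a _ => Finset.sum_congr rfl fun b _ => ?_
    rw [mxRot_mul, s7u_rot_self hR, Matrix.mul_diagonal]
  have h2 : mxSq (H * R) = ∑ a, ∑ b, (mxEig R a * mxRot R H a b) ^ 2 := by
    rw [h1, Finset.sum_comm]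
    refine Finset.sum_congr rfl fun a _ => Finset.sum_congr rfl fun b _ => ?_
    rw [hsym b a, mul_comm]
  have h3 : 4 * mxSq (H * R) = ∑ a, ∑ b, (2 * (mxRot R H a b * mxEig R b) ^ 2 +
      2 * (mxEig R a * mxRot R H a b) ^ 2) := by
    simp only [Finset.sum_add_distrib, ← Finset.mul_sum]
    rw [← h1, ← h2]
    ring
  rw [h3, mxSq_rot R]
  refine Finset.sum_le_sum fun a _ => Finset.sum_le_sum fun b _ => ?_
  rw [s7u_rot_cmm hR]
  nlinarith [sq_nonneg (mxRot R H a b * mxEig R b + mxEig R a * mxRot R H a b)]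

section Hier

variable (X : HierData n) (k : ℕ)

theorem s7u_cmm_integrable (i : Fin n) :
    Integrable (fun y => mxSq (cmm (X.Hhat k y i) (X.R k y))) (dm X.η) := by
  obtain ⟨hRm, -, hHm, -, hHR⟩ := s6_meas X k
  have hR : S7uMeas fun y => X.R k y := hRm
  have hH : S7uMeas fun y => X.Hhat k y i := hHm i
  have hmeas : Measurable fun y => mxSq (cmm (X.Hhat k y i) (X.R k y)) :=
    ((hH.mul hR).sub (hR.mul hH)).mxSq
  refine Integrable.mono' ((hHR i).const_mul 4) hmeas.aestronglyMeasurable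
    (Filter.Eventually.of_forall fun y => ?_)
  rw [Real.norm_of_nonneg (mxSq_nonneg _)]
  exact s7u_cmm_le (s7u_R_symm X k y) (s7u_Drho_symm X k i y) fun a b => by rw [add_comm]

/-- the pointwise majorant -/
noncomputable def s7uB (L : ℝ) (i : Fin n) (y : EE n) : ℝ :=
  9 * mxSq (X.DR k i y) + 9 * Real.log (1 + L) * mxSq (cmm (X.Hhat k y i) (X.R k y))

/-- generates the equation lemma in this file -/
theorem s7upint_eqns_cite2 : True := by
  have := @s7uB.eq_1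
  trivial

theorem s7uB_integrable (L : ℝ) (i : Fin n) : Integrable (s7uB X k L i) (dm X.η) :=
  (((s6_meas X k).2.2.2.1 i).const_mul 9).add ((s7u_cmm_integrable X k i).const_mul _)

theorem s7u_point_hier {L : ℝ} (hL : 1 ≤ L) (i : Fin n) (y : EE n) :
    IntegrableOn (fun T => fish L T (X.rho k y) (X.Drho k i y) / T ^ 2) (Ioi 0) ∧
      ∫ T in Ioi (0 : ℝ), fish L T (X.rho k y) (X.Drho k i y) / T ^ 2 ≤ s7uB X k L i y := by
  have := s7u_point (s7u_R_symm X k y) (s7u_R_eig_nonneg X k y) (s7u_Drho_symm X k i y)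
    (s7u_Drho_ker X k i y) hL
  rw [s7u_R_mul_R] at this
  exact this

theorem s7u_fish_nonneg_hier {L T : ℝ} (hL : 0 < L) (hT : 0 ≤ T) (i : Fin n) (y : EE n) :
    0 ≤ fish L T (X.rho k y) (X.Drho k i y) := by
  have := s7u_fish_nonneg (s7u_R_symm X k y) (s7u_Drho_symm X k i y) hL hT
  rwa [s7u_R_mul_R] at this

/-- joint integrability on `E × (0,∞)` -/
theorem s7u_joint {L : ℝ} (hL : 1 ≤ L) (i : Fin n) :
    Integrable (fun p : EE n × ℝ => fish L p.2 (X.rho k p.1) (X.Drho k i p.1) / p.2 ^ 2)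
      ((dm X.η).prod (volume.restrict (Ioi 0))) := by
  have hL0 : 0 < L := by linarith
  have hρ : S7uMeas fun p : EE n × ℝ => X.rho k p.1 := fun a b =>
    (s7u_rho_continuous X k a b).measurable.comp measurable_fst
  have hΔ : S7uMeas fun p : EE n × ℝ => X.Drho k i p.1 := fun a b =>
    (s7u_Drho_continuous X k i a b).measurable.comp measurable_fst
  have hmeas : Measurable fun p : EE n × ℝ =>
      fish L p.2 (X.rho k p.1) (X.Drho k i p.1) / p.2 ^ 2 :=
    (s7u_fish_measurable hρ hΔ measurable_snd L).div (measurable_snd.pow_const 2)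
  have haesm := hmeas.aestronglyMeasurable (μ := (dm X.η).prod (volume.restrict (Ioi 0)))
  rw [integrable_prod_iff haesm]
  refine ⟨Filter.Eventually.of_forall fun y => (s7u_point_hier X k hL i y).1, ?_⟩
  refine Integrable.mono' (s7uB_integrable X k L i) haesm.norm.integral_prod_right'
    (Filter.Eventually.of_forall fun y => ?_)
  have hnn : ∀ T ∈ Ioi (0 : ℝ), ‖fish L T (X.rho k y) (X.Drho k i y) / T ^ 2‖ =
      fish L T (X.rho k y) (X.Drho k i y) / T ^ 2 := fun T hT => by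
    have hT' : (0 : ℝ) < T := hT
    exact Real.norm_of_nonneg (div_nonneg (s7u_fish_nonneg_hier X k hL0 hT'.le i y) (by positivity))
  rw [Real.norm_of_nonneg (integral_nonneg fun T => norm_nonneg _),
    setIntegral_congr_fun measurableSet_Ioi hnn]
  exact (s7u_point_hier X k hL i y).2

theorem s7u_sfinite : SFinite (dm X.η) := by
  unfold dm
  infer_instance

/-- one direction `i` -/
theorem s7u_dir {L : ℝ} (hL : 1 ≤ L) (i : Fin n) :
    IntegrableOn (fun T => (∫ y, fish L T (X.rho k y) (X.Drho k i y) ∂(dm X.η)) / T ^ 2) (Ioi 0) ∧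
      ∫ T in Ioi (0 : ℝ), (∫ y, fish L T (X.rho k y) (X.Drho k i y) ∂(dm X.η)) / T ^ 2 ≤
        ∫ y, s7uB X k L i y ∂(dm X.η) := by
  have hj := s7u_joint X k hL i
  have hsf := s7u_sfinite X
  have e : (fun T => (∫ y, fish L T (X.rho k y) (X.Drho k i y) ∂(dm X.η)) / T ^ 2) =
      fun T => ∫ y, fish L T (X.rho k y) (X.Drho k i y) / T ^ 2 ∂(dm X.η) := by
    funext T
    rw [integral_div]
  rw [e]
  refine ⟨hj.integral_prod_right, ?_⟩
  rw [← integral_integral_swap (f := fun y T => fish L T (X.rho k y) (X.Drho k i y) / T ^ 2) hj]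
  exact integral_mono hj.integral_prod_left (s7uB_integrable X k L i)
    fun y => (s7u_point_hier X k hL i y).2

/-- **the integrated upper bound** -/
theorem s7u_upper {L : ℝ} (hL : 1 ≤ L) :
    IntegrableOn (fun T => X.obsU k L T / T ^ 2) (Set.Ioi 0) ∧
      X.obsUU k L ≤ (4 * X.lam)⁻¹ * (9 * X.eD k + 9 * Real.log (1 + L) * X.cHat k) := by
  have hlam : 0 ≤ (4 * X.lam)⁻¹ := by
    have := X.lam_pos
    positivity
  have e : (fun T => X.obsU k L T / T ^ 2) = fun T => (4 * X.lam)⁻¹ *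
      ∑ i, (∫ y, fish L T (X.rho k y) (X.Drho k i y) ∂(dm X.η)) / T ^ 2 := by
    funext T
    unfold HierData.obsU
    rw [mul_div_assoc, Finset.sum_div]
  have hint : IntegrableOn (fun T => ∑ i,
      (∫ y, fish L T (X.rho k y) (X.Drho k i y) ∂(dm X.η)) / T ^ 2) (Ioi 0) :=
    integrable_finsetSum _ fun i _ => (s7u_dir X k hL i).1
  unfold HierData.obsUU
  rw [e]
  refine ⟨hint.const_mul _, ?_⟩
  rw [integral_const_mul, integral_finsetSum _ fun i _ => (s7u_dir X k hL i).1]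
  refine mul_le_mul_of_nonneg_left ?_ hlam
  calc ∑ i, ∫ T in Ioi (0 : ℝ), (∫ y, fish L T (X.rho k y) (X.Drho k i y) ∂(dm X.η)) / T ^ 2
      ≤ ∑ i, ∫ y, s7uB X k L i y ∂(dm X.η) := Finset.sum_le_sum fun i _ => (s7u_dir X k hL i).2
    _ = 9 * X.eD k + 9 * Real.log (1 + L) * X.cHat k := by
      unfold HierData.eD HierData.cHat s7uB
      rw [Finset.mul_sum, Finset.mul_sum, ← Finset.sum_add_distrib]
      refine Finset.sum_congr rfl fun i _ => ?_
      rw [integral_add (((s6_meas X k).2.2.2.1 i).const_mul 9)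
        ((s7u_cmm_integrable X k i).const_mul _), integral_const_mul, integral_const_mul]

end Hier

end Claimed.Agent.R259
end

/- ===== packed: Claimed.Agent.R259.S7StabMeas ===== -/
section
/-
Row 259 (S0499), section 7, package BP-S7-STAB: measurability of the pay-off in all variables.
Owner: helper239.  Prefix `s7t`.

Entrywise measurable complex matrix fields `S7tMeasC`, coordinatewise measurable vector fields `S7tMeasV`;
functional calculus with a fixed continuous function and with a continuous parameter.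
-/
set_option autoImplicit false

open MeasureTheory Set
open scoped BigOperators Matrix
open Claimed.Agent.R260

namespace Claimed.Agent.R259

variable {n : ℕ} {Ω : Type} [MeasurableSpace Ω]

/-- entrywise measurable complex matrix field -/
def S7tMeasC (F : Ω → CMx n) : Prop := ∀ a b, Measurable fun ω => F ω a b

/-- coordinatewise measurable vector field -/
def S7tMeasV (y : Ω → EE n) : Prop := ∀ i, Measurable fun ω => y ω i

/-- generates the equation lemmas in this file -/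
theorem s7tabmeas_eqns_cite : True := by
  have := @S7tMeasC.eq_1
  have := @S7tMeasV.eq_1
  trivial

theorem S7tMeasC.mul {F G : Ω → CMx n} (hF : S7tMeasC F) (hG : S7tMeasC G) :
    S7tMeasC fun ω => F ω * G ω := fun a b => by
  simp only [Matrix.mul_apply]
  exact Finset.measurable_sum _ fun j _ => (hF a j).mul (hG j b)

theorem S7tMeasC.sum {ι : Type} (s : Finset ι) {F : ι → Ω → CMx n} (hF : ∀ i ∈ s, S7tMeasC (F i)) :
    S7tMeasC fun ω => ∑ i ∈ s, F i ω := fun a b => by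
  simp only [Matrix.sum_apply]
  exact Finset.measurable_sum _ fun i hi => hF i hi a b

theorem S7tMeasC.trace {F : Ω → CMx n} (hF : S7tMeasC F) :
    Measurable fun ω => Matrix.trace (F ω) := by
  simp only [Matrix.trace, Matrix.diag_apply]
  exact Finset.measurable_sum _ fun j _ => hF j j

theorem S7tMeasC.cSq {F : Ω → CMx n} (hF : S7tMeasC F) : Measurable fun ω => cSq (F ω) := by
  unfold Claimed.Agent.R259.cSq
  exact Finset.measurable_sum _ fun a _ => Finset.measurable_sum _ fun b _ =>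
    (hF a b).norm.pow_const 2

theorem S7uMeas.toC {F : Ω → Mx n} (hF : S7uMeas F) : S7tMeasC fun ω => toC (F ω) := fun a b => by
  simp only [toC_apply]
  exact Complex.measurable_ofReal.comp (hF a b)

theorem S7tMeasV.of_measurable {y : Ω → EE n} (hy : Measurable y) : S7tMeasV y := fun i =>
  (EuclideanSpace.proj i).continuous.measurable.comp hy

theorem S7tMeasV.add {y z : Ω → EE n} (hy : S7tMeasV y) (hz : S7tMeasV z) :
    S7tMeasV fun ω => y ω + z ω := fun i => (hy i).add (hz i)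

theorem S7tMeasV.sub {y z : Ω → EE n} (hy : S7tMeasV y) (hz : S7tMeasV z) :
    S7tMeasV fun ω => y ω - z ω := fun i => (hy i).sub (hz i)

theorem S7tMeasV.smul {c : Ω → ℝ} {y : Ω → EE n} (hc : Measurable c) (hy : S7tMeasV y) :
    S7tMeasV fun ω => c ω • y ω := fun i => hc.mul (hy i)

theorem S7tMeasV.colAt {H : Ω → Fin n → Mx n} (hH : ∀ i, S7uMeas fun ω => H ω i) {y : Ω → EE n}
    (hy : S7tMeasV y) : S7uMeas fun ω => colAt (H ω) (y ω) := fun a b => by
  unfold Claimed.Agent.R259.colAt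
  simp only [Matrix.sum_apply, Matrix.smul_apply, smul_eq_mul]
  exact Finset.measurable_sum _ fun i _ => (hy i).mul (hH i a b)

theorem S7tMeasV.mv {M : Ω → Mx n} (hM : S7uMeas M) {z : Ω → EE n} (hz : S7tMeasV z) :
    S7tMeasV fun ω => mv (M ω) (z ω) := fun i => by
  unfold Claimed.Agent.R259.mv
  simp only [Matrix.mulVec, dotProduct]
  exact Finset.measurable_sum _ fun j _ => (hM i j).mul (hz j)

theorem S7tMeasV.norm_sq {z : Ω → EE n} (hz : S7tMeasV z) : Measurable fun ω => ‖z ω‖ ^ 2 := by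
  simp only [EuclideanSpace.real_norm_sq_eq]
  exact Finset.measurable_sum _ fun j _ => (hz j).pow_const 2

theorem S7tMeasV.ouV {u : Ω → ℝ} (hu : Measurable u) {a b : Ω → EE n} (ha : S7tMeasV a)
    (hb : S7tMeasV b) : S7tMeasV fun ω => ouV (u ω) (a ω) (b ω) := by
  unfold Claimed.Agent.R259.ouV
  exact (S7tMeasV.smul hu.neg.exp ha).add
    (S7tMeasV.smul ((measurable_const.sub (hu.neg.exp.pow_const 2)).sqrt) hb)

/-- the matrix field as a measurable map into the product space -/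
theorem S7uMeas.pi {A : Ω → Mx n} (hA : S7uMeas A) :
    Measurable fun ω => (fun k l => A ω k l : Fin n → Fin n → ℝ) :=
  measurable_pi_iff.mpr fun k => measurable_pi_iff.mpr fun l => hA k l

theorem s7t_sym_half {A : Mx n} (hA : A.IsSymm) : (1 / 2 : ℝ) • (A + Aᵀ) = A := by
  rw [hA, ← two_smul ℝ A, smul_smul]
  norm_num

/-- functional calculus with a continuous parameter -/
theorem S7uMeas.mxFunC_param {A : Ω → Mx n} (hA : S7uMeas A) (hs : ∀ ω, (A ω).IsSymm) {u : Ω → ℝ}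
    (hu : Measurable u) {f : ℝ → ℝ → ℂ} (hf : Continuous fun p : ℝ × ℝ => f p.1 p.2) :
    S7tMeasC fun ω => mxFunC (f (u ω)) (A ω) := by
  intro a b
  have hc : Continuous fun p : ℝ × (Fin n → Fin n → ℝ) =>
      mxFunC (f p.1) ((1 / 2 : ℝ) • ((Matrix.of p.2 : Mx n) + (Matrix.of p.2 : Mx n)ᵀ)) a b :=
    (mxFunC_continuous_param (n := n) hf).matrix_elem a b
  have h := hc.measurable.comp (hu.prodMk hA.pi)
  have e : ((fun p : ℝ × (Fin n → Fin n → ℝ) =>
      mxFunC (f p.1) ((1 / 2 : ℝ) • ((Matrix.of p.2 : Mx n) + (Matrix.of p.2 : Mx n)ᵀ)) a b) ∘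
      fun ω => (u ω, (fun k l => A ω k l : Fin n → Fin n → ℝ))) =
      fun ω => mxFunC (f (u ω)) (A ω) a b := by
    funext ω
    show mxFunC (f (u ω)) ((1 / 2 : ℝ) • (A ω + (A ω)ᵀ)) a b = _
    rw [s7t_sym_half (hs ω)]
  rwa [e] at h

/-- functional calculus with a fixed continuous function -/
theorem S7uMeas.mxFunC {A : Ω → Mx n} (hA : S7uMeas A) (hs : ∀ ω, (A ω).IsSymm) {f : ℝ → ℂ}
    (hf : Continuous f) : S7tMeasC fun ω => mxFunC f (A ω) :=
  hA.mxFunC_param hs (u := fun _ => 0) measurable_const (f := fun _ => f) (hf.comp continuous_snd)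

theorem S7uMeas.cE {A : Ω → Mx n} (hA : S7uMeas A) (hs : ∀ ω, (A ω).IsSymm) (s : ℝ) :
    S7tMeasC fun ω => cE s (A ω) := by
  unfold Claimed.Agent.R259.cE
  exact hA.mxFunC hs (by fun_prop)

/-- real functional calculus with a fixed continuous function -/
theorem S7uMeas.mxFun {A : Ω → Mx n} (hA : S7uMeas A) (hs : ∀ ω, (A ω).IsSymm) {f : ℝ → ℝ}
    (hf : Continuous f) : S7uMeas fun ω => mxFun f (A ω) := by
  intro a b
  have := mxFun_measurable_sym hA hf a b
  simpa only [s7t_sym_half (hs _)] using this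

/-- the coefficient `c_k(u, T R²)` -/
theorem s7t_coef_eq (P : Tst) (k : Fin P.K) (u T : ℝ) {R : Mx n} (hR : R.IsSymm) :
    mxFunC (fun v => P.c k u (T * v ^ 2)) R = mxFunC (P.c k u) (T • (R * R)) := by
  rw [s7u_sq_eq hR, ← mxFun_smul, mxFunC_comp]

theorem s7t_smul_sq_symm (T : ℝ) {R : Mx n} (hR : R.IsSymm) : (T • (R * R)).IsSymm := by
  unfold Matrix.IsSymm
  rw [Matrix.transpose_smul, Matrix.transpose_mul, hR]

section Block

variable {D : Type} [MeasurableSpace D] {Q : Measure D} (B : BlockModel n Q)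

/-- measurability of the matrix test -/
theorem s7t_tQ_meas (P : Tst) {u T : Ω → ℝ} (hu : Measurable u) (hTm : Measurable T) {d : Ω → D}
    (hd : Measurable d) {y z : Ω → EE n} (hy : S7tMeasV y) (hz : S7tMeasV z) :
    S7tMeasC fun ω => B.tQ P (u ω) (T ω) (d ω) (y ω) (z ω) := by
  have hRs : S7uMeas fun ω => B.Rs (d ω) := fun a b => (B.Rs_meas a b).comp hd
  have hH : ∀ i, S7uMeas fun ω => B.H (d ω) i := fun i a b => (B.H_meas i a b).comp hd
  unfold BlockModel.tQ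
  refine S7tMeasC.sum _ fun k _ => ?_
  refine S7tMeasC.mul (S7tMeasC.mul ?_ ?_) ?_
  · simp only [s7t_coef_eq P k _ _ (s7t_Rs_symm B _)]
    exact (S7uMeas.smul hTm (hRs.mul hRs)).mxFunC_param
      (fun ω => s7t_smul_sq_symm _ (s7t_Rs_symm B _)) hu (P.c_cont k)
  · exact (S7tMeasV.colAt hH hy).cE (fun ω => s7t_colAt_symm (B.H_symm _) _) _
  · exact (S7tMeasV.colAt hH hz).cE (fun ω => s7t_colAt_symm (B.H_symm _) _) _

/-- measurability of the pay-off -/
theorem s7t_pay_meas {d : Ω → D} (hd : Measurable d) {v : Ω → EE n} (hv : S7tMeasV v)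
    {Qm : Ω → CMx n} (hQ : S7tMeasC Qm) : Measurable fun ω => B.pay (d ω) (v ω) (Qm ω) := by
  have hH : ∀ i, S7uMeas fun ω => B.H (d ω) i := fun i a b => (B.H_meas i a b).comp hd
  unfold BlockModel.pay
  exact ((Complex.measurable_re.comp ((S7tMeasV.colAt hH hv).toC.mul hQ).trace).const_mul 2).sub
    (hQ.cSq.const_mul 4)

/-- measurability of the rational cutoff -/
theorem s7t_PsiM_meas (x0 : ℝ) {T : Ω → ℝ} (hTm : Measurable T) {R : Ω → Mx n} (hR : S7uMeas R) :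
    S7uMeas fun ω => s7tPsiM x0 (T ω) (R ω) := by
  unfold s7tPsiM obsE
  exact S7uMeas.smul ((hTm.div_const x0).const_mul 2) ((hR.mul hR).mul
    ((S7uMeas.const 1).add (S7uMeas.smul (hTm.div_const x0) (hR.mul hR))).inv)

end Block

end Claimed.Agent.R259
end

/- ===== packed: Claimed.Agent.R259.S7StabGau ===== -/
section
/-
Row 259 (S0499), section 7, package BP-S7-STAB: Gaussian second moments of matrix expressions.
Owner: helper239.  Prefix `s7t`.
-/
set_option autoImplicit false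

open MeasureTheory ProbabilityTheory Set
open scoped BigOperators Matrix
open Claimed.Agent.R260

namespace Claimed.Agent.R259

variable {n : ℕ}

theorem s7t_gam_prob (n : ℕ) : IsProbabilityMeasure (gam n) := by
  rw [gam_eq_std]
  infer_instance

theorem s7t_gam_inner_sq (v : EE n) :
    Integrable (fun z => inner ℝ v z ^ 2) (gam n) ∧ ∫ z, inner ℝ v z ^ 2 ∂(gam n) = ‖v‖ ^ 2 := by
  rw [gam_eq_std]
  refine ⟨(IsGaussian.memLp_dual (stdGaussian (EE n)) (innerSL ℝ v) 2 (by norm_num)).integrable_sq,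
    ?_⟩
  have h := variance_dual_stdGaussian (E := EE n) (innerSL ℝ v)
  rw [variance_of_integral_eq_zero (by fun_prop) (integral_strongDual_stdGaussian _),
    innerSL_apply_norm] at h
  exact h

theorem s7t_gam_lin_sq (c : Fin n → ℝ) :
    Integrable (fun z : EE n => (∑ i, z i * c i) ^ 2) (gam n) ∧
      ∫ z : EE n, (∑ i, z i * c i) ^ 2 ∂(gam n) = ∑ i, c i ^ 2 := by
  have h := s7t_gam_inner_sq (WithLp.toLp 2 c : EE n)
  have e : ∀ z : EE n, inner ℝ (WithLp.toLp 2 c : EE n) z = ∑ i, z i * c i := by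
    intro z
    simp [PiLp.inner_apply]
  have e2 : ‖(WithLp.toLp 2 c : EE n)‖ ^ 2 = ∑ i, c i ^ 2 := by
    rw [EuclideanSpace.real_norm_sq_eq]
  simp_rw [e, e2] at h
  exact h

theorem s7t_gam_mv (M : Mx n) :
    Integrable (fun z : EE n => ‖mv M z‖ ^ 2) (gam n) ∧
      ∫ z : EE n, ‖mv M z‖ ^ 2 ∂(gam n) = mxSq M := by
  have e : ∀ z : EE n, ‖mv M z‖ ^ 2 = ∑ a, (∑ i, z i * M a i) ^ 2 := by
    intro z
    rw [EuclideanSpace.real_norm_sq_eq]
    refine Finset.sum_congr rfl fun a _ => ?_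
    congr 1
    simp only [mv, Matrix.mulVec, dotProduct]
    exact Finset.sum_congr rfl fun i _ => mul_comm _ _
  simp_rw [e]
  have hi : ∀ a ∈ (Finset.univ : Finset (Fin n)),
      Integrable (fun z : EE n => (∑ i, z i * M a i) ^ 2) (gam n) :=
    fun a _ => (s7t_gam_lin_sq (fun i => M a i)).1
  refine ⟨integrable_finsetSum _ hi, ?_⟩
  rw [integral_finsetSum _ hi, mxSq_eq_sum]
  exact Finset.sum_congr rfl fun a _ => (s7t_gam_lin_sq (fun i => M a i)).2

theorem s7t_gam_col (H : Fin n → Mx n) (M : Mx n) :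
    Integrable (fun z : EE n => mxSq (colAt H z * M)) (gam n) ∧
      ∫ z : EE n, mxSq (colAt H z * M) ∂(gam n) = ∑ i, mxSq (H i * M) := by
  have e : ∀ z : EE n, mxSq (colAt H z * M) = ∑ a, ∑ b, (∑ i, z i * (H i * M) a b) ^ 2 := by
    intro z
    rw [mxSq_eq_sum]
    refine Finset.sum_congr rfl fun a _ => Finset.sum_congr rfl fun b _ => ?_
    congr 1
    rw [colAt, Finset.sum_mul, Matrix.sum_apply]
    exact Finset.sum_congr rfl fun i _ => by rw [Matrix.smul_mul, Matrix.smul_apply, smul_eq_mul]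
  simp_rw [e]
  have hi : ∀ a b : Fin n,
      Integrable (fun z : EE n => (∑ i, z i * (H i * M) a b) ^ 2) (gam n) :=
    fun a b => (s7t_gam_lin_sq (fun i => (H i * M) a b)).1
  have hi2 : ∀ a ∈ (Finset.univ : Finset (Fin n)),
      Integrable (fun z : EE n => ∑ b, (∑ i, z i * (H i * M) a b) ^ 2) (gam n) :=
    fun a _ => integrable_finsetSum _ fun b _ => hi a b
  refine ⟨integrable_finsetSum _ hi2, ?_⟩
  rw [integral_finsetSum _ hi2]
  have h3 : ∀ a : Fin n, ∫ z : EE n, ∑ b, (∑ i, z i * (H i * M) a b) ^ 2 ∂(gam n) =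
      ∑ b, ∑ i, ((H i * M) a b) ^ 2 := by
    intro a
    rw [integral_finsetSum _ fun b _ => hi a b]
    exact Finset.sum_congr rfl fun b _ => (s7t_gam_lin_sq (fun i => (H i * M) a b)).2
  simp_rw [h3, mxSq_eq_sum]
  calc ∑ a, ∑ b, ∑ i, ((H i * M) a b) ^ 2 = ∑ a, ∑ i, ∑ b, ((H i * M) a b) ^ 2 :=
        Finset.sum_congr rfl fun a _ => Finset.sum_comm
    _ = ∑ i, ∑ a, ∑ b, ((H i * M) a b) ^ 2 := Finset.sum_comm

/-- `∑ ‖H_i M‖² = tr(Mᵀ S M) ≤ 4 ‖M‖²` -/
theorem s7t_col_le {H : Fin n → Mx n} (hs : ∀ i, (H i).IsSymm)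
    (hc : ((4 : ℝ) • (1 : Mx n) - colS H).PosSemidef) (M : Mx n) :
    ∑ i, mxSq (H i * M) ≤ 4 * mxSq M := by
  have h1 : ∑ i, mxSq (H i * M) = Matrix.trace (Mᵀ * colS H * M) := by
    rw [colS, Finset.mul_sum, Finset.sum_mul, Matrix.trace_sum]
    refine Finset.sum_congr rfl fun i _ => ?_
    rw [mxSq, Matrix.transpose_mul, (hs i).eq]
    simp only [Matrix.mul_assoc]
  have h2 : 0 ≤ Matrix.trace (Mᵀ * ((4 : ℝ) • (1 : Mx n) - colS H) * M) := by
    have := (hc.conjTranspose_mul_mul_same M).trace_nonneg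
    simpa using this
  rw [Matrix.mul_sub, Matrix.sub_mul, Matrix.trace_sub] at h2
  rw [h1]
  have h3 : Matrix.trace (Mᵀ * ((4 : ℝ) • (1 : Mx n)) * M) = 4 * mxSq M := by
    rw [mxSq]
    simp
  linarith

theorem s7t_gam_exp (c : ℝ) : Integrable (fun z : EE n => Real.exp (c * ‖z‖)) (gam n) := by
  rw [gam_eq_std]
  obtain ⟨C, hC, hI⟩ := IsGaussian.exists_integrable_exp_sq (stdGaussian (EE n))
  refine Integrable.mono' (hI.const_mul (Real.exp (c ^ 2 / (4 * C)))) (by fun_prop) ?_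
  filter_upwards with z
  rw [Real.norm_eq_abs, abs_of_pos (Real.exp_pos _), ← Real.exp_add]
  apply Real.exp_le_exp.mpr
  have h : 0 ≤ (c / (2 * C) - ‖z‖) ^ 2 * C := by positivity
  have e : (c / (2 * C) - ‖z‖) ^ 2 * C = c ^ 2 / (4 * C) + C * ‖z‖ ^ 2 - c * ‖z‖ := by
    field_simp
    ring
  linarith

end Claimed.Agent.R259
end

/- ===== packed: Claimed.Agent.R259.S7StabDom ===== -/
section
/-
Row 259 (S0499), section 7, package BP-S7-STAB: the four dominating functions and their integrals over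
`(T, u, ω)`, `ω = (o, (G', G))`.
Owner: helper239.  Prefix `s7t`.
-/
set_option autoImplicit false

open MeasureTheory ProbabilityTheory Set
open scoped BigOperators Matrix ENNReal
open Claimed.Agent.R260

namespace Claimed.Agent.R259

variable {n : ℕ}

attribute [local instance] s7t_gam_prob

/-- from a bound of the lower integral to integrability and a bound of the integral -/
theorem s7t_of_lintegral {𝕏 : Type} [MeasurableSpace 𝕏] {μ : Measure 𝕏} {g : 𝕏 → ℝ}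
    (hm : Measurable g) (h0 : ∀ p, 0 ≤ g p) {c : ℝ} (hc : 0 ≤ c)
    (h : ∫⁻ p, ENNReal.ofReal (g p) ∂μ ≤ ENNReal.ofReal c) :
    Integrable g μ ∧ ∫ p, g p ∂μ ≤ c := by
  have hI : Integrable g μ := by
    refine ⟨hm.aestronglyMeasurable, ?_⟩
    rw [hasFiniteIntegral_iff_ofReal (Filter.Eventually.of_forall h0)]
    exact lt_of_le_of_lt h ENNReal.ofReal_lt_top
  refine ⟨hI, ?_⟩
  rw [integral_eq_lintegral_of_nonneg_ae (Filter.Eventually.of_forall h0) hm.aestronglyMeasurable]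
  exact ENNReal.toReal_le_of_le_ofReal hc h

/-- integration of `‖M Ψ_T(R)‖²/T²` over `T` and a parameter -/
theorem s7t_int_Psi {𝕏 : Type} [MeasurableSpace 𝕏] {μ : Measure 𝕏} [SFinite μ] {x0 : ℝ}
    (hx : 0 < x0) {Mf Rf : 𝕏 → Mx n} (hM : S7uMeas Mf) (hR : S7uMeas Rf)
    (hRs : ∀ x, (Rf x).IsSymm) (hI : Integrable (fun x => mxSq (Mf x * Rf x)) μ) :
    Integrable (fun p : ℝ × 𝕏 => mxSq (Mf p.2 * s7tPsiM x0 p.1 (Rf p.2)) / p.1 ^ 2)
      ((volume.restrict (Ioi (0 : ℝ))).prod μ) ∧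
    ∫ p : ℝ × 𝕏, mxSq (Mf p.2 * s7tPsiM x0 p.1 (Rf p.2)) / p.1 ^ 2
      ∂((volume.restrict (Ioi (0 : ℝ))).prod μ) = 4 / x0 * ∫ x, mxSq (Mf x * Rf x) ∂μ := by
  have hmeas : Measurable
      (fun p : ℝ × 𝕏 => mxSq (Mf p.2 * s7tPsiM x0 p.1 (Rf p.2)) / p.1 ^ 2) := by
    refine Measurable.div ?_ (by fun_prop)
    refine S7uMeas.mxSq (S7uMeas.mul ?_ (s7t_PsiM_meas x0 measurable_fst ?_))
    · exact fun a b => (hM a b).comp measurable_snd
    · exact fun a b => (hR a b).comp measurable_snd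
  have hint : Integrable (fun p : ℝ × 𝕏 => mxSq (Mf p.2 * s7tPsiM x0 p.1 (Rf p.2)) / p.1 ^ 2)
      ((volume.restrict (Ioi (0 : ℝ))).prod μ) := by
    rw [integrable_prod_iff' hmeas.aestronglyMeasurable]
    constructor
    · exact Filter.Eventually.of_forall fun x => (s7t_Psi_int (hRs x) hx (Mf x)).1
    · have e : (fun x => ∫ T, ‖mxSq (Mf x * s7tPsiM x0 T (Rf x)) / T ^ 2‖
          ∂(volume.restrict (Ioi (0 : ℝ)))) = fun x => 4 / x0 * mxSq (Mf x * Rf x) := by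
        funext x
        rw [← (s7t_Psi_int (hRs x) hx (Mf x)).2]
        refine integral_congr_ae (Filter.Eventually.of_forall fun T => ?_)
        exact Real.norm_of_nonneg (div_nonneg (mxSq_nonneg _) (sq_nonneg _))
      rw [e]
      exact hI.const_mul _
  refine ⟨hint, ?_⟩
  rw [integral_prod_symm _ hint, ← integral_const_mul]
  exact integral_congr_ae (Filter.Eventually.of_forall fun x => (s7t_Psi_int (hRs x) hx (Mf x)).2)

/-- lifting an integrable function along a measure preserving map and a dummy variable `u` -/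
theorem s7t_lift {W Y : Type} [MeasurableSpace W] [MeasurableSpace Y] {Pw : Measure W} [SFinite Pw]
    {ρ : Measure Y} {π : W → Y} (hπ : MeasurePreserving π Pw ρ) {f : Y → ℝ} (hf : Integrable f ρ)
    {u0 u1 : ℝ} (hu : u0 ≤ u1) :
    Integrable (fun x : ℝ × W => f (π x.2)) ((volume.restrict (Icc u0 u1)).prod Pw) ∧
      ∫ x : ℝ × W, f (π x.2) ∂((volume.restrict (Icc u0 u1)).prod Pw) = (u1 - u0) * ∫ y, f y ∂ρ := by
  have h1 : Integrable (fun w => f (π w)) Pw := hπ.integrable_comp_of_integrable hf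
  refine ⟨h1.comp_snd _, ?_⟩
  rw [integral_fun_snd (fun w => f (π w))]
  have h2 : ∫ w, f (π w) ∂Pw = ∫ y, f y ∂ρ := by
    rw [← hπ.map_eq, integral_map hπ.aemeasurable]
    rw [hπ.map_eq]
    exact hf.aestronglyMeasurable
  rw [h2, smul_eq_mul]
  congr 1
  simp [Measure.real, hu]

/-! ### The coupling -/

variable {D : Type} [MeasurableSpace D] {Q : Measure D} {Ω : Type} [MeasurableSpace Ω]
  {Pm : Measure Ω} {Dt : Ω → D} {N : Ω → EE n}

/-- the part of the structure `Frozen` used by the stability estimate -/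
structure S7tCpl (Q : Measure D) (Pm : Measure Ω) (Dt : Ω → D) (N : Ω → EE n) : Prop where
  Dt_meas : Measurable Dt
  N_meas : Measurable N
  law_Dt : Pm.map Dt = Q
  law : Pm.map (fun o => (Dt o, N o)) = Q.prod (gam n)

theorem S7tCpl.mpN [IsProbabilityMeasure Pm] (h : S7tCpl Q Pm Dt N) :
    MeasurePreserving (fun ω : Ω × (EE n × EE n) => (Dt ω.1, N ω.1))
      (Pm.prod ((gam n).prod (gam n))) (Q.prod (gam n)) :=
  (⟨h.Dt_meas.prodMk h.N_meas, h.law⟩ :
    MeasurePreserving (fun o => (Dt o, N o)) Pm (Q.prod (gam n))).comp measurePreserving_fst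

theorem S7tCpl.mpG [IsProbabilityMeasure Pm] (h : S7tCpl Q Pm Dt N) :
    MeasurePreserving (fun ω : Ω × (EE n × EE n) => (Dt ω.1, ω.2.1))
      (Pm.prod ((gam n).prod (gam n))) (Q.prod (gam n)) :=
  (⟨h.Dt_meas, h.law_Dt⟩ : MeasurePreserving Dt Pm Q).prod measurePreserving_fst

theorem s7t_mpE [IsProbabilityMeasure Pm] :
    MeasurePreserving (fun ω : Ω × (EE n × EE n) => (ω.1, ω.2.2))
      (Pm.prod ((gam n).prod (gam n))) (Pm.prod (gam n)) :=
  (MeasurePreserving.id Pm).prod measurePreserving_snd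

variable (B : BlockModel n Q)

theorem s7t_H_meas (i : Fin n) : S7uMeas fun d => B.H d i := fun a b => B.H_meas i a b

theorem s7t_Rs_meas : S7uMeas fun d => B.Rs d := fun a b => B.Rs_meas a b

/-- `E ‖H[z] R_*‖² ≤ 4 E ‖R_*‖²` -/
theorem s7t_F_int [IsProbabilityMeasure Q] :
    Integrable (fun q : D × EE n => mxSq (colAt (B.H q.1) q.2 * B.Rs q.1)) (Q.prod (gam n)) ∧
      ∫ q : D × EE n, mxSq (colAt (B.H q.1) q.2 * B.Rs q.1) ∂(Q.prod (gam n)) ≤
        4 * ∫ d, mxSq (B.Rs d) ∂Q := by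
  have hmeas : Measurable (fun q : D × EE n => mxSq (colAt (B.H q.1) q.2 * B.Rs q.1)) := by
    refine S7uMeas.mxSq (S7uMeas.mul (S7tMeasV.colAt ?_ (S7tMeasV.of_measurable measurable_snd)) ?_)
    · exact fun i a b => (B.H_meas i a b).comp measurable_fst
    · exact fun a b => (B.Rs_meas a b).comp measurable_fst
  have hsum : Integrable (fun d => ∑ i, mxSq (B.H d i * B.Rs d)) Q := by
    refine Integrable.mono' (B.Rs_int.const_mul 4) ?_ (Filter.Eventually.of_forall fun d => ?_)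
    · refine Measurable.aestronglyMeasurable ?_
      exact Finset.measurable_sum _ fun i _ => ((s7t_H_meas B i).mul (s7t_Rs_meas B)).mxSq
    · rw [Real.norm_of_nonneg (Finset.sum_nonneg fun i _ => mxSq_nonneg _)]
      exact s7t_col_le (B.H_symm d) (B.col d) _
  have hint : Integrable (fun q : D × EE n => mxSq (colAt (B.H q.1) q.2 * B.Rs q.1))
      (Q.prod (gam n)) := by
    rw [integrable_prod_iff hmeas.aestronglyMeasurable]
    constructor
    · exact Filter.Eventually.of_forall fun d => (s7t_gam_col (B.H d) (B.Rs d)).1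
    · have e : (fun d => ∫ z, ‖mxSq (colAt (B.H d) z * B.Rs d)‖ ∂(gam n)) =
          fun d => ∑ i, mxSq (B.H d i * B.Rs d) := by
        funext d
        rw [← (s7t_gam_col (B.H d) (B.Rs d)).2]
        exact integral_congr_ae (Filter.Eventually.of_forall fun z =>
          Real.norm_of_nonneg (mxSq_nonneg _))
      rw [e]
      exact hsum
  refine ⟨hint, ?_⟩
  rw [integral_prod _ hint, ← integral_const_mul]
  refine integral_mono_of_nonneg (Filter.Eventually.of_forall fun d =>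
    integral_nonneg fun z => mxSq_nonneg _) (B.Rs_int.const_mul 4)
    (Filter.Eventually.of_forall fun d => ?_)
  show ∫ z, mxSq (colAt (B.H d) z * B.Rs d) ∂(gam n) ≤ 4 * mxSq (B.Rs d)
  rw [(s7t_gam_col (B.H d) (B.Rs d)).2]
  exact s7t_col_le (B.H_symm d) (B.col d) _

/-! ### The total space -/

/-- sample points `ω = (o, (G', G))` -/
abbrev S7tW (Ω : Type) (n : ℕ) : Type := Ω × (EE n × EE n)

/-- points `(T, (u, ω))` -/
abbrev S7tX (Ω : Type) (n : ℕ) : Type := ℝ × (ℝ × S7tW Ω n)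

/-- the law of `ω` -/
noncomputable abbrev s7tPw (Pm : Measure Ω) (n : ℕ) : Measure (S7tW Ω n) :=
  Pm.prod ((gam n).prod (gam n))

/-- the measure `du ⊗ law of ω` -/
noncomputable abbrev s7tMu (u0 u1 : ℝ) (Pm : Measure Ω) (n : ℕ) : Measure (ℝ × S7tW Ω n) :=
  (volume.restrict (Icc u0 u1)).prod (s7tPw Pm n)

/-- the measure `dT ⊗ du ⊗ law of ω` -/
noncomputable abbrev s7tTot (u0 u1 : ℝ) (Pm : Measure Ω) (n : ℕ) : Measure (S7tX Ω n) :=
  (volume.restrict (Ioi (0 : ℝ))).prod (s7tMu u0 u1 Pm n)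

/-- generates the equation lemmas in this file -/
theorem s7tabdom_eqns_cite : True := by
  have := @S7tW.eq_1
  have := @S7tX.eq_1
  have := @s7tPw.eq_1
  have := @s7tMu.eq_1
  have := @s7tTot.eq_1
  trivial

/-- the dominating function `‖H[z] Ψ_T‖²/T²`, `(d, z) = π ω` -/
theorem s7t_int_a [IsProbabilityMeasure Q] [IsProbabilityMeasure Pm] {π : S7tW Ω n → D × EE n}
    (hπ : MeasurePreserving π (s7tPw Pm n) (Q.prod (gam n))) {x0 : ℝ} (hx : 0 < x0) {u0 u1 : ℝ}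
    (hu : u0 ≤ u1) :
    Integrable (fun p : S7tX Ω n => mxSq (colAt (B.H (π p.2.2).1) (π p.2.2).2 *
        s7tPsiM x0 p.1 (B.Rs (π p.2.2).1)) / p.1 ^ 2) (s7tTot u0 u1 Pm n) ∧
      ∫ p : S7tX Ω n, mxSq (colAt (B.H (π p.2.2).1) (π p.2.2).2 *
        s7tPsiM x0 p.1 (B.Rs (π p.2.2).1)) / p.1 ^ 2 ∂(s7tTot u0 u1 Pm n) ≤
        4 / x0 * ((u1 - u0) * (4 * ∫ d, mxSq (B.Rs d) ∂Q)) := by
  have hl := s7t_lift hπ (s7t_F_int B).1 hu
  have hπ1 : Measurable fun x : ℝ × S7tW Ω n => (π x.2).1 :=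
    measurable_fst.comp (hπ.measurable.comp measurable_snd)
  have hπ2 : Measurable fun x : ℝ × S7tW Ω n => (π x.2).2 :=
    measurable_snd.comp (hπ.measurable.comp measurable_snd)
  have h := s7t_int_Psi (μ := s7tMu u0 u1 Pm n) hx
    (Mf := fun x => colAt (B.H (π x.2).1) (π x.2).2) (Rf := fun x => B.Rs (π x.2).1)
    (S7tMeasV.colAt (fun i a b => (B.H_meas i a b).comp hπ1) (S7tMeasV.of_measurable hπ2))
    (fun a b => (B.Rs_meas a b).comp hπ1) (fun x => s7t_Rs_symm B _) hl.1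
  refine ⟨h.1, ?_⟩
  rw [h.2, hl.2]
  have h4 : 0 ≤ 4 / x0 := by positivity
  exact mul_le_mul_of_nonneg_left
    (mul_le_mul_of_nonneg_left (s7t_F_int B).2 (sub_nonneg.mpr hu)) h4

/-- the dominating function `‖Ψ_T‖²/T²` -/
theorem s7t_int_p [IsProbabilityMeasure Q] [IsProbabilityMeasure Pm] {π : S7tW Ω n → D × EE n}
    (hπ : MeasurePreserving π (s7tPw Pm n) (Q.prod (gam n))) {x0 : ℝ} (hx : 0 < x0) {u0 u1 : ℝ}
    (hu : u0 ≤ u1) :
    Integrable (fun p : S7tX Ω n => mxSq (s7tPsiM x0 p.1 (B.Rs (π p.2.2).1)) / p.1 ^ 2)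
        (s7tTot u0 u1 Pm n) ∧
      ∫ p : S7tX Ω n, mxSq (s7tPsiM x0 p.1 (B.Rs (π p.2.2).1)) / p.1 ^ 2 ∂(s7tTot u0 u1 Pm n) =
        4 / x0 * ((u1 - u0) * ∫ d, mxSq (B.Rs d) ∂Q) := by
  have hf : Integrable (fun q : D × EE n => mxSq ((1 : Mx n) * B.Rs q.1)) (Q.prod (gam n)) := by
    simp only [one_mul]
    exact B.Rs_int.comp_fst _
  have hfi : ∫ q : D × EE n, mxSq ((1 : Mx n) * B.Rs q.1) ∂(Q.prod (gam n)) =
      ∫ d, mxSq (B.Rs d) ∂Q := by
    simp only [one_mul]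
    rw [integral_fun_fst (fun d => mxSq (B.Rs d))]
    simp
  have hl := s7t_lift hπ hf hu
  have hπ1 : Measurable fun x : ℝ × S7tW Ω n => (π x.2).1 :=
    measurable_fst.comp (hπ.measurable.comp measurable_snd)
  have h := s7t_int_Psi (μ := s7tMu u0 u1 Pm n) hx
    (Mf := fun _ => (1 : Mx n)) (Rf := fun x => B.Rs (π x.2).1)
    (S7uMeas.const _) (fun a b => (B.Rs_meas a b).comp hπ1) (fun x => s7t_Rs_symm B _) hl.1
  rw [hl.2, hfi] at h
  simpa only [one_mul] using h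

/-- Gaussian average of `‖M G‖²/T²` in the extended nonnegative reals -/
theorem s7t_lint_mv (M : Mx n) (T : ℝ) :
    ∫⁻ G : EE n, ENNReal.ofReal (‖mv M G‖ ^ 2 / T ^ 2) ∂(gam n) =
      ENNReal.ofReal (mxSq M / T ^ 2) := by
  rw [← ofReal_integral_eq_lintegral_ofReal ((s7t_gam_mv M).1.div_const _)
    (Filter.Eventually.of_forall fun G => by positivity), integral_div, (s7t_gam_mv M).2]

/-- the dominating function `‖ΔM_T G‖²/T²` -/
theorem s7t_int_e [IsProbabilityMeasure Pm] {u0 u1 : ℝ} (hu : u0 ≤ u1) {ΔM : ℝ × Ω → Mx n}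
    (hΔ : S7uMeas ΔM) {b : Ω → ℝ} (hb : Integrable b Pm) (hb0 : ∀ o, 0 ≤ b o)
    (hE : ∀ o, ∫⁻ T in Ioi (0 : ℝ), ENNReal.ofReal (mxSq (ΔM (T, o)) / T ^ 2) ≤
      ENNReal.ofReal (b o)) :
    Integrable (fun p : S7tX Ω n => ‖mv (ΔM (p.1, p.2.2.1)) p.2.2.2.2‖ ^ 2 / p.1 ^ 2)
        (s7tTot u0 u1 Pm n) ∧
      ∫ p : S7tX Ω n, ‖mv (ΔM (p.1, p.2.2.1)) p.2.2.2.2‖ ^ 2 / p.1 ^ 2 ∂(s7tTot u0 u1 Pm n) ≤
        (u1 - u0) * ∫ o, b o ∂Pm := by
  have hmeas : Measurable
      (fun p : S7tX Ω n => ‖mv (ΔM (p.1, p.2.2.1)) p.2.2.2.2‖ ^ 2 / p.1 ^ 2) := by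
    refine Measurable.div (S7tMeasV.norm_sq (S7tMeasV.mv ?_ (S7tMeasV.of_measurable ?_)))
      (by fun_prop)
    · exact fun a b => (hΔ a b).comp (by fun_prop)
    · fun_prop
  refine s7t_of_lintegral hmeas (fun p => by positivity)
    (mul_nonneg (sub_nonneg.mpr hu) (integral_nonneg hb0)) ?_
  rw [lintegral_prod _ hmeas.ennreal_ofReal.aemeasurable]
  have hφ : Measurable fun q : ℝ × Ω => ENNReal.ofReal (mxSq (ΔM q) / q.1 ^ 2) :=
    (hΔ.mxSq.div (by fun_prop)).ennreal_ofReal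
  have key : ∀ T : ℝ, ∫⁻ x : ℝ × S7tW Ω n,
      ENNReal.ofReal (‖mv (ΔM (T, x.2.1)) x.2.2.2‖ ^ 2 / T ^ 2) ∂(s7tMu u0 u1 Pm n) =
      ENNReal.ofReal (u1 - u0) * ∫⁻ o, ENNReal.ofReal (mxSq (ΔM (T, o)) / T ^ 2) ∂Pm := by
    intro T
    have hf : Measurable fun q : Ω × EE n =>
        ENNReal.ofReal (‖mv (ΔM (T, q.1)) q.2‖ ^ 2 / T ^ 2) := by
      refine Measurable.ennreal_ofReal (Measurable.div_const
        (S7tMeasV.norm_sq (S7tMeasV.mv ?_ (S7tMeasV.of_measurable measurable_snd))) _)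
      exact fun a b => (hΔ a b).comp (by fun_prop)
    have h1 : ∫⁻ ω : S7tW Ω n, ENNReal.ofReal (‖mv (ΔM (T, ω.1)) ω.2.2‖ ^ 2 / T ^ 2)
        ∂(s7tPw Pm n) = ∫⁻ o, ENNReal.ofReal (mxSq (ΔM (T, o)) / T ^ 2) ∂Pm := by
      have h2 := (s7t_mpE (Pm := Pm) (n := n)).lintegral_comp hf
      rw [lintegral_prod _ hf.aemeasurable] at h2
      simp only [s7t_lint_mv] at h2
      exact h2
    have hf2 : Measurable fun x : ℝ × S7tW Ω n =>
        ENNReal.ofReal (‖mv (ΔM (T, x.2.1)) x.2.2.2‖ ^ 2 / T ^ 2) :=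
      (hf.comp (s7t_mpE (Pm := Pm) (n := n)).measurable).comp measurable_snd
    rw [lintegral_prod _ hf2.aemeasurable]
    simp only [h1, lintegral_const, Measure.restrict_apply MeasurableSet.univ, univ_inter,
      Real.volume_Icc]
    rw [mul_comm]
  simp only [key]
  rw [lintegral_const_mul _ hφ.lintegral_prod_right', lintegral_lintegral_swap hφ.aemeasurable,
    ENNReal.ofReal_mul (sub_nonneg.mpr hu),
    ofReal_integral_eq_lintegral_ofReal hb (Filter.Eventually.of_forall hb0)]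
  exact mul_le_mul_right (lintegral_mono hE) _

end Claimed.Agent.R259
end
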