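/- Packed by merge_tool.py (helper293): 9 modules of Claimed.Agent.R259 in one file, same declarations.
   Old modules, in this order: NormalTruncA, NormalTruncB, NormalTrunc, Normal, S7JacPhi, S7ValFz, S7JacInt, S7JacTop, S7Jac -/
import Claimed.Agent.R259.Pack005
import Claimed.Agent.R259.Pack007
import Claimed.Agent.R259.Pack031
import Claimed.Agent.R259.Pack004
import Claimed.Agent.R259.Pack033
import Claimed.Agent.R259.Pack036
import Claimed.Agent.R259.Pack030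
import Claimed.Agent.R259.Pack050

/- ===== packed: Claimed.Agent.R259.NormalTruncA ===== -/
section
/-
R259 / NormalTruncA.lean  (owner: helper26).  Kit NORMAL, package L-NORM-trunc, part A: the scalar `ψ₂` lemma, stability of
`LogConc`, reweighted densities.   Prefix `nt_`.
-/
set_option autoImplicit false
set_option linter.unusedSectionVars false

namespace Claimed.Agent.R259

open MeasureTheory Filter Topology
open scoped ENNReal ContDiff NNReal

/-- **(T3)** recentering costs a factor `√8` in the `ψ₂` scale, starting from the bound `4`. -/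
theorem nt_psi2_scalar {Ω : Type} [MeasurableSpace Ω] {P : Measure Ω} [IsProbabilityMeasure P] {Z : Ω → ℝ}
    (hZ : Measurable Z) {a : ℝ} (ha : 0 < a) (hint : Integrable (fun t => Real.exp (Z t ^ 2 / a ^ 2)) P)
    (h4 : ∫ t, Real.exp (Z t ^ 2 / a ^ 2) ∂P ≤ 4) :
    Integrable Z P ∧ ∫ t, Real.exp ((Z t - ∫ o, Z o ∂P) ^ 2 / (Real.sqrt 8 * a) ^ 2) ∂P ≤ 2 := by
  set W : Ω → ℝ := fun t => Z t ^ 2 / (4 * a ^ 2) with hW
  set Y : Ω → ℝ := fun t => Real.exp (W t) with hY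
  have hWm : Measurable W := (hZ.pow_const 2).div_const _
  have hYm : Measurable Y := hWm.exp
  have hW0 : ∀ t, 0 ≤ W t := fun t => by positivity
  have hY1 : ∀ t, 1 ≤ Y t := fun t => Real.one_le_exp (hW0 t)
  have hY4 : ∀ t, Y t ^ 4 = Real.exp (Z t ^ 2 / a ^ 2) := fun t => by
    rw [hY, ← Real.exp_nat_mul]; congr 1; rw [hW]; field_simp; push_cast; ring
  have iY4 : Integrable (fun t => Y t ^ 4) P := by simpa only [hY4] using hint
  have iY2 : Integrable (fun t => Y t ^ 2) P := by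
    refine iY4.mono (hYm.pow_const 2).aestronglyMeasurable (Eventually.of_forall fun t => ?_)
    rw [Real.norm_eq_abs, Real.norm_eq_abs, abs_of_nonneg (by positivity), abs_of_nonneg (by positivity)]
    exact pow_le_pow_right₀ (hY1 t) (by norm_num)
  have iY : Integrable Y P := by
    refine iY2.mono hYm.aestronglyMeasurable (Eventually.of_forall fun t => ?_)
    rw [Real.norm_eq_abs, Real.norm_eq_abs, abs_of_nonneg (by linarith [hY1 t]), abs_of_nonneg (by positivity)]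
    nlinarith [hY1 t]
  have iW : Integrable W P := by
    refine iY.mono hWm.aestronglyMeasurable (Eventually.of_forall fun t => ?_)
    rw [Real.norm_eq_abs, Real.norm_eq_abs, abs_of_nonneg (hW0 t), abs_of_nonneg (by linarith [hY1 t])]
    linarith [Real.add_one_le_exp (W t)]
  have iZ2 : Integrable (fun t => Z t ^ 2) P := by
    have : (fun t => Z t ^ 2) = fun t => (4 * a ^ 2) * W t := by
      ext t; rw [hW]; field_simp
    rw [this]; exact iW.const_mul _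
  have iZ : Integrable Z P := by
    refine ((integrable_const (1:ℝ)).add iZ2).mono hZ.aestronglyMeasurable (Eventually.of_forall fun t => ?_)
    simp only [Pi.add_apply, Real.norm_eq_abs]
    rw [abs_of_nonneg (by positivity : (0:ℝ) ≤ 1 + Z t ^ 2)]
    nlinarith [sq_nonneg (|Z t| - 1), sq_abs (Z t)]
  refine ⟨iZ, ?_⟩
  set mZ := ∫ o, Z o ∂P with hmZ
  -- (a) `E Y² ≤ 2`
  have hEY2 : ∫ t, Y t ^ 2 ∂P ≤ 2 := by
    have h1 := lsic_cauchy_schwarz (m := P) (f := fun _ => (1:ℝ)) (g := fun t => Y t ^ 2) (integrable_const _)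
      (by simpa only [← pow_mul] using iY4) (by simpa using iY2)
    simp only [one_mul, one_pow, integral_const, probReal_univ, smul_eq_mul, mul_one, ← pow_mul] at h1
    have h2 : ∫ t, Y t ^ (2 * 2) ∂P ≤ 4 := by
      have : ∀ t, Y t ^ (2 * 2) = Real.exp (Z t ^ 2 / a ^ 2) := fun t => by rw [← hY4]
      simp only [this]; exact h4
    have h3 : 0 ≤ ∫ t, Y t ^ 2 ∂P := integral_nonneg fun t => sq_nonneg _
    nlinarith
  -- (b) `(E Y)² ≤ E Y²`
  have hEY : (∫ t, Y t ∂P) ^ 2 ≤ ∫ t, Y t ^ 2 ∂P := by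
    have h1 := lsic_cauchy_schwarz (m := P) (f := fun _ => (1:ℝ)) (g := Y) (integrable_const _) iY2 (by simpa using iY)
    simpa using h1
  -- (c) `exp (m²/(4a²)) ≤ E Y`
  have hm2 : mZ ^ 2 ≤ ∫ t, Z t ^ 2 ∂P := by
    have h1 := lsic_cauchy_schwarz (m := P) (f := fun _ => (1:ℝ)) (g := Z) (integrable_const _) iZ2 (by simpa using iZ)
    simpa using h1
  have hexpm : Real.exp (mZ ^ 2 / (4 * a ^ 2)) ≤ ∫ t, Y t ∂P := by
    refine le_trans (Real.exp_le_exp.2 ?_) (plsi_exp_integral_le iW iY)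
    rw [hW, integral_div]
    exact div_le_div_of_nonneg_right hm2 (by positivity)
  -- (d) conclusion
  have h8 : (Real.sqrt 8 * a) ^ 2 = 8 * a ^ 2 := by rw [mul_pow, Real.sq_sqrt (by norm_num)]
  rw [h8]
  have hpt : ∀ t, Real.exp ((Z t - mZ) ^ 2 / (8 * a ^ 2)) ≤ Real.exp (mZ ^ 2 / (4 * a ^ 2)) * Y t := fun t => by
    rw [hY, ← Real.exp_add]
    apply Real.exp_le_exp.2
    rw [hW]
    have h1 : (Z t - mZ) ^ 2 ≤ 2 * Z t ^ 2 + 2 * mZ ^ 2 := by nlinarith [sq_nonneg (Z t + mZ)]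
    have h2 : mZ ^ 2 / (4 * a ^ 2) + Z t ^ 2 / (4 * a ^ 2) = (2 * Z t ^ 2 + 2 * mZ ^ 2) / (8 * a ^ 2) := by
      field_simp; ring
    rw [h2]
    exact div_le_div_of_nonneg_right h1 (by positivity)
  have h5 : ∫ t, Real.exp ((Z t - mZ) ^ 2 / (8 * a ^ 2)) ∂P ≤ ∫ t, Real.exp (mZ ^ 2 / (4 * a ^ 2)) * Y t ∂P :=
    integral_mono_of_nonneg (Eventually.of_forall fun t => (Real.exp_pos _).le) (iY.const_mul _)
      (Eventually.of_forall hpt)
  rw [integral_const_mul] at h5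
  have hEY0 : 0 ≤ ∫ t, Y t ∂P := integral_nonneg fun t => le_trans zero_le_one (hY1 t)
  have h6 : Real.exp (mZ ^ 2 / (4 * a ^ 2)) * ∫ t, Y t ∂P ≤ (∫ t, Y t ∂P) ^ 2 := by
    rw [sq (∫ t, Y t ∂P)]; exact mul_le_mul_of_nonneg_right hexpm hEY0
  linarith

variable {E : Type} [NormedAddCommGroup E] [InnerProductSpace ℝ E] [FiniteDimensional ℝ E]
  [MeasurableSpace E] [BorelSpace E]

theorem LogConc.indicator {ρ : E → ℝ} (h : LogConc ρ) {s : Set E} (hs : Convex ℝ s) (hsm : MeasurableSet s) :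
    LogConc (s.indicator ρ) := by
  obtain ⟨h1, h2, h3⟩ := h
  refine ⟨h1.indicator hsm, fun x => Set.indicator_nonneg (fun x _ => h2 x) x, fun x y t ht0 ht1 => ?_⟩
  have h1t : 0 < 1 - t := by linarith
  have hnn : 0 ≤ s.indicator ρ ((1 - t) • x + t • y) := Set.indicator_nonneg (fun x _ => h2 x) _
  by_cases hx : x ∈ s
  · by_cases hy : y ∈ s
    · have hz : (1 - t) • x + t • y ∈ s := hs hx hy h1t.le ht0.le (by ring)
      rw [Set.indicator_of_mem hx, Set.indicator_of_mem hy, Set.indicator_of_mem hz]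
      exact h3 x y t ht0 ht1
    · rw [Set.indicator_of_notMem hy, Real.zero_rpow ht0.ne', mul_zero]; exact hnn
  · rw [Set.indicator_of_notMem hx, Real.zero_rpow h1t.ne', zero_mul]; exact hnn

/-- strongly log-concave densities are log-concave. -/
theorem nt_logConc_of_strongLC {q ρ : E → ℝ} (hm : Measurable ρ) (h0 : ∀ x, 0 ≤ ρ x) (hq : ∀ v, 0 ≤ q v)
    (h : StrongLC q ρ) : LogConc ρ := by
  refine ⟨hm, h0, fun x y t ht0 ht1 => le_trans ?_ (h x y t ht0 ht1)⟩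
  have h1t : 0 < 1 - t := by linarith
  have h1 : 1 ≤ Real.exp (t * (1 - t) * q (x - y) / 2) := Real.one_le_exp (by have := hq (x - y); positivity)
  have h2 : 0 ≤ ρ x ^ (1 - t) * ρ y ^ t := mul_nonneg (Real.rpow_nonneg (h0 x) _) (Real.rpow_nonneg (h0 y) _)
  nlinarith

/-- integrals against a reweighted density. -/
theorem nt_integral_reweight {G : Type} [NormedAddCommGroup G] [NormedSpace ℝ G] {ρ w : E → ℝ} (hρm : Measurable ρ)
    (hρ0 : ∀ x, 0 ≤ ρ x) (hwm : Measurable w) (hw0 : ∀ x, 0 ≤ w x) {c : ℝ} (hc : 0 ≤ c) (F : E → G) :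
    ∫ x, F x ∂(dm fun x => c * (w x * ρ x)) = c • ∫ x, w x • F x ∂(dm ρ) := by
  have hm : Measurable fun x => c * (w x * ρ x) := (hwm.mul hρm).const_mul c
  rw [lsic_integral_dm hm (fun x => mul_nonneg hc (mul_nonneg (hw0 x) (hρ0 x))),
    lsic_integral_dm hρm hρ0, ← integral_smul]
  refine integral_congr_ae (Eventually.of_forall fun x => ?_)
  simp only [smul_smul]
  congr 1
  ring

end Claimed.Agent.R259
end

/- ===== packed: Claimed.Agent.R259.NormalTruncB ===== -/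
section
/-
R259 / NormalTruncB.lean  (owner: helper26).  Kit NORMAL, package L-NORM-trunc, part B: the truncation weights, convergence of
entropy and energy, recentering.   Prefix `nt_`.
-/
set_option autoImplicit false
set_option linter.unusedSectionVars false

namespace Claimed.Agent.R259

open MeasureTheory Filter Topology
open scoped ENNReal ContDiff NNReal

variable {E : Type} [NormedAddCommGroup E] [InnerProductSpace ℝ E] [FiniteDimensional ℝ E]
  [MeasurableSpace E] [BorelSpace E]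

/-- the truncation weight. -/
noncomputable def ntW (k : ℕ) (x : E) : ℝ :=
  (Metric.closedBall (0:E) ((k:ℝ) + 1)).indicator (fun x => Real.exp (-((1 / ((k:ℝ) + 1)) * ‖x - 0‖ ^ 2 / 2))) x

theorem nt_W_measurable (k : ℕ) : Measurable (ntW k : E → ℝ) := by
  have h1 : Continuous fun x : E => Real.exp (-((1 / ((k:ℝ) + 1)) * ‖x - 0‖ ^ 2 / 2)) := by fun_prop
  exact h1.measurable.indicator Metric.isClosed_closedBall.measurableSet

theorem nt_W_nonneg (k : ℕ) (x : E) : 0 ≤ ntW k x :=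
  Set.indicator_nonneg (fun _ _ => (Real.exp_pos _).le) x

theorem nt_W_le_one (k : ℕ) (x : E) : ntW k x ≤ 1 := by
  unfold ntW
  refine Set.indicator_le' (fun y _ => ?_) (fun _ _ => zero_le_one) x
  rw [Real.exp_le_one_iff]
  have : 0 ≤ (1 / ((k:ℝ) + 1)) * ‖y - 0‖ ^ 2 / 2 := by positivity
  linarith

theorem nt_W_tendsto (x : E) : Tendsto (fun k : ℕ => ntW k x) atTop (𝓝 1) := by
  have h1 : Tendsto (fun k : ℕ => Real.exp (-((1 / ((k:ℝ) + 1)) * ‖x - 0‖ ^ 2 / 2))) atTop (𝓝 1) := by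
    have h2 : Tendsto (fun k : ℕ => -((1 / ((k:ℝ) + 1)) * ‖x - 0‖ ^ 2 / 2)) atTop (𝓝 (-(0 * ‖x - 0‖ ^ 2 / 2))) :=
      ((tendsto_one_div_add_atTop_nhds_zero_nat.mul_const _).div_const _).neg
    have h3 := (Real.continuous_exp.tendsto _).comp h2
    simpa [Function.comp_def] using h3
  refine h1.congr' ?_
  obtain ⟨N, hN⟩ := exists_nat_ge ‖x‖
  filter_upwards [eventually_ge_atTop N] with k hk
  unfold ntW
  rw [Set.indicator_of_mem]
  rw [Metric.mem_closedBall, dist_zero_right]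
  have : (N:ℝ) ≤ k := by exact_mod_cast hk
  linarith

theorem nt_tendsto_weight {m : Measure E} [IsFiniteMeasure m] {w : ℕ → E → ℝ} (hwm : ∀ k, Measurable (w k))
    (hw0 : ∀ k x, 0 ≤ w k x) (hw1 : ∀ k x, w k x ≤ 1) (hlim : ∀ x, Tendsto (fun k => w k x) atTop (𝓝 1))
    {F : E → ℝ} (hF : Measurable F) {C : ℝ} (hC : ∀ x, |F x| ≤ C) :
    Tendsto (fun k => ∫ x, w k x * F x ∂m) atTop (𝓝 (∫ x, F x ∂m)) := by
  refine tendsto_integral_of_dominated_convergence (fun _ => C) (fun k => ((hwm k).mul hF).aestronglyMeasurable)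
    (integrable_const C) (fun k => Eventually.of_forall fun x => ?_) (Eventually.of_forall fun x => ?_)
  · rw [Real.norm_eq_abs, abs_mul, abs_of_nonneg (hw0 k x)]
    calc w k x * |F x| ≤ 1 * |F x| := mul_le_mul_of_nonneg_right (hw1 k x) (abs_nonneg _)
      _ ≤ C := by rw [one_mul]; exact hC x
  · simpa using (hlim x).mul_const (F x)

/-- the reweighted measures are dominated. -/
theorem nt_dm_le {ρ w : E → ℝ} (hρ0 : ∀ x, 0 ≤ ρ x) (hw1 : ∀ x, w x ≤ 1) {c : ℝ} (hc : 0 ≤ c) :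
    dm (fun x => c * (w x * ρ x)) ≤ ENNReal.ofReal c • dm ρ := by
  unfold dm
  rw [← withDensity_smul' _ _ ENNReal.ofReal_ne_top]
  refine withDensity_mono (Eventually.of_forall fun x => ?_)
  simp only [Pi.smul_apply, smul_eq_mul]
  rw [← ENNReal.ofReal_mul hc]
  refine ENNReal.ofReal_le_ofReal (mul_le_mul_of_nonneg_left ?_ hc)
  calc w x * ρ x ≤ 1 * ρ x := mul_le_mul_of_nonneg_right (hw1 x) (hρ0 x)
    _ = ρ x := one_mul _

theorem nt_integrable_reweight {G : Type} [NormedAddCommGroup G] {ρ w : E → ℝ} (hρ0 : ∀ x, 0 ≤ ρ x)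
    (hw1 : ∀ x, w x ≤ 1) {c : ℝ} (hc : 0 ≤ c) {F : E → G} (hF : Integrable F (dm ρ)) :
    Integrable F (dm fun x => c * (w x * ρ x)) :=
  (hF.smul_measure ENNReal.ofReal_ne_top).mono_measure (nt_dm_le hρ0 hw1 hc)

theorem nt_isProb {ρ w : E → ℝ} (hρm : Measurable ρ) (hρ0 : ∀ x, 0 ≤ ρ x) (hw0 : ∀ x, 0 ≤ w x)
    {Z : ℝ} (hZ : Z = ∫ x, w x ∂(dm ρ)) (hZ0 : 0 < Z) : IsProbabilityMeasure (dm fun x => Z⁻¹ * (w x * ρ x)) := by
  refine lsic_isProb_dm (fun x => mul_nonneg (inv_nonneg.2 hZ0.le) (mul_nonneg (hw0 x) (hρ0 x))) ?_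
  rw [integral_const_mul]
  rw [lsic_integral_dm hρm hρ0] at hZ
  have : ∫ x, w x * ρ x = Z := by
    rw [hZ]
    refine integral_congr_ae (Eventually.of_forall fun x => ?_)
    simp only [smul_eq_mul]; ring
  rw [this, inv_mul_cancel₀ hZ0.ne']

/-- **(T1)** -/
theorem nt_approx {ρ : E → ℝ} (hρ : LogConc ρ) [IsProbabilityMeasure (dm ρ)] {K : ℝ} (hK : ¬ LSI (dm ρ) K) :
    ∃ (k : ℕ) (Z : ℝ), 1 / 2 ≤ Z ∧ Z = ∫ x, ntW k x ∂(dm ρ) ∧ ¬ LSI (dm fun x => Z⁻¹ * (ntW k x * ρ x)) K := by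
  obtain ⟨hρm, hρ0, -⟩ := hρ
  unfold LSI at hK
  push Not at hK
  obtain ⟨f, hf, hlt⟩ := hK
  set Z : ℕ → ℝ := fun k => ∫ x, ntW k x ∂(dm ρ) with hZ
  have key : ∀ {F : E → ℝ}, Measurable F → ∀ {C : ℝ}, (∀ x, |F x| ≤ C) →
      Tendsto (fun k => ∫ x, ntW k x * F x ∂(dm ρ)) atTop (𝓝 (∫ x, F x ∂(dm ρ))) := fun hF C hC =>
    nt_tendsto_weight nt_W_measurable nt_W_nonneg nt_W_le_one nt_W_tendsto hF hC
  have hZlim : Tendsto Z atTop (𝓝 1) := by
    have := key (F := fun _ => (1:ℝ)) measurable_const (C := 1) (by simp)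
    simpa using this
  have hZinv : Tendsto (fun k => (Z k)⁻¹) atTop (𝓝 1) := by
    simpa using hZlim.inv₀ one_ne_zero
  have hZ0 : ∀ k, 0 ≤ (Z k)⁻¹ := fun k => inv_nonneg.2 (integral_nonneg (nt_W_nonneg k))
  have key2 : ∀ {F : E → ℝ}, Measurable F → ∀ {C : ℝ}, (∀ x, |F x| ≤ C) →
      Tendsto (fun k => ∫ x, F x ∂(dm fun x => (Z k)⁻¹ * (ntW k x * ρ x))) atTop (𝓝 (∫ x, F x ∂(dm ρ))) := by
    intro F hF C hC
    have h1 := hZinv.mul (key hF hC)
    rw [one_mul] at h1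
    refine h1.congr fun k => ?_
    rw [nt_integral_reweight hρm hρ0 (nt_W_measurable k) (nt_W_nonneg k) (hZ0 k)]
    simp only [smul_eq_mul]
  have hfc := hf.isTestC
  obtain ⟨C0, hC00, hC0⟩ := hfc.exists_bound
  obtain ⟨C1, hC10, hC1⟩ := hfc.exists_bound_fderiv
  have hφ : Continuous fun u : ℝ => u ^ 2 * Real.log (u ^ 2) := Real.continuous_mul_log.comp (continuous_pow 2)
  obtain ⟨C2, hC2⟩ := (isCompact_Icc (a := -C0) (b := C0)).exists_bound_of_continuousOn hφ.continuousOn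
  have l1 := key2 (F := fun x => f x ^ 2 * Real.log (f x ^ 2)) (hφ.comp hfc.continuous).measurable (C := C2)
    (fun x => hC2 (f x) (abs_le.1 (hC0 x)))
  have l2 := key2 (F := fun x => f x ^ 2) (hfc.continuous.pow 2).measurable (C := C0 ^ 2)
    (fun x => by rw [abs_pow]; exact pow_le_pow_left₀ (abs_nonneg _) (hC0 x) 2)
  have l3 := key2 (F := fun x => ‖gradient f x‖ ^ 2)
    (by simp only [lsic_norm_gradient]; exact (hfc.continuous_fderiv.norm.pow 2).measurable) (C := C1 ^ 2)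
    (fun x => by
      rw [lsic_norm_gradient, abs_pow, abs_norm]; exact pow_le_pow_left₀ (norm_nonneg _) (hC1 x) 2)
  have l4 : Tendsto (fun k => ent (dm fun x => (Z k)⁻¹ * (ntW k x * ρ x)) (fun x => f x ^ 2)
      - 2 * K * nrg (dm fun x => (Z k)⁻¹ * (ntW k x * ρ x)) f) atTop
      (𝓝 (ent (dm ρ) (fun x => f x ^ 2) - 2 * K * nrg (dm ρ) f)) := by
    unfold ent nrg
    exact (l1.sub ((Real.continuous_mul_log.tendsto _).comp l2)).sub (l3.const_mul _)
  have e1 : ∀ᶠ k in atTop, 0 < ent (dm fun x => (Z k)⁻¹ * (ntW k x * ρ x)) (fun x => f x ^ 2)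
      - 2 * K * nrg (dm fun x => (Z k)⁻¹ * (ntW k x * ρ x)) f :=
    l4.eventually (lt_mem_nhds (sub_pos.2 hlt))
  have e2 : ∀ᶠ k in atTop, 1 / 2 < Z k := hZlim.eventually (lt_mem_nhds (by norm_num))
  obtain ⟨k, hk1, hk2⟩ := (e1.and e2).exists
  refine ⟨k, Z k, hk2.le, rfl, fun hL => ?_⟩
  have := hL f hf
  linarith

/-- **(T2)** the truncated law. -/
theorem nt_trunc_props {ρ : E → ℝ} (hρ : LogConc ρ) [IsProbabilityMeasure (dm ρ)] (k : ℕ) {Z : ℝ} (hZ2 : 1 / 2 ≤ Z)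
    (hZ : Z = ∫ x, ntW k x ∂(dm ρ)) :
    LogConc (fun x => Z⁻¹ * (ntW k x * ρ x)) ∧ IsProbabilityMeasure (dm fun x => Z⁻¹ * (ntW k x * ρ x)) ∧
      (∀ x : E, (k:ℝ) + 1 < ‖x‖ → Z⁻¹ * (ntW k x * ρ x) = 0) ∧
      LSI (dm fun x => Z⁻¹ * (ntW k x * ρ x)) (1 / ((k:ℝ) + 1))⁻¹ := by
  have hZ0 : 0 < Z := by linarith
  have hprob : IsProbabilityMeasure (dm fun x => Z⁻¹ * (ntW k x * ρ x)) :=
    nt_isProb hρ.1 hρ.2.1 (nt_W_nonneg k) hZ hZ0
  have hκ : 0 < 1 / ((k:ℝ) + 1) := by positivity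
  have hρ0 : LogConc fun x => Z⁻¹ * (Metric.closedBall (0:E) ((k:ℝ) + 1)).indicator ρ x :=
    (hρ.indicator (convex_closedBall 0 _) Metric.isClosed_closedBall.measurableSet).const_mul (inv_nonneg.2 hZ0.le)
  have hp : ∀ x, Z⁻¹ * (ntW k x * ρ x) = (Z⁻¹ * (Metric.closedBall (0:E) ((k:ℝ) + 1)).indicator ρ x) *
      Real.exp (-((1 / ((k:ℝ) + 1)) * ‖x - 0‖ ^ 2 / 2)) := fun x => by
    unfold ntW
    by_cases hx : x ∈ Metric.closedBall (0:E) ((k:ℝ) + 1)
    · rw [Set.indicator_of_mem hx, Set.indicator_of_mem hx]; ring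
    · rw [Set.indicator_of_notMem hx, Set.indicator_of_notMem hx]; ring
  refine ⟨?_, hprob, fun x hx => ?_, plsi_LSI_iso hρ0 hκ 0 hp⟩
  · have h1 := plsi_strongLC_of_logConc (plsi_isQuadEnergy_iso (E := E) (1 / ((k:ℝ) + 1))) hρ0 0
    have h2 : (fun x => Z⁻¹ * (ntW k x * ρ x)) = fun x => (Z⁻¹ * (Metric.closedBall (0:E) ((k:ℝ) + 1)).indicator ρ x) *
      Real.exp (-((1 / ((k:ℝ) + 1)) * ‖x - 0‖ ^ 2 / 2)) := funext hp
    rw [h2]
    refine nt_logConc_of_strongLC (plsi_measurable_iso hρ0 _ 0)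
      (fun x => mul_nonneg (hρ0.2.1 x) (Real.exp_pos _).le) (fun v => by positivity) h1
  · unfold ntW
    rw [Set.indicator_of_notMem]
    · ring
    · rw [Metric.mem_closedBall, dist_zero_right]; exact not_le.2 hx

theorem nt_dm_compl_ball {p : E → ℝ} {r : ℝ} (hsupp : ∀ x : E, r < ‖x‖ → p x = 0) :
    dm p (Metric.closedBall 0 r)ᶜ = 0 := by
  unfold dm
  rw [withDensity_apply _ Metric.isClosed_closedBall.measurableSet.compl]
  refine setLIntegral_eq_zero Metric.isClosed_closedBall.measurableSet.compl fun x hx => ?_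
  rw [Set.mem_compl_iff, Metric.mem_closedBall, dist_zero_right, not_le] at hx
  simp [hsupp x hx]

/-- **(T4)** recentering. -/
theorem nt_recentre {p : E → ℝ} (hp : LogConc p) [IsProbabilityMeasure (dm p)] {r : ℝ}
    (hsupp : ∀ x : E, r < ‖x‖ → p x = 0) {a : ℝ} (ha : 0 < a)
    (hpsi : ∀ θ : E, ‖θ‖ = 1 → Integrable (fun x => Real.exp (inner ℝ x θ ^ 2 / a ^ 2)) (dm p) ∧
      ∫ x, Real.exp (inner ℝ x θ ^ 2 / a ^ 2) ∂(dm p) ≤ 4)
    {R K : ℝ} (hR : LSI (dm p) R) (hK : ¬ LSI (dm p) K) :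
    ∃ μ : Measure E, BaseLaw μ (Real.sqrt 8 * a) ∧ (∃ R, LSI μ R) ∧ ¬ LSI μ K := by
  have h0 := nt_dm_compl_ball hsupp
  have hae : ∀ᵐ x ∂(dm p), ‖x‖ ≤ r := by
    rw [ae_iff]
    refine measure_mono_null (fun x hx => ?_) h0
    simpa [Metric.mem_closedBall] using hx
  have hint : Integrable (fun x : E => x) (dm p) :=
    Integrable.of_bound measurable_id.aestronglyMeasurable r hae
  set b : E := ∫ x, x ∂(dm p) with hb
  have hT := lsia_continuous (E := E) 1 (-b)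
  refine ⟨(dm p).map fun x => (1:ℝ) • x + (-b), ⟨Measure.isProbabilityMeasure_map hT.aemeasurable, ?_, ?_, ?_,
    by positivity, fun θ hθ => ?_⟩, ⟨_, lsic_LSI_map one_ne_zero (-b) hR⟩, fun hL => ?_⟩
  · refine ⟨r + ‖b‖, ?_⟩
    rw [Measure.map_apply hT.measurable Metric.isClosed_closedBall.measurableSet.compl]
    refine measure_mono_null (fun x hx => ?_) h0
    simp only [Set.mem_preimage, Set.mem_compl_iff, Metric.mem_closedBall, dist_zero_right, not_le, one_smul] at hx ⊢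
    have := norm_add_le x (-b)
    rw [norm_neg] at this
    linarith
  · refine ⟨_, ?_, lsic_dm_map hp.1 one_pos (-b)⟩
    have h1 := (hp.comp_affine 1 b).const_mul (c := ((1:ℝ) ^ Module.finrank ℝ E)⁻¹) (by positivity)
    have h2 : (fun y => ((1:ℝ) ^ Module.finrank ℝ E)⁻¹ * p ((1:ℝ)⁻¹ • (y - -b)))
        = fun y => ((1:ℝ) ^ Module.finrank ℝ E)⁻¹ * p ((1:ℝ) • y + b) := by
      ext y; simp
    rw [h2]; exact h1
  · have hid : AEStronglyMeasurable (fun y : E => y) ((dm p).map fun x => (1:ℝ) • x + (-b)) :=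
      measurable_id.aestronglyMeasurable
    rw [integral_map hT.aemeasurable hid]
    simp only [one_smul]
    rw [integral_add hint (integrable_const _)]
    simp [← hb]
  · obtain ⟨i1, i2⟩ := hpsi θ hθ
    have hZm : Measurable fun x : E => inner ℝ x θ := by fun_prop
    obtain ⟨j1, j2⟩ := nt_psi2_scalar hZm ha i1 i2
    have hG : Continuous fun y : E => Real.exp (inner ℝ y θ ^ 2 / (Real.sqrt 8 * a) ^ 2) := by fun_prop
    rw [lsia_integral_map 1 (-b) hG]
    have e1 : ∫ x, inner ℝ x θ ∂(dm p) = inner ℝ b θ := by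
      rw [hb, real_inner_comm, ← integral_inner hint θ]
      refine integral_congr_ae (Eventually.of_forall fun x => ?_)
      exact real_inner_comm _ _
    rw [e1] at j2
    refine le_trans (le_of_eq ?_) j2
    refine integral_congr_ae (Eventually.of_forall fun x => ?_)
    simp only [one_smul, inner_add_left, inner_neg_left, sub_eq_add_neg]
  · have h1 := lsic_LSI_map (inv_ne_zero one_ne_zero) (-((1:ℝ)⁻¹ • (-b))) hL
    rw [lsia_map_map_inv (dm p) one_ne_zero (-b)] at h1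
    apply hK
    simpa using h1

/-- generates the equation lemmas of the definitions above in this file (unique names) -/
theorem normaltruncb_eqns_cite : True := by
  have := @ntW.eq_1
  trivial

end Claimed.Agent.R259
end

/- ===== packed: Claimed.Agent.R259.NormalTrunc ===== -/
section
/-
R259 / NormalTrunc.lean.  Kit NORMAL, package L-NORM-trunc (statement fixed by helper26; the package owner owns this file and
replaces the `sorry`; helper files NormalTrunc*.lean, prefix `nt_`).   Lemma 3.1, first half.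

PROOF.  `hK` gives a test `f` with `ent (dm ρ) f² > 2 K nrg (dm ρ) f`.
(T1) weights `w_k x = 1_{closedBall 0 (k+1)} x * exp (-(‖x‖² / (2 (k+1))))  ∈ [0,1]`, `w_k → 1` pointwise; `Z_k = ∫ w_k ∂(dm ρ) → 1`;
     `ρ_k = Z_k⁻¹ w_k ρ`.  For bounded measurable `F`: `∫ F ∂(dm ρ_k) = Z_k⁻¹ ∫ F w_k ∂(dm ρ) → ∫ F ∂(dm ρ)` (dominated convergence).
     Hence `ent (dm ρ_k) f² → ent (dm ρ) f²`, `nrg (dm ρ_k) f → nrg (dm ρ) f`: for large `k`, `Z_k ≥ 1/2` and `¬ LSI (dm ρ_k) K`.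
(T2) `ρ_k = ρ0 * exp (-(κ ‖x‖²/2))`, `κ = 1/(k+1)`, `ρ0 = Z_k⁻¹ 1_ball ρ` is `LogConc` (indicator of a convex set, product, constant);
     `ρ_k ≤ 2 ρ`; support in the ball.
(T3) scalar lemma: `P` probability, `E exp (Z²/a²) ≤ 4`  ⟹  `Z` integrable and `E exp ((Z - E Z)² / (8 a²)) ≤ 2`:
     `E exp (Z²/(4a²)) ≤ (E exp (Z²/a²))^{1/4} ≤ √2` (Jensen / Cauchy-Schwarz twice), `(E Z)²/(4a²) ≤ E Z²/(4a²) ≤ log √2` (Jensen for exp),
     `(Z - E Z)² ≤ 2 Z² + 2 (E Z)²`.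
(T4) recentre: `b = ∫ x ∂(dm ρ_k)`, `μ = (dm ρ_k).map (fun x => (1:ℝ) • x + (-b))` `= dm (fun y => ρ_k (y + b))` (`lsic_dm_map`), which is
     `ρ0(· + b) * exp (-(κ ‖y - (-b)‖²/2))`: `plsi_LSI_iso` gives `LSI μ κ⁻¹`; `lsic_LSI_map` (with the inverse translation) transports `¬ LSI`.
-/
set_option autoImplicit false
set_option linter.unusedSectionVars false

namespace Claimed.Agent.R259

open MeasureTheory Filter Topology
open scoped ENNReal ContDiff NNReal

variable {E : Type} [NormedAddCommGroup E] [InnerProductSpace ℝ E] [FiniteDimensional ℝ E]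
  [MeasurableSpace E] [BorelSpace E]

/-! ### NT: truncation to a ball, weak Gaussian tilt, recentering -/

/-- **NT**: a log-concave law with `ψ₂ ≤ 2` at scale `a` which violates `LSI` with constant `K` can be replaced by a
`BaseLaw` at scale `√8 a` with a finite LSI constant which still violates `LSI` with constant `K`. -/
theorem normal_trunc {ρ : E → ℝ} (hρ : LogConc ρ) [IsProbabilityMeasure (dm ρ)] {a : ℝ} (ha : 0 < a)
    (hpsi : ∀ θ : E, ‖θ‖ = 1 → Integrable (fun x => Real.exp (inner ℝ x θ ^ 2 / a ^ 2)) (dm ρ) ∧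
      ∫ x, Real.exp (inner ℝ x θ ^ 2 / a ^ 2) ∂(dm ρ) ≤ 2)
    {K : ℝ} (hK : ¬ LSI (dm ρ) K) :
    ∃ μ : Measure E, BaseLaw μ (Real.sqrt 8 * a) ∧ (∃ R, LSI μ R) ∧ ¬ LSI μ K := by
  obtain ⟨k, Z, hZ2, hZ, hnot⟩ := nt_approx hρ hK
  obtain ⟨h1, h2, h3, h4⟩ := nt_trunc_props hρ k hZ2 hZ
  have hZ0 : 0 < Z := by linarith
  have hc : 0 ≤ Z⁻¹ := inv_nonneg.2 hZ0.le
  refine nt_recentre h1 h3 ha (fun θ hθ => ?_) h4 hnot
  obtain ⟨i1, i2⟩ := hpsi θ hθ
  refine ⟨nt_integrable_reweight hρ.2.1 (nt_W_le_one k) hc i1, ?_⟩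
  rw [nt_integral_reweight hρ.1 hρ.2.1 (nt_W_measurable k) (nt_W_nonneg k) hc]
  simp only [smul_eq_mul]
  have j1 : ∫ x, ntW k x * Real.exp (inner ℝ x θ ^ 2 / a ^ 2) ∂(dm ρ) ≤ ∫ x, Real.exp (inner ℝ x θ ^ 2 / a ^ 2) ∂(dm ρ) := by
    refine integral_mono_of_nonneg (Eventually.of_forall fun x => mul_nonneg (nt_W_nonneg k x) (Real.exp_pos _).le) i1
      (Eventually.of_forall fun x => ?_)
    calc ntW k x * Real.exp (inner ℝ x θ ^ 2 / a ^ 2) ≤ 1 * Real.exp (inner ℝ x θ ^ 2 / a ^ 2) :=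
          mul_le_mul_of_nonneg_right (nt_W_le_one k x) (Real.exp_pos _).le
      _ = _ := one_mul _
  have j2 : Z⁻¹ ≤ 2 := by
    rw [inv_le_comm₀ hZ0 (by norm_num)]; linarith
  have j3 : 0 ≤ ∫ x, ntW k x * Real.exp (inner ℝ x θ ^ 2 / a ^ 2) ∂(dm ρ) :=
    integral_nonneg fun x => mul_nonneg (nt_W_nonneg k x) (Real.exp_pos _).le
  calc Z⁻¹ * ∫ x, ntW k x * Real.exp (inner ℝ x θ ^ 2 / a ^ 2) ∂(dm ρ)
      ≤ 2 * ∫ x, ntW k x * Real.exp (inner ℝ x θ ^ 2 / a ^ 2) ∂(dm ρ) := mul_le_mul_of_nonneg_right j2 j3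
    _ ≤ 4 := by linarith

end Claimed.Agent.R259
end

/- ===== packed: Claimed.Agent.R259.Normal ===== -/
section
/-
R259 / Normal.lean  (owner: helper26).  Kit NORMAL = Lemma 3.1 with helper220's normalisation F2:
the frozen statement S0499 follows from the non-existence of normalised laws `NormLaw μ a` at small scale `a`.
EXPORT: `normal_main`.
-/
set_option autoImplicit false
set_option linter.unusedSectionVars false

namespace Claimed.Agent.R259

open MeasureTheory Filter Topology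
open scoped ENNReal ContDiff NNReal

/-- the frozen statement of S0499 (verbatim). -/
def FrozenS0499 : Prop :=
  ∃ C : ℝ, ∀ n : ℕ, 1 ≤ n → ∀ ρ : EuclideanSpace ℝ (Fin n) → ℝ, Claims.C0427.IsLogConcaveProbDensity ρ →
      (∫ x, ρ x • x) = 0 →
      ∀ a : ℝ, 0 < a →
      (∀ θ : EuclideanSpace ℝ (Fin n), ‖θ‖ = 1 →
        ∫⁻ x, ENNReal.ofReal (Real.exp ((inner ℝ x θ) ^ 2 / a ^ 2) * ρ x) ≤ 2) →
      ∀ f : EuclideanSpace ℝ (Fin n) → ℝ, ContDiff ℝ ∞ f → HasCompactSupport f →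
        Claims.C0427.entropyWrt ρ (fun x => f x ^ 2) ≤ C * a ^ 2 * ∫ x, ‖fderiv ℝ f x‖ ^ 2 * ρ x

variable {E : Type} [NormedAddCommGroup E] [InnerProductSpace ℝ E] [FiniteDimensional ℝ E]
  [MeasurableSpace E] [BorelSpace E]

/-! ### NS: the fixed point `s = s0 R_s` and the dilation -/

/-- the regularised constants. -/
noncomputable def Rs (μ : Measure E) (s : ℝ) : ℝ := Ropt (dm (gconv μ s))

section NS

variable [Nontrivial E] {μ : Measure E} {a : ℝ}

theorem ns_nonneg_R0 (hμ : BaseLaw μ a) {R0 : ℝ} (hR0 : LSI μ R0) : 0 ≤ R0 := by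
  have := hμ.prob
  exact lsic_nonneg_of_LSI hR0

theorem ns_sharp (hμ : BaseLaw μ a) {R0 : ℝ} (hR0 : LSI μ R0) {s : ℝ} (hs : 0 < s) :
    LSIsharp (dm (gconv μ s)) (Rs μ s) := by
  have := hμ.prob
  have := gc_isProb (μ := μ) hs
  exact lsic_sharp ⟨_, lsic_conv (ns_nonneg_R0 hμ hR0) hR0 hs⟩

theorem ns_Rs_nonneg (hμ : BaseLaw μ a) {R0 : ℝ} (hR0 : LSI μ R0) {s : ℝ} (hs : 0 < s) : 0 ≤ Rs μ s := by
  have := hμ.prob
  have := gc_isProb (μ := μ) hs
  exact lsic_nonneg_of_LSI (ns_sharp hμ hR0 hs).1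

theorem ns_Rs_le (hμ : BaseLaw μ a) {R0 : ℝ} (hR0 : LSI μ R0) {s : ℝ} (hs : 0 < s) : Rs μ s ≤ R0 + s := by
  have := hμ.prob
  have := gc_isProb (μ := μ) hs
  exact lsic_Ropt_le (lsic_conv (ns_nonneg_R0 hμ hR0) hR0 hs)

theorem ns_Rs_add_le (hμ : BaseLaw μ a) {R0 : ℝ} (hR0 : LSI μ R0) {s h : ℝ} (hs : 0 < s) (hh : 0 < h) :
    Rs μ (s + h) ≤ Rs μ s + h := by
  have := hμ.prob
  have := gc_isProb (μ := μ) hs
  have := gc_isProb (μ := μ) (add_pos hs hh)
  have h1 := lsic_conv (ns_Rs_nonneg hμ hR0 hs) (ns_sharp hμ hR0 hs).1 hh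
  rw [gc_semigroup hs hh] at h1
  exact lsic_Ropt_le h1

theorem ns_Rs_le_add (hμ : BaseLaw μ a) {R0 : ℝ} (hR0 : LSI μ R0) {s h : ℝ} (hs : 0 < s) (hh : 0 < h) :
    Rs μ s ≤ Rs μ (s + h) + h := by
  have := hμ.prob
  have := gc_isProb (μ := μ) hs
  have := gc_isProb (μ := μ) (add_pos hs hh)
  have h0 := (ns_sharp hμ hR0 (add_pos hs hh)).1
  rw [← gc_semigroup hs hh] at h0
  have h1 := lsic_rev_conv (gc_logConc hμ.dens hs) hh (ns_Rs_nonneg hμ hR0 (add_pos hs hh)) h0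
  exact lsic_Ropt_le h1

theorem ns_base_le (hμ : BaseLaw μ a) {R0 : ℝ} (hR0 : LSI μ R0) {s : ℝ} (hs : 0 < s) : LSI μ (Rs μ s + s) := by
  have := hμ.prob
  obtain ⟨ρ, hρ, rfl⟩ := hμ.dens
  exact lsic_rev_conv hρ hs (ns_Rs_nonneg hμ hR0 hs) (ns_sharp hμ hR0 hs).1

theorem ns_lipschitz (hμ : BaseLaw μ a) {R0 : ℝ} (hR0 : LSI μ R0) {s t : ℝ} (hs : 0 < s) (ht : 0 < t) :
    |Rs μ s - Rs μ t| ≤ |s - t| := by
  wlog hst : s ≤ t generalizing s t
  · rw [abs_sub_comm, abs_sub_comm s t]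
    exact this ht hs (le_of_not_ge hst)
  rcases hst.eq_or_lt with rfl | hlt
  · simp
  have hh : 0 < t - s := by linarith
  have h1 := ns_Rs_add_le hμ hR0 hs hh
  have h2 := ns_Rs_le_add hμ hR0 hs hh
  rw [add_sub_cancel] at h1 h2
  rw [abs_le, abs_of_nonpos (by linarith : s - t ≤ 0)]
  constructor <;> linarith

theorem ns_continuousOn (hμ : BaseLaw μ a) {R0 : ℝ} (hR0 : LSI μ R0) : ContinuousOn (Rs μ) (Set.Ioi 0) := by
  have : LipschitzOnWith 1 (Rs μ) (Set.Ioi 0) := by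
    refine LipschitzOnWith.of_dist_le_mul fun s hs t ht => ?_
    rw [Real.dist_eq, Real.dist_eq]
    simpa using ns_lipschitz hμ hR0 hs ht
  exact this.continuousOn

/-- the fixed point. -/
theorem ns_fixed (hμ : BaseLaw μ a) {R0 : ℝ} (hR0 : LSI μ R0) {K : ℝ} (hK0 : 0 < K) (hK : ¬ LSI μ K) :
    ∃ s : ℝ, 0 < s ∧ s = s0 * Rs μ s := by
  have hKR : K < R0 := by
    by_contra hcon
    exact hK (hR0.mono (not_lt.1 hcon))
  set s1 := K / 9 with hs1
  set s2 := R0 / 7 with hs2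
  have hs1pos : 0 < s1 := by positivity
  have hs12 : s1 ≤ s2 := by rw [hs1, hs2]; linarith
  have hs2pos : 0 < s2 := lt_of_lt_of_le hs1pos hs12
  have hcont : ContinuousOn (fun s => s - s0 * Rs μ s) (Set.Icc s1 s2) := by
    refine continuousOn_id.sub (continuousOn_const.mul ((ns_continuousOn hμ hR0).mono ?_))
    intro s hs
    exact lt_of_lt_of_le hs1pos hs.1
  have hlow : s1 - s0 * Rs μ s1 ≤ 0 := by
    have h1 : K < Rs μ s1 + s1 := by
      by_contra hcon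
      exact hK ((ns_base_le hμ hR0 hs1pos).mono (not_lt.1 hcon))
    unfold s0
    rw [hs1] at h1 ⊢
    linarith
  have hhigh : 0 ≤ s2 - s0 * Rs μ s2 := by
    have h1 := ns_Rs_le hμ hR0 hs2pos
    unfold s0
    rw [hs2] at h1 ⊢
    linarith
  obtain ⟨s, hs, hs'⟩ := intermediate_value_Icc hs12 hcont ⟨hlow, hhigh⟩
  refine ⟨s, lt_of_lt_of_le hs1pos hs.1, ?_⟩
  simp only at hs'
  linarith

/-- **NS**. -/
theorem normal_fix (hμ : BaseLaw μ a) {R0 : ℝ} (hR0 : LSI μ R0) {K : ℝ} (hK0 : 0 < K) (hK : ¬ LSI μ K) :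
    ∃ c : ℝ, 0 < c ∧ c ^ 2 * K ≤ 9 / 8 ∧ NormLaw (μ.map fun x => c • x) (c * a) := by
  have := hμ.prob
  obtain ⟨s, hs, hfix⟩ := ns_fixed hμ hR0 hK0 hK
  have hRpos : 0 < Rs μ s := by
    unfold s0 at hfix
    linarith
  set c := (Real.sqrt (Rs μ s))⁻¹ with hc
  have hcpos : 0 < c := inv_pos.2 (Real.sqrt_pos.2 hRpos)
  have hc2 : c ^ 2 * Rs μ s = 1 := by
    rw [hc, inv_pow, Real.sq_sqrt hRpos.le, inv_mul_cancel₀ hRpos.ne']
  have hc2s : c ^ 2 * s = s0 := by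
    rw [hfix]
    calc c ^ 2 * (s0 * Rs μ s) = s0 * (c ^ 2 * Rs μ s) := by ring
      _ = s0 := by rw [hc2, mul_one]
  refine ⟨c, hcpos, ?_, hμ.map_smul hcpos, ?_⟩
  · have h1 : K < Rs μ s + s := by
      by_contra hcon
      exact hK ((ns_base_le hμ hR0 hs).mono (not_lt.1 hcon))
    have h2 : Rs μ s + s = 9 / 8 * Rs μ s := by
      have : s = 1 / 8 * Rs μ s := hfix
      linarith
    have h3 : c ^ 2 * K ≤ c ^ 2 * (9 / 8 * Rs μ s) := by
      refine mul_le_mul_of_nonneg_left ?_ (by positivity)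
      linarith
    calc c ^ 2 * K ≤ c ^ 2 * (9 / 8 * Rs μ s) := h3
      _ = 9 / 8 * (c ^ 2 * Rs μ s) := by ring
      _ = 9 / 8 := by rw [hc2, mul_one]
  · have h1 := lsic_LSIsharp_map hcpos.ne' (0 : E) (ns_sharp hμ hR0 hs)
    rw [hc2, ← lsic_gconv_map hcpos (0 : E) hs, hc2s] at h1
    simpa using h1

end NS

/-! ### the export -/

/-- **NORMAL**: if there is no normalised law at scales `a ≤ a0`, the frozen statement holds (with `C = 18 / a0²`). -/
theorem normal_main {a0 : ℝ} (ha0 : 0 < a0)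
    (H : ∀ (n : ℕ) (μ : Measure (EE n)) (a : ℝ), 1 ≤ n → a ≤ a0 → ¬ NormLaw μ a) : FrozenS0499 := by
  refine ⟨18 / a0 ^ 2, fun n hn ρ hρ _ a ha hpsi f hf1 hf2 => ?_⟩
  by_contra hcon
  have : Nonempty (Fin n) := ⟨⟨0, hn⟩⟩
  have : Nontrivial (EE n) := inferInstance
  have := nb_prob hρ
  have hm := hρ.1
  have h0 := hρ.2.1
  set K := 18 / a0 ^ 2 * a ^ 2 / 2 with hKdef
  have hK0 : 0 < K := by positivity
  have hK : ¬ LSI (dm ρ) K := by
    intro hL
    apply hcon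
    have h1 := hL f ⟨hf1, hf2⟩
    rw [nb_ent hm h0, nb_nrg hm h0]
    calc _ ≤ _ := h1
      _ = _ := by rw [hKdef]; ring
  obtain ⟨μ, hμ, ⟨R0, hR0⟩, hμK⟩ := normal_trunc (nb_logConc hρ) ha (fun θ hθ => nb_psi2 hm h0 (hpsi θ hθ)) hK
  obtain ⟨c, hc, hcK, hN⟩ := normal_fix hμ hR0 hK0 hμK
  refine H n _ _ hn ?_ hN
  have h8 : Real.sqrt 8 ^ 2 = 8 := Real.sq_sqrt (by norm_num)
  have h1 : (c * (Real.sqrt 8 * a)) ^ 2 ≤ a0 ^ 2 := by
    have h2 : (c * (Real.sqrt 8 * a)) ^ 2 = 8 * (c ^ 2 * a ^ 2) := by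
      rw [mul_pow, mul_pow, h8]; ring
    have h3 : c ^ 2 * K = 9 * (c ^ 2 * a ^ 2) / a0 ^ 2 := by
      rw [hKdef]; ring
    rw [h3, div_le_iff₀ (by positivity)] at hcK
    rw [h2]
    linarith
  exact abs_le_of_sq_le_sq' h1 ha0.le |>.2

theorem normal_eqns_cite : True := by
  have := @FrozenS0499.eq_1
  have := @Rs.eq_1
  trivial

end Claimed.Agent.R259
end

/- ===== packed: Claimed.Agent.R259.S7JacPhi ===== -/
section
/-
Row 259 (S0499), section 7, package BP-S7-JAC: support, bounds and measurability of `xQ`, `s7jPhi`, `s7jG`.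
LEAF L-s7j-phi: PROVED (helper121).
No paper reading.  Uses S7JacDec.lean, S7ValMeas.lean, S7ValSc.lean as black boxes.

NOTATION. `Q^x = B.xQ t L P u x d w = ∑_k c_k(u,x) • (E1_k * E2_k(x))` with unitaries
`E1_k = cE (s_k) H[N_u]`, `E2_k(x) = cE (r_k) H[g_x(H[N]) G]`; `p_i = s7jp (B.Rs d) i`; `v = N - α N_u`;
`K = P.K`.

PLAN.
* `s7j_xQ_zero`: `P.c_supp`.
* `s7j_xQ_abs`: for `x ≥ 0` trivial (`abs_of_nonneg`), for `x < 0` both sides vanish termwise since
  `c_k(u,x) = 0`.  It removes the singularity of `gx t L x` at negative `x`.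
* `s7j_meas_xQ`: rewrite with `s7j_xQ_abs`; `s7v_meas_sumC`, `s7v_meas_smulC` (`P.c_cont k` is
  continuous, compose with `hu.prodMk hx`), `s7v_meas_mulC`, `s7v_meas_cE`, `s7v_meas_HAt`, `s7v_meas_mv`,
  `s7v_meas_gx`, `s7v_meas_ouV`, `s7v_colAt_symm`.  Components of `w`: `measurable_fst.comp hw` etc.
* `s7j_meas_G`: `s7v_meas_traceC`, `s7v_meas_mulC`, `s7v_meas_toC`, `s7v_meas_mul`, `s7v_meas_Rs`,
  `s7v_meas_HAt`, `s7v_meas_v`, `s7v_meas_cSq`, `Complex.measurable_re`.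
* `s7j_Phi_meas`: `d, w, u, i` are FIXED, so `toC p_i` and `toC H[v]` are constant matrices; use
  `s7j_meas_xQ` with `S = ℝ`, `x = id`, constants elsewhere.
* `s7j_Phi_le`: `cSq (p_i Q^x) ≤ K ∑_k |c_k|² cSq (p_i E1 E2) = K ∑_k |c_k|²` (`Finset.mul_sum`,
  `cSq_sum_le`, `Matrix.mul_smul`, `cSq_smul`, `s7j_cSq_p_mul_unitary` for the unitary `E1 * E2`)
  `≤ K² C² χ(x)²`, `χ² ≤ χ` (`s7v_coef_le_chi`, `0 ≤ χ ≤ 1`);
  `|Re tr(H[v] (p_i Q^x))| ≤ √(cSq H[v]) √(cSq (p_i Q^x)) ≤ 2|v| K C χ(x)` (`cSq_trace_mul_le`,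
  `s7v_cSq_colAt_le`).
* `s7j_Phi_integrableOn`: `s7v_window_integrableOn` with the window `[x0/2, 2 x1]` or `[x0,x1]`, the bound from
  `s7j_Phi_le` with `C` from `s7v_coef_bound P u u`.
* `s7j_G_le`: `s7j_G_eq`, `s7j_Phi_le`, `s7v_sum_eig_sq`.
-/
set_option autoImplicit false

open MeasureTheory ProbabilityTheory
open scoped BigOperators Matrix
open Claimed.Agent.R260 (Mx mxFun mxSchur mxSq mxIP mxEig mxU mxRot)

namespace Claimed.Agent.R259

variable {n : ℕ} {D : Type} [MeasurableSpace D] {Q : Measure D} (B : BlockModel n Q)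

theorem s7j_xQ_zero (t L : ℝ) (P : Tst) (u : ℝ) {x : ℝ} (hx : x ∉ Set.Icc P.x0 P.x1) (d : D)
    (w : EE n × EE n × EE n) : B.xQ t L P u x d w = 0 := by
  unfold BlockModel.xQ
  exact Finset.sum_eq_zero fun k _ => by rw [P.c_supp k u x hx, zero_smul]

/-- `gx t L x` may be replaced by `gx t L |x|` -/
theorem s7j_xQ_abs (t L : ℝ) (P : Tst) (u x : ℝ) (d : D) (w : EE n × EE n × EE n) :
    B.xQ t L P u x d w
      = ∑ k, P.c k u x • (cE (P.s k) (colAt (B.H d) (ouV u w.1 w.2.1))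
          * cE (P.r k) (colAt (B.H d) (mv (mxFun (gx t L |x|) (colAt (B.H d) w.1)) w.2.2))) := by
  unfold BlockModel.xQ
  refine Finset.sum_congr rfl fun k _ => ?_
  by_cases hx : 0 ≤ x
  · rw [abs_of_nonneg hx]
  · have h : x ∉ Set.Icc P.x0 P.x1 := fun h => hx (P.x0_pos.le.trans h.1)
    rw [P.c_supp k u x h, zero_smul, zero_smul]

theorem s7j_meas_xQ {S : Type} [MeasurableSpace S] (t : ℝ) {L : ℝ} (hL : 0 < L) (P : Tst)
    {u x : S → ℝ} {d : S → D} {w : S → EE n × EE n × EE n} (hu : Measurable u) (hx : Measurable x)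
    (hd : Measurable d) (hw : Measurable w) :
    ∀ a b, Measurable fun s => B.xQ t L P (u s) (x s) (d s) (w s) a b := by
  simp only [s7j_xQ_abs]
  have hw1 : Measurable fun s => (w s).1 := measurable_fst.comp hw
  have hw2 : Measurable fun s => (w s).2.1 := measurable_fst.comp (measurable_snd.comp hw)
  have hw3 : Measurable fun s => (w s).2.2 := measurable_snd.comp (measurable_snd.comp hw)
  refine s7v_meas_sumC _ fun k _ => ?_
  refine s7v_meas_smulC ((P.c_cont k).measurable.comp (hu.prodMk hx)) (s7v_meas_mulC ?_ ?_)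
  · exact s7v_meas_cE _ (s7v_meas_HAt B hd (s7v_meas_ouV hu hw1 hw2))
      (fun s => s7v_colAt_symm B _ _)
  · refine s7v_meas_cE _ (s7v_meas_HAt B hd (s7v_meas_mv ?_ hw3)) (fun s => s7v_colAt_symm B _ _)
    exact s7v_meas_gx t hL hx (s7v_meas_HAt B hd hw1) (fun s => s7v_colAt_symm B _ _)

theorem s7j_meas_G {S : Type} [MeasurableSpace S] (t : ℝ) {L : ℝ} (hL : 0 < L) (P : Tst)
    {u x : S → ℝ} {d : S → D} {w : S → EE n × EE n × EE n} (hu : Measurable u) (hx : Measurable x)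
    (hd : Measurable d) (hw : Measurable w) :
    Measurable fun s => B.s7jG t L P (u s) (x s) (d s) (w s) := by
  unfold BlockModel.s7jG
  have hw1 : Measurable fun s => (w s).1 := measurable_fst.comp hw
  have hw2 : Measurable fun s => (w s).2.1 := measurable_fst.comp (measurable_snd.comp hw)
  have hQ := s7j_meas_xQ B t hL P hu hx hd hw
  have hR := s7v_meas_Rs B hd
  refine Measurable.sub (measurable_const.mul (Complex.measurable_re.comp ?_))
    (measurable_const.mul (s7v_meas_cSq (s7v_meas_mulC hQ (s7v_meas_toC hR))))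
  exact s7v_meas_traceC (s7v_meas_mulC (s7v_meas_toC (s7v_meas_mul (s7v_meas_mul hR hR)
    (s7v_meas_HAt B hd (s7v_meas_v hu hw1 hw2)))) hQ)

theorem s7j_Phi_meas (t : ℝ) {L : ℝ} (hL : 0 < L) (P : Tst) (u : ℝ) (d : D)
    (w : EE n × EE n × EE n) (i : Fin n) : Measurable (B.s7jPhi t L P u d w i) := by
  unfold BlockModel.s7jPhi
  have hQ : ∀ a b, Measurable fun x : ℝ => B.xQ t L P u x d w a b :=
    s7j_meas_xQ B t hL P measurable_const measurable_id measurable_const measurable_const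
  have hp : ∀ a b, Measurable fun x : ℝ => (toC (s7jp (B.Rs d) i) * B.xQ t L P u x d w) a b :=
    s7v_meas_mulC (fun _ _ => measurable_const) hQ
  refine Measurable.sub (measurable_const.mul (Complex.measurable_re.comp ?_))
    (measurable_const.mul (s7v_meas_cSq hp))
  exact s7v_meas_traceC (s7v_meas_mulC (fun _ _ => measurable_const) hp)

theorem s7j_unitary_mul {U V : CMx n} (hU : U * Uᴴ = 1) (hV : V * Vᴴ = 1) :
    (U * V) * (U * V)ᴴ = 1 := by
  rw [Matrix.conjTranspose_mul, mul_assoc, ← mul_assoc V, hV, one_mul, hU]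

theorem s7j_cSq_p_xQ_le (t L : ℝ) (P : Tst) {u C : ℝ} (hC : ∀ k x, ‖P.c k u x‖ ≤ C) (d : D)
    (w : EE n × EE n × EE n) (i : Fin n) (x : ℝ) :
    cSq (toC (s7jp (B.Rs d) i) * B.xQ t L P u x d w) ≤ ((P.K : ℝ) * C * P.s7vChi x) ^ 2 := by
  unfold BlockModel.xQ
  rw [Finset.mul_sum]
  refine (cSq_sum_le _ _).trans ?_
  rw [Finset.card_univ, Fintype.card_fin]
  have h1 : ∀ k : Fin P.K, cSq (toC (s7jp (B.Rs d) i)
      * P.c k u x • (cE (P.s k) (colAt (B.H d) (ouV u w.1 w.2.1))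
        * cE (P.r k) (colAt (B.H d) (mv (mxFun (gx t L x) (colAt (B.H d) w.1)) w.2.2))))
      ≤ (C * P.s7vChi x) ^ 2 := by
    intro k
    rw [Matrix.mul_smul, cSq_smul, s7j_cSq_p_mul_unitary _ _
      (s7j_unitary_mul (cE_mul_conjTranspose _ _) (cE_mul_conjTranspose _ _)), mul_one]
    exact pow_le_pow_left₀ (norm_nonneg _) (s7v_coef_le_chi P hC k x) 2
  refine (mul_le_mul_of_nonneg_left (Finset.sum_le_sum fun k _ => h1 k) (Nat.cast_nonneg _)).trans
    (le_of_eq ?_)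
  rw [Finset.sum_const, Finset.card_univ, Fintype.card_fin, nsmul_eq_mul]
  ring

theorem s7j_KC_nonneg (P : Tst) {u C : ℝ} (hC : ∀ k x, ‖P.c k u x‖ ≤ C) : 0 ≤ (P.K : ℝ) * C := by
  rcases Nat.eq_zero_or_pos P.K with h | h
  · rw [h]; simp
  · exact mul_nonneg (Nat.cast_nonneg _) ((norm_nonneg _).trans (hC ⟨0, h⟩ 0))

theorem s7j_Phi_le (t L : ℝ) (P : Tst) {u C : ℝ} (hC : ∀ k x, ‖P.c k u x‖ ≤ C) (d : D)
    (w : EE n × EE n × EE n) (i : Fin n) (x : ℝ) :
    |B.s7jPhi t L P u d w i x|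
      ≤ (4 * (P.K : ℝ) * C * ‖w.1 - Real.exp (-u) • ouV u w.1 w.2.1‖ + 4 * (P.K : ℝ) ^ 2 * C ^ 2)
        * P.s7vChi x := by
  unfold BlockModel.s7jPhi
  set v := w.1 - Real.exp (-u) • ouV u w.1 w.2.1 with hv
  set Y := toC (s7jp (B.Rs d) i) * B.xQ t L P u x d w with hY
  set χ := P.s7vChi x with hχ
  have hKC := s7j_KC_nonneg P hC
  have hχ0 : 0 ≤ χ := s7v_chi_nonneg P x
  have hχ1 : χ ≤ 1 := s7v_chi_le_one P x
  have h1 : cSq Y ≤ ((P.K : ℝ) * C * χ) ^ 2 := s7j_cSq_p_xQ_le B t L P hC d w i x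
  have h2 : Real.sqrt (cSq Y) ≤ (P.K : ℝ) * C * χ := by
    refine (Real.sqrt_le_sqrt h1).trans ?_
    rw [Real.sqrt_sq (mul_nonneg hKC hχ0)]
  have h3 : Real.sqrt (cSq (toC (colAt (B.H d) v))) ≤ 2 * ‖v‖ := by
    refine (Real.sqrt_le_sqrt (s7v_cSq_colAt_le B d v)).trans ?_
    have : (4 : ℝ) * ‖v‖ ^ 2 = (2 * ‖v‖) ^ 2 := by ring
    rw [this, Real.sqrt_sq (by positivity)]
  have h4 : |(Matrix.trace (toC (colAt (B.H d) v) * Y)).re| ≤ 2 * ‖v‖ * ((P.K : ℝ) * C * χ) :=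
    (Complex.abs_re_le_norm _).trans ((cSq_trace_mul_le _ _).trans
      (mul_le_mul h3 h2 (Real.sqrt_nonneg _) (by positivity)))
  have h5 : ((P.K : ℝ) * C * χ) ^ 2 ≤ (P.K : ℝ) ^ 2 * C ^ 2 * χ := by
    have : χ ^ 2 ≤ χ := by nlinarith
    have h6 : 0 ≤ (P.K : ℝ) ^ 2 * C ^ 2 := by positivity
    calc ((P.K : ℝ) * C * χ) ^ 2 = (P.K : ℝ) ^ 2 * C ^ 2 * χ ^ 2 := by ring
      _ ≤ (P.K : ℝ) ^ 2 * C ^ 2 * χ := mul_le_mul_of_nonneg_left this h6
  have h6 := cSq_nonneg Y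
  rw [abs_le] at h4 ⊢
  constructor <;> nlinarith [h4.1, h4.2]

theorem s7j_Phi_zero (t L : ℝ) (P : Tst) (u : ℝ) (d : D) (w : EE n × EE n × EE n) (i : Fin n) :
    B.s7jPhi t L P u d w i 0 = 0 := by
  unfold BlockModel.s7jPhi
  have h : (0 : ℝ) ∉ Set.Icc P.x0 P.x1 := fun h => absurd h.1 (not_le.2 P.x0_pos)
  rw [s7j_xQ_zero B t L P u h]
  simp [cSq_zero]

theorem s7j_Phi_integrableOn (t : ℝ) {L : ℝ} (hL : 0 < L) (P : Tst) (u : ℝ) (d : D)
    (w : EE n × EE n × EE n) (i : Fin n) :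
    IntegrableOn (fun x => B.s7jPhi t L P u d w i x / x ^ 2) (Set.Ioi 0) := by
  obtain ⟨C, hC0, hC⟩ := s7v_coef_bound P u u
  have hC' : ∀ k x, ‖P.c k u x‖ ≤ C := fun k x => hC k u ⟨le_rfl, le_rfl⟩ x
  set C' := 4 * (P.K : ℝ) * C * ‖w.1 - Real.exp (-u) • ouV u w.1 w.2.1‖ + 4 * (P.K : ℝ) ^ 2 * C ^ 2
    with hCdef
  have hC'0 : 0 ≤ C' := by positivity
  refine s7v_window_integrableOn (s7j_Phi_meas B t hL P u d w i) (C := C') (a := P.x0 / 2)
    (b := 2 * P.x1) (by linarith [P.x0_pos]) (fun x => ?_) (fun x hx => ?_)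
  · refine (s7j_Phi_le B t L P hC' d w i x).trans ?_
    exact mul_le_of_le_one_right hC'0 (s7v_chi_le_one P x)
  · have h := s7j_Phi_le B t L P hC' d w i x
    rw [s7v_chi_eq_zero P hx, mul_zero] at h
    exact abs_nonpos_iff.1 h

theorem s7j_G_le (t L : ℝ) (P : Tst) {u C : ℝ} (hC : ∀ k x, ‖P.c k u x‖ ≤ C) (d : D)
    (w : EE n × EE n × EE n) (x : ℝ) :
    |B.s7jG t L P u x d w|
      ≤ (4 * (P.K : ℝ) * C * ‖w.1 - Real.exp (-u) • ouV u w.1 w.2.1‖ + 4 * (P.K : ℝ) ^ 2 * C ^ 2)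
        * (mxSq (B.Rs d) * P.s7vChi x) := by
  rw [s7j_G_eq, ← s7v_sum_eig_sq (s7v_Rs_symm B d), Finset.sum_mul, Finset.mul_sum]
  refine (Finset.abs_sum_le_sum_abs _ _).trans (Finset.sum_le_sum fun i _ => ?_)
  rw [abs_mul, abs_of_nonneg (sq_nonneg _)]
  have h := mul_le_mul_of_nonneg_left (s7j_Phi_le B t L P hC d w i x)
    (sq_nonneg (mxEig (B.Rs d) i))
  refine h.trans (le_of_eq ?_)
  ring

end Claimed.Agent.R259
end

/- ===== packed: Claimed.Agent.R259.S7ValFz ===== -/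
section
/-
Row 259 (S0499), section 7, SHARED KIT VAL: the sample space `Ω × (EE n × EE n)` of a frozen coupling.
LEAF L-s7v-fz: PROVED (helper121).
No paper reading.

PLAN.
* `s7v_gam_prob`: `gam_eq_std` (GamStd.lean) or `gck_dm_prob one_pos` (GcKernel.lean).
* `s7v_gam_norm_integrable`: `gam_eq_std`, `stdGaussian` is Gaussian:
  `ProbabilityTheory.IsGaussian.memLp_id` (`p = 1`), or `IsGaussian.integrable_id.norm`.
* `s7v_fz_int`: expand `(1 + |N o| + |G'|) * q(o) = (1 + |N o|) q(o) + |G'| q(o)`, `q(o) = mxSq (R_*(Dt o))`.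
  `q ∘ Dt` is integrable under `F.P` (`F.law_Dt`, `F.B.Rs_int`, `integrable_map_measure`);
  `(1 + |N|)` is integrable under `F.P` (`F.law_N`); the two are independent (`F.indep.comp`):
  `IndepFun.integrable_mul`.  Then `Integrable.comp_fst`/`Integrable.mul_prod` on the product.
* `s7v_fz_law`: `(indepFun_iff_map_prod_eq_prod_map_map ..).1 F.indep` gives
  `P.map (Dt, N) = Qm.prod gam`; `Measure.map_prod_map` for `(o, g) ↦ ((Dt o, N o), g)`;
  re-association by `MeasurableEquiv.prodAssoc` (`Measure.prodAssoc_prod`), `Measure.map_map`.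
-/
set_option autoImplicit false

open MeasureTheory ProbabilityTheory
open scoped BigOperators Matrix
open Claimed.Agent.R260 (Mx mxFun mxSchur mxSq mxIP mxEig mxU mxRot)

namespace Claimed.Agent.R259

variable {n : ℕ}

instance s7v_gam_prob (n : ℕ) : IsProbabilityMeasure (gam n) := by
  unfold gam
  exact gck_dm_prob one_pos

theorem s7v_gam_norm_integrable (n : ℕ) : Integrable (fun v : EE n => ‖v‖) (gam n) := by
  rw [gam_eq_std]
  exact (IsGaussian.integrable_id (μ := stdGaussian (EE n))).norm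

variable {X : HierData n} {k : ℕ} {h t ε : ℝ}

/-- the σ-algebra of the sample space of a frozen coupling, as an instance -/
instance Frozen.s7vMΩ (F : Frozen X k h t ε) : MeasurableSpace F.Ω := F.mΩ

instance Frozen.s7vProb (F : Frozen X k h t ε) : IsProbabilityMeasure F.P := F.prob

theorem s7v_fz_int (F : Frozen X k h t ε) :
    Integrable (fun s : F.Ω × (EE n × EE n) =>
        (1 + ‖F.N s.1‖ + ‖s.2.1‖) * mxSq (F.B.Rs (F.Dt s.1)))
      (F.P.prod ((gam n).prod (gam n))) := by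
  have hqm : Measurable fun d : EE n × ℝ => mxSq (F.B.Rs d) := s7v_meas_mxSq F.B.Rs_meas
  -- integrability of the two factors
  have hq : Integrable (fun o => mxSq (F.B.Rs (F.Dt o))) F.P := by
    have h : Integrable (fun d => mxSq (F.B.Rs d)) (F.P.map F.Dt) := by
      have h0 := F.B.Rs_int
      generalize (fun d => mxSq (F.B.Rs d)) = q at h0 ⊢
      rwa [F.law_Dt]
    exact (integrable_map_measure hqm.aestronglyMeasurable F.Dt_meas.aemeasurable).1 h
  have hN : Integrable (fun o => 1 + ‖F.N o‖) F.P := by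
    have h := s7v_gam_norm_integrable n
    rw [← F.law_N] at h
    exact (integrable_const 1).add
      ((integrable_map_measure measurable_norm.aestronglyMeasurable F.N_meas.aemeasurable).1 h)
  have hind : IndepFun (fun o => 1 + ‖F.N o‖) (fun o => mxSq (F.B.Rs (F.Dt o))) F.P :=
    F.indep.symm.comp (φ := fun v : EE n => 1 + ‖v‖) (measurable_const.add measurable_norm) hqm
  have h1 : Integrable (fun o => (1 + ‖F.N o‖) * mxSq (F.B.Rs (F.Dt o))) F.P :=
    hind.integrable_mul hN hq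
  have h2 : Integrable (fun s : F.Ω × (EE n × EE n) => (1 + ‖F.N s.1‖) * mxSq (F.B.Rs (F.Dt s.1)))
      (F.P.prod ((gam n).prod (gam n))) := h1.comp_fst _
  have h3 : Integrable (fun g : EE n × EE n => ‖g.1‖) ((gam n).prod (gam n)) :=
    (s7v_gam_norm_integrable n).comp_fst _
  have h4 : Integrable (fun s : F.Ω × (EE n × EE n) => mxSq (F.B.Rs (F.Dt s.1)) * ‖s.2.1‖)
      (F.P.prod ((gam n).prod (gam n))) := hq.mul_prod h3
  refine (h2.add h4).congr (Filter.Eventually.of_forall fun s => ?_)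
  simp only [Pi.add_apply]
  ring

/-- the sample space of `valM` -/
noncomputable def Frozen.s7vSp (F : Frozen X k h t ε) :
    S7vSp F.B (F.P.prod ((gam n).prod (gam n))) where
  d s := F.Dt s.1
  N s := F.N s.1
  G1 s := s.2.1
  G2 s := s.2.2
  d_meas := F.Dt_meas.comp measurable_fst
  N_meas := F.N_meas.comp measurable_fst
  G1_meas := measurable_fst.comp measurable_snd
  G2_meas := measurable_snd.comp measurable_snd
  int := s7v_fz_int F

theorem s7v_valM_eq (F : Frozen X k h t ε) (M : F.Ω → Mx n) (P : Tst) (u T : ℝ) :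
    F.valM M P u T
      = ∫ s, F.s7vSp.val P u T (M s.1) s ∂(F.P.prod ((gam n).prod (gam n))) := rfl

/-- the joint law of `(𝒟, (N, G', G))` -/
theorem s7v_fz_law (F : Frozen X k h t ε) :
    Measure.map (fun s : F.Ω × (EE n × EE n) => (F.s7vSp.d s, F.s7vSp.w s))
        (F.P.prod ((gam n).prod (gam n)))
      = (X.Qm h).prod ((gam n).prod ((gam n).prod (gam n))) := by
  have h1 : F.P.map (fun o => (F.Dt o, F.N o)) = (X.Qm h).prod (gam n) := by
    rw [(indepFun_iff_map_prod_eq_prod_map_map F.Dt_meas.aemeasurable F.N_meas.aemeasurable).1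
      F.indep, F.law_Dt, F.law_N]
  have hφ : Measurable fun o => (F.Dt o, F.N o) := F.Dt_meas.prodMk F.N_meas
  have : IsProbabilityMeasure (X.Qm h) := by
    rw [← F.law_Dt]
    exact Measure.isProbabilityMeasure_map F.Dt_meas.aemeasurable
  have h2 := Measure.map_prod_map F.P ((gam n).prod (gam n)) hφ
    (measurable_id : Measurable (id : EE n × EE n → EE n × EE n))
  rw [Measure.map_id, h1] at h2
  have h3 : (X.Qm h).prod ((gam n).prod ((gam n).prod (gam n)))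
      = Measure.map (MeasurableEquiv.prodAssoc ∘ Prod.map (fun o => (F.Dt o, F.N o)) id)
          (F.P.prod ((gam n).prod (gam n))) := by
    rw [← Measure.prodAssoc_prod, h2, Measure.map_map MeasurableEquiv.prodAssoc.measurable
      (hφ.prodMap measurable_id)]
  rw [h3]
  rfl

/-- generates the equation lemmas of the definitions above in this file (rule 6: unique names) -/
theorem s7valfz_eqns_cite : True := by
  have := @Frozen.s7vSp.eq_1
  trivial

end Claimed.Agent.R259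
end

/- ===== packed: Claimed.Agent.R259.S7JacInt ===== -/
section
/-
Row 259 (S0499), section 7, package BP-S7-JAC: integrability of the integrand of `mInt`, reduction of the
sample space.
LEAF L-s7j-int.  Statements FIXED (owner of the statements: helper121); replace the sorries in place.
No paper reading.  Uses S7JacPhi.lean, S7ValFz.lean, S7ValSc.lean as black boxes.

PLAN.
* `s7j_G_integrable_fix`: measurable by `s7j_meas_G` (constants `u, x`; `Z.d_meas`;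
  `Z.w` is measurable: `Z.N_meas.prodMk (Z.G1_meas.prodMk Z.G2_meas)`), bounded by
  `C' (1 + |N| + |G1|) mxSq (R_*(d s))` (`s7j_G_le` with `C` from `s7v_coef_bound P u u`, `s7v_norm_v_le`,
  `χ ≤ 1`); `Z.int`; `Integrable.mono'`.
* `s7j_G_integrable`: on `(vol|Ioi 0).prod μ` the function is dominated by
  `(χ(x)/x²) * (C' (1 + |N| + |G1|) mxSq (R_*(d s)))` = product of an integrable function of `x`
  (`s7v_chi_integrableOn`) and an integrable function of `s`: `Integrable.mul_prod`.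
  Measurability: `s7j_meas_G` on `S' = ℝ × S` with `x = fst`.
* `s7j_mInt_eq`: `Z = F.s7vSp`.  By `s7v_fz_law` and `integral_map`
  (`AEStronglyMeasurable` from `s7j_meas_G` on `S' = D × W` with `d = fst`, `w = snd`)
  `∫ s, g (Z.d s) (Z.w s) ∂μ = ∫ p, g p.1 p.2 ∂(Qm.prod G3)`, then `integral_prod`; the integrability on
  `Qm.prod G3` comes from `s7j_G_integrable_fix` through `integrable_map_measure`.  `mInt` unfolds to
  `∫ d, ∫ w, B.s7jG t L P u x d w ∂G3 ∂Qm` by `rfl`.  (`X.Qm h` is a probability measure: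
  `F.law_Dt`; see `Frozen.isProb_Qm` in S7Lower.lean, which must NOT be imported: copy its 4 lines.)
-/
set_option autoImplicit false

open MeasureTheory ProbabilityTheory
open scoped BigOperators Matrix
open Claimed.Agent.R260 (Mx mxFun mxSchur mxSq mxIP mxEig mxU mxRot)

namespace Claimed.Agent.R259

variable {n : ℕ}

section abstract

variable {D : Type} [MeasurableSpace D] {Q : Measure D} {B : BlockModel n Q}
  {S : Type} [MeasurableSpace S] {μ : Measure S}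

theorem s7j_w_meas (Z : S7vSp B μ) : Measurable Z.w :=
  Z.N_meas.prodMk (Z.G1_meas.prodMk Z.G2_meas)

/-- the pointwise majorant of `s7jG` on the abstract sample space -/
theorem s7j_G_dom (Z : S7vSp B μ) (t L : ℝ) (P : Tst) {u C : ℝ} (hu : 0 ≤ u) (hC0 : 0 ≤ C)
    (hC : ∀ k x, ‖P.c k u x‖ ≤ C) (x : ℝ) (s : S) :
    |B.s7jG t L P u x (Z.d s) (Z.w s)| ≤
      P.s7vChi x * ((8 * (P.K : ℝ) * C + 4 * (P.K : ℝ) ^ 2 * C ^ 2) *
        ((1 + ‖Z.N s‖ + ‖Z.G1 s‖) * mxSq (B.Rs (Z.d s)))) := by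
  refine (s7j_G_le B t L P hC (Z.d s) (Z.w s) x).trans ?_
  have h1 : ‖(Z.w s).1 - Real.exp (-u) • ouV u (Z.w s).1 (Z.w s).2.1‖ ≤ 2 * ‖Z.N s‖ + ‖Z.G1 s‖ :=
    s7v_norm_v_le hu (Z.N s) (Z.G1 s)
  have hK : (0 : ℝ) ≤ P.K := Nat.cast_nonneg _
  have hq : 0 ≤ mxSq (B.Rs (Z.d s)) := Claimed.Agent.R260.mxSq_nonneg _
  have hχ := s7v_chi_nonneg P x
  have hN := norm_nonneg (Z.N s)
  have hG := norm_nonneg (Z.G1 s)
  have h2 : 4 * (P.K : ℝ) * C * ‖(Z.w s).1 - Real.exp (-u) • ouV u (Z.w s).1 (Z.w s).2.1‖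
      + 4 * (P.K : ℝ) ^ 2 * C ^ 2 ≤
      (8 * (P.K : ℝ) * C + 4 * (P.K : ℝ) ^ 2 * C ^ 2) * (1 + ‖Z.N s‖ + ‖Z.G1 s‖) := by
    have h3 : 4 * (P.K : ℝ) * C * ‖(Z.w s).1 - Real.exp (-u) • ouV u (Z.w s).1 (Z.w s).2.1‖ ≤
        4 * (P.K : ℝ) * C * (2 * ‖Z.N s‖ + ‖Z.G1 s‖) :=
      mul_le_mul_of_nonneg_left h1 (by positivity)
    have h4 : 0 ≤ (P.K : ℝ) * C := mul_nonneg hK hC0
    have h5 : 0 ≤ (P.K : ℝ) ^ 2 * C ^ 2 := by positivity
    nlinarith [mul_nonneg h4 hN, mul_nonneg h4 hG, mul_nonneg h5 hN, mul_nonneg h5 hG]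
  calc _ ≤ ((8 * (P.K : ℝ) * C + 4 * (P.K : ℝ) ^ 2 * C ^ 2) * (1 + ‖Z.N s‖ + ‖Z.G1 s‖)) *
        (mxSq (B.Rs (Z.d s)) * P.s7vChi x) := mul_le_mul_of_nonneg_right h2 (mul_nonneg hq hχ)
    _ = _ := by ring

theorem s7j_G_integrable_fix (Z : S7vSp B μ) (t : ℝ) {L : ℝ} (hL : 0 < L) (P : Tst) {u : ℝ}
    (hu : 0 ≤ u) (x : ℝ) :
    Integrable (fun s => B.s7jG t L P u x (Z.d s) (Z.w s)) μ := by
  obtain ⟨C, hC0, hC⟩ := s7v_coef_bound P u u
  have hC' : ∀ k x, ‖P.c k u x‖ ≤ C := fun k x => hC k u ⟨le_rfl, le_rfl⟩ x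
  have hmeas : Measurable fun s => B.s7jG t L P u x (Z.d s) (Z.w s) :=
    s7j_meas_G B t hL P measurable_const measurable_const Z.d_meas (s7j_w_meas Z)
  refine Integrable.mono' ((Z.int.const_mul (8 * (P.K : ℝ) * C + 4 * (P.K : ℝ) ^ 2 * C ^ 2)).const_mul
    (P.s7vChi x)) hmeas.aestronglyMeasurable (Filter.Eventually.of_forall fun s => ?_)
  rw [Real.norm_eq_abs]
  exact s7j_G_dom Z t L P hu hC0 hC' x s

theorem s7j_G_integrable (Z : S7vSp B μ) [SFinite μ] (t : ℝ) {L : ℝ} (hL : 0 < L) (P : Tst) {u : ℝ}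
    (hu : 0 ≤ u) :
    Integrable (fun q : ℝ × S => B.s7jG t L P u q.1 (Z.d q.2) (Z.w q.2) / q.1 ^ 2)
      ((volume.restrict (Set.Ioi 0)).prod μ) := by
  obtain ⟨C, hC0, hC⟩ := s7v_coef_bound P u u
  have hC' : ∀ k x, ‖P.c k u x‖ ≤ C := fun k x => hC k u ⟨le_rfl, le_rfl⟩ x
  have hmeas : Measurable fun q : ℝ × S => B.s7jG t L P u q.1 (Z.d q.2) (Z.w q.2) / q.1 ^ 2 :=
    (s7j_meas_G B t hL P measurable_const measurable_fst (Z.d_meas.comp measurable_snd)
      ((s7j_w_meas Z).comp measurable_snd)).div (measurable_fst.pow_const 2)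
  have hdom := Integrable.mul_prod (s7v_chi_integrableOn P)
    (Z.int.const_mul (8 * (P.K : ℝ) * C + 4 * (P.K : ℝ) ^ 2 * C ^ 2))
  refine Integrable.mono' hdom hmeas.aestronglyMeasurable (Filter.Eventually.of_forall fun q => ?_)
  rw [Real.norm_eq_abs, abs_div, abs_of_nonneg (sq_nonneg q.1), div_mul_eq_mul_div]
  exact div_le_div_of_nonneg_right (s7j_G_dom Z t L P hu hC0 hC' q.1 q.2) (sq_nonneg _)

end abstract

variable {X : HierData n} {k : ℕ} {h t ε : ℝ}

/-- reduction of the sample space: only the law of `(𝒟, N, G', G)` matters -/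
theorem s7j_mInt_eq (F : Frozen X k h t ε) {L : ℝ} (hL : 0 < L) (P : Tst) {u : ℝ} (hu : 0 ≤ u)
    (x : ℝ) :
    ∫ s, F.B.s7jG t L P u x (F.s7vSp.d s) (F.s7vSp.w s) ∂(F.P.prod ((gam n).prod (gam n)))
      = F.B.mInt t L P u x := by
  have : IsProbabilityMeasure (X.Qm h) := by
    rw [← F.law_Dt]
    exact Measure.isProbabilityMeasure_map F.Dt_meas.aemeasurable
  have hg : Measurable fun p : (EE n × ℝ) × (EE n × EE n × EE n) => F.B.s7jG t L P u x p.1 p.2 :=
    s7j_meas_G F.B t hL P measurable_const measurable_const measurable_fst measurable_snd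
  have hφ : Measurable fun s : F.Ω × (EE n × EE n) => (F.s7vSp.d s, F.s7vSp.w s) :=
    F.s7vSp.d_meas.prodMk (s7j_w_meas F.s7vSp)
  have h1 := integral_map (μ := F.P.prod ((gam n).prod (gam n))) hφ.aemeasurable hg.aestronglyMeasurable
  have hint : Integrable (fun p : (EE n × ℝ) × (EE n × EE n × EE n) => F.B.s7jG t L P u x p.1 p.2)
      ((X.Qm h).prod ((gam n).prod ((gam n).prod (gam n)))) := by
    rw [← s7v_fz_law F]
    exact (integrable_map_measure hg.aestronglyMeasurable hφ.aemeasurable).2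
      (s7j_G_integrable_fix F.s7vSp t hL P hu x)
  rw [s7v_fz_law F] at h1
  rw [← h1, integral_prod _ hint]
  rfl

end Claimed.Agent.R259
end

/- ===== packed: Claimed.Agent.R259.S7JacTop ===== -/
section
/-
Row 259 (S0499), section 7, package BP-S7-JAC: GLUE (proved).  Owner: helper121.
* `s7j_point` : at fixed `(u,d,w)`: `∫_0^∞ s7jF(T) dT/T² = ∫_0^∞ s7jG(x) dx/x²`;
* `s7j_main`  : the statement of `s7_jac`.
-/
set_option autoImplicit false

open MeasureTheory ProbabilityTheory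
open scoped BigOperators Matrix
open Claimed.Agent.R260 (Mx mxFun mxSchur mxSq mxIP mxEig mxU mxRot)

namespace Claimed.Agent.R259

variable {n : ℕ}

/-- blockwise substitution `x = T r_i²` at a fixed sample point -/
theorem s7j_point {D : Type} [MeasurableSpace D] {Q : Measure D} (B : BlockModel n Q) (t : ℝ) {L : ℝ}
    (hL : 0 < L) (P : Tst) (u : ℝ) (d : D) (w : EE n × EE n × EE n) :
    ∫ T in Set.Ioi (0 : ℝ), B.s7jF t L P u T d w / T ^ 2
      = ∫ x in Set.Ioi (0 : ℝ), B.s7jG t L P u x d w / x ^ 2 := by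
  have hF : ∀ T : ℝ, B.s7jF t L P u T d w / T ^ 2
      = ∑ i, B.s7jPhi t L P u d w i (T * mxEig (B.Rs d) i ^ 2) / T ^ 2 := by
    intro T
    rw [s7j_F_eq, Finset.sum_div]
  have hG : ∀ x : ℝ, B.s7jG t L P u x d w / x ^ 2
      = ∑ i, mxEig (B.Rs d) i ^ 2 * (B.s7jPhi t L P u d w i x / x ^ 2) := by
    intro x
    rw [s7j_G_eq, Finset.sum_div]
    exact Finset.sum_congr rfl fun i _ => by rw [mul_div_assoc]
  simp only [hF, hG]
  rw [integral_finsetSum, integral_finsetSum]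
  · refine Finset.sum_congr rfl fun i _ => ?_
    rw [s7v_scale _ (s7j_Phi_zero B t L P u d w i) (sq_nonneg _), integral_const_mul]
  · intro i _
    exact (s7j_Phi_integrableOn B t hL P u d w i).const_mul _
  · intro i _
    exact s7v_scale_integrableOn (s7j_Phi_zero B t L P u d w i)
      (s7j_Phi_integrableOn B t hL P u d w i) (sq_nonneg _)

variable {X : HierData n} {k : ℕ} {h t ε : ℝ}

theorem s7j_main (F : Frozen X k h t ε) {L u0 u1 : ℝ} (hL : 1 ≤ L) (hu0 : 0 < u0) (P : Tst) :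
    ∫ T in Set.Ioi (0 : ℝ), F.lowF L u0 u1 P T / T ^ 2 = F.B.mJ t L u0 u1 P := by
  have hL0 : 0 < L := lt_of_lt_of_le one_pos hL
  set μ := F.P.prod ((gam n).prod (gam n)) with hμ
  set Z := F.s7vSp with hZ
  -- the observation matrix
  set M : ℝ → F.Ω × (EE n × EE n) → Mx n :=
    fun T s => mxFun (hT L T) (F.B.sigHalf t (Z.d s) (Z.N s)) with hMdef
  have hM : ∀ a b, Measurable fun p : ℝ × (F.Ω × (EE n × EE n)) => M |p.1| p.2 a b :=
    s7v_meas_hT hL0 measurable_fst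
      (s7v_meas_sigHalf F.B t (Z.d_meas.comp measurable_snd) (Z.N_meas.comp measurable_snd))
      (fun s => s7v_sigHalf_symm F.B t _ _)
  have hint := s7v_integrable Z P hu0 u1 M hM
  -- step 1: all weights inside
  have h1 : ∀ T : ℝ, F.lowF L u0 u1 P T / T ^ 2
      = ∫ u in Set.Icc u0 u1, ∫ s, kap u * Z.val P u T (M T s) s / T ^ 2 ∂μ := by
    intro T
    unfold Frozen.lowF
    rw [← integral_div]
    refine integral_congr_ae (Filter.Eventually.of_forall fun u => ?_)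
    show kap u * F.valF L P u T / T ^ 2 = _
    have e : F.valF L P u T = ∫ s, Z.val P u T (M T s) s ∂μ := rfl
    rw [e, ← integral_const_mul, ← integral_div]
  -- step 2: Fubini
  have h2 := s7v_fubini3 hint
  -- step 3: the pointwise identity
  have h3 : ∀ (u : ℝ) (s : F.Ω × (EE n × EE n)),
      ∫ T in Set.Ioi (0 : ℝ), kap u * Z.val P u T (M T s) s / T ^ 2
        = kap u * ∫ x in Set.Ioi (0 : ℝ), F.B.s7jG t L P u x (Z.d s) (Z.w s) / x ^ 2 := by
    intro u s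
    rw [← s7j_point F.B t hL0 P u (Z.d s) (Z.w s), ← integral_const_mul]
    refine integral_congr_ae (Filter.Eventually.of_forall fun T => ?_)
    show kap u * Z.val P u T (M T s) s / T ^ 2 = kap u * (F.B.s7jF t L P u T (Z.d s) (Z.w s) / T ^ 2)
    rw [mul_div_assoc]
    rfl
  -- step 4: Fubini at fixed `u`, reduction of the sample space
  have h4 : ∀ u ∈ Set.Icc u0 u1,
      ∫ s, (∫ x in Set.Ioi (0 : ℝ), F.B.s7jG t L P u x (Z.d s) (Z.w s) / x ^ 2) ∂μ
        = ∫ x in Set.Ioi (0 : ℝ), F.B.mInt t L P u x / x ^ 2 := by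
    intro u hu
    have hu' : 0 ≤ u := hu0.le.trans hu.1
    rw [← integral_integral_swap
      (f := fun x s => F.B.s7jG t L P u x (Z.d s) (Z.w s) / x ^ 2) (s7j_G_integrable Z t hL0 P hu')]
    refine integral_congr_ae (Filter.Eventually.of_forall fun x => ?_)
    show ∫ s, F.B.s7jG t L P u x (Z.d s) (Z.w s) / x ^ 2 ∂μ = F.B.mInt t L P u x / x ^ 2
    rw [integral_div, s7j_mInt_eq F hL0 P hu' x]
  calc ∫ T in Set.Ioi (0 : ℝ), F.lowF L u0 u1 P T / T ^ 2
      = ∫ T in Set.Ioi (0 : ℝ), ∫ u in Set.Icc u0 u1,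
          ∫ s, kap u * Z.val P u T (M T s) s / T ^ 2 ∂μ := by simp only [h1]
    _ = ∫ u in Set.Icc u0 u1, ∫ s, (∫ T in Set.Ioi (0 : ℝ),
          kap u * Z.val P u T (M T s) s / T ^ 2) ∂μ := h2
    _ = ∫ u in Set.Icc u0 u1, kap u * ∫ x in Set.Ioi (0 : ℝ), F.B.mInt t L P u x / x ^ 2 := by
        refine setIntegral_congr_fun measurableSet_Icc fun u hu => ?_
        show ∫ s, (∫ T in Set.Ioi (0 : ℝ), kap u * Z.val P u T (M T s) s / T ^ 2) ∂μ = _
        simp only [h3]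
        rw [integral_const_mul, h4 u hu]
    _ = F.B.mJ t L u0 u1 P := rfl

end Claimed.Agent.R259
end

/- ===== packed: Claimed.Agent.R259.S7Jac ===== -/
section
/-
Row 259 (S0499), section 7: the scale Jacobian (second half of L7.5) for the frozen observation.
EXPORT FILE of package BP-S7-JAC (owner helper121).  The proof is in `S7JacTop.lean` (glue, proved) from the
leaf files `S7JacLoc`, `S7JacDec`, `S7JacPhi`, `S7JacInt` and the shared kit `S7Val*`.
-/
set_option autoImplicit false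

open MeasureTheory ProbabilityTheory
open scoped BigOperators Matrix
open Claimed.Agent.R260 (Mx mxFun mxSchur mxSq mxIP mxEig mxU mxRot)

namespace Claimed.Agent.R259

variable {n : ℕ}

/-- BP-S7-JAC.  EXACT identity: blockwise substitution `x = T β²`, `dT/T² = β² dx/x²`. -/
theorem s7_jac {X : HierData n} {k : ℕ} {h t ε : ℝ} (F : Frozen X k h t ε) {L u0 u1 : ℝ}
    (ht : 0 < t) (hL : 1 ≤ L) (hu0 : 0 < u0) (hu : u0 < u1) (P : Tst) :
    ∫ T in Set.Ioi (0 : ℝ), F.lowF L u0 u1 P T / T ^ 2 = F.B.mJ t L u0 u1 P :=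
  s7j_main F hL hu0 P

end Claimed.Agent.R259
end
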