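/- Packed by merge_tool.py (helper293): 4 modules of Claimed.Agent.R259 in one file, same declarations.
   Old modules, in this order: S7LawJb, S7LawJc, S7LawJd, S7LawJe -/
import Claimed.Agent.R259.Pack040
import Claimed.Agent.R259.Pack036
import Claimed.Agent.R259.Pack030

/- ===== packed: Claimed.Agent.R259.S7LawJb ===== -/
section
/-
Row 259 (S0499), section 7, package L-S7-LAW-J: steps (b), (c).  Owner: helper79.
-/
set_option autoImplicit false

open MeasureTheory ProbabilityTheory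
open scoped BigOperators Matrix
open Claimed.Agent.R260 (Mx mxFun mxSchur mxSq mxIP mxEig mxU mxRot)

namespace Claimed.Agent.R259

variable {n : ℕ}

theorem s7k_mxFunC_one (f : ℝ → ℂ) : mxFunC f (1 : Mx n) = f 1 • (1 : CMx n) := by
  have h := mxFunC_of_diag (1 : Mx n) (by simp) (fun _ => (1 : ℝ)) f
  simp only [Matrix.diagonal_one, Matrix.transpose_one, Matrix.mul_one, toC_one,
    Matrix.one_mul] at h
  rw [h]
  ext a b
  simp [Matrix.diagonal_apply, Matrix.one_apply]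

/-- `v ↦ H[v]` entrywise measurable -/
theorem s7k_meas_colAt (H : Fin n → Mx n) {S : Type} [MeasurableSpace S] {v : S → EE n}
    (hv : Measurable v) : ∀ a b, Measurable fun s => colAt H (v s) a b :=
  s7v_meas_colAt (H := fun _ => H) (fun _ _ _ => measurable_const) hv

theorem s7k_cE_comm {A W : Mx n} (hA : A.IsSymm) (hAW : A * W = W * A) (s : ℝ) :
    toC W * cE s A = cE s A * toC W :=
  mxFunC_commute _ hA (by rw [← toC_mul, ← toC_mul, hAW])

theorem s7k_cmm_colAt (H : Fin n → Mx n) (A W : Mx n) (G : EE n) :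
    colAt (fun j => cmm (H j) A * W) G = cmm (colAt H G) A * W := by
  unfold colAt cmm
  rw [Finset.sum_mul, Finset.mul_sum, ← Finset.sum_sub_distrib, Finset.sum_mul]
  refine Finset.sum_congr rfl fun i _ => ?_
  rw [smul_mul_assoc, mul_smul_comm, ← smul_sub, smul_mul_assoc]

/-- `E ‖[H[G],A]W‖² = ∑_j ‖[H_j,A]W‖²` -/
theorem s7k_avg_cmm (H : Fin n → Mx n) (A W : Mx n) :
    Integrable (fun G => mxSq (cmm (colAt H G) A * W)) (gam n) ∧
      ∫ G, mxSq (cmm (colAt H G) A * W) ∂(gam n) = sgA H W A := by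
  have h := s7_avg_sq (fun j => cmm (H j) A * W)
  simp only [s7k_cmm_colAt] at h
  exact h

theorem s7k_mxSq_smul (c : ℝ) (M : Mx n) : mxSq (c • M) = c ^ 2 * mxSq M := by
  simp only [R260.mxSq_eq_sum, Matrix.smul_apply, smul_eq_mul, mul_pow, Finset.mul_sum]

theorem s7k_cmm_smul (a b : ℝ) (X Y : Mx n) : cmm (a • X) (b • Y) = (a * b) • cmm X Y := by
  unfold cmm
  simp only [smul_mul_assoc, mul_smul_comm, smul_smul, smul_sub]
  rw [mul_comm b a]

theorem s7k_symm_comb {A B : Mx n} (hA : A.IsSymm) (hB : B.IsSymm) (a b : ℝ) :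
    (a • A + b • B).IsSymm := by
  unfold Matrix.IsSymm
  rw [Matrix.transpose_add, Matrix.transpose_smul, Matrix.transpose_smul, hA, hB]

/-- splitting of `e^{is(αA + βA')}` -/
theorem s7k_split_le {A A' W : Mx n} (hA : A.IsSymm) (hA' : A'.IsSymm) (hAW : A * W = W * A)
    (hAW' : A' * W = W * A') (s α β : ℝ) :
    cSq ((cE s (α • A + β • A') - cE (s * β) A' * cE (s * α) A) * toC W)
      ≤ (s ^ 2 * α * β) ^ 2 / 4 * mxSq (cmm A' A * W) := by
  have h := s7_split (X := (s * β) • A') (Y := (s * α) • A) (W := W)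
    (by unfold Matrix.IsSymm; rw [Matrix.transpose_smul, hA'])
    (by unfold Matrix.IsSymm; rw [Matrix.transpose_smul, hA])
    (by rw [smul_mul_assoc, mul_smul_comm, hAW']) (by rw [smul_mul_assoc, mul_smul_comm, hAW])
  rw [cE_smul 1 _ hA', cE_smul 1 _ hA, one_mul, one_mul] at h
  have e : (s * β) • A' + (s * α) • A = s • (α • A + β • A') := by
    rw [smul_add, smul_smul, smul_smul, add_comm]
  rw [e, cE_smul 1 s (s7k_symm_comb hA hA' α β), one_mul, s7k_cmm_smul, smul_mul_assoc,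
    s7k_mxSq_smul] at h
  calc _ ≤ _ := h
    _ = _ := by ring

/-- (b)+(c): the Gaussian average of `e^{is(αA + βH[G'])}` is close to `e^{-s²β²/2} e^{isαA}` -/
theorem s7k_Pb (s α β : ℝ) :
    ∃ C : ℝ, 0 ≤ C ∧ ∀ (n : ℕ) (H : Fin n → Mx n) (W : Mx n), ColW H W →
      ∀ A : Mx n, A.IsSymm → A * W = W * A →
      cSq ((cInt (gam n) (fun G => cE s (α • A + β • colAt H G))
          - ((Real.exp (-((s * β) ^ 2 / 2)) : ℝ) : ℂ) • cE (s * α) A) * toC W)
        ≤ C * (dfc H W + sgA H W A) := by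
  refine ⟨(s ^ 2 * α * β) ^ 2 / 2 + 16 * (1 + |s * β|) ^ 8, by positivity, ?_⟩
  intro n H W h A hA hAW
  set c : ℂ := ((Real.exp (-((s * β) ^ 2 / 2)) : ℝ) : ℂ) with hc
  set E2 := cE (s * α) A with hE2
  set Φ : EE n → CMx n := fun G => cE s (α • A + β • colAt H G) with hΦdef
  set Φ0 : EE n → CMx n := fun G => cE (s * β) (colAt H G) * E2 with hΦ0def
  have hs' : ∀ G, (colAt H G).IsSymm := s7k_colAt_symm h.symm
  have hc' : ∀ G, colAt H G * W = W * colAt H G := s7k_colAt_comm h.comm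
  have hsym : ∀ G, (α • A + β • colAt H G).IsSymm := fun G => s7k_symm_comb hA (hs' G) α β
  have hcolm := s7k_meas_colAt H (measurable_id : Measurable fun G : EE n => G)
  have hΦm : ∀ a b, Measurable fun G => Φ G a b :=
    s7v_meas_cE s (A := fun G => α • A + β • colAt H G)
      (fun a b => by
        simp only [Matrix.add_apply, Matrix.smul_apply, smul_eq_mul]
        exact measurable_const.add ((hcolm a b).const_mul β)) hsym
  have hΦ : CI (gam n) Φ := CI.of_bdd hΦm (C := 1) fun G a b => cE_apply_norm_le _ _ _ _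
  have hE1m : ∀ a b, Measurable fun G => cE (s * β) (colAt H G) a b :=
    s7v_meas_cE _ hcolm hs'
  have hE1 : CI (gam n) (fun G => cE (s * β) (colAt H G)) :=
    CI.of_bdd hE1m (C := 1) fun G a b => cE_apply_norm_le _ _ _ _
  have hΦ0 : CI (gam n) Φ0 := hE1.mul_right E2
  have hcInt0 : cInt (gam n) Φ0 = gF H (s * β) * E2 := cInt_mul_right hE1 E2
  have hWE2 : toC W * E2 = E2 * toC W := s7k_cE_comm hA hAW _
  have hdec : (cInt (gam n) Φ - c • E2) * toC W
      = cInt (gam n) (fun G => (Φ G - Φ0 G) * toC W)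
        + (gF H (s * β) - c • (1 : CMx n)) * toC W * E2 := by
    rw [cInt_mul_right (hΦ.sub hΦ0), cInt_sub hΦ hΦ0, hcInt0,
      Matrix.mul_assoc (gF H (s * β) - c • (1 : CMx n)), hWE2]
    simp only [sub_mul, Matrix.mul_assoc, Matrix.smul_mul, Matrix.one_mul]
    abel
  -- first term
  have hpt : ∀ G, cSq ((Φ G - Φ0 G) * toC W)
      ≤ (s ^ 2 * α * β) ^ 2 / 4 * mxSq (cmm (colAt H G) A * W) := fun G =>
    s7k_split_le hA (hs' G) hAW (hc' G) s α β
  obtain ⟨hai, hae⟩ := s7k_avg_cmm H A W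
  have hΦ0m : ∀ a b, Measurable fun G => Φ0 G a b :=
    s7v_meas_mulC hE1m fun _ _ => measurable_const
  have hDm : ∀ a b, Measurable fun G => ((Φ G - Φ0 G) * toC W) a b :=
    s7v_meas_mulC (fun a b => (hΦm a b).sub (hΦ0m a b)) fun _ _ => measurable_const
  have hDi : Integrable (fun G => cSq ((Φ G - Φ0 G) * toC W)) (gam n) :=
    (hai.const_mul _).mono' (s7v_meas_cSq hDm).aestronglyMeasurable
      (Filter.Eventually.of_forall fun G => by
        rw [Real.norm_eq_abs, abs_of_nonneg (cSq_nonneg _)]; exact hpt G)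
  have h1 : cSq (cInt (gam n) (fun G => (Φ G - Φ0 G) * toC W))
      ≤ (s ^ 2 * α * β) ^ 2 / 4 * sgA H W A := by
    refine (cSq_cInt_le ((hΦ.sub hΦ0).mul_right _) hDi).trans ?_
    rw [← hae, ← integral_const_mul]
    exact integral_mono hDi (hai.const_mul _) hpt
  -- second term
  have hge := s7_ge h.symm h.comm (cK := 4) (by norm_num) h.col
    (M := 1) Matrix.PosSemidef.one (s * β)
  rw [s7k_mxFunC_one] at hge
  have e1 : ((Real.exp (-((s * β) ^ 2 * 1 / 2)) : ℝ) : ℂ) = c := by rw [hc, mul_one]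
  rw [e1] at hge
  have h2 : cSq ((gF H (s * β) - c • (1 : CMx n)) * toC W * E2)
      ≤ 2 * ((1 + |s * β|) ^ 4) ^ 2 * mxSq ((colS H - 1) * W)
        + 2 * ((1 + |s * β|) ^ 4 * Real.sqrt 4) ^ 2 * ccW H W := by
    rw [cSq_mul_unitary _ (cE_mul_conjTranspose _ _)]
    refine s7k_sq_of_sqrt_le (cSq_nonneg _) (R260.mxSq_nonneg _) (s7k_ccW_nonneg _ _)
      (by positivity) (by positivity) ?_
    calc _ ≤ _ := hge
      _ = _ := by ring
  have e4 : Real.sqrt 4 ^ 2 = 4 := Real.sq_sqrt (by norm_num)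
  rw [hdec]
  refine (cSq_add_le _ _).trans ?_
  have hs0 := R260.mxSq_nonneg ((colS H - 1) * W)
  have hcc0 := s7k_ccW_nonneg H W
  have hxd0 := s7k_xdW_nonneg H W
  have hsg0 := s7k_sgA_nonneg H W A
  rw [mul_pow, e4] at h2
  unfold dfc
  set R8 := (1 + |s * β|) ^ 8 with hR8
  have hR80 : 0 ≤ R8 := by positivity
  have e5 : ((1 + |s * β|) ^ 4) ^ 2 = R8 := by rw [hR8]; ring
  rw [e5] at h2
  set K := (s ^ 2 * α * β) ^ 2 with hK
  have hK0 : 0 ≤ K := by positivity
  nlinarith [mul_nonneg hK0 hs0, mul_nonneg hK0 hcc0, mul_nonneg hK0 hxd0, mul_nonneg hR80 hs0,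
    mul_nonneg hR80 hcc0, mul_nonneg hR80 hxd0, mul_nonneg hR80 hsg0]

end Claimed.Agent.R259
end

/- ===== packed: Claimed.Agent.R259.S7LawJc ===== -/
section
/-
Row 259 (S0499), section 7, package L-S7-LAW-J: the local theorem for `J1`.  Owner: helper79.
-/
set_option autoImplicit false
set_option linter.unusedSectionVars false
set_option linter.unusedVariables false

open MeasureTheory ProbabilityTheory
open scoped BigOperators Matrix
open Claimed.Agent.R260 (Mx mxFun mxSchur mxSq mxIP mxEig mxU mxRot)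

namespace Claimed.Agent.R259

variable {n : ℕ}

section prod

variable {α β : Type} [MeasurableSpace α] [MeasurableSpace β] {μ : Measure α} {ν : Measure β}
  [SFinite μ] [SFinite ν]

theorem CI.prod_mul {Φ : α → CMx n} {Ψ : β → CMx n} (h : CI μ Φ) (h' : CI ν Ψ) :
    CI (μ.prod ν) fun p => Φ p.1 * Ψ p.2 := by
  intro a b
  simp only [Matrix.mul_apply]
  exact integrable_finsetSum _ fun c _ => (h a c).mul_prod (h' c b)

theorem cInt_prod_mul {Φ : α → CMx n} {Ψ : β → CMx n} (h : CI μ Φ) (h' : CI ν Ψ) :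
    cInt (μ.prod ν) (fun p => Φ p.1 * Ψ p.2) = cInt μ Φ * cInt ν Ψ := by
  ext a b
  simp only [cInt_apply, Matrix.mul_apply]
  rw [integral_finsetSum _ fun c _ => (h a c).mul_prod (h' c b)]
  exact Finset.sum_congr rfl fun c _ =>
    integral_prod_mul (μ := μ) (ν := ν) (fun x => Φ x a c) (fun y => Ψ y c b)

end prod

/-- the characters times `χ_r` -/
noncomputable def fJ (t L x s r : ℝ) (v : ℝ) : ℂ :=
  Complex.exp (Complex.I * ((s * v : ℝ) : ℂ)) * ((chiR t L x r v : ℝ) : ℂ)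

theorem s7k_chiR_le (t L x r v : ℝ) : |chiR t L x r v| ≤ 1 := by
  unfold chiR
  rw [abs_of_pos (Real.exp_pos _), Real.exp_le_one_iff]
  have : 0 ≤ r ^ 2 * gx t L x v ^ 2 / 2 := by positivity
  linarith

theorem s7k_cSq_unit_mul (s : ℝ) (A W : Mx n) : cSq (cE s A * toC W) = mxSq W := by
  rw [cSq_unitary_mul _ (cE_conjTranspose_mul s A), cSq_toC]

/-- Jensen for an average of unitaries -/
theorem s7k_cSq_avg_unit {α : Type} [MeasurableSpace α] {μ : Measure α} [IsProbabilityMeasure μ]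
    {s : ℝ} {A : α → Mx n} (h : CI μ fun x => cE s (A x)) (W : Mx n) :
    cSq (cInt μ (fun x => cE s (A x)) * toC W) ≤ mxSq W := by
  rw [← cInt_mul_right h]
  have e : (fun x => cSq (cE s (A x) * toC W)) = fun _ => mxSq W := by
    funext x; exact s7k_cSq_unit_mul _ _ _
  refine (cSq_cInt_le (h.mul_right _) (by rw [e]; exact integrable_const _)).trans ?_
  rw [e]; simp

/-- the matrix estimate at fixed `N` -/
theorem s7k_PN1 {W : Mx n} {Ub Vb E2 Xr : CMx n} {c : ℂ} (hU : toC W * Ub = Ub * toC W)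
    (hE : toC W * E2 = E2 * toC W) (hUn : cSq (Ub * toC W) ≤ mxSq W)
    (hXn : cSq (Xr * toC W) ≤ mxSq W) {ea eb θ : ℝ} (hθ : 0 < θ)
    (ha : cSq ((Vb - Xr) * toC W) ≤ ea) (hb : cSq ((Ub - c • E2) * toC W) ≤ eb) :
    ‖Matrix.trace (toC (W * W) * Ub * Vb) - c * Matrix.trace (toC (W * W) * (E2 * Xr))‖
      ≤ θ * mxSq W + 1 / (2 * θ) * (ea + eb) := by
  have hZ : toC W * (Ub - c • E2) = (Ub - c • E2) * toC W := by
    rw [mul_sub, sub_mul, hU, Matrix.mul_smul, Matrix.smul_mul, hE]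
  have e : Matrix.trace (toC (W * W) * Ub * Vb) - c * Matrix.trace (toC (W * W) * (E2 * Xr))
      = Matrix.trace (toC (W * W) * Ub * (Vb - Xr))
        + Matrix.trace (toC (W * W) * (Ub - c • E2) * Xr) := by
    have e0 : c * Matrix.trace (toC (W * W) * (E2 * Xr))
        = Matrix.trace (c • (toC (W * W) * (E2 * Xr))) := by rw [Matrix.trace_smul, smul_eq_mul]
    rw [e0, ← Matrix.trace_add, ← Matrix.trace_sub]
    congr 1
    simp only [mul_sub, sub_mul, Matrix.mul_smul, Matrix.smul_mul, Matrix.mul_assoc]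
    abel
  rw [e]
  have h1 := s7k_trace_young hU (Vb - Xr) hθ
  have h2 := s7k_trace_young' hZ Xr hθ
  have hθ2 : 0 ≤ θ / 2 := by positivity
  have hθi : 0 ≤ 1 / (2 * θ) := by positivity
  calc _ ≤ _ := norm_add_le _ _
    _ ≤ (θ / 2 * cSq (Ub * toC W) + 1 / (2 * θ) * cSq ((Vb - Xr) * toC W))
        + (1 / (2 * θ) * cSq ((Ub - c • E2) * toC W) + θ / 2 * cSq (Xr * toC W)) :=
        add_le_add h1 h2
    _ ≤ (θ / 2 * mxSq W + 1 / (2 * θ) * ea) + (1 / (2 * θ) * eb + θ / 2 * mxSq W) := by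
        gcongr
    _ = _ := by ring

/-- integrand of `J1` for a deterministic column -/
noncomputable def psi1 (H : Fin n → Mx n) (W : Mx n) (t L u x s r : ℝ)
    (w : EE n × EE n × EE n) : ℂ :=
  Matrix.trace (toC (W * W) * cE s (colAt H (ouV u w.1 w.2.1))
      * cE r (colAt H (mv (mxFun (gx t L x) (colAt H w.1)) w.2.2)))

section meas

variable {S : Type} [MeasurableSpace S] {H : S → Fin n → Mx n} {W : S → Mx n}

theorem s7k_meas_U (hH : ∀ i a b, Measurable fun σ => H σ i a b) (hsym : ∀ σ i, (H σ i).IsSymm)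
    {v : S → EE n} (hv : Measurable v) (s : ℝ) :
    ∀ a b, Measurable fun σ => cE s (colAt (H σ) (v σ)) a b :=
  s7v_meas_cE s (s7v_meas_colAt hH hv) fun σ => s7k_colAt_symm (hsym σ) _

theorem s7k_meas_q (hH : ∀ i a b, Measurable fun σ => H σ i a b) (hsym : ∀ σ i, (H σ i).IsSymm)
    {v : S → EE n} (hv : Measurable v) {g : ℝ → ℝ} (hg : Continuous g) :
    ∀ a b, Measurable fun σ => mxFun g (colAt (H σ) (v σ)) a b :=
  s7v_meas_mxFun (Y := ℝ) (f := fun _ v => g v) (hg.comp continuous_snd) (p := fun _ => 0)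
    measurable_const (s7v_meas_colAt hH hv) fun σ => s7k_colAt_symm (hsym σ) _

theorem s7k_meas_psi1 (hH : ∀ i a b, Measurable fun σ => H σ i a b)
    (hW : ∀ a b, Measurable fun σ => W σ a b) (hsym : ∀ σ i, (H σ i).IsSymm)
    {w : S → EE n × EE n × EE n} (hw : Measurable w) {t L x : ℝ} (hg : Continuous (gx t L x))
    (u s r : ℝ) : Measurable fun σ => psi1 (H σ) (W σ) t L u x s r (w σ) := by
  unfold psi1
  have h1 : Measurable fun σ => (w σ).1 := measurable_fst.comp hw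
  have h2 : Measurable fun σ => (w σ).2.1 := measurable_fst.comp (measurable_snd.comp hw)
  have h3 : Measurable fun σ => (w σ).2.2 := measurable_snd.comp (measurable_snd.comp hw)
  exact s7v_meas_traceC (s7v_meas_mulC (s7v_meas_mulC (s7v_meas_toC (s7v_meas_mul hW hW))
    (s7k_meas_U hH hsym (s7v_meas_ouV measurable_const h1 h2) s))
    (s7k_meas_U hH hsym (s7v_meas_mv (s7k_meas_q hH hsym h1 hg) h3) r))

end meas

theorem s7k_sqrt_self {a : ℝ} (ha : 0 ≤ a) : Real.sqrt a * Real.sqrt a = a :=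
  Real.mul_self_sqrt ha

theorem s7k_psi1_bd {H : Fin n → Mx n} {W : Mx n} (h : ColW H W) (t L u x s r : ℝ)
    (w : EE n × EE n × EE n) : ‖psi1 H W t L u x s r w‖ ≤ mxSq W := by
  unfold psi1
  refine (s7k_trace_le (s7k_cE_comm (s7k_colAt_symm h.symm _) (s7k_colAt_comm h.comm _) s)
    _).trans ?_
  rw [s7k_cSq_unit_mul, s7k_cSq_unit_mul, s7k_sqrt_self (R260.mxSq_nonneg _)]

theorem s7k_cmm_colAt' (H : Fin n → Mx n) (X W : Mx n) (G : EE n) :
    colAt (fun j => cmm X (H j) * W) G = cmm X (colAt H G) * W := by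
  unfold colAt cmm
  rw [Finset.sum_mul, Finset.mul_sum, ← Finset.sum_sub_distrib, Finset.sum_mul]
  refine Finset.sum_congr rfl fun i _ => ?_
  rw [smul_mul_assoc, mul_smul_comm, ← smul_sub, smul_mul_assoc]

/-- `E_N ∑_b ‖[H_b,H[N]]W‖² = ∑_{b,j} ‖[H_b,H_j]W‖²` -/
theorem s7k_avg_sgA (H : Fin n → Mx n) (W : Mx n) :
    Integrable (fun N => sgA H W (colAt H N)) (gam n) ∧
      ∫ N, sgA H W (colAt H N) ∂(gam n) = ccW H W := by
  have h := fun b => s7_avg_sq (fun j => cmm (H b) (H j) * W)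
  simp only [s7k_cmm_colAt'] at h
  unfold sgA ccW
  refine ⟨integrable_finsetSum _ fun b _ => (h b).1, ?_⟩
  rw [integral_finsetSum _ fun b _ => (h b).1]
  exact Finset.sum_congr rfl fun b _ => (h b).2

/-- the local spectral functional -/
noncomputable def lSpec (H : Fin n → Mx n) (W : Mx n) (f : ℝ → ℂ) : ℂ :=
  ∫ N, Matrix.trace (toC (W * W) * mxFunC f (colAt H N)) ∂(gam n)

theorem s7k_colAt_ouV (H : Fin n → Mx n) (u : ℝ) (N G : EE n) :
    colAt H (ouV u N G)
      = Real.exp (-u) • colAt H N + Real.sqrt (1 - Real.exp (-u) ^ 2) • colAt H G := by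
  unfold ouV
  rw [s7v_colAt_add, s7v_colAt_smul, s7v_colAt_smul]

theorem s7k_fJ_cont {t L x : ℝ} (hg : Continuous (gx t L x)) (s r : ℝ) :
    Continuous (fJ t L x s r) := by
  unfold fJ chiR
  fun_prop

theorem s7k_fJ_bd (t L x s r v : ℝ) : ‖fJ t L x s r v‖ ≤ 1 := by
  unfold fJ
  rw [norm_mul, mul_comm Complex.I, Complex.norm_exp_ofReal_mul_I, one_mul, Complex.norm_real,
    Real.norm_eq_abs]
  exact s7k_chiR_le _ _ _ _ _

theorem s7k_mxFunC_fJ (t L x s r : ℝ) (A : Mx n) :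
    mxFunC (fJ t L x s r) A = cE s A * mxFunC (fun v => ((chiR t L x r v : ℝ) : ℂ)) A := by
  unfold fJ cE
  exact mxFunC_mul _ _ _

/-- bound and measurability of the integrand of the spectral functional -/
theorem s7k_spec_bd {H : Fin n → Mx n} {W : Mx n} (h : ColW H W) {f : ℝ → ℂ} {C : ℝ}
    (hC : ∀ v, ‖f v‖ ≤ C) (N : EE n) :
    ‖Matrix.trace (toC (W * W) * mxFunC f (colAt H N))‖ ≤ C * mxSq W := by
  have hC0 : 0 ≤ C := (norm_nonneg _).trans (hC 0)
  have h1 := s7k_trace_le (W := W) (Z := 1) (by simp) (mxFunC f (colAt H N))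
  rw [Matrix.mul_one, Matrix.one_mul, cSq_toC] at h1
  refine h1.trans ?_
  have h2 : cSq (mxFunC f (colAt H N) * toC W) ≤ C ^ 2 * mxSq W := by
    rw [← cSq_toC W]; exact cSq_mxFunC_mul_le (fun i => hC _) _
  have h3 : Real.sqrt (cSq (mxFunC f (colAt H N) * toC W)) ≤ C * Real.sqrt (mxSq W) := by
    refine (Real.sqrt_le_sqrt h2).trans (le_of_eq ?_)
    rw [Real.sqrt_mul (by positivity), Real.sqrt_sq hC0]
  calc _ ≤ Real.sqrt (mxSq W) * (C * Real.sqrt (mxSq W)) :=
        mul_le_mul_of_nonneg_left h3 (Real.sqrt_nonneg _)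
    _ = C * (Real.sqrt (mxSq W) * Real.sqrt (mxSq W)) := by ring
    _ = _ := by rw [s7k_sqrt_self (R260.mxSq_nonneg _)]

theorem s7k_meas_spec {S : Type} [MeasurableSpace S] {H : S → Fin n → Mx n} {W : S → Mx n}
    (hH : ∀ i a b, Measurable fun σ => H σ i a b)
    (hW : ∀ a b, Measurable fun σ => W σ a b) (hsym : ∀ σ i, (H σ i).IsSymm)
    {v : S → EE n} (hv : Measurable v) {f : ℝ → ℂ} (hf : Continuous f) :
    Measurable fun σ => Matrix.trace (toC (W σ * W σ) * mxFunC f (colAt (H σ) (v σ))) :=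
  s7v_meas_traceC (s7v_meas_mulC (s7v_meas_toC (s7v_meas_mul hW hW))
    (s7v_meas_mxFunC (Y := ℝ) (f := fun _ v => f v) (hf.comp continuous_snd) (p := fun _ => 0)
      measurable_const (s7v_meas_colAt hH hv) fun σ => s7k_colAt_symm (hsym σ) _))

/-- the average of the unitaries `e^{isH[N_u]}` over `G'` -/
noncomputable def avU (H : Fin n → Mx n) (u s : ℝ) (N : EE n) : CMx n :=
  cInt (gam n) fun G => cE s (Real.exp (-u) • colAt H N
    + Real.sqrt (1 - Real.exp (-u) ^ 2) • colAt H G)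

theorem s7k_CI_U {H : Fin n → Mx n} (hH : ∀ i, (H i).IsSymm) (u s : ℝ) (N : EE n) :
    CI (gam n) fun G : EE n => cE s (colAt H (ouV u N G)) :=
  CI.of_bdd (s7k_meas_U (H := fun _ => H) (fun _ _ _ => measurable_const) (fun _ => hH)
      (v := fun G => ouV u N G)
      (s7v_meas_ouV (u := fun _ => u) (a := fun _ => N) (b := fun G => G) measurable_const
        measurable_const measurable_id) s) (C := 1) fun G a b => cE_apply_norm_le _ _ _ _

theorem s7k_CI_V {H : Fin n → Mx n} (hH : ∀ i, (H i).IsSymm) (q : Mx n) (r : ℝ) :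
    CI (gam n) fun G : EE n => cE r (colAt H (mv q G)) :=
  CI.of_bdd (s7k_meas_U (H := fun _ => H) (fun _ _ _ => measurable_const) (fun _ => hH)
      (v := fun G => mv q G)
      (s7v_meas_mv (M := fun _ => q) (G := fun G => G) (fun _ _ => measurable_const)
        measurable_id) r) (C := 1) fun G a b => cE_apply_norm_le _ _ _ _

theorem s7k_avU_eq (H : Fin n → Mx n) (u s : ℝ) (N : EE n) :
    avU H u s N = cInt (gam n) fun G : EE n => cE s (colAt H (ouV u N G)) := by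
  unfold avU; simp only [s7k_colAt_ouV]

theorem s7k_avU_comm {H : Fin n → Mx n} {W : Mx n} (h : ColW H W) (u s : ℝ) (N : EE n) :
    toC W * avU H u s N = avU H u s N * toC W := by
  rw [s7k_avU_eq]
  exact cInt_commute (s7k_CI_U h.symm u s N) fun G =>
    s7k_cE_comm (s7k_colAt_symm h.symm _) (s7k_colAt_comm h.comm _) s

theorem s7k_avU_le {H : Fin n → Mx n} (hH : ∀ i, (H i).IsSymm) (W : Mx n) (u s : ℝ) (N : EE n) :
    cSq (avU H u s N * toC W) ≤ mxSq W := by
  rw [s7k_avU_eq]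
  exact s7k_cSq_avg_unit (s7k_CI_U hH u s N) W

/-- integration over `(G',G)` at fixed `N` -/
theorem s7k_inner1 {H : Fin n → Mx n} (hH : ∀ i, (H i).IsSymm) (W : Mx n) (t L u x s r : ℝ)
    (N : EE n) :
    ∫ p, psi1 H W t L u x s r (N, p) ∂((gam n).prod (gam n))
      = Matrix.trace (toC (W * W) * avU H u s N
          * gF (colQ H (mxFun (gx t L x) (colAt H N))) r) := by
  set q := mxFun (gx t L x) (colAt H N) with hq
  have hU := s7k_CI_U hH u s N
  have hV := s7k_CI_V hH q r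
  have e : ∀ p : EE n × EE n, psi1 H W t L u x s r (N, p)
      = Matrix.trace (toC (W * W) * (cE s (colAt H (ouV u N p.1))
        * cE r (colAt H (mv q p.2)))) := fun p => by
    unfold psi1
    rw [Matrix.mul_assoc]
  simp only [e]
  rw [cInt_trace ((hU.prod_mul hV).mul_left _), cInt_mul_left (hU.prod_mul hV),
    cInt_prod_mul hU hV, Matrix.mul_assoc, s7k_avU_eq]
  unfold gF
  simp only [s7_colQ_at]

theorem s7k_chi_le (t L x r : ℝ) (A W : Mx n) :
    cSq (mxFunC (fun v => ((chiR t L x r v : ℝ) : ℂ)) A * toC W) ≤ mxSq W := by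
  have := cSq_mxFunC_mul_le (f := fun v => ((chiR t L x r v : ℝ) : ℂ)) (A := A) (C := 1)
    (fun i => by rw [Complex.norm_real, Real.norm_eq_abs]; exact s7k_chiR_le _ _ _ _ _)
    (toC W)
  rwa [one_pow, one_mul, cSq_toC] at this

/-- LOCAL THEOREM for `J1` (deterministic column) -/
theorem s7k_loc1 {t L x : ℝ} (ht : 0 < t) (hL : 1 ≤ L) (hx : 0 < x) (u s r : ℝ) :
    ∃ C : ℝ, 0 ≤ C ∧ ∀ (n : ℕ) (H : Fin n → Mx n) (W : Mx n), ColW H W → ∀ θ : ℝ, 0 < θ →
      ‖(∫ w, psi1 H W t L u x s r w ∂((gam n).prod ((gam n).prod (gam n))))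
          - ((Real.exp (-((s * Real.sqrt (1 - Real.exp (-u) ^ 2)) ^ 2 / 2)) : ℝ) : ℂ)
            * lSpec H W (fJ t L x (s * Real.exp (-u)) r)‖
        ≤ θ * mxSq W + C / θ * dfc H W := by
  obtain ⟨Ca, hCa, hPa⟩ := s7k_Pa ht hL hx r
  obtain ⟨Cb, hCb, hPb⟩ := s7k_Pb s (Real.exp (-u)) (Real.sqrt (1 - Real.exp (-u) ^ 2))
  obtain ⟨-, -, hgc, -⟩ := s7_gx_bounds ht hL hx
  refine ⟨Ca + Cb, by positivity, ?_⟩
  intro n H W h θ hθ
  set α := Real.exp (-u) with hα
  set β := Real.sqrt (1 - Real.exp (-u) ^ 2) with hβ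
  set c : ℂ := ((Real.exp (-((s * β) ^ 2 / 2)) : ℝ) : ℂ) with hc
  have hs' : ∀ G, (colAt H G).IsSymm := s7k_colAt_symm h.symm
  have hc' : ∀ G, colAt H G * W = W * colAt H G := s7k_colAt_comm h.comm
  have hHm : ∀ i a b, Measurable fun _ : EE n × EE n × EE n => H i a b :=
    fun _ _ _ => measurable_const
  -- integrability of the integrand
  have hpm : Measurable (psi1 H W t L u x s r) :=
    s7k_meas_psi1 (H := fun _ => H) (W := fun _ => W) hHm (fun _ _ => measurable_const)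
      (fun _ => h.symm) measurable_id hgc u s r
  have hpi : Integrable (psi1 H W t L u x s r) ((gam n).prod ((gam n).prod (gam n))) :=
    Integrable.of_bound hpm.aestronglyMeasurable (mxSq W)
      (Filter.Eventually.of_forall fun w => s7k_psi1_bd h t L u x s r w)
  rw [integral_prod _ hpi]
  unfold lSpec
  have hgm : Measurable fun N : EE n =>
      Matrix.trace (toC (W * W) * mxFunC (fJ t L x (s * α) r) (colAt H N)) :=
    s7k_meas_spec (H := fun _ => H) (W := fun _ => W) (fun _ _ _ => measurable_const)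
      (fun _ _ => measurable_const) (fun _ => h.symm) measurable_id (s7k_fJ_cont hgc _ _)
  have hgi : Integrable (fun N : EE n =>
      Matrix.trace (toC (W * W) * mxFunC (fJ t L x (s * α) r) (colAt H N))) (gam n) :=
    Integrable.of_bound hgm.aestronglyMeasurable (1 * mxSq W)
      (Filter.Eventually.of_forall fun N => s7k_spec_bd h (s7k_fJ_bd t L x _ r) N)
  rw [← integral_const_mul, ← integral_sub hpi.integral_prod_left (hgi.const_mul c)]
  obtain ⟨hsi, hse⟩ := s7k_avg_sgA H W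
  -- the pointwise estimate
  have hpt : ∀ N : EE n,
      ‖(∫ p, psi1 H W t L u x s r (N, p) ∂((gam n).prod (gam n)))
        - c * Matrix.trace (toC (W * W) * mxFunC (fJ t L x (s * α) r) (colAt H N))‖
      ≤ θ * mxSq W + 1 / (2 * θ) * ((Ca + Cb) * (dfc H W + sgA H W (colAt H N))) := by
    intro N
    rw [s7k_inner1 h.symm, s7k_mxFunC_fJ]
    exact (s7k_PN1 (s7k_avU_comm h u s N) (s7k_cE_comm (hs' N) (hc' N) (s * α))
      (s7k_avU_le h.symm W u s N) (s7k_chi_le t L x r _ W) hθ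
      (hPa n H W h _ (hs' N) (hc' N)) (hPb n H W h _ (hs' N) (hc' N))).trans
      (le_of_eq (by ring))
  have i1 : Integrable (fun N : EE n => dfc H W + sgA H W (colAt H N)) (gam n) :=
    (integrable_const _).add hsi
  have i2 : Integrable (fun N : EE n =>
      1 / (2 * θ) * ((Ca + Cb) * (dfc H W + sgA H W (colAt H N)))) (gam n) :=
    (i1.const_mul _).const_mul _
  have hbi : Integrable (fun N : EE n =>
      θ * mxSq W + 1 / (2 * θ) * ((Ca + Cb) * (dfc H W + sgA H W (colAt H N)))) (gam n) :=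
    (integrable_const _).add i2
  refine (norm_integral_le_of_norm_le hbi (Filter.Eventually.of_forall hpt)).trans ?_
  rw [integral_add (integrable_const _) i2,
    integral_const_mul, integral_const_mul, integral_const_mul,
    integral_add (integrable_const _) hsi, hse]
  simp only [integral_const, probReal_univ, smul_eq_mul, one_mul]
  have hcc : ccW H W ≤ dfc H W := by
    unfold dfc
    linarith [R260.mxSq_nonneg ((colS H - 1) * W), s7k_xdW_nonneg H W]
  have hd0 := s7k_dfc_nonneg H W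
  have hCC : 0 ≤ Ca + Cb := by positivity
  have : 1 / (2 * θ) * ((Ca + Cb) * (dfc H W + ccW H W)) ≤ (Ca + Cb) / θ * dfc H W := by
    have h1 : (Ca + Cb) * (dfc H W + ccW H W) ≤ (Ca + Cb) * (2 * dfc H W) :=
      mul_le_mul_of_nonneg_left (by linarith) hCC
    calc _ ≤ 1 / (2 * θ) * ((Ca + Cb) * (2 * dfc H W)) :=
          mul_le_mul_of_nonneg_left h1 (by positivity)
      _ = _ := by field_simp
  linarith

/-- generates the equation lemmas of the definitions above in this file (rule 6: unique names) -/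
theorem s7lawjc_eqns_cite : True := by
  have := @fJ.eq_1
  have := @psi1.eq_1
  have := @lSpec.eq_1
  have := @avU.eq_1
  trivial

end Claimed.Agent.R259
end

/- ===== packed: Claimed.Agent.R259.S7LawJd ===== -/
section
/-
Row 259 (S0499), section 7, package L-S7-LAW-J: the factor `A - αA_u` (steps for `J2` at fixed `A = H[N]`).
Owner: helper79.
-/
set_option autoImplicit false
set_option linter.unusedSectionVars false
set_option linter.unusedVariables false

open MeasureTheory ProbabilityTheory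
open scoped BigOperators Matrix
open Claimed.Agent.R260 (Mx mxFun mxSchur mxSq mxIP mxEig mxU mxRot)

namespace Claimed.Agent.R259

variable {n : ℕ}

theorem s7k_mxSq_sub_le (X Y : Mx n) : mxSq (X - Y) ≤ 2 * mxSq X + 2 * mxSq Y := by
  simp only [R260.mxSq_eq_sum, Matrix.sub_apply, Finset.mul_sum, ← Finset.sum_add_distrib]
  refine Finset.sum_le_sum fun i _ => Finset.sum_le_sum fun j _ => ?_
  nlinarith [sq_nonneg (X i j + Y i j)]

/-- `cSq ((gF H r - e^{-r²/2}) W) ≤ C dfc` -/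
theorem s7k_ge_sq {H : Fin n → Mx n} {W : Mx n} (h : ColW H W) (r : ℝ) :
    cSq ((gF H r - ((Real.exp (-(r ^ 2 / 2)) : ℝ) : ℂ) • (1 : CMx n)) * toC W)
      ≤ 8 * (1 + |r|) ^ 8 * dfc H W := by
  have hge := s7_ge h.symm h.comm (cK := 4) (by norm_num) h.col
    (M := 1) Matrix.PosSemidef.one r
  rw [s7k_mxFunC_one, mul_one] at hge
  have h2 : cSq ((gF H r - ((Real.exp (-(r ^ 2 / 2)) : ℝ) : ℂ) • (1 : CMx n)) * toC W)
      ≤ 2 * ((1 + |r|) ^ 4) ^ 2 * mxSq ((colS H - 1) * W)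
        + 2 * ((1 + |r|) ^ 4 * Real.sqrt 4) ^ 2 * ccW H W := by
    refine s7k_sq_of_sqrt_le (cSq_nonneg _) (R260.mxSq_nonneg _) (s7k_ccW_nonneg _ _)
      (by positivity) (by positivity) ?_
    calc _ ≤ _ := hge
      _ = _ := by ring
  have e4 : Real.sqrt 4 ^ 2 = 4 := Real.sq_sqrt (by norm_num)
  rw [mul_pow, e4] at h2
  have hs0 := R260.mxSq_nonneg ((colS H - 1) * W)
  have hcc0 := s7k_ccW_nonneg H W
  have hxd0 := s7k_xdW_nonneg H W
  unfold dfc
  set R8 := (1 + |r|) ^ 8 with hR8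
  have hR80 : 0 ≤ R8 := by positivity
  have e5 : ((1 + |r|) ^ 4) ^ 2 = R8 := by rw [hR8]; ring
  rw [e5] at h2
  nlinarith [mul_nonneg hR80 hs0, mul_nonneg hR80 hcc0, mul_nonneg hR80 hxd0]

/-- `cSq ((gF1 H r - i r e^{-r²/2}) W) ≤ C dfc` -/
theorem s7k_ge1_sq {H : Fin n → Mx n} {W : Mx n} (h : ColW H W) (r : ℝ) :
    cSq ((gF1 H r - (Complex.I * ((r * Real.exp (-(r ^ 2 / 2)) : ℝ) : ℂ)) • (1 : CMx n)) * toC W)
      ≤ 8 * (1 + |r|) ^ 8 * dfc H W := by
  have hge := s7_ge1 h.symm h.comm (cK := 4) (by norm_num) h.col r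
  have h2 : cSq ((gF1 H r
        - (Complex.I * ((r * Real.exp (-(r ^ 2 / 2)) : ℝ) : ℂ)) • (1 : CMx n)) * toC W)
      ≤ 2 * ((1 + |r|) ^ 4) ^ 2 * mxSq ((colS H - 1) * W)
        + 2 * ((1 + |r|) ^ 4 * Real.sqrt 4) ^ 2 * ccW H W := by
    refine s7k_sq_of_sqrt_le (cSq_nonneg _) (R260.mxSq_nonneg _) (s7k_ccW_nonneg _ _)
      (by positivity) (by positivity) ?_
    calc _ ≤ _ := hge
      _ = _ := by ring
  have e4 : Real.sqrt 4 ^ 2 = 4 := Real.sq_sqrt (by norm_num)
  rw [mul_pow, e4] at h2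
  have hs0 := R260.mxSq_nonneg ((colS H - 1) * W)
  have hcc0 := s7k_ccW_nonneg H W
  have hxd0 := s7k_xdW_nonneg H W
  unfold dfc
  set R8 := (1 + |r|) ^ 8 with hR8
  have hR80 : 0 ≤ R8 := by positivity
  have e5 : ((1 + |r|) ^ 4) ^ 2 = R8 := by rw [hR8]; ring
  rw [e5] at h2
  nlinarith [mul_nonneg hR80 hs0, mul_nonneg hR80 hcc0, mul_nonneg hR80 hxd0]

/-- `E ‖H[G] W‖² = ∑ ‖H_i W‖² ≤ 4 ‖W‖²` -/
theorem s7k_avg_AW {H : Fin n → Mx n} {W : Mx n} (h : ColW H W) :
    Integrable (fun G => mxSq (colAt H G * W)) (gam n) ∧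
      ∫ G, mxSq (colAt H G * W) ∂(gam n) ≤ 4 * mxSq W := by
  have h1 := s7_avg_sq (fun i => H i * W)
  simp only [s7p_colAt_mul] at h1
  exact ⟨h1.1, h1.2.le.trans (s7p_col_le' h.symm h.col W)⟩

/-- entries of `H[G]` are integrable -/
theorem s7k_CI_A (H : Fin n → Mx n) : CI (gam n) fun G : EE n => toC (colAt H G) := by
  intro a b
  have hm := s7k_meas_colAt H (measurable_id : Measurable fun G : EE n => G) a b
  have h1 := (s7_avg_sq H).1
  refine ((integrable_const (1 : ℝ)).add h1).mono'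
    (Complex.measurable_ofReal.comp hm).aestronglyMeasurable
    (Filter.Eventually.of_forall fun G => ?_)
  show ‖toC (colAt H G) a b‖ ≤ 1 + mxSq (colAt H G)
  rw [toC_apply, Complex.norm_real, Real.norm_eq_abs]
  have h2 : (colAt H G a b) ^ 2 ≤ mxSq (colAt H G) := R260.mxi_apply_sq_le _ _ _
  have h3 : |colAt H G a b| ≤ 1 + (colAt H G a b) ^ 2 := by
    rcases abs_cases (colAt H G a b) with ⟨e, _⟩ | ⟨e, _⟩ <;> rw [e] <;>
      nlinarith [sq_nonneg (colAt H G a b - 1), sq_nonneg (colAt H G a b + 1)]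
  linarith

section cint2

variable {α : Type} [MeasurableSpace α] {μ : Measure α}

/-- integrable times bounded measurable -/
theorem CI.mul_bdd {Φ Ψ : α → CMx n} (h : CI μ Φ) (hm : ∀ a b, Measurable fun x => Ψ x a b)
    {C : ℝ} (hb : ∀ x a b, ‖Ψ x a b‖ ≤ C) : CI μ fun x => Φ x * Ψ x := by
  intro a b
  simp only [Matrix.mul_apply]
  exact integrable_finsetSum _ fun c _ =>
    (h a c).mul_bdd (c := C) (hm c b).aestronglyMeasurable
      (Filter.Eventually.of_forall fun x => hb x c b)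

end cint2

/-- `Γ(G') = a₁ A - a₂ H[G']` -/
noncomputable def gmA (H : Fin n → Mx n) (a1 a2 : ℝ) (A : Mx n) (G : EE n) : Mx n :=
  a1 • A - a2 • colAt H G

section fixedA

variable {H : Fin n → Mx n} {W A : Mx n}

theorem s7k_gmA_comm (h : ColW H W) (hAW : A * W = W * A) (a1 a2 : ℝ) (G : EE n) :
    gmA H a1 a2 A G * W = W * gmA H a1 a2 A G := by
  unfold gmA
  rw [sub_mul, mul_sub, smul_mul_assoc, smul_mul_assoc, mul_smul_comm, mul_smul_comm, hAW,
    s7k_colAt_comm h.comm]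

theorem s7k_gmA_commC (h : ColW H W) (hAW : A * W = W * A) (a1 a2 : ℝ) (G : EE n) :
    toC W * toC (gmA H a1 a2 A G) = toC (gmA H a1 a2 A G) * toC W := by
  rw [← toC_mul, ← toC_mul, s7k_gmA_comm h hAW]

theorem s7k_toC_gmA (a1 a2 : ℝ) (G : EE n) :
    toC (gmA H a1 a2 A G) = (a1 : ℂ) • toC A - (a2 : ℂ) • toC (colAt H G) := by
  unfold gmA
  rw [toC_sub, toC_smul, toC_smul]

theorem s7k_CI_gmA (a1 a2 : ℝ) : CI (gam n) fun G : EE n => toC (gmA H a1 a2 A G) := by
  simp only [s7k_toC_gmA]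
  exact (CI.const _).sub ((s7k_CI_A H).smul _)

theorem s7k_gmA_sq_le (a1 a2 : ℝ) (G : EE n) :
    mxSq (gmA H a1 a2 A G * W)
      ≤ 2 * a1 ^ 2 * mxSq (A * W) + 2 * a2 ^ 2 * mxSq (colAt H G * W) := by
  unfold gmA
  rw [sub_mul, smul_mul_assoc, smul_mul_assoc]
  refine (s7k_mxSq_sub_le _ _).trans (le_of_eq ?_)
  rw [s7k_mxSq_smul, s7k_mxSq_smul]; ring

theorem s7k_meas_gmA (a1 a2 : ℝ) : ∀ a b, Measurable fun G : EE n => gmA H a1 a2 A G a b := by
  intro a b
  unfold gmA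
  simp only [Matrix.sub_apply, Matrix.smul_apply, smul_eq_mul]
  exact measurable_const.sub
    ((s7k_meas_colAt H (measurable_id : Measurable fun G : EE n => G) a b).const_mul a2)

theorem s7k_gmA_int (h : ColW H W) (a1 a2 : ℝ) :
    Integrable (fun G => mxSq (gmA H a1 a2 A G * W)) (gam n) ∧
      ∫ G, mxSq (gmA H a1 a2 A G * W) ∂(gam n)
        ≤ 2 * a1 ^ 2 * mxSq (A * W) + 8 * a2 ^ 2 * mxSq W := by
  obtain ⟨hi, hle⟩ := s7k_avg_AW h
  have hb : Integrable (fun G : EE n =>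
      2 * a1 ^ 2 * mxSq (A * W) + 2 * a2 ^ 2 * mxSq (colAt H G * W)) (gam n) :=
    (integrable_const _).add (hi.const_mul _)
  have hm : Measurable fun G : EE n => mxSq (gmA H a1 a2 A G * W) :=
    s7v_meas_mxSq (s7v_meas_mul (s7k_meas_gmA a1 a2) fun _ _ => measurable_const)
  have hint : Integrable (fun G => mxSq (gmA H a1 a2 A G * W)) (gam n) :=
    hb.mono' hm.aestronglyMeasurable (Filter.Eventually.of_forall fun G => by
      rw [Real.norm_eq_abs, abs_of_nonneg (R260.mxSq_nonneg _)]; exact s7k_gmA_sq_le a1 a2 G)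
  refine ⟨hint, (integral_mono hint hb fun G => s7k_gmA_sq_le a1 a2 G).trans ?_⟩
  rw [integral_add (integrable_const _) (hi.const_mul _)]
  simp only [integral_const, probReal_univ, smul_eq_mul, one_mul]
  rw [integral_const_mul]
  have : 2 * a2 ^ 2 * ∫ G, mxSq (colAt H G * W) ∂(gam n) ≤ 2 * a2 ^ 2 * (4 * mxSq W) :=
    mul_le_mul_of_nonneg_left hle (by positivity)
  linarith

/-- measurability of `G ↦ e^{is(αA + βH[G])}` -/
theorem s7k_meas_UA (hH : ∀ i, (H i).IsSymm) (hA : A.IsSymm) (s α β : ℝ) :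
    ∀ a b, Measurable fun G : EE n => cE s (α • A + β • colAt H G) a b :=
  s7v_meas_cE s (A := fun G => α • A + β • colAt H G)
    (fun a b => by
      simp only [Matrix.add_apply, Matrix.smul_apply, smul_eq_mul]
      exact measurable_const.add
        ((s7k_meas_colAt H (measurable_id : Measurable fun G : EE n => G) a b).const_mul β))
    fun G => s7k_symm_comb hA (s7k_colAt_symm hH G) α β

theorem s7k_UA_comm (h : ColW H W) (hA : A.IsSymm) (hAW : A * W = W * A) (s α β : ℝ) (G : EE n) :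
    toC W * cE s (α • A + β • colAt H G) = cE s (α • A + β • colAt H G) * toC W :=
  s7k_cE_comm (s7k_symm_comb hA (s7k_colAt_symm h.symm G) α β)
    (by rw [add_mul, mul_add, smul_mul_assoc, smul_mul_assoc, mul_smul_comm, mul_smul_comm, hAW,
      s7k_colAt_comm h.comm]) s

/-- `GU = E_{G'} Γ(G') e^{is(αA + βH[G'])}` -/
noncomputable def avGU (H : Fin n → Mx n) (a1 a2 s α β : ℝ) (A : Mx n) : CMx n :=
  cInt (gam n) fun G => toC (gmA H a1 a2 A G) * cE s (α • A + β • colAt H G)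

theorem s7k_CI_GU (hH : ∀ i, (H i).IsSymm) (hA : A.IsSymm) (a1 a2 s α β : ℝ) :
    CI (gam n) fun G : EE n => toC (gmA H a1 a2 A G) * cE s (α • A + β • colAt H G) :=
  (s7k_CI_gmA a1 a2).mul_bdd (s7k_meas_UA hH hA s α β) (C := 1)
    fun G a b => cE_apply_norm_le _ _ _ _

theorem s7k_avGU_comm (h : ColW H W) (hA : A.IsSymm) (hAW : A * W = W * A) (a1 a2 s α β : ℝ) :
    toC W * avGU H a1 a2 s α β A = avGU H a1 a2 s α β A * toC W :=
  cInt_commute (s7k_CI_GU h.symm hA a1 a2 s α β) fun G => by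
    rw [← Matrix.mul_assoc, s7k_gmA_commC h hAW, Matrix.mul_assoc, s7k_UA_comm h hA hAW,
      Matrix.mul_assoc]

theorem s7k_GU_sq (h : ColW H W) (hA : A.IsSymm) (hAW : A * W = W * A) (a1 a2 s α β : ℝ)
    (G : EE n) :
    cSq (toC (gmA H a1 a2 A G) * cE s (α • A + β • colAt H G) * toC W)
      = mxSq (gmA H a1 a2 A G * W) := by
  rw [Matrix.mul_assoc, ← s7k_UA_comm h hA hAW, ← Matrix.mul_assoc,
    cSq_mul_unitary _ (cE_mul_conjTranspose _ _), ← toC_mul, cSq_toC]

theorem s7k_avGU_le (h : ColW H W) (hA : A.IsSymm) (hAW : A * W = W * A) (a1 a2 s α β : ℝ) :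
    cSq (avGU H a1 a2 s α β A * toC W) ≤ 2 * a1 ^ 2 * mxSq (A * W) + 8 * a2 ^ 2 * mxSq W := by
  obtain ⟨hi, hle⟩ := s7k_gmA_int (A := A) h a1 a2
  unfold avGU
  rw [← cInt_mul_right (s7k_CI_GU h.symm hA a1 a2 s α β)]
  have e : (fun G : EE n => cSq (toC (gmA H a1 a2 A G) * cE s (α • A + β • colAt H G) * toC W))
      = fun G => mxSq (gmA H a1 a2 A G * W) := by
    funext G; exact s7k_GU_sq h hA hAW a1 a2 s α β G
  refine (cSq_cInt_le ((s7k_CI_GU h.symm hA a1 a2 s α β).mul_right _) (by rw [e]; exact hi)).trans ?_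
  rw [e]; exact hle

/-- the same with the split exponential -/
noncomputable def avGU0 (H : Fin n → Mx n) (a1 a2 s α β : ℝ) (A : Mx n) : CMx n :=
  cInt (gam n) fun G => toC (gmA H a1 a2 A G) * (cE (s * β) (colAt H G) * cE (s * α) A)

theorem s7k_meas_U1 (hH : ∀ i, (H i).IsSymm) (r : ℝ) :
    ∀ a b, Measurable fun G : EE n => cE r (colAt H G) a b :=
  s7v_meas_cE _ (s7k_meas_colAt H (measurable_id : Measurable fun G : EE n => G))
    (s7k_colAt_symm hH)

theorem s7k_CI_GU1 (hH : ∀ i, (H i).IsSymm) (a1 a2 r : ℝ) :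
    CI (gam n) fun G : EE n => toC (gmA H a1 a2 A G) * cE r (colAt H G) :=
  (s7k_CI_gmA a1 a2).mul_bdd (s7k_meas_U1 hH r) (C := 1) fun G a b => cE_apply_norm_le _ _ _ _

theorem s7k_CI_GU0 (hH : ∀ i, (H i).IsSymm) (a1 a2 s α β : ℝ) :
    CI (gam n) fun G : EE n =>
      toC (gmA H a1 a2 A G) * (cE (s * β) (colAt H G) * cE (s * α) A) := by
  simp only [← Matrix.mul_assoc]
  exact (s7k_CI_GU1 hH a1 a2 (s * β)).mul_right _

/-- step 2: splitting inside the trace -/
theorem s7k_G3 (h : ColW H W) (hA : A.IsSymm) (hAW : A * W = W * A) (a1 a2 s α β : ℝ)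
    {f : ℝ → ℂ} (hf : ∀ v, ‖f v‖ ≤ 1) {θ : ℝ} (hθ : 0 < θ) :
    ‖Matrix.trace (toC (W * W) * avGU H a1 a2 s α β A * mxFunC f A)
        - Matrix.trace (toC (W * W) * avGU0 H a1 a2 s α β A * mxFunC f A)‖
      ≤ θ / 2 * (2 * a1 ^ 2 * mxSq (A * W) + 8 * a2 ^ 2 * mxSq W)
        + 1 / (2 * θ) * ((s ^ 2 * α * β) ^ 2 / 4 * sgA H W A) := by
  set X := mxFunC f A with hX
  set M := toC (W * W) with hM
  have hXc : toC W * X = X * toC W := mxFunC_commute _ hA (by rw [← toC_mul, ← toC_mul, hAW])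
  have hΦ := s7k_CI_GU (A := A) h.symm hA a1 a2 s α β
  have hΦ0 := s7k_CI_GU0 (A := A) h.symm a1 a2 s α β
  have hD := hΦ.sub hΦ0
  have e1 : Matrix.trace (M * avGU H a1 a2 s α β A * X) - Matrix.trace (M * avGU0 H a1 a2 s α β A * X)
      = ∫ G, Matrix.trace (M * (toC (gmA H a1 a2 A G) * cE s (α • A + β • colAt H G)
          - toC (gmA H a1 a2 A G) * (cE (s * β) (colAt H G) * cE (s * α) A)) * X) ∂(gam n) := by
    rw [cInt_trace ((hD.mul_left M).mul_right X), cInt_mul_right (hD.mul_left M),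
      cInt_mul_left hD, cInt_sub hΦ hΦ0, ← Matrix.trace_sub]
    unfold avGU avGU0
    rw [mul_sub, sub_mul]
  rw [e1]
  obtain ⟨hgi, hgle⟩ := s7k_gmA_int (A := A) h a1 a2
  obtain ⟨hai, hae⟩ := s7k_avg_cmm H A W
  have hpt : ∀ G : EE n,
      ‖Matrix.trace (M * (toC (gmA H a1 a2 A G) * cE s (α • A + β • colAt H G)
          - toC (gmA H a1 a2 A G) * (cE (s * β) (colAt H G) * cE (s * α) A)) * X)‖
      ≤ θ / 2 * mxSq (gmA H a1 a2 A G * W)
        + 1 / (2 * θ) * ((s ^ 2 * α * β) ^ 2 / 4 * mxSq (cmm (colAt H G) A * W)) := by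
    intro G
    set Δ := cE s (α • A + β • colAt H G) - cE (s * β) (colAt H G) * cE (s * α) A with hΔ
    have e2 : M * (toC (gmA H a1 a2 A G) * cE s (α • A + β • colAt H G)
          - toC (gmA H a1 a2 A G) * (cE (s * β) (colAt H G) * cE (s * α) A)) * X
        = M * toC (gmA H a1 a2 A G) * (Δ * X) := by
      rw [← mul_sub, ← hΔ]
      simp only [Matrix.mul_assoc]
    rw [e2]
    have h1 := s7k_trace_young (s7k_gmA_commC (A := A) h hAW a1 a2 G) (Δ * X) hθ
    have h2 : cSq (Δ * X * toC W) ≤ (s ^ 2 * α * β) ^ 2 / 4 * mxSq (cmm (colAt H G) A * W) := by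
      rw [Matrix.mul_assoc, ← hXc, ← Matrix.mul_assoc]
      have h3 := cSq_mul_mxFunC_le (f := f) (A := A) (C := 1) (fun i => hf _) (Δ * toC W)
      rw [one_pow, one_mul] at h3
      exact h3.trans (s7k_split_le hA (s7k_colAt_symm h.symm G) hAW (s7k_colAt_comm h.comm G) s α β)
    have e3 : cSq (toC (gmA H a1 a2 A G) * toC W) = mxSq (gmA H a1 a2 A G * W) := by
      rw [← toC_mul, cSq_toC]
    rw [e3] at h1
    have : 1 / (2 * θ) * cSq (Δ * X * toC W)
        ≤ 1 / (2 * θ) * ((s ^ 2 * α * β) ^ 2 / 4 * mxSq (cmm (colAt H G) A * W)) :=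
      mul_le_mul_of_nonneg_left h2 (by positivity)
    linarith
  have i1 : Integrable (fun G : EE n => θ / 2 * mxSq (gmA H a1 a2 A G * W)) (gam n) :=
    hgi.const_mul _
  have i2 : Integrable (fun G : EE n =>
      1 / (2 * θ) * ((s ^ 2 * α * β) ^ 2 / 4 * mxSq (cmm (colAt H G) A * W))) (gam n) :=
    (hai.const_mul _).const_mul _
  have i3 : Integrable (fun G : EE n => θ / 2 * mxSq (gmA H a1 a2 A G * W)
      + 1 / (2 * θ) * ((s ^ 2 * α * β) ^ 2 / 4 * mxSq (cmm (colAt H G) A * W))) (gam n) :=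
    i1.add i2
  refine (norm_integral_le_of_norm_le i3 (Filter.Eventually.of_forall hpt)).trans ?_
  rw [integral_add i1 i2, integral_const_mul, integral_const_mul, integral_const_mul, hae]
  have : θ / 2 * ∫ G, mxSq (gmA H a1 a2 A G * W) ∂(gam n)
      ≤ θ / 2 * (2 * a1 ^ 2 * mxSq (A * W) + 8 * a2 ^ 2 * mxSq W) :=
    mul_le_mul_of_nonneg_left hgle (by positivity)
  linarith

theorem s7k_CI_U1 (hH : ∀ i, (H i).IsSymm) (r : ℝ) :
    CI (gam n) fun G : EE n => cE r (colAt H G) :=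
  CI.of_bdd (s7k_meas_U1 hH r) (C := 1) fun G a b => cE_apply_norm_le _ _ _ _

theorem s7k_CI_AU1 (hH : ∀ i, (H i).IsSymm) (r : ℝ) :
    CI (gam n) fun G : EE n => toC (colAt H G) * cE r (colAt H G) :=
  (s7k_CI_A H).mul_bdd (s7k_meas_U1 hH r) (C := 1) fun G a b => cE_apply_norm_le _ _ _ _

/-- step 3, identity -/
theorem s7k_G4 (hH : ∀ i, (H i).IsSymm) (a1 a2 s α β : ℝ) :
    avGU0 H a1 a2 s α β A
      = ((a1 : ℂ) • (toC A * gF H (s * β)) - (a2 : ℂ) • gF1 H (s * β)) * cE (s * α) A := by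
  unfold avGU0
  simp only [← Matrix.mul_assoc]
  rw [cInt_mul_right (s7k_CI_GU1 hH a1 a2 (s * β))]
  congr 1
  have e : ∀ G : EE n, toC (gmA H a1 a2 A G) * cE (s * β) (colAt H G)
      = (a1 : ℂ) • (toC A * cE (s * β) (colAt H G))
        - (a2 : ℂ) • (toC (colAt H G) * cE (s * β) (colAt H G)) := fun G => by
    rw [s7k_toC_gmA, sub_mul, Matrix.smul_mul, Matrix.smul_mul]
  simp only [e]
  rw [cInt_sub (((s7k_CI_U1 hH _).mul_left _).smul _) ((s7k_CI_AU1 hH _).smul _), cInt_smul,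
    cInt_smul, cInt_mul_left (s7k_CI_U1 hH _)]
  rfl

theorem s7k_gF_comm (h : ColW H W) (r : ℝ) : toC W * gF H r = gF H r * toC W :=
  cInt_commute (s7k_CI_U1 h.symm r) fun G =>
    s7k_cE_comm (s7k_colAt_symm h.symm G) (s7k_colAt_comm h.comm G) r

theorem s7k_gF1_comm (h : ColW H W) (r : ℝ) : toC W * gF1 H r = gF1 H r * toC W :=
  cInt_commute (s7k_CI_AU1 h.symm r) fun G => by
    rw [← Matrix.mul_assoc, ← toC_mul, ← s7k_colAt_comm h.comm G, toC_mul, Matrix.mul_assoc,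
      s7k_cE_comm (s7k_colAt_symm h.symm G) (s7k_colAt_comm h.comm G) r, Matrix.mul_assoc]

/-- step 3, estimate -/
theorem s7k_G5 (h : ColW H W) (hA : A.IsSymm) (hAW : A * W = W * A) {a1 a2 : ℝ} (ha1 : |a1| ≤ 1)
    (ha2 : |a2| ≤ 1) (s α β : ℝ) {f : ℝ → ℂ} (hf : ∀ v, ‖f v‖ ≤ 1) {θ : ℝ} (hθ : 0 < θ) :
    ‖Matrix.trace (toC (W * W) * avGU0 H a1 a2 s α β A * mxFunC f A)
        - ((Real.exp (-((s * β) ^ 2 / 2)) : ℝ) : ℂ)
          * ((a1 : ℂ) * Matrix.trace (toC (W * W) * (toC A * (cE (s * α) A * mxFunC f A)))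
            - Complex.I * ((a2 * (s * β) : ℝ) : ℂ)
              * Matrix.trace (toC (W * W) * (cE (s * α) A * mxFunC f A)))‖
      ≤ θ / 2 * (mxSq (A * W) + mxSq W) + 1 / (2 * θ) * (16 * (1 + |s * β|) ^ 8 * dfc H W) := by
  set X := mxFunC f A with hX
  set M := toC (W * W) with hM
  set E2 := cE (s * α) A with hE2
  set c : ℂ := ((Real.exp (-((s * β) ^ 2 / 2)) : ℝ) : ℂ) with hc
  set κ : ℂ := Complex.I * (((s * β) * Real.exp (-((s * β) ^ 2 / 2)) : ℝ) : ℂ) with hκ
  set Y0 := E2 * X with hY0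
  have hXc : toC W * X = X * toC W := mxFunC_commute _ hA (by rw [← toC_mul, ← toC_mul, hAW])
  have hEc : toC W * E2 = E2 * toC W := s7k_cE_comm hA hAW _
  have hYc : toC W * Y0 = Y0 * toC W := by
    rw [hY0, ← Matrix.mul_assoc, hEc, Matrix.mul_assoc, hXc, Matrix.mul_assoc]
  have hYr : ∀ Q : CMx n, cSq (Q * Y0) ≤ cSq Q := fun Q => by
    rw [hY0, ← Matrix.mul_assoc]
    have h3 := cSq_mul_mxFunC_le (f := f) (A := A) (C := 1) (fun i => hf _) (Q * E2)
    rw [one_pow, one_mul, cSq_mul_unitary _ (cE_mul_conjTranspose _ _)] at h3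
    exact h3
  have hYW : cSq (Y0 * toC W) ≤ mxSq W := by
    rw [← hYc]; exact (hYr _).trans (le_of_eq (cSq_toC W))
  have hAc : toC W * toC A = toC A * toC W := by rw [← toC_mul, ← toC_mul, hAW]
  have hZ1 : toC W * (gF1 H (s * β) - κ • (1 : CMx n)) = (gF1 H (s * β) - κ • (1 : CMx n)) * toC W := by
    rw [mul_sub, sub_mul, s7k_gF1_comm h, Matrix.mul_smul, Matrix.smul_mul, Matrix.mul_one,
      Matrix.one_mul]
  have hκ' : κ = c * (Complex.I * ((s * β : ℝ) : ℂ)) := by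
    rw [hκ, hc]; push_cast; ring
  -- the algebraic identity
  have e : Matrix.trace (M * avGU0 H a1 a2 s α β A * X)
        - c * ((a1 : ℂ) * Matrix.trace (M * (toC A * Y0))
            - Complex.I * ((a2 * (s * β) : ℝ) : ℂ) * Matrix.trace (M * Y0))
      = (a1 : ℂ) * Matrix.trace (M * toC A * ((gF H (s * β) - c • (1 : CMx n)) * Y0))
        - (a2 : ℂ) * Matrix.trace (M * (gF1 H (s * β) - κ • (1 : CMx n)) * Y0) := by
    rw [s7k_G4 h.symm, hκ']
    simp only [mul_sub, sub_mul, Matrix.mul_smul, Matrix.smul_mul, Matrix.mul_one, Matrix.one_mul,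
      Matrix.trace_sub, Matrix.trace_smul, smul_eq_mul, Matrix.mul_assoc]
    push_cast
    ring
  rw [e]
  have h1 := s7k_trace_young hAc ((gF H (s * β) - c • (1 : CMx n)) * Y0) hθ
  have h2 := s7k_trace_young' hZ1 Y0 hθ
  have e3 : cSq (toC A * toC W) = mxSq (A * W) := by rw [← toC_mul, cSq_toC]
  rw [e3] at h1
  have h4 : cSq ((gF H (s * β) - c • (1 : CMx n)) * Y0 * toC W) ≤ 8 * (1 + |s * β|) ^ 8 * dfc H W := by
    rw [Matrix.mul_assoc, ← hYc, ← Matrix.mul_assoc]
    exact (hYr _).trans (s7k_ge_sq h (s * β))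
  have h5 : cSq ((gF1 H (s * β) - κ • (1 : CMx n)) * toC W) ≤ 8 * (1 + |s * β|) ^ 8 * dfc H W :=
    s7k_ge1_sq h (s * β)
  have hθ2 : 0 ≤ θ / 2 := by positivity
  have hθi : 0 ≤ 1 / (2 * θ) := by positivity
  have n1 : ‖(a1 : ℂ) * Matrix.trace (M * toC A * ((gF H (s * β) - c • (1 : CMx n)) * Y0))‖
      ≤ θ / 2 * mxSq (A * W) + 1 / (2 * θ) * (8 * (1 + |s * β|) ^ 8 * dfc H W) := by
    rw [norm_mul, Complex.norm_real, Real.norm_eq_abs]
    calc _ ≤ 1 * ‖Matrix.trace (M * toC A * ((gF H (s * β) - c • (1 : CMx n)) * Y0))‖ :=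
          mul_le_mul_of_nonneg_right ha1 (norm_nonneg _)
      _ = _ := one_mul _
      _ ≤ _ := h1
      _ ≤ _ := by gcongr
  have n2 : ‖(a2 : ℂ) * Matrix.trace (M * (gF1 H (s * β) - κ • (1 : CMx n)) * Y0)‖
      ≤ 1 / (2 * θ) * (8 * (1 + |s * β|) ^ 8 * dfc H W) + θ / 2 * mxSq W := by
    rw [norm_mul, Complex.norm_real, Real.norm_eq_abs]
    calc _ ≤ 1 * ‖Matrix.trace (M * (gF1 H (s * β) - κ • (1 : CMx n)) * Y0)‖ :=
          mul_le_mul_of_nonneg_right ha2 (norm_nonneg _)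
      _ = _ := one_mul _
      _ ≤ _ := h2
      _ ≤ _ := by gcongr
  calc _ ≤ _ := norm_sub_le _ _
    _ ≤ _ := add_le_add n1 n2
    _ = _ := by ring

end fixedA

/-- generates the equation lemmas of the definitions above in this file (rule 6: unique names) -/
theorem s7lawjd_eqns_cite : True := by
  have := @gmA.eq_1
  have := @avGU.eq_1
  have := @avGU0.eq_1
  trivial

end Claimed.Agent.R259
end

/- ===== packed: Claimed.Agent.R259.S7LawJe ===== -/
section
/-
Row 259 (S0499), section 7, package L-S7-LAW-J: the local theorem for `J2`.  Owner: helper79.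
-/
set_option autoImplicit false
set_option linter.unusedSectionVars false
set_option linter.unusedVariables false

open MeasureTheory ProbabilityTheory
open scoped BigOperators Matrix
open Claimed.Agent.R260 (Mx mxFun mxSchur mxSq mxIP mxEig mxU mxRot)

namespace Claimed.Agent.R259

variable {n : ℕ}

/-- the estimate for `J2` at fixed `A = H[N]` -/
theorem s7k_PN2 {H : Fin n → Mx n} {W A : Mx n} (h : ColW H W) (hA : A.IsSymm)
    (hAW : A * W = W * A) {a1 a2 : ℝ} (ha1 : |a1| ≤ 1) (ha2 : |a2| ≤ 1) (s α β : ℝ) {f : ℝ → ℂ}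
    (hf : ∀ v, ‖f v‖ ≤ 1) {θ : ℝ} (hθ : 0 < θ) (Vb : CMx n) {ea : ℝ}
    (hea : cSq ((Vb - mxFunC f A) * toC W) ≤ ea) :
    ‖Matrix.trace (toC (W * W) * avGU H a1 a2 s α β A * Vb)
        - ((Real.exp (-((s * β) ^ 2 / 2)) : ℝ) : ℂ)
          * ((a1 : ℂ) * Matrix.trace (toC (W * W) * (toC A * (cE (s * α) A * mxFunC f A)))
            - Complex.I * ((a2 * (s * β) : ℝ) : ℂ)
              * Matrix.trace (toC (W * W) * (cE (s * α) A * mxFunC f A)))‖
      ≤ θ * (5 / 2 * mxSq (A * W) + 17 / 2 * mxSq W)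
        + 1 / (2 * θ) * (ea + (s ^ 2 * α * β) ^ 2 / 4 * sgA H W A
            + 16 * (1 + |s * β|) ^ 8 * dfc H W) := by
  set X := mxFunC f A with hX
  set M := toC (W * W) with hM
  set T := ((Real.exp (-((s * β) ^ 2 / 2)) : ℝ) : ℂ)
          * ((a1 : ℂ) * Matrix.trace (M * (toC A * (cE (s * α) A * X)))
            - Complex.I * ((a2 * (s * β) : ℝ) : ℂ)
              * Matrix.trace (M * (cE (s * α) A * X))) with hT
  have g3 := s7k_G3 h hA hAW a1 a2 s α β hf hθ
  have g5 := s7k_G5 h hA hAW ha1 ha2 s α β hf hθ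
  rw [← hX, ← hM] at g3 g5
  rw [← hT] at g5
  have g1 := s7k_trace_young (s7k_avGU_comm h hA hAW a1 a2 s α β) (Vb - X) hθ
  rw [← hM] at g1
  have gle := s7k_avGU_le h hA hAW a1 a2 s α β
  have e : Matrix.trace (M * avGU H a1 a2 s α β A * Vb) - T
      = Matrix.trace (M * avGU H a1 a2 s α β A * (Vb - X))
        + (Matrix.trace (M * avGU H a1 a2 s α β A * X)
            - Matrix.trace (M * avGU0 H a1 a2 s α β A * X))
        + (Matrix.trace (M * avGU0 H a1 a2 s α β A * X) - T) := by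
    rw [mul_sub, Matrix.trace_sub]; ring
  rw [e]
  have hs1 : a1 ^ 2 ≤ 1 := by rw [← sq_abs]; exact pow_le_one₀ (abs_nonneg _) ha1
  have hs2 : a2 ^ 2 ≤ 1 := by rw [← sq_abs]; exact pow_le_one₀ (abs_nonneg _) ha2
  have hAW0 := R260.mxSq_nonneg (A * W)
  have hW0 := R260.mxSq_nonneg W
  have hb : 2 * a1 ^ 2 * mxSq (A * W) + 8 * a2 ^ 2 * mxSq W ≤ 2 * mxSq (A * W) + 8 * mxSq W := by
    nlinarith
  have hθ2 : 0 ≤ θ / 2 := by positivity
  have hθi : 0 ≤ 1 / (2 * θ) := by positivity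
  have k1 : θ / 2 * cSq (avGU H a1 a2 s α β A * toC W) ≤ θ / 2 * (2 * mxSq (A * W) + 8 * mxSq W) :=
    mul_le_mul_of_nonneg_left (gle.trans hb) hθ2
  have k2 : θ / 2 * (2 * a1 ^ 2 * mxSq (A * W) + 8 * a2 ^ 2 * mxSq W)
      ≤ θ / 2 * (2 * mxSq (A * W) + 8 * mxSq W) := mul_le_mul_of_nonneg_left hb hθ2
  have k3 : 1 / (2 * θ) * cSq ((Vb - X) * toC W) ≤ 1 / (2 * θ) * ea :=
    mul_le_mul_of_nonneg_left hea hθi
  calc _ ≤ ‖Matrix.trace (M * avGU H a1 a2 s α β A * (Vb - X))‖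
        + ‖Matrix.trace (M * avGU H a1 a2 s α β A * X)
            - Matrix.trace (M * avGU0 H a1 a2 s α β A * X)‖
        + ‖Matrix.trace (M * avGU0 H a1 a2 s α β A * X) - T‖ := norm_add₃_le
    _ ≤ (θ / 2 * (2 * mxSq (A * W) + 8 * mxSq W) + 1 / (2 * θ) * ea)
        + (θ / 2 * (2 * mxSq (A * W) + 8 * mxSq W)
            + 1 / (2 * θ) * ((s ^ 2 * α * β) ^ 2 / 4 * sgA H W A))
        + (θ / 2 * (mxSq (A * W) + mxSq W) + 1 / (2 * θ) * (16 * (1 + |s * β|) ^ 8 * dfc H W)) := by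
        refine add_le_add (add_le_add ?_ ?_) g5
        · linarith
        · linarith
    _ = _ := by ring

/-- integrand of `J2` for a deterministic column -/
noncomputable def psi2 (H : Fin n → Mx n) (W : Mx n) (t L u x s r : ℝ)
    (w : EE n × EE n × EE n) : ℂ :=
  Matrix.trace (toC (W * W * colAt H (w.1 - Real.exp (-u) • ouV u w.1 w.2.1))
      * cE s (colAt H (ouV u w.1 w.2.1))
      * cE r (colAt H (mv (mxFun (gx t L x) (colAt H w.1)) w.2.2)))

section meas

variable {S : Type} [MeasurableSpace S] {H : S → Fin n → Mx n} {W : S → Mx n}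

theorem s7k_meas_psi2 (hH : ∀ i a b, Measurable fun σ => H σ i a b)
    (hW : ∀ a b, Measurable fun σ => W σ a b) (hsym : ∀ σ i, (H σ i).IsSymm)
    {w : S → EE n × EE n × EE n} (hw : Measurable w) {t L x : ℝ} (hg : Continuous (gx t L x))
    (u s r : ℝ) : Measurable fun σ => psi2 (H σ) (W σ) t L u x s r (w σ) := by
  unfold psi2
  have h1 : Measurable fun σ => (w σ).1 := measurable_fst.comp hw
  have h2 : Measurable fun σ => (w σ).2.1 := measurable_fst.comp (measurable_snd.comp hw)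
  have h3 : Measurable fun σ => (w σ).2.2 := measurable_snd.comp (measurable_snd.comp hw)
  have h4 : Measurable fun σ => ouV u (w σ).1 (w σ).2.1 := s7v_meas_ouV measurable_const h1 h2
  have h5 : Measurable fun σ => (w σ).1 - Real.exp (-u) • ouV u (w σ).1 (w σ).2.1 :=
    s7v_meas_v measurable_const h1 h2
  exact s7v_meas_traceC (s7v_meas_mulC (s7v_meas_mulC
    (s7v_meas_toC (s7v_meas_mul (s7v_meas_mul hW hW) (s7v_meas_colAt hH h5)))
    (s7k_meas_U hH hsym h4 s))
    (s7k_meas_U hH hsym (s7v_meas_mv (s7k_meas_q hH hsym h1 hg) h3) r))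

end meas

/-! ### proof of the local theorem (helper239, prefix `s7kh`) -/

/-- `H[N - α N_u] = Γ(G')` with `a₁ = 1 - α²`, `a₂ = αβ` -/
theorem s7kh_colAt_v (H : Fin n → Mx n) (u : ℝ) (N G : EE n) :
    colAt H (N - Real.exp (-u) • ouV u N G)
      = gmA H (1 - Real.exp (-u) ^ 2) (Real.exp (-u) * Real.sqrt (1 - Real.exp (-u) ^ 2))
          (colAt H N) G := by
  unfold gmA
  rw [s7v_colAt_sub, s7v_colAt_smul, s7k_colAt_ouV]
  module

/-- the integrand of `J2` in terms of `Γ` -/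
theorem s7kh_psi2_eq (H : Fin n → Mx n) (W : Mx n) (t L u x s r : ℝ) (N : EE n)
    (p : EE n × EE n) :
    psi2 H W t L u x s r (N, p)
      = Matrix.trace (toC (W * W) *
          ((toC (gmA H (1 - Real.exp (-u) ^ 2)
              (Real.exp (-u) * Real.sqrt (1 - Real.exp (-u) ^ 2)) (colAt H N) p.1)
            * cE s (Real.exp (-u) • colAt H N
                + Real.sqrt (1 - Real.exp (-u) ^ 2) • colAt H p.1))
          * cE r (colAt H (mv (mxFun (gx t L x) (colAt H N)) p.2)))) := by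
  unfold psi2
  simp only
  rw [s7kh_colAt_v, s7k_colAt_ouV, toC_mul]
  simp only [Matrix.mul_assoc]

/-- integration over `(G',G)` at fixed `N` -/
theorem s7kh_inner2 {H : Fin n → Mx n} (hH : ∀ i, (H i).IsSymm) (W : Mx n) (t L u x s r : ℝ)
    (N : EE n) :
    ∫ p, psi2 H W t L u x s r (N, p) ∂((gam n).prod (gam n))
      = Matrix.trace (toC (W * W) * avGU H (1 - Real.exp (-u) ^ 2)
            (Real.exp (-u) * Real.sqrt (1 - Real.exp (-u) ^ 2)) s (Real.exp (-u))
            (Real.sqrt (1 - Real.exp (-u) ^ 2)) (colAt H N)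
          * gF (colQ H (mxFun (gx t L x) (colAt H N))) r) := by
  set q := mxFun (gx t L x) (colAt H N) with hq
  have hU := s7k_CI_GU (A := colAt H N) hH (s7k_colAt_symm hH N) (1 - Real.exp (-u) ^ 2)
    (Real.exp (-u) * Real.sqrt (1 - Real.exp (-u) ^ 2)) s (Real.exp (-u))
    (Real.sqrt (1 - Real.exp (-u) ^ 2))
  have hV := s7k_CI_V hH q r
  simp only [s7kh_psi2_eq]
  rw [cInt_trace ((hU.prod_mul hV).mul_left _), cInt_mul_left (hU.prod_mul hV),
    cInt_prod_mul hU hV, Matrix.mul_assoc]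
  unfold gF avGU
  simp only [s7_colQ_at]

/-- domination of the integrand of `J2` -/
theorem s7kh_psi2_bd {H : Fin n → Mx n} {W : Mx n} (h : ColW H W) (t L u x s r : ℝ)
    (w : EE n × EE n × EE n) :
    ‖psi2 H W t L u x s r w‖ ≤ (1 - Real.exp (-u) ^ 2) ^ 2 * mxSq (colAt H w.1 * W)
      + (Real.exp (-u) * Real.sqrt (1 - Real.exp (-u) ^ 2)) ^ 2 * mxSq (colAt H w.2.1 * W)
      + 1 / 2 * mxSq W := by
  obtain ⟨N, p⟩ := w
  rw [s7kh_psi2_eq, ← Matrix.mul_assoc]
  set a1 := 1 - Real.exp (-u) ^ 2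
  set a2 := Real.exp (-u) * Real.sqrt (1 - Real.exp (-u) ^ 2)
  set α := Real.exp (-u)
  set β := Real.sqrt (1 - Real.exp (-u) ^ 2)
  have hA := s7k_colAt_symm h.symm N
  have hAW := s7k_colAt_comm h.comm N
  have hZ : toC W * (toC (gmA H a1 a2 (colAt H N) p.1) * cE s (α • colAt H N + β • colAt H p.1))
      = (toC (gmA H a1 a2 (colAt H N) p.1) * cE s (α • colAt H N + β • colAt H p.1)) * toC W := by
    rw [← Matrix.mul_assoc, s7k_gmA_commC h hAW, Matrix.mul_assoc, s7k_UA_comm h hA hAW,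
      Matrix.mul_assoc]
  have h1 := s7k_trace_young hZ (cE r (colAt H (mv (mxFun (gx t L x) (colAt H N)) p.2)))
    (θ := 1) one_pos
  rw [s7k_GU_sq h hA hAW, s7k_cSq_unit_mul] at h1
  have h2 := s7k_gmA_sq_le (H := H) (W := W) (A := colAt H N) a1 a2 p.1
  refine h1.trans ?_
  show 1 / 2 * mxSq (gmA H a1 a2 (colAt H N) p.1 * W) + 1 / (2 * 1) * mxSq W
    ≤ a1 ^ 2 * mxSq (colAt H N * W) + a2 ^ 2 * mxSq (colAt H p.1 * W) + 1 / 2 * mxSq W
  linarith

theorem s7kh_psi2_int {H : Fin n → Mx n} {W : Mx n} (h : ColW H W) {t L x : ℝ}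
    (hgc : Continuous (gx t L x)) (u s r : ℝ) :
    Integrable (psi2 H W t L u x s r) ((gam n).prod ((gam n).prod (gam n))) := by
  have hpm : Measurable (psi2 H W t L u x s r) :=
    s7k_meas_psi2 (H := fun _ => H) (W := fun _ => W) (fun _ _ _ => measurable_const)
      (fun _ _ => measurable_const) (fun _ => h.symm) measurable_id hgc u s r
  have hi := (s7k_avg_AW h).1
  have i1 : Integrable (fun w : EE n × EE n × EE n => mxSq (colAt H w.1 * W))
      ((gam n).prod ((gam n).prod (gam n))) := hi.comp_fst _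
  have i2 : Integrable (fun w : EE n × EE n × EE n => mxSq (colAt H w.2.1 * W))
      ((gam n).prod ((gam n).prod (gam n))) :=
    (hi.comp_fst (gam n)).comp_snd (gam n)
  exact (((i1.const_mul _).add (i2.const_mul _)).add (integrable_const _)).mono'
    hpm.aestronglyMeasurable (Filter.Eventually.of_forall fun w => s7kh_psi2_bd h t L u x s r w)

/-- `(v f)(A) = A f(A)` -/
theorem s7kh_mxFunC_lin (f : ℝ → ℂ) {A : Mx n} (hA : A.IsSymm) :
    mxFunC (fun v => (v : ℂ) * f v) A = toC A * mxFunC f A := by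
  rw [s7c_toC_eq hA]
  exact mxFunC_mul _ _ _

theorem s7kh_lin_bd (t L x s r v : ℝ) : ‖(v : ℂ) * fJ t L x s r v‖ ≤ 1 + 1 * v ^ 2 := by
  rw [norm_mul, Complex.norm_real, Real.norm_eq_abs]
  have h1 := s7k_fJ_bd t L x s r v
  have h2 : |v| * ‖fJ t L x s r v‖ ≤ |v| * 1 := mul_le_mul_of_nonneg_left h1 (abs_nonneg _)
  have h3 : |v| ≤ 1 + v ^ 2 := by
    rw [← sq_abs]
    nlinarith [sq_nonneg (|v| - 1), abs_nonneg v]
  linarith

/-- integrability of the integrand of the local spectral functional (quadratic growth) -/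
theorem s7kh_spec_int {H : Fin n → Mx n} {W : Mx n} (h : ColW H W) {g : ℝ → ℂ} (hg : Continuous g)
    {a b : ℝ} (hb : ∀ v, ‖g v‖ ≤ a + b * v ^ 2) :
    Integrable (fun N : EE n => Matrix.trace (toC (W * W) * mxFunC g (colAt H N))) (gam n) := by
  have hgm : Measurable fun N : EE n => Matrix.trace (toC (W * W) * mxFunC g (colAt H N)) :=
    s7k_meas_spec (H := fun _ => H) (W := fun _ => W) (fun _ _ _ => measurable_const)
      (fun _ _ => measurable_const) (fun _ => h.symm) measurable_id hg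
  exact ((integrable_const (a * mxSq W)).add ((s7k_avg_AW h).1.const_mul b)).mono'
    hgm.aestronglyMeasurable (Filter.Eventually.of_forall fun N =>
      s7p_trace_norm_le h.Wsymm (s7k_colAt_symm h.symm N) hb)

/-- LOCAL THEOREM for `J2` (deterministic column), proof (helper239) -/
theorem s7kh_loc2 {t L x : ℝ} (ht : 0 < t) (hL : 1 ≤ L) (hx : 0 < x) {u : ℝ} (hu : 0 ≤ u)
    (s r : ℝ) :
    ∃ C : ℝ, 0 ≤ C ∧ ∀ (n : ℕ) (H : Fin n → Mx n) (W : Mx n), ColW H W → ∀ θ : ℝ, 0 < θ →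
      ‖(∫ w, psi2 H W t L u x s r w ∂((gam n).prod ((gam n).prod (gam n))))
          - ((Real.exp (-((s * Real.sqrt (1 - Real.exp (-u) ^ 2)) ^ 2 / 2)) : ℝ) : ℂ)
            * (((1 - Real.exp (-u) ^ 2 : ℝ) : ℂ)
                * lSpec H W (fun v => (v : ℂ) * fJ t L x (s * Real.exp (-u)) r v)
              - Complex.I * ((Real.exp (-u) * (1 - Real.exp (-u) ^ 2) * s : ℝ) : ℂ)
                * lSpec H W (fJ t L x (s * Real.exp (-u)) r))‖
        ≤ 19 * θ * mxSq W + C / θ * dfc H W := by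
  obtain ⟨Ca, hCa, hPa⟩ := s7k_Pa ht hL hx r
  obtain ⟨-, -, hgc, -⟩ := s7_gx_bounds ht hL hx
  set α := Real.exp (-u) with hα
  set β := Real.sqrt (1 - α ^ 2) with hβ
  have hα0 : 0 < α := Real.exp_pos _
  have hα1 : α ≤ 1 := Real.exp_le_one_iff.2 (by linarith)
  have hb0 : 0 ≤ 1 - α ^ 2 := by nlinarith
  have hb1 : 1 - α ^ 2 ≤ 1 := by nlinarith
  have hββ : β * β = 1 - α ^ 2 := Real.mul_self_sqrt hb0
  have hβ0 : 0 ≤ β := Real.sqrt_nonneg _
  have hβ1 : β ≤ 1 := by
    rw [hβ]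
    exact Real.sqrt_le_one.mpr hb1
  set k1 : ℝ := (s ^ 2 * α * β) ^ 2 / 4 with hk1
  set k2 : ℝ := 16 * (1 + |s * β|) ^ 8 with hk2
  have hk10 : 0 ≤ k1 := by positivity
  have hk20 : 0 ≤ k2 := by positivity
  refine ⟨Ca + k1 + k2, by positivity, ?_⟩
  intro n H W h θ hθ
  set c : ℂ := ((Real.exp (-((s * β) ^ 2 / 2)) : ℝ) : ℂ) with hc
  set f := fJ t L x (s * α) r with hf
  set b2 : ℂ := ((1 - α ^ 2 : ℝ) : ℂ) with hb2
  set b3 : ℂ := Complex.I * ((α * (1 - α ^ 2) * s : ℝ) : ℂ) with hb3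
  have hs' : ∀ G, (colAt H G).IsSymm := s7k_colAt_symm h.symm
  have hc' : ∀ G, colAt H G * W = W * colAt H G := s7k_colAt_comm h.comm
  have hfc : Continuous f := s7k_fJ_cont hgc _ _
  have hlc : Continuous fun v : ℝ => (v : ℂ) * f v := Complex.continuous_ofReal.mul hfc
  have hpi := s7kh_psi2_int h hgc u s r
  rw [integral_prod _ hpi]
  unfold lSpec
  have i1 := s7kh_spec_int h hlc (s7kh_lin_bd t L x (s * α) r)
  have i0 := s7kh_spec_int h hfc (a := 1) (b := 0) (fun v => by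
    simpa using s7k_fJ_bd t L x (s * α) r v)
  have im : Integrable (fun N : EE n =>
      c * (b2 * Matrix.trace (toC (W * W) * mxFunC (fun v => (v : ℂ) * f v) (colAt H N))
        - b3 * Matrix.trace (toC (W * W) * mxFunC f (colAt H N)))) (gam n) :=
    ((i1.const_mul b2).sub (i0.const_mul b3)).const_mul c
  have em : c * (b2 * ∫ N, Matrix.trace (toC (W * W)
        * mxFunC (fun v => (v : ℂ) * f v) (colAt H N)) ∂(gam n)
      - b3 * ∫ N, Matrix.trace (toC (W * W) * mxFunC f (colAt H N)) ∂(gam n))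
      = ∫ N, c * (b2 * Matrix.trace (toC (W * W) * mxFunC (fun v => (v : ℂ) * f v) (colAt H N))
        - b3 * Matrix.trace (toC (W * W) * mxFunC f (colAt H N))) ∂(gam n) := by
    rw [integral_const_mul, integral_sub (i1.const_mul b2) (i0.const_mul b3), integral_const_mul,
      integral_const_mul]
  rw [em, ← integral_sub hpi.integral_prod_left im]
  obtain ⟨hsi, hse⟩ := s7k_avg_sgA H W
  obtain ⟨hai, hae⟩ := s7k_avg_AW h
  have ha1 : |1 - α ^ 2| ≤ 1 := by rw [abs_of_nonneg hb0]; exact hb1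
  have ha2 : |α * β| ≤ 1 := by
    rw [abs_of_nonneg (by positivity)]
    nlinarith
  -- the pointwise estimate
  have hpt : ∀ N : EE n,
      ‖(∫ p, psi2 H W t L u x s r (N, p) ∂((gam n).prod (gam n)))
        - c * (b2 * Matrix.trace (toC (W * W) * mxFunC (fun v => (v : ℂ) * f v) (colAt H N))
          - b3 * Matrix.trace (toC (W * W) * mxFunC f (colAt H N)))‖
      ≤ θ * (5 / 2 * mxSq (colAt H N * W) + 17 / 2 * mxSq W)
        + 1 / (2 * θ) * (Ca * (dfc H W + sgA H W (colAt H N)) + k1 * sgA H W (colAt H N)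
            + k2 * dfc H W) := by
    intro N
    rw [s7kh_inner2 h.symm, s7kh_mxFunC_lin f (hs' N), hf, s7k_mxFunC_fJ]
    have key := s7k_PN2 h (hs' N) (hc' N) ha1 ha2 s α β
      (f := fun v => ((chiR t L x r v : ℝ) : ℂ))
      (fun v => by rw [Complex.norm_real, Real.norm_eq_abs]; exact s7k_chiR_le _ _ _ _ _) hθ
      (gF (colQ H (mxFun (gx t L x) (colAt H N))) r) (hPa n H W h _ (hs' N) (hc' N))
    have e3 : Complex.I * ((α * β * (s * β) : ℝ) : ℂ) = b3 := by
      rw [hb3]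
      congr 2
      calc α * β * (s * β) = α * (β * β) * s := by ring
        _ = α * (1 - α ^ 2) * s := by rw [hββ]
    rw [e3] at key
    exact key
  have j1 : Integrable (fun N : EE n => θ * (5 / 2 * mxSq (colAt H N * W) + 17 / 2 * mxSq W))
      (gam n) := ((hai.const_mul _).add (integrable_const _)).const_mul _
  have j2 : Integrable (fun N : EE n => 1 / (2 * θ) * (Ca * (dfc H W + sgA H W (colAt H N))
      + k1 * sgA H W (colAt H N) + k2 * dfc H W)) (gam n) :=
    (((((integrable_const _).add hsi).const_mul _).add (hsi.const_mul _)).add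
      (integrable_const _)).const_mul _
  have j12 : Integrable (fun N : EE n => θ * (5 / 2 * mxSq (colAt H N * W) + 17 / 2 * mxSq W)
      + 1 / (2 * θ) * (Ca * (dfc H W + sgA H W (colAt H N))
      + k1 * sgA H W (colAt H N) + k2 * dfc H W)) (gam n) := j1.add j2
  refine (norm_integral_le_of_norm_le j12 (Filter.Eventually.of_forall hpt)).trans ?_
  have e1 : ∫ N, θ * (5 / 2 * mxSq (colAt H N * W) + 17 / 2 * mxSq W) ∂(gam n)
      = θ * (5 / 2 * (∫ N, mxSq (colAt H N * W) ∂(gam n)) + 17 / 2 * mxSq W) := by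
    rw [integral_const_mul, integral_add (hai.const_mul _) (integrable_const _),
      integral_const_mul]
    simp only [integral_const, probReal_univ, smul_eq_mul, one_mul]
  have e2 : ∫ N, 1 / (2 * θ) * (Ca * (dfc H W + sgA H W (colAt H N))
      + k1 * sgA H W (colAt H N) + k2 * dfc H W) ∂(gam n)
      = 1 / (2 * θ) * (Ca * (dfc H W + ccW H W) + k1 * ccW H W + k2 * dfc H W) := by
    have q1 : Integrable (fun N : EE n => dfc H W + sgA H W (colAt H N)) (gam n) :=
      (integrable_const _).add hsi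
    have q2 : Integrable (fun N : EE n => Ca * (dfc H W + sgA H W (colAt H N))
        + k1 * sgA H W (colAt H N)) (gam n) := (q1.const_mul _).add (hsi.const_mul _)
    rw [integral_const_mul, integral_add q2 (integrable_const _),
      integral_add (q1.const_mul _) (hsi.const_mul _), integral_const_mul, integral_const_mul,
      integral_add (integrable_const _) hsi, hse]
    simp only [integral_const, probReal_univ, smul_eq_mul, one_mul]
  rw [integral_add j1 j2, e1, e2]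
  have hcc : ccW H W ≤ dfc H W := by
    unfold dfc
    linarith [R260.mxSq_nonneg ((colS H - 1) * W), s7k_xdW_nonneg H W]
  have hcc0 := s7k_ccW_nonneg H W
  have hd0 := s7k_dfc_nonneg H W
  have hW0 := R260.mxSq_nonneg W
  have p1 : θ * (5 / 2 * (∫ N, mxSq (colAt H N * W) ∂(gam n)) + 17 / 2 * mxSq W)
      ≤ 19 * θ * mxSq W := by
    have : θ * (5 / 2 * (∫ N, mxSq (colAt H N * W) ∂(gam n)) + 17 / 2 * mxSq W)
        ≤ θ * (5 / 2 * (4 * mxSq W) + 17 / 2 * mxSq W) :=
      mul_le_mul_of_nonneg_left (by linarith) hθ.le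
    nlinarith [mul_nonneg hθ.le hW0]
  have p2 : 1 / (2 * θ) * (Ca * (dfc H W + ccW H W) + k1 * ccW H W + k2 * dfc H W)
      ≤ (Ca + k1 + k2) / θ * dfc H W := by
    have h1 : Ca * (dfc H W + ccW H W) + k1 * ccW H W + k2 * dfc H W
        ≤ 2 * (Ca + k1 + k2) * dfc H W := by
      nlinarith [mul_le_mul_of_nonneg_left hcc hCa, mul_le_mul_of_nonneg_left hcc hk10,
        mul_nonneg hk10 hd0, mul_nonneg hk20 hd0, mul_nonneg hCa hd0]
    calc _ ≤ 1 / (2 * θ) * (2 * (Ca + k1 + k2) * dfc H W) :=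
          mul_le_mul_of_nonneg_left h1 (by positivity)
      _ = _ := by field_simp
  linarith

/-- LOCAL THEOREM for `J2` (deterministic column) -/
theorem s7k_loc2 {t L x : ℝ} (ht : 0 < t) (hL : 1 ≤ L) (hx : 0 < x) {u : ℝ} (hu : 0 ≤ u)
    (s r : ℝ) :
    ∃ C : ℝ, 0 ≤ C ∧ ∀ (n : ℕ) (H : Fin n → Mx n) (W : Mx n), ColW H W → ∀ θ : ℝ, 0 < θ →
      ‖(∫ w, psi2 H W t L u x s r w ∂((gam n).prod ((gam n).prod (gam n))))
          - ((Real.exp (-((s * Real.sqrt (1 - Real.exp (-u) ^ 2)) ^ 2 / 2)) : ℝ) : ℂ)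
            * (((1 - Real.exp (-u) ^ 2 : ℝ) : ℂ)
                * lSpec H W (fun v => (v : ℂ) * fJ t L x (s * Real.exp (-u)) r v)
              - Complex.I * ((Real.exp (-u) * (1 - Real.exp (-u) ^ 2) * s : ℝ) : ℂ)
                * lSpec H W (fJ t L x (s * Real.exp (-u)) r))‖
        ≤ 19 * θ * mxSq W + C / θ * dfc H W :=
  s7kh_loc2 ht hL hx hu s r

/-- generates the equation lemmas of the definitions above in this file (rule 6: unique names) -/
theorem s7lawje_eqns_cite : True := by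
  have := @psi2.eq_1
  trivial

end Claimed.Agent.R259
end
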