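/- Packed by merge_tool.py (helper293): 10 modules of Claimed.Agent.R259 in one file, same declarations.
   Old modules, in this order: S7LawTopA, S7LawTopB, S7LawTopC, S7LawTopD, S7LawTopE, S7LawJs, S7LawJg, S7LawJ, S7LawTopF, S7Law -/
import Claimed.Agent.R259.Pack035
import Claimed.Agent.R259.Pack036
import Claimed.Agent.R259.Pack040
import Claimed.Agent.R259.Pack030
import Claimed.Agent.R259.Pack045
import Claimed.Agent.R259.Pack020
import Claimed.Agent.R259.Pack041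
import Claimed.Agent.R259.Pack039
import Claimed.Agent.R259.Pack027
import Claimed.Agent.R259.Pack042

/- ===== packed: Claimed.Agent.R259.S7LawTopA ===== -/
section
/-
Row 259 (S0499), section 7, trace law, package L-S7-LAW-TOP, part A: abstract tools.
* `s7t2Comb`: the combination `2 Re ∑ c_k K2(s_k,r_k) - 4 Re ∑ conj c_k c_l K1(s_l-s_k,r_l-r_k)`;
* it commutes with integrals, bounds, measurability;
* the abstract uniformisation lemma (pointwise `ε`-`δ` + uniform bound => integrated `ε`-`δ`).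
Owner: helper236.
-/
set_option autoImplicit false

open MeasureTheory ProbabilityTheory
open scoped BigOperators

namespace Claimed.Agent.R259

/-- `2 Re ∑ c_k K2(s_k,r_k) - 4 Re ∑ conj c_k c_l K1(s_l-s_k,r_l-r_k)` -/
noncomputable def s7t2Comb (P : Tst) (u x : ℝ) (K1 K2 : ℝ → ℝ → ℂ) : ℝ :=
  2 * (∑ k, P.c k u x * K2 (P.s k) (P.r k)).re
    - 4 * (∑ k, ∑ l, (starRingEnd ℂ (P.c k u x) * P.c l u x)
        * K1 (P.s l - P.s k) (P.r l - P.r k)).re

theorem s7t2_eqns_cite : True := by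
  have := @s7t2Comb.eq_1
  trivial

theorem s7t2_comb_integral {X : Type*} [MeasurableSpace X] (μ : Measure X) (P : Tst) (u x : ℝ)
    {F1 F2 : ℝ → ℝ → X → ℂ} (h1 : ∀ s r, Integrable (F1 s r) μ)
    (h2 : ∀ s r, Integrable (F2 s r) μ) :
    Integrable (fun ω => s7t2Comb P u x (fun s r => F1 s r ω) (fun s r => F2 s r ω)) μ ∧
    ∫ ω, s7t2Comb P u x (fun s r => F1 s r ω) (fun s r => F2 s r ω) ∂μ
      = s7t2Comb P u x (fun s r => ∫ ω, F1 s r ω ∂μ) (fun s r => ∫ ω, F2 s r ω ∂μ) := by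
  have i2 : Integrable (fun ω => ∑ k, P.c k u x * F2 (P.s k) (P.r k) ω) μ :=
    integrable_finsetSum _ fun k _ => (h2 _ _).const_mul _
  have i1 : Integrable (fun ω => ∑ k, ∑ l, (starRingEnd ℂ (P.c k u x) * P.c l u x)
      * F1 (P.s l - P.s k) (P.r l - P.r k) ω) μ :=
    integrable_finsetSum _ fun k _ => integrable_finsetSum _ fun l _ => (h1 _ _).const_mul _
  have r2 : Integrable (fun ω => 2 * (∑ k, P.c k u x * F2 (P.s k) (P.r k) ω).re) μ :=
    (i2.re).const_mul 2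
  have r1 : Integrable (fun ω => 4 * (∑ k, ∑ l, (starRingEnd ℂ (P.c k u x) * P.c l u x)
      * F1 (P.s l - P.s k) (P.r l - P.r k) ω).re) μ := (i1.re).const_mul 4
  refine ⟨r2.sub r1, ?_⟩
  unfold s7t2Comb
  rw [integral_sub r2 r1, integral_const_mul, integral_const_mul]
  have e2 : ∫ ω, (∑ k, P.c k u x * F2 (P.s k) (P.r k) ω).re ∂μ
      = (∑ k, P.c k u x * ∫ ω, F2 (P.s k) (P.r k) ω ∂μ).re := by
    have := Complex.reCLM.integral_comp_comm i2
    simp only [Complex.reCLM_apply] at this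
    rw [this, integral_finsetSum _ fun k _ => (h2 _ _).const_mul _]
    simp only [integral_const_mul]
  have e1 : ∫ ω, (∑ k, ∑ l, (starRingEnd ℂ (P.c k u x) * P.c l u x)
      * F1 (P.s l - P.s k) (P.r l - P.r k) ω).re ∂μ
      = (∑ k, ∑ l, (starRingEnd ℂ (P.c k u x) * P.c l u x)
        * ∫ ω, F1 (P.s l - P.s k) (P.r l - P.r k) ω ∂μ).re := by
    have := Complex.reCLM.integral_comp_comm i1
    simp only [Complex.reCLM_apply] at this
    rw [this, integral_finsetSum _ fun k _ => integrable_finsetSum _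
      fun l _ => (h1 _ _).const_mul _]
    congr 1
    refine Finset.sum_congr rfl fun k _ => ?_
    rw [integral_finsetSum _ fun l _ => (h1 _ _).const_mul _]
    simp only [integral_const_mul]
  rw [e1, e2]

theorem s7t2_comb_sub_le (P : Tst) (u x : ℝ) (K1 K2 K1' K2' : ℝ → ℝ → ℂ) :
    |s7t2Comb P u x K1 K2 - s7t2Comb P u x K1' K2'|
      ≤ 2 * ∑ k, ‖P.c k u x‖ * ‖K2 (P.s k) (P.r k) - K2' (P.s k) (P.r k)‖
        + 4 * ∑ k, ∑ l, ‖P.c k u x‖ * ‖P.c l u x‖
          * ‖K1 (P.s l - P.s k) (P.r l - P.r k) - K1' (P.s l - P.s k) (P.r l - P.r k)‖ := by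
  unfold s7t2Comb
  have e : 2 * (∑ k, P.c k u x * K2 (P.s k) (P.r k)).re
      - 4 * (∑ k, ∑ l, (starRingEnd ℂ (P.c k u x) * P.c l u x)
        * K1 (P.s l - P.s k) (P.r l - P.r k)).re
      - (2 * (∑ k, P.c k u x * K2' (P.s k) (P.r k)).re
      - 4 * (∑ k, ∑ l, (starRingEnd ℂ (P.c k u x) * P.c l u x)
        * K1' (P.s l - P.s k) (P.r l - P.r k)).re)
      = 2 * (∑ k, P.c k u x * (K2 (P.s k) (P.r k) - K2' (P.s k) (P.r k))).re
        - 4 * (∑ k, ∑ l, (starRingEnd ℂ (P.c k u x) * P.c l u x)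
          * (K1 (P.s l - P.s k) (P.r l - P.r k) - K1' (P.s l - P.s k) (P.r l - P.r k))).re := by
    simp only [mul_sub, Finset.sum_sub_distrib, Complex.sub_re]
    ring
  rw [e]
  have b2 : |(∑ k, P.c k u x * (K2 (P.s k) (P.r k) - K2' (P.s k) (P.r k))).re|
      ≤ ∑ k, ‖P.c k u x‖ * ‖K2 (P.s k) (P.r k) - K2' (P.s k) (P.r k)‖ := by
    refine (Complex.abs_re_le_norm _).trans ((norm_sum_le _ _).trans ?_)
    exact Finset.sum_le_sum fun k _ => (norm_mul _ _).le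
  have b1 : |(∑ k, ∑ l, (starRingEnd ℂ (P.c k u x) * P.c l u x)
          * (K1 (P.s l - P.s k) (P.r l - P.r k) - K1' (P.s l - P.s k) (P.r l - P.r k))).re|
      ≤ ∑ k, ∑ l, ‖P.c k u x‖ * ‖P.c l u x‖
          * ‖K1 (P.s l - P.s k) (P.r l - P.r k) - K1' (P.s l - P.s k) (P.r l - P.r k)‖ := by
    refine (Complex.abs_re_le_norm _).trans ((norm_sum_le _ _).trans ?_)
    refine Finset.sum_le_sum fun k _ => (norm_sum_le _ _).trans ?_
    refine Finset.sum_le_sum fun l _ => ?_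
    rw [norm_mul, norm_mul, RCLike.norm_conj]
  calc _ ≤ |2 * (∑ k, P.c k u x * (K2 (P.s k) (P.r k) - K2' (P.s k) (P.r k))).re|
        + |4 * (∑ k, ∑ l, (starRingEnd ℂ (P.c k u x) * P.c l u x)
          * (K1 (P.s l - P.s k) (P.r l - P.r k) - K1' (P.s l - P.s k) (P.r l - P.r k))).re| :=
        abs_sub _ _
    _ ≤ _ := by
        rw [abs_mul, abs_mul, abs_of_pos (by norm_num : (0 : ℝ) < 2),
          abs_of_pos (by norm_num : (0 : ℝ) < 4)]
        exact add_le_add (mul_le_mul_of_nonneg_left b2 (by norm_num))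
          (mul_le_mul_of_nonneg_left b1 (by norm_num))

theorem s7t2_comb_zero (P : Tst) (u x : ℝ) : s7t2Comb P u x (fun _ _ => 0) (fun _ _ => 0) = 0 := by
  simp [s7t2Comb]

theorem s7t2_comb_of_c_zero (P : Tst) {u x : ℝ} (h : ∀ k, P.c k u x = 0) (K1 K2 : ℝ → ℝ → ℂ) :
    s7t2Comb P u x K1 K2 = 0 := by
  simp [s7t2Comb, h]

theorem s7t2_comb_abs_le (P : Tst) {u x C M1 M2 : ℝ} (hC0 : 0 ≤ C) (hC : ∀ k, ‖P.c k u x‖ ≤ C)
    {K1 K2 : ℝ → ℝ → ℂ} (h1 : ∀ s r, ‖K1 s r‖ ≤ M1) (h2 : ∀ s r, ‖K2 s r‖ ≤ M2) :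
    |s7t2Comb P u x K1 K2| ≤ 2 * (P.K * (C * M2)) + 4 * (P.K * (P.K * (C * C * M1))) := by
  have h := s7t2_comb_sub_le P u x K1 K2 (fun _ _ => 0) (fun _ _ => 0)
  rw [s7t2_comb_zero, sub_zero] at h
  simp only [sub_zero] at h
  refine h.trans (add_le_add (mul_le_mul_of_nonneg_left ?_ (by norm_num))
    (mul_le_mul_of_nonneg_left ?_ (by norm_num)))
  · calc ∑ k, ‖P.c k u x‖ * ‖K2 (P.s k) (P.r k)‖ ≤ ∑ _k : Fin P.K, C * M2 :=
          Finset.sum_le_sum fun k _ => mul_le_mul (hC k) (h2 _ _) (norm_nonneg _) hC0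
      _ = P.K * (C * M2) := by simp
  · calc ∑ k, ∑ l, ‖P.c k u x‖ * ‖P.c l u x‖ * ‖K1 (P.s l - P.s k) (P.r l - P.r k)‖
        ≤ ∑ _k : Fin P.K, ∑ _l : Fin P.K, C * C * M1 :=
          Finset.sum_le_sum fun k _ => Finset.sum_le_sum fun l _ =>
            mul_le_mul (mul_le_mul (hC k) (hC l) (norm_nonneg _) hC0) (h1 _ _) (norm_nonneg _)
              (mul_nonneg hC0 hC0)
      _ = P.K * (P.K * (C * C * M1)) := by simp

theorem s7t2_comb_measurable (P : Tst) {K1 K2 : ℝ × ℝ → ℝ → ℝ → ℂ}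
    (h1 : ∀ s r, Measurable fun p => K1 p s r) (h2 : ∀ s r, Measurable fun p => K2 p s r) :
    Measurable fun p : ℝ × ℝ => s7t2Comb P p.1 p.2 (K1 p) (K2 p) := by
  unfold s7t2Comb
  have hc : ∀ k, Measurable fun p : ℝ × ℝ => P.c k p.1 p.2 := fun k => (P.c_cont k).measurable
  have hcc : ∀ k, Measurable fun p : ℝ × ℝ => starRingEnd ℂ (P.c k p.1 p.2) := fun k =>
    (Complex.continuous_conj.comp (P.c_cont k)).measurable
  refine Measurable.sub (Measurable.const_mul (Complex.measurable_re.comp ?_) _)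
    (Measurable.const_mul (Complex.measurable_re.comp ?_) _)
  · exact Finset.measurable_fun_sum _ fun k _ => (hc k).mul (h2 _ _)
  · exact Finset.measurable_fun_sum _ fun k _ => Finset.measurable_fun_sum _ fun l _ =>
      ((hcc k).mul (hc l)).mul (h1 _ _)

/-- ABSTRACT UNIFORMISATION: pointwise `ε`-`δ` + uniform bound => integrated `ε`-`δ`. -/
theorem s7t2_unif {α : Type*} [MeasurableSpace α] (μ : Measure α) [IsFiniteMeasure μ]
    (S : ℝ → Set (α → ℝ)) (hmono : ∀ δ δ', δ ≤ δ' → S δ ⊆ S δ') (C : ℝ)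
    (hmeas : ∀ f ∈ S 1, AEStronglyMeasurable f μ)
    (hbd : ∀ f ∈ S 1, ∀ᵐ a ∂μ, |f a| ≤ C)
    (hpt : ∀ᵐ a ∂μ, ∀ ε : ℝ, 0 < ε → ∃ δ : ℝ, 0 < δ ∧ ∀ f ∈ S δ, |f a| ≤ ε) :
    ∀ ε : ℝ, 0 < ε → ∃ δ : ℝ, 0 < δ ∧ ∀ f ∈ S δ, |∫ a, f a ∂μ| ≤ ε := by
  intro ε hε
  by_contra hcon
  push Not at hcon
  have hδ : ∀ m : ℕ, (0 : ℝ) < 1 / ((m : ℝ) + 1) := fun m => by positivity
  choose f hfS hfε using fun m : ℕ => hcon (1 / ((m : ℝ) + 1)) (hδ m)
  have hf1 : ∀ m, f m ∈ S 1 := fun m => hmono _ _ (by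
    rw [div_le_one (by positivity)]
    have : (0 : ℝ) ≤ m := Nat.cast_nonneg m
    linarith) (hfS m)
  have hlim : Filter.Tendsto (fun m => ∫ a, f m a ∂μ) Filter.atTop (nhds (∫ _a, (0 : ℝ) ∂μ)) := by
    refine tendsto_integral_of_dominated_convergence (fun _ => C) (fun m => hmeas _ (hf1 m))
      (integrable_const C) (fun m => ?_) ?_
    · filter_upwards [hbd _ (hf1 m)] with a ha
      rwa [Real.norm_eq_abs]
    · filter_upwards [hpt] with a ha
      rw [Metric.tendsto_atTop]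
      intro ε' hε'
      obtain ⟨δ, hδ0, hδf⟩ := ha (ε' / 2) (by positivity)
      obtain ⟨N, hN⟩ := exists_nat_one_div_lt hδ0
      refine ⟨N, fun m hm => ?_⟩
      have hle : 1 / ((m : ℝ) + 1) ≤ δ := by
        refine le_trans ?_ hN.le
        apply one_div_le_one_div_of_le (by positivity)
        have : (N : ℝ) ≤ m := Nat.cast_le.2 hm
        linarith
      have := hδf _ (hmono _ _ hle (hfS m))
      rw [Real.dist_eq, sub_zero]
      linarith
  rw [integral_zero, Metric.tendsto_atTop] at hlim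
  obtain ⟨N, hN⟩ := hlim ε hε
  have := hN N le_rfl
  rw [Real.dist_eq, sub_zero] at this
  exact absurd (hfε N) (not_lt.2 this.le)

end Claimed.Agent.R259
end

/- ===== packed: Claimed.Agent.R259.S7LawTopB ===== -/
section
/-
Row 259 (S0499), section 7, trace law, package L-S7-LAW-TOP, part B: pointwise matrix algebra
(expansion of the pay-off of a test into characters) and pointwise bounds.  Owner: helper236.
-/
set_option autoImplicit false

open MeasureTheory ProbabilityTheory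
open scoped BigOperators Matrix
open Claimed.Agent.R260 (Mx mxFun mxSchur mxSq mxIP mxEig mxU mxRot)

namespace Claimed.Agent.R259

variable {n : ℕ}

theorem s7t2_toC_comm_cE {W Bm : Mx n} (hB : Bm.IsSymm) (hBW : Bm * W = W * Bm) (r : ℝ) :
    toC W * cE r Bm = cE r Bm * toC W := by
  unfold cE
  refine mxFunC_commute _ hB ?_
  rw [← toC_mul, ← toC_mul, hBW]

theorem s7t2_comm_aux {a v N : CMx n} (h : a * v = v * a) : a * (a * (v * N)) = v * (a * a * N) := by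
  calc a * (a * (v * N)) = a * ((a * v) * N) := by rw [Matrix.mul_assoc]
    _ = a * ((v * a) * N) := by rw [h]
    _ = (a * v) * (a * N) := by simp only [Matrix.mul_assoc]
    _ = (v * a) * (a * N) := by rw [h]
    _ = v * (a * a * N) := by simp only [Matrix.mul_assoc]

/-- the key trace identity -/
theorem s7t2_trace_key {W A Bm : Mx n} (hW : W.IsSymm) (hB : Bm.IsSymm)
    (hBW : Bm * W = W * Bm) (s r s' r' : ℝ) :
    Matrix.trace ((cE s A * cE r Bm * toC W)ᴴ * (cE s' A * cE r' Bm * toC W))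
      = Matrix.trace (toC (W * W) * cE (s' - s) A * cE (r' - r) Bm) := by
  have hWc : (toC W)ᴴ = toC W := by rw [toC_conjTranspose, hW.eq]
  have hc := s7t2_toC_comm_cE hB hBW (-r)
  have eU : cE (-s) A * cE s' A = cE (s' - s) A := by
    rw [← cE_add]; congr 1; ring
  have eV : cE r' Bm * cE (-r) Bm = cE (r' - r) Bm := by
    rw [← cE_add]; congr 1
  rw [Matrix.conjTranspose_mul, Matrix.conjTranspose_mul, hWc, cE_conjTranspose, cE_conjTranspose]
  calc Matrix.trace (toC W * (cE (-r) Bm * cE (-s) A) * (cE s' A * cE r' Bm * toC W))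
      = Matrix.trace ((toC W * (cE (-r) Bm * (cE (-s) A * cE s' A) * cE r' Bm)) * toC W) := by
        simp only [Matrix.mul_assoc]
    _ = Matrix.trace (toC W * (toC W * (cE (-r) Bm * (cE (-s) A * cE s' A) * cE r' Bm))) :=
        Matrix.trace_mul_comm _ _
    _ = Matrix.trace (cE (-r) Bm * (toC W * toC W * (cE (-s) A * cE s' A) * cE r' Bm)) := by
        congr 1
        rw [Matrix.mul_assoc (cE (-r) Bm), s7t2_comm_aux hc, Matrix.mul_assoc (toC W * toC W)]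
    _ = Matrix.trace ((toC W * toC W * (cE (-s) A * cE s' A) * cE r' Bm) * cE (-r) Bm) :=
        Matrix.trace_mul_comm _ _
    _ = _ := by
        rw [Matrix.mul_assoc _ (cE r' Bm), eV, eU, toC_mul]

/-- POINTWISE EXPANSION of the pay-off into characters -/
theorem s7t2_pt (P : Tst) (u x : ℝ) {W A Bm : Mx n} (X : Mx n) (hW : W.IsSymm) (hB : Bm.IsSymm)
    (hBW : Bm * W = W * Bm) :
    2 * (Matrix.trace (toC X * ∑ k, P.c k u x • (cE (P.s k) A * cE (P.r k) Bm))).re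
      - 4 * cSq ((∑ k, P.c k u x • (cE (P.s k) A * cE (P.r k) Bm)) * toC W)
    = s7t2Comb P u x (fun s r => Matrix.trace (toC (W * W) * cE s A * cE r Bm))
        (fun s r => Matrix.trace (toC X * cE s A * cE r Bm)) := by
  unfold s7t2Comb
  congr 2
  · congr 1
    rw [Matrix.mul_sum, Matrix.trace_sum]
    refine Finset.sum_congr rfl fun k _ => ?_
    rw [Matrix.mul_smul, Matrix.trace_smul, smul_eq_mul]
    simp only [Matrix.mul_assoc]
  · rw [cSq_eq_trace]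
    congr 1
    rw [Matrix.sum_mul, Matrix.conjTranspose_sum, Matrix.sum_mul, Matrix.trace_sum]
    refine Finset.sum_congr rfl fun k _ => ?_
    rw [Matrix.mul_sum, Matrix.trace_sum]
    refine Finset.sum_congr rfl fun l _ => ?_
    rw [Matrix.smul_mul, Matrix.smul_mul, Matrix.conjTranspose_smul, Matrix.smul_mul,
      Matrix.mul_smul, Matrix.trace_smul, Matrix.trace_smul, s7t2_trace_key hW hB hBW,
      smul_eq_mul, smul_eq_mul, ← mul_assoc]
    rfl

/-- bound for the integrand of `J1` -/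
theorem s7t2_F1_le (W A Bm : Mx n) (s r : ℝ) :
    ‖Matrix.trace (toC (W * W) * cE s A * cE r Bm)‖ ≤ mxSq W := by
  rw [toC_mul, Matrix.mul_assoc, Matrix.mul_assoc]
  refine (cSq_trace_mul_le _ _).trans ?_
  rw [← Matrix.mul_assoc, cSq_mul_unitary _ (cE_mul_conjTranspose r Bm),
    cSq_mul_unitary _ (cE_mul_conjTranspose s A), cSq_toC,
    Real.mul_self_sqrt (Claimed.Agent.R260.mxSq_nonneg W)]

/-- bound for the integrand of `J2` -/
theorem s7t2_F2_le (W Y A Bm : Mx n) (s r : ℝ) :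
    ‖Matrix.trace (toC (W * W * Y) * cE s A * cE r Bm)‖ ≤ (mxSq W + mxSq (W * Y)) / 2 := by
  rw [Matrix.mul_assoc W W Y, toC_mul, Matrix.mul_assoc, Matrix.mul_assoc]
  refine (cSq_trace_mul_le _ _).trans ?_
  rw [← Matrix.mul_assoc, cSq_mul_unitary _ (cE_mul_conjTranspose r Bm),
    cSq_mul_unitary _ (cE_mul_conjTranspose s A), cSq_toC, cSq_toC]
  have h1 := Real.sq_sqrt (Claimed.Agent.R260.mxSq_nonneg W)
  have h2 := Real.sq_sqrt (Claimed.Agent.R260.mxSq_nonneg (W * Y))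
  nlinarith [sq_nonneg (Real.sqrt (mxSq W) - Real.sqrt (mxSq (W * Y)))]

end Claimed.Agent.R259
end

/- ===== packed: Claimed.Agent.R259.S7LawTopC ===== -/
section
/-
Row 259 (S0499), section 7, trace law, package L-S7-LAW-TOP, part C: the matrix side.
Integrands of `J1`, `J2`: joint measurability, integrability, uniform bounds.  Owner: helper236.
-/
set_option autoImplicit false
set_option linter.unusedVariables false

open MeasureTheory ProbabilityTheory
open scoped BigOperators Matrix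
open Claimed.Agent.R260 (Mx mxFun mxSchur mxSq mxIP mxEig mxU mxRot)

namespace Claimed.Agent.R259

variable {n : ℕ} {D : Type} [MeasurableSpace D] {Q : Measure D} (B : BlockModel n Q)

/-- the law of `w = (N, G', G)` -/
noncomputable abbrev s7t2G (n : ℕ) : Measure (EE n × EE n × EE n) :=
  (gam n).prod ((gam n).prod (gam n))

/-- integrand of `J1` -/
noncomputable def s7t2F1 (t L u x s r : ℝ) (d : D) (w : EE n × EE n × EE n) : ℂ :=
  Matrix.trace (toC (B.Rs d * B.Rs d) * cE s (colAt (B.H d) (ouV u w.1 w.2.1))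
    * cE r (colAt (B.H d) (mv (mxFun (gx t L x) (colAt (B.H d) w.1)) w.2.2)))

/-- integrand of `J2` -/
noncomputable def s7t2F2 (t L u x s r : ℝ) (d : D) (w : EE n × EE n × EE n) : ℂ :=
  Matrix.trace (toC (B.Rs d * B.Rs d
      * colAt (B.H d) (w.1 - Real.exp (-u) • ouV u w.1 w.2.1))
    * cE s (colAt (B.H d) (ouV u w.1 w.2.1))
    * cE r (colAt (B.H d) (mv (mxFun (gx t L x) (colAt (B.H d) w.1)) w.2.2)))

theorem s7t2c_eqns_cite : True := by
  have := @s7t2G.eq_1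
  have := @s7t2F1.eq_1
  have := @s7t2F2.eq_1
  trivial

theorem s7t2_J1_eq (t L u x s r : ℝ) :
    B.J1 t L u x s r = ∫ d, ∫ w, s7t2F1 B t L u x s r d w ∂(s7t2G n) ∂Q := rfl

theorem s7t2_J2_eq (t L u x s r : ℝ) :
    B.J2 t L u x s r = ∫ d, ∫ w, s7t2F2 B t L u x s r d w ∂(s7t2G n) ∂Q := rfl

/-! ### measurability -/

section meas

variable {S : Type} [MeasurableSpace S]

theorem s7t2_meas_U {u : S → ℝ} {d : S → D} {w : S → EE n × EE n × EE n} (hu : Measurable u)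
    (hd : Measurable d) (hw : Measurable w) (s : ℝ) :
    ∀ a b, Measurable fun σ => cE s (colAt (B.H (d σ)) (ouV (u σ) (w σ).1 (w σ).2.1)) a b :=
  s7v_meas_cE s (s7v_meas_HAt B hd (s7v_meas_ouV hu hw.fst hw.snd.fst))
    (fun σ => s7v_colAt_symm B _ _)

theorem s7t2_meas_V (t : ℝ) {L : ℝ} (hL : 0 < L) {x : S → ℝ} {d : S → D}
    {w : S → EE n × EE n × EE n} (hx : Measurable x)
    (hd : Measurable d) (hw : Measurable w) (r : ℝ) :
    ∀ a b, Measurable fun σ => cE r (colAt (B.H (d σ))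
      (mv (mxFun (gx t L |x σ|) (colAt (B.H (d σ)) (w σ).1)) (w σ).2.2)) a b :=
  s7v_meas_cE r (s7v_meas_HAt B hd (s7v_meas_mv
    (s7v_meas_gx t hL hx (s7v_meas_HAt B hd hw.fst) (fun σ => s7v_colAt_symm B _ _)) hw.snd.snd))
    (fun σ => s7v_colAt_symm B _ _)

theorem s7t2_F1_meas (t : ℝ) {L : ℝ} (hL : 0 < L) {u x : S → ℝ} {d : S → D}
    {w : S → EE n × EE n × EE n} (hu : Measurable u) (hx : Measurable x)
    (hd : Measurable d) (hw : Measurable w) (s r : ℝ) :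
    Measurable fun σ => s7t2F1 B t L (u σ) |x σ| s r (d σ) (w σ) := by
  unfold s7t2F1
  exact s7v_meas_traceC (s7v_meas_mulC (s7v_meas_mulC
    (s7v_meas_toC (s7v_meas_mul (s7v_meas_Rs B hd) (s7v_meas_Rs B hd)))
    (s7t2_meas_U B hu hd hw s)) (s7t2_meas_V B t hL hx hd hw r))

theorem s7t2_F2_meas (t : ℝ) {L : ℝ} (hL : 0 < L) {u x : S → ℝ} {d : S → D}
    {w : S → EE n × EE n × EE n} (hu : Measurable u) (hx : Measurable x)
    (hd : Measurable d) (hw : Measurable w) (s r : ℝ) :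
    Measurable fun σ => s7t2F2 B t L (u σ) |x σ| s r (d σ) (w σ) := by
  unfold s7t2F2
  exact s7v_meas_traceC (s7v_meas_mulC (s7v_meas_mulC
    (s7v_meas_toC (s7v_meas_mul (s7v_meas_mul (s7v_meas_Rs B hd) (s7v_meas_Rs B hd))
      (s7v_meas_HAt B hd (s7v_meas_v hu hw.fst hw.snd.fst))))
    (s7t2_meas_U B hu hd hw s)) (s7t2_meas_V B t hL hx hd hw r))

end meas

/-! ### integration in `w` at fixed `d` -/

theorem s7t2_F1_meas_w (t : ℝ) {L : ℝ} (hL : 0 < L) (u : ℝ) {x : ℝ} (hx : 0 ≤ x) (s r : ℝ) (d : D) :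
    Measurable (s7t2F1 B t L u x s r d) := by
  have := s7t2_F1_meas B t hL (S := EE n × EE n × EE n) (u := fun _ => u) (x := fun _ => x)
    (d := fun _ => d) (w := id) measurable_const measurable_const measurable_const measurable_id s r
  simpa only [abs_of_nonneg hx, id] using this

theorem s7t2_F2_meas_w (t : ℝ) {L : ℝ} (hL : 0 < L) (u : ℝ) {x : ℝ} (hx : 0 ≤ x) (s r : ℝ) (d : D) :
    Measurable (s7t2F2 B t L u x s r d) := by
  have := s7t2_F2_meas B t hL (S := EE n × EE n × EE n) (u := fun _ => u) (x := fun _ => x)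
    (d := fun _ => d) (w := id) measurable_const measurable_const measurable_const measurable_id s r
  simpa only [abs_of_nonneg hx, id] using this

theorem s7t2_F1_int (t : ℝ) {L : ℝ} (hL : 0 < L) (u : ℝ) {x : ℝ} (hx : 0 ≤ x) (s r : ℝ) (d : D) :
    Integrable (s7t2F1 B t L u x s r d) (s7t2G n) :=
  Integrable.mono' (integrable_const (mxSq (B.Rs d)))
    (s7t2_F1_meas_w B t hL u hx s r d).aestronglyMeasurable
    (Filter.Eventually.of_forall fun w => s7t2_F1_le _ _ _ _ _)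

theorem s7t2_F1_norm (t L u x s r : ℝ) (d : D) :
    ‖∫ w, s7t2F1 B t L u x s r d w ∂(s7t2G n)‖ ≤ mxSq (B.Rs d) := by
  have := norm_integral_le_of_norm_le_const (μ := s7t2G n) (f := s7t2F1 B t L u x s r d)
    (C := mxSq (B.Rs d)) (Filter.Eventually.of_forall fun w => s7t2_F1_le _ _ _ _ _)
  simpa using this

/-- the constant in the bound of `J2` -/
noncomputable def s7t2cU (u : ℝ) : ℝ :=
  (1 + 8 * ((1 - Real.exp (-u) ^ 2) ^ 2
    + (Real.exp (-u) * Real.sqrt (1 - Real.exp (-u) ^ 2)) ^ 2)) / 2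

theorem s7t2c_eqns_cite2 : True := by
  have := @s7t2cU.eq_1
  trivial

theorem s7t2_cU_le {u : ℝ} (hu : 0 ≤ u) : s7t2cU u ≤ 17 / 2 := by
  unfold s7t2cU
  have h0 : 0 < Real.exp (-u) := Real.exp_pos _
  have h1 : Real.exp (-u) ≤ 1 := Real.exp_le_one_iff.2 (by linarith)
  have h2 : Real.exp (-u) ^ 2 ≤ 1 := pow_le_one₀ h0.le h1
  have h3 : 0 ≤ 1 - Real.exp (-u) ^ 2 := by linarith
  have h4 : (1 - Real.exp (-u) ^ 2) ^ 2 ≤ 1 := pow_le_one₀ h3 (by nlinarith)
  have h5 : (Real.exp (-u) * Real.sqrt (1 - Real.exp (-u) ^ 2)) ^ 2 ≤ 1 := by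
    rw [mul_pow, Real.sq_sqrt h3]
    nlinarith
  linarith

theorem s7t2_cU_nonneg (u : ℝ) : 0 ≤ s7t2cU u := by
  unfold s7t2cU
  positivity

theorem s7t2_colAt_mul (H : Fin n → Mx n) (W : Mx n) (v : EE n) :
    colAt (fun i => H i * W) v = colAt H v * W := by
  unfold colAt
  rw [Finset.sum_mul]
  exact Finset.sum_congr rfl fun i _ => (Matrix.smul_mul _ _ _).symm

theorem s7t2_v_eq (u : ℝ) (a b : EE n) :
    a - Real.exp (-u) • ouV u a b = (1 - Real.exp (-u) ^ 2) • a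
      - (Real.exp (-u) * Real.sqrt (1 - Real.exp (-u) ^ 2)) • b := by
  unfold ouV
  module

/-- pointwise domination of the integrand of `J2` -/
theorem s7t2_F2_dom (t L u x s r : ℝ) (d : D) (w : EE n × EE n × EE n) :
    ‖s7t2F2 B t L u x s r d w‖ ≤ (mxSq (B.Rs d)
      + (2 * (1 - Real.exp (-u) ^ 2) ^ 2 * mxSq (colAt (fun i => B.H d i * B.Rs d) w.1)
        + 2 * (Real.exp (-u) * Real.sqrt (1 - Real.exp (-u) ^ 2)) ^ 2
          * mxSq (colAt (fun i => B.H d i * B.Rs d) w.2.1))) / 2 := by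
  unfold s7t2F2
  refine (s7t2_F2_le _ _ _ _ _ _).trans ?_
  have e : B.Rs d * colAt (B.H d) (w.1 - Real.exp (-u) • ouV u w.1 w.2.1)
      = (1 - Real.exp (-u) ^ 2) • colAt (fun i => B.H d i * B.Rs d) w.1
        - (Real.exp (-u) * Real.sqrt (1 - Real.exp (-u) ^ 2))
          • colAt (fun i => B.H d i * B.Rs d) w.2.1 := by
    rw [← s7v_colAt_comm, ← s7t2_colAt_mul, s7t2_v_eq, s7v_colAt_sub, s7v_colAt_smul,
      s7v_colAt_smul]
  rw [e]
  have h := hs2_sub_le ((1 - Real.exp (-u) ^ 2) • colAt (fun i => B.H d i * B.Rs d) w.1)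
    ((Real.exp (-u) * Real.sqrt (1 - Real.exp (-u) ^ 2))
          • colAt (fun i => B.H d i * B.Rs d) w.2.1)
  rw [hs2_smul, hs2_smul, ← mxSq_eq_hs2, ← mxSq_eq_hs2, ← mxSq_eq_hs2] at h
  linarith

theorem s7t2_dom_int (u : ℝ) (W : Mx n) (M : Fin n → Mx n) :
    Integrable (fun w : EE n × EE n × EE n => (mxSq W
      + (2 * (1 - Real.exp (-u) ^ 2) ^ 2 * mxSq (colAt M w.1)
        + 2 * (Real.exp (-u) * Real.sqrt (1 - Real.exp (-u) ^ 2)) ^ 2
          * mxSq (colAt M w.2.1))) / 2) (s7t2G n) ∧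
    ∫ w : EE n × EE n × EE n, (mxSq W
      + (2 * (1 - Real.exp (-u) ^ 2) ^ 2 * mxSq (colAt M w.1)
        + 2 * (Real.exp (-u) * Real.sqrt (1 - Real.exp (-u) ^ 2)) ^ 2
          * mxSq (colAt M w.2.1))) / 2 ∂(s7t2G n)
      = (mxSq W + (2 * (1 - Real.exp (-u) ^ 2) ^ 2 * ∑ i, mxSq (M i)
        + 2 * (Real.exp (-u) * Real.sqrt (1 - Real.exp (-u) ^ 2)) ^ 2 * ∑ i, mxSq (M i))) / 2 := by
  obtain ⟨hf, hfe⟩ := s7_avg_sq M
  have i1 : Integrable (fun w : EE n × EE n × EE n => mxSq (colAt M w.1)) (s7t2G n) :=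
    hf.comp_fst _
  have i2 : Integrable (fun w : EE n × EE n × EE n => mxSq (colAt M w.2.1)) (s7t2G n) :=
    (hf.comp_fst (gam n)).comp_snd (gam n)
  have e1 : ∫ w : EE n × EE n × EE n, mxSq (colAt M w.1) ∂(s7t2G n) = ∑ i, mxSq (M i) := by
    rw [integral_fun_fst (fun G => mxSq (colAt M G)), hfe]
    simp
  have e2 : ∫ w : EE n × EE n × EE n, mxSq (colAt M w.2.1) ∂(s7t2G n) = ∑ i, mxSq (M i) := by
    rw [integral_fun_snd (fun y : EE n × EE n => mxSq (colAt M y.1)),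
      integral_fun_fst (fun G => mxSq (colAt M G)), hfe]
    simp
  have j1 := i1.const_mul (2 * (1 - Real.exp (-u) ^ 2) ^ 2)
  have j2 := i2.const_mul (2 * (Real.exp (-u) * Real.sqrt (1 - Real.exp (-u) ^ 2)) ^ 2)
  have j0 : Integrable (fun _ : EE n × EE n × EE n => mxSq W) (s7t2G n) := integrable_const _
  have j12 : Integrable (fun w : EE n × EE n × EE n =>
      2 * (1 - Real.exp (-u) ^ 2) ^ 2 * mxSq (colAt M w.1)
        + 2 * (Real.exp (-u) * Real.sqrt (1 - Real.exp (-u) ^ 2)) ^ 2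
          * mxSq (colAt M w.2.1)) (s7t2G n) := j1.add j2
  refine ⟨(j0.add j12).div_const 2, ?_⟩
  rw [integral_div, integral_add j0 j12, integral_add j1 j2, integral_const_mul,
    integral_const_mul, e1, e2, integral_const]
  simp

theorem s7t2_F2_int (t : ℝ) {L : ℝ} (hL : 0 < L) (u : ℝ) {x : ℝ} (hx : 0 ≤ x) (s r : ℝ) (d : D) :
    Integrable (s7t2F2 B t L u x s r d) (s7t2G n) :=
  Integrable.mono' (s7t2_dom_int u (B.Rs d) (fun i => B.H d i * B.Rs d)).1
    (s7t2_F2_meas_w B t hL u hx s r d).aestronglyMeasurable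
    (Filter.Eventually.of_forall fun w => s7t2_F2_dom B t L u x s r d w)

theorem s7t2_F2_norm (t L u x s r : ℝ) (d : D) :
    ‖∫ w, s7t2F2 B t L u x s r d w ∂(s7t2G n)‖ ≤ s7t2cU u * mxSq (B.Rs d) := by
  obtain ⟨hi, he⟩ := s7t2_dom_int u (B.Rs d) (fun i => B.H d i * B.Rs d)
  have h1 := norm_integral_le_of_norm_le hi
    (Filter.Eventually.of_forall fun w => s7t2_F2_dom B t L u x s r d w)
  rw [he] at h1
  refine h1.trans ?_
  have hcol := s6k_col_mxSq (s6k_ColB_of_psd (B.H_symm d) (B.col d)) (B.Rs d)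
  unfold s7t2cU
  have a0 : 0 ≤ (1 - Real.exp (-u) ^ 2) ^ 2 := sq_nonneg _
  have b0 : 0 ≤ (Real.exp (-u) * Real.sqrt (1 - Real.exp (-u) ^ 2)) ^ 2 := sq_nonneg _
  nlinarith [mul_le_mul_of_nonneg_left hcol a0, mul_le_mul_of_nonneg_left hcol b0]

end Claimed.Agent.R259
end

/- ===== packed: Claimed.Agent.R259.S7LawTopD ===== -/
section
/-
Row 259 (S0499), section 7, trace law, package L-S7-LAW-TOP, part D: the matrix side, integration
over the initial data; expansion of `mInt` into `J1`, `J2`; bounds, measurability, support.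
Owner: helper236.
-/
set_option autoImplicit false
set_option linter.unusedVariables false

open MeasureTheory ProbabilityTheory
open scoped BigOperators Matrix
open Claimed.Agent.R260 (Mx mxFun mxSchur mxSq mxIP mxEig mxU mxRot)

namespace Claimed.Agent.R259

variable {n : ℕ} {D : Type} [MeasurableSpace D] {Q : Measure D} (B : BlockModel n Q)

theorem s7t2_G1_sm (t : ℝ) {L : ℝ} (hL : 0 < L) (s r : ℝ) :
    StronglyMeasurable fun q : (ℝ × ℝ) × D =>
      ∫ w, s7t2F1 B t L q.1.1 |q.1.2| s r q.2 w ∂(s7t2G n) := by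
  have hm : Measurable fun q : ((ℝ × ℝ) × D) × (EE n × EE n × EE n) =>
      s7t2F1 B t L q.1.1.1 |q.1.1.2| s r q.1.2 q.2 :=
    s7t2_F1_meas B t hL measurable_fst.fst.fst measurable_fst.fst.snd measurable_fst.snd
      measurable_snd s r
  exact hm.stronglyMeasurable.integral_prod_right'

theorem s7t2_G2_sm (t : ℝ) {L : ℝ} (hL : 0 < L) (s r : ℝ) :
    StronglyMeasurable fun q : (ℝ × ℝ) × D =>
      ∫ w, s7t2F2 B t L q.1.1 |q.1.2| s r q.2 w ∂(s7t2G n) := by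
  have hm : Measurable fun q : ((ℝ × ℝ) × D) × (EE n × EE n × EE n) =>
      s7t2F2 B t L q.1.1.1 |q.1.1.2| s r q.1.2 q.2 :=
    s7t2_F2_meas B t hL measurable_fst.fst.fst measurable_fst.fst.snd measurable_fst.snd
      measurable_snd s r
  exact hm.stronglyMeasurable.integral_prod_right'

theorem s7t2_G1_int (t : ℝ) {L : ℝ} (hL : 0 < L) (u : ℝ) {x : ℝ} (hx : 0 ≤ x) (s r : ℝ) :
    Integrable (fun d => ∫ w, s7t2F1 B t L u x s r d w ∂(s7t2G n)) Q := by
  have hm := (s7t2_G1_sm B t hL s r).comp_measurable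
    (measurable_prodMk_left (x := ((u, x) : ℝ × ℝ)) (β := D))
  have hm' : StronglyMeasurable fun d => ∫ w, s7t2F1 B t L u x s r d w ∂(s7t2G n) := by
    simpa only [Function.comp_def, abs_of_nonneg hx] using hm
  exact Integrable.mono' B.Rs_int hm'.aestronglyMeasurable
    (Filter.Eventually.of_forall fun d => s7t2_F1_norm B t L u x s r d)

theorem s7t2_G2_int (t : ℝ) {L : ℝ} (hL : 0 < L) (u : ℝ) {x : ℝ} (hx : 0 ≤ x) (s r : ℝ) :
    Integrable (fun d => ∫ w, s7t2F2 B t L u x s r d w ∂(s7t2G n)) Q := by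
  have hm := (s7t2_G2_sm B t hL s r).comp_measurable
    (measurable_prodMk_left (x := ((u, x) : ℝ × ℝ)) (β := D))
  have hm' : StronglyMeasurable fun d => ∫ w, s7t2F2 B t L u x s r d w ∂(s7t2G n) := by
    simpa only [Function.comp_def, abs_of_nonneg hx] using hm
  exact Integrable.mono' (B.Rs_int.const_mul (s7t2cU u)) hm'.aestronglyMeasurable
    (Filter.Eventually.of_forall fun d => s7t2_F2_norm B t L u x s r d)

theorem s7t2_J1_norm (t L u x s r : ℝ) : ‖B.J1 t L u x s r‖ ≤ ∫ d, mxSq (B.Rs d) ∂Q := by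
  rw [s7t2_J1_eq]
  exact norm_integral_le_of_norm_le B.Rs_int
    (Filter.Eventually.of_forall fun d => s7t2_F1_norm B t L u x s r d)

theorem s7t2_J2_norm (t L u x s r : ℝ) :
    ‖B.J2 t L u x s r‖ ≤ s7t2cU u * ∫ d, mxSq (B.Rs d) ∂Q := by
  rw [s7t2_J2_eq, ← integral_const_mul]
  exact norm_integral_le_of_norm_le (B.Rs_int.const_mul _)
    (Filter.Eventually.of_forall fun d => s7t2_F2_norm B t L u x s r d)

theorem s7t2_J1_meas [SFinite Q] (t : ℝ) {L : ℝ} (hL : 0 < L) (s r : ℝ) :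
    Measurable fun p : ℝ × ℝ => B.J1 t L p.1 |p.2| s r := by
  simp only [s7t2_J1_eq]
  exact ((s7t2_G1_sm B t hL s r).integral_prod_right' (ν := Q)).measurable

theorem s7t2_J2_meas [SFinite Q] (t : ℝ) {L : ℝ} (hL : 0 < L) (s r : ℝ) :
    Measurable fun p : ℝ × ℝ => B.J2 t L p.1 |p.2| s r := by
  simp only [s7t2_J2_eq]
  exact ((s7t2_G2_sm B t hL s r).integral_prod_right' (ν := Q)).measurable

theorem s7t2_tau_one : B.tau (fun _ => 1) = ∫ d, mxSq (B.Rs d) ∂Q := by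
  unfold BlockModel.tau
  refine integral_congr_ae (Filter.Eventually.of_forall fun d => ?_)
  simp only [Matrix.mul_one]
  unfold Claimed.Agent.R260.mxSq
  rw [(s7v_Rs_symm B d).eq]

theorem s7t2_mass_le {δ : ℝ} (hB : B.Small δ) (hδ : δ ≤ 1) : ∫ d, mxSq (B.Rs d) ∂Q ≤ 2 := by
  have h := hB.mass
  rw [s7t2_tau_one, abs_le] at h
  linarith [h.2]

/-- T1: expansion of `mInt` into characters -/
theorem s7t2_mInt_pos (t : ℝ) {L : ℝ} (hL : 0 < L) (P : Tst) (u : ℝ) {x : ℝ} (hx : 0 ≤ x) :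
    B.mInt t L P u x = s7t2Comb P u x (B.J1 t L u x) (B.J2 t L u x) := by
  have hpt : ∀ d w, (2 * (Matrix.trace (toC (B.Rs d * B.Rs d
          * colAt (B.H d) (w.1 - Real.exp (-u) • ouV u w.1 w.2.1)) * B.xQ t L P u x d w)).re
      - 4 * cSq (B.xQ t L P u x d w * toC (B.Rs d)))
      = s7t2Comb P u x (fun s r => s7t2F1 B t L u x s r d w)
          (fun s r => s7t2F2 B t L u x s r d w) := by
    intro d w
    unfold BlockModel.xQ s7t2F1 s7t2F2
    exact s7t2_pt P u x _ (s7v_Rs_symm B d) (s7v_colAt_symm B d _) (s7v_colAt_comm B d _)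
  unfold BlockModel.mInt
  simp only [hpt]
  have hin : ∀ d, ∫ w, s7t2Comb P u x (fun s r => s7t2F1 B t L u x s r d w)
          (fun s r => s7t2F2 B t L u x s r d w) ∂((gam n).prod ((gam n).prod (gam n)))
      = s7t2Comb P u x (fun s r => ∫ w, s7t2F1 B t L u x s r d w ∂(s7t2G n))
          (fun s r => ∫ w, s7t2F2 B t L u x s r d w ∂(s7t2G n)) := fun d =>
    (s7t2_comb_integral (s7t2G n) P u x (fun s r => s7t2_F1_int B t hL u hx s r d)
      (fun s r => s7t2_F2_int B t hL u hx s r d)).2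
  simp only [hin]
  exact (s7t2_comb_integral Q P u x (fun s r => s7t2_G1_int B t hL u hx s r)
      (fun s r => s7t2_G2_int B t hL u hx s r)).2

/-- support of `mInt` -/
theorem s7t2_mInt_supp (t L : ℝ) (P : Tst) (u : ℝ) {x : ℝ} (hx : x ∉ Set.Icc P.x0 P.x1) :
    B.mInt t L P u x = 0 := by
  have hQ : ∀ d w, B.xQ t L P u x d w = 0 := by
    intro d w
    unfold BlockModel.xQ
    exact Finset.sum_eq_zero fun k _ => by rw [P.c_supp k u x hx, zero_smul]
  unfold BlockModel.mInt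
  simp [hQ, cSq_zero]

/-- T1 for all `(u,x)` -/
theorem s7t2_mInt_eq (t : ℝ) {L : ℝ} (hL : 0 < L) (P : Tst) (u x : ℝ) :
    B.mInt t L P u x = s7t2Comb P u x (B.J1 t L u |x|) (B.J2 t L u |x|) := by
  rcases le_or_gt 0 x with hx | hx
  · rw [abs_of_nonneg hx]
    exact s7t2_mInt_pos B t hL P u hx
  · have hx' : x ∉ Set.Icc P.x0 P.x1 := fun h => by
      have := P.x0_pos
      linarith [h.1]
    rw [s7t2_mInt_supp B t L P u hx', s7t2_comb_of_c_zero P (fun k => P.c_supp k u x hx')]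

theorem s7t2_mInt_meas [SFinite Q] (t : ℝ) {L : ℝ} (hL : 0 < L) (P : Tst) :
    Measurable fun p : ℝ × ℝ => B.mInt t L P p.1 p.2 := by
  simp only [s7t2_mInt_eq B t hL P]
  exact s7t2_comb_measurable P (K1 := fun p => B.J1 t L p.1 |p.2|)
    (K2 := fun p => B.J2 t L p.1 |p.2|) (fun s r => s7t2_J1_meas B t hL s r)
    (fun s r => s7t2_J2_meas B t hL s r)

/-- uniform bound of `mInt` -/
theorem s7t2_mInt_abs_le (t : ℝ) {L : ℝ} (hL : 0 < L) (P : Tst) {u x C δ : ℝ} (hu : 0 ≤ u)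
    (hC0 : 0 ≤ C) (hC : ∀ k, ‖P.c k u x‖ ≤ C) (hB : B.Small δ) (hδ : δ ≤ 1) :
    |B.mInt t L P u x| ≤ 2 * (P.K * (C * 17)) + 4 * (P.K * (P.K * (C * C * 2))) := by
  rw [s7t2_mInt_eq B t hL P]
  have hm := s7t2_mass_le B hB hδ
  have hm0 : 0 ≤ ∫ d, mxSq (B.Rs d) ∂Q :=
    integral_nonneg fun d => Claimed.Agent.R260.mxSq_nonneg _
  refine s7t2_comb_abs_le P hC0 hC (fun s r => (s7t2_J1_norm B t L u |x| s r).trans hm)
    (fun s r => (s7t2_J2_norm B t L u |x| s r).trans ?_)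
  calc s7t2cU u * ∫ d, mxSq (B.Rs d) ∂Q ≤ 17 / 2 * 2 :=
        mul_le_mul (s7t2_cU_le hu) hm hm0 (by norm_num)
    _ = 17 := by norm_num

end Claimed.Agent.R259
end

/- ===== packed: Claimed.Agent.R259.S7LawTopE ===== -/
section
/-
Row 259 (S0499), section 7, trace law, package L-S7-LAW-TOP, part E: the scalar side.
Expansion of `scInt` into `j1`, `j2`; bounds, measurability, support.  Owner: helper236.
-/
set_option autoImplicit false
set_option linter.unusedVariables false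

open MeasureTheory ProbabilityTheory
open scoped BigOperators

namespace Claimed.Agent.R259

/-- the law of `w = (n, g', g)` -/
noncomputable abbrev s7t2g : Measure (ℝ × ℝ × ℝ) :=
  (gaussianReal 0 1).prod ((gaussianReal 0 1).prod (gaussianReal 0 1))

/-- the character `e^{iy}` -/
noncomputable def s7t2e (y : ℝ) : ℂ := Complex.exp (Complex.I * ((y : ℝ) : ℂ))

/-- integrand of `j1` -/
noncomputable def s7t2f1 (t L u x s r : ℝ) (w : ℝ × ℝ × ℝ) : ℂ :=
  s7t2e (s * ouS u w.1 w.2.1) * s7t2e (r * (gx t L x w.1 * w.2.2))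

/-- integrand of `j2` -/
noncomputable def s7t2f2 (t L u x s r : ℝ) (w : ℝ × ℝ × ℝ) : ℂ :=
  ((w.1 - Real.exp (-u) * ouS u w.1 w.2.1 : ℝ) : ℂ) * s7t2e (s * ouS u w.1 w.2.1)
    * s7t2e (r * (gx t L x w.1 * w.2.2))

theorem s7t2e_eqns_cite : True := by
  have := @s7t2g.eq_1
  have := @s7t2e.eq_1
  have := @s7t2f1.eq_1
  have := @s7t2f2.eq_1
  trivial

theorem s7t2_j1_eq (t L u x s r : ℝ) : j1 t L u x s r = ∫ w, s7t2f1 t L u x s r w ∂s7t2g := rfl

theorem s7t2_j2_eq (t L u x s r : ℝ) : j2 t L u x s r = ∫ w, s7t2f2 t L u x s r w ∂s7t2g := rfl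

theorem s7t2_e_norm (y : ℝ) : ‖s7t2e y‖ = 1 := Complex.norm_exp_I_mul_ofReal y

theorem s7t2_e_add (y y' : ℝ) : s7t2e (y + y') = s7t2e y * s7t2e y' := by
  unfold s7t2e
  rw [← Complex.exp_add]
  congr 1
  push_cast
  ring

theorem s7t2_e_conj (y : ℝ) : starRingEnd ℂ (s7t2e y) = s7t2e (-y) := by
  unfold s7t2e
  rw [← Complex.exp_conj]
  congr 1
  simp

theorem s7t2_e_cont : Continuous s7t2e := by
  unfold s7t2e
  fun_prop

/-- POINTWISE EXPANSION, scalar case -/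
theorem s7t2_pt_sc (P : Tst) (u x y a b : ℝ) :
    2 * y * (P.ev u x a b).re - 4 * ‖P.ev u x a b‖ ^ 2
      = s7t2Comb P u x (fun s r => s7t2e (s * a) * s7t2e (r * b))
          (fun s r => ((y : ℝ) : ℂ) * s7t2e (s * a) * s7t2e (r * b)) := by
  have hev : P.ev u x a b = ∑ k, P.c k u x * (s7t2e (P.s k * a) * s7t2e (P.r k * b)) := by
    unfold Tst.ev s7t2e
    exact Finset.sum_congr rfl fun k _ => mul_assoc _ _ _
  unfold s7t2Comb
  congr 1
  · rw [mul_assoc, ← Complex.re_ofReal_mul, hev, Finset.mul_sum]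
    congr 2
    refine Finset.sum_congr rfl fun k _ => ?_
    ring
  · congr 1
    have h1 : ‖P.ev u x a b‖ ^ 2 = (starRingEnd ℂ (P.ev u x a b) * P.ev u x a b).re := by
      rw [← Complex.normSq_eq_conj_mul_self, Complex.ofReal_re, Complex.normSq_eq_norm_sq]
    rw [h1, hev, map_sum, Finset.sum_mul_sum]
    congr 1
    refine Finset.sum_congr rfl fun k _ => Finset.sum_congr rfl fun l _ => ?_
    rw [map_mul, map_mul, s7t2_e_conj, s7t2_e_conj]
    have e1 : s7t2e ((P.s l - P.s k) * a) = s7t2e (-(P.s k * a)) * s7t2e (P.s l * a) := by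
      rw [← s7t2_e_add]; congr 1; ring
    have e2 : s7t2e ((P.r l - P.r k) * b) = s7t2e (-(P.r k * b)) * s7t2e (P.r l * b) := by
      rw [← s7t2_e_add]; congr 1; ring
    simp only []
    rw [e1, e2]
    ring

/-! ### measurability -/

theorem s7t2_ouS_cont : Continuous fun q : ℝ × ℝ × ℝ => ouS q.1 q.2.1 q.2.2 := by
  unfold ouS
  fun_prop

theorem s7t2_f1_cont (t : ℝ) {L : ℝ} (hL : 0 < L) (s r : ℝ) :
    Continuous fun q : (ℝ × ℝ) × (ℝ × ℝ × ℝ) => s7t2f1 t L q.1.1 |q.1.2| s r q.2 := by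
  unfold s7t2f1
  have h1 : Continuous fun q : (ℝ × ℝ) × (ℝ × ℝ × ℝ) => ouS q.1.1 q.2.1 q.2.2.1 :=
    s7t2_ouS_cont.comp (by fun_prop :
      Continuous fun q : (ℝ × ℝ) × (ℝ × ℝ × ℝ) => (q.1.1, q.2.1, q.2.2.1))
  have h2 : Continuous fun q : (ℝ × ℝ) × (ℝ × ℝ × ℝ) => gx t L |q.1.2| q.2.1 :=
    (s7v_gx_continuous t hL).comp (by fun_prop :
      Continuous fun q : (ℝ × ℝ) × (ℝ × ℝ × ℝ) => (q.1.2, q.2.1))
  exact (s7t2_e_cont.comp (continuous_const.mul h1)).mul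
    (s7t2_e_cont.comp (continuous_const.mul (h2.mul (by fun_prop))))

theorem s7t2_f2_cont (t : ℝ) {L : ℝ} (hL : 0 < L) (s r : ℝ) :
    Continuous fun q : (ℝ × ℝ) × (ℝ × ℝ × ℝ) => s7t2f2 t L q.1.1 |q.1.2| s r q.2 := by
  unfold s7t2f2
  have h1 : Continuous fun q : (ℝ × ℝ) × (ℝ × ℝ × ℝ) => ouS q.1.1 q.2.1 q.2.2.1 :=
    s7t2_ouS_cont.comp (by fun_prop :
      Continuous fun q : (ℝ × ℝ) × (ℝ × ℝ × ℝ) => (q.1.1, q.2.1, q.2.2.1))
  have h2 : Continuous fun q : (ℝ × ℝ) × (ℝ × ℝ × ℝ) => gx t L |q.1.2| q.2.1 :=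
    (s7v_gx_continuous t hL).comp (by fun_prop :
      Continuous fun q : (ℝ × ℝ) × (ℝ × ℝ × ℝ) => (q.1.2, q.2.1))
  have h3 : Continuous fun q : (ℝ × ℝ) × (ℝ × ℝ × ℝ) =>
      ((q.2.1 - Real.exp (-q.1.1) * ouS q.1.1 q.2.1 q.2.2.1 : ℝ) : ℂ) :=
    Complex.continuous_ofReal.comp ((by fun_prop : Continuous fun q : (ℝ × ℝ) × (ℝ × ℝ × ℝ) =>
      q.2.1).sub ((by fun_prop : Continuous fun q : (ℝ × ℝ) × (ℝ × ℝ × ℝ) =>
      Real.exp (-q.1.1)).mul h1))
  exact (h3.mul (s7t2_e_cont.comp (continuous_const.mul h1))).mul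
    (s7t2_e_cont.comp (continuous_const.mul (h2.mul (by fun_prop))))

theorem s7t2_f1_meas_w (t : ℝ) {L : ℝ} (hL : 0 < L) (u : ℝ) {x : ℝ} (hx : 0 ≤ x) (s r : ℝ) :
    Measurable (s7t2f1 t L u x s r) := by
  have := (s7t2_f1_cont t hL s r).measurable.comp
    (measurable_prodMk_left (x := ((u, x) : ℝ × ℝ)) (β := ℝ × ℝ × ℝ))
  simpa only [Function.comp_def, abs_of_nonneg hx] using this

theorem s7t2_f2_meas_w (t : ℝ) {L : ℝ} (hL : 0 < L) (u : ℝ) {x : ℝ} (hx : 0 ≤ x) (s r : ℝ) :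
    Measurable (s7t2f2 t L u x s r) := by
  have := (s7t2_f2_cont t hL s r).measurable.comp
    (measurable_prodMk_left (x := ((u, x) : ℝ × ℝ)) (β := ℝ × ℝ × ℝ))
  simpa only [Function.comp_def, abs_of_nonneg hx] using this

theorem s7t2_j1_meas (t : ℝ) {L : ℝ} (hL : 0 < L) (s r : ℝ) :
    Measurable fun p : ℝ × ℝ => j1 t L p.1 |p.2| s r := by
  simp only [s7t2_j1_eq]
  exact ((s7t2_f1_cont t hL s r).stronglyMeasurable.integral_prod_right' (ν := s7t2g)).measurable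

theorem s7t2_j2_meas (t : ℝ) {L : ℝ} (hL : 0 < L) (s r : ℝ) :
    Measurable fun p : ℝ × ℝ => j2 t L p.1 |p.2| s r := by
  simp only [s7t2_j2_eq]
  exact ((s7t2_f2_cont t hL s r).stronglyMeasurable.integral_prod_right' (ν := s7t2g)).measurable

/-! ### bounds and integrability -/

theorem s7t2_f1_norm (t L u x s r : ℝ) (w : ℝ × ℝ × ℝ) : ‖s7t2f1 t L u x s r w‖ ≤ 1 := by
  unfold s7t2f1
  rw [norm_mul, s7t2_e_norm, s7t2_e_norm, mul_one]

theorem s7t2_f2_norm (t L u x s r : ℝ) (w : ℝ × ℝ × ℝ) :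
    ‖s7t2f2 t L u x s r w‖ ≤ |1 - Real.exp (-u) ^ 2| * |w.1|
      + |Real.exp (-u) * Real.sqrt (1 - Real.exp (-u) ^ 2)| * |w.2.1| := by
  unfold s7t2f2
  rw [norm_mul, norm_mul, s7t2_e_norm, s7t2_e_norm, mul_one, mul_one, Complex.norm_real,
    Real.norm_eq_abs]
  have e : w.1 - Real.exp (-u) * ouS u w.1 w.2.1 = (1 - Real.exp (-u) ^ 2) * w.1
      - (Real.exp (-u) * Real.sqrt (1 - Real.exp (-u) ^ 2)) * w.2.1 := by
    unfold ouS; ring
  rw [e, ← abs_mul, ← abs_mul]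
  exact abs_sub _ _

theorem s7t2_abs_int : Integrable (fun y : ℝ => |y|) (gaussianReal 0 1) :=
  (IsGaussian.integrable_id (μ := gaussianReal 0 1)).abs

theorem s7t2_dom_sc (A Bc : ℝ) :
    Integrable (fun w : ℝ × ℝ × ℝ => A * |w.1| + Bc * |w.2.1|) s7t2g ∧
      ∫ w : ℝ × ℝ × ℝ, (A * |w.1| + Bc * |w.2.1|) ∂s7t2g
        = (A + Bc) * ∫ y, |y| ∂(gaussianReal 0 1) := by
  have i1 : Integrable (fun w : ℝ × ℝ × ℝ => |w.1|) s7t2g := s7t2_abs_int.comp_fst _
  have i2 : Integrable (fun w : ℝ × ℝ × ℝ => |w.2.1|) s7t2g :=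
    (s7t2_abs_int.comp_fst (gaussianReal 0 1)).comp_snd (gaussianReal 0 1)
  have e1 : ∫ w : ℝ × ℝ × ℝ, |w.1| ∂s7t2g = ∫ y, |y| ∂(gaussianReal 0 1) := by
    rw [integral_fun_fst (fun y : ℝ => |y|)]
    simp
  have e2 : ∫ w : ℝ × ℝ × ℝ, |w.2.1| ∂s7t2g = ∫ y, |y| ∂(gaussianReal 0 1) := by
    rw [integral_fun_snd (fun y : ℝ × ℝ => |y.1|), integral_fun_fst (fun y : ℝ => |y|)]
    simp
  refine ⟨(i1.const_mul A).add (i2.const_mul Bc), ?_⟩
  rw [integral_add (i1.const_mul A) (i2.const_mul Bc), integral_const_mul, integral_const_mul,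
    e1, e2]
  ring

theorem s7t2_f1_int (t : ℝ) {L : ℝ} (hL : 0 < L) (u : ℝ) {x : ℝ} (hx : 0 ≤ x) (s r : ℝ) :
    Integrable (s7t2f1 t L u x s r) s7t2g :=
  Integrable.mono' (integrable_const (1 : ℝ)) (s7t2_f1_meas_w t hL u hx s r).aestronglyMeasurable
    (Filter.Eventually.of_forall fun w => s7t2_f1_norm t L u x s r w)

theorem s7t2_f2_int (t : ℝ) {L : ℝ} (hL : 0 < L) (u : ℝ) {x : ℝ} (hx : 0 ≤ x) (s r : ℝ) :
    Integrable (s7t2f2 t L u x s r) s7t2g :=
  Integrable.mono' (s7t2_dom_sc _ _).1 (s7t2_f2_meas_w t hL u hx s r).aestronglyMeasurable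
    (Filter.Eventually.of_forall fun w => s7t2_f2_norm t L u x s r w)

theorem s7t2_j1_norm (t L u x s r : ℝ) : ‖j1 t L u x s r‖ ≤ 1 := by
  rw [s7t2_j1_eq]
  have := norm_integral_le_of_norm_le_const (μ := s7t2g) (f := s7t2f1 t L u x s r)
    (C := 1) (Filter.Eventually.of_forall fun w => s7t2_f1_norm t L u x s r w)
  simpa using this

theorem s7t2_j2_norm (t L : ℝ) {u : ℝ} (hu : 0 ≤ u) (x s r : ℝ) :
    ‖j2 t L u x s r‖ ≤ 2 * ∫ y, |y| ∂(gaussianReal 0 1) := by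
  rw [s7t2_j2_eq]
  have h1 := norm_integral_le_of_norm_le (s7t2_dom_sc _ _).1
    (Filter.Eventually.of_forall fun w => s7t2_f2_norm t L u x s r w)
  rw [(s7t2_dom_sc _ _).2] at h1
  refine h1.trans (mul_le_mul_of_nonneg_right ?_ (integral_nonneg fun y => abs_nonneg y))
  have h0 : 0 < Real.exp (-u) := Real.exp_pos _
  have h1' : Real.exp (-u) ≤ 1 := Real.exp_le_one_iff.2 (by linarith)
  have h2 : Real.exp (-u) ^ 2 ≤ 1 := pow_le_one₀ h0.le h1'
  have h3 : 0 ≤ 1 - Real.exp (-u) ^ 2 := by linarith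
  have h4 : Real.sqrt (1 - Real.exp (-u) ^ 2) ≤ 1 := Real.sqrt_le_one.2 (by nlinarith)
  have h5 : 0 ≤ Real.sqrt (1 - Real.exp (-u) ^ 2) := Real.sqrt_nonneg _
  rw [abs_of_nonneg h3, abs_of_nonneg (mul_nonneg h0.le h5)]
  nlinarith

/-! ### the scalar value -/

theorem s7t2_scInt_pos (t : ℝ) {L : ℝ} (hL : 0 < L) (P : Tst) (u : ℝ) {x : ℝ} (hx : 0 ≤ x) :
    scInt t L P u x = s7t2Comb P u x (j1 t L u x) (j2 t L u x) := by
  unfold scInt
  simp only [s7t2_pt_sc]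
  exact (s7t2_comb_integral s7t2g P u x (F1 := fun s r => s7t2f1 t L u x s r)
    (F2 := fun s r => s7t2f2 t L u x s r) (fun s r => s7t2_f1_int t hL u hx s r)
      (fun s r => s7t2_f2_int t hL u hx s r)).2

theorem s7t2_scInt_supp (t L : ℝ) (P : Tst) (u : ℝ) {x : ℝ} (hx : x ∉ Set.Icc P.x0 P.x1) :
    scInt t L P u x = 0 := by
  have hQ : ∀ a b, P.ev u x a b = 0 := by
    intro a b
    unfold Tst.ev
    exact Finset.sum_eq_zero fun k _ => by rw [P.c_supp k u x hx, zero_mul, zero_mul]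
  unfold scInt
  simp [hQ]

theorem s7t2_scInt_eq (t : ℝ) {L : ℝ} (hL : 0 < L) (P : Tst) (u x : ℝ) :
    scInt t L P u x = s7t2Comb P u x (j1 t L u |x|) (j2 t L u |x|) := by
  rcases le_or_gt 0 x with hx | hx
  · rw [abs_of_nonneg hx]
    exact s7t2_scInt_pos t hL P u hx
  · have hx' : x ∉ Set.Icc P.x0 P.x1 := fun h => by
      have := P.x0_pos
      linarith [h.1]
    rw [s7t2_scInt_supp t L P u hx', s7t2_comb_of_c_zero P (fun k => P.c_supp k u x hx')]

theorem s7t2_scInt_meas (t : ℝ) {L : ℝ} (hL : 0 < L) (P : Tst) :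
    Measurable fun p : ℝ × ℝ => scInt t L P p.1 p.2 := by
  simp only [s7t2_scInt_eq t hL P]
  exact s7t2_comb_measurable P (K1 := fun p => j1 t L p.1 |p.2|)
    (K2 := fun p => j2 t L p.1 |p.2|) (fun s r => s7t2_j1_meas t hL s r)
    (fun s r => s7t2_j2_meas t hL s r)

theorem s7t2_scInt_abs_le (t : ℝ) {L : ℝ} (hL : 0 < L) (P : Tst) {u x C : ℝ} (hu : 0 ≤ u)
    (hC0 : 0 ≤ C) (hC : ∀ k, ‖P.c k u x‖ ≤ C) :
    |scInt t L P u x| ≤ 2 * (P.K * (C * (2 * ∫ y, |y| ∂(gaussianReal 0 1))))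
      + 4 * (P.K * (P.K * (C * C * 1))) := by
  rw [s7t2_scInt_eq t hL P]
  exact s7t2_comb_abs_le P hC0 hC (fun s r => s7t2_j1_norm t L u |x| s r)
    (fun s r => s7t2_j2_norm t L hu |x| s r)

end Claimed.Agent.R259
end

/- ===== packed: Claimed.Agent.R259.S7LawJs ===== -/
section
/-
Row 259 (S0499), section 7, package L-S7-LAW-J, LEAF L-s7k-sc: the scalar side (three independent
standard Gaussians on `ℝ`).  Statements FIXED by helper79; replace the sorries in place.  Mathlib + `S7LawSpecSc`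
(`s7p_gauss_chr`: characteristic function) + `S7ScGauss` (`s7s_stein`) if useful.

`α = e^{-u}`, `β = √(1-α²)`, `c = e^{-(sβ)²/2}`, `fJ t L x σ r v = e^{iσv} χ_r(v)`, `χ_r(v) = e^{-r² g_x(v)²/2}`.
PROOF.  Fubini on `γ ⊗ (γ ⊗ γ)` (`integral_prod`; the integrands are continuous, bounded by `1`, resp. by `|n| + |n| + |g'|`);
`ouS u n g' = αn + βg'`; `∫ e^{isβg'} dγ = c`; `∫ e^{i r g_x(n) g} dγ(g) = χ_r(n)` (`s7p_gauss_chr` with `s := r g_x(n)`);
`∫ g' e^{iag'} dγ = i a e^{-a²/2}` (Stein for real and imaginary part, or the derivative of the characteristic function);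
`n - α(αn + βg') = β² n - αβ g'` since `1 - α² = β²` for `u ≥ 0`.
-/
set_option autoImplicit false

open MeasureTheory ProbabilityTheory
open scoped BigOperators Matrix

namespace Claimed.Agent.R259

theorem s7ks_chr_eq (a v : ℝ) :
    chr a v = ((Real.cos (a * v) : ℝ) : ℂ) + Complex.I * ((Real.sin (a * v) : ℝ) : ℂ) := by
  unfold chr
  rw [mul_comm Complex.I, Complex.exp_mul_I, Complex.ofReal_cos, Complex.ofReal_sin]
  ring

theorem s7ks_cos_integrable (a : ℝ) : Integrable (fun v : ℝ => Real.cos (a * v)) (gaussianReal 0 1) :=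
  (integrable_const (1 : ℝ)).mono' (by fun_prop)
    (Filter.Eventually.of_forall fun v => by simpa using Real.abs_cos_le_one (a * v))

theorem s7ks_sin_integrable (a : ℝ) : Integrable (fun v : ℝ => Real.sin (a * v)) (gaussianReal 0 1) :=
  (integrable_const (1 : ℝ)).mono' (by fun_prop)
    (Filter.Eventually.of_forall fun v => by simpa using Real.abs_sin_le_one (a * v))

theorem s7ks_cos_sin (a : ℝ) :
    ∫ v, Real.cos (a * v) ∂(gaussianReal 0 1) = Real.exp (-(a ^ 2 / 2)) ∧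
    ∫ v, Real.sin (a * v) ∂(gaussianReal 0 1) = 0 := by
  have h := s7p_gauss_chr a
  simp only [s7ks_chr_eq] at h
  rw [integral_add (s7ks_cos_integrable a).ofReal ((s7ks_sin_integrable a).ofReal.const_mul _),
    integral_const_mul, integral_complex_ofReal, integral_complex_ofReal] at h
  have hre := congrArg Complex.re h
  have him := congrArg Complex.im h
  simp only [Complex.add_re, Complex.ofReal_re, Complex.mul_re, Complex.I_re, zero_mul, Complex.I_im,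
    Complex.ofReal_im, mul_zero, sub_zero, add_zero, Complex.add_im, Complex.mul_im, one_mul,
    zero_add] at hre him
  exact ⟨hre, him⟩

theorem s7ks_id_mul_integrable {f : ℝ → ℝ} (hf : Continuous f) (hb : ∀ v, |f v| ≤ 1) :
    Integrable (fun v : ℝ => v * f v) (gaussianReal 0 1) :=
  s7s_integrable_id.mul_bdd (c := 1) hf.aestronglyMeasurable
    (Filter.Eventually.of_forall fun v => by simpa using hb v)

/-- `∫ g e^{iag} dγ = i a e^{-a²/2}` -/
theorem s7k_gauss_first (a : ℝ) :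
    ∫ g : ℝ, (g : ℂ) * Complex.exp (Complex.I * ((a * g : ℝ) : ℂ)) ∂(gaussianReal 0 1)
      = Complex.I * ((a * Real.exp (-(a ^ 2 / 2)) : ℝ) : ℂ) := by
  have e1 : ∀ g : ℝ, (g : ℂ) * Complex.exp (Complex.I * ((a * g : ℝ) : ℂ))
      = ((g * Real.cos (a * g) : ℝ) : ℂ) + Complex.I * ((g * Real.sin (a * g) : ℝ) : ℂ) := by
    intro g
    have := s7ks_chr_eq a g
    unfold chr at this
    rw [this]
    push_cast
    ring
  simp only [e1]
  have ic := s7ks_id_mul_integrable (f := fun v => Real.cos (a * v)) (by fun_prop)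
    fun v => Real.abs_cos_le_one _
  have is := s7ks_id_mul_integrable (f := fun v => Real.sin (a * v)) (by fun_prop)
    fun v => Real.abs_sin_le_one _
  rw [integral_add ic.ofReal (is.ofReal.const_mul _), integral_const_mul, integral_complex_ofReal,
    integral_complex_ofReal]
  have s1 := s7s_stein (fun v => Real.cos (a * v)) (fun v => -(a * Real.sin (a * v)))
    (fun y => by
      have h1 : HasDerivAt (fun v : ℝ => a * v) a y := by
        simpa using (hasDerivAt_id y).const_mul a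
      have := h1.cos
      convert this using 1
      ring)
    (by fun_prop) |a| (fun y => by
      rw [abs_neg, abs_mul]
      exact mul_le_of_le_one_right (abs_nonneg _) (Real.abs_sin_le_one _))
  have s2 := s7s_stein (fun v => Real.sin (a * v)) (fun v => a * Real.cos (a * v))
    (fun y => by
      have h1 : HasDerivAt (fun v : ℝ => a * v) a y := by
        simpa using (hasDerivAt_id y).const_mul a
      have := h1.sin
      convert this using 1
      ring)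
    (by fun_prop) |a| (fun y => by
      rw [abs_mul]
      exact mul_le_of_le_one_right (abs_nonneg _) (Real.abs_cos_le_one _))
  rw [s1, s2, integral_neg, integral_const_mul, integral_const_mul, (s7ks_cos_sin a).1,
    (s7ks_cos_sin a).2]
  simp

theorem s7ks_chr_cont2 {X : Type} [TopologicalSpace X] {a b : X → ℝ} (ha : Continuous a)
    (hb : Continuous b) : Continuous fun w => chr (a w) (b w) := by
  unfold chr
  fun_prop

theorem s7ks_fJ_eq (t L x s r v : ℝ) : fJ t L x s r v = chr s v * ((chiR t L x r v : ℝ) : ℂ) := rfl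

theorem s7ks_fJ_cont {t L x : ℝ} (hg : Continuous (gx t L x)) (s r : ℝ) : Continuous (fJ t L x s r) := by
  unfold fJ chiR
  fun_prop

theorem s7ks_fJ_norm (t L x s r v : ℝ) : ‖fJ t L x s r v‖ ≤ 1 := by
  rw [s7ks_fJ_eq, norm_mul, s7p_chr_norm, one_mul, Complex.norm_real]
  exact s7k_chiR_le t L x r v

theorem s7ks_fJ_integrable {t L x : ℝ} (hg : Continuous (gx t L x)) (s r : ℝ) :
    Integrable (fJ t L x s r) (gaussianReal 0 1) :=
  (integrable_const (1 : ℝ)).mono' (s7ks_fJ_cont hg s r).aestronglyMeasurable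
    (Filter.Eventually.of_forall fun v => s7ks_fJ_norm t L x s r v)

theorem s7ks_id_fJ_integrable {t L x : ℝ} (hg : Continuous (gx t L x)) (s r : ℝ) :
    Integrable (fun v : ℝ => (v : ℂ) * fJ t L x s r v) (gaussianReal 0 1) :=
  s7s_integrable_id.ofReal.mul_bdd (c := 1) (s7ks_fJ_cont hg s r).aestronglyMeasurable
    (Filter.Eventually.of_forall fun v => s7ks_fJ_norm t L x s r v)

theorem s7ks_chi (t L x r n : ℝ) :
    ∫ v, chr (r * gx t L x n) v ∂(gaussianReal 0 1) = ((chiR t L x r n : ℝ) : ℂ) := by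
  rw [s7p_gauss_chr]
  unfold chiR
  congr 3
  ring

theorem s7k_j1_eq {t L x : ℝ} (hg : Continuous (gx t L x)) (u s r : ℝ) :
    j1 t L u x s r
      = ((Real.exp (-((s * Real.sqrt (1 - Real.exp (-u) ^ 2)) ^ 2 / 2)) : ℝ) : ℂ)
        * ∫ v, fJ t L x (s * Real.exp (-u)) r v ∂(gaussianReal 0 1) := by
  unfold j1
  have e1 : ∀ w : ℝ × ℝ × ℝ, Complex.exp (Complex.I * ((s * ouS u w.1 w.2.1 : ℝ) : ℂ))
      * Complex.exp (Complex.I * ((r * (gx t L x w.1 * w.2.2) : ℝ) : ℂ))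
      = chr (s * Real.exp (-u)) w.1 * (chr (s * Real.sqrt (1 - Real.exp (-u) ^ 2)) w.2.1
          * chr (r * gx t L x w.1) w.2.2) := by
    intro w
    unfold chr ouS
    rw [← Complex.exp_add, ← Complex.exp_add, ← Complex.exp_add]
    congr 1
    push_cast
    ring
  simp only [e1]
  have hint : Integrable (fun w : ℝ × ℝ × ℝ => chr (s * Real.exp (-u)) w.1
      * (chr (s * Real.sqrt (1 - Real.exp (-u) ^ 2)) w.2.1 * chr (r * gx t L x w.1) w.2.2))
      ((gaussianReal 0 1).prod ((gaussianReal 0 1).prod (gaussianReal 0 1))) := by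
    refine (integrable_const (1 : ℝ)).mono' ?_ (Filter.Eventually.of_forall fun w => ?_)
    · exact ((s7ks_chr_cont2 continuous_const continuous_fst).mul
        ((s7ks_chr_cont2 continuous_const (continuous_fst.comp continuous_snd)).mul
          (s7ks_chr_cont2 (continuous_const.mul (hg.comp continuous_fst))
            (continuous_snd.comp continuous_snd)))).aestronglyMeasurable
    · rw [norm_mul, norm_mul, s7p_chr_norm, s7p_chr_norm, s7p_chr_norm]
      norm_num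
  rw [integral_prod _ hint]
  have e2 : ∀ n : ℝ, ∫ v : ℝ × ℝ, chr (s * Real.exp (-u)) n
      * (chr (s * Real.sqrt (1 - Real.exp (-u) ^ 2)) v.1 * chr (r * gx t L x n) v.2)
      ∂((gaussianReal 0 1).prod (gaussianReal 0 1))
      = ((Real.exp (-((s * Real.sqrt (1 - Real.exp (-u) ^ 2)) ^ 2 / 2)) : ℝ) : ℂ)
        * fJ t L x (s * Real.exp (-u)) r n := by
    intro n
    rw [integral_const_mul, integral_prod_mul, s7p_gauss_chr, s7ks_chi, s7ks_fJ_eq]
    ring
  simp only [e2]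
  rw [integral_const_mul]

theorem s7ks_chr_integrable (a : ℝ) : Integrable (chr a) (gaussianReal 0 1) :=
  (integrable_const (1 : ℝ)).mono' (s7p_chr_cont a).aestronglyMeasurable
    (Filter.Eventually.of_forall fun v => (s7p_chr_norm a v).le)

theorem s7ks_id_chr_integrable (a : ℝ) :
    Integrable (fun v : ℝ => (v : ℂ) * chr a v) (gaussianReal 0 1) :=
  s7s_integrable_id.ofReal.mul_bdd (c := 1) (s7p_chr_cont a).aestronglyMeasurable
    (Filter.Eventually.of_forall fun v => (s7p_chr_norm a v).le)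

theorem s7ks_lin_chr (A B a : ℝ) :
    ∫ v : ℝ, ((A - B * v : ℝ) : ℂ) * chr a v ∂(gaussianReal 0 1)
      = ((Real.exp (-(a ^ 2 / 2)) : ℝ) : ℂ) * ((A : ℂ) - Complex.I * ((B * a : ℝ) : ℂ)) := by
  have e1 : ∀ v : ℝ, ((A - B * v : ℝ) : ℂ) * chr a v
      = (A : ℂ) * chr a v - (B : ℂ) * ((v : ℂ) * chr a v) := by
    intro v
    push_cast
    ring
  simp only [e1]
  rw [integral_sub ((s7ks_chr_integrable a).const_mul _) ((s7ks_id_chr_integrable a).const_mul _),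
    integral_const_mul, integral_const_mul, s7p_gauss_chr]
  have h := s7k_gauss_first a
  change ∫ g : ℝ, (g : ℂ) * chr a g ∂(gaussianReal 0 1) = _ at h
  rw [h]
  push_cast
  ring

theorem s7k_j2_eq {t L x : ℝ} (hg : Continuous (gx t L x)) {u : ℝ} (hu : 0 ≤ u) (s r : ℝ) :
    j2 t L u x s r
      = ((Real.exp (-((s * Real.sqrt (1 - Real.exp (-u) ^ 2)) ^ 2 / 2)) : ℝ) : ℂ)
        * (((1 - Real.exp (-u) ^ 2 : ℝ) : ℂ)
              * ∫ v, (v : ℂ) * fJ t L x (s * Real.exp (-u)) r v ∂(gaussianReal 0 1)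
            - Complex.I * ((Real.exp (-u) * (1 - Real.exp (-u) ^ 2) * s : ℝ) : ℂ)
              * ∫ v, fJ t L x (s * Real.exp (-u)) r v ∂(gaussianReal 0 1)) := by
  unfold j2
  have hβ0 : 0 ≤ 1 - Real.exp (-u) ^ 2 := by
    have h1 : Real.exp (-u) ≤ 1 := Real.exp_le_one_iff.2 (by linarith)
    have h2 := Real.exp_pos (-u)
    nlinarith
  have hβ := Real.mul_self_sqrt hβ0
  have e1 : ∀ w : ℝ × ℝ × ℝ, ((w.1 - Real.exp (-u) * ouS u w.1 w.2.1 : ℝ) : ℂ)
      * Complex.exp (Complex.I * ((s * ouS u w.1 w.2.1 : ℝ) : ℂ))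
      * Complex.exp (Complex.I * ((r * (gx t L x w.1 * w.2.2) : ℝ) : ℂ))
      = chr (s * Real.exp (-u)) w.1 *
        ((((1 - Real.exp (-u) ^ 2) * w.1
            - Real.exp (-u) * Real.sqrt (1 - Real.exp (-u) ^ 2) * w.2.1 : ℝ) : ℂ)
          * chr (s * Real.sqrt (1 - Real.exp (-u) ^ 2)) w.2.1 * chr (r * gx t L x w.1) w.2.2) := by
    intro w
    have a1 : Complex.exp (Complex.I * ((s * ouS u w.1 w.2.1 : ℝ) : ℂ))
        = chr (s * Real.exp (-u)) w.1 * chr (s * Real.sqrt (1 - Real.exp (-u) ^ 2)) w.2.1 := by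
      unfold chr ouS
      rw [← Complex.exp_add]
      congr 1
      push_cast
      ring
    have a2 : Complex.exp (Complex.I * ((r * (gx t L x w.1 * w.2.2) : ℝ) : ℂ))
        = chr (r * gx t L x w.1) w.2.2 := by
      unfold chr
      congr 3
      ring
    have a3 : w.1 - Real.exp (-u) * ouS u w.1 w.2.1 = (1 - Real.exp (-u) ^ 2) * w.1
            - Real.exp (-u) * Real.sqrt (1 - Real.exp (-u) ^ 2) * w.2.1 := by
      unfold ouS
      ring
    rw [a1, a2, a3]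
    ring
  simp only [e1]
  have hint : Integrable (fun w : ℝ × ℝ × ℝ => chr (s * Real.exp (-u)) w.1 *
        ((((1 - Real.exp (-u) ^ 2) * w.1
            - Real.exp (-u) * Real.sqrt (1 - Real.exp (-u) ^ 2) * w.2.1 : ℝ) : ℂ)
          * chr (s * Real.sqrt (1 - Real.exp (-u) ^ 2)) w.2.1 * chr (r * gx t L x w.1) w.2.2))
      ((gaussianReal 0 1).prod ((gaussianReal 0 1).prod (gaussianReal 0 1))) := by
    have l1 : Integrable (fun w : ℝ × ℝ × ℝ => (1 - Real.exp (-u) ^ 2) * w.1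
        - Real.exp (-u) * Real.sqrt (1 - Real.exp (-u) ^ 2) * w.2.1)
        ((gaussianReal 0 1).prod ((gaussianReal 0 1).prod (gaussianReal 0 1))) :=
      ((s7s_integrable_id.comp_fst _).const_mul _).sub
        (((s7s_integrable_id.comp_fst (gaussianReal 0 1)).comp_snd (gaussianReal 0 1)).const_mul _)
    have l2 := (l1.ofReal (𝕜 := ℂ)).mul_bdd (c := 1)
      (g := fun w : ℝ × ℝ × ℝ => chr (s * Real.sqrt (1 - Real.exp (-u) ^ 2)) w.2.1)
      (s7ks_chr_cont2 continuous_const (continuous_fst.comp continuous_snd)).aestronglyMeasurable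
      (Filter.Eventually.of_forall fun w => (s7p_chr_norm _ _).le)
    have l3 := l2.mul_bdd (c := 1) (g := fun w : ℝ × ℝ × ℝ => chr (r * gx t L x w.1) w.2.2)
      (s7ks_chr_cont2 (continuous_const.mul (hg.comp continuous_fst))
        (continuous_snd.comp continuous_snd)).aestronglyMeasurable
      (Filter.Eventually.of_forall fun w => (s7p_chr_norm _ _).le)
    exact l3.bdd_mul (c := 1) (f := fun w : ℝ × ℝ × ℝ => chr (s * Real.exp (-u)) w.1)
      (s7ks_chr_cont2 continuous_const continuous_fst).aestronglyMeasurable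
      (Filter.Eventually.of_forall fun w => (s7p_chr_norm _ _).le)
  rw [integral_prod _ hint]
  have e2 : ∀ n : ℝ, ∫ v : ℝ × ℝ, chr (s * Real.exp (-u)) n *
        ((((1 - Real.exp (-u) ^ 2) * n
            - Real.exp (-u) * Real.sqrt (1 - Real.exp (-u) ^ 2) * v.1 : ℝ) : ℂ)
          * chr (s * Real.sqrt (1 - Real.exp (-u) ^ 2)) v.1 * chr (r * gx t L x n) v.2)
      ∂((gaussianReal 0 1).prod (gaussianReal 0 1))
      = ((Real.exp (-((s * Real.sqrt (1 - Real.exp (-u) ^ 2)) ^ 2 / 2)) : ℝ) : ℂ)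
        * (((1 - Real.exp (-u) ^ 2 : ℝ) : ℂ) * ((n : ℂ) * fJ t L x (s * Real.exp (-u)) r n)
          - Complex.I * ((Real.exp (-u) * (1 - Real.exp (-u) ^ 2) * s : ℝ) : ℂ)
              * fJ t L x (s * Real.exp (-u)) r n) := by
    intro n
    rw [integral_const_mul, integral_prod_mul
      (fun v : ℝ => (((1 - Real.exp (-u) ^ 2) * n
            - Real.exp (-u) * Real.sqrt (1 - Real.exp (-u) ^ 2) * v : ℝ) : ℂ)
          * chr (s * Real.sqrt (1 - Real.exp (-u) ^ 2)) v) (fun v => chr (r * gx t L x n) v),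
      s7ks_lin_chr, s7ks_chi, s7ks_fJ_eq]
    have a4 : Real.exp (-u) * Real.sqrt (1 - Real.exp (-u) ^ 2) * (s * Real.sqrt (1 - Real.exp (-u) ^ 2))
        = Real.exp (-u) * (1 - Real.exp (-u) ^ 2) * s := by
      calc _ = Real.exp (-u) * (Real.sqrt (1 - Real.exp (-u) ^ 2) * Real.sqrt (1 - Real.exp (-u) ^ 2)) * s := by
            ring
        _ = _ := by rw [hβ]
    rw [a4]
    push_cast
    ring
  simp only [e2]
  rw [integral_const_mul, integral_sub (((s7ks_id_fJ_integrable hg _ r).const_mul _))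
    ((s7ks_fJ_integrable hg _ r).const_mul _), integral_const_mul, integral_const_mul]

end Claimed.Agent.R259
end

/- ===== packed: Claimed.Agent.R259.S7LawJg ===== -/
section
/-
Row 259 (S0499), section 7, package L-S7-LAW-J: the GLOBAL STEP (leaf L-s7k-glob): integration of the local
theorems `s7k_loc1`, `s7k_loc2` over the datum `d`, spectral law, scalar side.  Prover: helper57.  Prefix `s7kg`.
-/
set_option autoImplicit false

open MeasureTheory ProbabilityTheory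
open scoped BigOperators Matrix
open Claimed.Agent.R260 (Mx mxFun mxSchur mxSq mxIP mxEig mxU mxRot)

namespace Claimed.Agent.R259

variable {n : ℕ} {D : Type} [MeasurableSpace D] {Q : Measure D}

/-- integrability of the exchange defect -/
theorem s7kg_xdW_int (B : BlockModel n Q) : Integrable (fun d => xdW (B.H d) (B.Rs d)) Q := by
  unfold xdW
  have hL : ∀ i, RL2 Q fun d => B.H d i * B.Rs d := fun i =>
    (s7p_RB_H B i).mul_L2 (s7p_RL2_Rs B)
  refine integrable_finsetSum _ fun i _ => integrable_finsetSum _ fun a _ =>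
    integrable_finsetSum _ fun b _ => ?_
  exact ((hL i a b).sub (hL a i b)).integrable_sq

theorem s7kg_dfc_int (B : BlockModel n Q) : Integrable (fun d => dfc (B.H d) (B.Rs d)) Q :=
  ((s7p_tau_S B).1.add (s7p_tau_C B).1).add (s7kg_xdW_int B)

theorem s7kg_dfc_le (B : BlockModel n Q) {δ : ℝ} (hB : B.Small δ) :
    ∫ d, dfc (B.H d) (B.Rs d) ∂Q ≤ 3 * δ := by
  have e : ∫ d, dfc (B.H d) (B.Rs d) ∂Q
      = ∫ d, mxSq ((colS (B.H d) - 1) * B.Rs d) ∂Q + ∫ d, ccW (B.H d) (B.Rs d) ∂Q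
        + ∫ d, xdW (B.H d) (B.Rs d) ∂Q := by
    unfold dfc
    have h12 : Integrable (fun d => mxSq ((colS (B.H d) - 1) * B.Rs d) + ccW (B.H d) (B.Rs d)) Q :=
      (s7p_tau_S B).1.add (s7p_tau_C B).1
    rw [integral_add h12 (s7kg_xdW_int B), integral_add (s7p_tau_S B).1 (s7p_tau_C B).1]
  rw [e, ← (s7p_tau_S B).2, ← (s7p_tau_C B).2]
  have h1 := hB.sdef
  have h2 := hB.cdef
  have h3 : ∫ d, xdW (B.H d) (B.Rs d) ∂Q ≤ δ := hB.xdef
  linarith

theorem s7kg_mass_le (B : BlockModel n Q) {δ : ℝ} (hδ1 : δ ≤ 1) (hB : B.Small δ) :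
    ∫ d, mxSq (B.Rs d) ∂Q ≤ 2 := by
  have h := hB.mass
  rw [s7p_tau_one B] at h
  have := (abs_le.1 h).2
  linarith

/-- the abstract global step -/
theorem s7kg_glob (B : BlockModel n Q) {Φ T : D → ℂ} (hΦ : AEStronglyMeasurable Φ Q)
    (hT : Integrable T Q) {a C θ δ : ℝ} (ha : 0 ≤ a) (hC : 0 ≤ C) (hθ : 0 < θ) (hδ1 : δ ≤ 1)
    (hB : B.Small δ)
    (h : ∀ d, ‖Φ d - T d‖ ≤ a * θ * mxSq (B.Rs d) + C / θ * dfc (B.H d) (B.Rs d)) :
    ‖∫ d, Φ d ∂Q - ∫ d, T d ∂Q‖ ≤ 2 * (a * θ) + C / θ * (3 * δ) := by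
  have hR : Integrable (fun d => a * θ * mxSq (B.Rs d) + C / θ * dfc (B.H d) (B.Rs d)) Q :=
    (B.Rs_int.const_mul _).add ((s7kg_dfc_int B).const_mul _)
  have hD : Integrable (fun d => Φ d - T d) Q :=
    hR.mono' (hΦ.sub hT.1) (Filter.Eventually.of_forall h)
  have hΦi : Integrable Φ Q := by
    have := hD.add hT
    refine this.congr (Filter.Eventually.of_forall fun d => ?_)
    simp
  rw [← integral_sub hΦi hT]
  refine (norm_integral_le_of_norm_le hR (Filter.Eventually.of_forall h)).trans ?_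
  rw [integral_add (B.Rs_int.const_mul _) ((s7kg_dfc_int B).const_mul _), integral_const_mul,
    integral_const_mul]
  have h1 := mul_le_mul_of_nonneg_left (s7kg_mass_le B hδ1 hB) (by positivity : 0 ≤ a * θ)
  have h2 := mul_le_mul_of_nonneg_left (s7kg_dfc_le B hB) (by positivity : 0 ≤ C / θ)
  linarith

/-- measurability in `d` of the inner integral of `psi1` -/
theorem s7kg_meas1 (B : BlockModel n Q) [SFinite Q] {t L x : ℝ} (hg : Continuous (gx t L x))
    (u s r : ℝ) :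
    AEStronglyMeasurable (fun d => ∫ w, psi1 (B.H d) (B.Rs d) t L u x s r w
      ∂((gam n).prod ((gam n).prod (gam n)))) Q := by
  have hm : Measurable fun p : D × (EE n × EE n × EE n) =>
      psi1 (B.H p.1) (B.Rs p.1) t L u x s r p.2 :=
    s7k_meas_psi1 (fun i a b => (B.H_meas i a b).comp measurable_fst)
      (fun a b => (B.Rs_meas a b).comp measurable_fst) (fun p i => B.H_symm p.1 i)
      measurable_snd hg u s r
  exact (hm.stronglyMeasurable.integral_prod_right').aestronglyMeasurable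

theorem s7kg_meas2 (B : BlockModel n Q) [SFinite Q] {t L x : ℝ} (hg : Continuous (gx t L x))
    (u s r : ℝ) :
    AEStronglyMeasurable (fun d => ∫ w, psi2 (B.H d) (B.Rs d) t L u x s r w
      ∂((gam n).prod ((gam n).prod (gam n)))) Q := by
  have hm : Measurable fun p : D × (EE n × EE n × EE n) =>
      psi2 (B.H p.1) (B.Rs p.1) t L u x s r p.2 :=
    s7k_meas_psi2 (fun i a b => (B.H_meas i a b).comp measurable_fst)
      (fun a b => (B.Rs_meas a b).comp measurable_fst) (fun p i => B.H_symm p.1 i)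
      measurable_snd hg u s r
  exact (hm.stronglyMeasurable.integral_prod_right').aestronglyMeasurable

/-- integrability in `d` of the local spectral functional -/
theorem s7kg_lSpec_int (B : BlockModel n Q) [IsProbabilityMeasure Q] {g : ℝ → ℂ}
    (hg : Measurable g) {a b : ℝ} (h : ∀ v, ‖g v‖ ≤ a + b * v ^ 2) :
    Integrable (fun d => lSpec (B.H d) (B.Rs d) g) Q :=
  (s7p_specI_integrable B hg h).integral_prod_left

theorem s7kg_lin_bd {f : ℝ → ℂ} (hf : ∀ v, ‖f v‖ ≤ 1) (v : ℝ) :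
    ‖(v : ℂ) * f v‖ ≤ 1 / 2 + 1 / 2 * v ^ 2 := by
  rw [norm_mul, Complex.norm_real, Real.norm_eq_abs]
  have h1 : |v| * ‖f v‖ ≤ |v| * 1 := mul_le_mul_of_nonneg_left (hf v) (abs_nonneg _)
  have h2 : v ^ 2 = |v| ^ 2 := (sq_abs v).symm
  nlinarith [sq_nonneg (|v| - 1)]

theorem s7kg_J1 {t L u x : ℝ} (ht : 0 < t) (hL : 1 ≤ L) (hu : 0 < u) (hx : 0 < x) (s r : ℝ) :
    ∀ ε : ℝ, 0 < ε → ∃ δ : ℝ, 0 < δ ∧
      ∀ (n : ℕ) (D : Type) [MeasurableSpace D] (Q : Measure D) [IsProbabilityMeasure Q]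
        (B : BlockModel n Q), B.Small δ → ‖B.J1 t L u x s r - j1 t L u x s r‖ ≤ ε := by
  intro ε hε
  obtain ⟨-, -, hgc, -⟩ := s7_gx_bounds ht hL hx
  obtain ⟨C, hC, hloc⟩ := s7k_loc1 ht hL hx u s r
  obtain ⟨f, hfdef⟩ : ∃ f, f = fJ t L x (s * Real.exp (-u)) r := ⟨_, rfl⟩
  have hfc : Continuous f := hfdef ▸ s7k_fJ_cont hgc _ _
  have hfb : ∀ v, ‖f v‖ ≤ 1 := fun v => hfdef ▸ s7k_fJ_bd _ _ _ _ _ v
  obtain ⟨δ1, hδ1, hsp⟩ := s7_spec hfc hfb (ε / 2) (by positivity)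
  obtain ⟨c, hcdef⟩ : ∃ c, c = Real.exp (-((s * Real.sqrt (1 - Real.exp (-u) ^ 2)) ^ 2 / 2)) :=
    ⟨_, rfl⟩
  have hc0 : 0 ≤ c := hcdef ▸ (Real.exp_pos _).le
  have hc1 : c ≤ 1 := by
    rw [hcdef, Real.exp_le_one_iff]
    have := sq_nonneg (s * Real.sqrt (1 - Real.exp (-u) ^ 2))
    linarith
  refine ⟨min (min δ1 1) (ε ^ 2 / (96 * (C + 1))), by positivity, ?_⟩
  intro n D _ Q _ B hB
  obtain ⟨δ, hδdef⟩ : ∃ δ, δ = min (min δ1 1) (ε ^ 2 / (96 * (C + 1))) := ⟨_, rfl⟩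
  rw [← hδdef] at hB
  have hδa : δ ≤ δ1 := hδdef ▸ (min_le_left _ _).trans (min_le_left _ _)
  have hδb : δ ≤ 1 := hδdef ▸ (min_le_left _ _).trans (min_le_right _ _)
  have hδc : δ ≤ ε ^ 2 / (96 * (C + 1)) := hδdef ▸ min_le_right _ _
  have hB1 : B.Small δ1 :=
    ⟨hB.mass.trans hδa, hB.sdef.trans hδa, hB.cdef.trans hδa, hB.xdef.trans hδa⟩
  have hsp' := hsp n D Q B hB1
  have hfb' : ∀ v, ‖f v‖ ≤ 1 + 0 * v ^ 2 := fun v => by simpa using hfb v
  have hTi : Integrable (fun d => ((c : ℝ) : ℂ) * lSpec (B.H d) (B.Rs d) f) Q :=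
    (s7kg_lSpec_int B hfc.measurable hfb').const_mul _
  have hθ : 0 < ε / 8 := by positivity
  have hg := s7kg_glob B (s7kg_meas1 B hgc u s r) hTi (a := 1) (by norm_num) hC hθ hδb hB
    (fun d => by
      have := hloc n (B.H d) (B.Rs d) (B.colW d) (ε / 8) hθ
      rw [← hfdef, ← hcdef] at this
      rw [one_mul]
      exact this)
  rw [integral_const_mul] at hg
  have eJ : B.J1 t L u x s r = ∫ d, ∫ w, psi1 (B.H d) (B.Rs d) t L u x s r w
      ∂((gam n).prod ((gam n).prod (gam n))) ∂Q := rfl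
  have eS : B.spec f = ∫ d, lSpec (B.H d) (B.Rs d) f ∂Q := rfl
  rw [← eJ, ← eS] at hg
  rw [s7k_j1_eq hgc, ← hfdef, ← hcdef]
  have e : B.J1 t L u x s r - ((c : ℝ) : ℂ) * ∫ v, f v ∂(gaussianReal 0 1)
      = (B.J1 t L u x s r - ((c : ℝ) : ℂ) * B.spec f)
        + ((c : ℝ) : ℂ) * (B.spec f - ∫ v, f v ∂(gaussianReal 0 1)) := by ring
  have h2 : ‖((c : ℝ) : ℂ) * (B.spec f - ∫ v, f v ∂(gaussianReal 0 1))‖ ≤ ε / 2 := by
    rw [norm_mul, Complex.norm_real, Real.norm_eq_abs, abs_of_nonneg hc0]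
    calc c * ‖B.spec f - ∫ v, f v ∂(gaussianReal 0 1)‖
        ≤ 1 * (ε / 2) := mul_le_mul hc1 hsp' (norm_nonneg _) (by norm_num)
      _ = ε / 2 := one_mul _
  have h3 : C / (ε / 8) * (3 * δ) ≤ ε / 4 := by
    have hC1 : 0 < C + 1 := by linarith
    have k1 : C / (ε / 8) * (3 * δ) ≤ C / (ε / 8) * (3 * (ε ^ 2 / (96 * (C + 1)))) :=
      mul_le_mul_of_nonneg_left (by linarith) (by positivity)
    have k2 : C / (ε / 8) * (3 * (ε ^ 2 / (96 * (C + 1)))) = ε / 4 * (C / (C + 1)) := by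
      field_simp
      ring
    have k3 : C / (C + 1) ≤ 1 := by
      rw [div_le_one hC1]
      linarith
    have k4 : ε / 4 * (C / (C + 1)) ≤ ε / 4 * 1 := mul_le_mul_of_nonneg_left k3 (by positivity)
    linarith
  rw [e]
  refine (norm_add_le _ _).trans ?_
  linarith

theorem s7kg_J2 {t L u x : ℝ} (ht : 0 < t) (hL : 1 ≤ L) (hu : 0 < u) (hx : 0 < x) (s r : ℝ) :
    ∀ ε : ℝ, 0 < ε → ∃ δ : ℝ, 0 < δ ∧
      ∀ (n : ℕ) (D : Type) [MeasurableSpace D] (Q : Measure D) [IsProbabilityMeasure Q]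
        (B : BlockModel n Q), B.Small δ → ‖B.J2 t L u x s r - j2 t L u x s r‖ ≤ ε := by
  intro ε hε
  obtain ⟨-, -, hgc, -⟩ := s7_gx_bounds ht hL hx
  obtain ⟨C, hC, hloc⟩ := s7k_loc2 ht hL hx hu.le s r
  obtain ⟨f, hfdef⟩ : ∃ f, f = fJ t L x (s * Real.exp (-u)) r := ⟨_, rfl⟩
  have hfc : Continuous f := hfdef ▸ s7k_fJ_cont hgc _ _
  have hfb : ∀ v, ‖f v‖ ≤ 1 := fun v => hfdef ▸ s7k_fJ_bd _ _ _ _ _ v
  have hs1 : 0 < |s| + 1 := by positivity
  obtain ⟨δ1, hδ1, hsp⟩ := s7_spec hfc hfb (ε / (4 * (|s| + 1))) (by positivity)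
  obtain ⟨δ2, hδ2, hspl⟩ := s7_spec_lin hfc hfb (ε / 4) (by positivity)
  obtain ⟨c, hcdef⟩ : ∃ c, c = Real.exp (-((s * Real.sqrt (1 - Real.exp (-u) ^ 2)) ^ 2 / 2)) :=
    ⟨_, rfl⟩
  have hc0 : 0 ≤ c := hcdef ▸ (Real.exp_pos _).le
  have hc1 : c ≤ 1 := by
    rw [hcdef, Real.exp_le_one_iff]
    have := sq_nonneg (s * Real.sqrt (1 - Real.exp (-u) ^ 2))
    linarith
  obtain ⟨α, hαdef⟩ : ∃ α, α = Real.exp (-u) := ⟨_, rfl⟩
  have hα0 : 0 ≤ α := hαdef ▸ (Real.exp_pos _).le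
  have hα1 : α ≤ 1 := by
    rw [hαdef, Real.exp_le_one_iff]
    linarith
  have hp0 : 0 ≤ 1 - α ^ 2 := by nlinarith
  have hp1 : 1 - α ^ 2 ≤ 1 := by nlinarith
  refine ⟨min (min (min δ1 δ2) 1) (ε ^ 2 / (1920 * (C + 1))), by positivity, ?_⟩
  intro n D _ Q _ B hB
  obtain ⟨δ, hδdef⟩ : ∃ δ, δ = min (min (min δ1 δ2) 1) (ε ^ 2 / (1920 * (C + 1))) := ⟨_, rfl⟩
  rw [← hδdef] at hB
  have hδa : δ ≤ δ1 :=
    hδdef ▸ ((min_le_left _ _).trans (min_le_left _ _)).trans (min_le_left _ _)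
  have hδa2 : δ ≤ δ2 :=
    hδdef ▸ ((min_le_left _ _).trans (min_le_left _ _)).trans (min_le_right _ _)
  have hδb : δ ≤ 1 := hδdef ▸ (min_le_left _ _).trans (min_le_right _ _)
  have hδc : δ ≤ ε ^ 2 / (1920 * (C + 1)) := hδdef ▸ min_le_right _ _
  have hB1 : B.Small δ1 :=
    ⟨hB.mass.trans hδa, hB.sdef.trans hδa, hB.cdef.trans hδa, hB.xdef.trans hδa⟩
  have hB2 : B.Small δ2 :=
    ⟨hB.mass.trans hδa2, hB.sdef.trans hδa2, hB.cdef.trans hδa2, hB.xdef.trans hδa2⟩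
  have hsp' := hsp n D Q B hB1
  have hspl' := hspl n D Q B hB2
  have hfb' : ∀ v, ‖f v‖ ≤ 1 + 0 * v ^ 2 := fun v => by simpa using hfb v
  have hlm : Measurable fun v : ℝ => (v : ℂ) * f v :=
    (Complex.continuous_ofReal.mul hfc).measurable
  have hI1 : Integrable (fun d => lSpec (B.H d) (B.Rs d) f) Q :=
    s7kg_lSpec_int B hfc.measurable hfb'
  have hI2 : Integrable (fun d => lSpec (B.H d) (B.Rs d) (fun v => (v : ℂ) * f v)) Q :=
    s7kg_lSpec_int B hlm (s7kg_lin_bd hfb)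
  obtain ⟨p, hpdef⟩ : ∃ p : ℂ, p = ((1 - α ^ 2 : ℝ) : ℂ) := ⟨_, rfl⟩
  obtain ⟨q, hqdef⟩ : ∃ q : ℂ, q = Complex.I * ((α * (1 - α ^ 2) * s : ℝ) : ℂ) := ⟨_, rfl⟩
  have hpn : ‖p‖ ≤ 1 := by
    rw [hpdef, Complex.norm_real, Real.norm_eq_abs, abs_of_nonneg hp0]
    exact hp1
  have hqn : ‖q‖ ≤ |s| := by
    rw [hqdef, norm_mul, Complex.norm_I, one_mul, Complex.norm_real, Real.norm_eq_abs, abs_mul,
      abs_of_nonneg (mul_nonneg hα0 hp0)]
    have : α * (1 - α ^ 2) ≤ 1 := by nlinarith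
    calc α * (1 - α ^ 2) * |s| ≤ 1 * |s| := mul_le_mul_of_nonneg_right this (abs_nonneg _)
      _ = |s| := one_mul _
  have hTi : Integrable (fun d => ((c : ℝ) : ℂ)
      * (p * lSpec (B.H d) (B.Rs d) (fun v => (v : ℂ) * f v) - q * lSpec (B.H d) (B.Rs d) f)) Q :=
    ((hI2.const_mul p).sub (hI1.const_mul q)).const_mul _
  have hθ : 0 < ε / 160 := by positivity
  have hg := s7kg_glob B (s7kg_meas2 B hgc u s r) hTi (a := 19) (by norm_num) hC hθ hδb hB
    (fun d => by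
      have := hloc n (B.H d) (B.Rs d) (B.colW d) (ε / 160) hθ
      rw [← hfdef, ← hcdef, ← hαdef, ← hpdef, ← hqdef] at this
      exact this)
  rw [integral_const_mul, integral_sub (hI2.const_mul p) (hI1.const_mul q), integral_const_mul,
    integral_const_mul] at hg
  have eJ : B.J2 t L u x s r = ∫ d, ∫ w, psi2 (B.H d) (B.Rs d) t L u x s r w
      ∂((gam n).prod ((gam n).prod (gam n))) ∂Q := rfl
  have eS : B.spec f = ∫ d, lSpec (B.H d) (B.Rs d) f ∂Q := rfl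
  have eS2 : B.spec (fun v => (v : ℂ) * f v)
      = ∫ d, lSpec (B.H d) (B.Rs d) (fun v => (v : ℂ) * f v) ∂Q := rfl
  rw [← eJ, ← eS, ← eS2] at hg
  rw [s7k_j2_eq hgc hu.le, ← hfdef, ← hcdef, ← hαdef, ← hpdef, ← hqdef]
  obtain ⟨a1, ha1⟩ : ∃ a1, a1 = B.spec (fun v => (v : ℂ) * f v)
      - ∫ v, (v : ℂ) * f v ∂(gaussianReal 0 1) := ⟨_, rfl⟩
  obtain ⟨a2, ha2⟩ : ∃ a2, a2 = B.spec f - ∫ v, f v ∂(gaussianReal 0 1) := ⟨_, rfl⟩
  rw [← ha1] at hspl'
  rw [← ha2] at hsp'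
  have e : B.J2 t L u x s r - ((c : ℝ) : ℂ) * (p * ∫ v, (v : ℂ) * f v ∂(gaussianReal 0 1)
        - q * ∫ v, f v ∂(gaussianReal 0 1))
      = (B.J2 t L u x s r - ((c : ℝ) : ℂ) * (p * B.spec (fun v => (v : ℂ) * f v) - q * B.spec f))
        + ((c : ℝ) : ℂ) * (p * a1 - q * a2) := by
    rw [ha1, ha2]
    ring
  have h2 : ‖((c : ℝ) : ℂ) * (p * a1 - q * a2)‖ ≤ ε / 2 := by
    rw [norm_mul, Complex.norm_real, Real.norm_eq_abs, abs_of_nonneg hc0]
    have k1 : ‖p * a1‖ ≤ ε / 4 := by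
      rw [norm_mul]
      calc ‖p‖ * ‖a1‖ ≤ 1 * (ε / 4) := mul_le_mul hpn hspl' (norm_nonneg _) (by norm_num)
        _ = ε / 4 := one_mul _
    have k2 : ‖q * a2‖ ≤ ε / 4 := by
      rw [norm_mul]
      calc ‖q‖ * ‖a2‖ ≤ |s| * (ε / (4 * (|s| + 1))) :=
            mul_le_mul hqn hsp' (norm_nonneg _) (abs_nonneg _)
        _ = ε / 4 * (|s| / (|s| + 1)) := by field_simp
        _ ≤ ε / 4 * 1 := by
            refine mul_le_mul_of_nonneg_left ?_ (by positivity)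
            rw [div_le_one hs1]
            linarith
        _ = ε / 4 := mul_one _
    have k3 : ‖p * a1 - q * a2‖ ≤ ε / 2 := (norm_sub_le _ _).trans (by linarith)
    calc c * ‖p * a1 - q * a2‖ ≤ 1 * (ε / 2) := mul_le_mul hc1 k3 (norm_nonneg _) (by norm_num)
      _ = ε / 2 := one_mul _
  have h3 : C / (ε / 160) * (3 * δ) ≤ ε / 4 := by
    have hC1 : 0 < C + 1 := by linarith
    have k1 : C / (ε / 160) * (3 * δ) ≤ C / (ε / 160) * (3 * (ε ^ 2 / (1920 * (C + 1)))) :=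
      mul_le_mul_of_nonneg_left (by linarith) (by positivity)
    have k2 : C / (ε / 160) * (3 * (ε ^ 2 / (1920 * (C + 1)))) = ε / 4 * (C / (C + 1)) := by
      field_simp
      ring
    have k3 : C / (C + 1) ≤ 1 := by
      rw [div_le_one hC1]
      linarith
    have k4 : ε / 4 * (C / (C + 1)) ≤ ε / 4 * 1 := mul_le_mul_of_nonneg_left k3 (by positivity)
    linarith
  rw [e]
  refine (norm_add_le _ _).trans ?_
  linarith

end Claimed.Agent.R259
end

/- ===== packed: Claimed.Agent.R259.S7LawJ ===== -/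
section
/-
Row 259 (S0499), section 7, trace law: the joint law of `(A_u, B̃)` on characters.
EXPORT FILE of package BP-S7-LAW-J.  The owner owns this file: keep names and statements, replace
the sorries (helper files `S7LawJ*.lean`, prefix `s7k`, never import this file; they import
`S7LawGE`, `S7LawAlg`, `S7LawSpec`, `S7Cx`).

PROOF of `s7_J1` (`W = R_*`, `A = H[N]`, `A' = H[G']`, `α = e^{-u}`, `β² = 1-α²`, `q = g_x(A)`, all errors by
`|E tr(W² X (Y - Y'))| ≤ (E‖X* W‖²)^{1/2} (E‖(Y-Y')W‖²)^{1/2}`):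
 (a) integrate `G`: `E_G e^{irH[qG]} = gF (colQ H q) r`, replace it by `e^{-r²q²/2} = χ_r(A)`
     (`s7_ge` with `M = q²`, `c_K = 4(1+L)`; `s7_colQ_S`, `s7_swap`, `s7_colQ_cc`,
     `∑_b‖[H_b,q]W‖² ≤ Lip² ∑_b ‖[H_b,A]W‖²`, `E_N ∑_b‖[H_b,A]W‖² = ccW H W`);
 (b) `e^{isA_u} → e^{isβA'} e^{isαA}` (`s7_split`, `E‖[A,A']W‖² = ccW H W`);
 (c) integrate `G'`: `gF H (sβ) → e^{-s²β²/2}` (`s7_ge`, `M = 1`);
 (d) `τ((e^{isα·} χ_r)(A)) → E e^{isαn} χ_r(n)` (`s7_spec`);  (e) the scalar side: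
     `j1 = e^{-s²β²/2} E e^{isαn} χ_r(n)` (characteristic function of `g`, `g'`).
`s7_J2`: the same with the extra factor `A - αA_u = β²A - αβA'`, `E‖(A-αA_u)W‖² ≤ 4β²τ(1)`;
 the `A` term uses `s7_spec_lin`, the `A'` term `s7_ge1`;
 `j2 = e^{-s²β²/2} (β² E n e^{isαn}χ_r(n) - i α β² s E e^{isαn} χ_r(n))`.
-/
set_option autoImplicit false

open MeasureTheory ProbabilityTheory
open scoped BigOperators Matrix
open Claimed.Agent.R260 (Mx mxFun mxSchur mxSq mxIP mxEig mxU mxRot)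

namespace Claimed.Agent.R259

variable {n : ℕ}

theorem s7_J1 {t L u x : ℝ} (ht : 0 < t) (hL : 1 ≤ L) (hu : 0 < u) (hx : 0 < x) (s r : ℝ) :
    ∀ ε : ℝ, 0 < ε → ∃ δ : ℝ, 0 < δ ∧
      ∀ (n : ℕ) (D : Type) [MeasurableSpace D] (Q : Measure D) [IsProbabilityMeasure Q]
        (B : BlockModel n Q), B.Small δ → ‖B.J1 t L u x s r - j1 t L u x s r‖ ≤ ε :=
  s7kg_J1 ht hL hu hx s r

theorem s7_J2 {t L u x : ℝ} (ht : 0 < t) (hL : 1 ≤ L) (hu : 0 < u) (hx : 0 < x) (s r : ℝ) :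
    ∀ ε : ℝ, 0 < ε → ∃ δ : ℝ, 0 < δ ∧
      ∀ (n : ℕ) (D : Type) [MeasurableSpace D] (Q : Measure D) [IsProbabilityMeasure Q]
        (B : BlockModel n Q), B.Small δ → ‖B.J2 t L u x s r - j2 t L u x s r‖ ≤ ε :=
  s7kg_J2 ht hL hu hx s r

end Claimed.Agent.R259
end

/- ===== packed: Claimed.Agent.R259.S7LawTopF ===== -/
section
/-
Row 259 (S0499), section 7, trace law, package L-S7-LAW-TOP, part F: the glue.
Pointwise convergence of `mInt` from `s7_J1`, `s7_J2`; reduction of `mJ`, `scJ` to integrals over a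
rectangle; uniformisation.  Owner: helper236.
-/
set_option autoImplicit false
set_option linter.unusedVariables false

open MeasureTheory ProbabilityTheory
open scoped BigOperators Matrix
open Claimed.Agent.R260 (Mx mxFun mxSchur mxSq mxIP mxEig mxU mxRot)

namespace Claimed.Agent.R259

theorem s7t2_small_mono {n : ℕ} {D : Type} [MeasurableSpace D] {Q : Measure D}
    {B : BlockModel n Q} {δ δ' : ℝ} (h : δ ≤ δ') (hB : B.Small δ) : B.Small δ' :=
  ⟨hB.mass.trans h, hB.sdef.trans h, hB.cdef.trans h, hB.xdef.trans h⟩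

/-- finitely many `δ`s -/
theorem s7t2_fin_min {ι : Type*} [Fintype ι] (p : ι → ℝ → Prop)
    (hmono : ∀ i δ δ', δ ≤ δ' → p i δ' → p i δ) (h : ∀ i, ∃ δ : ℝ, 0 < δ ∧ p i δ) :
    ∃ δ : ℝ, 0 < δ ∧ ∀ i, p i δ := by
  classical
  have key : ∀ s : Finset ι, ∃ δ : ℝ, 0 < δ ∧ ∀ i ∈ s, p i δ := by
    intro s
    induction s using Finset.induction_on with
    | empty => exact ⟨1, one_pos, fun i hi => absurd hi (Finset.notMem_empty i)⟩
    | insert a s ha ih =>
      obtain ⟨δ1, h1, hp1⟩ := ih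
      obtain ⟨δ2, h2, hp2⟩ := h a
      refine ⟨min δ1 δ2, lt_min h1 h2, fun i hi => ?_⟩
      rcases Finset.mem_insert.1 hi with rfl | hi
      · exact hmono _ _ _ (min_le_right _ _) hp2
      · exact hmono _ _ _ (min_le_left _ _) (hp1 i hi)
  obtain ⟨δ, hδ, hp⟩ := key Finset.univ
  exact ⟨δ, hδ, fun i => hp i (Finset.mem_univ i)⟩

/-- pointwise convergence of the value at fixed `(u,x)` -/
theorem s7t2_pt_conv {t L u x : ℝ} (ht : 0 < t) (hL : 1 ≤ L) (hu : 0 < u) (hx : 0 < x) (P : Tst) :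
    ∀ ε : ℝ, 0 < ε → ∃ δ : ℝ, 0 < δ ∧
      ∀ (n : ℕ) (D : Type) [MeasurableSpace D] (Q : Measure D) [IsProbabilityMeasure Q]
        (B : BlockModel n Q), B.Small δ → |B.mInt t L P u x - scInt t L P u x| ≤ ε := by
  intro ε hε
  have hL0 : 0 < L := lt_of_lt_of_le one_pos hL
  set S1 : ℝ := ∑ k, ‖P.c k u x‖ with hS1
  have hS10 : 0 ≤ S1 := Finset.sum_nonneg fun k _ => norm_nonneg _
  set e : ℝ := ε / (2 * S1 + 4 * S1 ^ 2 + 1) with he
  have he0 : 0 < e := by positivity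
  obtain ⟨δ1, hδ1, h1⟩ := s7t2_fin_min (ι := Fin P.K × Fin P.K)
    (fun kl δ => ∀ (n : ℕ) (D : Type) [MeasurableSpace D] (Q : Measure D) [IsProbabilityMeasure Q]
        (B : BlockModel n Q), B.Small δ →
        ‖B.J1 t L u x (P.s kl.2 - P.s kl.1) (P.r kl.2 - P.r kl.1)
          - j1 t L u x (P.s kl.2 - P.s kl.1) (P.r kl.2 - P.r kl.1)‖ ≤ e)
    (fun kl δ δ' hle hp n D _ Q _ B hB => hp n D Q B (s7t2_small_mono hle hB))
    (fun kl => s7_J1 ht hL hu hx _ _ e he0)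
  obtain ⟨δ2, hδ2, h2⟩ := s7t2_fin_min (ι := Fin P.K)
    (fun k δ => ∀ (n : ℕ) (D : Type) [MeasurableSpace D] (Q : Measure D) [IsProbabilityMeasure Q]
        (B : BlockModel n Q), B.Small δ →
        ‖B.J2 t L u x (P.s k) (P.r k) - j2 t L u x (P.s k) (P.r k)‖ ≤ e)
    (fun k δ δ' hle hp n D _ Q _ B hB => hp n D Q B (s7t2_small_mono hle hB))
    (fun k => s7_J2 ht hL hu hx _ _ e he0)
  refine ⟨min δ1 δ2, lt_min hδ1 hδ2, fun n D _ Q _ B hB => ?_⟩
  have hB1 := s7t2_small_mono (min_le_left δ1 δ2) hB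
  have hB2 := s7t2_small_mono (min_le_right δ1 δ2) hB
  rw [s7t2_mInt_pos B t hL0 P u hx.le, s7t2_scInt_pos t hL0 P u hx.le]
  refine (s7t2_comb_sub_le P u x _ _ _ _).trans ?_
  have b2 : ∑ k, ‖P.c k u x‖ * ‖B.J2 t L u x (P.s k) (P.r k) - j2 t L u x (P.s k) (P.r k)‖
      ≤ S1 * e := by
    rw [hS1, Finset.sum_mul]
    exact Finset.sum_le_sum fun k _ =>
      mul_le_mul_of_nonneg_left (h2 k n D Q B hB2) (norm_nonneg _)
  have b1 : ∑ k, ∑ l, ‖P.c k u x‖ * ‖P.c l u x‖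
      * ‖B.J1 t L u x (P.s l - P.s k) (P.r l - P.r k)
        - j1 t L u x (P.s l - P.s k) (P.r l - P.r k)‖ ≤ S1 ^ 2 * e := by
    have : S1 ^ 2 * e = ∑ k, ∑ l, ‖P.c k u x‖ * ‖P.c l u x‖ * e := by
      rw [sq, hS1, Finset.sum_mul_sum, Finset.sum_mul]
      exact Finset.sum_congr rfl fun k _ => Finset.sum_mul _ _ _
    rw [this]
    exact Finset.sum_le_sum fun k _ => Finset.sum_le_sum fun l _ =>
      mul_le_mul_of_nonneg_left (h1 (k, l) n D Q B hB1) (by positivity)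
  calc _ ≤ 2 * (S1 * e) + 4 * (S1 ^ 2 * e) :=
        add_le_add (mul_le_mul_of_nonneg_left b2 (by norm_num))
          (mul_le_mul_of_nonneg_left b1 (by norm_num))
    _ = (2 * S1 + 4 * S1 ^ 2) * e := by ring
    _ ≤ (2 * S1 + 4 * S1 ^ 2 + 1) * e := by nlinarith
    _ = ε := by rw [he]; field_simp

/-- the rectangle measure -/
noncomputable abbrev s7t2R (u0 u1 x0 x1 : ℝ) : Measure (ℝ × ℝ) :=
  (volume.restrict (Set.Icc u0 u1)).prod (volume.restrict (Set.Icc x0 x1))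

theorem s7t2f_eqns_cite : True := by
  have := @s7t2R.eq_1
  trivial

theorem s7t2_R_mem (u0 u1 x0 x1 : ℝ) :
    ∀ᵐ p ∂(s7t2R u0 u1 x0 x1), p.1 ∈ Set.Icc u0 u1 ∧ p.2 ∈ Set.Icc x0 x1 := by
  unfold s7t2R
  rw [Measure.prod_restrict]
  exact ae_restrict_mem (measurableSet_Icc.prod measurableSet_Icc)

/-- pointwise bound on the rectangle -/
theorem s7t2_rect_bd {u0 u1 x0 x1 Ck C : ℝ} (hx0 : 0 < x0)
    (hCk : ∀ u ∈ Set.Icc u0 u1, |kap u| ≤ Ck) {m : ℝ → ℝ → ℝ}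
    (hC : ∀ u ∈ Set.Icc u0 u1, ∀ x, |m u x| ≤ C) {p : ℝ × ℝ}
    (hp : p.1 ∈ Set.Icc u0 u1 ∧ p.2 ∈ Set.Icc x0 x1) :
    |kap p.1 * (m p.1 p.2 / p.2 ^ 2)| ≤ Ck * (C / x0 ^ 2) := by
  have hx : x0 ≤ p.2 := hp.2.1
  have hC0 : 0 ≤ C := (abs_nonneg _).trans (hC p.1 hp.1 p.2)
  have hsq : x0 ^ 2 ≤ p.2 ^ 2 := pow_le_pow_left₀ hx0.le hx 2
  rw [abs_mul, abs_div, abs_of_nonneg (sq_nonneg p.2)]
  refine mul_le_mul (hCk _ hp.1) ?_ (by positivity) ((abs_nonneg _).trans (hCk _ hp.1))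
  exact div_le_div₀ hC0 (hC _ hp.1 _) (by positivity) hsq

/-- reduction of the iterated integral to an integral over the rectangle -/
theorem s7t2_rect {u0 u1 x0 x1 : ℝ} (hu0 : 0 < u0) (hx0 : 0 < x0) {m : ℝ → ℝ → ℝ}
    (hm : Measurable fun p : ℝ × ℝ => m p.1 p.2) {C : ℝ}
    (hC : ∀ u ∈ Set.Icc u0 u1, ∀ x, |m u x| ≤ C)
    (hs : ∀ u x, x ∉ Set.Icc x0 x1 → m u x = 0) :
    Integrable (fun p : ℝ × ℝ => kap p.1 * (m p.1 p.2 / p.2 ^ 2)) (s7t2R u0 u1 x0 x1) ∧
    ∫ u in Set.Icc u0 u1, kap u * ∫ x in Set.Ioi (0 : ℝ), m u x / x ^ 2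
      = ∫ p, kap p.1 * (m p.1 p.2 / p.2 ^ 2) ∂(s7t2R u0 u1 x0 x1) := by
  obtain ⟨Ck, hCk0, hCk⟩ := s7v_kap_bound hu0 u1
  have hmeas : Measurable fun p : ℝ × ℝ => kap p.1 * (m p.1 p.2 / p.2 ^ 2) :=
    (s7v_kap_measurable.comp measurable_fst).mul (hm.div (measurable_snd.pow_const 2))
  have hint : Integrable (fun p : ℝ × ℝ => kap p.1 * (m p.1 p.2 / p.2 ^ 2))
      (s7t2R u0 u1 x0 x1) := by
    refine Integrable.mono' (integrable_const (Ck * (C / x0 ^ 2))) hmeas.aestronglyMeasurable ?_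
    filter_upwards [s7t2_R_mem u0 u1 x0 x1] with p hp
    rw [Real.norm_eq_abs]
    exact s7t2_rect_bd hx0 hCk hC hp
  refine ⟨hint, ?_⟩
  rw [integral_prod _ hint]
  refine integral_congr_ae (Filter.Eventually.of_forall fun u => ?_)
  simp only
  rw [integral_const_mul]
  congr 1
  refine setIntegral_eq_of_subset_of_forall_sdiff_eq_zero measurableSet_Ioi
    (fun x hx => lt_of_lt_of_le hx0 hx.1) (fun x hx => ?_)
  rw [hs u x hx.2, zero_div]

/-- L-S7-LAW-TOP -/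
theorem s7t2_law {t L u0 u1 : ℝ} (ht : 0 < t) (hL : 1 ≤ L) (hu0 : 0 < u0) (hu : u0 < u1) (P : Tst) :
    ∀ ε : ℝ, 0 < ε → ∃ δ : ℝ, 0 < δ ∧
      ∀ (n : ℕ) (D : Type) [MeasurableSpace D] (Q : Measure D) [IsProbabilityMeasure Q]
        (B : BlockModel n Q), B.Small δ → |B.mJ t L u0 u1 P - scJ t L u0 u1 P| ≤ ε := by
  have hL0 : 0 < L := lt_of_lt_of_le one_pos hL
  obtain ⟨Cc, hCc0, hCc⟩ := s7v_coef_bound P u0 u1
  obtain ⟨Ck, hCk0, hCk⟩ := s7v_kap_bound hu0 u1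
  set Cm : ℝ := 2 * (P.K * (Cc * 17)) + 4 * (P.K * (P.K * (Cc * Cc * 2))) with hCm
  set Cs : ℝ := 2 * (P.K * (Cc * (2 * ∫ y, |y| ∂(gaussianReal 0 1))))
      + 4 * (P.K * (P.K * (Cc * Cc * 1))) with hCs
  have hbm : ∀ (n : ℕ) (D : Type) [MeasurableSpace D] (Q : Measure D) [IsProbabilityMeasure Q]
      (B : BlockModel n Q), B.Small 1 → ∀ u ∈ Set.Icc u0 u1, ∀ x, |B.mInt t L P u x| ≤ Cm :=
    fun n D _ Q _ B hB u hu' x => s7t2_mInt_abs_le B t hL0 P (hu0.le.trans hu'.1) hCc0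
      (fun k => hCc k u hu' x) hB le_rfl
  have hbs : ∀ u ∈ Set.Icc u0 u1, ∀ x, |scInt t L P u x| ≤ Cs :=
    fun u hu' x => s7t2_scInt_abs_le t hL0 P (hu0.le.trans hu'.1) hCc0 (fun k => hCc k u hu' x)
  obtain ⟨hsi, hse⟩ := s7t2_rect (u1 := u1) hu0 P.x0_pos (x1 := P.x1) (s7t2_scInt_meas t hL0 P) hbs
    (fun u x hx => s7t2_scInt_supp t L P u hx)
  -- the family of differences
  set S : ℝ → Set (ℝ × ℝ → ℝ) := fun δ => {f | ∃ (n : ℕ) (D : Type) (_ : MeasurableSpace D)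
    (Q : Measure D) (_ : IsProbabilityMeasure Q) (B : BlockModel n Q), B.Small δ ∧
    f = fun p => kap p.1 * ((B.mInt t L P p.1 p.2 - scInt t L P p.1 p.2) / p.2 ^ 2)} with hS
  have key := s7t2_unif (s7t2R u0 u1 P.x0 P.x1) S
    (fun δ δ' hle f hf => by
      obtain ⟨n, D, mD, Q, hQ, B, hB, rfl⟩ := hf
      exact ⟨n, D, mD, Q, hQ, B, s7t2_small_mono hle hB, rfl⟩)
    (Ck * ((Cm + Cs) / P.x0 ^ 2))
    (fun f hf => by
      obtain ⟨n, D, _, Q, _, B, hB, rfl⟩ := hf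
      exact ((s7v_kap_measurable.comp measurable_fst).mul
        (((s7t2_mInt_meas B t hL0 P).sub (s7t2_scInt_meas t hL0 P)).div
          (measurable_snd.pow_const 2))).aestronglyMeasurable)
    (fun f hf => by
      obtain ⟨n, D, _, Q, _, B, hB, rfl⟩ := hf
      filter_upwards [s7t2_R_mem u0 u1 P.x0 P.x1] with p hp
      exact s7t2_rect_bd (m := fun u x => B.mInt t L P u x - scInt t L P u x) P.x0_pos hCk
        (fun u hu' x => (abs_sub _ _).trans (add_le_add (hbm n D Q B hB u hu' x) (hbs u hu' x))) hp)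
    (by
      filter_upwards [s7t2_R_mem u0 u1 P.x0 P.x1] with p hp ε hε
      have hup : 0 < p.1 := lt_of_lt_of_le hu0 hp.1.1
      have hxp : 0 < p.2 := lt_of_lt_of_le P.x0_pos hp.2.1
      obtain ⟨δ, hδ, hconv⟩ := s7t2_pt_conv ht hL hup hxp P (ε * p.2 ^ 2 / (|kap p.1| + 1))
        (by positivity)
      refine ⟨δ, hδ, fun f hf => ?_⟩
      obtain ⟨n, D, _, Q, _, B, hB, rfl⟩ := hf
      have h1 := hconv n D Q B hB
      simp only
      rw [abs_mul, abs_div, abs_of_nonneg (sq_nonneg p.2)]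
      have hk : 0 ≤ |kap p.1| := abs_nonneg _
      calc |kap p.1| * (|B.mInt t L P p.1 p.2 - scInt t L P p.1 p.2| / p.2 ^ 2)
          ≤ |kap p.1| * ((ε * p.2 ^ 2 / (|kap p.1| + 1)) / p.2 ^ 2) := by
            refine mul_le_mul_of_nonneg_left ?_ hk
            exact div_le_div_of_nonneg_right h1 (by positivity)
        _ = ε * (|kap p.1| / (|kap p.1| + 1)) := by field_simp
        _ ≤ ε * 1 := by
            refine mul_le_mul_of_nonneg_left ?_ hε.le
            rw [div_le_one (by positivity)]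
            linarith
        _ = ε := mul_one ε)
  intro ε hε
  obtain ⟨δ, hδ, hfin⟩ := key ε hε
  refine ⟨min δ 1, lt_min hδ one_pos, fun n D mD Q hQ B hB => ?_⟩
  have hB1 := s7t2_small_mono (min_le_right δ 1) hB
  have hBδ := s7t2_small_mono (min_le_left δ 1) hB
  obtain ⟨hmi, hme⟩ := s7t2_rect (u1 := u1) hu0 P.x0_pos (x1 := P.x1) (s7t2_mInt_meas B t hL0 P)
    (hbm n D Q B hB1) (fun u x hx => s7t2_mInt_supp B t L P u hx)
  have h := hfin _ ⟨n, D, mD, Q, hQ, B, hBδ, rfl⟩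
  unfold BlockModel.mJ scJ
  rw [hme, hse, ← integral_sub hmi hsi]
  refine le_of_eq_of_le ?_ h
  congr 1
  refine integral_congr_ae (Filter.Eventually.of_forall fun p => ?_)
  simp only
  ring

end Claimed.Agent.R259
end

/- ===== packed: Claimed.Agent.R259.S7Law ===== -/
section
/-
Row 259 (S0499), section 7: the trace law for bounded tests (replaces L7.8 and L6.7).
EXPORT FILE of package L-S7-LAW-TOP.  The owner owns this file: keep name and statement of `s7_law`,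
replace the sorry by a citation of helper files `S7LawTop*.lean` (prefix `s7t`), which never import
this file; they import `S7LawJ` (exports `s7_J1`, `s7_J2`), `S7LawAlg`, `S7Cx`.

PLAN (hand-checked).  `W = R_*(d)`, `A = H[N]`, `A_u = H[N_u]`, `B̃ = H[g_x(A) G]`, `U_k = e^{i s_k A_u}`,
`V_k = e^{i r_k B̃}`; all of them commute with `W` (`mxFunC_commute`, `BlockModel.comm`).
 T1 (expansion)  `mInt t L P u x = 2 Re ∑_k c_k(u,x) J2(s_k,r_k)
        - 4 ∑_{k,l} Re (conj c_k(u,x) · c_l(u,x) · J1(s_l - s_k, r_l - r_k))`: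
     `‖Q W‖² = tr(W² Q* Q)`, `tr(W² V_k* U_k* U_l V_l) = tr(W² U_k* U_l V_l V_k*)` (cyclicity, `W` commutes),
     `cE_add`, `cE_conjTranspose`.  Integrability: `|tr(W² X)| ≤ ‖W‖² ` for a product `X` of unitaries,
     `|tr(W² H[v] X)| ≤ ‖W‖ ‖H[v] W‖ ≤ 2 |v| ‖W‖²` (`flt`), `Rs_int`; measurability in `(d,w)` from
     `mxFunC_continuous`, `mxFun_continuous_param` composed with measurable entries.
 T2 the same for scalars: `scInt = 2 Re ∑ c_k j2(s_k,r_k) - 4 ∑ Re (conj c_k c_l j1(s_l-s_k, r_l-r_k))`.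
 T3 bounds for `B.Small 1`, `0 < u`: `‖J1‖ ≤ τ(1) ≤ 2`, `‖J2‖ ≤ 2 τ(1) ≤ 4`
     (`E‖H[N - αN_u]W‖² = (1-α²) tr(W² S) ≤ 4 ‖W‖²`), `‖j1‖ ≤ 1`, `‖j2‖ ≤ 1`; the `c_k` are bounded on the
     compact `[u0,u1] × [x0,x1]` and vanish for `x ∉ [x0,x1]`: `|mInt - scInt| ≤ C`, `= 0` for `x ∉ [x0,x1]`.
 T4 `(u,x) ↦ J1, J2, j1, j2` are measurable (`StronglyMeasurable.integral_prod_right`, joint measurability
     of the integrands in `(u,x,d,w)`).
 T5 abstract uniformisation: `α` measurable space, `μ s < ∞`, `S : ℝ → Set (α → ℝ)` monotone, every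
     `f ∈ S 1` measurable and `|f| ≤ C` on `s`, and `∀ a ∈ s, ∀ ε > 0, ∃ δ > 0, ∀ f ∈ S δ, |f a| ≤ ε`.  Then
     `∀ ε > 0, ∃ δ > 0, ∀ f ∈ S δ, |∫ a in s, f a ∂μ| ≤ ε`.  (By contradiction: `f_m ∈ S (1/(m+1))` with
     `|∫ f_m| > ε`; `f_m → 0` pointwise on `s`; dominated convergence.)
 T6 glue: T5 in `x` for fixed `u` (`S δ = {x ↦ (mInt_B - scInt)(u,x)/x² : B.Small δ}`, `s = [x0,x1]`), then T5
     in `u` (`s = [u0,u1]`, functions `u ↦ κ(u) ∫ ...`); no Fubini.  `B.Small δ → B.Small δ'` for `δ ≤ δ'`.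
-/
set_option autoImplicit false

open MeasureTheory ProbabilityTheory
open scoped BigOperators Matrix
open Claimed.Agent.R260 (Mx mxFun mxSchur mxSq mxIP mxEig mxU mxRot)

namespace Claimed.Agent.R259

/-- L-S7-LAW-TOP.  Statement about ABSTRACT block models.  PROVED in `S7LawTopA`-`S7LawTopF`
(helper236) from `s7_J1`, `s7_J2`, `s7_avg_sq`. -/
theorem s7_law {t L u0 u1 : ℝ} (ht : 0 < t) (hL : 1 ≤ L) (hu0 : 0 < u0) (hu : u0 < u1) (P : Tst) :
    ∀ ε : ℝ, 0 < ε → ∃ δ : ℝ, 0 < δ ∧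
      ∀ (n : ℕ) (D : Type) [MeasurableSpace D] (Q : Measure D) [IsProbabilityMeasure Q]
        (B : BlockModel n Q), B.Small δ → |B.mJ t L u0 u1 P - scJ t L u0 u1 P| ≤ ε :=
  s7t2_law ht hL hu0 hu P

end Claimed.Agent.R259
end
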