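/- Packed by merge_tool.py (helper293): 10 modules of Claimed.Agent.R259 in one file, same declarations.
   Old modules, in this order: S7ScEnt, S7ScApprox, S7ScMain, S7Sc, S6Model, S6FrzDefs, S6FrzOne, S6FrzRoot, S6FrzPair, S6FrzMeas -/
import Claimed.Agent.R259.Pack028
import Claimed.Agent.R259.Pack027
import Claimed.Agent.R259.Pack042
import Claimed.Agent.R259.Pack047
import Claimed.Agent.R259.Pack051
import Claimed.Agent.R259.Pack031
import Claimed.Agent.R259.Pack020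
import Claimed.Agent.R259.Pack049
import Claimed.Agent.R259.Pack046
import Claimed.Agent.R259.Pack050
import Claimed.Agent.R259.Pack029

/- ===== packed: Claimed.Agent.R259.S7ScEnt ===== -/
section
/-
Row 259 (S0499), package BP-S7-SCALAR: lower bound of the mutual information of `n` and the shell.
Proofs: helper219 (helpers `s7se_*`; `s7s_log_lower` is proved in S7ScLog.lean).
-/
set_option autoImplicit false

open MeasureTheory ProbabilityTheory
open scoped BigOperators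

namespace Claimed.Agent.R259

/-! ### elementary inequalities -/

/-- Fenchel's inequality for the relative entropy density -/
theorem s7se_fenchel {l q : ℝ} (hl : 0 < l) (hq : 0 < q) (s : ℝ) :
    s * l - (Real.exp s - 1) * q ≤ l * Real.log l - l * Real.log q - l + q := by
  have h1 := Real.add_one_le_exp (s - (Real.log l - Real.log q))
  have h2 : l * Real.exp (s - (Real.log l - Real.log q)) = q * Real.exp s := by
    rw [Real.exp_sub, Real.exp_sub, Real.exp_log hl, Real.exp_log hq]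
    field_simp
  have h3 := mul_le_mul_of_nonneg_left h1 hl.le
  rw [h2] at h3
  nlinarith

theorem s7se_phi_nonneg {l q : ℝ} (hl : 0 < l) (hq : 0 < q) :
    0 ≤ l * Real.log l - l * Real.log q - l + q := by
  have := s7se_fenchel hl hq 0
  simpa using this

/-- summation of Fenchel's inequality over the shells `≥ k` -/
theorem s7se_sum_fenchel {J k : ℕ} (l q : ℕ → ℝ) (hl : ∀ j ≤ J, 0 < l j) (hq : ∀ j ≤ J, 0 < q j)
    (s : ℝ) :
    s * ∑ j ∈ Finset.Icc k J, l j - (Real.exp s - 1) * ∑ j ∈ Finset.Icc k J, q j ≤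
      ∑ j ∈ Finset.range (J + 1), (l j * Real.log (l j) - l j * Real.log (q j) - l j + q j) := by
  have hsub : Finset.Icc k J ⊆ Finset.range (J + 1) := by
    intro j hj
    rw [Finset.mem_range]
    have := (Finset.mem_Icc.1 hj).2
    omega
  refine le_trans ?_ (Finset.sum_le_sum_of_subset_of_nonneg hsub fun j hj _ => ?_)
  · rw [Finset.mul_sum, Finset.mul_sum, ← Finset.sum_sub_distrib]
    refine Finset.sum_le_sum fun j hj => ?_
    have hjJ := (Finset.mem_Icc.1 hj).2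
    exact s7se_fenchel (hl j hjJ) (hq j hjJ) s
  · have hjJ : j ≤ J := by
      have := Finset.mem_range.1 hj
      omega
    exact s7se_phi_nonneg (hl j hjJ) (hq j hjJ)

/-- `p0 = γ{g² ≥ 2}` -/
noncomputable def s7seP0 : ℝ := (gaussianReal 0 1).real {g : ℝ | 2 ≤ g ^ 2}

theorem s7se_p0_pos : 0 < s7seP0 := by
  unfold s7seP0 Measure.real
  refine ENNReal.toReal_pos (fun h0 => ?_) (measure_ne_top _ _)
  have h1 : volume {g : ℝ | 2 ≤ g ^ 2} = 0 := gaussianReal_absolutelyContinuous' 0 one_ne_zero h0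
  have h2 : Set.Icc (2 : ℝ) 3 ⊆ {g : ℝ | 2 ≤ g ^ 2} := by
    intro g hg
    have := hg.1
    show 2 ≤ g ^ 2
    nlinarith
  have h3 := measure_mono_null h2 h1
  rw [Real.volume_Icc] at h3
  norm_num at h3

theorem s7se_p0_le : s7seP0 ≤ 1 := measureReal_le_one

/-- the numerical conclusion at one label -/
theorem s7se_num {p Q y : ℝ} (hp : s7seP0 ≤ p) (hQ0 : 0 ≤ Q)
    (hQ : Q ≤ 3 * Real.exp (-((⌊y⌋₊ : ℝ) / 4))) (hy : 48 / s7seP0 ≤ y) :
    s7seP0 / 16 * y ≤ (⌊y⌋₊ : ℝ) / 4 * p - (Real.exp ((⌊y⌋₊ : ℝ) / 4) - 1) * Q := by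
  have hp0 := s7se_p0_pos
  have hp1 := s7se_p0_le
  have hy48 : 48 ≤ s7seP0 * y := by
    rw [div_le_iff₀ hp0] at hy
    linarith
  have hy2 : 48 ≤ y := by nlinarith
  set k : ℝ := (⌊y⌋₊ : ℝ) with hk
  have hk0 : 0 ≤ k := Nat.cast_nonneg _
  have hk1 : y - 1 ≤ k := (Nat.sub_one_lt_floor y).le
  have h1 : (Real.exp (k / 4) - 1) * Q ≤ 3 := by
    have h2 : Real.exp (k / 4) * Q ≤ Real.exp (k / 4) * (3 * Real.exp (-(k / 4))) :=
      mul_le_mul_of_nonneg_left hQ (Real.exp_pos _).le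
    have h3 : Real.exp (k / 4) * (3 * Real.exp (-(k / 4))) = 3 := by
      rw [mul_left_comm, ← Real.exp_add]
      simp
    nlinarith
  have h4 : k / 4 * s7seP0 ≤ k / 4 * p := mul_le_mul_of_nonneg_left hp (by positivity)
  nlinarith

/-! ### the cap function and the tails -/

theorem s7se_fL_nonneg {t q : ℝ} (ht : 0 < t) (hq : 0 ≤ q) : 0 ≤ fL t q := by
  unfold fL
  positivity

theorem s7se_fL_le {t q : ℝ} (ht : 0 < t) (hq : 0 ≤ q) : fL t q ≤ q := by
  unfold fL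
  apply div_le_self hq
  have : 0 ≤ q / t := by positivity
  linarith

theorem s7se_fL_ge {t q : ℝ} (ht : 0 < t) (hq : 0 ≤ q) (hqt : q ≤ t) : q / 2 ≤ fL t q := by
  unfold fL
  have h1 : q / t ≤ 1 := (div_le_one ht).2 hqt
  have h2 : 0 ≤ q / t := by positivity
  exact div_le_div_of_nonneg_left hq (by linarith) (by linarith)

theorem s7se_sig_sq {t : ℝ} (ht : 0 < t) (τ : ℝ) : s7sSig t τ ^ 2 = 1 + fL t (Real.exp τ) := by
  unfold s7sSig
  exact Real.sq_sqrt (by have := s7se_fL_nonneg ht (Real.exp_pos τ).le; linarith)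

theorem s7se_tail2 (k : ℕ) :
    (gaussianReal 0 1).real {g : ℝ | (k : ℝ) ≤ 2 * g ^ 2} ≤ 2 * Real.exp (-((k : ℝ) / 4)) := by
  have h1 := s7s_tail (Real.sqrt ((k : ℝ) / 2)) (Real.sqrt_nonneg _)
  rw [Real.sq_sqrt (by positivity)] at h1
  have h2 : {g : ℝ | (k : ℝ) ≤ 2 * g ^ 2} ⊆ {g : ℝ | Real.sqrt ((k : ℝ) / 2) ≤ |g|} := by
    intro g hg
    have hg' : (k : ℝ) ≤ 2 * g ^ 2 := hg
    show Real.sqrt ((k : ℝ) / 2) ≤ |g|
    rw [← Real.sqrt_sq_eq_abs]
    exact Real.sqrt_le_sqrt (by linarith)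
  refine (measureReal_mono h2).trans (h1.trans (le_of_eq ?_))
  congr 2
  ring

/-- upper bound of the tail of the observation -/
theorem s7se_tail_le {t : ℝ} (ht : 0 < t) (k : ℕ) (τ : ℝ) :
    (gaussianReal 0 1).real {g : ℝ | (k : ℝ) ≤ (s7sSig t τ * g) ^ 2} ≤
      Real.exp τ + 2 * Real.exp (-((k : ℝ) / 4)) := by
  rcases le_total 1 (Real.exp τ) with h1 | h1
  · have : (gaussianReal 0 1).real {g : ℝ | (k : ℝ) ≤ (s7sSig t τ * g) ^ 2} ≤ 1 := measureReal_le_one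
    have := Real.exp_pos (-((k : ℝ) / 4))
    linarith
  · have hsub : {g : ℝ | (k : ℝ) ≤ (s7sSig t τ * g) ^ 2} ⊆ {g : ℝ | (k : ℝ) ≤ 2 * g ^ 2} := by
      intro g hg
      have hg' : (k : ℝ) ≤ (s7sSig t τ * g) ^ 2 := hg
      show (k : ℝ) ≤ 2 * g ^ 2
      rw [mul_pow, s7se_sig_sq ht] at hg'
      have h2 := s7se_fL_le ht (Real.exp_pos τ).le
      have h3 : (1 + fL t (Real.exp τ)) * g ^ 2 ≤ 2 * g ^ 2 :=
        mul_le_mul_of_nonneg_right (by linarith) (sq_nonneg g)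
      linarith
    have := (measureReal_mono hsub).trans (s7se_tail2 k)
    have := Real.exp_pos τ
    linarith

/-- lower bound of the tail of the observation -/
theorem s7se_tail_ge {t : ℝ} (ht : 0 < t) (k : ℕ) (τ : ℝ) (h1 : (k : ℝ) ≤ Real.exp τ)
    (h2 : Real.exp τ ≤ t) :
    s7seP0 ≤ (gaussianReal 0 1).real {g : ℝ | (k : ℝ) ≤ (s7sSig t τ * g) ^ 2} := by
  unfold s7seP0
  refine measureReal_mono ?_
  intro g hg
  have hg' : 2 ≤ g ^ 2 := hg
  show (k : ℝ) ≤ (s7sSig t τ * g) ^ 2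
  rw [mul_pow, s7se_sig_sq ht]
  have h3 := s7se_fL_ge ht (Real.exp_pos τ).le h2
  have h4 : 0 ≤ Real.exp τ := (Real.exp_pos τ).le
  nlinarith

/-! ### integrals -/

theorem s7se_integrable_of_cont {l : ℝ → ℝ} (hc : Continuous l) {C : ℝ} (hb : ∀ n, |l n| ≤ C) :
    Integrable l (gaussianReal 0 1) :=
  Integrable.of_bound hc.aestronglyMeasurable C (Filter.Eventually.of_forall hb)

theorem s7se_mul_log_abs_le {l : ℝ} (h0 : 0 < l) (h1 : l ≤ 1) : |l * Real.log l| ≤ 1 := by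
  have h2 : Real.log l ≤ 0 := Real.log_nonpos h0.le h1
  have h3 : 1 - l⁻¹ ≤ Real.log l := Real.one_sub_inv_le_log_of_pos h0
  have h4 : l * (1 - l⁻¹) ≤ l * Real.log l := mul_le_mul_of_nonneg_left h3 h0.le
  have h5 : l * (1 - l⁻¹) = l - 1 := by field_simp
  have h6 : l * Real.log l ≤ 0 := mul_nonpos_of_nonneg_of_nonpos h0.le h2
  rw [abs_le]
  constructor <;> linarith

/-- the entropy as the integral of the relative entropy density -/
theorem s7se_ent_eq {l : ℝ → ℝ} (h1 : Integrable l (gaussianReal 0 1))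
    (h2 : Integrable (fun n => l n * Real.log (l n)) (gaussianReal 0 1)) :
    ent (gaussianReal 0 1) l = ∫ n, (l n * Real.log (l n)
      - l n * Real.log (∫ m, l m ∂(gaussianReal 0 1)) - l n + ∫ m, l m ∂(gaussianReal 0 1))
      ∂(gaussianReal 0 1) := by
  unfold ent
  set q : ℝ := ∫ m, l m ∂(gaussianReal 0 1) with hq
  have hB : Integrable (fun n => l n * Real.log q) (gaussianReal 0 1) := h1.mul_const _
  have hA : Integrable (fun n => l n * Real.log (l n) - l n * Real.log q) (gaussianReal 0 1) :=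
    h2.sub hB
  have hC : Integrable (fun n => l n * Real.log (l n) - l n * Real.log q - l n)
      (gaussianReal 0 1) := hA.sub h1
  rw [integral_add hC (integrable_const _), integral_sub hA h1, integral_sub h2 hB,
    integral_mul_const, integral_const, ← hq]
  simp

/-- L-s7s-ent.  `c = p0/16`, `p0 = γ{g² ≥ 2} > 0`, `h0 = 48/p0`.
PLAN.  `q_j = ∫ l_j dγ > 0`.  `ent γ l_j = ∫ (l_j log l_j - l_j log q_j - l_j + q_j) dγ`, the integrand
is `≥ 0` and `≥ s l_j - (e^s - 1) q_j` for every real `s` (`e^v ≥ 1 + v`, `v = s - log (l_j/q_j)`).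
Fix `n ∈ E_x`, `k = ⌊x ℓ(n)⌋₊ ≤ t ≤ J`, `s = k/4`, sum over `j ∈ Icc k J` (`s7s_lam_tail`):
`p := ∑ l_j(n) = γ{k ≤ σ² g²} ≥ p0` because `σ² ≥ f_t(xℓ) ≥ xℓ/2 ≥ k/2`;
`q := ∑ q_j = ∫ γ{k ≤ σ(n')² g²} dγ(n') ≤ ∫ (x ℓ(n') + γ{k ≤ 2 g²}) dγ(n') ≤ x + 2 e^{-k/4} ≤ 3 e^{-k/4}`
(`x ≤ t e^{-2t} ≤ e^{-t/4} ≤ e^{-k/4}`).  So the sum is `≥ p0 k/4 - 3 ≥ p0 xℓ/8 - 3 ≥ p0 xℓ/16`. -/
theorem s7s_ent_lower : ∃ c h0 : ℝ, 0 < c ∧ 1 ≤ h0 ∧ ∀ t : ℝ, h0 ≤ t → ∀ J : ℕ, t ≤ (J : ℝ) →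
    ∀ x : ℝ, 0 < x →
      c * (x * ∫ n in s7sE t h0 x, s7sEll t n ∂(gaussianReal 0 1))
        ≤ ∑ j ∈ Finset.range (J + 1), ent (gaussianReal 0 1) (s7sL t J j x) := by
  have hp0 := s7se_p0_pos
  have hp1 := s7se_p0_le
  have hh0 : 48 ≤ 48 / s7seP0 := by
    rw [le_div_iff₀ hp0]
    nlinarith
  refine ⟨s7seP0 / 16, 48 / s7seP0, by positivity, by linarith, ?_⟩
  intro t ht J hJ x hx
  have ht0 : 0 < t := by linarith
  have ht1 : 1 ≤ t := by linarith
  obtain ⟨a0, C1, hnice⟩ := s7s_lam_nice t ht1 J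
  have hN := fun j (hj : j ≤ J) => s7s_L_nice hnice j hj x
  have ha0 : 0 < a0 := (hN 0 (Nat.zero_le J)).a0_pos
  have hlpos : ∀ j ≤ J, ∀ n, 0 < s7sL t J j x n := fun j hj n => (hN j hj).pos n
  have hl1 : ∀ j ≤ J, ∀ n, s7sL t J j x n ≤ 1 := fun j hj n => (hN j hj).ub n
  have hlc : ∀ j ≤ J, Continuous (s7sL t J j x) := fun j hj => (hN j hj).continuous
  have hli : ∀ j ≤ J, Integrable (s7sL t J j x) (gaussianReal 0 1) := fun j hj =>
    s7se_integrable_of_cont (hlc j hj) (C := 1) fun n => by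
      rw [abs_of_pos (hlpos j hj n)]
      exact hl1 j hj n
  have hlli : ∀ j ≤ J, Integrable (fun n => s7sL t J j x n * Real.log (s7sL t J j x n))
      (gaussianReal 0 1) := fun j hj =>
    s7se_integrable_of_cont (Real.continuous_mul_log.comp (hlc j hj)) (C := 1) fun n =>
      s7se_mul_log_abs_le (hlpos j hj n) (hl1 j hj n)
  set q : ℕ → ℝ := fun j => ∫ n, s7sL t J j x n ∂(gaussianReal 0 1) with hq
  have hqpos : ∀ j ≤ J, 0 < q j := by
    intro j hj
    have h1 : ∫ _n : ℝ, a0 ∂(gaussianReal 0 1) ≤ q j :=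
      integral_mono (integrable_const a0) (hli j hj) fun n => (hN j hj).lb n
    rw [integral_const] at h1
    simp at h1
    linarith
  -- the exponent
  have hexp : ∀ n, Real.exp (Real.sqrt (8 * t) * n - 4 * t + Real.log x) = x * s7sEll t n := by
    intro n
    rw [Real.exp_add, Real.exp_log hx, mul_comm]
    rfl
  have htail : ∀ k ≤ J, ∀ n, ∑ j ∈ Finset.Icc k J, s7sL t J j x n = (gaussianReal 0 1).real
      {g : ℝ | (k : ℝ) ≤ (s7sSig t (Real.sqrt (8 * t) * n - 4 * t + Real.log x) * g) ^ 2} :=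
    fun k hk n => s7s_lam_tail t J k hk _
  have hellint : Integrable (s7sEll t) (gaussianReal 0 1) := s7s_integrable_exp _ _
  have hell1 : ∫ n, s7sEll t n ∂(gaussianReal 0 1) = 1 := by
    have h1 := s7s_int_exp (Real.sqrt (8 * t))
    rw [Real.sq_sqrt (by positivity)] at h1
    rw [← h1]
    refine integral_congr_ae (Filter.Eventually.of_forall fun n => ?_)
    show Real.exp _ = Real.exp _
    congr 1
    ring
  -- the averaged tails
  have hQ : ∀ k ≤ J, ∑ j ∈ Finset.Icc k J, q j ≤ x + 2 * Real.exp (-((k : ℝ) / 4)) := by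
    intro k hk
    have hmem : ∀ j ∈ Finset.Icc k J, j ≤ J := fun j hj => (Finset.mem_Icc.1 hj).2
    have e1 : ∑ j ∈ Finset.Icc k J, q j =
        ∫ n, ∑ j ∈ Finset.Icc k J, s7sL t J j x n ∂(gaussianReal 0 1) :=
      (integral_finsetSum _ fun j hj => hli j (hmem j hj)).symm
    have e2 : ∫ n, (x * s7sEll t n + 2 * Real.exp (-((k : ℝ) / 4))) ∂(gaussianReal 0 1) =
        x + 2 * Real.exp (-((k : ℝ) / 4)) := by
      rw [integral_add (hellint.const_mul x) (integrable_const _), integral_const_mul, hell1,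
        integral_const]
      simp
    rw [e1, ← e2]
    refine integral_mono (integrable_finsetSum _ fun j hj => hli j (hmem j hj))
      ((hellint.const_mul x).add (integrable_const _)) fun n => ?_
    show ∑ j ∈ Finset.Icc k J, s7sL t J j x n ≤ x * s7sEll t n + 2 * Real.exp (-((k : ℝ) / 4))
    rw [htail k hk n, ← hexp n]
    exact s7se_tail_le ht0 k _
  -- the pointwise bound
  have hpt : ∀ n, (s7sE t (48 / s7seP0) x).indicator (fun n => s7seP0 / 16 * (x * s7sEll t n)) n ≤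
      ∑ j ∈ Finset.range (J + 1), (s7sL t J j x n * Real.log (s7sL t J j x n)
        - s7sL t J j x n * Real.log (q j) - s7sL t J j x n + q j) := by
    intro n
    by_cases hn : n ∈ s7sE t (48 / s7seP0) x
    · rw [Set.indicator_of_mem hn]
      obtain ⟨h1, -, h3, h4⟩ := hn
      set y : ℝ := x * s7sEll t n with hy
      have hy0 : 0 ≤ y := by linarith
      have hky : ((⌊y⌋₊ : ℕ) : ℝ) ≤ y := Nat.floor_le hy0
      have hkJ : ⌊y⌋₊ ≤ J := by
        have : ((⌊y⌋₊ : ℕ) : ℝ) ≤ (J : ℝ) := by linarith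
        exact_mod_cast this
      refine le_trans ?_ (s7se_sum_fenchel (k := ⌊y⌋₊) (fun j => s7sL t J j x n) q
        (fun j hj => hlpos j hj n) hqpos ((⌊y⌋₊ : ℝ) / 4))
      refine s7se_num ?_ ?_ ?_ h3
      · rw [htail _ hkJ n]
        exact s7se_tail_ge ht0 _ _ (by rw [hexp n]; exact hky) (by rw [hexp n]; exact h4)
      · exact Finset.sum_nonneg fun j hj => (hqpos j (Finset.mem_Icc.1 hj).2).le
      · refine (hQ _ hkJ).trans ?_
        have hx1 : x ≤ Real.exp (-((⌊y⌋₊ : ℝ) / 4)) := by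
          have e1 : x * Real.exp (2 * t) ≤ t :=
            (mul_le_mul_of_nonneg_left h1 hx.le).trans h4
          have e2 : t ≤ Real.exp t := by linarith [Real.add_one_le_exp t]
          have e3 : x ≤ Real.exp (-t) := by
            have e4 : Real.exp (-t) = Real.exp t / Real.exp (2 * t) := by
              rw [← Real.exp_sub]
              congr 1
              ring
            rw [e4, le_div_iff₀ (Real.exp_pos _)]
            linarith
          refine e3.trans (Real.exp_le_exp.2 ?_)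
          have : (0 : ℝ) ≤ (⌊y⌋₊ : ℝ) := Nat.cast_nonneg _
          linarith
        linarith
    · rw [Set.indicator_of_notMem hn]
      refine Finset.sum_nonneg fun j hj => ?_
      have hjJ : j ≤ J := by
        have := Finset.mem_range.1 hj
        omega
      exact s7se_phi_nonneg (hlpos j hjJ n) (hqpos j hjJ)
  -- integration
  have hphi : ∀ j ∈ Finset.range (J + 1), Integrable (fun n => s7sL t J j x n
      * Real.log (s7sL t J j x n) - s7sL t J j x n * Real.log (q j) - s7sL t J j x n + q j)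
      (gaussianReal 0 1) := by
    intro j hj
    have hjJ : j ≤ J := by
      have := Finset.mem_range.1 hj
      omega
    exact (((hlli j hjJ).sub ((hli j hjJ).mul_const _)).sub (hli j hjJ)).add (integrable_const _)
  have e1 : ∑ j ∈ Finset.range (J + 1), ent (gaussianReal 0 1) (s7sL t J j x) =
      ∫ n, ∑ j ∈ Finset.range (J + 1), (s7sL t J j x n * Real.log (s7sL t J j x n)
        - s7sL t J j x n * Real.log (q j) - s7sL t J j x n + q j) ∂(gaussianReal 0 1) := by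
    rw [integral_finsetSum _ hphi]
    refine Finset.sum_congr rfl fun j hj => ?_
    have hjJ : j ≤ J := by
      have := Finset.mem_range.1 hj
      omega
    exact s7se_ent_eq (hli j hjJ) (hlli j hjJ)
  have e2 : s7seP0 / 16 * (x * ∫ n in s7sE t (48 / s7seP0) x, s7sEll t n ∂(gaussianReal 0 1)) =
      ∫ n, (s7sE t (48 / s7seP0) x).indicator (fun n => s7seP0 / 16 * (x * s7sEll t n)) n
        ∂(gaussianReal 0 1) := by
    rw [integral_indicator (s7sl_E_meas t _ x), integral_const_mul, integral_const_mul]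
  rw [e1, e2]
  refine integral_mono_of_nonneg (Filter.Eventually.of_forall fun n => ?_)
    (integrable_finsetSum _ hphi) (Filter.Eventually.of_forall hpt)
  refine Set.indicator_nonneg (fun n _ => ?_) n
  have := s7sl_ell_pos t n
  positivity

/-- generates the equation lemmas of the definitions above in this file (rule 6: unique names) -/
theorem s7scent_eqns_cite : True := by
  have := @s7seP0.eq_1
  trivial

/-- L-s7s-log.
PLAN.  Fubini: `∫_X (1/x) ∫ 1_{E_x} ℓ dγ dx = ∫_G ℓ(n) ∫_{h0/ℓ}^{t/ℓ} dx/x dγ = log (t/h0) ∫_G ℓ dγ`,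
`G = {e^{2t} ≤ ℓ ≤ e^{6t}}` (then `[h0/ℓ, t/ℓ] ⊆ X`); `∫_G ℓ dγ = γ{|m| ≤ √(t/2)} ≥ 1 - 2/t ≥ 1/2`
(`s7s_tilt` with `a = √(8t)`, `a²/2 = 4t`, `log ℓ(m + a) = 4t + a m`; `s7s_cheb`). -/
theorem s7s_log_lower (h0 t : ℝ) (hh : 1 ≤ h0) (ht4 : 4 ≤ t) (hht : h0 ≤ t) :
    IntegrableOn (fun x => (x * ∫ n in s7sE t h0 x, s7sEll t n ∂(gaussianReal 0 1)) / x ^ 2)
      (Set.Icc (h0 * Real.exp (-(6 * t))) (t * Real.exp (-(2 * t)))) ∧
    1 / 2 * Real.log (t / h0)
      ≤ ∫ x in Set.Icc (h0 * Real.exp (-(6 * t))) (t * Real.exp (-(2 * t))),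
          (x * ∫ n in s7sE t h0 x, s7sEll t n ∂(gaussianReal 0 1)) / x ^ 2 :=
  s7sl_log_lower h0 t hh ht4 hht

end Claimed.Agent.R259
end

/- ===== packed: Claimed.Agent.R259.S7ScApprox ===== -/
section
/-
Row 259 (S0499), package BP-S7-SCALAR: a bounded measurable test is approximated by `Tst`.

`μ0 = vol|[u0,u1] ⊗ vol|[x0,x1] ⊗ γ³` (`s7sMu`), `T(u,x,w) = (u, x, n_u, g_x(n) g)` (`s7sT`).
(1) `s7s_flat`: for `F` bounded measurable, `s7sJ F = ∫ κ(u)/x² (2 r Re F∘T - 4 |F∘T|²) dμ0`.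
(2) `s7s_pointwise`, `s7s_compare`: AM-GM, the loss is controlled by `∫ |P-Q|² d(μ0.map T)`.
(3) tent `s7sChi`, `s7s_dense`, the test `s7sTst`.
(4) `s7s_scJ_eq`: `scJ t t u0 u1 P = s7sJ t u0 u1 P.x0 P.x1 P.ev`.
-/
set_option autoImplicit false

open MeasureTheory ProbabilityTheory Filter Topology
open scoped BigOperators

namespace Claimed.Agent.R259

/-! ### The flat form of `s7sJ` -/

/-- `vol|[u0,u1] ⊗ vol|[x0,x1] ⊗ γ³` -/
noncomputable def s7sMu (u0 u1 x0 x1 : ℝ) : Measure (ℝ × ℝ × ℝ × ℝ × ℝ) :=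
  (volume.restrict (Set.Icc u0 u1)).prod ((volume.restrict (Set.Icc x0 x1)).prod
    ((gaussianReal 0 1).prod ((gaussianReal 0 1).prod (gaussianReal 0 1))))

/-- `(u,x,n,g',g) ↦ (u, x, n_u, g_x(n) g)` -/
noncomputable def s7sT (t : ℝ) (z : ℝ × ℝ × ℝ × ℝ × ℝ) : ℝ × ℝ × ℝ × ℝ :=
  (z.1, z.2.1, ouS z.1 z.2.2.1 z.2.2.2.1, gx t t z.2.1 z.2.2.1 * z.2.2.2.2)

/-- `r = n - α n_u` -/
noncomputable def s7sR (z : ℝ × ℝ × ℝ × ℝ × ℝ) : ℝ :=
  z.2.2.1 - Real.exp (-z.1) * ouS z.1 z.2.2.1 z.2.2.2.1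

/-- the flat integrand -/
noncomputable def s7sFl (t : ℝ) (F : ℝ × ℝ × ℝ × ℝ → ℂ) (z : ℝ × ℝ × ℝ × ℝ × ℝ) : ℝ :=
  kap z.1 / z.2.1 ^ 2 * (2 * s7sR z * (F (s7sT t z)).re - 4 * ‖F (s7sT t z)‖ ^ 2)

theorem s7scapprox_eqns_cite : True := by
  have := @s7sMu.eq_1
  have := @s7sT.eq_1
  have := @s7sR.eq_1
  have := @s7sFl.eq_1
  trivial

instance s7sMu_finite (u0 u1 x0 x1 : ℝ) : IsFiniteMeasure (s7sMu u0 u1 x0 x1) := by
  unfold s7sMu
  infer_instance

theorem s7sT_meas (t : ℝ) : Measurable (s7sT t) := by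
  unfold s7sT ouS gx fL
  fun_prop

theorem s7sR_meas : Measurable s7sR := by
  unfold s7sR ouS
  fun_prop

theorem s7s_kap_meas : Measurable kap := by
  unfold kap
  fun_prop

theorem s7sMu_ae_u (u0 u1 x0 x1 : ℝ) : ∀ᵐ z ∂(s7sMu u0 u1 x0 x1), z.1 ∈ Set.Icc u0 u1 :=
  Measure.quasiMeasurePreserving_fst.ae (ae_restrict_mem measurableSet_Icc)

theorem s7sMu_ae_x (u0 u1 x0 x1 : ℝ) : ∀ᵐ z ∂(s7sMu u0 u1 x0 x1), z.2.1 ∈ Set.Ioo x0 x1 := by
  have h1 : ∀ᵐ x ∂(volume.restrict (Set.Icc x0 x1)), x ∈ Set.Ioo x0 x1 := by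
    rw [← Measure.restrict_congr_set Ioo_ae_eq_Icc]
    exact ae_restrict_mem measurableSet_Ioo
  exact Measure.quasiMeasurePreserving_snd.ae (Measure.quasiMeasurePreserving_fst.ae h1)

/-- `|r| ≤ 2|n| + |g'|` for `u ≥ 0` -/
theorem s7sR_abs_le (z : ℝ × ℝ × ℝ × ℝ × ℝ) (hu : 0 ≤ z.1) :
    |s7sR z| ≤ 2 * |z.2.2.1| + |z.2.2.2.1| := by
  unfold s7sR ouS
  set α := Real.exp (-z.1) with hα
  have hα0 : 0 < α := Real.exp_pos _
  have hα1 : α ≤ 1 := by rw [hα, Real.exp_le_one_iff]; linarith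
  have hβ0 : 0 ≤ Real.sqrt (1 - α ^ 2) := Real.sqrt_nonneg _
  have hβ1 : Real.sqrt (1 - α ^ 2) ≤ 1 := Real.sqrt_le_one.2 (by nlinarith)
  set β := Real.sqrt (1 - α ^ 2)
  calc |z.2.2.1 - α * (α * z.2.2.1 + β * z.2.2.2.1)|
      ≤ |z.2.2.1| + |α * (α * z.2.2.1 + β * z.2.2.2.1)| := abs_sub _ _
    _ = |z.2.2.1| + α * |α * z.2.2.1 + β * z.2.2.2.1| := by rw [abs_mul, abs_of_pos hα0]
    _ ≤ |z.2.2.1| + 1 * (|α * z.2.2.1| + |β * z.2.2.2.1|) := by
        gcongr
        exact abs_add_le _ _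
    _ = |z.2.2.1| + (α * |z.2.2.1| + β * |z.2.2.2.1|) := by
        rw [abs_mul, abs_mul, abs_of_pos hα0, abs_of_nonneg hβ0, one_mul]
    _ ≤ |z.2.2.1| + (1 * |z.2.2.1| + 1 * |z.2.2.2.1|) := by gcongr
    _ = _ := by ring

/-- the weight is bounded on the box -/
theorem s7s_wt_le {u0 x0 u x : ℝ} (hu0 : 0 < u0) (hx0 : 0 < x0) (hu : u0 ≤ u) (hx : x0 ≤ x) :
    0 ≤ kap u / x ^ 2 ∧ kap u / x ^ 2 ≤ 1 / (1 - Real.exp (-u0) ^ 2) ^ 2 / x0 ^ 2 := by
  have h1 : Real.exp (-u) ≤ Real.exp (-u0) := Real.exp_le_exp.2 (by linarith)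
  have h2 : Real.exp (-u0) < 1 := by rw [Real.exp_lt_one_iff]; linarith
  have h3 := Real.exp_pos (-u)
  have h4 : 0 < 1 - Real.exp (-u0) ^ 2 := by nlinarith [Real.exp_pos (-u0)]
  have h5 : 1 - Real.exp (-u0) ^ 2 ≤ 1 - Real.exp (-u) ^ 2 := by nlinarith
  have hxp : 0 < x := hx0.trans_le hx
  unfold kap
  constructor
  · positivity
  · apply div_le_div₀ (by positivity) _ (by positivity) (by gcongr)
    apply div_le_div₀ zero_le_one _ (by positivity) (by gcongr)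
    apply pow_le_one₀ h3.le (h1.trans h2.le)

/-- integrability on `s7sMu` of functions of `(n,g')` -/
theorem s7sMu_integrable_n {f : ℝ → ℝ} (hf : Integrable f (gaussianReal 0 1))
    (u0 u1 x0 x1 : ℝ) : Integrable (fun z : ℝ × ℝ × ℝ × ℝ × ℝ => f z.2.2.1) (s7sMu u0 u1 x0 x1) :=
  ((hf.comp_fst _).comp_snd _).comp_snd _

theorem s7sMu_integrable_g' {f : ℝ → ℝ} (hf : Integrable f (gaussianReal 0 1))
    (u0 u1 x0 x1 : ℝ) :
    Integrable (fun z : ℝ × ℝ × ℝ × ℝ × ℝ => f z.2.2.2.1) (s7sMu u0 u1 x0 x1) :=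
  ((((hf.comp_fst _).comp_snd _)).comp_snd _).comp_snd _

theorem s7sFl_meas (t : ℝ) (F : ℝ × ℝ × ℝ × ℝ → ℂ) (hF : Measurable F) :
    Measurable (s7sFl t F) := by
  unfold s7sFl
  have h1 := s7s_kap_meas
  have h2 := s7sR_meas
  have h3 : Measurable (fun z => F (s7sT t z)) := hF.comp (s7sT_meas t)
  have h4 : Measurable (fun z : ℝ × ℝ × ℝ × ℝ × ℝ => kap z.1) := h1.comp measurable_fst
  exact (h4.div (by fun_prop)).mul
    (((measurable_const.mul h2).mul (Complex.measurable_re.comp h3)).sub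
      (measurable_const.mul (h3.norm.pow_const 2)))

theorem s7s_flat (t u0 u1 x0 x1 : ℝ) (hu0 : 0 < u0) (hx0 : 0 < x0) (F : ℝ × ℝ × ℝ × ℝ → ℂ)
    (hF : Measurable F) (BF : ℝ) (hFb : ∀ p, ‖F p‖ ≤ BF) :
    Integrable (s7sFl t F) (s7sMu u0 u1 x0 x1) ∧
    s7sJ t u0 u1 x0 x1 (fun u x a b => F (u, x, a, b))
      = ∫ z, s7sFl t F z ∂(s7sMu u0 u1 x0 x1) := by
  have hBF : 0 ≤ BF := (norm_nonneg _).trans (hFb 0)
  set M : ℝ := 1 / (1 - Real.exp (-u0) ^ 2) ^ 2 / x0 ^ 2 with hM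
  have hi : Integrable (s7sFl t F) (s7sMu u0 u1 x0 x1) := by
    have hg : Integrable (fun z : ℝ × ℝ × ℝ × ℝ × ℝ =>
        M * (2 * (2 * |z.2.2.1| + |z.2.2.2.1|) * BF + 4 * BF ^ 2)) (s7sMu u0 u1 x0 x1) := by
      have i1 := s7sMu_integrable_n s7s_integrable_abs u0 u1 x0 x1
      have i2 := s7sMu_integrable_g' s7s_integrable_abs u0 u1 x0 x1
      exact (((((i1.const_mul 2).add i2).const_mul 2).mul_const BF).add
        (integrable_const _)).const_mul M
    refine hg.mono' (s7sFl_meas t F hF).aestronglyMeasurable ?_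
    filter_upwards [s7sMu_ae_u u0 u1 x0 x1, s7sMu_ae_x u0 u1 x0 x1] with z hzu hzx
    obtain ⟨hw0, hw1⟩ := s7s_wt_le hu0 hx0 hzu.1 hzx.1.le
    have hr := s7sR_abs_le z (hu0.le.trans hzu.1)
    unfold s7sFl
    rw [Real.norm_eq_abs, abs_mul, abs_of_nonneg hw0]
    apply mul_le_mul hw1 _ (abs_nonneg _) (hw0.trans hw1)
    have h1 : |(F (s7sT t z)).re| ≤ BF := (Complex.abs_re_le_norm _).trans (hFb _)
    calc _ ≤ |2 * s7sR z * (F (s7sT t z)).re| + |4 * ‖F (s7sT t z)‖ ^ 2| := abs_sub _ _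
      _ = 2 * |s7sR z| * |(F (s7sT t z)).re| + 4 * ‖F (s7sT t z)‖ ^ 2 := by
          rw [abs_mul, abs_mul, abs_of_nonneg (by positivity : (0:ℝ) ≤ 4 * ‖F (s7sT t z)‖ ^ 2)]
          norm_num
      _ ≤ 2 * (2 * |z.2.2.1| + |z.2.2.2.1|) * BF + 4 * BF ^ 2 := by
          have := hFb (s7sT t z)
          gcongr
  refine ⟨hi, ?_⟩
  have hi' := hi
  unfold s7sMu at hi' ⊢
  rw [integral_prod _ hi']
  unfold s7sJ
  apply integral_congr_ae
  filter_upwards [hi'.prod_right_ae] with u hu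
  rw [integral_prod _ hu, ← integral_const_mul]
  congr 1; ext x
  have e : ∀ w : ℝ × ℝ × ℝ, s7sFl t F (u, x, w) = kap u / x ^ 2 *
      (2 * (w.1 - Real.exp (-u) * ouS u w.1 w.2.1)
        * (F (u, x, ouS u w.1 w.2.1, gx t t x w.1 * w.2.2)).re
      - 4 * ‖F (u, x, ouS u w.1 w.2.1, gx t t x w.1 * w.2.2)‖ ^ 2) := fun w => rfl
  simp_rw [e]
  rw [integral_const_mul]
  unfold s7sI
  ring

/-- pointwise comparison of the integrands of two tests -/
theorem s7s_pointwise (r q B δ : ℝ) (P : ℂ) (hq : |q| ≤ B) (hδ : 0 < δ) :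
    2 * r * q - 4 * q ^ 2 - (δ / 2 * (8 * r ^ 2 + 128 * B ^ 2)
        + (1 / (2 * δ) + 4) * ‖P - (q : ℂ)‖ ^ 2)
      ≤ 2 * r * P.re - 4 * ‖P‖ ^ 2 := by
  set D := ‖P - (q : ℂ)‖ with hD
  have hD0 : 0 ≤ D := norm_nonneg _
  have hB : 0 ≤ B := (abs_nonneg _).trans hq
  have h1 : |P.re - q| ≤ D := by
    have := Complex.abs_re_le_norm (P - (q : ℂ))
    simpa using this
  have h2 : -(|r| * D) ≤ r * (P.re - q) := by
    have : |r * (P.re - q)| ≤ |r| * D := by
      rw [abs_mul]; exact mul_le_mul_of_nonneg_left h1 (abs_nonneg _)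
    exact (abs_le.1 this).1
  have h3 : ‖P‖ ≤ |q| + D := by
    have : ‖P‖ ≤ ‖(q : ℂ)‖ + ‖P - (q : ℂ)‖ := by
      have := norm_add_le (q : ℂ) (P - (q : ℂ))
      simpa using this
    rwa [Complex.norm_real, Real.norm_eq_abs] at this
  have h4 : ‖P‖ ^ 2 ≤ q ^ 2 + 2 * B * D + D ^ 2 := by
    calc ‖P‖ ^ 2 ≤ (|q| + D) ^ 2 := pow_le_pow_left₀ (norm_nonneg _) h3 2
      _ = q ^ 2 + 2 * |q| * D + D ^ 2 := by rw [add_sq, sq_abs]
      _ ≤ _ := by gcongr
  -- AM-GM
  have h5 : (2 * |r| + 8 * B) * D ≤ δ / 2 * (2 * |r| + 8 * B) ^ 2 + 1 / (2 * δ) * D ^ 2 := by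
    have h := sq_nonneg (δ * (2 * |r| + 8 * B) - D)
    have e : δ / 2 * (2 * |r| + 8 * B) ^ 2 + 1 / (2 * δ) * D ^ 2 - (2 * |r| + 8 * B) * D
        = (δ * (2 * |r| + 8 * B) - D) ^ 2 / (2 * δ) := by
      field_simp
      ring
    have : 0 ≤ (δ * (2 * |r| + 8 * B) - D) ^ 2 / (2 * δ) := by positivity
    linarith
  have h6 : (2 * |r| + 8 * B) ^ 2 ≤ 8 * r ^ 2 + 128 * B ^ 2 := by
    nlinarith [sq_nonneg (2 * |r| - 8 * B), sq_abs r]
  have h7 : δ / 2 * (2 * |r| + 8 * B) ^ 2 ≤ δ / 2 * (8 * r ^ 2 + 128 * B ^ 2) :=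
    mul_le_mul_of_nonneg_left h6 (by positivity)
  nlinarith

/-- the arithmetic of the choice of `δ` and `ε'` -/
theorem s7s_arith (M A ε I : ℝ) (hM : 0 < M) (hA : 0 ≤ A) (hε : 0 < ε)
    (hI : I < ε / (2 * M * (1 / (2 * (ε / (M * (A + 1)))) + 4))) :
    M * (ε / (M * (A + 1)) / 2 * A + (1 / (2 * (ε / (M * (A + 1)))) + 4) * I) ≤ ε := by
  set δ : ℝ := ε / (M * (A + 1)) with hδ
  have hδ0 : 0 < δ := by positivity
  have e1 : M * (δ / 2 * A) ≤ ε / 2 := by
    have h1 : M * (δ / 2 * A) = ε / 2 * (A / (A + 1)) := by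
      rw [hδ]; field_simp
    rw [h1]
    have h2 : A / (A + 1) ≤ 1 := by rw [div_le_one (by linarith)]; linarith
    calc ε / 2 * (A / (A + 1)) ≤ ε / 2 * 1 := by gcongr
      _ = ε / 2 := mul_one _
  have e2 : M * ((1 / (2 * δ) + 4) * I) ≤ ε / 2 := by
    have h1 : M * ((1 / (2 * δ) + 4) * I)
        ≤ M * ((1 / (2 * δ) + 4) * (ε / (2 * M * (1 / (2 * δ) + 4)))) := by
      gcongr
    have h2 : M * ((1 / (2 * δ) + 4) * (ε / (2 * M * (1 / (2 * δ) + 4)))) = ε / 2 := by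
      have : (1 / (2 * δ) + 4) ≠ 0 := by positivity
      field_simp
    linarith
  rw [mul_add]
  linarith

/-- pointwise comparison of the flat integrands -/
theorem s7s_flat_pointwise (t u0 x0 : ℝ) (hu0 : 0 < u0) (hx0 : 0 < x0)
    (Qf : ℝ × ℝ × ℝ × ℝ → ℝ) (B : ℝ) (hQb : ∀ p, |Qf p| ≤ B) (δ : ℝ) (hδ0 : 0 < δ)
    (Pf : ℝ × ℝ × ℝ × ℝ → ℂ) (z : ℝ × ℝ × ℝ × ℝ × ℝ) (hzu : u0 ≤ z.1) (hzx : x0 ≤ z.2.1) :
    s7sFl t (fun p => (Qf p : ℂ)) z
      - 1 / (1 - Real.exp (-u0) ^ 2) ^ 2 / x0 ^ 2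
        * (δ / 2 * (64 * z.2.2.1 ^ 2 + 16 * z.2.2.2.1 ^ 2 + 128 * B ^ 2)
          + (1 / (2 * δ) + 4) * ‖Pf (s7sT t z) - (Qf (s7sT t z) : ℂ)‖ ^ 2) ≤ s7sFl t Pf z := by
  obtain ⟨hw0, hw1⟩ := s7s_wt_le hu0 hx0 hzu hzx
  have hr := s7sR_abs_le z (hu0.le.trans hzu)
  have h1 := s7s_pointwise (s7sR z) (Qf (s7sT t z)) B δ (Pf (s7sT t z)) (hQb _) hδ0
  have h2 : 8 * s7sR z ^ 2 + 128 * B ^ 2
      ≤ 64 * z.2.2.1 ^ 2 + 16 * z.2.2.2.1 ^ 2 + 128 * B ^ 2 := by
    have : s7sR z ^ 2 ≤ (2 * |z.2.2.1| + |z.2.2.2.1|) ^ 2 := by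
      rw [← sq_abs]; exact pow_le_pow_left₀ (abs_nonneg _) hr 2
    nlinarith [sq_nonneg (2 * |z.2.2.1| - |z.2.2.2.1|), sq_abs z.2.2.1, sq_abs z.2.2.2.1]
  have h3 : δ / 2 * (8 * s7sR z ^ 2 + 128 * B ^ 2)
      ≤ δ / 2 * (64 * z.2.2.1 ^ 2 + 16 * z.2.2.2.1 ^ 2 + 128 * B ^ 2) :=
    mul_le_mul_of_nonneg_left h2 (by positivity)
  set Y : ℝ := δ / 2 * (64 * z.2.2.1 ^ 2 + 16 * z.2.2.2.1 ^ 2 + 128 * B ^ 2)
    + (1 / (2 * δ) + 4) * ‖Pf (s7sT t z) - (Qf (s7sT t z) : ℂ)‖ ^ 2 with hY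
  have hY0 : 0 ≤ Y := by positivity
  unfold s7sFl
  simp only [Complex.ofReal_re, Complex.norm_real, Real.norm_eq_abs, sq_abs]
  set wt := kap z.1 / z.2.1 ^ 2
  set M : ℝ := 1 / (1 - Real.exp (-u0) ^ 2) ^ 2 / x0 ^ 2
  have h4 : 2 * s7sR z * Qf (s7sT t z) - 4 * Qf (s7sT t z) ^ 2 - Y
      ≤ 2 * s7sR z * (Pf (s7sT t z)).re - 4 * ‖Pf (s7sT t z)‖ ^ 2 := by
    rw [hY]
    linarith
  have h5 := mul_le_mul_of_nonneg_left h4 hw0
  have h6 : wt * Y ≤ M * Y := mul_le_mul_of_nonneg_right hw1 hY0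
  rw [mul_sub] at h5
  linarith

theorem s7s_compare (t u0 u1 x0 x1 : ℝ) (hu0 : 0 < u0) (hx0 : 0 < x0)
    (Qf : ℝ × ℝ × ℝ × ℝ → ℝ) (hQm : Measurable Qf) (B : ℝ) (hQb : ∀ p, |Qf p| ≤ B)
    (ε : ℝ) (hε : 0 < ε) :
    ∃ ε' : ℝ, 0 < ε' ∧ ∀ Pf : ℝ × ℝ × ℝ × ℝ → ℂ, Measurable Pf → (∃ BP, ∀ p, ‖Pf p‖ ≤ BP) →
      ∫ p, ‖Pf p - (Qf p : ℂ)‖ ^ 2 ∂((s7sMu u0 u1 x0 x1).map (s7sT t)) < ε' →
      ∫ z, s7sFl t (fun p => (Qf p : ℂ)) z ∂(s7sMu u0 u1 x0 x1) - ε
        ≤ ∫ z, s7sFl t Pf z ∂(s7sMu u0 u1 x0 x1) := by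
  set μ := s7sMu u0 u1 x0 x1 with hμ
  set M : ℝ := 1 / (1 - Real.exp (-u0) ^ 2) ^ 2 / x0 ^ 2 with hM
  have hM0 : 0 < M := by
    have h2 : Real.exp (-u0) < 1 := by rw [Real.exp_lt_one_iff]; linarith
    have h4 : 0 < 1 - Real.exp (-u0) ^ 2 := by nlinarith [Real.exp_pos (-u0)]
    positivity
  set Rb : ℝ × ℝ × ℝ × ℝ × ℝ → ℝ := fun z => 64 * z.2.2.1 ^ 2 + 16 * z.2.2.2.1 ^ 2 + 128 * B ^ 2
    with hRb
  have hRi : Integrable Rb μ :=
    (((s7sMu_integrable_n s7s_integrable_sq u0 u1 x0 x1).const_mul 64).add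
      ((s7sMu_integrable_g' s7s_integrable_sq u0 u1 x0 x1).const_mul 16)).add (integrable_const _)
  set A : ℝ := ∫ z, Rb z ∂μ with hA
  have hA0 : 0 ≤ A := integral_nonneg fun z => by rw [hRb]; positivity
  set δ : ℝ := ε / (M * (A + 1)) with hδ
  have hδ0 : 0 < δ := by positivity
  refine ⟨ε / (2 * M * (1 / (2 * δ) + 4)), by positivity, fun Pf hPm ⟨BP, hPb⟩ hdist => ?_⟩
  have hQc : Measurable (fun p => (Qf p : ℂ)) := Complex.measurable_ofReal.comp hQm
  obtain ⟨hQi, -⟩ := s7s_flat t u0 u1 x0 x1 hu0 hx0 (fun p => (Qf p : ℂ)) hQc B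
    (fun p => by rw [Complex.norm_real, Real.norm_eq_abs]; exact hQb p)
  obtain ⟨hPi, -⟩ := s7s_flat t u0 u1 x0 x1 hu0 hx0 Pf hPm BP hPb
  have hDm : Measurable (fun p => ‖Pf p - (Qf p : ℂ)‖ ^ 2) := ((hPm.sub hQc).norm).pow_const 2
  set D2 : ℝ × ℝ × ℝ × ℝ × ℝ → ℝ := fun z => ‖Pf (s7sT t z) - (Qf (s7sT t z) : ℂ)‖ ^ 2 with hD2
  have hD2i : Integrable D2 μ := by
    refine (integrable_const ((BP + B) ^ 2)).mono' (hDm.comp (s7sT_meas t)).aestronglyMeasurable
      (Eventually.of_forall fun z => ?_)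
    rw [hD2, Real.norm_eq_abs, abs_of_nonneg (by positivity)]
    apply pow_le_pow_left₀ (norm_nonneg _)
    refine (norm_sub_le _ _).trans (add_le_add (hPb _) ?_)
    rw [Complex.norm_real, Real.norm_eq_abs]; exact hQb _
  have hD2e : ∫ z, D2 z ∂μ < ε / (2 * M * (1 / (2 * δ) + 4)) := by
    rw [integral_map (s7sT_meas t).aemeasurable hDm.aestronglyMeasurable] at hdist
    exact hdist
  have hpt : ∀ᵐ z ∂μ, s7sFl t (fun p => (Qf p : ℂ)) z
      - M * (δ / 2 * Rb z + (1 / (2 * δ) + 4) * D2 z) ≤ s7sFl t Pf z := by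
    filter_upwards [s7sMu_ae_u u0 u1 x0 x1, s7sMu_ae_x u0 u1 x0 x1] with z hzu hzx
    exact s7s_flat_pointwise t u0 x0 hu0 hx0 Qf B hQb δ hδ0 Pf z hzu.1 hzx.1.le
  have hY1 : Integrable (fun z => δ / 2 * Rb z) μ := hRi.const_mul _
  have hY2 : Integrable (fun z => (1 / (2 * δ) + 4) * D2 z) μ := hD2i.const_mul _
  have hY3 : Integrable (fun z => δ / 2 * Rb z + (1 / (2 * δ) + 4) * D2 z) μ := hY1.add hY2
  have hYi : Integrable (fun z => M * (δ / 2 * Rb z + (1 / (2 * δ) + 4) * D2 z)) μ :=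
    hY3.const_mul M
  have hint := integral_mono_ae (hQi.sub hYi) hPi hpt
  rw [integral_sub' hQi hYi, integral_const_mul, integral_add hY1 hY2, integral_const_mul,
    integral_const_mul] at hint
  have hfin := s7s_arith M A ε (∫ z, D2 z ∂μ) hM0 hA0 hε hD2e
  exact (sub_le_sub_left hfin _).trans hint

/-- the tent on `[x0,x1]`, cut at height `1` -/
noncomputable def s7sChi (x0 x1 x : ℝ) : ℝ := max 0 (min 1 (min (x - x0) (x1 - x)))

theorem s7sChi_cont (x0 x1 : ℝ) : Continuous (s7sChi x0 x1) := by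
  unfold s7sChi
  fun_prop

theorem s7sChi_abs_le (x0 x1 x : ℝ) : |s7sChi x0 x1 x| ≤ 1 := by
  unfold s7sChi
  rw [abs_of_nonneg (le_max_left _ _)]
  exact max_le zero_le_one (min_le_left _ _)

theorem s7sChi_ne_zero {x0 x1 x : ℝ} (hx : x ∈ Set.Ioo x0 x1) : s7sChi x0 x1 x ≠ 0 := by
  unfold s7sChi
  have h1 : 0 < min 1 (min (x - x0) (x1 - x)) :=
    lt_min zero_lt_one (lt_min (by linarith [hx.1]) (by linarith [hx.2]))
  rw [max_eq_right h1.le]
  exact h1.ne'

theorem s7sChi_eq_zero {x0 x1 x : ℝ} (hx : x ∉ Set.Icc x0 x1) : s7sChi x0 x1 x = 0 := by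
  unfold s7sChi
  apply max_eq_left
  rw [Set.mem_Icc, not_and_or, not_le, not_le] at hx
  rcases hx with hx | hx
  · exact (min_le_right _ _).trans ((min_le_left _ _).trans (by linarith))
  · exact (min_le_right _ _).trans ((min_le_right _ _).trans (by linarith))

/-- the test built from a weighted trigonometric polynomial -/
noncomputable def s7sTst (x0 x1 : ℝ) (hx0 : 0 < x0) (hx : x0 < x1) (K : ℕ) (lam : Fin K → ℂ)
    (ξ : Fin K → ℝ × ℝ × ℝ × ℝ) : Tst where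
  K := K
  c := fun k u x => lam k * (s7sChi x0 x1 x : ℂ)
    * Complex.exp (Complex.I * (((ξ k).1 * u + (ξ k).2.1 * x : ℝ) : ℂ))
  s := fun k => (ξ k).2.2.1
  r := fun k => (ξ k).2.2.2
  x0 := x0
  x1 := x1
  x0_pos := hx0
  x0_lt := hx
  c_cont := by
    intro k
    have := s7sChi_cont x0 x1
    fun_prop
  c_supp := by
    intro k u x hx
    rw [s7sChi_eq_zero hx]
    simp

theorem s7scapprox2_eqns_cite : True := by
  have := @s7sChi.eq_1
  have := @s7sTst.eq_1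
  trivial

theorem s7sTst_ev (x0 x1 : ℝ) (hx0 : 0 < x0) (hx : x0 < x1) (K : ℕ) (lam : Fin K → ℂ)
    (ξ : Fin K → ℝ × ℝ × ℝ × ℝ) (u x a b : ℝ) :
    (s7sTst x0 x1 hx0 hx K lam ξ).ev u x a b
      = (s7sChi x0 x1 x : ℂ) * ∑ k, lam k * Complex.exp (Complex.I *
          (((ξ k).1 * u + (ξ k).2.1 * x + (ξ k).2.2.1 * a + (ξ k).2.2.2 * b : ℝ) : ℂ)) := by
  unfold Tst.ev
  rw [Finset.mul_sum]
  apply Finset.sum_congr rfl
  intro k _
  change lam k * (s7sChi x0 x1 x : ℂ)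
    * Complex.exp (Complex.I * (((ξ k).1 * u + (ξ k).2.1 * x : ℝ) : ℂ))
    * Complex.exp (Complex.I * (((ξ k).2.2.1 * a : ℝ) : ℂ))
    * Complex.exp (Complex.I * (((ξ k).2.2.2 * b : ℝ) : ℂ)) = _
  rw [mul_assoc, mul_assoc, ← Complex.exp_add, ← Complex.exp_add]
  have : Complex.I * (((ξ k).1 * u + (ξ k).2.1 * x : ℝ) : ℂ)
      + (Complex.I * (((ξ k).2.2.1 * a : ℝ) : ℂ) + Complex.I * (((ξ k).2.2.2 * b : ℝ) : ℂ))
      = Complex.I * (((ξ k).1 * u + (ξ k).2.1 * x + (ξ k).2.2.1 * a + (ξ k).2.2.2 * b : ℝ) : ℂ) := by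
    push_cast; ring
  rw [this]
  ring

/-- `scJ` of a test is `s7sJ` of its evaluation -/
theorem s7s_scJ_eq (t u0 u1 : ℝ) (P : Tst) :
    scJ t t u0 u1 P = s7sJ t u0 u1 P.x0 P.x1 P.ev := by
  unfold scJ s7sJ
  congr 1; ext u
  congr 1
  apply setIntegral_eq_of_subset_of_forall_sdiff_eq_zero measurableSet_Ioi
  · intro x hx
    exact P.x0_pos.trans_le hx.1
  · intro x hx
    have h0 : ∀ a b, P.ev u x a b = 0 := by
      intro a b
      unfold Tst.ev
      apply Finset.sum_eq_zero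
      intro k _
      rw [P.c_supp k u x hx.2]
      simp
    unfold scInt
    simp [h0]

/-- L-s7s-approx. -/
theorem s7s_approx (t u0 u1 x0 x1 : ℝ) (_ht : 1 ≤ t) (hu0 : 0 < u0) (_hu : u0 < u1)
    (hx0 : 0 < x0) (hx : x0 < x1) (Q : ℝ → ℝ → ℝ → ℝ → ℝ)
    (hQm : Measurable (fun p : ℝ × ℝ × ℝ × ℝ => Q p.1 p.2.1 p.2.2.1 p.2.2.2))
    (B : ℝ) (hQb : ∀ u x a b, |Q u x a b| ≤ B) (ε : ℝ) (hε : 0 < ε) :
    ∃ P : Tst, s7sJ t u0 u1 x0 x1 (fun u x a b => (Q u x a b : ℂ)) - ε ≤ scJ t t u0 u1 P := by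
  set Qf : ℝ × ℝ × ℝ × ℝ → ℝ := fun p => Q p.1 p.2.1 p.2.2.1 p.2.2.2 with hQf
  obtain ⟨ε', hε', hcmp⟩ := s7s_compare t u0 u1 x0 x1 hu0 hx0 Qf hQm B (fun p => hQb _ _ _ _) ε hε
  set ν := (s7sMu u0 u1 x0 x1).map (s7sT t) with hν
  have : IsFiniteMeasure ν := by rw [hν]; infer_instance
  have hχ0 : ∀ᵐ p ∂ν, s7sChi x0 x1 p.2.1 ≠ 0 := by
    rw [hν, ae_map_iff (s7sT_meas t).aemeasurable]
    · filter_upwards [s7sMu_ae_x u0 u1 x0 x1] with z hz
      exact s7sChi_ne_zero hz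
    · have hm : Measurable (fun p : ℝ × ℝ × ℝ × ℝ => s7sChi x0 x1 p.2.1) :=
        (s7sChi_cont x0 x1).measurable.comp (by fun_prop)
      exact (hm (measurableSet_singleton 0)).compl
  obtain ⟨K, lam, ξ, hd⟩ := s7s_dense ν (s7sChi x0 x1) (s7sChi_cont x0 x1) (s7sChi_abs_le x0 x1)
    hχ0 Qf hQm B (fun p => hQb _ _ _ _) ε' hε'
  set P := s7sTst x0 x1 hx0 hx K lam ξ with hP
  set Pf : ℝ × ℝ × ℝ × ℝ → ℂ := fun p => P.ev p.1 p.2.1 p.2.2.1 p.2.2.2 with hPf
  have hPe : ∀ p : ℝ × ℝ × ℝ × ℝ, Pf p = (s7sChi x0 x1 p.2.1 : ℂ) * ∑ k, lam k * Complex.exp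
      (Complex.I * (((ξ k).1 * p.1 + (ξ k).2.1 * p.2.1 + (ξ k).2.2.1 * p.2.2.1
            + (ξ k).2.2.2 * p.2.2.2 : ℝ) : ℂ)) := fun p => s7sTst_ev x0 x1 hx0 hx K lam ξ _ _ _ _
  have hPm : Measurable Pf := by
    have : Pf = fun p : ℝ × ℝ × ℝ × ℝ => (s7sChi x0 x1 p.2.1 : ℂ) * ∑ k, lam k * Complex.exp
      (Complex.I * (((ξ k).1 * p.1 + (ξ k).2.1 * p.2.1 + (ξ k).2.2.1 * p.2.2.1
            + (ξ k).2.2.2 * p.2.2.2 : ℝ) : ℂ)) := funext hPe
    rw [this]
    have := s7sChi_cont x0 x1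
    apply Continuous.measurable
    fun_prop
  have hPb : ∀ p, ‖Pf p‖ ≤ ∑ k, ‖lam k‖ := by
    intro p
    rw [hPe, norm_mul, Complex.norm_real, Real.norm_eq_abs]
    calc _ ≤ 1 * ∑ k, ‖lam k‖ := by
          apply mul_le_mul (s7sChi_abs_le _ _ _) _ (norm_nonneg _) zero_le_one
          refine (norm_sum_le _ _).trans (Finset.sum_le_sum fun k _ => ?_)
          rw [norm_mul, mul_comm Complex.I, Complex.norm_exp_ofReal_mul_I, mul_one]
      _ = _ := one_mul _
  have hd' : ∫ p, ‖Pf p - (Qf p : ℂ)‖ ^ 2 ∂ν < ε' := by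
    simp_rw [hPe]
    exact hd
  have h1 := hcmp Pf hPm ⟨_, hPb⟩ hd'
  refine ⟨P, ?_⟩
  have hQc : Measurable (fun p => (Qf p : ℂ)) := Complex.measurable_ofReal.comp hQm
  have e1 := (s7s_flat t u0 u1 x0 x1 hu0 hx0 (fun p => (Qf p : ℂ)) hQc B
    (fun p => by rw [Complex.norm_real, Real.norm_eq_abs]; exact hQb _ _ _ _)).2
  have e2 := (s7s_flat t u0 u1 x0 x1 hu0 hx0 Pf hPm _ hPb).2
  rw [s7s_scJ_eq]
  change s7sJ t u0 u1 x0 x1 (fun u x a b => (Qf (u, x, a, b) : ℂ)) - ε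
    ≤ s7sJ t u0 u1 x0 x1 (fun u x a b => Pf (u, x, a, b))
  rw [e1, e2]
  exact h1

end Claimed.Agent.R259
end

/- ===== packed: Claimed.Agent.R259.S7ScMain ===== -/
section
/-
Row 259 (S0499), package BP-S7-SCALAR: the glue.
-/
set_option autoImplicit false

open MeasureTheory ProbabilityTheory
open scoped BigOperators

namespace Claimed.Agent.R259

/-- `1/x²` is integrable on `[x0,x1] ⊂ (0,∞)` -/
theorem s7s_inv_sq_integrableOn (x0 x1 : ℝ) (hx0 : 0 < x0) :
    IntegrableOn (fun x : ℝ => 1 / x ^ 2) (Set.Icc x0 x1) := by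
  apply ContinuousOn.integrableOn_Icc
  intro x hx
  have : x ≠ 0 := (hx0.trans_le hx.1).ne'
  apply ContinuousAt.continuousWithinAt
  fun_prop (disch := positivity)

theorem s7s_main : ∃ t : ℝ, 1 ≤ t ∧ ∃ u0 u1 : ℝ, 0 < u0 ∧ u0 < u1 ∧ ∃ P : Tst,
    13 / 4 < scJ t t u0 u1 P := by
  obtain ⟨c, h0, hc, hh0, hA⟩ := s7s_ent_lower
  set t : ℝ := h0 * Real.exp (32 / c) + 4 with ht_def
  have hexp1 : 1 ≤ Real.exp (32 / c) := Real.one_le_exp (by positivity)
  have hh0pos : 0 < h0 := by linarith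
  have hht' : h0 * Real.exp (32 / c) ≤ t := by rw [ht_def]; linarith
  have hht : h0 ≤ t := by nlinarith
  have ht4 : 4 ≤ t := by rw [ht_def]; nlinarith [Real.exp_pos (32 / c)]
  have ht1 : 1 ≤ t := by linarith
  have htpos : 0 < t := by linarith
  have hlog : 32 / c ≤ Real.log (t / h0) := by
    rw [Real.le_log_iff_exp_le (by positivity), le_div_iff₀ hh0pos]
    linarith
  set J : ℕ := ⌈t⌉₊ with hJ_def
  have htJ : t ≤ (J : ℝ) := Nat.le_ceil t
  obtain ⟨a0, C1, hnice⟩ := s7s_lam_nice t ht1 J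
  have ha0 : 0 < a0 := (hnice 0 (Nat.zero_le _)).a0_pos
  set x0 : ℝ := h0 * Real.exp (-(6 * t)) with hx0_def
  set x1 : ℝ := t * Real.exp (-(2 * t)) with hx1_def
  have hx0 : 0 < x0 := by positivity
  have hx01 : x0 < x1 := by
    have h1 : Real.exp (-(6 * t)) < Real.exp (-(2 * t)) := Real.exp_lt_exp.2 (by linarith)
    calc x0 ≤ t * Real.exp (-(6 * t)) := by
          rw [hx0_def]; exact mul_le_mul_of_nonneg_right hht (Real.exp_pos _).le
      _ < x1 := by rw [hx1_def]; exact mul_lt_mul_of_pos_left h1 htpos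
  set M : ℝ := ∫ x in Set.Icc x0 x1, 1 / x ^ 2 with hM_def
  have hM0 : 0 ≤ M := by
    apply setIntegral_nonneg measurableSet_Icc
    intro x _
    positivity
  set η : ℝ := 1 / (((J : ℝ) + 1) * (M + 1)) with hη_def
  have hη : 0 < η := by positivity
  obtain ⟨u0, u1, hu0, hu01, hE⟩ := s7s_endpoints a0 (|Real.sqrt (8 * t)| * C1) η ha0 hη
  obtain ⟨hDint, hJopt⟩ := s7s_J_opt t ht1 J u0 u1 x0 x1 hu0 hu01 hx0 hx01
  obtain ⟨hBint, hB⟩ := s7s_log_lower h0 t hh0 ht4 hht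
  obtain ⟨B, hQb⟩ := s7s_Q_bdd t ht1 J
  obtain ⟨P, hP⟩ := s7s_approx t u0 u1 x0 x1 ht1 hu0 hu01 hx0 hx01 (s7sQ t J)
    (s7s_Q_meas t ht1 J) B hQb (1 / 4) (by norm_num)
  refine ⟨t, ht1, u0, u1, hu0, hu01, P, ?_⟩
  -- pointwise lower bound of `D`
  have hD : ∀ x : ℝ, 0 < x →
      c * (x * ∫ n in s7sE t h0 x, s7sEll t n ∂(gaussianReal 0 1)) - ((J : ℝ) + 1) * η
        ≤ s7sD t J u0 u1 x := by
    intro x hx
    have h1 := hA t hht J htJ x hx
    have h2 : ∑ j ∈ Finset.range (J + 1), (ent (gaussianReal 0 1) (s7sL t J j x) - η)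
        ≤ s7sD t J u0 u1 x := by
      unfold s7sD
      apply Finset.sum_le_sum
      intro j hj
      exact hE _ _ (s7s_L_nice hnice j (Nat.lt_succ_iff.1 (Finset.mem_range.1 hj)) x)
    rw [Finset.sum_sub_distrib] at h2
    simp only [Finset.sum_const, Finset.card_range, nsmul_eq_mul] at h2
    push_cast at h2
    linarith
  -- integrate
  have hint1 := s7s_inv_sq_integrableOn x0 x1 hx0
  have hlow : c * (∫ x in Set.Icc x0 x1,
        (x * ∫ n in s7sE t h0 x, s7sEll t n ∂(gaussianReal 0 1)) / x ^ 2) - ((J : ℝ) + 1) * η * M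
      ≤ ∫ x in Set.Icc x0 x1, s7sD t J u0 u1 x / x ^ 2 := by
    rw [hM_def, ← integral_const_mul, ← integral_const_mul, ← integral_sub (hBint.const_mul c)
      (hint1.const_mul _)]
    apply setIntegral_mono_on ((hBint.const_mul c).sub (hint1.const_mul _)) hDint measurableSet_Icc
    intro x hx
    have hxpos : 0 < x := hx0.trans_le hx.1
    have h1 := hD x hxpos
    have h2 : 0 < x ^ 2 := by positivity
    have h3 := div_le_div_of_nonneg_right h1 h2.le
    calc _ = (c * (x * ∫ n in s7sE t h0 x, s7sEll t n ∂(gaussianReal 0 1)) - ((J : ℝ) + 1) * η)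
          / x ^ 2 := by simp only [Pi.sub_apply]; ring
      _ ≤ _ := h3
  have hηM : ((J : ℝ) + 1) * η * M ≤ 1 := by
    rw [hη_def]
    have hJ1 : (0 : ℝ) < (J : ℝ) + 1 := by positivity
    have : ((J : ℝ) + 1) * (1 / (((J : ℝ) + 1) * (M + 1))) * M = M / (M + 1) := by
      field_simp
    rw [this, div_le_one (by linarith)]
    linarith
  have h16 : 16 ≤ c * (∫ x in Set.Icc x0 x1,
        (x * ∫ n in s7sE t h0 x, s7sEll t n ∂(gaussianReal 0 1)) / x ^ 2) := by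
    have h1 : c * (1 / 2 * (32 / c)) = 16 := by field_simp; norm_num
    calc (16 : ℝ) = c * (1 / 2 * (32 / c)) := h1.symm
      _ ≤ c * (1 / 2 * Real.log (t / h0)) := by
          apply mul_le_mul_of_nonneg_left _ hc.le
          linarith
      _ ≤ _ := mul_le_mul_of_nonneg_left hB hc.le
  rw [hJopt] at hP
  linarith

end Claimed.Agent.R259
end

/- ===== packed: Claimed.Agent.R259.S7Sc ===== -/
section
/-
Row 259 (S0499), section 7: the scalar theorem (L7.10 and the scalar part of P7.9).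
EXPORT FILE of package BP-S7-SCALAR.  The package owner owns this file: keep name and statement,
replace the sorry by a citation of helper files `S7Sc*.lean` (prefix `s7s`), which never import
this file.
-/
set_option autoImplicit false

open MeasureTheory ProbabilityTheory
open scoped BigOperators Matrix
open Claimed.Agent.R260 (Mx mxFun mxSchur mxSq mxIP mxEig mxU mxRot)

namespace Claimed.Agent.R259

/-- BP-S7-SCALAR.  Pure 1-D statement: some bounded test has scalar value `> 13/4 = C₀ + 1`. -/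
theorem s7_scalar : ∃ t : ℝ, 1 ≤ t ∧ ∃ u0 u1 : ℝ, 0 < u0 ∧ u0 < u1 ∧ ∃ P : Tst,
    13 / 4 < scJ t t u0 u1 P :=
  s7s_main

end Claimed.Agent.R259
end

/- ===== packed: Claimed.Agent.R259.S6Model ===== -/
section
/-
Row 259 (S0499), end of Lemma 6.6 of the paper: GLUE.  Owner: helper88.
The tracial defects of the block model follow from `s6_block`, `s6_col` and the weight comparison
`‖X R_*‖² ≤ ‖X R‖² ≤ e^{2h} ‖X R_*‖²`.
-/
set_option autoImplicit false

open MeasureTheory ProbabilityTheory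
open scoped ContDiff BigOperators Matrix
open Claimed.Agent.R260 (Mx mxFun mxSchur mxSq mxIP mxEig mxU mxRot)

namespace Claimed.Agent.R259

variable {n : ℕ}

/-- lower bound of the mass of the band -/
theorem s6m_mass_lo (X : HierData n) {k : ℕ} {δ : ℝ} (hk : 0 < k) (hX : X.Small (3 * k) δ) :
    1 - δ ≤ ∫ y, X.pTr k y ∂(dm X.η) := by
  have := s6i_prob_eta X
  have hint : ∀ l ∈ Finset.Ico k (2 * k), Integrable (fun y => ‖X.T l y‖ ^ 2) (dm X.η) :=
    fun l _ => (BdM.norm_sq (s6i_T_bdm X l)).integrable _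
  have h1 : ∫ y, X.pTr k y ∂(dm X.η) = X.nrm k * ∑ l ∈ Finset.Ico k (2 * k), nSq X.η (X.T l) := by
    unfold HierData.pTr nSq
    rw [integral_const_mul, integral_finsetSum _ hint]
  rw [h1]
  have hI := X.I_pos
  have h2 : ∀ l ∈ Finset.Ico k (2 * k), (1 - δ) * X.I ≤ nSq X.η (X.T l) := by
    intro l hl
    have hl' := Finset.mem_Ico.1 hl
    have := (abs_le.1 (hX.norm l (by omega))).1
    linarith
  have h3 := Finset.sum_le_sum h2
  rw [Finset.sum_const, Nat.card_Ico, nsmul_eq_mul] at h3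
  have hkk : ((2 * k - k : ℕ) : ℝ) = k := by
    congr 1
    omega
  rw [hkk] at h3
  have hk' : (0 : ℝ) < k := by exact_mod_cast hk
  have h4 : X.nrm k * ((k : ℝ) * ((1 - δ) * X.I)) = 1 - δ := by
    unfold HierData.nrm
    field_simp
  calc 1 - δ = X.nrm k * ((k : ℝ) * ((1 - δ) * X.I)) := h4.symm
    _ ≤ _ := mul_le_mul_of_nonneg_left h3 (s6b_nrm_nonneg X k)

theorem s6m_R_eig_nonneg (X : HierData n) (k : ℕ) (y : EE n) (i : Fin n) :
    0 ≤ mxEig (X.R k y) i :=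
  mk_eig_nonneg (mk_sqrt_psd _) i

/-- weight comparison -/
theorem s6m_weight (X : HierData n) (k : ℕ) {h : ℝ} (hh : 0 < h) (M : Mx n) (p : EE n × ℝ) :
    mxSq (M * X.Rs k h p) ≤ mxSq (M * X.R k p.1) ∧
      mxSq (M * X.R k p.1) ≤ Real.exp (2 * h) * mxSq (M * X.Rs k h p) :=
  s6q_weight_le (s6b_R_isSymm X k p.1) (s6m_R_eig_nonneg X k p.1) hh M

/-- BP-S6-MODEL (end of Lemma 6.6): the tracial defects of the block model.  GLUE of `s6_block`,
`s6_col` and the weight comparison `τ(X*X) ≤ E‖XR‖² ≤ e^{2h} τ(X*X)`. -/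
theorem s6_model : ∀ ε : ℝ, 0 < ε → ∃ k₀ : ℕ, ∀ k : ℕ, k₀ ≤ k → ∃ h : ℝ, 0 < h ∧ h ≤ ε ∧ ∃ δ : ℝ, 0 < δ ∧
    ∀ (n : ℕ) (X : HierData n), X.Small (3 * k) δ →
      ∃ B : BlockModel n (X.Qm h), B.Rs = X.Rs k h ∧ B.Small ε ∧ X.actD k h B.H ≤ ε := by
  intro ε hε
  obtain ⟨κ, hκ, k1, H1⟩ := s6_col ε hε
  obtain ⟨k2, H2⟩ := s6_block (min κ (ε / 4)) (lt_min hκ (by positivity))
  refine ⟨max (max k1 k2) 1, fun k hk => ?_⟩
  have hk1 : k1 ≤ k := ((le_max_left _ _).trans (le_max_left _ _)).trans hk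
  have hk2 : k2 ≤ k := ((le_max_right _ _).trans (le_max_left _ _)).trans hk
  have hk0 : 0 < k := lt_of_lt_of_le one_pos ((le_max_right _ _).trans hk)
  obtain ⟨δ1, hδ1, H1'⟩ := H1 k hk1
  obtain ⟨h, hh, hhle, δ2, hδ2, H2'⟩ := H2 k hk2
  have hh4 : h ≤ ε / 4 := hhle.trans (min_le_right _ _)
  refine ⟨h, hh, hh4.trans (by linarith), min (min δ1 δ2) (ε / 2),
    lt_min (lt_min hδ1 hδ2) (by positivity), fun n X hX => ?_⟩
  have hX1 : X.Small (3 * k) δ1 := s6c_small_mono ((min_le_left _ _).trans (min_le_left _ _)) hX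
  have hX2 : X.Small (3 * k) δ2 := s6c_small_mono ((min_le_left _ _).trans (min_le_right _ _)) hX
  have hX3 : X.Small (3 * k) (ε / 2) := s6c_small_mono (min_le_right _ _) hX
  obtain ⟨B, hRs, hcl⟩ := H2' n X hX2
  have hOK : HierData.ColOK B.H := ⟨B.H_meas, B.H_symm, B.col⟩
  obtain ⟨hact, -, hs, hcc, hex⟩ := H1' n X hX1 h B.H hh hOK (hcl.trans (min_le_left _ _))
  have := s6i_prob_Qm X hh
  have hRsd : ∀ d, B.Rs d = X.Rs k h d := fun d => by rw [hRs]
  refine ⟨B, hRs, ⟨?_, ?_, ?_, ?_⟩, hact⟩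
  · -- mass
    rw [B.tau_one]
    have hTrb : BdM (X.pTr k) := (s6i_base_bdm X k).2.2.2.1
    have hTri : Integrable (fun p : EE n × ℝ => X.pTr k p.1) (X.Qm h) :=
      hTrb.comp_fst.integrable _
    have hup : ∫ d, mxSq (B.Rs d) ∂(X.Qm h) ≤ ∫ p, X.pTr k p.1 ∂(X.Qm h) := by
      refine integral_mono_of_nonneg
        (Filter.Eventually.of_forall fun d => Claimed.Agent.R260.mxSq_nonneg _) hTri
        (Filter.Eventually.of_forall fun d => ?_)
      have := (s6m_weight X k hh 1 d).1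
      simp only [Matrix.one_mul] at this
      simpa only [hRsd d, s6b_mxSq_R] using this
    have hlo : ∫ p, X.pTr k p.1 ∂(X.Qm h) ≤ Real.exp (2 * h) * ∫ d, mxSq (B.Rs d) ∂(X.Qm h) := by
      rw [← integral_const_mul]
      refine integral_mono_of_nonneg
        (Filter.Eventually.of_forall fun d => ?_) (B.Rs_int.const_mul _)
        (Filter.Eventually.of_forall fun d => ?_)
      · change 0 ≤ X.pTr k d.1
        rw [← s6b_mxSq_R]
        exact Claimed.Agent.R260.mxSq_nonneg _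
      · have := (s6m_weight X k hh 1 d).2
        simp only [Matrix.one_mul] at this
        simpa only [hRsd d, s6b_mxSq_R] using this
    rw [s6i_integral_fst X hh] at hup hlo
    have h1 := (s6i_base_int X k hk0 hX3).1
    have h2 := s6m_mass_lo X hk0 hX3
    set τ1 : ℝ := ∫ d, mxSq (B.Rs d) ∂(X.Qm h) with hτ1
    have hτ0 : 0 ≤ τ1 := integral_nonneg fun d => Claimed.Agent.R260.mxSq_nonneg _
    -- `e^{-2h} ≥ 1 - 2h`
    have hexp : (1 - 2 * h) * Real.exp (2 * h) ≤ 1 := by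
      have h3 : 1 - 2 * h ≤ Real.exp (-(2 * h)) := by
        have := Real.add_one_le_exp (-(2 * h))
        linarith
      calc (1 - 2 * h) * Real.exp (2 * h) ≤ Real.exp (-(2 * h)) * Real.exp (2 * h) :=
            mul_le_mul_of_nonneg_right h3 (Real.exp_pos _).le
        _ = 1 := by rw [← Real.exp_add]; simp
    rw [abs_le]
    constructor
    · -- `τ1 ≥ e^{-2h}(1-ε/2) ≥ (1-2h)(1-ε/2)`
      by_cases hε2 : 1 - ε / 2 ≤ 0
      · linarith
      · by_cases hh2 : 1 - 2 * h ≤ 0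
        · linarith
        · push_neg at hε2 hh2
          have h4 : (1 - 2 * h) * (1 - ε / 2) ≤ τ1 := by
            have h5 : (1 - 2 * h) * (1 - ε / 2) ≤ (1 - 2 * h) * (Real.exp (2 * h) * τ1) :=
              mul_le_mul_of_nonneg_left (h2.trans hlo) hh2.le
            have h6 : (1 - 2 * h) * (Real.exp (2 * h) * τ1) ≤ 1 * τ1 := by
              rw [← mul_assoc]
              exact mul_le_mul_of_nonneg_right hexp hτ0
            linarith
          nlinarith
    · linarith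
  · -- sdef
    rw [B.tau_S]
    refine le_trans ?_ hs
    refine integral_mono_of_nonneg
      (Filter.Eventually.of_forall fun d => fzS_nonneg _ _) ((s6i_sd_bdm X k hOK).integrable _)
      (Filter.Eventually.of_forall fun d => ?_)
    have := (s6m_weight X k hh (colS (B.H d) - 1) d).1
    simpa only [fzS, hRsd d] using this
  · -- cdef
    rw [B.tau_C]
    refine le_trans ?_ hcc
    rw [s6i_ccD X k hh hOK]
    have hb : BdM (fun p : EE n × ℝ =>
        ∑ i, ∑ j, mxSq (cmm (B.H p i) (B.H p j) * X.R k p.1)) := by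
      refine BdM.sum _ fun i _ => BdM.sum _ fun j _ => BdM.mx_sq ?_
      refine BdM.mx_mul (BdM.mx_sub (BdM.mx_mul (s6i_H_bdm hOK i) (s6i_H_bdm hOK j))
        (BdM.mx_mul (s6i_H_bdm hOK j) (s6i_H_bdm hOK i))) fun a b => (s6i_R_bdm X k a b).comp_fst
    refine integral_mono_of_nonneg
      (Filter.Eventually.of_forall fun d => fzC_nonneg _ _) (hb.integrable _)
      (Filter.Eventually.of_forall fun d => ?_)
    refine Finset.sum_le_sum fun i _ => Finset.sum_le_sum fun j _ => ?_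
    have := (s6m_weight X k hh (cmm (B.H d i) (B.H d j)) d).1
    simpa only [hRsd d] using this
  · -- xdef
    refine le_trans ?_ hex
    refine integral_mono_of_nonneg
      (Filter.Eventually.of_forall fun d => Finset.sum_nonneg fun _ _ => Finset.sum_nonneg
        fun _ _ => Finset.sum_nonneg fun _ _ => sq_nonneg _) ((s6i_ex_bdm X k hOK).integrable _)
      (Filter.Eventually.of_forall fun d => ?_)
    have := s6q_exP_le (s6b_R_isSymm X k d.1) (s6m_R_eig_nonneg X k d.1) (θ := d.2) hh (B.H d)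
    simpa only [exP, hRsd d, HierData.Rs] using this

end Claimed.Agent.R259
end

/- ===== packed: Claimed.Agent.R259.S6FrzDefs ===== -/
section
/-
Row 259 (S0499), Proposition 6.8 of the paper (frozen diffusion law): DEFINITIONS.  Owner: helper88.

Band `k ≤ l < 2k`, normalisation `X.nrm k = 1/(kI)`; `Ψ = (T_l)_l`.  For a family `U_l ∈ TT n (l+1)` the band norm is
`X.nrm k * ∑_l ‖U_l‖²`.  Four families on the coupling `(𝒟 = (Y_0,θ), N, Y_t)`:
  `A_l = T_l(Y_t)`,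
  `B_l = hSum = e^{-t} ∑_{j ≤ m} (2t)^{j/2}/j! T_{l+j}(Y_0) : 𝔥_j(N)`      (Lemma 5.5, `MetGoal`),
  `C_l = (W_m)_{(1)} T_l(Y_0)`, `W_m = fzW H t m N`                          (iteration of the one step replacement),
  `D_l = M_{(1)} T_l(Y_0)`, `M = fzM H t N = exp(√(2t) H[N] - 2t)`            (package EXP).
-/
set_option autoImplicit false

open MeasureTheory ProbabilityTheory
open scoped ContDiff BigOperators Matrix
open Claimed.Agent.R260 (Mx mxFun mxSchur mxSq mxIP mxEig mxU mxRot)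

namespace Claimed.Agent.R259

noncomputable section

variable {n : ℕ}

/-- the LAST `j` indices of a tensor of order `m' = d + j` are fixed to `β` -/
def tailAt {d m' j : ℕ} (hm : m' = d + j) (t : TT n m') (β : Idx n j) : TT n d :=
  WithLp.toLp 2 (fun α => t (Fin.append α β ∘ Fin.cast hm))

theorem frz_lvl (l j : ℕ) : l + j + 1 = l + 1 + j := by omega

namespace HierData

variable (X : HierData n) (k : ℕ)

/-- the Hermite sum `B_l` -/
def hSum (t : ℝ) (m l : ℕ) (y0 x : EE n) : TT n (l + 1) :=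
  Real.exp (-t) • ∑ j ∈ Finset.range (m + 1),
    (Real.sqrt (2 * t) ^ j / (j.factorial : ℝ)) • ctr (frz_lvl l j) (X.T (l + j) y0) (hm j x)

/-- band distance of `A` and `B` -/
def sAB (t : ℝ) (m : ℕ) (y0 x yt : EE n) : ℝ :=
  X.nrm k * ∑ l ∈ Finset.Ico k (2 * k), ‖X.T l yt - X.hSum t m l y0 x‖ ^ 2

/-- band distance of `B` and `C` -/
def sBC (t : ℝ) (m : ℕ) (H : Fin n → Mx n) (y0 x : EE n) : ℝ :=
  X.nrm k * ∑ l ∈ Finset.Ico k (2 * k),
    ‖X.hSum t m l y0 x - slot 0 (fzW H t m x) (X.T l y0)‖ ^ 2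

/-- band distance of `A` and `M_{(1)} Ψ(Y_0)` -/
def sAD (M : Mx n) (y0 yt : EE n) : ℝ :=
  X.nrm k * ∑ l ∈ Finset.Ico k (2 * k), ‖X.T l yt - slot 0 M (X.T l y0)‖ ^ 2

/-- error of the `j`-fold replacement `T_{l+j}(·,β) ≈ (H_{β (j-1)} ⋯ H_{β 0})_{(1)} T_l` on the band -/
def itE (j : ℕ) (H : Fin n → Mx n) (y : EE n) : ℝ :=
  X.nrm k * ∑ l ∈ Finset.Ico k (2 * k), ∑ β : Idx n j,
    ‖tailAt (frz_lvl l j) (X.T (l + j) y) β - slot 0 (hpr H j β) (X.T l y)‖ ^ 2

/-- one step error on the band shifted by `a` -/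
def oneE (a : ℕ) (H : Fin n → Mx n) (y : EE n) : ℝ :=
  X.nrm k * ∑ l ∈ Finset.Ico (k + a) (2 * k + a), ∑ i,
    ‖lastAt (X.T (l + 1) y) i - slot 0 (H i) (X.T l y)‖ ^ 2

/-- eigenfunction defect of the band shifted by `j` -/
def bandA (j : ℕ) : ℝ :=
  X.nrm k * ∑ l ∈ Finset.Ico k (2 * k),
    nSq X.η (fun y => opA X.η (X.T (l + j)) y - X.T (l + j) y)

/-- derivative defect of the band shifted by `j` -/
def bandD (j : ℕ) : ℝ :=
  X.nrm k * ∑ l ∈ Finset.Ico k (2 * k), nSq X.η (fun y => tD (X.T (l + j)) y - X.T (l + j + 1) y)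

/-- mass of the band shifted by `j` -/
def bandN (j : ℕ) : ℝ := X.nrm k * ∑ l ∈ Finset.Ico k (2 * k), nSq X.η (X.T (l + j))

end HierData

/-- a coupling `(𝒟, N, Y_t)` with the laws required by `Frozen` -/
structure FrzCoup (X : HierData n) (h : ℝ) where
  Ω : Type
  mΩ : MeasurableSpace Ω
  P : Measure Ω
  prob : IsProbabilityMeasure P
  Dt : Ω → EE n × ℝ
  N : Ω → EE n
  Yt : Ω → EE n
  Dt_meas : Measurable Dt
  N_meas : Measurable N
  Yt_meas : Measurable Yt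
  law_Dt : P.map Dt = X.Qm h
  law_N : P.map N = gam n
  law_Yt : P.map Yt = dm X.η
  indep : IndepFun Dt N P

attribute [instance] FrzCoup.mΩ FrzCoup.prob

end

/-- generates the equation lemmas of the definitions above in this file (rule 6: unique names) -/
theorem s6frzdefs_eqns_cite : True := by
  have := @tailAt.eq_1
  have := @HierData.hSum.eq_1
  have := @HierData.sAB.eq_1
  have := @HierData.sBC.eq_1
  have := @HierData.sAD.eq_1
  have := @HierData.itE.eq_1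
  have := @HierData.oneE.eq_1
  have := @HierData.bandA.eq_1
  have := @HierData.bandD.eq_1
  have := @HierData.bandN.eq_1
  have := @tailAt.congr_simp
  trivial

end Claimed.Agent.R259
end

/- ===== packed: Claimed.Agent.R259.S6FrzOne ===== -/
section
/-
Row 259 (S0499), Proposition 6.8 of the paper, LEAF L-frz-one of the blueprint `S6Frz.lean` (statements: helper88).
The leaf owner owns this file: keep names and statements, replace the sorries (helper files `S6FrzOne*.lean`, more imports allowed as long as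
they do not import `S6FrzLeaves`, `S6FrzCore`, `S6FrzPt`, `S6Frz`).

Hint.  For `l < 2k`: `∑_i ‖T_{l+1}(·,i) - H_i T_l‖² ≤ 2‖T_{l+1} - tD T_l‖² + 2 ∑_i ‖D_i T_l - H_i T_l‖²` (`lastAt_tD`, `sum_norm_lastAt_sq`);
  for `2k ≤ l < 2k + a`: `≤ 2‖T_{l+1}‖² + 8‖T_l‖²` (`s6t_column_bound` / `s6n_col_slot`).  Integrals by `Small.deriv`, `Small.norm`, `s6i_actD`.
-/
set_option autoImplicit false

open MeasureTheory ProbabilityTheory
open scoped ContDiff BigOperators Matrix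
open Claimed.Agent.R260 (Mx mxFun mxSchur mxSq mxIP mxEig mxU mxRot)

namespace Claimed.Agent.R259

variable {n : ℕ}

/-- the one step error at level `l` is bounded and measurable -/
theorem fzo_bdm (X : HierData n) {H : EE n × ℝ → Fin n → Mx n} (hH : HierData.ColOK H) (l : ℕ)
    (i : Fin n) :
    BdM fun p => ‖lastAt (X.T (l + 1) p.1) i - slot 0 (H p i) (X.T l p.1)‖ ^ 2 := by
  refine BdM.norm_sq fun α => ?_
  have e : (fun p : EE n × ℝ => (lastAt (X.T (l + 1) p.1) i - slot 0 (H p i) (X.T l p.1)) α)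
      = fun p => X.T (l + 1) p.1 (Fin.snoc α i)
        - ∑ j, H p i (α 0) j * X.T l p.1 (Function.update α 0 j) := by
    funext p
    rfl
  rw [e]
  exact (s6i_T_bdm X (l + 1) _).comp_fst.sub
    (BdM.sum _ fun j _ => (s6i_H_bdm hH i (α 0) j).mul (s6i_T_bdm X l _).comp_fst)

/-- pointwise bound through the derivative defect -/
theorem fzo_ptA (X : HierData n) (H : Fin n → Mx n) (l : ℕ) (y : EE n) :
    ∑ i, ‖lastAt (X.T (l + 1) y) i - slot 0 (H i) (X.T l y)‖ ^ 2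
      ≤ 2 * ‖tD (X.T l) y - X.T (l + 1) y‖ ^ 2
        + 2 * ∑ i, ‖dI i (X.T l) y - slot 0 (H i) (X.T l y)‖ ^ 2 := by
  rw [← sum_norm_lastAt_sq, Finset.mul_sum, Finset.mul_sum, ← Finset.sum_add_distrib]
  refine Finset.sum_le_sum fun i _ => ?_
  have h1 := s6b_norm_sq_le (lastAt (X.T (l + 1) y) i - slot 0 (H i) (X.T l y))
    (dI i (X.T l) y - slot 0 (H i) (X.T l y))
  have e : lastAt (X.T (l + 1) y) i - slot 0 (H i) (X.T l y)
      - (dI i (X.T l) y - slot 0 (H i) (X.T l y))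
      = - lastAt (tD (X.T l) y - X.T (l + 1) y) i := by
    rw [lastAt_sub, lastAt_tD]
    abel
  rw [e, norm_neg] at h1
  exact h1

/-- pointwise bound through the masses -/
theorem fzo_ptB (X : HierData n) {H : Fin n → Mx n} (hH : ColB H 4) (l : ℕ) (y : EE n) :
    ∑ i, ‖lastAt (X.T (l + 1) y) i - slot 0 (H i) (X.T l y)‖ ^ 2
      ≤ 2 * ‖X.T (l + 1) y‖ ^ 2 + 8 * ‖X.T l y‖ ^ 2 := by
  have h0 := s6n_col_slot hH 0 (X.T l y)
  have h2 : ∑ i, ‖lastAt (X.T (l + 1) y) i - slot 0 (H i) (X.T l y)‖ ^ 2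
      ≤ 2 * ∑ i, ‖lastAt (X.T (l + 1) y) i‖ ^ 2 + 2 * ∑ i, ‖slot 0 (H i) (X.T l y)‖ ^ 2 := by
    rw [Finset.mul_sum, Finset.mul_sum, ← Finset.sum_add_distrib]
    refine Finset.sum_le_sum fun i _ => ?_
    have h1 := s6b_norm_sq_le (lastAt (X.T (l + 1) y) i - slot 0 (H i) (X.T l y))
      (- slot 0 (H i) (X.T l y))
    have e : lastAt (X.T (l + 1) y) i - slot 0 (H i) (X.T l y) - (- slot 0 (H i) (X.T l y))
        = lastAt (X.T (l + 1) y) i := by abel
    rw [e, norm_neg] at h1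
    exact h1
  rw [sum_norm_lastAt_sq] at h2
  linarith

theorem frz_one (X : HierData n) {k a : ℕ} {δ h : ℝ} (hk : 0 < k) (ha : a + 1 ≤ k) (hδ : 0 ≤ δ)
    (hX : X.Small (3 * k) δ) (hh : 0 < h) {H : EE n × ℝ → Fin n → Mx n} (hH : HierData.ColOK H) :
    Integrable (fun p => X.oneE k a (H p) p.1) (X.Qm h) ∧
      ∫ p, X.oneE k a (H p) p.1 ∂(X.Qm h)
        ≤ 2 * δ + 2 * X.actD k h H + 10 * (1 + δ) * a / k := by
  have := s6i_prob_Qm X hh
  have := s6i_prob_eta X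
  have hI := X.I_pos
  -- the level functions
  have bF : ∀ l, BdM fun p : EE n × ℝ =>
      ∑ i, ‖lastAt (X.T (l + 1) p.1) i - slot 0 (H p i) (X.T l p.1)‖ ^ 2 :=
    fun l => BdM.sum _ fun i _ => fzo_bdm X hH l i
  have bG : ∀ l, BdM fun p : EE n × ℝ =>
      ∑ i, ‖dI i (X.T l) p.1 - slot 0 (H p i) (X.T l p.1)‖ ^ 2 :=
    fun l => BdM.sum _ fun i _ => s6i_ac_bdm X hH l i
  have bD : ∀ l, BdM fun y : EE n => ‖tD (X.T l) y - X.T (l + 1) y‖ ^ 2 :=
    fun l => BdM.norm_sq fun α => (s6i_tD_bdm X l α).sub (s6i_T_bdm X (l + 1) α)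
  have bT : ∀ l, BdM fun y : EE n => ‖X.T l y‖ ^ 2 := fun l => BdM.norm_sq (s6i_T_bdm X l)
  have hn : ∀ l ≤ 3 * k, ∫ y, ‖X.T l y‖ ^ 2 ∂(dm X.η) ≤ (1 + δ) * X.I := by
    intro l hl
    have h1 := (abs_le.mp (hX.norm l hl)).2
    unfold nSq at h1
    linarith
  have hd : ∀ l ≤ 3 * k, ∫ y, ‖tD (X.T l) y - X.T (l + 1) y‖ ^ 2 ∂(dm X.η) ≤ δ * X.I :=
    fun l hl => hX.deriv l hl
  -- abbreviations for the integrals
  obtain ⟨F, hF⟩ : ∃ F : ℕ → ℝ, F = fun l => ∫ p : EE n × ℝ,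
      ∑ i, ‖lastAt (X.T (l + 1) p.1) i - slot 0 (H p i) (X.T l p.1)‖ ^ 2 ∂(X.Qm h) := ⟨_, rfl⟩
  obtain ⟨G, hG⟩ : ∃ G : ℕ → ℝ, G = fun l => ∑ i, ∫ p : EE n × ℝ,
      ‖dI i (X.T l) p.1 - slot 0 (H p i) (X.T l p.1)‖ ^ 2 ∂(X.Qm h) := ⟨_, rfl⟩
  have hG0 : ∀ l, 0 ≤ G l := by
    intro l
    rw [hG]
    exact Finset.sum_nonneg fun i _ => integral_nonneg fun p => sq_nonneg _
  have hA : ∀ l ≤ 3 * k, F l ≤ 2 * (δ * X.I) + 2 * G l := by
    intro l hl
    have h1 : F l ≤ ∫ p : EE n × ℝ, (2 * ‖tD (X.T l) p.1 - X.T (l + 1) p.1‖ ^ 2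
        + 2 * ∑ i, ‖dI i (X.T l) p.1 - slot 0 (H p i) (X.T l p.1)‖ ^ 2) ∂(X.Qm h) := by
      rw [hF]
      exact integral_mono ((bF l).integrable _)
        ((((bD l).comp_fst.integrable _).const_mul 2).add (((bG l).integrable _).const_mul 2))
        (fun p => fzo_ptA X (H p) l p.1)
    rw [integral_add (((bD l).comp_fst.integrable _).const_mul 2)
      (((bG l).integrable _).const_mul 2), integral_const_mul, integral_const_mul,
      s6i_integral_fst X hh (fun y => ‖tD (X.T l) y - X.T (l + 1) y‖ ^ 2),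
      integral_finsetSum _ fun i _ => (s6i_ac_bdm X hH l i).integrable _] at h1
    have h2 := hd l hl
    rw [hG]
    linarith
  have hB : ∀ l, l + 1 ≤ 3 * k → F l ≤ 10 * ((1 + δ) * X.I) := by
    intro l hl
    have h1 : F l ≤ ∫ p : EE n × ℝ, (2 * ‖X.T (l + 1) p.1‖ ^ 2 + 8 * ‖X.T l p.1‖ ^ 2)
        ∂(X.Qm h) := by
      rw [hF]
      exact integral_mono ((bF l).integrable _)
        ((((bT (l + 1)).comp_fst.integrable _).const_mul 2).add
          (((bT l).comp_fst.integrable _).const_mul 8))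
        (fun p => fzo_ptB X (s6i_ColB hH p) l p.1)
    rw [integral_add (((bT (l + 1)).comp_fst.integrable _).const_mul 2)
      (((bT l).comp_fst.integrable _).const_mul 8), integral_const_mul, integral_const_mul,
      s6i_integral_fst X hh (fun y => ‖X.T (l + 1) y‖ ^ 2),
      s6i_integral_fst X hh (fun y => ‖X.T l y‖ ^ 2)] at h1
    have h2 := hn (l + 1) hl
    have h3 := hn l (by omega)
    linarith
  refine ⟨?_, ?_⟩
  · unfold HierData.oneE
    exact ((BdM.const _).mul (BdM.sum _ fun l _ => bF l)).integrable _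
  · have e1 : ∫ p, X.oneE k a (H p) p.1 ∂(X.Qm h)
        = X.nrm k * ∑ l ∈ Finset.Ico (k + a) (2 * k + a), F l := by
      unfold HierData.oneE
      rw [integral_const_mul, integral_finsetSum _ fun l _ => (bF l).integrable _, hF]
    have e2 : X.actD k h H = X.nrm k * ∑ l ∈ Finset.Ico k (2 * k), G l := by
      unfold HierData.actD
      rw [hG]
    rw [e1, e2, ← Finset.sum_Ico_consecutive F (show k + a ≤ 2 * k by omega)
      (show 2 * k ≤ 2 * k + a by omega)]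
    have s1 : ∑ l ∈ Finset.Ico (k + a) (2 * k), F l
        ≤ (k : ℝ) * (2 * (δ * X.I)) + 2 * ∑ l ∈ Finset.Ico k (2 * k), G l := by
      calc ∑ l ∈ Finset.Ico (k + a) (2 * k), F l
          ≤ ∑ l ∈ Finset.Ico (k + a) (2 * k), (2 * (δ * X.I) + 2 * G l) :=
            Finset.sum_le_sum fun l hl => hA l (by have := (Finset.mem_Ico.mp hl).2; omega)
        _ ≤ ∑ l ∈ Finset.Ico k (2 * k), (2 * (δ * X.I) + 2 * G l) := by
            refine Finset.sum_le_sum_of_subset_of_nonneg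
              (Finset.Ico_subset_Ico (by omega) le_rfl) fun l _ _ => ?_
            have := hG0 l
            positivity
        _ = (k : ℝ) * (2 * (δ * X.I)) + 2 * ∑ l ∈ Finset.Ico k (2 * k), G l := by
            rw [Finset.sum_add_distrib, Finset.sum_const, Nat.card_Ico, nsmul_eq_mul,
              ← Finset.mul_sum]
            congr 3
            omega
    have s2 : ∑ l ∈ Finset.Ico (2 * k) (2 * k + a), F l ≤ (a : ℝ) * (10 * ((1 + δ) * X.I)) := by
      calc ∑ l ∈ Finset.Ico (2 * k) (2 * k + a), F l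
          ≤ ∑ l ∈ Finset.Ico (2 * k) (2 * k + a), 10 * ((1 + δ) * X.I) :=
            Finset.sum_le_sum fun l hl => hB l (by have := (Finset.mem_Ico.mp hl).2; omega)
        _ = (a : ℝ) * (10 * ((1 + δ) * X.I)) := by
            rw [Finset.sum_const, Nat.card_Ico, nsmul_eq_mul]
            congr 2
            omega
    have h0 := s6b_nrm_nonneg X k
    refine (mul_le_mul_of_nonneg_left (add_le_add s1 s2) h0).trans (le_of_eq ?_)
    generalize ∑ l ∈ Finset.Ico k (2 * k), G l = S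
    unfold HierData.nrm
    have hI' := hI.ne'
    have hk' : (k : ℝ) ≠ 0 := by exact_mod_cast hk.ne'
    field_simp

end Claimed.Agent.R259
end

/- ===== packed: Claimed.Agent.R259.S6FrzRoot ===== -/
section
/-
Row 259 (S0499), Proposition 6.8 of the paper, LEAF L-frz-root of the blueprint `S6Frz.lean` (statements: helper88).
The leaf owner owns this file: keep names and statements, replace the sorries (helper files `S6FrzRoot*.lean`, more imports allowed as long as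
they do not import `S6FrzLeaves`, `S6FrzCore`, `S6FrzPt`, `S6Frz`).

Hint.  `bP y` = block matrix of the band (rows = slot 0), `X.rho k y = bP y * (bP y)ᵀ`; Araki-Yamagami `hs2_sqrt_gram_sub_le` twice:
  `‖R(y_t) - √(MρM)‖² ≤ 2 sAD`, `‖√((MR)(MR)ᵀ) - √((MR_*)(MR_*)ᵀ)‖² ≤ 2‖M(R-R_*)‖² ≤ 2(e^h-1)²‖M R_*‖²` (`s6q_rnd_bounds`), and
  `√(M R_*² M) = R_* M` (`mk_sqrt_unique`, `mk_psd_mul_of_commute`).
-/
set_option autoImplicit false

open MeasureTheory ProbabilityTheory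
open scoped ContDiff BigOperators Matrix
open Claimed.Agent.R260 (Mx mxFun mxSchur mxSq mxIP mxEig mxU mxRot)

namespace Claimed.Agent.R259

variable {n : ℕ}

/-- comparison of two right weights that are functions of the same matrix -/
theorem frzr_mxSq_mul_fun_le {f g : ℝ → ℝ} {A : Mx n} {c : ℝ}
    (h : ∀ i, |f (mxEig A i)| ≤ c * |g (mxEig A i)|) (M : Mx n) :
    mxSq (M * mxFun f A) ≤ c ^ 2 * mxSq (M * mxFun g A) := by
  rw [Claimed.Agent.R260.mxSq_rot A (M * mxFun f A), Claimed.Agent.R260.mxSq_rot A (M * mxFun g A),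
    Finset.mul_sum]
  refine Finset.sum_le_sum fun i _ => ?_
  rw [Finset.mul_sum]
  refine Finset.sum_le_sum fun j _ => ?_
  rw [Claimed.Agent.R260.mxRot_mul_mxFun_apply, Claimed.Agent.R260.mxRot_mul_mxFun_apply,
    mul_pow, mul_pow]
  have h1 : f (mxEig A j) ^ 2 ≤ c ^ 2 * g (mxEig A j) ^ 2 := by
    have h2 := h j
    have h3 : |f (mxEig A j)| ^ 2 ≤ (c * |g (mxEig A j)|) ^ 2 :=
      pow_le_pow_left₀ (abs_nonneg _) h2 2
    rwa [sq_abs, mul_pow, sq_abs] at h3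
  have h4 : 0 ≤ mxRot A M i j ^ 2 := sq_nonneg _
  nlinarith [mul_le_mul_of_nonneg_left h1 h4]

/-- the band distance as a Hilbert-Schmidt distance of the block matrices -/
theorem frzr_hs2_band (X : HierData n) (k : ℕ) (M : Mx n) (y0 yt : EE n) :
    hs2 (X.bP k yt - M * X.bP k y0) = X.sAD k M y0 yt := by
  rw [HierData.bP, HierData.bP, mul_blk, blk_sub, hs2_blk, s6r_sq_sqrt_nrm, HierData.sAD,
    s6r_sum_Ico]
  simp only [← flat_slot_zero, ← flat_sub, hs2_flat]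

theorem frz_root (X : HierData n) (k : ℕ) {h : ℝ} (hh : 0 < h) (p : EE n × ℝ) (yt : EE n) {M : Mx n}
    (hM : M.PosSemidef) (hc : M * X.Rs k h p = X.Rs k h p * M) :
    mxSq (X.R k yt - X.Rs k h p * M)
      ≤ 4 * X.sAD k M p.1 yt + 4 * (Real.exp h - 1) ^ 2 * mxSq (M * X.Rs k h p) := by
  have hMs : Mᵀ = M := (mk_isSymm_of_psd hM).eq
  set R : Mx n := X.R k p.1 with hR
  set Rs : Mx n := X.Rs k h p with hRs
  have hRsym : Rᵀ = R := (s6r_R_isSymm X k p.1).eq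
  have hRspsd : Rs.PosSemidef := s6q_Rs_psd h p.2
  have hRssym : Rsᵀ = Rs := (mk_isSymm_of_psd hRspsd).eq
  -- step 1
  have s1 : hs2 (X.R k yt - mxFun Real.sqrt ((M * R) * (M * R)ᵀ)) ≤ 2 * X.sAD k M p.1 yt := by
    have := hs2_sqrt_gram_sub_le (X.bP k yt) (M * X.bP k p.1)
    rw [frzr_hs2_band, s6r_gram] at this
    have e : (M * X.bP k p.1) * (M * X.bP k p.1)ᵀ = (M * R) * (M * R)ᵀ := by
      rw [Matrix.transpose_mul, Matrix.transpose_mul, hRsym, Matrix.mul_assoc M,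
        ← Matrix.mul_assoc (X.bP k p.1), s6r_gram, Matrix.mul_assoc M R, ← Matrix.mul_assoc R R,
        hR, s6r_R_mul_R]
    rw [e] at this
    exact this
  -- step 2
  have s2 : hs2 (mxFun Real.sqrt ((M * R) * (M * R)ᵀ) - Rs * M)
      ≤ 2 * ((Real.exp h - 1) ^ 2 * mxSq (M * Rs)) := by
    have := hs2_sqrt_gram_sub_le (M * R) (M * Rs)
    have e : mxFun Real.sqrt ((M * Rs) * (M * Rs)ᵀ) = Rs * M := by
      refine mk_sqrt_unique (mk_psd_mul_of_commute hRspsd hM hc.symm) ?_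
      rw [Matrix.transpose_mul, hRssym, hMs, hc]
    rw [e] at this
    refine this.trans ?_
    have e2 : M * R - M * Rs = M * mxFun (fun x => x - HierData.rnd h p.2 x) R := by
      rw [Claimed.Agent.R260.mxFun_sub, Claimed.Agent.R260.mxFun_id (s6r_R_isSymm X k p.1),
        Matrix.mul_sub]
      rfl
    rw [e2, ← mxSq_eq_hs2]
    refine mul_le_mul_of_nonneg_left ?_ (by norm_num)
    refine frzr_mxSq_mul_fun_le (fun i => ?_) M
    obtain ⟨b1, b2, b3⟩ := s6q_rnd_bounds (θ := p.2) hh (mk_eig_nonneg (s6r_R_psd X k p.1) i)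
    rw [abs_of_nonneg (sub_nonneg.2 b2), abs_of_nonneg b1]
    linarith
  -- combine
  rw [mxSq_eq_hs2]
  have e3 : X.R k yt - Rs * M = (X.R k yt - mxFun Real.sqrt ((M * R) * (M * R)ᵀ))
      + (mxFun Real.sqrt ((M * R) * (M * R)ᵀ) - Rs * M) := by abel
  rw [e3]
  refine (hs2_add_le _ _).trans ?_
  linarith

end Claimed.Agent.R259
end

/- ===== packed: Claimed.Agent.R259.S6FrzPair ===== -/
section
/-
Row 259 (S0499), Proposition 6.8 of the paper, LEAF L-frz-pair of the blueprint `S6Frz.lean` (statements: helper88).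
The leaf owner owns this file: keep names and statements, replace the sorries (helper files `S6FrzPair*.lean`, more imports allowed as long as
they do not import `S6FrzLeaves`, `S6FrzCore`, `S6FrzPt`, `S6Frz`).

Hint.  `P.map (Dt,N) = (Qm h).prod γ` (`indepFun_iff_map_prod_eq_prod_map_map`), `integrable_prod_iff`, `integral_prod`, `integral_map`.
-/
set_option autoImplicit false

open MeasureTheory ProbabilityTheory
open scoped ContDiff BigOperators Matrix
open Claimed.Agent.R260 (Mx mxFun mxSchur mxSq mxIP mxEig mxU mxRot)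

namespace Claimed.Agent.R259

variable {n : ℕ}

theorem FrzCoup.pair {X : HierData n} {h : ℝ} (c : FrzCoup X h) {g : (EE n × ℝ) × EE n → ℝ}
    (hg : Measurable g) (h0 : ∀ z, 0 ≤ g z)
    (hx : ∀ d, Integrable (fun x => g (d, x)) (stdGaussian (EE n)))
    {G : EE n × ℝ → ℝ} (hG : Integrable G (X.Qm h))
    (hle : ∀ d, ∫ x, g (d, x) ∂(stdGaussian (EE n)) ≤ G d) :
    Integrable (fun o => g (c.Dt o, c.N o)) c.P ∧
      Integrable (fun d => ∫ x, g (d, x) ∂(stdGaussian (EE n))) (X.Qm h) ∧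
      ∫ o, g (c.Dt o, c.N o) ∂c.P = ∫ d, ∫ x, g (d, x) ∂(stdGaussian (EE n)) ∂(X.Qm h) := by
  have hprob : IsProbabilityMeasure (X.Qm h) := by
    rw [← c.law_Dt]
    exact Measure.isProbabilityMeasure_map c.Dt_meas.aemeasurable
  have hpm : Measurable (fun o => (c.Dt o, c.N o)) := c.Dt_meas.prodMk c.N_meas
  have hmap : c.P.map (fun o => (c.Dt o, c.N o)) = (X.Qm h).prod (stdGaussian (EE n)) := by
    rw [(indepFun_iff_map_prod_eq_prod_map_map c.Dt_meas.aemeasurable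
      c.N_meas.aemeasurable).1 c.indep, c.law_Dt, c.law_N, gam_eq_std]
  have hI2 : Integrable (fun d => ∫ x, g (d, x) ∂(stdGaussian (EE n))) (X.Qm h) := by
    refine hG.mono' hg.stronglyMeasurable.integral_prod_right'.aestronglyMeasurable ?_
    refine Filter.Eventually.of_forall fun d => ?_
    rw [Real.norm_of_nonneg (integral_nonneg fun x => h0 _)]
    exact hle d
  have hI : Integrable g ((X.Qm h).prod (stdGaussian (EE n))) := by
    rw [integrable_prod_iff hg.aestronglyMeasurable]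
    refine ⟨Filter.Eventually.of_forall hx, ?_⟩
    simpa only [Real.norm_of_nonneg (h0 _)] using hI2
  refine ⟨?_, hI2, ?_⟩
  · have := (integrable_map_measure (μ := c.P) (f := fun o => (c.Dt o, c.N o)) (g := g)
      (by rw [hmap]; exact hg.aestronglyMeasurable) hpm.aemeasurable).1 (by rw [hmap]; exact hI)
    exact this
  · rw [← integral_prod _ hI, ← hmap, integral_map hpm.aemeasurable hg.aestronglyMeasurable]

end Claimed.Agent.R259
end

/- ===== packed: Claimed.Agent.R259.S6FrzMeas ===== -/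
section
/-
Row 259 (S0499), Proposition 6.8 of the paper, LEAF L-frz-meas of the blueprint `S6Frz.lean` (statements: helper88).
The leaf owner owns this file: keep names and statements, replace the sorries (helper files `S6FrzMeas*.lean`, more imports allowed as long as
they do not import `S6FrzLeaves`, `S6FrzCore`, `S6FrzPt`, `S6Frz`).

Hint.  Joint measurability: entries of `B.H d`, `B.Rs d` measurable in `d`, `hm j x β` continuous in `x`, `mxFun` of a measurable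
  symmetric field is measurable (`RM.of_mxFun`, MkBorel), `X.T l` continuous.
-/
set_option autoImplicit false

open MeasureTheory ProbabilityTheory
open scoped ContDiff BigOperators Matrix
open Claimed.Agent.R260 (Mx mxFun mxSchur mxSq mxIP mxEig mxU mxRot)

namespace Claimed.Agent.R259

variable {n : ℕ}

/-! ### general kit: componentwise measurable fields -/

section kit

variable {Ω : Type} [MeasurableSpace Ω]

theorem frzm_coord (i : Fin n) : Measurable fun x : EE n => x i :=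
  (EuclideanSpace.proj i : EE n →L[ℝ] ℝ).continuous.measurable

theorem frzm_hm (j : ℕ) (β : Idx n j) : Measurable fun x : EE n => hm j x β :=
  (hm_C1P j β).1.continuous.measurable

theorem frzm_comp {d : ℕ} {F : EE n → TT n d} (hF : Continuous F) (α : Idx n d) :
    Measurable fun y => F y α :=
  ((EuclideanSpace.proj α : TT n d →L[ℝ] ℝ).continuous.comp hF).measurable

theorem frzm_norm_sq {d : ℕ} {F : Ω → TT n d} (hF : ∀ α, Measurable fun w => F w α) :
    Measurable fun w => ‖F w‖ ^ 2 := by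
  simp only [s6t_norm_sq]
  exact Finset.measurable_sum _ fun α _ => (hF α).pow_const 2

theorem frzm_sum_apply {d : ℕ} {ι : Type} (s : Finset ι) (F : ι → TT n d) (α : Idx n d) :
    (∑ j ∈ s, F j) α = ∑ j ∈ s, F j α := by
  classical
  induction s using Finset.induction_on with
  | empty => simp
  | insert a s ha ih =>
    rw [Finset.sum_insert ha, Finset.sum_insert ha, ← ih]
    rfl

theorem frzm_hpr {H : Ω → Fin n → Mx n} (hH : ∀ i, RM fun w => H w i) :
    ∀ (j : ℕ) (β : Idx n j), RM fun w => hpr (H w) j β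
  | 0, _ => RM.const 1
  | j + 1, β => (hH (β (Fin.last j))).mul (frzm_hpr hH j (Fin.init β))

theorem frzm_fzG {H : Ω → Fin n → Mx n} (hH : ∀ i, RM fun w => H w i) {N : Ω → EE n}
    (hN : Measurable N) (j : ℕ) : RM fun w => fzG (H w) j (N w) := by
  unfold fzG
  exact RM.sum _ fun β _ => RM.smul ((frzm_hm j β).comp hN) (frzm_hpr hH j β)

theorem frzm_fzW {H : Ω → Fin n → Mx n} (hH : ∀ i, RM fun w => H w i) {N : Ω → EE n}
    (hN : Measurable N) (t : ℝ) (m : ℕ) : RM fun w => fzW (H w) t m (N w) := by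
  unfold fzW
  exact RM.smul measurable_const (RM.sum _ fun j _ => RM.smul measurable_const (frzm_fzG hH hN j))

theorem frzm_colAt {H : Ω → Fin n → Mx n} (hH : ∀ i, RM fun w => H w i) {N : Ω → EE n}
    (hN : Measurable N) : RM fun w => colAt (H w) (N w) := by
  unfold colAt
  exact RM.sum _ fun i _ => RM.smul ((frzm_coord i).comp hN) (hH i)

theorem frzm_colAt_symm {H : Fin n → Mx n} (hs : ∀ i, (H i).IsSymm) (v : EE n) :
    (colAt H v).IsSymm := by
  unfold Matrix.IsSymm colAt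
  rw [Matrix.transpose_sum]
  exact Finset.sum_congr rfl fun i _ => by rw [Matrix.transpose_smul, (hs i).eq]

theorem frzm_fzM {H : Ω → Fin n → Mx n} (hH : ∀ i, RM fun w => H w i)
    (hs : ∀ w i, (H w i).IsSymm) {N : Ω → EE n} (hN : Measurable N) (t : ℝ) :
    RM fun w => fzM (H w) t (N w) := by
  unfold fzM
  refine RM.of_mxFun ?_ (frzm_colAt hH hN) fun w => frzm_colAt_symm (hs w) _
  exact (Real.continuous_exp.comp ((continuous_const.mul continuous_id).sub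
    continuous_const)).measurable

theorem frzm_mxSq {F : Ω → Mx n} (hF : RM F) : Measurable fun w => mxSq (F w) := by
  simp only [mxSq_eq_hs2]
  exact hF.meas_hs2

theorem frzm_slot {d : ℕ} (r : Fin d) {M : Ω → Mx n} (hM : RM M) {F : Ω → TT n d}
    (hF : ∀ α, Measurable fun w => F w α) (α : Idx n d) :
    Measurable fun w => slot r (M w) (F w) α := by
  show Measurable fun w => ∑ j, M w (α r) j * F w (Function.update α r j)
  exact Finset.measurable_sum _ fun j _ => (hM _ _).mul (hF _)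

theorem frzm_ctr {d m' j : ℕ} (hm' : m' = d + j) {F : Ω → TT n m'}
    (hF : ∀ α, Measurable fun w => F w α) {G : Ω → TT n j} (hG : ∀ β, Measurable fun w => G w β)
    (α : Idx n d) : Measurable fun w => ctr hm' (F w) (G w) α := by
  show Measurable fun w => ∑ β : Idx n j, F w (Fin.append α β ∘ Fin.cast hm') * G w β
  exact Finset.measurable_sum _ fun β _ => (hF _).mul (hG _)

theorem frzm_hSum (X : HierData n) (t : ℝ) (m l : ℕ) {Y N : Ω → EE n} (hY : Measurable Y)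
    (hN : Measurable N) (α : Idx n (l + 1)) :
    Measurable fun w => X.hSum t m l (Y w) (N w) α := by
  have e : ∀ w, X.hSum t m l (Y w) (N w) α = Real.exp (-t) * ∑ j ∈ Finset.range (m + 1),
      (Real.sqrt (2 * t) ^ j / (j.factorial : ℝ))
        * ctr (frz_lvl l j) (X.T (l + j) (Y w)) (hm j (N w)) α := by
    intro w
    unfold HierData.hSum
    rw [PiLp.smul_apply, frzm_sum_apply, smul_eq_mul]
    rfl
  simp only [e]
  refine (Finset.measurable_sum _ fun j _ => ?_).const_mul _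
  refine Measurable.const_mul ?_ _
  exact frzm_ctr _ (fun α' => (frzm_comp (X.T_test (l + j)).1.continuous α').comp hY)
    (fun β => (frzm_hm j β).comp hN) α

end kit

section meas

variable {X : HierData n} {h : ℝ} (B : BlockModel n (X.Qm h))

theorem frz_meas_BC (k : ℕ) (t : ℝ) (m : ℕ) :
    Measurable fun z : (EE n × ℝ) × EE n => X.sBC k t m (B.H z.1) z.1.1 z.2 := by
  have hH : ∀ i, RM fun z : (EE n × ℝ) × EE n => B.H z.1 i :=
    fun i => RM.comp (F := fun d => B.H d i) (B.H_meas i) measurable_fst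
  have hY : Measurable fun z : (EE n × ℝ) × EE n => z.1.1 := measurable_fst.comp measurable_fst
  unfold HierData.sBC
  refine (Finset.measurable_sum _ fun l _ => frzm_norm_sq fun α => ?_).const_mul _
  show Measurable fun z : (EE n × ℝ) × EE n => X.hSum t m l z.1.1 z.2 α
    - slot 0 (fzW (B.H z.1) t m z.2) (X.T l z.1.1) α
  exact (frzm_hSum X t m l hY measurable_snd α).sub (frzm_slot 0 (frzm_fzW hH measurable_snd t m)
    (fun α' => (frzm_comp (X.T_test l).1.continuous α').comp hY) α)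

theorem frz_meas_CD (t : ℝ) (m : ℕ) :
    Measurable fun z : (EE n × ℝ) × EE n =>
      mxSq ((fzW (B.H z.1) t m z.2 - fzM (B.H z.1) t z.2) * B.Rs z.1) := by
  have hH : ∀ i, RM fun z : (EE n × ℝ) × EE n => B.H z.1 i :=
    fun i => RM.comp (F := fun d => B.H d i) (B.H_meas i) measurable_fst
  have hR : RM fun z : (EE n × ℝ) × EE n => B.Rs z.1 :=
    RM.comp (F := fun d => B.Rs d) B.Rs_meas measurable_fst
  exact frzm_mxSq (((frzm_fzW hH measurable_snd t m).sub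
    (frzm_fzM hH (fun z i => B.H_symm z.1 i) measurable_snd t)).mul hR)

theorem frz_meas_M (t : ℝ) :
    Measurable fun z : (EE n × ℝ) × EE n => mxSq (fzM (B.H z.1) t z.2 * B.Rs z.1) := by
  have hH : ∀ i, RM fun z : (EE n × ℝ) × EE n => B.H z.1 i :=
    fun i => RM.comp (F := fun d => B.H d i) (B.H_meas i) measurable_fst
  have hR : RM fun z : (EE n × ℝ) × EE n => B.Rs z.1 :=
    RM.comp (F := fun d => B.Rs d) B.Rs_meas measurable_fst
  exact frzm_mxSq ((frzm_fzM hH (fun z i => B.H_symm z.1 i) measurable_snd t).mul hR)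

end meas

end Claimed.Agent.R259
end
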