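/- Packed by merge_tool.py (helper293): 10 modules of Claimed.Agent.R259 in one file, same declarations.
   Old modules, in this order: S7Chain, S7AsmA, S7Asm, S7Info, S7StabAbs, S7StabFin, S7Stab, S7Up, S7Lower, S7Main -/
import Claimed.Agent.R259.Pack033
import Claimed.Agent.R259.Pack028
import Claimed.Agent.R259.Pack036
import Claimed.Agent.R259.Pack032
import Claimed.Agent.R259.Pack047
import Claimed.Agent.R259.Pack035
import Claimed.Agent.R259.Pack034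
import Claimed.Agent.R259.Pack043
import Claimed.Agent.R259.Pack052

/- ===== packed: Claimed.Agent.R259.S7Chain ===== -/
section
/-
Row 259 (S0499), section 7: the ENTROPY CHAIN (data processing without mutual information).
EXPORT FILE of package L-S7-CHAIN.  The owner owns this file: keep name and statement, replace the
sorry by a citation of helper files `S7Chain*.lean` (prefix `s7h`), which never import this file; they
import `S7Ou` (export `s7_ou`).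

PROOF (hand-checked).  `Π = P.map (Dt,N) = Q' ⊗ γ`, `Q' = P.map Dt` (`indepFun_iff_map_prod_eq_prod_map_map`).
 (1) `l : D × EE n → ℝ` measurable, `0 ≤ l ≤ M` EVERYWHERE, with `∫ f · ψ(Dt,N) dP = ∫ l ψ dΠ` for every `ψ` with
     `ψ(Dt,N)` integrable: `l(p) = clamp (∫ r κ(p,dr))`, `κ = condDistrib f (Dt,N) P`
     (`compProd_map_condDistrib`, `Measure.integral_compProd`), or a Radon-Nikodym derivative.
 (2) Jensen for `φ(x) = x log x` (`Real.convexOn_mul_log`, `ConvexOn.map_integral_le`):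
     `∫ φ(f) dP ≥ ∫ φ(l) dΠ`, and `φ(∫ m dQ') ≤ ∫ φ(m) dQ'` with `m(d) = ∫ l(d,x) γ(dx)`, `∫ f dP = ∫ m dQ'`.
     Hence `ent P f ≥ ∫ ent γ (l(d,·)) Q'(dd)`.
 (3) for fixed `u`: the inner integral is `∫ ouVal (l(d,·)) (V u d) u Q'(dd)` ((1) for fixed `g`, Fubini).
 (4) Fubini in `(u,d)` (integrand bounded by `M κ(u) (2 C_V E|x - αx_u| + C_V²)`), `s7_ou` for every `d`.
-/
set_option autoImplicit false

open MeasureTheory ProbabilityTheory
open scoped BigOperators Matrix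

namespace Claimed.Agent.R259

variable {n : ℕ}

theorem s7_chain {Ω : Type} [MeasurableSpace Ω] {P : Measure Ω} [IsProbabilityMeasure P]
    {D : Type} [MeasurableSpace D] {Dt : Ω → D} {N : Ω → EE n} (hDt : Measurable Dt)
    (hN : Measurable N) (hlaw : P.map N = gam n) (hind : IndepFun Dt N P)
    {f : Ω → ℝ} (hf : Measurable f) (hf0 : ∀ o, 0 ≤ f o) {M : ℝ} (hfM : ∀ o, f o ≤ M)
    {u0 u1 : ℝ} (hu0 : 0 < u0) (hu : u0 < u1) {V : ℝ → D → EE n → EE n}
    (hV : Measurable fun p : ℝ × D × EE n => V p.1 p.2.1 p.2.2) {CV : ℝ}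
    (hVb : ∀ u ∈ Set.Icc u0 u1, ∀ d y, ‖V u d y‖ ≤ CV) :
    ∫ u in Set.Icc u0 u1, kap u * ∫ ω : Ω × EE n,
        f ω.1 * (2 * inner ℝ (N ω.1 - Real.exp (-u) • ouV u (N ω.1) ω.2)
              (V u (Dt ω.1) (ouV u (N ω.1) ω.2))
            - ‖V u (Dt ω.1) (ouV u (N ω.1) ω.2)‖ ^ 2) ∂(P.prod (gam n))
      ≤ ent P f :=
  s7h_chain hDt hN hlaw hind hf hf0 hfM hu0 hu hV hVb

end Claimed.Agent.R259
end

/- ===== packed: Claimed.Agent.R259.S7AsmA ===== -/
section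
/-
Row 259 (S0499), section 7: proofs of the package L-S7-ASM (`s7_pay_le`, `s7_asm_fubini`, `s7_asm_le`); helper211.
No sorry of its own (cites `s7_chain`, block A of `S7Fish`, `S7Cx`).

* `s7m_pay_eq`: `pay d v Q = 2⟨v, trV H Q⟩ - 4 cSq Q`; `s7m_trV_sq_le`: `|trV H Q|² ≤ 4 cSq Q`.
* `s7mCM` (entrywise measurable complex matrix fields), `s7m_meas_of_cont`, `s7m_meas_mxFunC`, `s7m_meas_tQ`, `s7m_meas_trV`.
* `s7mPay` (pay-off along the OU interpolation), `s7m_pay_bound` (linear growth), `s7m_meas_pay`.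
* `s7m_le`, `s7m_fubini`: abstract forms on an arbitrary probability space; `s7m_asm_le`, `s7m_asm_fubini`: for `Frozen`.
-/
set_option autoImplicit false
set_option linter.unusedSectionVars false

open MeasureTheory ProbabilityTheory
open scoped BigOperators Matrix
open Claimed.Agent.R260 (Mx mxFun mxSchur mxSq mxIP mxEig mxU mxRot)

namespace Claimed.Agent.R259

variable {n : ℕ}

/-! ### the pay-off -/

theorem s7m_trace_colAt (H : Fin n → Mx n) (v : EE n) (Qm : CMx n) :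
    (Matrix.trace (toC (colAt H v) * Qm)).re = inner ℝ v (trV H Qm) := by
  unfold colAt trV
  rw [toC_sum, Finset.sum_mul, Matrix.trace_sum, Complex.re_sum, PiLp.inner_apply]
  refine Finset.sum_congr rfl fun i _ => ?_
  rw [toC_smul, Matrix.smul_mul, Matrix.trace_smul]
  simp [mul_comm]

theorem s7m_trV_sq_le {H : Fin n → Mx n} (hflt : ∀ v, mxSq (colAt H v) ≤ 4 * ‖v‖ ^ 2) (Qm : CMx n) :
    ‖trV H Qm‖ ^ 2 ≤ 4 * cSq Qm := by
  set w := trV H Qm with hw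
  have h1 : ‖w‖ ^ 2 = (Matrix.trace (toC (colAt H w) * Qm)).re := by
    rw [s7m_trace_colAt, ← hw, real_inner_self_eq_norm_sq]
  have h2 : ‖w‖ ^ 2 ≤ Real.sqrt (4 * ‖w‖ ^ 2) * Real.sqrt (cSq Qm) := by
    refine h1.le.trans ?_
    refine (Complex.re_le_norm _).trans ((cSq_trace_mul_le _ _).trans ?_)
    rw [cSq_toC]
    exact mul_le_mul_of_nonneg_right (Real.sqrt_le_sqrt (hflt w)) (Real.sqrt_nonneg _)
  have h3 : Real.sqrt (4 * ‖w‖ ^ 2) = 2 * ‖w‖ := by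
    rw [show 4 * ‖w‖ ^ 2 = (2 * ‖w‖) ^ 2 by ring, Real.sqrt_sq (by positivity)]
  rw [h3] at h2
  have h4 : ‖w‖ ≤ 2 * Real.sqrt (cSq Qm) := by
    rcases (norm_nonneg w).eq_or_lt with h0 | h0
    · rw [← h0]; positivity
    · have : ‖w‖ * ‖w‖ ≤ ‖w‖ * (2 * Real.sqrt (cSq Qm)) := by nlinarith
      exact le_of_mul_le_mul_left this h0
  calc ‖w‖ ^ 2 ≤ (2 * Real.sqrt (cSq Qm)) ^ 2 := pow_le_pow_left₀ (norm_nonneg _) h4 2
    _ = 4 * cSq Qm := by rw [mul_pow, Real.sq_sqrt (cSq_nonneg _)]; ring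

theorem s7m_pay_eq {D : Type} [MeasurableSpace D] {Q : Measure D} (B : BlockModel n Q) (d : D)
    (v : EE n) (Qm : CMx n) :
    B.pay d v Qm = 2 * inner ℝ v (trV (B.H d) Qm) - 4 * cSq Qm := by
  unfold BlockModel.pay
  rw [s7m_trace_colAt]

theorem s7m_pay_le {D : Type} [MeasurableSpace D] {Q : Measure D} (B : BlockModel n Q) (d : D)
    (v : EE n) (Qm : CMx n) :
    B.pay d v Qm ≤ 2 * inner ℝ v (trV (B.H d) Qm) - ‖trV (B.H d) Qm‖ ^ 2 := by
  rw [s7m_pay_eq]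
  have := s7m_trV_sq_le (B.flt d) Qm
  linarith

/-! ### bounds -/

theorem s7m_c_bound (P : Tst) (u0 u1 : ℝ) :
    ∃ C : ℝ, 0 ≤ C ∧ ∀ k, ∀ u ∈ Set.Icc u0 u1, ∀ x, ‖P.c k u x‖ ≤ C := by
  have h : ∀ k, ∃ C : ℝ, ∀ u ∈ Set.Icc u0 u1, ∀ x, ‖P.c k u x‖ ≤ C := by
    intro k
    obtain ⟨C, hC⟩ := (isCompact_Icc.prod isCompact_Icc).exists_bound_of_continuousOn
      ((P.c_cont k).continuousOn (s := Set.Icc u0 u1 ×ˢ Set.Icc P.x0 P.x1))
    refine ⟨max C 0, fun u hu x => ?_⟩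
    by_cases hx : x ∈ Set.Icc P.x0 P.x1
    · exact (hC (u, x) ⟨hu, hx⟩).trans (le_max_left _ _)
    · rw [P.c_supp k u x hx, norm_zero]; exact le_max_right _ _
  choose C hC using h
  refine ⟨∑ k, |C k|, Finset.sum_nonneg fun _ _ => abs_nonneg _, fun k u hu x => ?_⟩
  exact (hC k u hu x).trans ((le_abs_self _).trans
    (Finset.single_le_sum (f := fun i => |C i|) (fun i _ => abs_nonneg (C i)) (Finset.mem_univ k)))

theorem s7m_tQ_bound {D : Type} [MeasurableSpace D] {Q : Measure D} (B : BlockModel n Q) (P : Tst)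
    {C u : ℝ} (hC : ∀ k x, ‖P.c k u x‖ ≤ C) (T : ℝ) (d : D) (y z : EE n) :
    cSq (B.tQ P u T d y z) ≤ (P.K : ℝ) * ((P.K : ℝ) * ((n : ℝ) * C ^ 2)) := by
  unfold BlockModel.tQ
  refine (cSq_sum_le _ _).trans ?_
  rw [Finset.card_univ, Fintype.card_fin]
  refine mul_le_mul_of_nonneg_left ?_ (Nat.cast_nonneg _)
  have h1 : ∀ k : Fin P.K, cSq (mxFunC (fun v => P.c k u (T * v ^ 2)) (B.Rs d)
      * cE (P.s k) (colAt (B.H d) y) * cE (P.r k) (colAt (B.H d) z)) ≤ (n : ℝ) * C ^ 2 := by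
    intro k
    rw [cSq_mul_unitary _ (cE_mul_conjTranspose _ _), cSq_mul_unitary _ (cE_mul_conjTranspose _ _),
      cSq_mxFunC]
    calc ∑ i, ‖P.c k u (T * mxEig (B.Rs d) i ^ 2)‖ ^ 2 ≤ ∑ _i : Fin n, C ^ 2 :=
          Finset.sum_le_sum fun i _ => pow_le_pow_left₀ (norm_nonneg _) (hC k _) 2
      _ = (n : ℝ) * C ^ 2 := by simp
  calc _ ≤ ∑ _k : Fin P.K, (n : ℝ) * C ^ 2 := Finset.sum_le_sum fun k _ => h1 k
    _ = (P.K : ℝ) * ((n : ℝ) * C ^ 2) := by simp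

/-! ### measurability -/

section meas

variable {α : Type} [MeasurableSpace α]

/-- entrywise measurability of a complex matrix field -/
def s7mCM (F : α → CMx n) : Prop := ∀ a b, Measurable fun x => F x a b

theorem s7m_eqns_cite : True := by
  have := @s7mCM.eq_1
  trivial

theorem s7mCM.mul {F G : α → CMx n} (hF : s7mCM F) (hG : s7mCM G) : s7mCM fun x => F x * G x := by
  intro a b
  simp only [Matrix.mul_apply]
  exact Finset.measurable_sum _ fun c _ => (hF a c).mul (hG c b)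

theorem s7mCM.sum {ι : Type} (s : Finset ι) {F : ι → α → CMx n} (hF : ∀ i ∈ s, s7mCM (F i)) :
    s7mCM fun x => ∑ i ∈ s, F i x := by
  intro a b
  simp only [Matrix.sum_apply]
  exact Finset.measurable_sum _ fun i hi => hF i hi a b

theorem s7mCM_toC {A : α → Mx n} (hA : ∀ a b, Measurable fun x => A x a b) : s7mCM fun x => toC (A x) :=
  fun a b => Complex.measurable_ofReal.comp (hA a b)

theorem s7mCM.trace {F : α → CMx n} (hF : s7mCM F) : Measurable fun x => Matrix.trace (F x) := by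
  simp only [Matrix.trace, Matrix.diag_apply]
  exact Finset.measurable_sum _ fun c _ => hF c c

theorem s7mCM.cSq {F : α → CMx n} (hF : s7mCM F) : Measurable fun x => cSq (F x) := by
  unfold Claimed.Agent.R259.cSq
  exact Finset.measurable_sum _ fun a _ => Finset.measurable_sum _ fun b _ => (hF a b).norm.pow_const 2

theorem s7m_meas_of_cont {Φ : ℝ × Mx n → CMx n} (hΦ : Continuous Φ) {u : α → ℝ} (hu : Measurable u)
    {A : α → Mx n} (hA : ∀ a b, Measurable fun x => A x a b) : s7mCM fun x => Φ (u x, A x) := by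
  intro a b
  have h1 : Continuous fun p : ℝ × (Fin n → Fin n → ℝ) => Φ (p.1, Matrix.of p.2) a b :=
    (hΦ.matrix_elem a b).comp (continuous_fst.prodMk continuous_snd)
  have h2 : Measurable fun x => ((u x, fun a b => A x a b) : ℝ × (Fin n → Fin n → ℝ)) :=
    hu.prodMk (measurable_pi_iff.2 fun a => measurable_pi_iff.2 fun b => hA a b)
  exact h1.measurable.comp h2

theorem s7m_sym_eq {A : Mx n} (h : A.IsSymm) : (1 / 2 : ℝ) • (A + Aᵀ) = A := by
  rw [h.eq, ← two_smul ℝ A, smul_smul]; norm_num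

theorem s7m_meas_mxFunC {f : ℝ → ℝ → ℂ} (hf : Continuous fun p : ℝ × ℝ => f p.1 p.2) {u : α → ℝ}
    (hu : Measurable u) {A : α → Mx n} (hA : ∀ a b, Measurable fun x => A x a b)
    (hs : ∀ x, (A x).IsSymm) : s7mCM fun x => mxFunC (f (u x)) (A x) := by
  have := s7m_meas_of_cont (mxFunC_continuous_param (n := n) hf) hu hA
  simpa only [s7m_sym_eq (hs _)] using this

theorem s7m_meas_coord {y : α → EE n} (hy : Measurable y) (i : Fin n) : Measurable fun x => y x i :=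
  (EuclideanSpace.proj i : EE n →L[ℝ] ℝ).continuous.measurable.comp hy

theorem s7m_meas_colAt {H : α → Fin n → Mx n} (hH : ∀ i a b, Measurable fun x => H x i a b)
    {y : α → EE n} (hy : Measurable y) (a b : Fin n) : Measurable fun x => colAt (H x) (y x) a b := by
  unfold colAt
  simp only [Matrix.sum_apply, Matrix.smul_apply, smul_eq_mul]
  exact Finset.measurable_sum _ fun i _ => (s7m_meas_coord hy i).mul (hH i a b)

theorem s7m_colAt_symm {H : Fin n → Mx n} (hH : ∀ i, (H i).IsSymm) (y : EE n) : (colAt H y).IsSymm := by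
  unfold colAt Matrix.IsSymm
  rw [Matrix.transpose_sum]
  exact Finset.sum_congr rfl fun i _ => by rw [Matrix.transpose_smul, (hH i).eq]

theorem s7m_meas_cE (s : ℝ) {A : α → Mx n} (hA : ∀ a b, Measurable fun x => A x a b)
    (hs : ∀ x, (A x).IsSymm) : s7mCM fun x => cE s (A x) := by
  unfold cE
  exact s7m_meas_mxFunC (f := fun _ v => Complex.exp (Complex.I * ((s * v : ℝ) : ℂ))) (by fun_prop)
    (measurable_const (a := (0 : ℝ))) hA hs

theorem s7m_meas_tQ {D : Type} [MeasurableSpace D] {Q : Measure D} (B : BlockModel n Q) (P : Tst) (T : ℝ)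
    {u : α → ℝ} {d : α → D} {y z : α → EE n} (hu : Measurable u) (hd : Measurable d) (hy : Measurable y)
    (hz : Measurable z) : s7mCM fun x => B.tQ P (u x) T (d x) (y x) (z x) := by
  unfold BlockModel.tQ
  refine s7mCM.sum _ fun k _ => ?_
  have hH : ∀ i a b, Measurable fun x => B.H (d x) i a b := fun i a b => (B.H_meas i a b).comp hd
  refine (s7mCM.mul ?_ ?_).mul ?_
  · refine s7m_meas_mxFunC (f := fun u v => P.c k u (T * v ^ 2)) ?_ hu
      (fun a b => (B.Rs_meas a b).comp hd) (fun x => ?_)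
    · exact (P.c_cont k).comp
        (show Continuous fun p : ℝ × ℝ => ((p.1, T * p.2 ^ 2) : ℝ × ℝ) by fun_prop)
    · have := (B.Rs_psd (d x)).isHermitian
      exact this
  · exact s7m_meas_cE _ (s7m_meas_colAt hH hy) fun x => s7m_colAt_symm (B.H_symm _) _
  · exact s7m_meas_cE _ (s7m_meas_colAt hH hz) fun x => s7m_colAt_symm (B.H_symm _) _

theorem s7m_meas_trV {H : α → Fin n → Mx n} (hH : ∀ i a b, Measurable fun x => H x i a b)
    {F : α → CMx n} (hF : s7mCM F) : Measurable fun x => trV (H x) (F x) := by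
  unfold trV
  refine (WithLp.measurable_toLp 2 _).comp (measurable_pi_iff.2 fun i => ?_)
  exact Complex.measurable_re.comp ((s7mCM_toC (hH i)).mul hF).trace

end meas

/-! ### the pay-off along the Ornstein-Uhlenbeck interpolation -/

section ana

variable {Ω : Type} [MeasurableSpace Ω] {Pr : Measure Ω} [IsProbabilityMeasure Pr]
  {D : Type} [MeasurableSpace D] {Q : Measure D} (B : BlockModel n Q) (P : Tst) (T : ℝ)
  (Dt : Ω → D) (N : Ω → EE n)

/-- the pay-off of the test along the Ornstein-Uhlenbeck interpolation -/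
noncomputable def s7mPay (u : ℝ) (o : Ω) (g z : EE n) : ℝ :=
  B.pay (Dt o) (N o - Real.exp (-u) • ouV u (N o) g) (B.tQ P u T (Dt o) (ouV u (N o) g) z)

/-- the bound of the test vector -/
noncomputable def s7mCV (P : Tst) (n : ℕ) (C : ℝ) : ℝ :=
  2 * Real.sqrt ((P.K : ℝ) * ((P.K : ℝ) * ((n : ℝ) * C ^ 2)))

theorem s7m_eqns_cite2 : True := by
  have := @s7mPay.eq_1
  have := @s7mCV.eq_1
  trivial

theorem s7mCV_nonneg (P : Tst) (n : ℕ) (C : ℝ) : 0 ≤ s7mCV P n C := by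
  unfold s7mCV; positivity

theorem s7m_cSq_le {C u : ℝ} (hC : ∀ k x, ‖P.c k u x‖ ≤ C) (d : D) (y z : EE n) :
    4 * cSq (B.tQ P u T d y z) ≤ s7mCV P n C ^ 2 := by
  unfold s7mCV
  rw [mul_pow, Real.sq_sqrt (by positivity)]
  have := s7m_tQ_bound B P hC T d y z
  linarith

theorem s7m_trV_bound {C u : ℝ} (hC : ∀ k x, ‖P.c k u x‖ ≤ C) (d : D) (y z : EE n) :
    ‖trV (B.H d) (B.tQ P u T d y z)‖ ≤ s7mCV P n C := by
  rw [← sq_le_sq₀ (norm_nonneg _) (s7mCV_nonneg P n C)]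
  exact (s7m_trV_sq_le (B.flt d) _).trans (s7m_cSq_le B P T hC d y z)

theorem s7m_vv_bound {u : ℝ} (hu : 0 ≤ u) (x g : EE n) :
    ‖x - Real.exp (-u) • ouV u x g‖ ≤ 2 * ‖x‖ + ‖g‖ := by
  have ha0 : 0 ≤ Real.exp (-u) := (Real.exp_pos _).le
  have ha1 : Real.exp (-u) ≤ 1 := Real.exp_le_one_iff.2 (by linarith)
  have hb0 : 0 ≤ Real.sqrt (1 - Real.exp (-u) ^ 2) := Real.sqrt_nonneg _
  have hb1 : Real.sqrt (1 - Real.exp (-u) ^ 2) ≤ 1 := by
    rw [Real.sqrt_le_one]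
    nlinarith
  have ho : ‖ouV u x g‖ ≤ ‖x‖ + ‖g‖ := by
    unfold ouV
    refine (norm_add_le _ _).trans ?_
    rw [norm_smul, norm_smul, Real.norm_of_nonneg ha0, Real.norm_of_nonneg hb0]
    have := norm_nonneg x
    have := norm_nonneg g
    nlinarith
  refine (norm_sub_le _ _).trans ?_
  rw [norm_smul, Real.norm_of_nonneg ha0]
  have := norm_nonneg (ouV u x g)
  nlinarith

theorem s7m_pay_bound {C u : ℝ} (hu : 0 ≤ u) (hC : ∀ k x, ‖P.c k u x‖ ≤ C) (o : Ω) (g z : EE n) :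
    |s7mPay B P T Dt N u o g z| ≤ (4 * s7mCV P n C + s7mCV P n C ^ 2) * (1 + ‖N o‖ + ‖g‖) := by
  unfold s7mPay
  rw [s7m_pay_eq]
  set CV := s7mCV P n C with hCV
  have hCV0 : 0 ≤ CV := s7mCV_nonneg P n C
  set v := N o - Real.exp (-u) • ouV u (N o) g with hv
  set Qm := B.tQ P u T (Dt o) (ouV u (N o) g) z with hQm
  have h1 : ‖v‖ ≤ 2 * ‖N o‖ + ‖g‖ := s7m_vv_bound hu _ _
  have h2 : ‖trV (B.H (Dt o)) Qm‖ ≤ CV := s7m_trV_bound B P T hC _ _ _
  have h3 : 4 * cSq Qm ≤ CV ^ 2 := s7m_cSq_le B P T hC _ _ _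
  have h4 : |inner ℝ v (trV (B.H (Dt o)) Qm)| ≤ (2 * ‖N o‖ + ‖g‖) * CV :=
    (abs_real_inner_le_norm _ _).trans (mul_le_mul h1 h2 (norm_nonneg _) (by positivity))
  have h5 := cSq_nonneg Qm
  have hx := norm_nonneg (N o)
  have hg := norm_nonneg g
  have h6 := abs_le.1 h4
  have h7 : 0 ≤ CV * ‖N o‖ := by positivity
  have h8 : 0 ≤ CV * ‖g‖ := by positivity
  have h9 : 0 ≤ CV ^ 2 * ‖N o‖ := by positivity
  have h10 : 0 ≤ CV ^ 2 * ‖g‖ := by positivity
  rw [abs_le]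
  constructor <;> nlinarith

variable {B P T Dt N}

theorem s7m_meas_pay {α : Type} [MeasurableSpace α] (hDt : Measurable Dt) (hN : Measurable N)
    {u : α → ℝ} {o : α → Ω} {g z : α → EE n} (hu : Measurable u) (ho : Measurable o)
    (hg : Measurable g) (hz : Measurable z) :
    Measurable fun x => s7mPay B P T Dt N (u x) (o x) (g x) (z x) := by
  unfold s7mPay
  simp only [s7m_pay_eq]
  have hNo : Measurable fun x => N (o x) := hN.comp ho
  have hou := s7h_measurable_ouV hu hNo hg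
  have hQ := s7m_meas_tQ B P T hu (hDt.comp ho) hou hz
  have hH : ∀ i a b, Measurable fun x => B.H (Dt (o x)) i a b :=
    fun i a b => (B.H_meas i a b).comp (hDt.comp ho)
  have hV := s7m_meas_trV hH hQ
  have hv : Measurable fun x => N (o x) - Real.exp (-u x) • ouV (u x) (N (o x)) (g x) := by fun_prop
  exact ((hv.inner hV).const_mul 2).sub (hQ.cSq.const_mul 4)

theorem s7m_int_normN (hN : Measurable N) (hlaw : Pr.map N = gam n) : Integrable (fun o => ‖N o‖) Pr := by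
  have h := s7h_int_norm (n := n)
  rw [← hlaw] at h
  exact (integrable_map_measure (by fun_prop) hN.aemeasurable).1 h

theorem s7m_int_dom (hN : Measurable N) (hlaw : Pr.map N = gam n) (C : ℝ) :
    Integrable (fun p : Ω × EE n => C * (1 + ‖N p.1‖ + ‖p.2‖)) (Pr.prod (gam n)) :=
  (((integrable_const 1).add ((s7m_int_normN hN hlaw).comp_fst _)).add
    ((s7h_int_norm (n := n)).comp_snd _)).const_mul C

theorem s7m_int_lin0 (hN : Measurable N) (hlaw : Pr.map N = gam n) {G : Ω × EE n → ℝ}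
    (hG : Measurable G) (C : ℝ) (hb : ∀ z, |G z| ≤ C * (1 + ‖N z.1‖ + ‖z.2‖)) :
    Integrable G (Pr.prod (gam n)) :=
  (s7m_int_dom hN hlaw C).mono' hG.aestronglyMeasurable (Filter.Eventually.of_forall hb)

theorem s7m_int_lin (hN : Measurable N) (hlaw : Pr.map N = gam n) {T0 : Type} [MeasurableSpace T0]
    (μ0 : Measure T0) [IsFiniteMeasure μ0] {G : T0 × (Ω × EE n) → ℝ} (hG : Measurable G) (C : ℝ)
    (hb : ∀ᵐ z ∂(μ0.prod (Pr.prod (gam n))), |G z| ≤ C * (1 + ‖N z.2.1‖ + ‖z.2.2‖)) :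
    Integrable G (μ0.prod (Pr.prod (gam n))) :=
  ((s7m_int_dom hN hlaw C).comp_snd μ0).mono' hG.aestronglyMeasurable hb

theorem s7m_kap_nonneg (u : ℝ) : 0 ≤ kap u := by
  unfold kap; positivity

theorem s7m_ae_Icc {T1 : Type} [MeasurableSpace T1] (μ1 : Measure T1) (u0 u1 : ℝ) :
    ∀ᵐ w ∂((volume.restrict (Set.Icc u0 u1)).prod μ1), w.1 ∈ Set.Icc u0 u1 :=
  Measure.quasiMeasurePreserving_fst.ae (ae_restrict_mem measurableSet_Icc)

/-- joint integrability of `κ(u) f(o) pay` -/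
theorem s7m_int_G (hDt : Measurable Dt) (hN : Measurable N) (hlaw : Pr.map N = gam n)
    {f : Ω → ℝ} (hf : Measurable f) {M : ℝ} (hfM : ∀ o, |f o| ≤ M)
    {u0 u1 : ℝ} (hu0 : 0 < u0) (z : EE n) :
    Integrable (fun w : ℝ × (Ω × EE n) => kap w.1 * (f w.2.1 * s7mPay B P T Dt N w.1 w.2.1 w.2.2 z))
      ((volume.restrict (Set.Icc u0 u1)).prod (Pr.prod (gam n))) := by
  obtain ⟨C, hC0, hC⟩ := s7m_c_bound P u0 u1
  obtain ⟨K, hK⟩ := s7h_kap_bound u1 hu0
  refine s7m_int_lin hN hlaw _ ?_ (|K| * (|M| * (4 * s7mCV P n C + s7mCV P n C ^ 2))) ?_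
  · exact (s7h_measurable_kap.comp measurable_fst).mul ((hf.comp (by fun_prop)).mul
      (s7m_meas_pay hDt hN (by fun_prop) (by fun_prop) (by fun_prop) measurable_const))
  · filter_upwards [s7m_ae_Icc (Pr.prod (gam n)) u0 u1] with w hw
    rw [abs_mul, abs_mul, mul_assoc, mul_assoc]
    refine mul_le_mul ((hK _ hw).trans (le_abs_self _)) ?_ (by positivity) (abs_nonneg _)
    exact mul_le_mul ((hfM _).trans (le_abs_self _))
      (s7m_pay_bound B P T Dt N (hu0.le.trans hw.1) (fun k x => hC k _ hw x) _ _ _) (abs_nonneg _) (abs_nonneg _)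

/-- `s7_asm_le`, abstract form -/
theorem s7m_le (hDt : Measurable Dt) (hN : Measurable N) (hlaw : Pr.map N = gam n)
    (hind : IndepFun Dt N Pr) {f : Ω → ℝ} (hf : Measurable f) (hf0 : ∀ o, 0 ≤ f o) {M : ℝ}
    (hfM : ∀ o, f o ≤ M) {u0 u1 : ℝ} (hu0 : 0 < u0) (hu : u0 < u1) (z : EE n) :
    ∫ u in Set.Icc u0 u1, kap u * ∫ ω : Ω × EE n, f ω.1 * s7mPay B P T Dt N u ω.1 ω.2 z ∂(Pr.prod (gam n))
      ≤ ent Pr f := by
  obtain ⟨C, hC0, hC⟩ := s7m_c_bound P u0 u1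
  obtain ⟨K, hK⟩ := s7h_kap_bound u1 hu0
  have hfabs : ∀ o, |f o| ≤ M := fun o => by rw [abs_of_nonneg (hf0 o)]; exact hfM o
  set V : ℝ → D → EE n → EE n := fun u d y => trV (B.H d) (B.tQ P u T d y z) with hVdef
  have hV : Measurable fun p : ℝ × D × EE n => V p.1 p.2.1 p.2.2 :=
    s7m_meas_trV (fun i a b => (B.H_meas i a b).comp (by fun_prop))
      (s7m_meas_tQ B P T (by fun_prop) (by fun_prop) (by fun_prop) measurable_const)
  have hVb : ∀ u ∈ Set.Icc u0 u1, ∀ d y, ‖V u d y‖ ≤ s7mCV P n C :=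
    fun u hu' d y => s7m_trV_bound B P T (fun k x => hC k u hu' x) d y z
  refine le_trans ?_ (s7_chain hDt hN hlaw hind hf hf0 hfM hu0 hu hV hVb)
  have hG1 := s7m_int_G (B := B) (P := P) (T := T) hDt hN hlaw hf hfabs (u1 := u1) hu0 z
  have hG2 : Integrable (fun w : ℝ × (Ω × EE n) =>
      kap w.1 * (f w.2.1 * s7hPsi V w.1 (Dt w.2.1) (N w.2.1) w.2.2))
      ((volume.restrict (Set.Icc u0 u1)).prod (Pr.prod (gam n))) := by
    refine s7m_int_lin hN hlaw _ ?_ (|K| * (|M| * (4 * s7mCV P n C + s7mCV P n C ^ 2))) ?_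
    · exact (s7h_measurable_kap.comp measurable_fst).mul ((hf.comp (by fun_prop)).mul
        (s7h_measurable_Psi hV (by fun_prop) (hDt.comp (by fun_prop)) (hN.comp (by fun_prop)) (by fun_prop)))
    · filter_upwards [s7m_ae_Icc (Pr.prod (gam n)) u0 u1] with w hw
      rw [abs_mul, abs_mul, mul_assoc, mul_assoc]
      refine mul_le_mul ((hK _ hw).trans (le_abs_self _)) ?_ (by positivity) (abs_nonneg _)
      exact mul_le_mul ((hfabs _).trans (le_abs_self _))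
        (s7h_Psi_bound (hu0.le.trans hw.1) (hVb _ hw) _ _ _) (abs_nonneg _) (abs_nonneg _)
  have e1 : ∫ u in Set.Icc u0 u1, kap u * ∫ ω : Ω × EE n, f ω.1 * s7mPay B P T Dt N u ω.1 ω.2 z ∂(Pr.prod (gam n))
      = ∫ w : ℝ × (Ω × EE n), kap w.1 * (f w.2.1 * s7mPay B P T Dt N w.1 w.2.1 w.2.2 z)
        ∂((volume.restrict (Set.Icc u0 u1)).prod (Pr.prod (gam n))) := by
    rw [integral_prod _ hG1]
    exact integral_congr_ae (Filter.Eventually.of_forall fun u => (integral_const_mul _ _).symm)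
  have e2 : ∫ u in Set.Icc u0 u1, kap u * ∫ ω : Ω × EE n,
        f ω.1 * (2 * inner ℝ (N ω.1 - Real.exp (-u) • ouV u (N ω.1) ω.2)
              (V u (Dt ω.1) (ouV u (N ω.1) ω.2))
            - ‖V u (Dt ω.1) (ouV u (N ω.1) ω.2)‖ ^ 2) ∂(Pr.prod (gam n))
      = ∫ w : ℝ × (Ω × EE n), kap w.1 * (f w.2.1 * s7hPsi V w.1 (Dt w.2.1) (N w.2.1) w.2.2)
        ∂((volume.restrict (Set.Icc u0 u1)).prod (Pr.prod (gam n))) := by
    rw [integral_prod _ hG2]
    exact integral_congr_ae (Filter.Eventually.of_forall fun u => (integral_const_mul _ _).symm)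
  rw [e1, e2]
  refine integral_mono hG1 hG2 fun w => ?_
  exact mul_le_mul_of_nonneg_left (mul_le_mul_of_nonneg_left (s7m_pay_le B _ _ _) (hf0 _))
    (s7m_kap_nonneg _)

/-- change of variables `G ↦ z` -/
theorem s7m_obs {S : Mx n} {fo : EE n → ℝ} (hS : Measurable fun G : EE n => mv S G)
    (hfo : Measurable fo) (hfo0 : ∀ z, 0 ≤ fo z) (hmap : (gam n).map (fun G => mv S G) = dm fo)
    {Φ : EE n → ℝ} (hΦ : Measurable Φ) :
    ∫ z, fo z * Φ z = ∫ G, Φ (mv S G) ∂(gam n) := by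
  rw [← integral_map hS.aemeasurable hΦ.aestronglyMeasurable, hmap]
  unfold dm
  rw [integral_withDensity_eq_integral_toReal_smul hfo.ennreal_ofReal
    (Filter.Eventually.of_forall fun _ => ENNReal.ofReal_lt_top)]
  refine integral_congr_ae (Filter.Eventually.of_forall fun z => ?_)
  simp only [smul_eq_mul, ENNReal.toReal_ofReal (hfo0 z)]

/-- `s7_asm_fubini`, abstract form -/
theorem s7m_fubini (hDt : Measurable Dt) (hN : Measurable N) (hlaw : Pr.map N = gam n)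
    {fz : Ω → EE n → ℝ} (hfz : Measurable fun p : Ω × EE n => fz p.1 p.2) (hfz0 : ∀ o z, 0 ≤ fz o z)
    {e : EE n → ℝ} (he : Integrable e volume) (hfze : ∀ o z, fz o z ≤ e z)
    {Mo : Ω → Mx n} (hMo : Measurable fun p : Ω × EE n => mv (Mo p.1) p.2)
    (hmap : ∀ o, (gam n).map (fun G => mv (Mo o) G) = dm (fz o)) {u0 u1 : ℝ} (hu0 : 0 < u0) :
    Integrable (fun z => ∫ u in Set.Icc u0 u1, kap u * ∫ ω : Ω × EE n,
        fz ω.1 z * s7mPay B P T Dt N u ω.1 ω.2 z ∂(Pr.prod (gam n))) volume ∧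
    ∫ u in Set.Icc u0 u1, kap u * ∫ ω : Ω × (EE n × EE n),
        s7mPay B P T Dt N u ω.1 ω.2.1 (mv (Mo ω.1) ω.2.2) ∂(Pr.prod ((gam n).prod (gam n)))
      = ∫ z, ∫ u in Set.Icc u0 u1, kap u * ∫ ω : Ω × EE n,
        fz ω.1 z * s7mPay B P T Dt N u ω.1 ω.2 z ∂(Pr.prod (gam n)) := by
  obtain ⟨C, hC0, hC⟩ := s7m_c_bound P u0 u1
  obtain ⟨K, hK⟩ := s7h_kap_bound u1 hu0
  set Cp := 4 * s7mCV P n C + s7mCV P n C ^ 2 with hCp
  have hCp0 : 0 ≤ Cp := by have := s7mCV_nonneg P n C; positivity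
  set μ := (volume.restrict (Set.Icc u0 u1)).prod (Pr.prod (gam n)) with hμ
  have hHmm : Measurable fun q : (ℝ × (Ω × EE n)) × EE n =>
      kap q.1.1 * (fz q.1.2.1 q.2 * s7mPay B P T Dt N q.1.1 q.1.2.1 q.1.2.2 q.2) :=
    (s7h_measurable_kap.comp (show Measurable fun q : (ℝ × (Ω × EE n)) × EE n => q.1.1 by fun_prop)).mul
      ((hfz.comp (show Measurable fun q : (ℝ × (Ω × EE n)) × EE n => (q.1.2.1, q.2) by fun_prop)).mul
      (s7m_meas_pay hDt hN (by fun_prop) (by fun_prop) (by fun_prop) (by fun_prop)))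
  set Hm : (ℝ × (Ω × EE n)) × EE n → ℝ := fun q =>
    kap q.1.1 * (fz q.1.2.1 q.2 * s7mPay B P T Dt N q.1.1 q.1.2.1 q.1.2.2 q.2) with hHmdef
  have hfzabs : ∀ o z, |fz o z| ≤ e z := fun o z => by rw [abs_of_nonneg (hfz0 o z)]; exact hfze o z
  have hHm : Integrable Hm (μ.prod volume) := by
    have hdom : Integrable (fun w : ℝ × (Ω × EE n) => (|K| * Cp) * (1 + ‖N w.2.1‖ + ‖w.2.2‖)) μ :=
      (s7m_int_dom hN hlaw (|K| * Cp)).comp_snd _
    refine (hdom.mul_prod he).mono' hHmm.aestronglyMeasurable ?_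
    have h1 : ∀ᵐ q ∂(μ.prod (volume : Measure (EE n))), q.1.1 ∈ Set.Icc u0 u1 :=
      Measure.quasiMeasurePreserving_fst.ae (s7m_ae_Icc (Pr.prod (gam n)) u0 u1)
    filter_upwards [h1] with q hq
    rw [Real.norm_eq_abs, abs_mul, abs_mul]
    have h2 := s7m_pay_bound B P T Dt N (hu0.le.trans hq.1) (fun k x => hC k _ hq x) q.1.2.1 q.1.2.2 q.2
    have h3 := (hK _ hq).trans (le_abs_self K)
    have h4 := hfzabs q.1.2.1 q.2
    calc |kap q.1.1| * (|fz q.1.2.1 q.2| * |s7mPay B P T Dt N q.1.1 q.1.2.1 q.1.2.2 q.2|)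
        ≤ |K| * (e q.2 * (Cp * (1 + ‖N q.1.2.1‖ + ‖q.1.2.2‖))) :=
          mul_le_mul h3 (mul_le_mul h4 h2 (abs_nonneg _) ((abs_nonneg _).trans h4)) (by positivity)
            (abs_nonneg _)
      _ = |K| * Cp * (1 + ‖N q.1.2.1‖ + ‖q.1.2.2‖) * e q.2 := by ring
  -- the slices in `z`
  have hz : ∀ z, (∫ u in Set.Icc u0 u1, kap u * ∫ ω : Ω × EE n,
        fz ω.1 z * s7mPay B P T Dt N u ω.1 ω.2 z ∂(Pr.prod (gam n))) = ∫ w, Hm (w, z) ∂μ := by
    intro z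
    have hG := s7m_int_G (B := B) (P := P) (T := T) hDt hN hlaw (f := fun o => fz o z)
      (hfz.comp measurable_prodMk_right) (fun o => hfzabs o z) (u1 := u1) hu0 z
    rw [hμ, integral_prod _ hG]
    exact integral_congr_ae (Filter.Eventually.of_forall fun u => (integral_const_mul _ _).symm)
  simp only [hz]
  refine ⟨hHm.integral_prod_right, ?_⟩
  rw [← integral_integral_swap (f := fun w z => Hm (w, z)) hHm, hμ, integral_prod _ hHm.integral_prod_left]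
  refine setIntegral_congr_fun measurableSet_Icc fun u hu' => ?_
  show kap u * _ = ∫ ω : Ω × EE n, (∫ z, kap u * (fz ω.1 z * s7mPay B P T Dt N u ω.1 ω.2 z)) ∂(Pr.prod (gam n))
  have h1 : ∀ ω : Ω × EE n, ∫ z, kap u * (fz ω.1 z * s7mPay B P T Dt N u ω.1 ω.2 z)
      = kap u * ∫ G, s7mPay B P T Dt N u ω.1 ω.2 (mv (Mo ω.1) G) ∂(gam n) := by
    intro ω
    rw [integral_const_mul, s7m_obs (S := Mo ω.1) (fo := fz ω.1)
      (Φ := fun z => s7mPay B P T Dt N u ω.1 ω.2 z)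
      (hMo.comp measurable_prodMk_left) (hfz.comp measurable_prodMk_left)
      (hfz0 ω.1) (hmap ω.1)
      (s7m_meas_pay hDt hN measurable_const measurable_const measurable_const measurable_id)]
  simp only [h1]
  rw [integral_const_mul]
  congr 1
  have hI : Integrable (fun q : (Ω × EE n) × EE n => s7mPay B P T Dt N u q.1.1 q.1.2 (mv (Mo q.1.1) q.2))
      ((Pr.prod (gam n)).prod (gam n)) := by
    refine ((s7m_int_dom hN hlaw Cp).comp_fst (gam n)).mono' ?_ (Filter.Eventually.of_forall fun q => ?_)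
    · have hm1 : Measurable fun q : (Ω × EE n) × EE n => mv (Mo q.1.1) q.2 :=
        hMo.comp (show Measurable fun q : (Ω × EE n) × EE n => (q.1.1, q.2) by fun_prop)
      have hm2 : Measurable fun q : (Ω × EE n) × EE n => q.1.1 := by fun_prop
      have hm3 : Measurable fun q : (Ω × EE n) × EE n => q.1.2 := by fun_prop
      exact (s7m_meas_pay hDt hN measurable_const hm2 hm3 hm1).aestronglyMeasurable
    · exact s7m_pay_bound B P T Dt N (hu0.le.trans hu'.1) (fun k x => hC k _ hu' x) _ _ _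
  rw [← integral_prod _ hI]
  exact ((measurePreserving_prodAssoc Pr (gam n) (gam n)).integral_comp'
    (fun r : Ω × (EE n × EE n) => s7mPay B P T Dt N u r.1 r.2.1 (mv (Mo r.1) r.2.2))).symm

end ana

/-! ### the frozen diffusion law -/

theorem s7m_int_exp {b : ℝ} (hb : 0 < b) : Integrable (fun x : EE n => Real.exp (-b * ‖x‖ ^ 2)) := by
  by_contra hn
  have h1 := integral_undef hn
  rw [GaussianFourier.integral_rexp_neg_mul_sq_norm hb] at h1
  have : (0 : ℝ) < Real.pi / b := by positivity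
  exact (Real.rpow_pos_of_pos this _).ne' h1

theorem s7m_Mo_cont (X : HierData n) (k : ℕ) {L T : ℝ} (hL : 1 ≤ L) (hTp : 0 < T) :
    Continuous fun y => mxFun (hT L T) (X.R k y) := by
  have h2 : (fun y => mxFun (hT L T) (X.R k y))
      = fun y => mxFun (fun a => Real.sqrt (s7faC L T (max a 0))) (X.rho k y) := by
    funext y
    have hρ := s7fa_rho_psd X k y
    unfold HierData.R
    rw [Claimed.Agent.R260.mxFun_comp]
    refine Claimed.Agent.R260.mxFun_congr fun i => ?_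
    rw [max_eq_left (s7fa_eig_nonneg hρ i)]
    exact s7fa_hT_sqrt (s7fa_eig_nonneg hρ i)
  rw [h2]
  exact s7fa_mxFun_cont ((s7faC_max_cont hL hTp).sqrt) (s7fa_rho_cont X k)
    fun y => s7fa_isSymm (s7fa_rho_psd X k y)

theorem s7m_asm_fubini {X : HierData n} {k : ℕ} {h t ε : ℝ} (F : Frozen X k h t ε) {L u0 u1 : ℝ}
    (hL : 1 ≤ L) (hu0 : 0 < u0) (P : Tst) {T : ℝ} (hTp : 0 < T) :
    Integrable (fun z => F.lowZ L u0 u1 P T z) volume ∧
      F.lowT L u0 u1 P T = ∫ z, F.lowZ L u0 u1 P T z := by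
  let _ := F.mΩ
  have := F.prob
  have hYm : Measurable fun p : F.Ω × EE n => ((F.Yt p.1, p.2) : EE n × EE n) :=
    (F.Yt_meas.comp measurable_fst).prodMk measurable_snd
  have hfz : Measurable fun p : F.Ω × EE n => X.obsF k L T (F.Yt p.1) p.2 := by
    have h1 : Measurable fun q : EE n × EE n => X.obsF k L T q.1 q.2 := (s7_obsF_cont X k hL hTp).measurable
    have h2 := h1.comp hYm
    exact h2
  have he : Integrable (fun z : EE n => Real.exp (-‖z‖ ^ 2 / (2 * (1 + L)))) volume := by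
    have hb : 0 < 1 / (2 * (1 + L)) := by positivity
    refine (s7m_int_exp (n := n) hb).congr (Filter.Eventually.of_forall fun z => ?_)
    show Real.exp _ = Real.exp _
    congr 1
    ring
  have hMo : Measurable fun p : F.Ω × EE n => mv (mxFun (hT L T) (X.R k (F.Yt p.1))) p.2 := by
    have hc : Continuous fun q : EE n × EE n => mv (mxFun (hT L T) (X.R k q.1)) q.2 :=
      s7fa_mv_cont2 ((s7m_Mo_cont X k hL hTp).comp continuous_fst) continuous_snd
    have h1 := hc.measurable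
    have h2 := h1.comp hYm
    exact h2
  unfold Frozen.lowZ Frozen.lowT Frozen.valZ Frozen.valT Frozen.valM
  exact s7m_fubini (B := F.B) (P := P) (T := T) F.Dt_meas F.N_meas F.law_N
    (fz := fun o z => X.obsF k L T (F.Yt o) z) hfz (fun o z => (s7_obsF_pos X k hL hTp _ _).le) he
    (fun o z => s7_obsF_le X k hL hTp _ _) (Mo := fun o => mxFun (hT L T) (X.R k (F.Yt o))) hMo
    (fun o => s7_obsF_map X k hL hTp (F.Yt o)) hu0

theorem s7m_asm_le {X : HierData n} {k : ℕ} {h t ε : ℝ} (F : Frozen X k h t ε) {L u0 u1 : ℝ}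
    (hL : 1 ≤ L) (hu0 : 0 < u0) (hu : u0 < u1) (P : Tst) {T : ℝ} (hTp : 0 < T) (z : EE n) :
    F.lowZ L u0 u1 P T z ≤ ent (dm X.η) fun y => X.obsF k L T y z := by
  let _ := F.mΩ
  have := F.prob
  have hg : Measurable fun y => X.obsF k L T y z :=
    ((s7_obsF_cont X k hL hTp).comp (continuous_id.prodMk continuous_const)).measurable
  have h1 := s7m_le (B := F.B) (P := P) (T := T) F.Dt_meas F.N_meas F.law_N F.indep
    (f := fun o => X.obsF k L T (F.Yt o) z) (hg.comp F.Yt_meas)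
    (fun o => (s7_obsF_pos X k hL hTp _ _).le) (M := 1)
    (fun o => (s7_obsF_le X k hL hTp _ _).trans (Real.exp_le_one_iff.2 (by
      have : 0 ≤ ‖z‖ ^ 2 / (2 * (1 + L)) := by positivity
      rw [neg_div]; linarith))) hu0 hu z
  have h2 : ent F.P (fun o => X.obsF k L T (F.Yt o) z) = ent (dm X.η) fun y => X.obsF k L T y z := by
    unfold ent
    rw [← F.law_Yt, integral_map F.Yt_meas.aemeasurable hg.aestronglyMeasurable,
      integral_map (f := fun y => X.obsF k L T y z * Real.log (X.obsF k L T y z)) F.Yt_meas.aemeasurable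
        (s7h_measurable_mulLog.comp hg).aestronglyMeasurable]
  rw [← h2]
  exact h1

end Claimed.Agent.R259
end

/- ===== packed: Claimed.Agent.R259.S7Asm ===== -/
section
/-
Row 259 (S0499), section 7: disintegration of the value of a test in the observation `z`.
EXPORT FILE of package L-S7-ASM.  The owner owns this file: keep names and statements, replace the
sorries by citations of helper files `S7Asm*.lean` (prefix `s7m`), which never import this file; they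
import `S7Fish` (block A), `S7Chain`, `S7Cx`.

 (1) `s7_pay_le`: `Re tr(H[v] Q) = ⟨v, trV H Q⟩`; `v ↦ H[v]` has norm `≤ 2` from `ℓ²` to Hilbert-Schmidt (`B.flt`), so its adjoint
     `M ↦ (tr(H_i M))_i` too: `|trV H Q|² = ⟨H[trV], Re Q⟩ ≤ 2 |trV| ‖Re Q‖`, `‖Re Q‖² ≤ cSq Q` (`cSq_re_le`).
 (2) bounds: `cSq (tQ) ≤ K ∑_k cSq (c_k(u, T R_*²)) ≤ K n ∑_k sup |c_k|²` on `u ∈ [u0,u1]` (unitaries, `cSq_mxFunC`),
     `|pay d v Q| ≤ 4 |v| ‖Q‖ + 4 ‖Q‖²`; joint measurability of `(u,d,y,z) ↦ tQ` (`mxFunC_continuous_param`, `B.Rs_meas`, `B.H_meas`).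
 (3) `s7_asm_fubini`: for fixed `(o,G')`: `∫ Ψ(h_T(R(Y_t)) G) γ(dG) = ∫ obsF(Y_t,z) Ψ(z) dz` (`s7_obsF_map`), Fubini with the bound
     `obsF ≤ exp(-|z|²/(2(1+L)))`.
 (4) `s7_asm_le`: `s7_chain` with `f = obsF (Y_t ·) z`, `V u d y = trV (H d) (tQ P u T d y z)`; `s7_pay_le`, `obsF ≥ 0`, `κ ≥ 0`;
     `ent P (g ∘ Y_t) = ent (dm η) g` (`F.law_Yt`, `integral_map`).
-/
set_option autoImplicit false

open MeasureTheory ProbabilityTheory
open scoped BigOperators Matrix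
open Claimed.Agent.R260 (Mx mxFun mxSchur mxSq mxIP mxEig mxU mxRot)

namespace Claimed.Agent.R259

variable {n : ℕ}

theorem s7_pay_le {D : Type} [MeasurableSpace D] {Q : Measure D} (B : BlockModel n Q) (d : D)
    (v : EE n) (Qm : CMx n) :
    B.pay d v Qm ≤ 2 * inner ℝ v (trV (B.H d) Qm) - ‖trV (B.H d) Qm‖ ^ 2 :=
  s7m_pay_le B d v Qm

theorem s7_asm_fubini {X : HierData n} {k : ℕ} {h t ε : ℝ} (F : Frozen X k h t ε) {L u0 u1 : ℝ}
    (hL : 1 ≤ L) (hu0 : 0 < u0) (hu : u0 < u1) (P : Tst) {T : ℝ} (hT : 0 < T) :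
    Integrable (fun z => F.lowZ L u0 u1 P T z) volume ∧
      F.lowT L u0 u1 P T = ∫ z, F.lowZ L u0 u1 P T z :=
  s7m_asm_fubini F hL hu0 P hT

theorem s7_asm_le {X : HierData n} {k : ℕ} {h t ε : ℝ} (F : Frozen X k h t ε) {L u0 u1 : ℝ}
    (hL : 1 ≤ L) (hu0 : 0 < u0) (hu : u0 < u1) (P : Tst) {T : ℝ} (hT : 0 < T) (z : EE n) :
    F.lowZ L u0 u1 P T z ≤ ent (dm X.η) fun y => X.obsF k L T y z :=
  s7m_asm_le F hL hu0 hu P hT z

end Claimed.Agent.R259
end

/- ===== packed: Claimed.Agent.R259.S7Info ===== -/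
section
/-
Row 259 (S0499), section 7: the information inequality at a fixed scale `T`
(first half of P7.2, L7.4, first half of L7.5).  GLUE (proved).  Owner: helper79.

`lowT = ∫ lowZ dz ≤ ∫ ent η (obsF · z) dz ≤ obsU`.
-/
set_option autoImplicit false

open MeasureTheory ProbabilityTheory
open scoped BigOperators Matrix
open Claimed.Agent.R260 (Mx mxFun mxSchur mxSq mxIP mxEig mxU mxRot)

namespace Claimed.Agent.R259

variable {n : ℕ}

/-- At every scale the Fisher information dominates the value of every bounded test.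
No smallness is used. -/
theorem s7_info {X : HierData n} {k : ℕ} {h t ε : ℝ} (F : Frozen X k h t ε) {L u0 u1 : ℝ}
    (hL : 1 ≤ L) (hu0 : 0 < u0) (hu : u0 < u1) (P : Tst) {T : ℝ} (hT : 0 < T) :
    F.lowT L u0 u1 P T ≤ X.obsU k L T := by
  obtain ⟨h1, h2⟩ := s7_asm_fubini F hL hu0 hu P hT
  obtain ⟨h3, h4⟩ := s7_fisher X k hL hT
  rw [h2]
  exact (integral_mono h1 h3 fun z => s7_asm_le F hL hu0 hu P hT z).trans h4

end Claimed.Agent.R259
end

/- ===== packed: Claimed.Agent.R259.S7StabAbs ===== -/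
section
/-
Row 259 (S0499), section 7, package BP-S7-STAB: the stability estimate on an abstract coupling.
Owner: helper239.  Prefix `s7t`.
-/
set_option autoImplicit false

open MeasureTheory ProbabilityTheory Set
open scoped BigOperators Matrix ENNReal
open Claimed.Agent.R260

namespace Claimed.Agent.R259

variable {n : ℕ}

attribute [local instance] s7t_gam_prob

variable {D : Type} [MeasurableSpace D] {Q : Measure D} {Ω : Type} [MeasurableSpace Ω]
  {Pm : Measure Ω} (B : BlockModel n Q) (Dt : Ω → D) (N : Ω → EE n) (P : Tst)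

/-- the pay-off as a function of `(T, (u, (o, (G', G))))`; observation `M(T,o) G` -/
noncomputable def s7tJ (M : ℝ × Ω → Mx n) (p : S7tX Ω n) : ℝ :=
  B.pay (Dt p.2.2.1) (N p.2.2.1 - Real.exp (-p.2.1) • ouV p.2.1 (N p.2.2.1) p.2.2.2.1)
    (B.tQ P p.2.1 p.1 (Dt p.2.2.1) (ouV p.2.1 (N p.2.2.1) p.2.2.2.1)
      (mv (M (p.1, p.2.2.1)) p.2.2.2.2))

/-- the weighted pay-off `κ(u) J / T²` -/
noncomputable def s7tPhi (M : ℝ × Ω → Mx n) (p : S7tX Ω n) : ℝ :=
  kap p.2.1 * s7tJ B Dt N P M p / p.1 ^ 2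

/-- `‖H[N] Ψ_T‖²/T²` -/
noncomputable def s7tAN (p : S7tX Ω n) : ℝ :=
  mxSq (colAt (B.H (Dt p.2.2.1)) (N p.2.2.1) * s7tPsiM P.x0 p.1 (B.Rs (Dt p.2.2.1))) / p.1 ^ 2

/-- `‖H[G'] Ψ_T‖²/T²` -/
noncomputable def s7tAG (p : S7tX Ω n) : ℝ :=
  mxSq (colAt (B.H (Dt p.2.2.1)) p.2.2.2.1 * s7tPsiM P.x0 p.1 (B.Rs (Dt p.2.2.1))) / p.1 ^ 2

/-- `‖Ψ_T‖²/T²` -/
noncomputable def s7tPP (p : S7tX Ω n) : ℝ :=
  mxSq (s7tPsiM P.x0 p.1 (B.Rs (Dt p.2.2.1))) / p.1 ^ 2

/-- `‖ΔM_T G‖²/T²` -/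
noncomputable def s7tEE (ΔM : ℝ × Ω → Mx n) (p : S7tX Ω n) : ℝ :=
  ‖mv (ΔM (p.1, p.2.2.1)) p.2.2.2.2‖ ^ 2 / p.1 ^ 2

/-- generates the equation lemmas in this file -/
theorem s7tababs_eqns_cite : True := by
  have := @s7tJ.eq_1
  have := @s7tPhi.eq_1
  have := @s7tAN.eq_1
  have := @s7tAG.eq_1
  have := @s7tPP.eq_1
  have := @s7tEE.eq_1
  trivial

theorem s7t_kap_measurable : Measurable kap := by
  unfold kap
  fun_prop

theorem s7t_kap_nonneg (u : ℝ) : 0 ≤ kap u := by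
  unfold kap
  positivity

theorem s7t_kap_le {u0 u : ℝ} (hu0 : 0 < u0) (hu : u0 ≤ u) :
    kap u ≤ 1 / (1 - Real.exp (-u0) ^ 2) ^ 2 := by
  have h1 : Real.exp (-u) ≤ Real.exp (-u0) := Real.exp_le_exp.mpr (by linarith)
  have h2 : Real.exp (-u0) < 1 := by
    rw [Real.exp_lt_one_iff]
    linarith
  have h3 : 0 < Real.exp (-u) := Real.exp_pos _
  have h4 : Real.exp (-u) ^ 2 ≤ Real.exp (-u0) ^ 2 := by gcongr
  have h5 : Real.exp (-u0) ^ 2 < 1 := by nlinarith [Real.exp_pos (-u0)]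
  unfold kap
  have h6 : 0 < 1 - Real.exp (-u0) ^ 2 := by linarith
  have h7 : (1 - Real.exp (-u0) ^ 2) ^ 2 ≤ (1 - Real.exp (-u) ^ 2) ^ 2 := by
    gcongr
  calc Real.exp (-u) ^ 2 / (1 - Real.exp (-u) ^ 2) ^ 2
      ≤ 1 / (1 - Real.exp (-u) ^ 2) ^ 2 := by
        gcongr
        linarith
    _ ≤ 1 / (1 - Real.exp (-u0) ^ 2) ^ 2 := by
        gcongr

theorem s7t_mv_sub (A A' : Mx n) (v : EE n) : mv A v - mv A' v = mv (A - A') v := by
  unfold mv
  rw [Matrix.sub_mulVec]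
  rfl

variable {Dt N}

theorem s7t_J_measurable (hDt : Measurable Dt) (hN : Measurable N) {M : ℝ × Ω → Mx n}
    (hM : S7uMeas M) : Measurable (s7tJ B Dt N P M) := by
  unfold s7tJ
  have hd : Measurable fun p : S7tX Ω n => Dt p.2.2.1 := hDt.comp (by fun_prop)
  have hNv : S7tMeasV fun p : S7tX Ω n => N p.2.2.1 :=
    S7tMeasV.of_measurable (hN.comp (by fun_prop))
  have hu : Measurable fun p : S7tX Ω n => p.2.1 := by fun_prop
  have hy : S7tMeasV fun p : S7tX Ω n => ouV p.2.1 (N p.2.2.1) p.2.2.2.1 :=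
    S7tMeasV.ouV hu hNv (S7tMeasV.of_measurable (by fun_prop))
  refine s7t_pay_meas B hd (hNv.sub (S7tMeasV.smul (by fun_prop) hy))
    (s7t_tQ_meas B P hu measurable_fst hd hy (S7tMeasV.mv ?_ (S7tMeasV.of_measurable (by fun_prop))))
  exact fun a b => (hM a b).comp (by fun_prop)

theorem s7t_Phi_measurable (hDt : Measurable Dt) (hN : Measurable N) {M : ℝ × Ω → Mx n}
    (hM : S7uMeas M) : Measurable (s7tPhi B Dt N P M) := by
  unfold s7tPhi
  exact ((s7t_kap_measurable.comp (by fun_prop)).mul (s7t_J_measurable B P hDt hN hM)).div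
    (by fun_prop)

variable (Dt N)

/-- pointwise bound of the weighted pay-off -/
theorem s7t_Phi_abs {κ0 S : ℝ} (M : ℝ × Ω → Mx n) (p : S7tX Ω n) (hTp : 0 < p.1) (hu : 0 ≤ p.2.1)
    (hκ : kap p.2.1 ≤ κ0) (hS : ∀ k x, ‖P.c k p.2.1 x‖ ≤ S) :
    ‖s7tPhi B Dt N P M p‖ ≤ κ0 * (2 * s7tAN B Dt N P p + 2 * s7tAG B Dt P p +
      5 * ((P.K : ℝ) ^ 2 * S ^ 2) * s7tPP B Dt P p) := by
  have h1 := s7t_pay_abs B P hTp.le hS (Dt p.2.2.1)
    (N p.2.2.1 - Real.exp (-p.2.1) • ouV p.2.1 (N p.2.2.1) p.2.2.2.1)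
    (ouV p.2.1 (N p.2.2.1) p.2.2.2.1) (mv (M (p.1, p.2.2.1)) p.2.2.2.2)
  have h2 := s7t_v_le hu (B.H (Dt p.2.2.1)) (s7tPsiM P.x0 p.1 (B.Rs (Dt p.2.2.1))) (N p.2.2.1)
    p.2.2.2.1
  have hT2 : 0 < p.1 ^ 2 := by positivity
  unfold s7tPhi s7tAN s7tAG s7tPP
  rw [Real.norm_eq_abs, abs_div, abs_mul, abs_of_nonneg (s7t_kap_nonneg _), abs_of_pos hT2]
  set AN := mxSq (colAt (B.H (Dt p.2.2.1)) (N p.2.2.1) * s7tPsiM P.x0 p.1 (B.Rs (Dt p.2.2.1)))
  set AG := mxSq (colAt (B.H (Dt p.2.2.1)) p.2.2.2.1 * s7tPsiM P.x0 p.1 (B.Rs (Dt p.2.2.1)))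
  set PP := mxSq (s7tPsiM P.x0 p.1 (B.Rs (Dt p.2.2.1)))
  have e : κ0 * (2 * (AN / p.1 ^ 2) + 2 * (AG / p.1 ^ 2) +
      5 * ((P.K : ℝ) ^ 2 * S ^ 2) * (PP / p.1 ^ 2)) =
      κ0 * (2 * AN + 2 * AG + 5 * ((P.K : ℝ) ^ 2 * S ^ 2) * PP) / p.1 ^ 2 := by ring
  rw [e]
  have h3 : |s7tJ B Dt N P M p| ≤ 2 * AN + 2 * AG + 5 * ((P.K : ℝ) ^ 2 * S ^ 2) * PP := by
    unfold s7tJ
    linarith
  gcongr
  exact le_trans (s7t_kap_nonneg _) hκ

/-- pointwise bound of the difference of two weighted pay-offs -/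
theorem s7t_Phi_diff {κ0 S s : ℝ} (hs : 0 < s) (M M' : ℝ × Ω → Mx n) (p : S7tX Ω n) (hTp : 0 < p.1)
    (hu : 0 ≤ p.2.1) (hκ : kap p.2.1 ≤ κ0) (hS : ∀ k x, ‖P.c k p.2.1 x‖ ≤ S) :
    ‖s7tPhi B Dt N P M p - s7tPhi B Dt N P M' p‖ ≤
      κ0 * (4 * (P.K : ℝ) * S ^ 2 * (∑ k, P.r k ^ 2) / (2 * s) * s7tEE (fun q => M q - M' q) p +
        s * (8 * s7tAN B Dt N P p + 8 * s7tAG B Dt P p +
          64 * ((P.K : ℝ) ^ 2 * S ^ 2) * s7tPP B Dt P p)) := by
  have h1 := s7t_pay_diff B P hTp.le hS hs (Dt p.2.2.1)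
    (N p.2.2.1 - Real.exp (-p.2.1) • ouV p.2.1 (N p.2.2.1) p.2.2.2.1)
    (ouV p.2.1 (N p.2.2.1) p.2.2.2.1) (mv (M (p.1, p.2.2.1)) p.2.2.2.2)
    (mv (M' (p.1, p.2.2.1)) p.2.2.2.2)
  rw [s7t_mv_sub] at h1
  have h2 := s7t_v_le hu (B.H (Dt p.2.2.1)) (s7tPsiM P.x0 p.1 (B.Rs (Dt p.2.2.1))) (N p.2.2.1)
    p.2.2.2.1
  have hT2 : 0 < p.1 ^ 2 := by positivity
  unfold s7tPhi s7tAN s7tAG s7tPP s7tEE
  rw [← sub_div, ← mul_sub, Real.norm_eq_abs, abs_div, abs_mul, abs_of_nonneg (s7t_kap_nonneg _),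
    abs_of_pos hT2]
  set AN := mxSq (colAt (B.H (Dt p.2.2.1)) (N p.2.2.1) * s7tPsiM P.x0 p.1 (B.Rs (Dt p.2.2.1)))
  set AG := mxSq (colAt (B.H (Dt p.2.2.1)) p.2.2.2.1 * s7tPsiM P.x0 p.1 (B.Rs (Dt p.2.2.1)))
  set PP := mxSq (s7tPsiM P.x0 p.1 (B.Rs (Dt p.2.2.1)))
  set EEv := ‖mv (M (p.1, p.2.2.1) - M' (p.1, p.2.2.1)) p.2.2.2.2‖ ^ 2
  set ce := 4 * (P.K : ℝ) * S ^ 2 * (∑ k, P.r k ^ 2)
  have e : κ0 * (ce / (2 * s) * (EEv / p.1 ^ 2) + s * (8 * (AN / p.1 ^ 2) + 8 * (AG / p.1 ^ 2) +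
      64 * ((P.K : ℝ) ^ 2 * S ^ 2) * (PP / p.1 ^ 2))) =
      κ0 * (ce * EEv / (2 * s) + s * (8 * AN + 8 * AG + 64 * ((P.K : ℝ) ^ 2 * S ^ 2) * PP)) /
        p.1 ^ 2 := by ring
  rw [e]
  have h3 : |s7tJ B Dt N P M p - s7tJ B Dt N P M' p| ≤
      ce * EEv / (2 * s) + s * (8 * AN + 8 * AG + 64 * ((P.K : ℝ) ^ 2 * S ^ 2) * PP) := by
    unfold s7tJ
    refine le_trans h1 ?_
    have : s * (4 * mxSq (colAt (B.H (Dt p.2.2.1))
        (N p.2.2.1 - Real.exp (-p.2.1) • ouV p.2.1 (N p.2.2.1) p.2.2.2.1) *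
        s7tPsiM P.x0 p.1 (B.Rs (Dt p.2.2.1))) + 64 * ((P.K : ℝ) ^ 2 * S ^ 2 * PP)) ≤
        s * (8 * AN + 8 * AG + 64 * ((P.K : ℝ) ^ 2 * S ^ 2) * PP) := by
      apply mul_le_mul_of_nonneg_left _ hs.le
      linarith
    linarith
  gcongr
  exact le_trans (s7t_kap_nonneg _) hκ

/-! ### Integrability -/

theorem s7t_ae_dom (u0 u1 : ℝ) [IsProbabilityMeasure Pm] :
    ∀ᵐ p ∂(s7tTot u0 u1 Pm n), 0 < p.1 ∧ p.2.1 ∈ Icc u0 u1 := by
  have h1 : ∀ᵐ p ∂(s7tTot u0 u1 Pm n), p.1 ∈ Ioi (0 : ℝ) :=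
    Measure.quasiMeasurePreserving_fst.ae (ae_restrict_mem measurableSet_Ioi)
  have h2 : ∀ᵐ x ∂(s7tMu u0 u1 Pm n), x.1 ∈ Icc u0 u1 :=
    Measure.quasiMeasurePreserving_fst.ae (ae_restrict_mem measurableSet_Icc)
  have h3 : ∀ᵐ p ∂(s7tTot u0 u1 Pm n), p.2.1 ∈ Icc u0 u1 :=
    Measure.quasiMeasurePreserving_snd.ae h2
  filter_upwards [h1, h3] with p a b using ⟨a, b⟩

variable {Dt N}
variable [IsProbabilityMeasure Q] [IsProbabilityMeasure Pm]

theorem s7t_AN_int (h : S7tCpl Q Pm Dt N) {u0 u1 : ℝ} (hu : u0 ≤ u1) :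
    Integrable (s7tAN B Dt N P) (s7tTot u0 u1 Pm n) ∧
      ∫ p, s7tAN B Dt N P p ∂(s7tTot u0 u1 Pm n) ≤
        4 / P.x0 * ((u1 - u0) * (4 * ∫ d, mxSq (B.Rs d) ∂Q)) :=
  s7t_int_a B h.mpN P.x0_pos hu

theorem s7t_AG_int (h : S7tCpl Q Pm Dt N) {u0 u1 : ℝ} (hu : u0 ≤ u1) :
    Integrable (s7tAG B Dt P) (s7tTot u0 u1 Pm n) ∧
      ∫ p, s7tAG B Dt P p ∂(s7tTot u0 u1 Pm n) ≤
        4 / P.x0 * ((u1 - u0) * (4 * ∫ d, mxSq (B.Rs d) ∂Q)) :=
  s7t_int_a B h.mpG P.x0_pos hu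

theorem s7t_PP_int (h : S7tCpl Q Pm Dt N) {u0 u1 : ℝ} (hu : u0 ≤ u1) :
    Integrable (s7tPP B Dt P) (s7tTot u0 u1 Pm n) ∧
      ∫ p, s7tPP B Dt P p ∂(s7tTot u0 u1 Pm n) =
        4 / P.x0 * ((u1 - u0) * ∫ d, mxSq (B.Rs d) ∂Q) :=
  s7t_int_p B h.mpG P.x0_pos hu

theorem s7t_Phi_int (h : S7tCpl Q Pm Dt N) {u0 u1 κ0 S : ℝ} (hu0 : 0 < u0) (hu : u0 ≤ u1)
    (hκ : ∀ u ∈ Icc u0 u1, kap u ≤ κ0) (hS : ∀ u ∈ Icc u0 u1, ∀ k x, ‖P.c k u x‖ ≤ S)
    {M : ℝ × Ω → Mx n} (hM : S7uMeas M) :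
    Integrable (s7tPhi B Dt N P M) (s7tTot u0 u1 Pm n) := by
  refine Integrable.mono' (g := fun p => κ0 * (2 * s7tAN B Dt N P p + 2 * s7tAG B Dt P p +
    5 * ((P.K : ℝ) ^ 2 * S ^ 2) * s7tPP B Dt P p)) ?_
    (s7t_Phi_measurable B P h.Dt_meas h.N_meas hM).aestronglyMeasurable ?_
  · exact ((((s7t_AN_int B P h hu).1.const_mul 2).add ((s7t_AG_int B P h hu).1.const_mul 2)).add
      ((s7t_PP_int B P h hu).1.const_mul _)).const_mul κ0
  · filter_upwards [s7t_ae_dom (Pm := Pm) (n := n) u0 u1] with p hp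
    exact s7t_Phi_abs B Dt N P M p hp.1 (hu0.le.trans hp.2.1) (hκ _ hp.2) (hS _ hp.2)

/-! ### Fubini -/

variable (Dt N)

/-- `∫_{u0}^{u1} κ(u) (value at (u,T)) du` -/
noncomputable def s7tLow (Pm : Measure Ω) (u0 u1 : ℝ) (M : ℝ × Ω → Mx n) (T : ℝ) : ℝ :=
  ∫ u in Icc u0 u1, kap u * ∫ ω, s7tJ B Dt N P M (T, (u, ω)) ∂(s7tPw Pm n)

/-- generates the equation lemmas in this file -/
theorem s7tababs_eqns_cite2 : True := by
  have := @s7tLow.eq_1
  trivial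

variable {Dt N}

theorem s7t_low_eq {u0 u1 : ℝ} {M : ℝ × Ω → Mx n}
    (hΦ : Integrable (s7tPhi B Dt N P M) (s7tTot u0 u1 Pm n)) :
    (fun T => s7tLow B Dt N P Pm u0 u1 M T / T ^ 2) =ᵐ[volume.restrict (Ioi (0 : ℝ))]
      fun T => ∫ x, s7tPhi B Dt N P M (T, x) ∂(s7tMu u0 u1 Pm n) := by
  filter_upwards [hΦ.prod_right_ae] with T hT
  rw [integral_prod _ hT]
  unfold s7tLow
  rw [← integral_div]
  refine integral_congr_ae (Filter.Eventually.of_forall fun u => ?_)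
  show kap u * (∫ ω, s7tJ B Dt N P M (T, (u, ω)) ∂(s7tPw Pm n)) / T ^ 2 =
    ∫ ω, kap u * s7tJ B Dt N P M (T, (u, ω)) / T ^ 2 ∂(s7tPw Pm n)
  rw [integral_div, integral_const_mul]

theorem s7t_low_int {u0 u1 : ℝ} {M : ℝ × Ω → Mx n}
    (hΦ : Integrable (s7tPhi B Dt N P M) (s7tTot u0 u1 Pm n)) :
    IntegrableOn (fun T => s7tLow B Dt N P Pm u0 u1 M T / T ^ 2) (Ioi 0) :=
  (hΦ.integral_prod_left).congr (s7t_low_eq B P hΦ).symm

theorem s7t_low_integral {u0 u1 : ℝ} {M : ℝ × Ω → Mx n}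
    (hΦ : Integrable (s7tPhi B Dt N P M) (s7tTot u0 u1 Pm n)) :
    ∫ T in Ioi (0 : ℝ), s7tLow B Dt N P Pm u0 u1 M T / T ^ 2 =
      ∫ p, s7tPhi B Dt N P M p ∂(s7tTot u0 u1 Pm n) := by
  rw [integral_congr_ae (s7t_low_eq B P hΦ), ← integral_prod _ hΦ]

/-- the abstract stability estimate -/
theorem s7t_abs_main (h : S7tCpl Q Pm Dt N) {u0 u1 κ0 S : ℝ} (hu0 : 0 < u0) (hu : u0 ≤ u1)
    (hκ : ∀ u ∈ Icc u0 u1, kap u ≤ κ0) (hS : ∀ u ∈ Icc u0 u1, ∀ k x, ‖P.c k u x‖ ≤ S)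
    {M M' : ℝ × Ω → Mx n} (hM : S7uMeas M) (hM' : S7uMeas M') {b : Ω → ℝ} (hb : Integrable b Pm)
    (hb0 : ∀ o, 0 ≤ b o)
    (hE : ∀ o, ∫⁻ T in Ioi (0 : ℝ), ENNReal.ofReal (mxSq (M (T, o) - M' (T, o)) / T ^ 2) ≤
      ENNReal.ofReal (b o))
    {β m s : ℝ} (hβ : ∫ o, b o ∂Pm ≤ β) (hm : ∫ d, mxSq (B.Rs d) ∂Q ≤ m) (hs : 0 < s) :
    IntegrableOn (fun T => s7tLow B Dt N P Pm u0 u1 M T / T ^ 2) (Ioi 0) ∧
    IntegrableOn (fun T => s7tLow B Dt N P Pm u0 u1 M' T / T ^ 2) (Ioi 0) ∧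
    |(∫ T in Ioi (0 : ℝ), s7tLow B Dt N P Pm u0 u1 M T / T ^ 2) -
      ∫ T in Ioi (0 : ℝ), s7tLow B Dt N P Pm u0 u1 M' T / T ^ 2| ≤
      κ0 * (4 * (P.K : ℝ) * S ^ 2 * (∑ k, P.r k ^ 2) / (2 * s) * ((u1 - u0) * β) +
        s * (8 * (4 / P.x0 * ((u1 - u0) * (4 * m))) + 8 * (4 / P.x0 * ((u1 - u0) * (4 * m))) +
          64 * ((P.K : ℝ) ^ 2 * S ^ 2) * (4 / P.x0 * ((u1 - u0) * m)))) := by
  have hΦ := s7t_Phi_int B P h hu0 hu hκ hS hM
  have hΦ' := s7t_Phi_int B P h hu0 hu hκ hS hM'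
  refine ⟨s7t_low_int B P hΦ, s7t_low_int B P hΦ', ?_⟩
  rw [s7t_low_integral B P hΦ, s7t_low_integral B P hΦ', ← integral_sub hΦ hΦ', ← Real.norm_eq_abs]
  have hEE := s7t_int_e (n := n) (Pm := Pm) hu (ΔM := fun q => M q - M' q) (hM.sub hM') hb hb0 hE
  have hAN := s7t_AN_int B P h hu
  have hAG := s7t_AG_int B P h hu
  have hPP := s7t_PP_int B P h hu
  have hκ0 : 0 ≤ κ0 := le_trans (s7t_kap_nonneg u0) (hκ u0 ⟨le_refl _, hu⟩)
  have hx0 := P.x0_pos
  have hd : 0 ≤ u1 - u0 := sub_nonneg.mpr hu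
  set ce := 4 * (P.K : ℝ) * S ^ 2 * (∑ k, P.r k ^ 2) / (2 * s) with hce
  have hce0 : 0 ≤ ce := by
    rw [hce]
    have : 0 ≤ ∑ k, P.r k ^ 2 := Finset.sum_nonneg fun k _ => sq_nonneg _
    positivity
  have hi1 : Integrable (fun p => ce * s7tEE (fun q => M q - M' q) p) (s7tTot u0 u1 Pm n) :=
    hEE.1.const_mul _
  have hi2 : Integrable (fun p => 8 * s7tAN B Dt N P p) (s7tTot u0 u1 Pm n) := hAN.1.const_mul _
  have hi3 : Integrable (fun p => 8 * s7tAG B Dt P p) (s7tTot u0 u1 Pm n) := hAG.1.const_mul _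
  have hi4 : Integrable (fun p => 64 * ((P.K : ℝ) ^ 2 * S ^ 2) * s7tPP B Dt P p)
      (s7tTot u0 u1 Pm n) := hPP.1.const_mul _
  have hi23 : Integrable (fun p => 8 * s7tAN B Dt N P p + 8 * s7tAG B Dt P p)
      (s7tTot u0 u1 Pm n) := hi2.add hi3
  have hi5 : Integrable (fun p => s * (8 * s7tAN B Dt N P p + 8 * s7tAG B Dt P p +
      64 * ((P.K : ℝ) ^ 2 * S ^ 2) * s7tPP B Dt P p)) (s7tTot u0 u1 Pm n) :=
    ((hi2.add hi3).add hi4).const_mul s
  have hdom : Integrable (fun p => κ0 * (ce * s7tEE (fun q => M q - M' q) p +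
      s * (8 * s7tAN B Dt N P p + 8 * s7tAG B Dt P p +
        64 * ((P.K : ℝ) ^ 2 * S ^ 2) * s7tPP B Dt P p))) (s7tTot u0 u1 Pm n) :=
    (hi1.add hi5).const_mul κ0
  refine le_trans (norm_integral_le_of_norm_le hdom ?_) ?_
  · filter_upwards [s7t_ae_dom (Pm := Pm) (n := n) u0 u1] with p hp
    exact s7t_Phi_diff B Dt N P hs M M' p hp.1 (hu0.le.trans hp.2.1) (hκ _ hp.2) (hS _ hp.2)
  · have e : ∫ p, κ0 * (ce * s7tEE (fun q => M q - M' q) p +
        s * (8 * s7tAN B Dt N P p + 8 * s7tAG B Dt P p +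
          64 * ((P.K : ℝ) ^ 2 * S ^ 2) * s7tPP B Dt P p)) ∂(s7tTot u0 u1 Pm n) =
        κ0 * (ce * (∫ p, s7tEE (fun q => M q - M' q) p ∂(s7tTot u0 u1 Pm n)) +
          s * (8 * (∫ p, s7tAN B Dt N P p ∂(s7tTot u0 u1 Pm n)) +
            8 * (∫ p, s7tAG B Dt P p ∂(s7tTot u0 u1 Pm n)) +
            64 * ((P.K : ℝ) ^ 2 * S ^ 2) * ∫ p, s7tPP B Dt P p ∂(s7tTot u0 u1 Pm n))) := by
      rw [integral_const_mul, integral_add hi1 hi5, integral_const_mul, integral_const_mul,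
        integral_add hi23 hi4, integral_add hi2 hi3, integral_const_mul,
        integral_const_mul, integral_const_mul]
    rw [e, hPP.2]
    have b1 : ∫ p, s7tEE (fun q => M q - M' q) p ∂(s7tTot u0 u1 Pm n) ≤ (u1 - u0) * β :=
      le_trans hEE.2 (mul_le_mul_of_nonneg_left hβ hd)
    have b2 : ∫ p, s7tAN B Dt N P p ∂(s7tTot u0 u1 Pm n) ≤ 4 / P.x0 * ((u1 - u0) * (4 * m)) := by
      refine le_trans hAN.2 ?_
      gcongr
    have b3 : ∫ p, s7tAG B Dt P p ∂(s7tTot u0 u1 Pm n) ≤ 4 / P.x0 * ((u1 - u0) * (4 * m)) := by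
      refine le_trans hAG.2 ?_
      gcongr
    gcongr

end Claimed.Agent.R259
end

/- ===== packed: Claimed.Agent.R259.S7StabFin ===== -/
section
/-
Row 259 (S0499), section 7, package BP-S7-STAB: instantiation of the abstract stability estimate.
Owner: helper239.  Prefix `s7t`.
-/
set_option autoImplicit false

open MeasureTheory ProbabilityTheory Set
open scoped BigOperators Matrix ENNReal
open Claimed.Agent.R260

namespace Claimed.Agent.R259

variable {n : ℕ}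

attribute [local instance] s7t_gam_prob

/-- the coefficients of a test are bounded on `[u0,u1] × ℝ` -/
theorem s7t_S_exists (P : Tst) (u0 u1 : ℝ) :
    ∃ S : ℝ, 0 ≤ S ∧ ∀ u ∈ Icc u0 u1, ∀ k x, ‖P.c k u x‖ ≤ S := by
  have h : ∀ k, ∃ C, ∀ p ∈ (Icc u0 u1 ×ˢ Icc P.x0 P.x1), ‖P.c k p.1 p.2‖ ≤ C := fun k =>
    (isCompact_Icc.prod isCompact_Icc).exists_bound_of_continuousOn (P.c_cont k).continuousOn
  choose C hC using h
  have h0 : 0 ≤ ∑ k, |C k| := Finset.sum_nonneg fun k _ => abs_nonneg _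
  refine ⟨∑ k, |C k|, h0, fun u hu k x => ?_⟩
  by_cases hx : x ∈ Icc P.x0 P.x1
  · calc ‖P.c k u x‖ ≤ C k := hC k (u, x) ⟨hu, hx⟩
      _ ≤ |C k| := le_abs_self _
      _ ≤ ∑ k, |C k| := Finset.single_le_sum (f := fun k => |C k|) (fun i _ => abs_nonneg _) (Finset.mem_univ k)
  · rw [P.c_supp k u x hx, norm_zero]
    exact h0

variable {Ω : Type} [MeasurableSpace Ω]

/-- a jointly measurable version of `h_T(A(o))` -/
noncomputable def s7tMf (L : ℝ) (A : Ω → Mx n) (q : ℝ × Ω) : Mx n :=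
  mxFun Real.sqrt ((1 / 2 : ℝ) • (obsC L q.1 (A q.2 * A q.2) + (obsC L q.1 (A q.2 * A q.2))ᵀ))

/-- generates the equation lemmas in this file -/
theorem s7tabfin_eqns_cite : True := by
  have := @s7tMf.eq_1
  trivial

theorem s7t_Mf_meas (L : ℝ) {A : Ω → Mx n} (hA : S7uMeas A) : S7uMeas (s7tMf L A) := by
  unfold s7tMf
  have hA2 : S7uMeas fun q : ℝ × Ω => A q.2 * A q.2 := by
    have : S7uMeas fun q : ℝ × Ω => A q.2 := fun a b => (hA a b).comp measurable_snd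
    exact this.mul this
  have hC : S7uMeas fun q : ℝ × Ω => obsC L q.1 (A q.2 * A q.2) := by
    unfold obsC obsE
    exact (S7uMeas.const 1).add (S7uMeas.smul measurable_fst (hA2.mul
      ((S7uMeas.const 1).add (S7uMeas.smul (measurable_fst.div_const L) hA2)).inv))
  refine S7uMeas.mxFun (S7uMeas.smul measurable_const (hC.add hC.transpose)) (fun q => ?_)
    Real.continuous_sqrt
  unfold Matrix.IsSymm
  rw [Matrix.transpose_smul, Matrix.transpose_add, Matrix.transpose_transpose, add_comm]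

theorem s7t_Mf_eq {L T : ℝ} (hL : 0 < L) (hTp : 0 ≤ T) {A : Ω → Mx n} (hA : ∀ o, (A o).IsSymm)
    (o : Ω) : s7tMf L A (T, o) = mxFun (hT L T) (A o) := by
  unfold s7tMf
  have hs : (obsC L T (A o * A o)).IsSymm := by
    rw [s7u_obsC (hA o) hL hTp]
    exact mxFun_isSymm _ _
  rw [s7t_hT_eq (hA o) hL hTp]
  show mxFun Real.sqrt ((1 / 2 : ℝ) • (obsC L T (A o * A o) + (obsC L T (A o * A o))ᵀ)) = _
  rw [s7t_sym_half hs]

/-- L7.3 in the form used by the abstract estimate -/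
theorem s7t_Mf_E {L : ℝ} (hL : 1 ≤ L) {A A' : Ω → Mx n} (hA : ∀ o, (A o).IsSymm)
    (hA' : ∀ o, (A' o).IsSymm) (hA0 : ∀ o i, 0 ≤ mxEig (A o) i) (hA0' : ∀ o i, 0 ≤ mxEig (A' o) i)
    (o : Ω) :
    ∫⁻ T in Ioi (0 : ℝ), ENNReal.ofReal (mxSq (s7tMf L A (T, o) - s7tMf L A' (T, o)) / T ^ 2) ≤
      ENNReal.ofReal (4 * Real.log (1 + L) * mxSq (A o - A' o)) := by
  have hL0 : 0 < L := by linarith
  have h := s7t_L73 (hA o) (hA' o) (hA0 o) (hA0' o) hL
  have e : ∫⁻ T in Ioi (0 : ℝ),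
      ENNReal.ofReal (mxSq (s7tMf L A (T, o) - s7tMf L A' (T, o)) / T ^ 2) =
      ∫⁻ T in Ioi (0 : ℝ),
        ENNReal.ofReal (mxSq (mxFun (hT L T) (A o) - mxFun (hT L T) (A' o)) / T ^ 2) := by
    refine setLIntegral_congr_fun measurableSet_Ioi fun T hTp => ?_
    simp only [s7t_Mf_eq hL0 (le_of_lt hTp) hA, s7t_Mf_eq hL0 (le_of_lt hTp) hA']
  rw [e, ← ofReal_integral_eq_lintegral_ofReal h.1
    (Filter.Eventually.of_forall fun T => div_nonneg (mxSq_nonneg _) (sq_nonneg _))]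
  exact ENNReal.ofReal_le_ofReal h.2

variable {D : Type} [MeasurableSpace D] {Q : Measure D} {Pm : Measure Ω} (B : BlockModel n Q)
  {Dt : Ω → D} {N : Ω → EE n} (P : Tst)

/-- the value of the test for the observation `h_T(A(o)) G`, integrated against `κ(u) du` -/
noncomputable def s7tLowA (Dt : Ω → D) (N : Ω → EE n) (Pm : Measure Ω) (L u0 u1 : ℝ)
    (A : Ω → Mx n) (T : ℝ) : ℝ :=
  ∫ u in Icc u0 u1, kap u * ∫ ω : Ω × (EE n × EE n),
    B.pay (Dt ω.1) (N ω.1 - Real.exp (-u) • ouV u (N ω.1) ω.2.1)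
      (B.tQ P u T (Dt ω.1) (ouV u (N ω.1) ω.2.1) (mv (mxFun (hT L T) (A ω.1)) ω.2.2))
    ∂(Pm.prod ((gam n).prod (gam n)))

/-- generates the equation lemmas in this file -/
theorem s7tabfin_eqns_cite2 : True := by
  have := @s7tLowA.eq_1
  trivial

theorem s7t_lowA_eq {L T : ℝ} (hL : 0 < L) (hTp : 0 ≤ T) (u0 u1 : ℝ) {A : Ω → Mx n}
    (hA : ∀ o, (A o).IsSymm) :
    s7tLow B Dt N P Pm u0 u1 (s7tMf L A) T = s7tLowA B P Dt N Pm L u0 u1 A T := by
  unfold s7tLow s7tLowA s7tJ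
  simp only [s7t_Mf_eq hL hTp hA]

/-- the constant of the stability estimate -/
noncomputable def s7tC (P : Tst) (L u0 u1 S : ℝ) : ℝ :=
  1 / (1 - Real.exp (-u0) ^ 2) ^ 2 *
    (4 * (P.K : ℝ) * S ^ 2 * (∑ k, P.r k ^ 2) / 2 * ((u1 - u0) * (4 * Real.log (1 + L))) +
      (8 * (4 / P.x0 * ((u1 - u0) * (4 * 2))) + 8 * (4 / P.x0 * ((u1 - u0) * (4 * 2))) +
        64 * ((P.K : ℝ) ^ 2 * S ^ 2) * (4 / P.x0 * ((u1 - u0) * 2))))

/-- generates the equation lemmas in this file -/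
theorem s7tabfin_eqns_cite3 : True := by
  have := @s7tC.eq_1
  trivial

theorem s7tC_nonneg (P : Tst) {L u0 u1 : ℝ} (hL : 1 ≤ L) (hu : u0 ≤ u1) (S : ℝ) :
    0 ≤ s7tC P L u0 u1 S := by
  unfold s7tC
  have h1 : 0 ≤ ∑ k, P.r k ^ 2 := Finset.sum_nonneg fun k _ => sq_nonneg _
  have h2 : 0 ≤ u1 - u0 := sub_nonneg.mpr hu
  have h3 : 0 ≤ Real.log (1 + L) := Real.log_nonneg (by linarith)
  have h4 := P.x0_pos
  positivity

/-- the stability estimate for two measurable fields of positive semidefinite matrices -/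
theorem s7t_abs_fin [IsProbabilityMeasure Q] [IsProbabilityMeasure Pm] (h : S7tCpl Q Pm Dt N)
    {L u0 u1 S δ : ℝ} (hL : 1 ≤ L) (hu0 : 0 < u0) (hu : u0 ≤ u1)
    (hS : ∀ u ∈ Icc u0 u1, ∀ k x, ‖P.c k u x‖ ≤ S) {A A' : Ω → Mx n} (hAm : S7uMeas A)
    (hAm' : S7uMeas A') (hA : ∀ o, (A o).IsSymm) (hA' : ∀ o, (A' o).IsSymm)
    (hA0 : ∀ o i, 0 ≤ mxEig (A o) i) (hA0' : ∀ o i, 0 ≤ mxEig (A' o) i)
    (hint : Integrable (fun o => mxSq (A o - A' o)) Pm) (hδ : 0 < δ)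
    (hclose : ∫ o, mxSq (A o - A' o) ∂Pm ≤ δ) (hm : ∫ d, mxSq (B.Rs d) ∂Q ≤ 2) :
    IntegrableOn (fun T => s7tLowA B P Dt N Pm L u0 u1 A T / T ^ 2) (Ioi 0) ∧
    IntegrableOn (fun T => s7tLowA B P Dt N Pm L u0 u1 A' T / T ^ 2) (Ioi 0) ∧
    |(∫ T in Ioi (0 : ℝ), s7tLowA B P Dt N Pm L u0 u1 A T / T ^ 2) -
      ∫ T in Ioi (0 : ℝ), s7tLowA B P Dt N Pm L u0 u1 A' T / T ^ 2| ≤
      s7tC P L u0 u1 S * Real.sqrt δ := by
  have hL0 : 0 < L := by linarith
  have hlog : 0 ≤ Real.log (1 + L) := Real.log_nonneg (by linarith)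
  have hsq : 0 < Real.sqrt δ := Real.sqrt_pos.mpr hδ
  have hβ : ∫ o, 4 * Real.log (1 + L) * mxSq (A o - A' o) ∂Pm ≤ 4 * Real.log (1 + L) * δ := by
    rw [integral_const_mul]
    exact mul_le_mul_of_nonneg_left hclose (by positivity)
  have key := s7t_abs_main B P h hu0 hu (fun u hu' => s7t_kap_le hu0 hu'.1) hS
    (s7t_Mf_meas L hAm) (s7t_Mf_meas L hAm') (hint.const_mul (4 * Real.log (1 + L)))
    (fun o => mul_nonneg (by positivity) (mxSq_nonneg _)) (s7t_Mf_E hL hA hA' hA0 hA0') hβ hm hsq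
  have e1 : ∀ T ∈ Ioi (0 : ℝ), s7tLow B Dt N P Pm u0 u1 (s7tMf L A) T / T ^ 2 =
      s7tLowA B P Dt N Pm L u0 u1 A T / T ^ 2 := fun T hTp => by
    rw [s7t_lowA_eq B P hL0 (le_of_lt hTp) u0 u1 hA]
  have e2 : ∀ T ∈ Ioi (0 : ℝ), s7tLow B Dt N P Pm u0 u1 (s7tMf L A') T / T ^ 2 =
      s7tLowA B P Dt N Pm L u0 u1 A' T / T ^ 2 := fun T hTp => by
    rw [s7t_lowA_eq B P hL0 (le_of_lt hTp) u0 u1 hA']
  refine ⟨(integrableOn_congr_fun e1 measurableSet_Ioi).mp key.1,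
    (integrableOn_congr_fun e2 measurableSet_Ioi).mp key.2.1, ?_⟩
  rw [← setIntegral_congr_fun measurableSet_Ioi e1, ← setIntegral_congr_fun measurableSet_Ioi e2]
  refine le_trans key.2.2 (le_of_eq ?_)
  unfold s7tC
  have hδs : δ = Real.sqrt δ * Real.sqrt δ := (Real.mul_self_sqrt hδ.le).symm
  set r := Real.sqrt δ with hr
  rw [hδs]
  field_simp

/-! ### The frozen square root -/

theorem s7t_colAt_comm (d : D) (v : EE n) :
    colAt (B.H d) v * B.Rs d = B.Rs d * colAt (B.H d) v := by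
  unfold colAt
  rw [Finset.sum_mul, Finset.mul_sum]
  refine Finset.sum_congr rfl fun i _ => ?_
  rw [Matrix.smul_mul, Matrix.mul_smul, B.comm d i]

theorem s7t_sig_psd (t : ℝ) (d : D) (z : EE n) : (B.sigHalf t d z).PosSemidef := by
  unfold BlockModel.sigHalf
  refine s7t_psd_mul (B.Rs_psd d) (mxFun_posSemidef fun i => (Real.exp_pos _).le) ?_
  exact (mxFun_commute_of (s7t_colAt_symm (B.H_symm d) z) (M := B.Rs d)
    (s7t_colAt_comm B d z).symm).symm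

theorem s7t_sig_meas (t : ℝ) (hDt : Measurable Dt) (hN : Measurable N) :
    S7uMeas fun o => B.sigHalf t (Dt o) (N o) := by
  unfold BlockModel.sigHalf
  exact S7uMeas.mul (fun a b => (B.Rs_meas a b).comp hDt)
    (S7uMeas.mxFun (S7tMeasV.colAt (fun i a b => (B.H_meas i a b).comp hDt)
      (S7tMeasV.of_measurable hN)) (fun o => s7t_colAt_symm (B.H_symm _) _) (by fun_prop))

theorem s7t_eig_le (d : D) (z : EE n) (i : Fin n) : |mxEig (colAt (B.H d) z) i| ≤ 2 * ‖z‖ := by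
  have h1 : mxSq (colAt (B.H d) z) = ∑ i, mxEig (colAt (B.H d) z) i ^ 2 := by
    have := s7t_mxSq_mxFun (fun a => a) (colAt (B.H d) z)
    rwa [mxFun_id (s7t_colAt_symm (B.H_symm d) z)] at this
  have h2 : mxEig (colAt (B.H d) z) i ^ 2 ≤ ∑ i, mxEig (colAt (B.H d) z) i ^ 2 :=
    Finset.single_le_sum (f := fun i => mxEig (colAt (B.H d) z) i ^ 2) (fun i _ => sq_nonneg _)
      (Finset.mem_univ i)
  have h3 := B.flt d z
  apply abs_le_of_sq_le_sq _ (by positivity)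
  nlinarith

theorem s7t_sig_le {t : ℝ} (ht : 0 ≤ t) (d : D) (z : EE n) :
    mxSq (B.sigHalf t d z) ≤ mxSq (B.Rs d) * Real.exp (4 * Real.sqrt (2 * t) * ‖z‖) := by
  unfold BlockModel.sigHalf
  rw [s7t_mxSq_mul_mxFun, mxSq_rot (colAt (B.H d) z) (B.Rs d), Finset.sum_mul]
  refine Finset.sum_le_sum fun a _ => ?_
  rw [Finset.sum_mul]
  refine Finset.sum_le_sum fun b _ => ?_
  refine mul_le_mul_of_nonneg_left ?_ (sq_nonneg _)
  rw [← Real.exp_nat_mul]
  apply Real.exp_le_exp.mpr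
  have h1 := s7t_eig_le B d z b
  have h2 : mxEig (colAt (B.H d) z) b ≤ 2 * ‖z‖ := le_trans (le_abs_self _) h1
  have h3 : 0 ≤ Real.sqrt (2 * t) := Real.sqrt_nonneg _
  have h4 : Real.sqrt (2 * t) * mxEig (colAt (B.H d) z) b ≤ Real.sqrt (2 * t) * (2 * ‖z‖) :=
    mul_le_mul_of_nonneg_left h2 h3
  push_cast
  nlinarith

theorem s7t_sig_int [IsProbabilityMeasure Q] [IsProbabilityMeasure Pm] (h : S7tCpl Q Pm Dt N)
    {t : ℝ} (ht : 0 ≤ t) : Integrable (fun o => mxSq (B.sigHalf t (Dt o) (N o))) Pm := by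
  have h1 : Integrable (fun q : D × EE n => mxSq (B.Rs q.1) *
      Real.exp (4 * Real.sqrt (2 * t) * ‖q.2‖)) (Q.prod (gam n)) :=
    B.Rs_int.mul_prod (s7t_gam_exp _)
  have hmp : MeasurePreserving (fun o => (Dt o, N o)) Pm (Q.prod (gam n)) :=
    ⟨h.Dt_meas.prodMk h.N_meas, h.law⟩
  refine Integrable.mono' (hmp.integrable_comp_of_integrable h1)
    (s7t_sig_meas B t h.Dt_meas h.N_meas).mxSq.aestronglyMeasurable
    (Filter.Eventually.of_forall fun o => ?_)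
  rw [Real.norm_of_nonneg (mxSq_nonneg _)]
  exact s7t_sig_le B ht _ _

theorem s7t_mass {ε : ℝ} (hs : B.Small ε) (hε : ε ≤ 1) : ∫ d, mxSq (B.Rs d) ∂Q ≤ 2 := by
  have h1 := hs.mass
  have e : B.tau (fun _ => 1) = ∫ d, mxSq (B.Rs d) ∂Q := by
    unfold BlockModel.tau
    refine integral_congr_ae (Filter.Eventually.of_forall fun d => ?_)
    show Matrix.trace (B.Rs d * B.Rs d * 1) = mxSq (B.Rs d)
    rw [mxSq, (s7t_Rs_symm B d).eq, mul_one]
  rw [e] at h1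
  have := (abs_le.mp h1).2
  linarith

/-- BP-S7-STAB -/
theorem s7t_final {t L u0 u1 : ℝ} (ht : 0 < t) (hL : 1 ≤ L) (hu0 : 0 < u0) (hu : u0 < u1)
    (P : Tst) :
    ∃ C : ℝ, 0 ≤ C ∧ ∀ (n : ℕ) (X : HierData n) (k : ℕ) (h δ : ℝ), 0 < h → 0 < δ → δ ≤ 1 →
      ∀ F : Frozen X k h t δ,
        IntegrableOn (fun T => F.lowT L u0 u1 P T / T ^ 2) (Set.Ioi 0) ∧
        IntegrableOn (fun T => F.lowF L u0 u1 P T / T ^ 2) (Set.Ioi 0) ∧
        |(∫ T in Set.Ioi (0 : ℝ), F.lowT L u0 u1 P T / T ^ 2)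
          - ∫ T in Set.Ioi (0 : ℝ), F.lowF L u0 u1 P T / T ^ 2| ≤ C * Real.sqrt δ := by
  obtain ⟨S, -, hS⟩ := s7t_S_exists P u0 u1
  refine ⟨s7tC P L u0 u1 S, s7tC_nonneg P hL hu.le S, ?_⟩
  intro n X k h δ _ hδ hδ1 F
  let _ := F.mΩ
  have := F.prob
  have : IsProbabilityMeasure (X.Qm h) := by
    rw [← F.law_Dt]
    exact Measure.isProbabilityMeasure_map F.Dt_meas.aemeasurable
  have hc : S7tCpl (X.Qm h) F.P F.Dt F.N := ⟨F.Dt_meas, F.N_meas, F.law_Dt, by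
    rw [(indepFun_iff_map_prod_eq_prod_map_map F.Dt_meas.aemeasurable
      F.N_meas.aemeasurable).mp F.indep, F.law_Dt, F.law_N]⟩
  have hAm : S7uMeas fun o => X.R k (F.Yt o) := fun a b => ((s6_meas X k).1 a b).comp F.Yt_meas
  have hAm' := s7t_sig_meas F.B t F.Dt_meas F.N_meas
  have hAint : Integrable (fun o => mxSq (X.R k (F.Yt o))) F.P := by
    obtain ⟨-, C, hC⟩ := s6r_RB_R X k
    refine Integrable.of_bound hAm.mxSq.aestronglyMeasurable (∑ _a : Fin n, ∑ _b : Fin n, C ^ 2)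
      (Filter.Eventually.of_forall fun o => ?_)
    rw [Real.norm_of_nonneg (mxSq_nonneg _), mxSq_eq_sum]
    refine Finset.sum_le_sum fun a _ => Finset.sum_le_sum fun b _ => ?_
    exact sq_le_sq' (by linarith [(abs_le.mp (hC (F.Yt o) a b)).1]) (abs_le.mp (hC (F.Yt o) a b)).2
  have hint : Integrable (fun o => mxSq (X.R k (F.Yt o) - F.B.sigHalf t (F.Dt o) (F.N o))) F.P := by
    refine Integrable.mono' ((hAint.const_mul 2).add ((s7t_sig_int F.B hc ht.le).const_mul 2))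
      (hAm.sub hAm').mxSq.aestronglyMeasurable (Filter.Eventually.of_forall fun o => ?_)
    rw [Real.norm_of_nonneg (mxSq_nonneg _)]
    exact s7t_mxSq_sub_le _ _
  have key := s7t_abs_fin F.B P hc hL hu0 hu.le hS hAm hAm' (fun o => s7u_R_symm X k _)
    (fun o => s7u_psd_symm (s7t_sig_psd F.B t _ _)) (fun o => s7u_R_eig_nonneg X k _)
    (fun o => s7u_eig_nonneg (s7t_sig_psd F.B t _ _)) hint hδ F.close (s7t_mass F.B F.small hδ1)
  have e1 : ∀ T, F.lowT L u0 u1 P T =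
      s7tLowA F.B P F.Dt F.N F.P L u0 u1 (fun o => X.R k (F.Yt o)) T := by
    intro T
    unfold Frozen.lowT Frozen.valT Frozen.valM s7tLowA
    rfl
  have e2 : ∀ T, F.lowF L u0 u1 P T =
      s7tLowA F.B P F.Dt F.N F.P L u0 u1 (fun o => F.B.sigHalf t (F.Dt o) (F.N o)) T := by
    intro T
    unfold Frozen.lowF Frozen.valF Frozen.valM s7tLowA
    rfl
  simp only [e1, e2]
  exact key

end Claimed.Agent.R259
end

/- ===== packed: Claimed.Agent.R259.S7Stab ===== -/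
section
/-
Row 259 (S0499), section 7: stability on the entire scale interval (L7.3, L7.6 for bounded tests).
EXPORT FILE of package BP-S7-STAB.  The package owner owns this file: keep name and statement,
the proof is a citation of the helper files `S7Stab*.lean` (prefix `s7t`), which never import
this file.
-/
set_option autoImplicit false

open MeasureTheory ProbabilityTheory
open scoped BigOperators Matrix
open Claimed.Agent.R260 (Mx mxFun mxSchur mxSq mxIP mxEig mxU mxRot)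

namespace Claimed.Agent.R259

/-- BP-S7-STAB.  Replacing the actual observation by the frozen one costs `C √δ` after integration
against `dT/T²`; the constant depends only on the test and on `L, u0, u1`. -/
theorem s7_stab {t L u0 u1 : ℝ} (ht : 0 < t) (hL : 1 ≤ L) (hu0 : 0 < u0) (hu : u0 < u1) (P : Tst) :
    ∃ C : ℝ, 0 ≤ C ∧ ∀ (n : ℕ) (X : HierData n) (k : ℕ) (h δ : ℝ), 0 < h → 0 < δ → δ ≤ 1 →
      ∀ F : Frozen X k h t δ,
        IntegrableOn (fun T => F.lowT L u0 u1 P T / T ^ 2) (Set.Ioi 0) ∧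
        IntegrableOn (fun T => F.lowF L u0 u1 P T / T ^ 2) (Set.Ioi 0) ∧
        |(∫ T in Set.Ioi (0 : ℝ), F.lowT L u0 u1 P T / T ^ 2)
          - ∫ T in Set.Ioi (0 : ℝ), F.lowF L u0 u1 P T / T ^ 2| ≤ C * Real.sqrt δ :=
  s7t_final ht hL hu0 hu P

end Claimed.Agent.R259
end

/- ===== packed: Claimed.Agent.R259.S7Up ===== -/
section
/-
Row 259 (S0499), section 7: the integrated upper bound (L7.1 and the spectral computation of P7.2).
EXPORT FILE of package BP-S7-UPPER.  The package owner owns this file: keep name and statement,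
replace the sorry by a citation of helper files `S7Up*.lean` (prefix `s7u`), which never import
this file.
-/
set_option autoImplicit false

open MeasureTheory ProbabilityTheory
open scoped BigOperators Matrix
open Claimed.Agent.R260 (Mx mxFun mxSchur mxSq mxIP mxEig mxU mxRot)

namespace Claimed.Agent.R259

variable {n : ℕ}

/-- BP-S7-UPPER. -/
theorem s7_upper (X : HierData n) (k : ℕ) {L : ℝ} (hL : 1 ≤ L) :
    IntegrableOn (fun T => X.obsU k L T / T ^ 2) (Set.Ioi 0) ∧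
      X.obsUU k L ≤ (4 * X.lam)⁻¹ * (9 * X.eD k + 9 * Real.log (1 + L) * X.cHat k) :=
  s7u_upper X k hL

end Claimed.Agent.R259
end

/- ===== packed: Claimed.Agent.R259.S7Lower ===== -/
section
/-
Row 259 (S0499), section 7: `s7_lower`, PROVED from the exports `s7_info`, `s7_stab`, `s7_jac`,
`s7_law` and the integrability part of `s7_upper`.  Owner: helper79.
-/
set_option autoImplicit false

open MeasureTheory ProbabilityTheory
open scoped BigOperators Matrix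
open Claimed.Agent.R260 (Mx mxFun mxSchur mxSq mxIP mxEig mxU mxRot)

namespace Claimed.Agent.R259

variable {n : ℕ}

/-- the defect of a block model may be enlarged -/
theorem BlockModel.Small.mono {D : Type} [MeasurableSpace D] {Q : Measure D} {B : BlockModel n Q}
    {ε δ : ℝ} (h : B.Small ε) (hε : ε ≤ δ) : B.Small δ :=
  ⟨h.mass.trans hε, h.sdef.trans hε, h.cdef.trans hε, h.xdef.trans hε⟩

/-- the space of initial data of a frozen coupling is a probability space -/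
theorem Frozen.isProb_Qm {X : HierData n} {k : ℕ} {h t ε : ℝ} (F : Frozen X k h t ε) :
    IsProbabilityMeasure (X.Qm h) := by
  letI := F.mΩ
  haveI := F.prob
  rw [← F.law_Dt]
  exact Measure.isProbabilityMeasure_map F.Dt_meas.aemeasurable

/-- The lower bound: the integrated Fisher information dominates the scalar value of every bounded
test, up to `ε`. -/
theorem s7_lower {t L u0 u1 : ℝ} (ht : 0 < t) (hL : 1 ≤ L) (hu0 : 0 < u0) (hu : u0 < u1) (P : Tst) :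
    ∀ ε : ℝ, 0 < ε → ∃ δ : ℝ, 0 < δ ∧
      ∀ (n : ℕ) (X : HierData n) (k : ℕ) (h : ℝ), 0 < h → Nonempty (Frozen X k h t δ) →
        scJ t L u0 u1 P - ε ≤ X.obsUU k L := by
  intro ε hε
  obtain ⟨C, hC, hstab⟩ := s7_stab ht hL hu0 hu P
  obtain ⟨δ1, hδ1, hlaw⟩ := s7_law ht hL hu0 hu P (ε / 2) (by positivity)
  set δ2 : ℝ := (ε / (2 * (C + 1))) ^ 2 with hδ2
  have hδ2pos : 0 < δ2 := by positivity
  refine ⟨min δ1 (min 1 δ2), lt_min hδ1 (lt_min one_pos hδ2pos), ?_⟩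
  intro n X k h hh ⟨F⟩
  set δ := min δ1 (min 1 δ2) with hδ
  have hδpos : 0 < δ := lt_min hδ1 (lt_min one_pos hδ2pos)
  have hδ_1 : δ ≤ δ1 := min_le_left _ _
  have hδ_one : δ ≤ 1 := (min_le_right _ _).trans (min_le_left _ _)
  have hδ_2 : δ ≤ δ2 := (min_le_right _ _).trans (min_le_right _ _)
  obtain ⟨hiT, hiF, hdiff⟩ := hstab n X k h δ hh hδpos hδ_one F
  haveI := F.isProb_Qm
  have hl := hlaw n _ (X.Qm h) F.B (F.small.mono hδ_1)
  have hj := s7_jac F ht hL hu0 hu P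
  have hU := (s7_upper X k hL).1
  -- the square root of the defect
  have hsq : C * Real.sqrt δ ≤ ε / 2 := by
    have h1 : Real.sqrt δ ≤ ε / (2 * (C + 1)) := by
      have := Real.sqrt_le_sqrt hδ_2
      rwa [hδ2, Real.sqrt_sq (by positivity)] at this
    have h2 : C * Real.sqrt δ ≤ C * (ε / (2 * (C + 1))) := mul_le_mul_of_nonneg_left h1 hC
    have h3 : C * (ε / (2 * (C + 1))) ≤ ε / 2 := by
      rw [mul_div_assoc', div_le_div_iff₀ (by positivity) (by norm_num)]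
      nlinarith
    exact h2.trans h3
  -- monotonicity of the integral
  have hmono : ∫ T in Set.Ioi (0 : ℝ), F.lowT L u0 u1 P T / T ^ 2 ≤ X.obsUU k L := by
    unfold HierData.obsUU
    refine setIntegral_mono_on hiT hU measurableSet_Ioi ?_
    intro T hT
    have hT' : (0 : ℝ) < T := hT
    exact div_le_div_of_nonneg_right (s7_info F hL hu0 hu P hT') (by positivity)
  have h1 := (abs_le.mp hdiff).1
  have h2 := (abs_le.mp hl).1
  rw [hj] at h1
  linarith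

end Claimed.Agent.R259
end

/- ===== packed: Claimed.Agent.R259.S7Main ===== -/
section
/-
Row 259 (S0499), section 7 of the paper: the EXPORT `s7_main`.  Owner: helper79 (sub-captain S7).

`s7_main` : there are a time `t` and a defect `ε` such that NO hierarchy datum has simultaneously
`λ ≥ 1-ε`, `e ≤ 1+ε`, `c ≤ ε` and a frozen coupling of defect `ε` at time `t`.
It is PROVED below from three statements:
* `s7_scalar` (S7Sc; pure 1-D, Mathlib only): some bounded test has scalar value `> 13/4 = C₀ + 1`;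
* `s7_upper`  (S7Up; L7.1 + second half of P7.2): `∫ U dT/T² ≤ (4λ)⁻¹ (9 e + 9 log(1+L) c)`;
* `s7_lower`  (S7Lower; first half of P7.2, L7.3 - L7.8): `∫ U dT/T² ≥ (scalar value) - ε`.
-/
set_option autoImplicit false

open MeasureTheory ProbabilityTheory
open scoped BigOperators Matrix
open Claimed.Agent.R260 (Mx mxFun mxSchur mxSq mxIP mxEig mxU mxRot)

namespace Claimed.Agent.R259

variable {n : ℕ}

/-- the defect of a frozen coupling may be enlarged -/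
def Frozen.mono {X : HierData n} {k : ℕ} {h t ε δ : ℝ} (F : Frozen X k h t ε) (hε : ε ≤ δ) :
    Frozen X k h t δ where
  B := F.B
  small := F.small.mono hε
  Ω := F.Ω
  mΩ := F.mΩ
  P := F.P
  prob := F.prob
  Dt := F.Dt
  N := F.N
  Yt := F.Yt
  Dt_meas := F.Dt_meas
  N_meas := F.N_meas
  Yt_meas := F.Yt_meas
  law_Dt := F.law_Dt
  law_N := F.law_N
  law_Yt := F.law_Yt
  indep := F.indep
  close := F.close.trans hε

/-- EXPORT OF SECTION 7. -/
theorem s7_main : ∃ t : ℝ, 0 < t ∧ ∃ ε : ℝ, 0 < ε ∧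
    ∀ (n : ℕ) (X : HierData n) (k : ℕ) (h : ℝ), 0 < h → 1 - ε ≤ X.lam → X.eD k ≤ 1 + ε →
      X.cHat k ≤ ε → ¬ Nonempty (Frozen X k h t ε) := by
  obtain ⟨t, ht1, u0, u1, hu0, hu, P, hP⟩ := s7_scalar
  have ht : 0 < t := by linarith
  obtain ⟨δ, hδ, hlow⟩ := s7_lower ht ht1 hu0 hu P (1 / 4) (by norm_num)
  set Λ : ℝ := Real.log (1 + t) with hΛ
  have hΛ0 : 0 ≤ Λ := Real.log_nonneg (by linarith)
  set ε1 : ℝ := 1 / (100 * (1 + Λ)) with hε1
  have hε1pos : 0 < ε1 := by positivity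
  have hε1le : ε1 ≤ 1 / 100 := by
    rw [hε1]
    apply one_div_le_one_div_of_le (by norm_num)
    nlinarith
  have hε1Λ : ε1 * (1 + Λ) = 1 / 100 := by
    rw [hε1]; field_simp
  refine ⟨t, ht, min δ ε1, lt_min hδ hε1pos, ?_⟩
  intro n X k h hh hlam he hc ⟨F⟩
  have hεδ : min δ ε1 ≤ δ := min_le_left _ _
  have hεε : min δ ε1 ≤ ε1 := min_le_right _ _
  have h1 := hlow n X k h hh ⟨F.mono hεδ⟩
  have h2 := (s7_upper X k ht1).2
  have hlam' : (99 : ℝ) / 100 ≤ X.lam := by linarith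
  have hY : 9 * X.eD k + 9 * Λ * X.cHat k ≤ 909 / 100 := by
    have hc' : X.cHat k ≤ ε1 := hc.trans hεε
    have he' : X.eD k ≤ 1 + ε1 := by linarith
    have : Λ * X.cHat k ≤ Λ * ε1 := mul_le_mul_of_nonneg_left hc' hΛ0
    nlinarith
  have hinv : (4 * X.lam)⁻¹ ≤ (100 : ℝ) / 396 := by
    rw [inv_le_comm₀ (by linarith) (by norm_num)]
    norm_num
    linarith
  have hinv0 : 0 ≤ (4 * X.lam)⁻¹ := by
    have := X.lam_pos
    positivity
  have h3 : (4 * X.lam)⁻¹ * (9 * X.eD k + 9 * Λ * X.cHat k) ≤ 100 / 396 * (909 / 100) :=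
    (mul_le_mul_of_nonneg_left hY hinv0).trans (mul_le_mul_of_nonneg_right hinv (by norm_num))
  have h4 : X.obsUU k t ≤ 100 / 396 * (909 / 100) := h2.trans h3
  norm_num at h4
  linarith

end Claimed.Agent.R259
end
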