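/- Packed by merge_tool.py (helper293): 13 modules of Claimed.Agent.R259 in one file, same declarations.
   Old modules, in this order: S5Curv, S5Main, S6FrzMet, S6FrzBand, S6FrzIter, S6FrzHerm, S6FrzLeaves, S6FrzCore, S6FrzPt, S6Frz, S6Main, S7False, Top -/
import Claimed.Agent.R259.Pack025
import Claimed.Agent.R259.Pack028
import Claimed.Agent.R259.Pack026
import Claimed.Agent.R259.Pack052
import Claimed.Agent.R259.Pack049
import Claimed.Agent.R259.Pack017
import Claimed.Agent.R259.Pack024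
import Claimed.Agent.R259.Pack044
import Claimed.Agent.R259.Pack034
import Claimed.Agent.R259.Pack015

/- ===== packed: Claimed.Agent.R259.S5Curv ===== -/
section
/-
Row 259 (S0499), Lemma 5.7 of the paper and the completion of the proof of Proposition 5.1.
EXPORT FILE of package BP-S5-curv (owner helper19).  The statements are proved in the helper files
`S5Curv*.lean` (prefix `s5v_`), which never import this file.
-/
set_option autoImplicit false

open MeasureTheory ProbabilityTheory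
open scoped ContDiff BigOperators Matrix
open Claimed.Agent.R260 (Mx mxFun mxSchur mxSq mxIP mxEig mxU mxRot)

namespace Claimed.Agent.R259

variable {n : ℕ}

/-- BP-S5-CURV (Lemma 5.7 + completion of the proof of Proposition 5.1). -/
theorem s5_curv (hmet : MetGoal) (l : ℕ) : ∀ ε : ℝ, 0 < ε → ∃ L' : ℕ, ∃ δ : ℝ, 0 < δ ∧
    ∀ (n : ℕ) (Z : HiInput n) (T : (l : ℕ) → EE n → TT n (l + 1)), Z.Small δ → Z.Chain L' T δ →
      ipF Z.η (T l) (fun y => slot 0 (Z.K y) (T l y)) ≤ ε * Z.I :=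
  s5v_curv hmet l

/-- BP-S5-MEANM: `<T,(E M)_1 T> ≤ 2 |Pi_1 T|² + 2 |(1-Pi) E M (1-Pi)|_op |T|²`. -/
theorem s5_meanM : ∀ ε : ℝ, 0 < ε → ∃ δ : ℝ, 0 < δ ∧
    ∀ (n : ℕ) (Z : HiInput n) (d : ℕ) (T : EE n → TT n (d + 1)), Z.Small δ → Z.Lvl T δ →
      ipF Z.η T (fun y => slot 0 (meanMx Z.η Z.M) (T y)) ≤ ε * Z.I :=
  s5v_meanM

end Claimed.Agent.R259
end

/- ===== packed: Claimed.Agent.R259.S5Main ===== -/
section
/-
Row 259 (S0499), section 5 of the paper: Proposition 5.1 (EXPORT of the section).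
Owner: helper88.  GLUE of the export files `S5Chain`, `S5Curv`.

Design (see the board memos): all fields of the hierarchy are TEST fields; `opA` is the classical
operator; the only operator-theoretic inputs are `op_core_dense_vec` and `op_core_classical_vec`
(kit OP); the stationary diffusion is replaced by the Metropolis coupling (kit MET, `MetGoal`).
-/
set_option autoImplicit false

open MeasureTheory ProbabilityTheory
open scoped ContDiff BigOperators Matrix
open Claimed.Agent.R260 (Mx mxFun mxSchur mxSq mxIP mxEig mxU mxRot)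

namespace Claimed.Agent.R259

variable {n : ℕ}

/-- finitely many positive numbers have a positive lower bound -/
theorem s5m_pos_lower (f : ℕ → ℝ) (hf : ∀ l, 0 < f l) (L : ℕ) :
    ∃ δ : ℝ, 0 < δ ∧ ∀ l ≤ L, δ ≤ f l := by
  induction L with
  | zero => exact ⟨f 0, hf 0, fun l hl => by obtain rfl : l = 0 := by omega
                                             exact le_rfl⟩
  | succ L ih =>
    obtain ⟨δ, hδ, h⟩ := ih
    refine ⟨min δ (f (L + 1)), lt_min hδ (hf _), fun l hl => ?_⟩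
    rcases Nat.lt_or_ge l (L + 1) with h1 | h1
    · exact (min_le_left _ _).trans (h l (by omega))
    · obtain rfl : l = L + 1 := by omega
      exact min_le_right _ _

/-- finitely many natural numbers have an upper bound -/
theorem s5m_nat_upper (f : ℕ → ℕ) (L : ℕ) : ∃ M : ℕ, ∀ l ≤ L, f l ≤ M :=
  ⟨∑ l ∈ Finset.range (L + 1), f l, fun l hl =>
    Finset.single_le_sum (f := f) (fun _ _ => Nat.zero_le _) (Finset.mem_range.2 (by omega))⟩

theorem s5m_slot_apply {d : ℕ} (r : Fin d) (M : Mx n) (t : TT n d) (α : Idx n d) :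
    slot r M t α = ∑ j, M (α r) j * t (Function.update α r j) := rfl

theorem s5m_slot_smul {d : ℕ} (r : Fin d) (c : ℝ) (M : Mx n) (t : TT n d) :
    slot r (c • M) t = c • slot r M t := by
  ext α
  simp [s5m_slot_apply, Finset.mul_sum, mul_assoc]

theorem HiInput.M_entry (Z : HiInput n) (y : EE n) (a b : Fin n) : Z.M y a b = dI b Z.b y a := by
  rw [Z.Db]
  simp [HiInput.M]

theorem HiInput.M_meas (Z : HiInput n) (a b : Fin n) : Measurable fun y => Z.M y a b := by
  have h1 : Continuous fun y => fderiv ℝ Z.b y (eb b) :=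
    (Z.b_smooth.continuous_fderiv (by simp)).clm_apply continuous_const
  have h2 : Continuous fun y => (fderiv ℝ Z.b y (eb b)) a :=
    (EuclideanSpace.proj a : EE n →L[ℝ] ℝ).continuous.comp h1
  have h3 : (fun y => Z.M y a b) = fun y => (fderiv ℝ Z.b y (eb b)) a := by
    funext y
    rw [Z.M_entry]
    rfl
  rw [h3]
  exact h2.measurable

theorem HiInput.one_sub_M (Z : HiInput n) (y : EE n) : 1 - Z.M y = s0 • Z.K y := by
  simp [HiInput.M]

theorem s5m_s0_pos : (0 : ℝ) < s0 := by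
  unfold s0
  norm_num

theorem s5m_s0_le_one : s0 ≤ (1 : ℝ) := by
  unfold s0
  norm_num

theorem HiInput.M_eq (Z : HiInput n) (y : EE n) : Z.M y = s0 • (s0⁻¹ • (1 : Mx n) - Z.K y) := by
  rw [smul_sub, smul_smul, mul_inv_cancel₀ s5m_s0_pos.ne', one_smul]
  rfl

/-- EXPORT OF SECTION 5 (Proposition 5.1).  GLUE of `s5_chain`, `s5_curv`, `s5_meanM`. -/
theorem s5_hierarchy (hmet : MetGoal) (L : ℕ) : ∀ ε : ℝ, 0 < ε → ∃ δ : ℝ, 0 < δ ∧
    ∀ (n : ℕ) (Z : HiInput n), Z.Small δ → ∃ X : HierData n, X.Small L ε := by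
  intro ε hε
  choose Lc δc hδc Hc using fun l => s5_curv hmet l ε hε
  obtain ⟨δ1, hδ1, hδ1le⟩ := s5m_pos_lower δc hδc L
  obtain ⟨L1, hL1⟩ := s5m_nat_upper Lc L
  obtain ⟨δm, hδm, Hm⟩ := s5_meanM ε hε
  set ε2 : ℝ := min ε (min δ1 δm) with hε2
  have hε2pos : 0 < ε2 := lt_min hε (lt_min hδ1 hδm)
  obtain ⟨δ3, hδ3, H3⟩ := s5_chain (L1 + (L + 1)) ε2 hε2pos
  refine ⟨min δ3 ε2, lt_min hδ3 hε2pos, fun n Z hZ => ?_⟩
  obtain ⟨T, hT⟩ := H3 n Z (hZ.mono (min_le_left _ _))
  have hZ2 : Z.Small ε2 := hZ.mono (min_le_right _ _)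
  have hZε : Z.Small ε := hZ2.mono (min_le_left _ _)
  have hTε : Z.Chain (L1 + (L + 1)) T ε := hT.mono (min_le_left _ _)
  classical
  let T' : (l : ℕ) → EE n → TT n (l + 1) := fun l => if l ≤ L1 + (L + 1) then T l else 0
  have hT' : ∀ l, l ≤ L1 + (L + 1) → T' l = T l := fun l hl => if_pos hl
  have hT'0 : ∀ l, ¬ l ≤ L1 + (L + 1) → T' l = 0 := fun l hl => if_neg hl
  let X : HierData n :=
    { η := Z.η
      spd := Z.spd
      lam := Z.lam
      lam_pos := Z.lam_pos
      lsi := Z.lsi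
      pi := Z.pi
      I := Z.I
      I_pos := Z.I_pos
      M := Z.M
      M_meas := Z.M_meas
      M_symm := fun y => by
        have := Z.K_symm y
        unfold HiInput.M
        exact Matrix.IsSymm.sub Matrix.isSymm_one (this.smul s0)
      M_nonneg := fun y => by
        rw [Z.M_eq]
        exact (Z.K_le y).smul s5m_s0_pos.le
      M_le_one := fun y => by
        rw [Z.one_sub_M]
        exact (Z.K_nonneg y).smul s5m_s0_pos.le
      T := T'
      T_test := fun l => by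
        by_cases hl : l ≤ L1 + (L + 1)
        · rw [hT' l hl]
          exact (hT.lvl l hl).test
        · rw [hT'0 l hl]
          exact ⟨contDiff_const, HasCompactSupport.zero⟩
      T_symm := fun l y => by
        by_cases hl : l ≤ L1 + (L + 1)
        · rw [hT' l hl]
          exact (hT.lvl l hl).symm y
        · rw [hT'0 l hl]
          intro σ α
          rfl }
  refine ⟨X, hZε.lam_lo, hZε.lam_hi, ?_, ?_, ?_, ?_, ?_⟩
  · intro l hl
    change |nSq Z.η (T' l) - Z.I| ≤ ε * Z.I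
    rw [hT' l (by omega)]
    exact (hTε.lvl l (by omega)).norm
  · intro l hl
    change nSq Z.η (fun y => opA Z.η (T' l) y - T' l y) ≤ ε * Z.I
    rw [hT' l (by omega)]
    exact (hTε.lvl l (by omega)).eigen
  · intro l hl
    change nSq Z.η (fun y => tD (T' l) y - T' (l + 1) y) ≤ ε * Z.I
    rw [hT' l (by omega), hT' (l + 1) (by omega)]
    exact hTε.deriv l (by omega)
  · intro l hl
    change ipF Z.η (T' l) (fun y => slot 0 (1 - Z.M y) (T' l y)) ≤ ε * Z.I
    rw [hT' l (by omega)]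
    have h1 : Z.Chain (Lc l) T (δc l) :=
      (hT.restrict (by have := hL1 l hl; omega)).mono
        (((min_le_right _ _).trans (min_le_left _ _)).trans (hδ1le l hl))
    have h2 := Hc l n Z T
      (hZ2.mono (((min_le_right _ _).trans (min_le_left _ _)).trans (hδ1le l hl))) h1
    have h3 : ipF Z.η (T l) (fun y => slot 0 (1 - Z.M y) (T l y))
        = s0 * ipF Z.η (T l) (fun y => slot 0 (Z.K y) (T l y)) := by
      unfold ipF
      rw [← integral_const_mul]
      refine integral_congr_ae (Filter.Eventually.of_forall fun y => ?_)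
      simp only [Z.one_sub_M, s5m_slot_smul, inner_smul_right]
    rw [h3]
    have h4 : 0 ≤ ε * Z.I := mul_nonneg hε.le Z.I_pos'.le
    nlinarith [s5m_s0_pos, s5m_s0_le_one]
  · intro l hl
    change ipF Z.η (T' l) (fun y => slot 0 (meanMx Z.η Z.M) (T' l y)) ≤ ε * Z.I
    rw [hT' l (by omega)]
    exact Hm n Z l (T l) (hZ2.mono ((min_le_right _ _).trans (min_le_right _ _)))
      ((hT.lvl l (by omega)).mono ((min_le_right _ _).trans (min_le_right _ _)))

end Claimed.Agent.R259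
end

/- ===== packed: Claimed.Agent.R259.S6FrzMet ===== -/
section
/-
Row 259 (S0499), Proposition 6.8 of the paper, LEAF L-frz-met of the blueprint `S6Frz.lean` (statements: helper88).
The leaf owner owns this file: keep names and statements, replace the sorries (helper files `S6FrzMet*.lean`, more imports allowed as long as
they do not import `S6FrzLeaves`, `S6FrzCore`, `S6FrzPt`, `S6Frz`).

Hint.  `MetGoal` for the direct sum of the band.  `ι = Σ l : Fin k, Idx n (k + l + 1)`,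
  `F j y (⟨l,α⟩, β) = √(nrm k) * X.T (k + l + j) y (Fin.append α β ∘ Fin.cast _)`: test fields, symmetric in `β` (`X.T_symm`);
  `ctrI (F j y) h ⟨l,α⟩ = √nrm * ctr _ (X.T (k+l+j) y) h α`; `opA`, `dI` act componentwise (`S5KitClm`: they commute with continuous
  linear maps), so `nSq (opA F_j - F_j) = bandA j`, `metB F j = bandD j` (`tD` appends the LAST slot = `Fin.snoc`), `nSq F_{m+1} = bandN (m+1)`.
  Then extend the coupling by an independent offset: `Ω = Ω₀ × ℝ`, `P = P₀.prod (unifM h)`, `Dt (ω,θ) = (Y0 ω, θ)`.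
  Integrability: test fields are bounded, `hm j (N)` has all moments (`hm_memLp`, law of `N`).
-/
set_option autoImplicit false
set_option linter.unusedSectionVars false

open MeasureTheory ProbabilityTheory
open scoped ContDiff BigOperators Matrix
open Claimed.Agent.R260 (Mx mxFun mxSchur mxSq mxIP mxEig mxU mxRot)

namespace Claimed.Agent.R259

variable {n : ℕ}

/-! ### index algebra -/

theorem frm_sum_append {d j m' : ℕ} (hm : m' = d + j) (f : Idx n m' → ℝ) :
    ∑ α : Idx n d, ∑ β : Idx n j, f (Fin.append α β ∘ Fin.cast hm) = ∑ γ, f γ := by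
  subst hm
  rw [← Fintype.sum_prod_type', ← (Fin.appendEquiv (α := Fin n) d j).sum_comp]
  rfl

/-- a permutation of the last `j` slots -/
def frmPerm (d : ℕ) {j : ℕ} (σ : Equiv.Perm (Fin j)) : Equiv.Perm (Fin (d + j)) :=
  finSumFinEquiv.permCongr (Equiv.sumCongr (Equiv.refl (Fin d)) σ)

theorem frm_append_perm {d j : ℕ} (α : Idx n d) (β : Idx n j) (σ : Equiv.Perm (Fin j)) :
    Fin.append α (β ∘ σ) = Fin.append α β ∘ frmPerm d σ := by
  funext x
  refine Fin.addCases (fun i => ?_) (fun i => ?_) x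
  · simp [frmPerm, Equiv.permCongr_apply]
  · simp [frmPerm, Equiv.permCongr_apply]

theorem frm_sym {d j m' : ℕ} (hm : m' = d + j) {t : TT n m'} (ht : TSym t) (α : Idx n d) (β : Idx n j)
    (σ : Equiv.Perm (Fin j)) :
    t (Fin.append α (β ∘ σ) ∘ Fin.cast hm) = t (Fin.append α β ∘ Fin.cast hm) := by
  subst hm
  rw [frm_append_perm]
  exact ht (frmPerm d σ) (Fin.append α β)

theorem frm_snoc {d j m' : ℕ} (hm : m' = d + j) (hm' : m' + 1 = d + (j + 1)) (α : Idx n d) (β : Idx n j)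
    (i : Fin n) :
    (Fin.snoc (Fin.append α β ∘ Fin.cast hm : Idx n m') i : Idx n (m' + 1))
      = Fin.append α (Fin.snoc β i : Idx n (j + 1)) ∘ Fin.cast hm' := by
  subst hm
  rw [Fin.append_snoc]
  rfl

theorem frm_sum_Ico (k : ℕ) (f : ℕ → ℝ) : ∑ l ∈ Finset.Ico k (2 * k), f l = ∑ l : Fin k, f (k + l) := by
  rw [Finset.sum_Ico_eq_sum_range, ← Fin.sum_univ_eq_sum_range (fun l => f (k + l))]
  have : 2 * k - k = k := by omega
  rw [this]

/-- index type of the band -/
abbrev BandI (n k : ℕ) : Type := Σ l : Fin k, Idx n (k + l + 1)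

/-- summation over the band -/
theorem frm_band_sum (k j : ℕ) (f : (l : ℕ) → Idx n (l + j + 1) → ℝ) :
    ∑ p : BandI n k × Idx n j,
        f (k + p.1.1) (Fin.append p.1.2 p.2 ∘ Fin.cast (frz_lvl (k + p.1.1) j))
      = ∑ l ∈ Finset.Ico k (2 * k), ∑ γ, f l γ := by
  rw [frm_sum_Ico, Fintype.sum_prod_type, Fintype.sum_sigma]
  refine Finset.sum_congr rfl fun l _ => ?_
  exact frm_sum_append (frz_lvl (k + l) j) (f (k + l))

/-! ### the direct sum of the band -/

section fields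

/-- the direct sum of the band -/
noncomputable def bandF (X : HierData n) (k j : ℕ) (y : EE n) : EuclideanSpace ℝ (BandI n k × Idx n j) :=
  WithLp.toLp 2 fun p => Real.sqrt (X.nrm k) *
    X.T (k + p.1.1 + j) y (Fin.append p.1.2 p.2 ∘ Fin.cast (frz_lvl (k + p.1.1) j))

theorem bandF_apply (X : HierData n) (k j : ℕ) (y : EE n) (p : BandI n k × Idx n j) :
    bandF X k j y p = Real.sqrt (X.nrm k) *
      X.T (k + p.1.1 + j) y (Fin.append p.1.2 p.2 ∘ Fin.cast (frz_lvl (k + p.1.1) j)) := rfl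

/-- coordinate functional times a constant -/
noncomputable def frmP (c : ℝ) {κ : Type} [Fintype κ] (a : κ) : EuclideanSpace ℝ κ →L[ℝ] ℝ :=
  c • EuclideanSpace.proj a

theorem frmP_apply (c : ℝ) {κ : Type} [Fintype κ] (a : κ) (v : EuclideanSpace ℝ κ) :
    frmP c a v = c * v a := rfl

theorem frm_opA_coord {κ : Type} [Fintype κ] (η : EE n → ℝ) {G : EE n → EuclideanSpace ℝ κ}
    (hG : ContDiff ℝ 2 G) (y : EE n) (a : κ) : opA η G y a = opA η (fun z => G z a) y :=
  (s5k_opA_clm η (EuclideanSpace.proj a) hG y).symm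

theorem frm_dI_coord {κ : Type} [Fintype κ] {G : EE n → EuclideanSpace ℝ κ} {y : EE n}
    (hG : DifferentiableAt ℝ G y) (i : Fin n) (a : κ) : dI i G y a = dI i (fun z => G z a) y :=
  (s5k_dI_clm (EuclideanSpace.proj a) hG i).symm

theorem bandF_test (X : HierData n) (k j : ℕ) : IsTestV (bandF X k j) := by
  constructor
  · rw [contDiff_euclidean]
    intro p
    exact (frmP (Real.sqrt (X.nrm k)) _).contDiff.comp (X.T_test (k + p.1.1 + j)).1
  · refine HasCompactSupport.intro (K := ⋃ l : Fin k, tsupport (X.T (k + l + j)))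
      (isCompact_iUnion fun l => (X.T_test (k + l + j)).2) fun y hy => ?_
    ext p
    have h0 : X.T (k + p.1.1 + j) y = 0 :=
      image_eq_zero_of_notMem_tsupport fun h => hy (Set.mem_iUnion.2 ⟨p.1.1, h⟩)
    rw [bandF_apply, h0]
    simp

theorem bandF_sym (X : HierData n) (k j : ℕ) (y : EE n) (a : BandI n k) (σ : Equiv.Perm (Fin j))
    (β : Idx n j) : bandF X k j y (a, β ∘ σ) = bandF X k j y (a, β) := by
  rw [bandF_apply, bandF_apply]
  congr 1
  exact frm_sym _ (X.T_symm _ y) _ _ _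

theorem bandF_opA (X : HierData n) (k j : ℕ) (y : EE n) (p : BandI n k × Idx n j) :
    opA X.η (bandF X k j) y p = Real.sqrt (X.nrm k) *
      opA X.η (X.T (k + p.1.1 + j)) y (Fin.append p.1.2 p.2 ∘ Fin.cast (frz_lvl (k + p.1.1) j)) := by
  rw [frm_opA_coord X.η ((bandF_test X k j).1.of_le (by norm_cast))]
  exact s5k_opA_clm X.η (frmP (Real.sqrt (X.nrm k))
    (Fin.append p.1.2 p.2 ∘ Fin.cast (frz_lvl (k + p.1.1) j) : Idx n (k + p.1.1 + j + 1)))
    ((X.T_test (k + p.1.1 + j)).1.of_le (by norm_cast)) y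

theorem bandF_dI (X : HierData n) (k j : ℕ) (y : EE n) (i : Fin n) (p : BandI n k × Idx n j) :
    dI i (bandF X k j) y p = Real.sqrt (X.nrm k) *
      dI i (X.T (k + p.1.1 + j)) y (Fin.append p.1.2 p.2 ∘ Fin.cast (frz_lvl (k + p.1.1) j)) := by
  rw [frm_dI_coord (((bandF_test X k j).1.differentiable (by simp)) y)]
  exact s5k_dI_clm (frmP (Real.sqrt (X.nrm k))
    (Fin.append p.1.2 p.2 ∘ Fin.cast (frz_lvl (k + p.1.1) j) : Idx n (k + p.1.1 + j + 1)))
    (((X.T_test (k + p.1.1 + j)).1.differentiable (by simp)) y) i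

theorem frm_nrm_nonneg (X : HierData n) (k : ℕ) : 0 ≤ X.nrm k := by
  unfold HierData.nrm
  have := X.I_pos
  positivity

theorem frm_norm_sq (k j : ℕ) (c : ℝ) (U : (l : ℕ) → TT n (l + j + 1))
    (v : EuclideanSpace ℝ (BandI n k × Idx n j))
    (hv : ∀ p, v p = c * U (k + p.1.1) (Fin.append p.1.2 p.2 ∘ Fin.cast (frz_lvl (k + p.1.1) j))) :
    ‖v‖ ^ 2 = c ^ 2 * ∑ l ∈ Finset.Ico k (2 * k), ‖U l‖ ^ 2 := by
  rw [EuclideanSpace.real_norm_sq_eq]
  simp only [hv]
  rw [frm_band_sum k j (fun l γ => (c * U l γ) ^ 2), Finset.mul_sum]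
  refine Finset.sum_congr rfl fun l _ => ?_
  rw [EuclideanSpace.real_norm_sq_eq, Finset.mul_sum]
  exact Finset.sum_congr rfl fun γ _ => mul_pow _ _ _

theorem frm_test_integrable {η : EE n → ℝ} (hη : SPD η) {V : Type} [NormedAddCommGroup V]
    [NormedSpace ℝ V] {G : EE n → V} (hG : IsTestV G) : Integrable (fun y => ‖G y‖ ^ 2) (dm η) := by
  have := dm_prob hη
  have h1 : MemLp (fun y => G (id y)) 2 (dm η) :=
    metd_bdd_memLp hG.1.continuous (metf_test_bdd hG) (dm η) measurable_id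
  exact (memLp_two_iff_integrable_sq_norm h1.1).1 h1

theorem frm_test_sub {V : Type} [NormedAddCommGroup V] [NormedSpace ℝ V] {G G' : EE n → V}
    (hG : IsTestV G) (hG' : IsTestV G') : IsTestV (fun y => G y - G' y) :=
  ⟨hG.1.sub hG'.1, hG.2.sub hG'.2⟩

theorem frm_integral_band (X : HierData n) (k : ℕ) {e : ℕ → ℕ} (U : (l : ℕ) → EE n → TT n (e l))
    (hU : ∀ l, IsTestV (U l)) :
    ∫ y, Real.sqrt (X.nrm k) ^ 2 * ∑ l ∈ Finset.Ico k (2 * k), ‖U l y‖ ^ 2 ∂(dm X.η)
      = X.nrm k * ∑ l ∈ Finset.Ico k (2 * k), nSq X.η (U l) := by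
  rw [integral_const_mul, integral_finsetSum _ fun l _ => frm_test_integrable X.spd (hU l),
    Real.sq_sqrt (frm_nrm_nonneg X k)]
  rfl

theorem bandF_nSq (X : HierData n) (k j : ℕ) : nSq X.η (bandF X k j) = X.bandN k j := by
  unfold HierData.bandN
  rw [← frm_integral_band X k (fun l => X.T (l + j)) fun l => X.T_test _]
  unfold nSq
  refine integral_congr_ae (ae_of_all _ fun y => ?_)
  exact frm_norm_sq k j _ (fun l => X.T (l + j) y) _ fun p => rfl

theorem bandF_A (X : HierData n) (k j : ℕ) :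
    nSq X.η (fun y => opA X.η (bandF X k j) y - bandF X k j y) = X.bandA k j := by
  unfold HierData.bandA
  rw [← frm_integral_band X k (fun l y => opA X.η (X.T (l + j)) y - X.T (l + j) y) fun l =>
    frm_test_sub (s5k_opA_test X.spd (X.T_test _)) (X.T_test _)]
  unfold nSq
  refine integral_congr_ae (ae_of_all _ fun y => ?_)
  refine frm_norm_sq k j _ (fun l => opA X.η (X.T (l + j)) y - X.T (l + j) y) _ fun p => ?_
  rw [PiLp.sub_apply, bandF_opA, bandF_apply, PiLp.sub_apply, mul_sub]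

theorem bandF_D_term (X : HierData n) (k j : ℕ) (y : EE n) (i : Fin n) (p : BandI n k × Idx n j) :
    dI i (bandF X k j) y p - bandF X k (j + 1) y (p.1, Fin.snoc p.2 i)
      = Real.sqrt (X.nrm k) * (tD (X.T (k + p.1.1 + j)) y - X.T (k + p.1.1 + j + 1) y)
          (Fin.snoc (Fin.append p.1.2 p.2 ∘ Fin.cast (frz_lvl (k + p.1.1) j) :
            Idx n (k + p.1.1 + j + 1)) i) := by
  rw [bandF_dI, bandF_apply, PiLp.sub_apply, s5k_tD_apply, Fin.snoc_last, Fin.init_snoc, mul_sub,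
    frm_snoc (frz_lvl (k + p.1.1) j) (frz_lvl (k + p.1.1) (j + 1))]
  rfl

theorem bandF_D_pt (X : HierData n) (k j : ℕ) (y : EE n) :
    ∑ a, ∑ β : Idx n j, ∑ i, (dI i (bandF X k j) y (a, β)
      - bandF X k (j + 1) y (a, Fin.snoc β i)) ^ 2
    = Real.sqrt (X.nrm k) ^ 2 * ∑ l ∈ Finset.Ico k (2 * k),
        ‖tD (X.T (l + j)) y - X.T (l + j + 1) y‖ ^ 2 := by
  have e1 : ∑ a, ∑ β : Idx n j, ∑ i, (dI i (bandF X k j) y (a, β)
      - bandF X k (j + 1) y (a, Fin.snoc β i)) ^ 2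
      = ∑ p : BandI n k × Idx n j, ∑ i, (dI i (bandF X k j) y p
      - bandF X k (j + 1) y (p.1, Fin.snoc p.2 i)) ^ 2 :=
    (Fintype.sum_prod_type (fun p : BandI n k × Idx n j => ∑ i, (dI i (bandF X k j) y p
      - bandF X k (j + 1) y (p.1, Fin.snoc p.2 i)) ^ 2)).symm
  rw [e1]
  simp only [bandF_D_term]
  have e2 := frm_band_sum k j (fun l γ => ∑ i, (Real.sqrt (X.nrm k) *
    (tD (X.T (l + j)) y - X.T (l + j + 1) y) (Fin.snoc γ i)) ^ 2)
  refine e2.trans ?_
  rw [Finset.mul_sum]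
  refine Finset.sum_congr rfl fun l _ => ?_
  have e3 : ‖tD (X.T (l + j)) y - X.T (l + j + 1) y‖ ^ 2
      = ∑ i, ∑ γ : Idx n (l + j + 1), (tD (X.T (l + j)) y - X.T (l + j + 1) y) (Fin.snoc γ i) ^ 2 := by
    rw [EuclideanSpace.real_norm_sq_eq]
    exact s5kt_sum_snoc (fun α => (tD (X.T (l + j)) y - X.T (l + j + 1) y) α ^ 2)
  rw [e3, Finset.sum_comm, Finset.mul_sum]
  refine Finset.sum_congr rfl fun i _ => ?_
  rw [Finset.mul_sum]
  exact Finset.sum_congr rfl fun γ _ => mul_pow _ _ _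

theorem bandF_D (X : HierData n) (k j : ℕ) : metB X.η (bandF X k) j = X.bandD k j := by
  unfold HierData.bandD
  rw [← frm_integral_band X k (fun l y => tD (X.T (l + j)) y - X.T (l + j + 1) y) fun l =>
    frm_test_sub (s5k_tD_test (X.T_test _)) (X.T_test _)]
  unfold metB
  exact integral_congr_ae (ae_of_all _ fun y => bandF_D_pt X k j y)

end fields

section ident

theorem ctr_apply {d m' j : ℕ} (hm : m' = d + j) (t : TT n m') (h : TT n j) (α : Idx n d) :
    ctr hm t h α = ∑ β : Idx n j, t (Fin.append α β ∘ Fin.cast hm) * h β := rfl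

theorem ctrI_apply {ι : Type} [Fintype ι] {j : ℕ} (F : EuclideanSpace ℝ (ι × Idx n j)) (h : TT n j) (a : ι) :
    ctrI F h a = ∑ β, F (a, β) * h β := rfl

theorem frm_ctrI (X : HierData n) (k j : ℕ) (y : EE n) (τ : TT n j) (a : BandI n k) :
    ctrI (bandF X k j y) τ a
      = Real.sqrt (X.nrm k) * ctr (frz_lvl (k + a.1) j) (X.T (k + a.1 + j) y) τ a.2 := by
  rw [ctrI_apply, ctr_apply, Finset.mul_sum]
  refine Finset.sum_congr rfl fun β _ => ?_
  rw [bandF_apply, mul_assoc]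

theorem frm_ctr_zero (X : HierData n) (l : ℕ) (y x : EE n) :
    ctr (frz_lvl l 0) (X.T (l + 0) y) (hm 0 x) = X.T l y := by
  ext α
  rw [ctr_apply, Fintype.sum_unique, hm_zero_apply, mul_one, Fin.append_right_nil _ _ rfl]
  rfl

theorem frm_Z_apply (X : HierData n) (k : ℕ) (t : ℝ) (m : ℕ) (y0 x yt : EE n) (a : BandI n k) :
    (ctrI (bandF X k 0 yt) (hm 0 x) - Real.exp (-t) • ∑ j ∈ Finset.range (m + 1),
        (Real.sqrt (2 * t) ^ j / (j.factorial : ℝ)) • ctrI (bandF X k j y0) (hm j x)) a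
      = Real.sqrt (X.nrm k) * (X.T (k + a.1) yt - X.hSum t m (k + a.1) y0 x) a.2 := by
  unfold HierData.hSum
  simp only [PiLp.sub_apply, PiLp.smul_apply, WithLp.ofLp_sum, Finset.sum_apply, frm_ctrI, smul_eq_mul,
    WithLp.ofLp_smul, Pi.smul_apply]
  rw [frm_ctr_zero, mul_sub, Finset.mul_sum, Finset.mul_sum, Finset.mul_sum]
  congr 1
  refine Finset.sum_congr rfl fun j _ => ?_
  ring

theorem frm_Z_norm (X : HierData n) (k : ℕ) (t : ℝ) (m : ℕ) (y0 x yt : EE n) :
    ‖ctrI (bandF X k 0 yt) (hm 0 x) - Real.exp (-t) • ∑ j ∈ Finset.range (m + 1),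
        (Real.sqrt (2 * t) ^ j / (j.factorial : ℝ)) • ctrI (bandF X k j y0) (hm j x)‖ ^ 2
      = X.sAB k t m y0 x yt := by
  unfold HierData.sAB
  rw [EuclideanSpace.real_norm_sq_eq, frm_sum_Ico, Fintype.sum_sigma, Finset.mul_sum]
  refine Finset.sum_congr rfl fun l _ => ?_
  rw [EuclideanSpace.real_norm_sq_eq, Finset.mul_sum]
  refine Finset.sum_congr rfl fun α _ => ?_
  rw [frm_Z_apply, mul_pow, Real.sq_sqrt (frm_nrm_nonneg X k)]

end ident

section coup

theorem frm_hm_continuous (j : ℕ) : Continuous fun x : EE n => hm j x := by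
  simp only [← Hs_one_eq_hm]
  exact Hs_continuous j 1

theorem frm_hm_memLp (j : ℕ) : MemLp (fun x : EE n => hm j x) 2 (gam n) := by
  rw [gam_eq_stdGaussian, memLp_piLp_iff]
  intro β
  exact hm_memLp j β 2

theorem frm_term_memLp {Ω : Type} [MeasurableSpace Ω] {P : Measure Ω} [IsProbabilityMeasure P]
    {Y N : Ω → EE n} (hY : Measurable Y) (hN : Measurable N) (hlaw : P.map N = gam n) {ι : Type}
    [Fintype ι] {j : ℕ} {φ : EE n → EuclideanSpace ℝ (ι × Idx n j)} (hφ : IsTestV φ) :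
    MemLp (fun w => ctrI (φ (Y w)) (hm j (N w))) 2 P := by
  obtain ⟨C, hC⟩ := metf_test_bdd hφ
  have h1 := frm_hm_memLp (n := n) j
  rw [← hlaw] at h1
  have h2 : MemLp (fun w => hm j (N w)) 2 P := h1.comp_of_map hN.aemeasurable
  refine h2.of_le_mul (c := C) ?_ (Filter.Eventually.of_forall fun w => ?_)
  · have hc : Continuous fun q : EE n × EE n => hcon (φ q.1) (hm j q.2) :=
      metf_hcon_continuous (hφ.1.continuous.comp continuous_fst) ((frm_hm_continuous j).comp continuous_snd)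
    exact (hc.measurable.comp (hY.prodMk hN)).aestronglyMeasurable
  · exact (metf_hcon_norm_le _ _).trans (mul_le_mul_of_nonneg_right (hC _) (norm_nonneg _))

theorem frm_sAB_integrable (X : HierData n) (k : ℕ) (t : ℝ) (m : ℕ) {Ω : Type} [MeasurableSpace Ω]
    {P : Measure Ω} [IsProbabilityMeasure P] {Y0 N Yt : Ω → EE n} (hY0 : Measurable Y0)
    (hN : Measurable N) (hYt : Measurable Yt) (hlaw : P.map N = gam n) :
    Integrable (fun w => X.sAB k t m (Y0 w) (N w) (Yt w)) P := by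
  simp only [← frm_Z_norm]
  have t0 := frm_term_memLp hYt hN hlaw (bandF_test X k 0)
  have t1 := (metf_sum_le (μ := P) (Finset.range (m + 1))
    (fun j => Real.sqrt (2 * t) ^ j / (j.factorial : ℝ))
    (fun j w => ctrI (bandF X k j (Y0 w)) (hm j (N w)))
    fun j _ => frm_term_memLp hY0 hN hlaw (bandF_test X k j)).1
  have t2 : MemLp (fun w => Real.exp (-t) • ∑ j ∈ Finset.range (m + 1),
      (Real.sqrt (2 * t) ^ j / (j.factorial : ℝ)) • ctrI (bandF X k j (Y0 w)) (hm j (N w))) 2 P :=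
    t1.const_smul (Real.exp (-t))
  exact metd_integrable_sq (t0.sub t2)

theorem frm_rearrange {α β γ : Type} [MeasurableSpace α] [MeasurableSpace β] [MeasurableSpace γ]
    (μ₁ : Measure α) (μ₂ : Measure β) (μ₃ : Measure γ) [SFinite μ₁] [SFinite μ₂] [SFinite μ₃] :
    ((μ₁.prod μ₂).prod μ₃).map (fun q : (α × β) × γ => ((q.1.1, q.2), q.1.2)) = (μ₁.prod μ₃).prod μ₂ := by
  have h1 : (fun q : (α × β) × γ => ((q.1.1, q.2), q.1.2))
      = MeasurableEquiv.prodAssoc.symm ∘ (Prod.map id Prod.swap) ∘ MeasurableEquiv.prodAssoc := by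
    funext q
    rfl
  rw [h1, ← Measure.map_map (by fun_prop) (by fun_prop), ← Measure.map_map (by fun_prop) (by fun_prop),
    Measure.prodAssoc_prod, ← Measure.map_prod_map _ _ measurable_id measurable_swap, Measure.map_id,
    Measure.prod_swap, ← Measure.prodAssoc_prod, Measure.map_map (by fun_prop) (by fun_prop)]
  simp

/-- extension of the coupling by an independent offset -/
noncomputable def frmCoup (X : HierData n) {h : ℝ} (hh : 0 < h) {Ω₀ : Type} [MeasurableSpace Ω₀]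
    (P₀ : Measure Ω₀) [IsProbabilityMeasure P₀] (Y0 N Yt : Ω₀ → EE n) (hY0 : Measurable Y0)
    (hN : Measurable N) (hYt : Measurable Yt) (l0 : P₀.map Y0 = dm X.η) (lt : P₀.map Yt = dm X.η)
    (lN : P₀.map N = gam n) (hind : IndepFun Y0 N P₀) : FrzCoup X h :=
  have hU : IsProbabilityMeasure (unifM h) := s6i_prob_unif hh
  have hfst : (P₀.prod (unifM h)).map Prod.fst = P₀ := by
    rw [Measure.map_fst_prod]; simp
  have lD : (P₀.prod (unifM h)).map (fun o : Ω₀ × ℝ => (Y0 o.1, o.2)) = X.Qm h := by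
    have := (Measure.map_prod_map P₀ (unifM h) hY0 measurable_id).symm
    rw [Measure.map_id, l0] at this
    exact this
  have lN' : (P₀.prod (unifM h)).map (fun o : Ω₀ × ℝ => N o.1) = gam n := by
    have := Measure.map_map (μ := P₀.prod (unifM h)) hN measurable_fst
    rw [hfst, lN] at this
    exact this.symm
  { Ω := Ω₀ × ℝ
    mΩ := inferInstance
    P := P₀.prod (unifM h)
    prob := inferInstance
    Dt := fun o => (Y0 o.1, o.2)
    N := fun o => N o.1
    Yt := fun o => Yt o.1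
    Dt_meas := by fun_prop
    N_meas := by fun_prop
    Yt_meas := by fun_prop
    law_Dt := lD
    law_N := lN'
    law_Yt := by
      have := Measure.map_map (μ := P₀.prod (unifM h)) hYt measurable_fst
      rw [hfst, lt] at this
      exact this.symm
    indep := by
      rw [indepFun_iff_map_prod_eq_prod_map_map (by fun_prop) (by fun_prop), lD, lN']
      have h0 := (indepFun_iff_map_prod_eq_prod_map_map hY0.aemeasurable hN.aemeasurable).1 hind
      rw [l0, lN] at h0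
      have h1 : (fun o : Ω₀ × ℝ => ((Y0 o.1, o.2), N o.1))
          = (fun q : (EE n × EE n) × ℝ => ((q.1.1, q.2), q.1.2)) ∘
            Prod.map (fun w => (Y0 w, N w)) id := by
        funext o
        rfl
      rw [h1, ← Measure.map_map (by fun_prop) (by fun_prop),
        ← Measure.map_prod_map _ _ (by fun_prop) measurable_id, Measure.map_id, h0]
      have := dm_prob X.spd
      have : IsProbabilityMeasure (gam n) := by rw [gam_eq_stdGaussian]; infer_instance
      exact frm_rearrange _ _ _ }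

end coup

theorem frz_met (hmet : MetGoal) (m : ℕ) {t : ℝ} (ht : 0 < t) : ∃ C : ℝ, 0 ≤ C ∧
    ∀ (n : ℕ) (X : HierData n) (k : ℕ) (h : ℝ), 0 < h → ∀ ε' : ℝ, 0 < ε' →
      ∃ c : FrzCoup X h,
        Integrable (fun o => X.sAB k t m (c.Dt o).1 (c.N o) (c.Yt o)) c.P ∧
        Real.sqrt (∫ o, X.sAB k t m (c.Dt o).1 (c.N o) (c.Yt o) ∂c.P)
          ≤ C * ∑ j ∈ Finset.range (m + 1),
                (Real.sqrt (X.bandA k j) + Real.sqrt (X.bandD k j))
            + Real.sqrt ((2 * t) ^ (m + 1) / ((m + 1).factorial : ℝ)) * Real.sqrt (X.bandN k (m + 1))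
            + ε' := by
  obtain ⟨C, hC⟩ := hmet m t ht
  refine ⟨max C 0, le_max_right _ _, fun n X k h hh ε' hε' => ?_⟩
  obtain ⟨Ω, mΩ, P, Y0, N, Yt, hP, hY0, hN, hYt, l0, lt, lN, hind, hbound⟩ :=
    hC n (BandI n k) X.η X.spd (bandF X k) (bandF_test X k)
      (fun j y a σ β => bandF_sym X k j y a σ β) ε' hε'
  have hU : IsProbabilityMeasure (unifM h) := s6i_prob_unif hh
  have hint := frm_sAB_integrable X k t m hY0 hN hYt lN
  refine ⟨frmCoup X hh P Y0 N Yt hY0 hN hYt l0 lt lN hind, ?_, ?_⟩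
  · exact hint.comp_fst (unifM h)
  · have e1 : ∫ o, X.sAB k t m (Y0 o.1) (N o.1) (Yt o.1) ∂(P.prod (unifM h))
        = ∫ w, X.sAB k t m (Y0 w) (N w) (Yt w) ∂P := by
      rw [integral_fun_fst (fun w => X.sAB k t m (Y0 w) (N w) (Yt w))]
      simp
    change Real.sqrt (∫ o, X.sAB k t m (Y0 o.1) (N o.1) (Yt o.1) ∂(P.prod (unifM h))) ≤ _
    rw [e1]
    simp only [frm_Z_norm, bandF_A, bandF_D, bandF_nSq] at hbound
    have hs : 0 ≤ ∑ j ∈ Finset.range (m + 1), (Real.sqrt (X.bandA k j) + Real.sqrt (X.bandD k j)) :=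
      Finset.sum_nonneg fun j _ => add_nonneg (Real.sqrt_nonneg _) (Real.sqrt_nonneg _)
    have := mul_le_mul_of_nonneg_right (le_max_left C 0) hs
    linarith

end Claimed.Agent.R259
end

/- ===== packed: Claimed.Agent.R259.S6FrzBand ===== -/
section
/-
Row 259 (S0499), Proposition 6.8 of the paper, LEAF L-frz-band of the blueprint `S6Frz.lean` (statements: helper88).
The leaf owner owns this file: keep names and statements, replace the sorries (helper files `S6FrzBand*.lean`, more imports allowed as long as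
they do not import `S6FrzLeaves`, `S6FrzCore`, `S6FrzPt`, `S6Frz`).

Hint.  Sums of `k` terms `≤ δ I`, `nrm k * k * I = 1` (copy `s6m_mass_lo` of `S6Model.lean`).
-/
set_option autoImplicit false

open MeasureTheory ProbabilityTheory
open scoped ContDiff BigOperators Matrix
open Claimed.Agent.R260 (Mx mxFun mxSchur mxSq mxIP mxEig mxU mxRot)

namespace Claimed.Agent.R259

variable {n : ℕ}

/-- a band sum of `k` terms `≤ c I`, normalised, is `≤ c` -/
theorem frz_band_aux (X : HierData n) {k : ℕ} (hk : 0 < k) {c : ℝ} {f : ℕ → ℝ}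
    (hf : ∀ l ∈ Finset.Ico k (2 * k), f l ≤ c * X.I) :
    X.nrm k * ∑ l ∈ Finset.Ico k (2 * k), f l ≤ c := by
  have hI := X.I_pos
  have h3 := Finset.sum_le_sum hf
  rw [Finset.sum_const, Nat.card_Ico, nsmul_eq_mul] at h3
  have hkk : ((2 * k - k : ℕ) : ℝ) = k := by
    congr 1
    omega
  rw [hkk] at h3
  have hk' : (0 : ℝ) < k := by exact_mod_cast hk
  have h4 : X.nrm k * ((k : ℝ) * (c * X.I)) = c := by
    unfold HierData.nrm
    field_simp
  calc _ ≤ X.nrm k * ((k : ℝ) * (c * X.I)) := mul_le_mul_of_nonneg_left h3 (s6b_nrm_nonneg X k)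
    _ = c := h4

theorem frz_nSq_nonneg {V : Type} [NormedAddCommGroup V] (η : EE n → ℝ) (F : EE n → V) :
    0 ≤ nSq η F := integral_nonneg fun _ => sq_nonneg _

theorem frz_band (X : HierData n) {k j : ℕ} {δ : ℝ} (hk : 0 < k) (hj : j ≤ k)
    (hX : X.Small (3 * k) δ) :
    X.bandA k j ≤ δ ∧ X.bandD k j ≤ δ ∧ X.bandN k j ≤ 1 + δ := by
  refine ⟨frz_band_aux X hk fun l hl => ?_, frz_band_aux X hk fun l hl => ?_,
    frz_band_aux X hk fun l hl => ?_⟩
  · have hl' := Finset.mem_Ico.1 hl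
    exact hX.eigen (l + j) (by omega)
  · have hl' := Finset.mem_Ico.1 hl
    exact hX.deriv (l + j) (by omega)
  · have hl' := Finset.mem_Ico.1 hl
    have := (abs_le.1 (hX.norm (l + j) (by omega))).2
    linarith

theorem frz_band_nonneg (X : HierData n) (k j : ℕ) :
    0 ≤ X.bandA k j ∧ 0 ≤ X.bandD k j ∧ 0 ≤ X.bandN k j := by
  exact ⟨mul_nonneg (s6b_nrm_nonneg X k) (Finset.sum_nonneg fun _ _ => frz_nSq_nonneg _ _),
    mul_nonneg (s6b_nrm_nonneg X k) (Finset.sum_nonneg fun _ _ => frz_nSq_nonneg _ _),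
    mul_nonneg (s6b_nrm_nonneg X k) (Finset.sum_nonneg fun _ _ => frz_nSq_nonneg _ _)⟩

end Claimed.Agent.R259
end

/- ===== packed: Claimed.Agent.R259.S6FrzIter ===== -/
section
/-
Row 259 (S0499), Proposition 6.8 of the paper, LEAF L-frz-iter of the blueprint `S6Frz.lean` (statements: helper88).
The leaf owner owns this file: keep names and statements, replace the sorries (helper files `S6FrzIter*.lean`, more imports allowed as long as
they do not import `S6FrzLeaves`, `S6FrzCore`, `S6FrzPt`, `S6Frz`).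

Hint.  `T_{l+j+1}(·,β,i) - H_i H_β T_l = [T_{l+j+1}(·,β,i) - H_i T_{l+j}(·,β)] + H_i [T_{l+j}(·,β) - H_β T_l]`; every index of order `j+1` is
  `Fin.snoc β i`; `tailAt _ t (Fin.snoc β i) = tailAt _ (lastAt t i) β`; `slot 0` commutes with `tailAt`; the sum over `(l,β)` of the first
  bracket is the one step error at level `l + j`, i.e. `oneE k j`.
-/
set_option autoImplicit false

open MeasureTheory ProbabilityTheory
open scoped ContDiff BigOperators Matrix
open Claimed.Agent.R260 (Mx mxFun mxSchur mxSq mxIP mxEig mxU mxRot)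

namespace Claimed.Agent.R259

variable {n : ℕ}

/-! ### helper lemmas (prefix `frzit_`) -/

theorem frzit_tailAt_apply {d m' j : ℕ} (hm : m' = d + j) (t : TT n m') (β : Idx n j)
    (α : Idx n d) : tailAt hm t β α = t (Fin.append α β ∘ Fin.cast hm) := rfl

theorem frzit_tailAt_sub {d m' j : ℕ} (hm : m' = d + j) (t t' : TT n m') (β : Idx n j) :
    tailAt hm (t - t') β = tailAt hm t β - tailAt hm t' β := rfl

theorem frzit_tailAt_zero {d m' : ℕ} (hm : m' = d + 0) (t : TT n m') (t' : TT n d)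
    (h : ∀ α : Idx n d, t (α ∘ Fin.cast hm) = t' α) (β : Idx n 0) : tailAt hm t β = t' := by
  ext α
  have e : Fin.append α β ∘ Fin.cast hm = α ∘ Fin.cast hm := by
    funext x
    simp only [Function.comp_apply]
    exact Fin.append_left α β (Fin.cast hm x)
  rw [frzit_tailAt_apply, ← h α, e]

theorem frzit_tailAt_snoc {d m' j : ℕ} (hm : m' + 1 = d + (j + 1)) (hm' : m' = d + j)
    (t : TT n (m' + 1)) (β : Idx n j) (i : Fin n) :
    tailAt hm t (Fin.snoc β i) = tailAt hm' (lastAt t i) β := by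
  subst hm'
  ext α
  rw [frzit_tailAt_apply, frzit_tailAt_apply, lastAt_apply, Fin.append_snoc]
  rfl

theorem frzit_append_update {d j : ℕ} (α : Idx n (d + 1)) (β : Idx n j) (a : Fin n) :
    Function.update (Fin.append α β) (Fin.castAdd j 0) a
      = Fin.append (Function.update α 0 a) β := by
  funext z
  refine Fin.addCases (fun u => ?_) (fun u => ?_) z
  · rw [Fin.append_left]
    by_cases hu : u = 0
    · subst hu
      rw [Function.update_self, Function.update_self]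
    · rw [Function.update_of_ne hu, Function.update_of_ne, Fin.append_left]
      intro h
      exact hu (Fin.castAdd_injective _ _ h)
  · rw [Fin.append_right, Function.update_of_ne, Fin.append_right]
    intro h
    have := congrArg Fin.val h
    simp at this

theorem frzit_tailAt_slot {d m' j : ℕ} (hm : m' + 1 = d + 1 + j) (M : Mx n) (t : TT n (m' + 1))
    (β : Idx n j) : tailAt hm (slot 0 M t) β = slot 0 M (tailAt hm t β) := by
  ext α
  rw [frzit_tailAt_apply, slot_apply, slot_apply]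
  have h0 : Fin.cast hm 0 = Fin.castAdd j (0 : Fin (d + 1)) := rfl
  refine Finset.sum_congr rfl fun a _ => ?_
  have e : Function.update (Fin.append α β ∘ Fin.cast hm) 0 a
      = Function.update (Fin.append α β) (Fin.castAdd j 0) a ∘ Fin.cast hm := by
    funext x
    by_cases hx : x = 0
    · subst hx
      rw [Function.update_self, Function.comp_apply, h0, Function.update_self]
    · rw [Function.update_of_ne hx, Function.comp_apply, Function.comp_apply,
        Function.update_of_ne]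
      intro h
      apply hx
      rw [← h0] at h
      exact Fin.cast_injective hm h
  rw [frzit_tailAt_apply, Function.comp_apply, h0, Fin.append_left, ← frzit_append_update, e]

theorem frzit_sum_tailAt_sq {d : ℕ} : ∀ {j m' : ℕ} (hm : m' = d + j) (t : TT n m'),
    ∑ β : Idx n j, ‖tailAt hm t β‖ ^ 2 = ‖t‖ ^ 2 := by
  intro j
  induction j with
  | zero =>
    intro m' hm t
    cases hm
    have : ∀ β : Idx n 0, tailAt (rfl : d + 0 = d + 0) t β = t :=
      frzit_tailAt_zero rfl t t fun α => rfl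
    simp only [this]
    simp
  | succ j ih =>
    intro m' hm t
    subst hm
    rw [fz_sum_snoc, Finset.sum_comm, ← sum_norm_lastAt_sq (d := d + j) t]
    refine Finset.sum_congr rfl fun i _ => ?_
    rw [← ih rfl (lastAt (d := d + j) t i)]
    exact Finset.sum_congr rfl fun β _ => by
      rw [frzit_tailAt_snoc (d := d) (m' := d + j) (j := j) rfl rfl t β i]

theorem frzit_norm_add_sq {d : ℕ} (a b : TT n d) : ‖a + b‖ ^ 2 ≤ 2 * ‖a‖ ^ 2 + 2 * ‖b‖ ^ 2 := by
  have h1 := norm_add_le a b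
  have h2 : ‖a + b‖ ^ 2 ≤ (‖a‖ + ‖b‖) ^ 2 := pow_le_pow_left₀ (norm_nonneg _) h1 2
  nlinarith [sq_nonneg (‖a‖ - ‖b‖)]

/-- one level of the iteration -/
theorem frzit_level {l j : ℕ} {H : Fin n → Mx n} (hH : ColB H 4) (t2 : TT n (l + j + 1 + 1))
    (t1 : TT n (l + j + 1)) (t0 : TT n (l + 1)) :
    ∑ β : Idx n (j + 1), ‖tailAt (frz_lvl l (j + 1)) t2 β - slot 0 (hpr H (j + 1) β) t0‖ ^ 2
      ≤ 2 * ∑ i, ‖lastAt t2 i - slot 0 (H i) t1‖ ^ 2
        + 8 * ∑ β : Idx n j, ‖tailAt (frz_lvl l j) t1 β - slot 0 (hpr H j β) t0‖ ^ 2 := by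
  rw [fz_sum_snoc]
  have h1 : ∀ (β : Idx n j) (i : Fin n),
      ‖tailAt (frz_lvl l (j + 1)) t2 (Fin.snoc β i) - slot 0 (hpr H (j + 1) (Fin.snoc β i)) t0‖ ^ 2
        ≤ 2 * ‖tailAt (frz_lvl l j) (lastAt t2 i - slot 0 (H i) t1) β‖ ^ 2
          + 2 * ‖slot 0 (H i) (tailAt (frz_lvl l j) t1 β - slot 0 (hpr H j β) t0)‖ ^ 2 := by
    intro β i
    refine le_trans (le_of_eq ?_) (frzit_norm_add_sq _ _)
    rw [frzit_tailAt_snoc (frz_lvl l (j + 1)) (frz_lvl l j), hpr_snoc, slot_mul, frzit_tailAt_sub,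
      frzit_tailAt_slot, slot_sub]
    congr 2
    abel
  refine le_trans (Finset.sum_le_sum fun β _ => Finset.sum_le_sum fun i _ => h1 β i) ?_
  simp only [Finset.sum_add_distrib, ← Finset.mul_sum]
  have h2 : ∑ β : Idx n j, ∑ i, ‖tailAt (frz_lvl l j) (lastAt t2 i - slot 0 (H i) t1) β‖ ^ 2
      = ∑ i, ‖lastAt t2 i - slot 0 (H i) t1‖ ^ 2 := by
    rw [Finset.sum_comm]
    exact Finset.sum_congr rfl fun i _ => frzit_sum_tailAt_sq _ _
  have h3 : ∑ β : Idx n j, ∑ i,
        ‖slot 0 (H i) (tailAt (frz_lvl l j) t1 β - slot 0 (hpr H j β) t0)‖ ^ 2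
      ≤ ∑ β : Idx n j, 4 * ‖tailAt (frz_lvl l j) t1 β - slot 0 (hpr H j β) t0‖ ^ 2 :=
    Finset.sum_le_sum fun β _ => s6n_col_slot hH 0 _
  rw [← Finset.mul_sum] at h3
  rw [h2]
  linarith

theorem frzit_hpr_meas {H : EE n × ℝ → Fin n → Mx n} (hH : HierData.ColOK H) :
    ∀ (j : ℕ) (β : Idx n j) (a b : Fin n), Measurable fun p => hpr (H p) j β a b := by
  intro j
  induction j with
  | zero =>
    intro β a b
    simp only [hpr]
    exact measurable_const
  | succ j ih =>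
    intro β a b
    simp only [hpr, Matrix.mul_apply]
    exact Finset.measurable_fun_sum _ fun c _ => (hH.meas _ a c).mul (ih _ c b)

/-! ### the leaf -/

theorem frz_itE_zero (X : HierData n) (k : ℕ) (H : Fin n → Mx n) (y : EE n) : X.itE k 0 H y = 0 := by
  unfold HierData.itE
  have h : ∀ (l : ℕ) (β : Idx n 0),
      ‖tailAt (frz_lvl l 0) (X.T (l + 0) y) β - slot 0 (hpr H 0 β) (X.T l y)‖ ^ 2 = 0 := by
    intro l β
    rw [frzit_tailAt_zero (frz_lvl l 0) (X.T (l + 0) y) (X.T l y) (fun α => rfl) β]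
    simp only [hpr, slot_one, sub_self, norm_zero]
    norm_num
  simp only [h, Finset.sum_const_zero, mul_zero]

theorem frz_itE_nonneg (X : HierData n) (k j : ℕ) (H : Fin n → Mx n) (y : EE n) :
    0 ≤ X.itE k j H y := by
  unfold HierData.itE
  exact mul_nonneg (s6b_nrm_nonneg X k)
    (Finset.sum_nonneg fun l _ => Finset.sum_nonneg fun β _ => by positivity)

theorem frz_iter_pt (X : HierData n) (k j : ℕ) {H : Fin n → Mx n} (hH : ColB H 4) (y : EE n) :
    X.itE k (j + 1) H y ≤ 2 * X.oneE k j H y + 8 * X.itE k j H y := by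
  unfold HierData.itE HierData.oneE
  rw [← Finset.sum_Ico_add' (fun l => ∑ i, ‖lastAt (X.T (l + 1) y) i - slot 0 (H i) (X.T l y)‖ ^ 2)
    k (2 * k) j]
  have h := Finset.sum_le_sum fun l (_ : l ∈ Finset.Ico k (2 * k)) =>
    frzit_level (l := l) (j := j) hH (X.T (l + j + 1) y) (X.T (l + j) y) (X.T l y)
  rw [Finset.sum_add_distrib, ← Finset.mul_sum, ← Finset.mul_sum] at h
  have h' := mul_le_mul_of_nonneg_left h (s6b_nrm_nonneg X k)
  refine le_trans h' (le_of_eq ?_)
  ring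

theorem frz_itE_meas (X : HierData n) (k j : ℕ) {H : EE n × ℝ → Fin n → Mx n}
    (hH : HierData.ColOK H) : Measurable fun p : EE n × ℝ => X.itE k j (H p) p.1 := by
  unfold HierData.itE
  refine measurable_const.mul (Finset.measurable_fun_sum _ fun l _ =>
    Finset.measurable_fun_sum _ fun β _ => ?_)
  simp only [s6t_norm_sq]
  refine Finset.measurable_fun_sum _ fun α _ => Measurable.pow_const ?_ 2
  have e : (fun p : EE n × ℝ => (tailAt (frz_lvl l j) (X.T (l + j) p.1) β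
        - slot 0 (hpr (H p) j β) (X.T l p.1)) α)
      = fun p => X.T (l + j) p.1 (Fin.append α β ∘ Fin.cast (frz_lvl l j))
        - ∑ a, hpr (H p) j β (α 0) a * X.T l p.1 (Function.update α 0 a) := by
    funext p
    rfl
  rw [e]
  exact ((s6i_T_bdm X (l + j) _).1.comp measurable_fst).sub
    (Finset.measurable_fun_sum _ fun a _ =>
      (frzit_hpr_meas hH j β (α 0) a).mul ((s6i_T_bdm X l _).1.comp measurable_fst))

end Claimed.Agent.R259
end

/- ===== packed: Claimed.Agent.R259.S6FrzHerm ===== -/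
section
/-
Row 259 (S0499), Proposition 6.8 of the paper, LEAF L-frz-herm of the blueprint `S6Frz.lean` (statements: helper88).
The leaf owner owns this file: keep names and statements, replace the sorries (helper files `S6FrzHerm*.lean`, more imports allowed as long as
they do not import `S6FrzLeaves`, `S6FrzCore`, `S6FrzPt`, `S6Frz`).

Hint.  `ctr hm t h = ∑_β h β • tailAt hm t β`, linearity of `slot 0 · t` (`slot_sum_left`, `slot_smul_left`), then `hm_upper` for every component.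
Proof: helper3 (prefix `fzh`).
-/
set_option autoImplicit false

open MeasureTheory ProbabilityTheory
open scoped ContDiff BigOperators Matrix
open Claimed.Agent.R260 (Mx mxFun mxSchur mxSq mxIP mxEig mxU mxRot)

namespace Claimed.Agent.R259

variable {n : ℕ}

/-- coefficient of `𝔥_j(x)_β` in the component `α` of `B_l - C_l` -/
noncomputable def fzhA (X : HierData n) (t : ℝ) (H : Fin n → Mx n) (y0 : EE n) (l : ℕ)
    (α : Idx n (l + 1)) (j : ℕ) (β : Idx n j) : ℝ :=
  Real.exp (-t) * Real.sqrt (2 * t) ^ j / (j.factorial : ℝ)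
    * (tailAt (frz_lvl l j) (X.T (l + j) y0) β - slot 0 (hpr H j β) (X.T l y0)) α

theorem fzh_eqns_cite : True := by
  have := @fzhA.eq_1
  trivial

theorem fzh_comp (X : HierData n) (t : ℝ) (m : ℕ) (H : Fin n → Mx n) (y0 x : EE n) (l : ℕ)
    (α : Idx n (l + 1)) :
    (X.hSum t m l y0 x - slot 0 (fzW H t m x) (X.T l y0)) α
      = ∑ j ∈ Finset.range (m + 1), ∑ β, fzhA X t H y0 l α j β * hm j x β := by
  unfold HierData.hSum fzW fzG fzhA
  simp only [slot_smul_left, slot_sum_left, PiLp.sub_apply, PiLp.smul_apply, smul_eq_mul,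
    WithLp.ofLp_sum, Finset.sum_apply, Finset.mul_sum, ← Finset.sum_sub_distrib]
  refine Finset.sum_congr rfl fun j _ => ?_
  unfold ctr tailAt
  simp only [Finset.mul_sum, ← Finset.sum_sub_distrib]
  refine Finset.sum_congr rfl fun β _ => ?_
  ring

theorem fzh_memLp (m : ℕ) (a : (j : ℕ) → Idx n j → ℝ) :
    MemLp (fun x : EE n => ∑ j ∈ Finset.range (m + 1), ∑ β, a j β * hm j x β) 2
      (stdGaussian (EE n)) :=
  memLp_finsetSum _ fun j _ => memLp_finsetSum _ fun β _ => (hm_memLp j β 2).const_mul _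

theorem fzh_norm_sq (X : HierData n) (t : ℝ) (m : ℕ) (H : Fin n → Mx n) (y0 x : EE n) (l : ℕ) :
    ‖X.hSum t m l y0 x - slot 0 (fzW H t m x) (X.T l y0)‖ ^ 2
      = ∑ α, (∑ j ∈ Finset.range (m + 1), ∑ β, fzhA X t H y0 l α j β * hm j x β) ^ 2 := by
  rw [s6t_norm_sq]
  exact Finset.sum_congr rfl fun α _ => by rw [fzh_comp]

theorem fzh_int (X : HierData n) (t : ℝ) (m : ℕ) (H : Fin n → Mx n) (y0 : EE n) (l : ℕ) :
    Integrable (fun x => ‖X.hSum t m l y0 x - slot 0 (fzW H t m x) (X.T l y0)‖ ^ 2)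
      (stdGaussian (EE n)) := by
  simp only [fzh_norm_sq]
  exact integrable_finsetSum _ fun α _ => (fzh_memLp m _).integrable_sq

theorem fzh_le (X : HierData n) (t : ℝ) (m : ℕ) (H : Fin n → Mx n) (y0 : EE n) (l : ℕ) :
    ∫ x, ‖X.hSum t m l y0 x - slot 0 (fzW H t m x) (X.T l y0)‖ ^ 2 ∂(stdGaussian (EE n))
      ≤ ∑ j ∈ Finset.range (m + 1),
          (Real.exp (-t) * Real.sqrt (2 * t) ^ j / (j.factorial : ℝ)) ^ 2 * (j.factorial : ℝ)
            * ∑ β : Idx n j,
              ‖tailAt (frz_lvl l j) (X.T (l + j) y0) β - slot 0 (hpr H j β) (X.T l y0)‖ ^ 2 := by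
  simp only [fzh_norm_sq]
  rw [integral_finsetSum _ fun α _ => (fzh_memLp m _).integrable_sq]
  refine (Finset.sum_le_sum fun α _ => hm_upper m (fzhA X t H y0 l α)).trans (le_of_eq ?_)
  rw [Finset.sum_comm]
  refine Finset.sum_congr rfl fun j _ => ?_
  simp only [s6t_norm_sq, Finset.mul_sum]
  rw [Finset.sum_comm]
  refine Finset.sum_congr rfl fun β _ => Finset.sum_congr rfl fun α _ => ?_
  unfold fzhA
  ring

theorem frz_herm (X : HierData n) (k : ℕ) (t : ℝ) (m : ℕ) (H : Fin n → Mx n) (y0 : EE n) :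
    Integrable (fun x => X.sBC k t m H y0 x) (stdGaussian (EE n)) ∧
      ∫ x, X.sBC k t m H y0 x ∂(stdGaussian (EE n))
        ≤ ∑ j ∈ Finset.range (m + 1),
            (Real.exp (-t) * Real.sqrt (2 * t) ^ j / (j.factorial : ℝ)) ^ 2 * (j.factorial : ℝ)
              * X.itE k j H y0 := by
  unfold HierData.sBC HierData.itE
  refine ⟨(integrable_finsetSum _ fun l _ => fzh_int X t m H y0 l).const_mul _, ?_⟩
  rw [integral_const_mul, integral_finsetSum _ fun l _ => fzh_int X t m H y0 l]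
  refine (mul_le_mul_of_nonneg_left (Finset.sum_le_sum fun l _ => fzh_le X t m H y0 l)
    (s6b_nrm_nonneg X k)).trans (le_of_eq ?_)
  rw [Finset.sum_comm, Finset.mul_sum]
  refine Finset.sum_congr rfl fun j _ => ?_
  rw [← Finset.mul_sum]
  ring

end Claimed.Agent.R259
end

/- ===== packed: Claimed.Agent.R259.S6FrzLeaves ===== -/
section
/-
Row 259 (S0499), Proposition 6.8 of the paper: the LEAVES of the blueprint `S6Frz.lean` (statements: helper88), one file per leaf:
L-frz-met (S6FrzMet), L-frz-band (S6FrzBand), L-frz-one (S6FrzOne), L-frz-iter (S6FrzIter), L-frz-herm (S6FrzHerm),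
L-frz-root (S6FrzRoot), L-frz-pair (S6FrzPair), L-frz-meas (S6FrzMeas).  This file only collects them.
-/

end

/- ===== packed: Claimed.Agent.R259.S6FrzCore ===== -/
section
/-
Row 259 (S0499), Proposition 6.8 of the paper: GLUE, part 1 (integrated estimates on a coupling).
Owner: helper88.
-/
set_option autoImplicit false

open MeasureTheory ProbabilityTheory
open scoped ContDiff BigOperators Matrix
open Claimed.Agent.R260 (Mx mxFun mxSchur mxSq mxIP mxEig mxU mxRot MxL2 MxBd)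

namespace Claimed.Agent.R259

variable {n : ℕ}

theorem frz_actD_nonneg (X : HierData n) (k : ℕ) (h : ℝ) (H : EE n × ℝ → Fin n → Mx n) :
    0 ≤ X.actD k h H := by
  unfold HierData.actD
  refine mul_nonneg (s6b_nrm_nonneg X k) (Finset.sum_nonneg fun l _ => Finset.sum_nonneg fun i _ =>
    integral_nonneg fun p => by positivity)

/-- the error budget of the one step replacement -/
noncomputable def frzE (X : HierData n) (k : ℕ) (h δ : ℝ) (H : EE n × ℝ → Fin n → Mx n) (a : ℕ) : ℝ :=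
  2 * δ + 2 * X.actD k h H + 10 * (1 + δ) * a / k

theorem frzE_nonneg (X : HierData n) (k : ℕ) (h : ℝ) {δ : ℝ} (hδ : 0 ≤ δ)
    (H : EE n × ℝ → Fin n → Mx n) (a : ℕ) : 0 ≤ frzE X k h δ H a := by
  unfold frzE
  have := frz_actD_nonneg X k h H
  positivity

theorem frzE_mono (X : HierData n) (k : ℕ) (h : ℝ) {δ : ℝ} (hδ : 0 ≤ δ)
    (H : EE n × ℝ → Fin n → Mx n) {a b : ℕ} (hab : a ≤ b) : frzE X k h δ H a ≤ frzE X k h δ H b := by
  unfold frzE
  have h1 : (a : ℝ) ≤ b := by exact_mod_cast hab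
  have h2 : 10 * (1 + δ) * (a : ℝ) / k ≤ 10 * (1 + δ) * (b : ℝ) / k := by
    apply div_le_div_of_nonneg_right _ (Nat.cast_nonneg k)
    exact mul_le_mul_of_nonneg_left h1 (by positivity)
  linarith

/-- iteration of the one step replacement (integrated) -/
theorem frz_iter (X : HierData n) {k : ℕ} {δ h : ℝ} (hk : 0 < k) (hδ : 0 ≤ δ)
    (hX : X.Small (3 * k) δ) (hh : 0 < h) {H : EE n × ℝ → Fin n → Mx n} (hH : HierData.ColOK H)
    (j : ℕ) (hj : j + 1 ≤ k) :
    Integrable (fun p => X.itE k j (H p) p.1) (X.Qm h) ∧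
      ∫ p, X.itE k j (H p) p.1 ∂(X.Qm h) ≤ ((8 : ℝ) ^ j - 1) * frzE X k h δ H j := by
  induction j with
  | zero =>
    simp only [frz_itE_zero]
    simp
  | succ j ih =>
    obtain ⟨i1, b1⟩ := ih (by omega)
    obtain ⟨i2, b2⟩ := frz_one X hk (a := j) (by omega) hδ hX hh hH
    have iU : Integrable (fun p => 2 * X.oneE k j (H p) p.1 + 8 * X.itE k j (H p) p.1) (X.Qm h) :=
      (i2.const_mul 2).add (i1.const_mul 8)
    have hle : ∀ p : EE n × ℝ, X.itE k (j + 1) (H p) p.1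
        ≤ 2 * X.oneE k j (H p) p.1 + 8 * X.itE k j (H p) p.1 :=
      fun p => frz_iter_pt X k j (s6i_ColB hH p) p.1
    have i3 : Integrable (fun p => X.itE k (j + 1) (H p) p.1) (X.Qm h) := by
      refine iU.mono' (frz_itE_meas X k (j + 1) hH).aestronglyMeasurable
        (Filter.Eventually.of_forall fun p => ?_)
      rw [Real.norm_eq_abs, abs_of_nonneg (frz_itE_nonneg X k (j + 1) (H p) p.1)]
      exact hle p
    refine ⟨i3, ?_⟩
    have h1 : ∫ p, X.itE k (j + 1) (H p) p.1 ∂(X.Qm h)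
        ≤ 2 * ∫ p, X.oneE k j (H p) p.1 ∂(X.Qm h) + 8 * ∫ p, X.itE k j (H p) p.1 ∂(X.Qm h) := by
      rw [← integral_const_mul, ← integral_const_mul,
        ← integral_add (i2.const_mul 2) (i1.const_mul 8)]
      exact integral_mono i3 iU hle
    have hE0 := frzE_nonneg X k h hδ H j
    have hE1 := frzE_mono X k h hδ H (Nat.le_succ j)
    have b2' : ∫ p, X.oneE k j (H p) p.1 ∂(X.Qm h) ≤ frzE X k h δ H j := b2
    have h8 : (1 : ℝ) ≤ 8 ^ j := one_le_pow₀ (by norm_num)
    have h2 : 2 * frzE X k h δ H j + 8 * (((8 : ℝ) ^ j - 1) * frzE X k h δ H j)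
        ≤ ((8 : ℝ) ^ (j + 1) - 1) * frzE X k h δ H (j + 1) := by
      have h3 : 2 * frzE X k h δ H j + 8 * (((8 : ℝ) ^ j - 1) * frzE X k h δ H j)
          = ((8 : ℝ) ^ (j + 1) - 6) * frzE X k h δ H j := by ring
      rw [h3]
      have h4 : (0 : ℝ) ≤ 8 ^ (j + 1) - 6 := by
        have : (8 : ℝ) ^ (j + 1) = 8 * 8 ^ j := by ring
        linarith
      calc ((8 : ℝ) ^ (j + 1) - 6) * frzE X k h δ H j
          ≤ ((8 : ℝ) ^ (j + 1) - 6) * frzE X k h δ H (j + 1) := mul_le_mul_of_nonneg_left hE1 h4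
        _ ≤ ((8 : ℝ) ^ (j + 1) - 1) * frzE X k h δ H (j + 1) :=
            mul_le_mul_of_nonneg_right (by linarith) (frzE_nonneg X k h hδ H (j + 1))
    linarith

/-- the constant `K_m = ∑_{j ≤ m} (e^{-t} (2t)^{j/2}/j!)² j! 8^j` -/
noncomputable def frzK (t : ℝ) (m : ℕ) : ℝ :=
  ∑ j ∈ Finset.range (m + 1),
    (Real.exp (-t) * Real.sqrt (2 * t) ^ j / (j.factorial : ℝ)) ^ 2 * (j.factorial : ℝ) * 8 ^ j

theorem frzK_nonneg (t : ℝ) (m : ℕ) : 0 ≤ frzK t m :=
  Finset.sum_nonneg fun j _ => by positivity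

section coup

variable {X : HierData n} {h : ℝ} (c : FrzCoup X h) (B : BlockModel n (X.Qm h))

theorem BlockModel.colOK : HierData.ColOK B.H := ⟨B.H_meas, B.H_symm, B.col⟩

/-- distance `B`-`C` on the coupling -/
theorem frz_BC {k : ℕ} {δ : ℝ} (hk : 0 < k) (hδ : 0 ≤ δ) (hX : X.Small (3 * k) δ) (hh : 0 < h)
    (t : ℝ) (m : ℕ) (hm : m + 1 ≤ k) :
    Integrable (fun o => X.sBC k t m (B.H (c.Dt o)) (c.Dt o).1 (c.N o)) c.P ∧
      ∫ o, X.sBC k t m (B.H (c.Dt o)) (c.Dt o).1 (c.N o) ∂c.P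
        ≤ frzK t m * frzE X k h δ B.H m := by
  have hOK := B.colOK
  set a : ℕ → ℝ := fun j =>
    (Real.exp (-t) * Real.sqrt (2 * t) ^ j / (j.factorial : ℝ)) ^ 2 * (j.factorial : ℝ) with ha
  have ha0 : ∀ j, 0 ≤ a j := fun j => by positivity
  have hGi : ∀ j ∈ Finset.range (m + 1),
      Integrable (fun d : EE n × ℝ => a j * X.itE k j (B.H d) d.1) (X.Qm h) := fun j hj =>
    ((frz_iter X hk hδ hX hh hOK j (by have := Finset.mem_range.1 hj; omega)).1).const_mul _
  have hG : Integrable (fun d : EE n × ℝ =>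
      ∑ j ∈ Finset.range (m + 1), a j * X.itE k j (B.H d) d.1) (X.Qm h) :=
    integrable_finsetSum _ hGi
  obtain ⟨p1, p2, p3⟩ := c.pair (g := fun z => X.sBC k t m (B.H z.1) z.1.1 z.2)
    (frz_meas_BC B k t m)
    (fun z => mul_nonneg (s6b_nrm_nonneg X k) (Finset.sum_nonneg fun l _ => by positivity))
    (fun d => (frz_herm X k t m (B.H d) d.1).1) hG
    (fun d => (frz_herm X k t m (B.H d) d.1).2)
  refine ⟨p1, ?_⟩
  rw [p3]
  have h1 : ∫ d, ∫ x, X.sBC k t m (B.H d) d.1 x ∂(stdGaussian (EE n)) ∂(X.Qm h)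
      ≤ ∫ d, ∑ j ∈ Finset.range (m + 1), a j * X.itE k j (B.H d) d.1 ∂(X.Qm h) :=
    integral_mono p2 hG fun d => (frz_herm X k t m (B.H d) d.1).2
  refine h1.trans ?_
  rw [integral_finsetSum _ hGi]
  unfold frzK
  rw [Finset.sum_mul]
  refine Finset.sum_le_sum fun j hj => ?_
  have hj' : j ≤ m := by have := Finset.mem_range.1 hj; omega
  rw [integral_const_mul]
  have h2 := (frz_iter X hk hδ hX hh hOK j (by omega)).2
  have h3 : ((8 : ℝ) ^ j - 1) * frzE X k h δ B.H j ≤ 8 ^ j * frzE X k h δ B.H m := by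
    have h8 : (1 : ℝ) ≤ 8 ^ j := one_le_pow₀ (by norm_num)
    calc ((8 : ℝ) ^ j - 1) * frzE X k h δ B.H j ≤ 8 ^ j * frzE X k h δ B.H j :=
          mul_le_mul_of_nonneg_right (by linarith) (frzE_nonneg X k h hδ B.H j)
      _ ≤ 8 ^ j * frzE X k h δ B.H m :=
          mul_le_mul_of_nonneg_left (frzE_mono X k h hδ B.H hj') (by positivity)
  calc a j * ∫ d, X.itE k j (B.H d) d.1 ∂(X.Qm h)
      ≤ a j * (8 ^ j * frzE X k h δ B.H m) := mul_le_mul_of_nonneg_left (h2.trans h3) (ha0 j)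
    _ = _ := by rw [ha]; ring

/-- distance `C`-`D` on the coupling (weight `R_*`) -/
theorem frz_CD {t : ℝ} (ht : 0 ≤ t) (m : ℕ) :
    Integrable (fun o => mxSq ((fzW (B.H (c.Dt o)) t m (c.N o) - fzM (B.H (c.Dt o)) t (c.N o))
        * B.Rs (c.Dt o))) c.P ∧
      ∫ o, mxSq ((fzW (B.H (c.Dt o)) t m (c.N o) - fzM (B.H (c.Dt o)) t (c.N o))
        * B.Rs (c.Dt o)) ∂c.P
        = ∫ d, ∫ x, mxSq ((fzW (B.H d) t m x - fzM (B.H d) t x) * B.Rs d) ∂(gam n) ∂(X.Qm h) := by
  obtain ⟨C, hC, HC⟩ := fz_point ht m 1 one_pos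
  have hG : Integrable (fun d => (1 - fzP t m + 1) * mxSq (B.Rs d)
      + C * (fzS (B.H d) (B.Rs d) + fzC (B.H d) (B.Rs d))) (X.Qm h) :=
    (B.Rs_int.const_mul _).add ((B.fzS_integrable.add B.fzC_integrable).const_mul _)
  have hx : ∀ d : EE n × ℝ, Integrable (fun x => mxSq ((fzW (B.H d) t m x - fzM (B.H d) t x)
      * B.Rs d)) (stdGaussian (EE n)) := by
    intro d
    have h1 : MxL2 (stdGaussian (EE n)) (fun x => fzW (B.H d) t m x - fzM (B.H d) t x) :=
      (fz_W_L2 (B.H d) t m).sub (fz_M_L2 (B.H_symm d) t)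
    have h2 : MxL2 (stdGaussian (EE n))
        (fun x => (fzW (B.H d) t m x - fzM (B.H d) t x) * B.Rs d) :=
      h1.mul_Bd (MxBd.const (B.Rs d))
    exact h2.integrable_mxSq
  have hle : ∀ d : EE n × ℝ, ∫ x, mxSq ((fzW (B.H d) t m x - fzM (B.H d) t x) * B.Rs d)
      ∂(stdGaussian (EE n)) ≤ (1 - fzP t m + 1) * mxSq (B.Rs d)
      + C * (fzS (B.H d) (B.Rs d) + fzC (B.H d) (B.Rs d)) := fun d => HC n _ _ (B.fzCol d)
  obtain ⟨p1, -, p3⟩ := FrzCoup.pair c
    (g := fun z => mxSq ((fzW (B.H z.1) t m z.2 - fzM (B.H z.1) t z.2) * B.Rs z.1))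
    (frz_meas_CD B t m) (fun z => Claimed.Agent.R260.mxSq_nonneg _) hx hG hle
  refine ⟨p1, ?_⟩
  rw [p3, gam_eq_std]

/-- the mass of `M R_*` on the coupling -/
theorem frz_M {t : ℝ} (ht : 0 ≤ t) : ∃ C : ℝ, 0 ≤ C ∧ ∀ (n : ℕ) (X : HierData n) (h : ℝ)
    (c : FrzCoup X h) (B : BlockModel n (X.Qm h)),
    Integrable (fun o => mxSq (fzM (B.H (c.Dt o)) t (c.N o) * B.Rs (c.Dt o))) c.P ∧
      ∫ o, mxSq (fzM (B.H (c.Dt o)) t (c.N o) * B.Rs (c.Dt o)) ∂c.P
        ≤ 2 * B.tau (fun _ => 1)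
          + C * B.tau (fun d => (colS (B.H d) - 1) * (colS (B.H d) - 1)) := by
  obtain ⟨C, hC, HC⟩ := fz_normM ht 1 one_pos
  refine ⟨C, hC, fun n X h c B => ?_⟩
  have j1 : Integrable (fun d => (1 + 1) * mxSq (B.Rs d)) (X.Qm h) := B.Rs_int.const_mul _
  have j2 : Integrable (fun d => C * fzS (B.H d) (B.Rs d)) (X.Qm h) :=
    B.fzS_integrable.const_mul _
  have hG : Integrable (fun d => (1 + 1) * mxSq (B.Rs d) + C * fzS (B.H d) (B.Rs d)) (X.Qm h) :=
    j1.add j2
  have hx : ∀ d : EE n × ℝ, Integrable (fun x => mxSq (fzM (B.H d) t x * B.Rs d))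
      (stdGaussian (EE n)) := by
    intro d
    have h2 : MxL2 (stdGaussian (EE n)) (fun x => fzM (B.H d) t x * B.Rs d) :=
      (fz_M_L2 (B.H_symm d) t).mul_Bd (MxBd.const (B.Rs d))
    exact h2.integrable_mxSq
  have hle : ∀ d : EE n × ℝ, ∫ x, mxSq (fzM (B.H d) t x * B.Rs d) ∂(stdGaussian (EE n))
      ≤ (1 + 1) * mxSq (B.Rs d) + C * fzS (B.H d) (B.Rs d) := fun d => HC n _ _ (B.fzCol d)
  obtain ⟨p1, p2, p3⟩ := FrzCoup.pair c
    (g := fun z => mxSq (fzM (B.H z.1) t z.2 * B.Rs z.1))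
    (frz_meas_M B t) (fun z => Claimed.Agent.R260.mxSq_nonneg _) hx hG hle
  refine ⟨p1, ?_⟩
  rw [p3]
  refine (integral_mono p2 hG hle).trans ?_
  rw [integral_add j1 j2, integral_const_mul, integral_const_mul, ← B.tau_one, ← B.tau_S]
  norm_num

end coup

end Claimed.Agent.R259
end

/- ===== packed: Claimed.Agent.R259.S6FrzPt ===== -/
section
/-
Row 259 (S0499), Proposition 6.8 of the paper: GLUE, part 2 (pointwise estimate on the coupling).
Owner: helper88.
-/
set_option autoImplicit false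

open MeasureTheory ProbabilityTheory
open scoped ContDiff BigOperators Matrix
open Claimed.Agent.R260 (Mx mxFun mxSchur mxSq mxIP mxEig mxU mxRot MxL2 MxBd)

namespace Claimed.Agent.R259

variable {n : ℕ}

theorem frz_norm3 {V : Type} [NormedAddCommGroup V] (a b c d : V) :
    ‖a - d‖ ^ 2 ≤ 3 * (‖a - b‖ ^ 2 + ‖b - c‖ ^ 2 + ‖c - d‖ ^ 2) := by
  have h1 : ‖a - d‖ ≤ ‖a - b‖ + ‖b - c‖ + ‖c - d‖ := by
    have e : a - d = (a - b) + (b - c) + (c - d) := by abel
    rw [e]
    exact (norm_add_le _ _).trans (add_le_add_left (norm_add_le _ _) _)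
  have h0 := norm_nonneg (a - d)
  have hx := norm_nonneg (a - b)
  have hy := norm_nonneg (b - c)
  have hz := norm_nonneg (c - d)
  have h2 : ‖a - d‖ ^ 2 ≤ (‖a - b‖ + ‖b - c‖ + ‖c - d‖) ^ 2 := pow_le_pow_left₀ h0 h1 2
  nlinarith [sq_nonneg (‖a - b‖ - ‖b - c‖), sq_nonneg (‖b - c‖ - ‖c - d‖),
    sq_nonneg (‖a - b‖ - ‖c - d‖)]

/-- triangle inequality for the four band families -/
theorem frz_tri (X : HierData n) (k : ℕ) (t : ℝ) (m : ℕ) (H : Fin n → Mx n) (y0 x yt : EE n) :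
    X.sAD k (fzM H t x) y0 yt
      ≤ 3 * (X.sAB k t m y0 x yt + X.sBC k t m H y0 x
        + mxSq ((fzW H t m x - fzM H t x) * X.R k y0)) := by
  rw [← s6b_band_sq]
  unfold HierData.sAD HierData.sAB HierData.sBC
  rw [← mul_add, ← mul_add, ← Finset.sum_add_distrib, ← Finset.sum_add_distrib, ← mul_assoc,
    mul_comm 3 (X.nrm k), mul_assoc]
  refine mul_le_mul_of_nonneg_left ?_ (s6b_nrm_nonneg X k)
  rw [Finset.mul_sum]
  refine Finset.sum_le_sum fun l _ => ?_
  rw [slot_sub_left]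
  exact frz_norm3 _ _ _ _

/-- the pointwise estimate of `‖R(Y_t) - σ^{1/2}‖²` -/
theorem frz_close_pt {X : HierData n} {h : ℝ} (hh : 0 < h) (k : ℕ) (B : BlockModel n (X.Qm h))
    (hRs : B.Rs = X.Rs k h) (t : ℝ) (m : ℕ) (d : EE n × ℝ) (x yt : EE n) :
    mxSq (X.R k yt - B.sigHalf t d x)
      ≤ 12 * X.sAB k t m d.1 x yt + 12 * X.sBC k t m (B.H d) d.1 x
        + 12 * Real.exp (2 * h) * mxSq ((fzW (B.H d) t m x - fzM (B.H d) t x) * B.Rs d)
        + 4 * (Real.exp h - 1) ^ 2 * mxSq (fzM (B.H d) t x * B.Rs d) := by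
  have hRsd : B.Rs d = X.Rs k h d := by rw [hRs]
  have hM : (fzM (B.H d) t x).PosSemidef :=
    Claimed.Agent.R260.mxFun_posSemidef fun i => (Real.exp_pos _).le
  have hc : fzM (B.H d) t x * X.Rs k h d = X.Rs k h d * fzM (B.H d) t x := by
    rw [← hRsd]
    exact (B.fzCol d).comm_fun _ x
  have h1 := frz_root X k hh d yt hM hc
  have h2 := frz_tri X k t m (B.H d) d.1 x yt
  have h3 := (s6m_weight X k hh (fzW (B.H d) t m x - fzM (B.H d) t x) d).2
  have e : B.sigHalf t d x = X.Rs k h d * fzM (B.H d) t x := by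
    rw [← hRsd]
    rfl
  rw [e, hRsd]
  nlinarith

/-- the integrated estimate of `E‖R(Y_t) - σ^{1/2}‖²` -/
theorem frz_close {X : HierData n} {h : ℝ} (hh : 0 < h) {k : ℕ} (hk : 0 < k) {δ : ℝ} (hδ : 0 ≤ δ)
    (hX : X.Small (3 * k) δ) (B : BlockModel n (X.Qm h)) (hRs : B.Rs = X.Rs k h) {t : ℝ}
    (ht : 0 ≤ t) (m : ℕ) (hm : m + 1 ≤ k) (c : FrzCoup X h)
    (hI : Integrable (fun o => X.sAB k t m (c.Dt o).1 (c.N o) (c.Yt o)) c.P)
    (hMI : Integrable (fun o => mxSq (fzM (B.H (c.Dt o)) t (c.N o) * B.Rs (c.Dt o))) c.P) :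
    ∫ o, mxSq (X.R k (c.Yt o) - B.sigHalf t (c.Dt o) (c.N o)) ∂c.P
      ≤ 12 * ∫ o, X.sAB k t m (c.Dt o).1 (c.N o) (c.Yt o) ∂c.P
        + 12 * (frzK t m * frzE X k h δ B.H m)
        + 12 * Real.exp (2 * h) * ∫ d, ∫ x,
            mxSq ((fzW (B.H d) t m x - fzM (B.H d) t x) * B.Rs d) ∂(gam n) ∂(X.Qm h)
        + 4 * (Real.exp h - 1) ^ 2
          * ∫ o, mxSq (fzM (B.H (c.Dt o)) t (c.N o) * B.Rs (c.Dt o)) ∂c.P := by
  obtain ⟨iBC, bBC⟩ := frz_BC c B hk hδ hX hh t m hm
  obtain ⟨iCD, eCD⟩ := frz_CD c B ht m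
  have u1 : Integrable (fun o => 12 * X.sAB k t m (c.Dt o).1 (c.N o) (c.Yt o)) c.P :=
    hI.const_mul _
  have u2 : Integrable (fun o => 12 * X.sBC k t m (B.H (c.Dt o)) (c.Dt o).1 (c.N o)) c.P :=
    iBC.const_mul _
  have u3 : Integrable (fun o => 12 * Real.exp (2 * h)
      * mxSq ((fzW (B.H (c.Dt o)) t m (c.N o) - fzM (B.H (c.Dt o)) t (c.N o)) * B.Rs (c.Dt o)))
      c.P := iCD.const_mul _
  have u4 : Integrable (fun o => 4 * (Real.exp h - 1) ^ 2
      * mxSq (fzM (B.H (c.Dt o)) t (c.N o) * B.Rs (c.Dt o))) c.P := hMI.const_mul _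
  have u12 := u1.add u2
  have u123 := u12.add u3
  have hU := u123.add u4
  have h1 := integral_mono_of_nonneg
    (Filter.Eventually.of_forall fun o => Claimed.Agent.R260.mxSq_nonneg
      (X.R k (c.Yt o) - B.sigHalf t (c.Dt o) (c.N o))) hU
    (Filter.Eventually.of_forall fun o =>
      frz_close_pt hh k B hRs t m (c.Dt o) (c.N o) (c.Yt o))
  refine h1.trans ?_
  have e1 := integral_add u123 u4
  have e2 := integral_add u12 u3
  have e3 := integral_add u1 u2
  simp only [Pi.add_apply] at e1 e2 e3 ⊢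
  rw [e1, e2, e3, integral_const_mul, integral_const_mul, integral_const_mul, integral_const_mul,
    eCD]
  linarith

end Claimed.Agent.R259
end

/- ===== packed: Claimed.Agent.R259.S6Frz ===== -/
section
/-
Row 259 (S0499), Proposition 6.8 of the paper (the frozen diffusion law).
EXPORT FILE of package BP-S6-frozen.  Owner: helper88.  GLUE (choice of the parameters) of
`s6_model`, `s6e_main` (package EXP), `frz_met` (Lemma 5.5 on the band), `frz_close`.

Order of choices: `t, ε` -> `m` (degree of the Hermite sum) -> defect of the block model -> `k₀` -> `k` -> `h` -> `δ`.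
-/
set_option autoImplicit false

open MeasureTheory ProbabilityTheory
open scoped ContDiff BigOperators Matrix
open Claimed.Agent.R260 (Mx mxFun mxSchur mxSq mxIP mxEig mxU mxRot)

namespace Claimed.Agent.R259

variable {n : ℕ}

theorem BlockModel.Small.frz_mono {D : Type} [MeasurableSpace D] {Q : Measure D} {B : BlockModel n Q}
    {ε ε' : ℝ} (h : B.Small ε) (he : ε ≤ ε') : B.Small ε' :=
  ⟨h.mass.trans he, h.sdef.trans he, h.cdef.trans he, h.xdef.trans he⟩

/-- the remainder of the Hermite expansion is small for a suitable large degree -/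
theorem frz_tail (t : ℝ) (ht : 0 ≤ t) : ∀ β : ℝ, 0 < β → ∀ m₀ : ℕ, ∃ m : ℕ, m₀ ≤ m ∧
    Real.sqrt ((2 * t) ^ (m + 1) / ((m + 1).factorial : ℝ)) * Real.sqrt 2 ≤ β := by
  intro β hβ m₀
  have h1 := FloorSemiring.tendsto_pow_div_factorial_atTop (2 * t)
  have h2 : ∀ᶠ j : ℕ in Filter.atTop, (2 * t) ^ j / (j.factorial : ℝ) < β ^ 2 / 2 :=
    h1.eventually (gt_mem_nhds (by positivity))
  obtain ⟨j₀, hj₀⟩ := Filter.eventually_atTop.1 h2
  refine ⟨max m₀ j₀, le_max_left _ _, ?_⟩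
  have h3 := hj₀ (max m₀ j₀ + 1) ((le_max_right _ _).trans (Nat.le_succ _))
  rw [← Real.sqrt_mul (by positivity)]
  apply Real.sqrt_le_iff.2
  exact ⟨hβ.le, by linarith⟩

/-- numerical lemma for the comparison of `R` and `R_*` -/
theorem frz_num4 {h r CM I : ℝ} (hh : 0 < h) (hh1 : h ≤ 1) (hr : h ≤ r) (hI0 : 0 ≤ I)
    (hI : I ≤ 4 + CM) (hCM : 0 ≤ CM) : (Real.exp h - 1) ^ 2 * I ≤ 4 * r * (4 + CM) := by
  have h1 : |Real.exp h - 1| ≤ 2 * |h| :=
    Real.abs_exp_sub_one_le (by rw [abs_of_pos hh]; exact hh1)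
  rw [abs_of_pos hh] at h1
  have h3 : (Real.exp h - 1) ^ 2 ≤ (2 * h) ^ 2 :=
    sq_le_sq' (by linarith [(abs_le.1 h1).1]) (abs_le.1 h1).2
  have h4 : (2 * h) ^ 2 ≤ 4 * r := by
    have : h * h ≤ 1 * r := mul_le_mul hh1 hr hh.le (by norm_num)
    nlinarith
  exact mul_le_mul (h3.trans h4) hI hI0 (by linarith)

/-- numerical lemma: `x/(x+1) y ≤ y` -/
theorem frz_num_frac {x y : ℝ} (hx : 0 ≤ x) (hy : 0 ≤ y) : x / (x + 1) * y ≤ y := by
  have h6 : x / (x + 1) ≤ 1 := by
    rw [div_le_one (by positivity)]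
    linarith
  calc x / (x + 1) * y ≤ 1 * y := mul_le_mul_of_nonneg_right h6 hy
    _ = y := one_mul _

/-- the Hermite expansion on the band under `Small` -/
theorem frz_term1 (X : HierData n) {k m : ℕ} {δ β C T I : ℝ} (hk0 : 0 < k) (hkm : m + 2 ≤ k)
    (hX : X.Small (3 * k) δ) (hδ2 : δ ≤ 1) (hβ : 0 < β) (hC : 0 ≤ C)
    (hδ5 : δ ≤ (β / (6 * (C + 1) * (m + 1))) ^ 2) (hT0 : 0 ≤ T) (htail : T * Real.sqrt 2 ≤ β / 3)
    (hcB : Real.sqrt I ≤ C * ∑ j ∈ Finset.range (m + 1),
        (Real.sqrt (X.bandA k j) + Real.sqrt (X.bandD k j))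
      + T * Real.sqrt (X.bandN k (m + 1)) + β / 3) : I ≤ β ^ 2 := by
  have hsδ : Real.sqrt δ ≤ β / (6 * (C + 1) * (m + 1)) := by
    apply Real.sqrt_le_iff.2
    exact ⟨by positivity, hδ5⟩
  have hsum : ∑ j ∈ Finset.range (m + 1),
      (Real.sqrt (X.bandA k j) + Real.sqrt (X.bandD k j))
      ≤ ((m : ℝ) + 1) * (2 * Real.sqrt δ) := by
    have h1 : ∀ j ∈ Finset.range (m + 1),
        Real.sqrt (X.bandA k j) + Real.sqrt (X.bandD k j) ≤ 2 * Real.sqrt δ := by
      intro j hj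
      have hj' := Finset.mem_range.1 hj
      obtain ⟨a1, a2, -⟩ := frz_band X hk0 (j := j) (by omega) hX
      have := Real.sqrt_le_sqrt a1
      have := Real.sqrt_le_sqrt a2
      linarith
    have h2 := Finset.sum_le_sum h1
    rw [Finset.sum_const, Finset.card_range, nsmul_eq_mul] at h2
    push_cast at h2
    exact h2
  have hN : Real.sqrt (X.bandN k (m + 1)) ≤ Real.sqrt 2 := by
    apply Real.sqrt_le_sqrt
    have := (frz_band X hk0 (j := m + 1) (by omega) hX).2.2
    linarith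
  have hA : C * ∑ j ∈ Finset.range (m + 1),
      (Real.sqrt (X.bandA k j) + Real.sqrt (X.bandD k j)) ≤ β / 3 := by
    have h3 : C * ∑ j ∈ Finset.range (m + 1),
        (Real.sqrt (X.bandA k j) + Real.sqrt (X.bandD k j))
        ≤ C * (((m : ℝ) + 1) * (2 * (β / (6 * (C + 1) * (m + 1))))) := by
      apply mul_le_mul_of_nonneg_left _ hC
      refine hsum.trans ?_
      apply mul_le_mul_of_nonneg_left _ (by positivity)
      linarith
    have h4 : C * (((m : ℝ) + 1) * (2 * (β / (6 * (C + 1) * (m + 1)))))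
        = C / (C + 1) * (β / 3) := by
      field_simp
      ring
    exact (h3.trans h4.le).trans (frz_num_frac hC (by positivity))
  have hB' : T * Real.sqrt (X.bandN k (m + 1)) ≤ β / 3 :=
    (mul_le_mul_of_nonneg_left hN hT0).trans htail
  have h6 : Real.sqrt I ≤ β := by linarith
  exact (Real.sqrt_le_iff.1 h6).2

/-- the budget of the iteration -/
theorem frz_term2 {K q ε δ act : ℝ} {m k K2 : ℕ} (hK : 0 ≤ K) (hε : 0 < ε)
    (hqdef : q = ε / (144 * (K + 1))) (hδ0 : 0 ≤ δ) (hδ2 : δ ≤ 1) (hδ4 : δ ≤ q / 2)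
    (hact : act ≤ q / 2) (hK2 : 20 * (m : ℝ) / q < K2) (hkK2 : K2 + 1 ≤ k) :
    K * (2 * δ + 2 * act + 10 * (1 + δ) * (m : ℝ) / k) ≤ ε / 48 := by
  have hq : 0 < q := by rw [hqdef]; positivity
  have hk0' : (0 : ℝ) < k := by
    have : 0 < k := by omega
    exact_mod_cast this
  have h1 : 10 * (1 + δ) * (m : ℝ) / k ≤ q := by
    rw [div_le_iff₀ hk0']
    have h2 : 20 * (m : ℝ) / q < k := by
      have : (K2 : ℝ) < k := by exact_mod_cast hkK2
      linarith
    rw [div_lt_iff₀ hq] at h2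
    have hm0 : (0 : ℝ) ≤ m := Nat.cast_nonneg m
    have h3 : 10 * (1 + δ) * (m : ℝ) ≤ 20 * m := by nlinarith
    linarith
  have h3 : 2 * δ + 2 * act + 10 * (1 + δ) * (m : ℝ) / k ≤ 3 * q := by linarith
  have h5 : K * (3 * q) = K / (K + 1) * (ε / 48) := by
    rw [hqdef]
    field_simp
    ring
  exact (mul_le_mul_of_nonneg_left h3 hK).trans (h5.le.trans (frz_num_frac hK (by positivity)))

/-- BP-S6-FROZEN (Proposition 6.8). -/
theorem s6_frozen (hmet : MetGoal) : ∀ t : ℝ, 0 < t → ∀ ε : ℝ, 0 < ε → ∃ k₀ : ℕ, ∀ k : ℕ, k₀ ≤ k →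
    ∃ h : ℝ, 0 < h ∧ ∃ δ : ℝ, 0 < δ ∧
    ∀ (n : ℕ) (X : HierData n), X.Small (3 * k) δ → Nonempty (Frozen X k h t ε) := by
  intro t ht ε hε
  obtain ⟨CM, hCM, HM⟩ := frz_M ht.le
  set β : ℝ := Real.sqrt (ε / 48) with hβdef
  have hβ : 0 < β := Real.sqrt_pos.2 (by positivity)
  have hβ2 : β ^ 2 = ε / 48 := Real.sq_sqrt (by positivity)
  obtain ⟨m₀, Hm₀⟩ := s6e_main ht.le (ε / 384) (by positivity)
  obtain ⟨m, hm, htail⟩ := frz_tail t ht.le (β / 3) (by positivity) m₀
  obtain ⟨δE, hδE, HE⟩ := Hm₀ m hm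
  obtain ⟨C, hC, HC⟩ := frz_met hmet m ht
  have hK : 0 ≤ frzK t m := frzK_nonneg t m
  set K : ℝ := frzK t m with hKdef
  set q : ℝ := ε / (144 * (K + 1)) with hqdef
  have hq : 0 < q := by positivity
  set r : ℝ := ε / (64 * (4 + CM)) with hrdef
  have hr : 0 < r := by positivity
  set εM : ℝ := min (min ε δE) (min (min 1 r) (q / 2)) with hεMdef
  have hεM : 0 < εM := lt_min (lt_min hε hδE) (lt_min (lt_min one_pos hr) (by positivity))
  have hεM1 : εM ≤ ε := (min_le_left _ _).trans (min_le_left _ _)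
  have hεM2 : εM ≤ δE := (min_le_left _ _).trans (min_le_right _ _)
  have hεM3 : εM ≤ 1 := ((min_le_right _ _).trans (min_le_left _ _)).trans (min_le_left _ _)
  have hεM4 : εM ≤ r := ((min_le_right _ _).trans (min_le_left _ _)).trans (min_le_right _ _)
  have hεM5 : εM ≤ q / 2 := (min_le_right _ _).trans (min_le_right _ _)
  obtain ⟨k1, Hk1⟩ := s6_model εM hεM
  obtain ⟨K2, hK2⟩ := exists_nat_gt (20 * (m : ℝ) / q)
  refine ⟨max k1 (max (m + 2) (K2 + 1)), fun k hk => ?_⟩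
  have hkk1 : k1 ≤ k := (le_max_left _ _).trans hk
  have hkm : m + 2 ≤ k := ((le_max_left _ _).trans (le_max_right _ _)).trans hk
  have hkK2 : K2 + 1 ≤ k := ((le_max_right _ _).trans (le_max_right _ _)).trans hk
  have hk0 : 0 < k := by omega
  have hk0' : (0 : ℝ) < k := by exact_mod_cast hk0
  obtain ⟨h, hh, hhle, δM, hδM, HMod⟩ := Hk1 k hkk1
  set δ3 : ℝ := (β / (6 * (C + 1) * (m + 1))) ^ 2 with hδ3def
  have hδ3 : 0 < δ3 := by positivity
  set δ : ℝ := min δM (min (min 1 (q / 2)) δ3) with hδdef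
  have hδ : 0 < δ := lt_min hδM (lt_min (lt_min one_pos (by positivity)) hδ3)
  have hδ1 : δ ≤ δM := min_le_left _ _
  have hδ2 : δ ≤ 1 := ((min_le_right _ _).trans (min_le_left _ _)).trans (min_le_left _ _)
  have hδ4 : δ ≤ q / 2 := ((min_le_right _ _).trans (min_le_left _ _)).trans (min_le_right _ _)
  have hδ5 : δ ≤ δ3 := (min_le_right _ _).trans (min_le_right _ _)
  refine ⟨h, hh, δ, hδ, fun n X hX => ?_⟩
  obtain ⟨B, hRs, hBs, hact⟩ := HMod n X (s6c_small_mono hδ1 hX)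
  obtain ⟨c, hcI, hcB⟩ := HC n X k h hh (β / 3) (by positivity)
  obtain ⟨hMI, hMB⟩ := HM n X h c B
  have hclose := frz_close hh hk0 hδ.le hX B hRs ht.le m (by omega) c hcI hMI
  have := s6i_prob_Qm X hh
  -- term 1
  have t1 : ∫ o, X.sAB k t m (c.Dt o).1 (c.N o) (c.Yt o) ∂c.P ≤ β ^ 2 :=
    frz_term1 X hk0 hkm hX hδ2 hβ hC hδ5 (Real.sqrt_nonneg _) htail hcB
  -- term 2
  have t2 : K * frzE X k h δ B.H m ≤ ε / 48 :=
    frz_term2 hK hε hqdef hδ.le hδ2 hδ4 (hact.trans hεM5) hK2 hkK2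
  -- term 3
  have hh1 : h ≤ 1 := hhle.trans hεM3
  have t3 : Real.exp (2 * h) * ∫ d, ∫ x,
      mxSq ((fzW (B.H d) t m x - fzM (B.H d) t x) * B.Rs d) ∂(gam n) ∂(X.Qm h)
      ≤ 8 * (ε / 384) := by
    have h1 := HE n _ (X.Qm h) B (hBs.frz_mono hεM2)
    have h2 : 0 ≤ ∫ d, ∫ x,
        mxSq ((fzW (B.H d) t m x - fzM (B.H d) t x) * B.Rs d) ∂(gam n) ∂(X.Qm h) :=
      integral_nonneg fun d => integral_nonneg fun x => Claimed.Agent.R260.mxSq_nonneg _
    exact mul_le_mul (s6q_exp_le hh1) h1 h2 (by norm_num)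
  -- term 4
  have t4 : (Real.exp h - 1) ^ 2
      * ∫ o, mxSq (fzM (B.H (c.Dt o)) t (c.N o) * B.Rs (c.Dt o)) ∂c.P ≤ ε / 16 := by
    have hτ := (abs_le.1 hBs.mass).2
    have hs := hBs.sdef
    have h5 : ∫ o, mxSq (fzM (B.H (c.Dt o)) t (c.N o) * B.Rs (c.Dt o)) ∂c.P ≤ 4 + CM := by
      have h6 : CM * B.tau (fun d => (colS (B.H d) - 1) * (colS (B.H d) - 1)) ≤ CM * 1 :=
        mul_le_mul_of_nonneg_left (hs.trans hεM3) hCM
      linarith
    have h7 : 0 ≤ ∫ o, mxSq (fzM (B.H (c.Dt o)) t (c.N o) * B.Rs (c.Dt o)) ∂c.P :=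
      integral_nonneg fun o => Claimed.Agent.R260.mxSq_nonneg _
    refine (frz_num4 hh hh1 (hhle.trans hεM4) h7 h5 hCM).trans (le_of_eq ?_)
    rw [hrdef]
    field_simp
    ring
  refine ⟨{ B := B, small := hBs.frz_mono hεM1, Ω := c.Ω, mΩ := c.mΩ, P := c.P, prob := c.prob,
            Dt := c.Dt, N := c.N, Yt := c.Yt, Dt_meas := c.Dt_meas, N_meas := c.N_meas,
            Yt_meas := c.Yt_meas, law_Dt := c.law_Dt, law_N := c.law_N, law_Yt := c.law_Yt,
            indep := c.indep, close := ?_ }⟩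
  refine hclose.trans ?_
  have e3 : 12 * Real.exp (2 * h) * ∫ d, ∫ x,
      mxSq ((fzW (B.H d) t m x - fzM (B.H d) t x) * B.Rs d) ∂(gam n) ∂(X.Qm h)
      = 12 * (Real.exp (2 * h) * ∫ d, ∫ x,
      mxSq ((fzW (B.H d) t m x - fzM (B.H d) t x) * B.Rs d) ∂(gam n) ∂(X.Qm h)) := by ring
  have e4 : 4 * (Real.exp h - 1) ^ 2
      * ∫ o, mxSq (fzM (B.H (c.Dt o)) t (c.N o) * B.Rs (c.Dt o)) ∂c.P
      = 4 * ((Real.exp h - 1) ^ 2
      * ∫ o, mxSq (fzM (B.H (c.Dt o)) t (c.N o) * B.Rs (c.Dt o)) ∂c.P) := by ring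
  rw [e3, e4]
  linarith

end Claimed.Agent.R259
end

/- ===== packed: Claimed.Agent.R259.S6Main ===== -/
section
/-
Row 259 (S0499), section 6 of the paper: aggregator of the export files of the section.
Owner: helper88.  `S6Root` (s6_meas, s6_sat), `S6Col` (s6_trunc, s6_col), `S6Blk` (s6_block),
`S6Model` (s6_model), `S6Exp` (s6e_main), `S6Frz` (s6_frozen).
-/

end

/- ===== packed: Claimed.Agent.R259.S7False ===== -/
section
/-
Row 259 (S0499): the joint export of sections 6 and 7.  Owner: helper79.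
`s7_false` : for a suitable band length `k` and defect `ε` no hierarchy datum is `Small (3k) ε`.
PROVED from `s7_main` (S7Main), `s6_sat` (S6Root) and `s6_frozen` (S6Frz).
-/
set_option autoImplicit false

open MeasureTheory ProbabilityTheory

namespace Claimed.Agent.R259

/-- smallness of a hierarchy is monotone in the defect -/
theorem HierData.Small.mono {n : ℕ} {X : HierData n} {L : ℕ} {ε δ : ℝ} (h : X.Small L ε)
    (hε : ε ≤ δ) : X.Small L δ := by
  have hI : ε * X.I ≤ δ * X.I := mul_le_mul_of_nonneg_right hε X.I_pos.le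
  exact ⟨by linarith [h.lam_lo], by linarith [h.lam_hi], fun l hl => (h.norm l hl).trans hI,
    fun l hl => (h.eigen l hl).trans hI, fun l hl => (h.deriv l hl).trans hI,
    fun l hl => (h.curv l hl).trans hI, fun l hl => (h.meanM l hl).trans hI⟩

/-- EXPORT OF SECTIONS 6 + 7. -/
theorem s7_false (hmet : MetGoal) : ∃ (k : ℕ) (ε : ℝ), 0 < ε ∧
    ∀ (n : ℕ) (X : HierData n), ¬ X.Small (3 * k) ε := by
  obtain ⟨t, ht, ε, hε, hmain⟩ := s7_main
  obtain ⟨k1, hk1⟩ := s6_sat ε hε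
  obtain ⟨k2, hk2⟩ := s6_frozen hmet t ht ε hε
  set k := max k1 k2 with hk
  obtain ⟨δ1, hδ1, hsat⟩ := hk1 k (le_max_left _ _)
  obtain ⟨h, hh, δ2, hδ2, hfro⟩ := hk2 k (le_max_right _ _)
  refine ⟨k, min ε (min δ1 δ2), lt_min hε (lt_min hδ1 hδ2), ?_⟩
  intro n X hX
  have hXε : X.Small (3 * k) ε := hX.mono (min_le_left _ _)
  have hX1 : X.Small (3 * k) δ1 := hX.mono ((min_le_right _ _).trans (min_le_left _ _))
  have hX2 : X.Small (3 * k) δ2 := hX.mono ((min_le_right _ _).trans (min_le_right _ _))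
  obtain ⟨he, hc, -, -⟩ := hsat n X hX1
  have he' : X.eD k ≤ 1 + ε := by
    have := (abs_le.mp he).2
    linarith
  exact hmain n X k h hh hXε.lam_lo he' hc (hfro n X hX2)

end Claimed.Agent.R259
end

/- ===== packed: Claimed.Agent.R259.Top ===== -/
section
/-
Row 259 (S0499): THE TOP OF THE PROOF.  Owner: helper115 (captain).

  normal_main (Lemma 3.1, helper26)      no normalised law at small scale  ==>  frozen statement
  crit_exists (Propositions 3.8-3.9, helper83)   NormLaw  ==>  critical datum `Crit`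
  br_main     (section 4, helper220, + bridge)   Crit     ==>  `HiInput.Small`
  s5_hierarchy (Proposition 5.1, helper88)       HiInput.Small  ==>  `HierData.Small`
  s7_false    (sections 6-7, helper88, helper79) no `HierData.Small`
  met_goal    (kit MET = Lemma 5.5 for the Metropolis coupling, helper115)
-/
set_option autoImplicit false

open MeasureTheory

namespace Claimed.Agent.R259

/-- **The frozen statement S0499.** -/
theorem top_main : FrozenS0499 := by
  obtain ⟨k, ε, hε, h7⟩ := s7_false met_goal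
  obtain ⟨δ, hδ, h5⟩ := s5_hierarchy met_goal (3 * k) ε hε
  obtain ⟨ε4, hε4, h4⟩ := br_main δ hδ
  obtain ⟨a0, ha0, h3⟩ := crit_exists ε4 hε4
  refine normal_main (a0 := a0 / 2) (by positivity) ?_
  intro n μ a _ ha hN
  obtain ⟨η, w, hC⟩ := h3 (EE n) μ a hN (by linarith)
  obtain ⟨Z, hZ⟩ := h4 n μ a η w hC
  obtain ⟨X, hX⟩ := h5 n Z hZ
  exact h7 n X hX

end Claimed.Agent.R259
end
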