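/-
Row 259, kit POS: the averages `M(r) = (ρ_r * v)(x₀)` (package L-pos-avg).
Owner of the statements: helper204.
-/
import Claimed.Agent.R259.RegKer

set_option autoImplicit false
set_option linter.unusedSectionVars false

open MeasureTheory Filter Topology
open scoped ContDiff

namespace Claimed.Agent.R259

variable {E : Type} [NormedAddCommGroup E] [InnerProductSpace ℝ E] [FiniteDimensional ℝ E]
  [MeasurableSpace E] [BorelSpace E]

/-! ### package POS-AVG -/

theorem posav_rho_nonneg (z : E) : 0 ≤ regRho z := (reg_psi_nonneg z).trans (reg_psi_le_rho z)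

theorem posav_sq_of_not_mem {z : E} (hz : z ∉ Metric.closedBall (0 : E) 2) : 2 ≤ ‖z‖ ^ 2 := by
  have h1 : 2 < ‖z‖ := by
    simpa [Metric.mem_closedBall, dist_zero_right] using hz
  nlinarith

/-- Continuity in the scale down to `s = 0` for continuous `G` (dominated convergence). -/
theorem pos_avg_continuous {G : E → ℝ} (hG : Continuous G) (x : E) :
    Continuous (fun s => regAvg regRho G s x) := by
  have h1 : (fun s => regAvg regRho G s x)
      = fun s : ℝ => ∫ z in Metric.closedBall (0 : E) 2, G (x - s • z) • regRho z := by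
    funext s
    unfold regAvg
    rw [setIntegral_eq_integral_of_forall_compl_eq_zero]
    intro z hz
    rw [reg_rho_zero (posav_sq_of_not_mem hz), smul_zero]
  rw [h1]
  refine continuous_parametric_integral_of_continuous (f := fun (s : ℝ) (z : E) =>
    G (x - s • z) • regRho z) ?_ (isCompact_closedBall (0 : E) 2)
  have hρ : Continuous (regRho : E → ℝ) := reg_rho_test.1.continuous
  have h2 : Continuous fun p : ℝ × E => G (x - p.1 • p.2) :=
    hG.comp (continuous_const.sub (continuous_fst.smul continuous_snd))
  exact h2.smul (hρ.comp continuous_snd)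

/-- a continuous function times a compactly supported continuous kernel is integrable -/
theorem posav_integrable {w κ : E → ℝ} (hw : Continuous w) (hκ : IsTest κ) :
    Integrable (fun z => w z • κ z) volume :=
  (hw.smul hκ.1.continuous).integrable_of_hasCompactSupport hκ.2.smul_left

/-- Jensen for the probability measure `ρ(z) dz` (`ConcaveOn.le_map_integral`,
`Real.concaveOn_negMulLog`). -/
theorem pos_jensen {w : E → ℝ} (hw : Continuous w) (h0 : ∀ z, 0 ≤ w z) {lam : ℝ}
    (hlam : 0 ≤ lam) (C : ℝ) :
    ∫ z, (lam * Real.negMulLog (w z) + C * w z) • regRho z ≤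
      lam * Real.negMulLog (∫ z, w z • regRho z) + C * ∫ z, w z • regRho z := by
  have hρc : Continuous (regRho : E → ℝ) := reg_rho_test.1.continuous
  have hρi : Integrable (regRho : E → ℝ) volume :=
    hρc.integrable_of_hasCompactSupport reg_rho_test.2
  set d : E → ENNReal := fun z => ENNReal.ofReal (regRho z) with hd
  have hdm : Measurable d := hρc.measurable.ennreal_ofReal
  have hdt : ∀ᵐ z ∂(volume : Measure E), d z < ⊤ := Eventually.of_forall fun z => by simp [hd]
  set μ : Measure E := volume.withDensity d with hμ
  have hprob : IsProbabilityMeasure μ := by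
    constructor
    rw [hμ, withDensity_apply _ MeasurableSet.univ, Measure.restrict_univ,
      ← ofReal_integral_eq_lintegral_ofReal hρi (Eventually.of_forall posav_rho_nonneg),
      reg_rho_integral, ENNReal.ofReal_one]
  have hint : ∀ f : E → ℝ, ∫ z, f z ∂μ = ∫ z, f z • regRho z := by
    intro f
    rw [hμ, integral_withDensity_eq_integral_toReal_smul hdm hdt]
    refine integral_congr_ae (Eventually.of_forall fun z => ?_)
    simp only [hd, ENNReal.toReal_ofReal (posav_rho_nonneg z), smul_eq_mul]
    ring
  have hintg : ∀ f : E → ℝ, Continuous f → Integrable f μ := by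
    intro f hf
    rw [hμ, integrable_withDensity_iff_integrable_smul' hdm hdt]
    refine (posav_integrable hf reg_rho_test).congr (Eventually.of_forall fun z => ?_)
    simp only [hd, ENNReal.toReal_ofReal (posav_rho_nonneg z), smul_eq_mul]
    ring
  have hnc : Continuous fun z => Real.negMulLog (w z) := Real.continuous_negMulLog.comp hw
  have hJ : ∫ z, Real.negMulLog (w z) ∂μ ≤ Real.negMulLog (∫ z, w z ∂μ) :=
    Real.concaveOn_negMulLog.le_map_integral Real.continuous_negMulLog.continuousOn isClosed_Ici
      (Eventually.of_forall fun z => h0 z) (hintg w hw) (hintg _ hnc)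
  rw [hint, hint] at hJ
  have hsplit : ∫ z, (lam * Real.negMulLog (w z) + C * w z) • regRho z
      = lam * (∫ z, Real.negMulLog (w z) • regRho z) + C * ∫ z, w z • regRho z := by
    rw [← integral_const_mul, ← integral_const_mul, ← integral_add]
    · refine integral_congr_ae (Eventually.of_forall fun z => ?_)
      simp only [smul_eq_mul]
      ring
    · exact (posav_integrable hnc reg_rho_test).const_mul lam
    · exact (posav_integrable hw reg_rho_test).const_mul C
  rw [hsplit]
  have := mul_le_mul_of_nonneg_left hJ hlam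
  linarith

/-- The differential inequality. -/
theorem pos_deriv_le {v c : E → ℝ} {lam C : ℝ} (hlam : 0 < lam) (hc : Continuous c)
    (hv : Continuous v) (h0 : ∀ x, 0 ≤ v x) {x₀ : E} {r : ℝ} (hr : 0 < r)
    (hb : ∀ y ∈ Metric.closedBall x₀ (2 * r), v y ≤ 1 ∧ |c y| ≤ C) :
    -(r * regAvg regPsi (fun x => lam * (v x * Real.log (v x)) + c x * v x) r x₀) ≤
      r * (lam * Real.negMulLog (regAvg regRho v r x₀) + C * regAvg regRho v r x₀) := by
  have haff : Continuous fun z : E => x₀ - r • z := continuous_const.sub (continuous_const_smul r)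
  set w : E → ℝ := fun z => v (x₀ - r • z) with hw
  have hwc : Continuous w := hv.comp haff
  have hJ := pos_jensen hwc (fun z => h0 _) hlam.le C
  have hGc : Continuous fun x => lam * (v x * Real.log (v x)) + c x * v x :=
    (continuous_const.mul (Real.continuous_mul_log.comp hv)).add (hc.mul hv)
  have hkey : -(regAvg regPsi (fun x => lam * (v x * Real.log (v x)) + c x * v x) r x₀)
      ≤ ∫ z, (lam * Real.negMulLog (w z) + C * w z) • regRho z := by
    unfold regAvg
    rw [← integral_neg]
    refine integral_mono ?_ ?_ ?_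
    · exact (posav_integrable (hGc.comp haff) reg_psi_test).neg
    · exact posav_integrable ((continuous_const.mul (Real.continuous_negMulLog.comp hwc)).add
        (continuous_const.mul hwc)) reg_rho_test
    · intro z
      simp only [smul_eq_mul]
      rcases le_or_gt 2 (‖z‖ ^ 2) with hz | hz
      · rw [reg_psi_zero hz, reg_rho_zero hz]; simp
      · have hz2 : ‖z‖ < 2 := by nlinarith [norm_nonneg z]
        have hy : x₀ - r • z ∈ Metric.closedBall x₀ (2 * r) := by
          rw [Metric.mem_closedBall, dist_eq_norm]
          have : x₀ - r • z - x₀ = -(r • z) := by abel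
          rw [this, norm_neg, norm_smul, Real.norm_eq_abs, abs_of_pos hr]
          nlinarith
        obtain ⟨h1, h2⟩ := hb _ hy
        have hv0 : 0 ≤ v (x₀ - r • z) := h0 _
        have hnn : 0 ≤ Real.negMulLog (v (x₀ - r • z)) := Real.negMulLog_nonneg hv0 h1
        have hC0 : 0 ≤ C := (abs_nonneg _).trans h2
        have hcl : - c (x₀ - r • z) ≤ C := (neg_le_abs _).trans h2
        have hg0 : 0 ≤ lam * Real.negMulLog (w z) + C * w z :=
          add_nonneg (mul_nonneg hlam.le hnn) (mul_nonneg hC0 hv0)
        have hle : -(lam * (v (x₀ - r • z) * Real.log (v (x₀ - r • z)))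
            + c (x₀ - r • z) * v (x₀ - r • z)) ≤ lam * Real.negMulLog (w z) + C * w z := by
          have e1 : Real.negMulLog (w z) = -(v (x₀ - r • z) * Real.log (v (x₀ - r • z))) := by
            simp [Real.negMulLog, hw]
          rw [e1]
          have : - c (x₀ - r • z) * v (x₀ - r • z) ≤ C * w z :=
            mul_le_mul_of_nonneg_right hcl hv0
          nlinarith
        calc -((lam * (v (x₀ - r • z) * Real.log (v (x₀ - r • z)))
              + c (x₀ - r • z) * v (x₀ - r • z)) * regPsi z)
            = -(lam * (v (x₀ - r • z) * Real.log (v (x₀ - r • z)))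
              + c (x₀ - r • z) * v (x₀ - r • z)) * regPsi z := by ring
          _ ≤ (lam * Real.negMulLog (w z) + C * w z) * regPsi z :=
              mul_le_mul_of_nonneg_right hle (reg_psi_nonneg z)
          _ ≤ (lam * Real.negMulLog (w z) + C * w z) * regRho z :=
              mul_le_mul_of_nonneg_left (reg_psi_le_rho z) hg0
  have hfin := hkey.trans hJ
  have e2 : regAvg regRho v r x₀ = ∫ z, w z • regRho z := rfl
  rw [e2]
  have := mul_le_mul_of_nonneg_left hfin hr.le
  linarith

theorem pos_avg_nonneg {v : E → ℝ} (h0 : ∀ x, 0 ≤ v x) (s : ℝ) (x : E) :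
    0 ≤ regAvg regRho v s x := by
  unfold regAvg
  refine integral_nonneg fun z => ?_
  exact mul_nonneg (h0 _) ((reg_psi_nonneg z).trans (reg_psi_le_rho z))

/-- A vanishing average forces `v = 0` on a ball (`ρ ≥ ψ > 0` on `|z|² < 2`). -/
theorem pos_zero_of_avg {v : E → ℝ} (hv : Continuous v) (h0 : ∀ x, 0 ≤ v x) {x₀ : E} {r : ℝ}
    (hr : 0 < r) (h : regAvg regRho v r x₀ = 0) : ∀ y ∈ Metric.ball x₀ r, v y = 0 := by
  have haff : Continuous fun z : E => x₀ - r • z := continuous_const.sub (continuous_const_smul r)
  have hwc : Continuous fun z : E => v (x₀ - r • z) := hv.comp haff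
  have hFc : Continuous fun z : E => v (x₀ - r • z) • regRho z :=
    hwc.smul reg_rho_test.1.continuous
  have hnn : (0 : E → ℝ) ≤ᵐ[volume] fun z : E => v (x₀ - r • z) • regRho z :=
    Eventually.of_forall fun z => mul_nonneg (h0 _) (posav_rho_nonneg z)
  unfold regAvg at h
  rw [integral_eq_zero_iff_of_nonneg_ae hnn (posav_integrable hwc reg_rho_test)] at h
  have hall : (fun z : E => v (x₀ - r • z) • regRho z) = 0 :=
    (hFc.ae_eq_iff_eq volume continuous_zero).1 h
  intro y hy
  set z : E := r⁻¹ • (x₀ - y) with hz
  have hzy : x₀ - r • z = y := by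
    rw [hz, smul_smul, mul_inv_cancel₀ hr.ne', one_smul]; abel
  have hzn : ‖z‖ < 1 := by
    rw [hz, norm_smul, Real.norm_eq_abs, abs_of_pos (inv_pos.2 hr), inv_mul_lt_iff₀ hr, mul_one,
      ← dist_eq_norm, dist_comm]
    exact hy
  have hρ : 0 < regRho z :=
    (reg_psi_pos (by nlinarith [norm_nonneg z])).trans_le (reg_psi_le_rho z)
  have h3 := congrFun hall z
  simp only [smul_eq_mul, Pi.zero_apply, hzy] at h3
  rcases mul_eq_zero.1 h3 with h4 | h4
  · exact h4
  · exact absurd h4 hρ.ne'

end Claimed.Agent.R259
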