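/-
Row 259, kit REG: `regT : L^∞_loc → C¹` (package L-reg-potA).  Owner of the statements: helper204.
Proofs: helper47 (helper lemmas: prefix `regpa_`).
-/
import Claimed.Agent.R259.RegRepA

set_option autoImplicit false

open MeasureTheory Filter Topology
open scoped ContDiff ENNReal Convolution

namespace Claimed.Agent.R259

variable {E : Type} [NormedAddCommGroup E] [InnerProductSpace ℝ E] [FiniteDimensional ℝ E]
  [MeasurableSpace E] [BorelSpace E]

/-- `ρ₁ * u` is smooth (`regAvg_eq_conv`, `HasCompactSupport.contDiff_convolution_right`). -/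
theorem reg_avg_rho_contDiff {u : E → ℝ} (hu : LocallyIntegrable u volume) :
    ContDiff ℝ ∞ (regAvg regRho u 1) := by
  have h1 : regAvg regRho u 1 = (u ⋆[ContinuousLinearMap.lsmul ℝ ℝ, volume] regScale regRho 1) := by
    funext x
    exact regAvg_eq_conv regRho u one_pos x
  rw [h1]
  have ht : IsTest (regScale (regRho : E → ℝ) 1) := reg_scale_test reg_rho_test one_pos
  exact ht.2.contDiff_convolution_right _ hu ht.1

section helpers

variable {V : Type} [NormedAddCommGroup V] [NormedSpace ℝ V]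

theorem regpa_scale_contDiff {κ : E → V} (hκ : ContDiff ℝ ∞ κ) (s : ℝ) :
    ContDiff ℝ ∞ (regScale κ s) := by
  unfold regScale
  exact contDiff_const.smul (hκ.comp (contDiff_const.smul contDiff_id))

theorem regpa_scale_compact {κ : E → V} (hc : ∀ z, 2 ≤ ‖z‖ ^ 2 → κ z = 0) {s : ℝ} (hs : 0 < s) :
    HasCompactSupport (regScale κ s) := by
  refine HasCompactSupport.intro (isCompact_closedBall (0 : E) (2 * s)) fun w hw => ?_
  rw [Metric.mem_closedBall, dist_zero_right, not_le] at hw
  exact reg_scale_zero hc hs hw.le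

theorem regpa_scale_norm (κ : E → V) {s : ℝ} (hs : 0 < s) (w : E) :
    ‖regScale κ s w‖ = regScale (fun z => ‖κ z‖) s w := by
  unfold regScale
  rw [norm_smul, Real.norm_of_nonneg (by positivity), smul_eq_mul]

/-- the uniform bound of the averages of a locally bounded function. -/
theorem regpa_bound {κ : E → V} (hκ : ContDiff ℝ ∞ κ) (hc : ∀ z, 2 ≤ ‖z‖ ^ 2 → κ z = 0) {G : E → ℝ}
    {r C : ℝ} (hC : ∀ᵐ y : E, y ∈ Metric.closedBall (0 : E) r → |G y| ≤ C) {s : ℝ} (hs : 0 < s)
    (hs1 : s ≤ 1) {x : E} (hx : ‖x‖ + 2 ≤ r) : ‖regAvg κ G s x‖ ≤ |C| * ∫ z, ‖κ z‖ := by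
  rw [regAvg_eq_conv κ G hs x, convolution_def]
  have hcont : Continuous fun t : E => ‖regScale κ s (x - t)‖ :=
    ((regpa_scale_contDiff hκ s).continuous.comp (continuous_const.sub continuous_id)).norm
  have hcomp : HasCompactSupport fun t : E => ‖regScale κ s (x - t)‖ :=
    ((regpa_scale_compact hc hs).comp_homeomorph (Homeomorph.subLeft x)).norm
  have hint : Integrable (fun t : E => |C| * ‖regScale κ s (x - t)‖) volume :=
    (hcont.integrable_of_hasCompactSupport hcomp).const_mul _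
  have hval : ∫ t : E, |C| * ‖regScale κ s (x - t)‖ = |C| * ∫ z, ‖κ z‖ := by
    rw [integral_const_mul, integral_sub_left_eq_self (fun w => ‖regScale κ s w‖) volume x]
    simp only [regpa_scale_norm κ hs]
    rw [reg_scale_integral _ hs]
  rw [← hval]
  refine norm_integral_le_of_norm_le hint ?_
  filter_upwards [hC] with t ht
  rw [ContinuousLinearMap.lsmul_apply, norm_smul, Real.norm_eq_abs]
  by_cases htr : t ∈ Metric.closedBall (0 : E) r
  · exact mul_le_mul_of_nonneg_right ((ht htr).trans (le_abs_self C)) (norm_nonneg _)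
  · rw [Metric.mem_closedBall, dist_zero_right, not_le] at htr
    have h1 : 2 * s ≤ ‖x - t‖ := by
      have := norm_sub_norm_le t x
      rw [norm_sub_rev] at this
      linarith
    rw [reg_scale_zero hc hs h1]
    simp

theorem regpa_avg_continuous [CompleteSpace V] {κ : E → V} (hκ : ContDiff ℝ ∞ κ)
    (hc : ∀ z, 2 ≤ ‖z‖ ^ 2 → κ z = 0) {G : E → ℝ} (hG : LocallyIntegrable G volume) {s : ℝ} (hs : 0 < s) :
    Continuous (regAvg κ G s) := by
  have h1 : regAvg κ G s = (G ⋆[ContinuousLinearMap.lsmul ℝ ℝ, volume] regScale κ s) := by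
    funext x
    exact regAvg_eq_conv κ G hs x
  rw [h1]
  exact (regpa_scale_compact hc hs).continuous_convolution_right _ hG (regpa_scale_contDiff hκ s).continuous

theorem regpa_avg_meas [CompleteSpace V] {κ : E → V} (hκ : ContDiff ℝ ∞ κ)
    (hc : ∀ z, 2 ≤ ‖z‖ ^ 2 → κ z = 0) {G : E → ℝ} (hG : LocallyIntegrable G volume) (x : E) :
    AEStronglyMeasurable (fun s => regAvg κ G s x) (volume.restrict (Set.Ioc (0 : ℝ) 1)) :=
  ((reg_avg_continuousOn hκ hc hG x).mono fun _ hs => hs.1).aestronglyMeasurable measurableSet_Ioc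

end helpers

theorem regpa_dpsi_contDiff : ContDiff ℝ ∞ (fderiv ℝ (regPsi : E → ℝ)) :=
  reg_psi_test.1.fderiv_right (by simp)

theorem regpa_dpsi_zero (z : E) (hz : 2 ≤ ‖z‖ ^ 2) : fderiv ℝ (regPsi : E → ℝ) z = 0 := by
  ext v
  rw [reg_psi_fderiv, reg_rho_zero hz]
  simp

theorem regpa_scale_fderiv {s : ℝ} (hs : 0 < s) (w : E) :
    s • fderiv ℝ (regScale (regPsi : E → ℝ) s) w = regScale (fderiv ℝ (regPsi : E → ℝ)) s w := by
  have hd : HasFDerivAt (regPsi : E → ℝ) (fderiv ℝ regPsi (s⁻¹ • w)) (s⁻¹ • w) :=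
    (reg_psi_test.1.differentiable (by simp) _).hasFDerivAt
  have hlin : HasFDerivAt (fun w : E => s⁻¹ • w) (s⁻¹ • ContinuousLinearMap.id ℝ E) w :=
    (hasFDerivAt_id w).const_smul s⁻¹
  have h1 := (hd.comp w hlin).const_smul ((s ^ Module.finrank ℝ E)⁻¹)
  have h2 : fderiv ℝ (regScale (regPsi : E → ℝ) s) w = _ := h1.fderiv
  rw [h2]
  ext v
  simp only [regScale, smul_apply, ContinuousLinearMap.comp_apply, ContinuousLinearMap.id_apply,
    map_smul, smul_eq_mul]
  field_simp

/-- the derivative in `x` at a fixed scale. -/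
theorem regpa_hasFDerivAt {G : E → ℝ} (hG : LocallyIntegrable G volume) {s : ℝ} (hs : 0 < s) (x : E) :
    HasFDerivAt (fun x => s * regAvg regPsi G s x) (regAvg (fderiv ℝ regPsi) G s x) x := by
  have ht : IsTest (regScale (regPsi : E → ℝ) s) := reg_scale_test reg_psi_test hs
  have h1 := (ht.2.hasFDerivAt_convolution_right (ContinuousLinearMap.lsmul ℝ ℝ) hG
    (ht.1.of_le (by exact_mod_cast le_top)) x).const_smul s
  have h2 : (fun x => s * regAvg regPsi G s x)
      = fun x => s • (G ⋆[ContinuousLinearMap.lsmul ℝ ℝ, volume] regScale regPsi s) x := by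
    funext y
    rw [regAvg_eq_conv regPsi G hs y, smul_eq_mul]
  rw [h2]
  refine h1.congr_fderiv ?_
  rw [regAvg_eq_conv _ G hs x, convolution_def, convolution_def, ← integral_smul]
  refine integral_congr_ae (Eventually.of_forall fun t => ?_)
  simp only
  rw [← regpa_scale_fderiv hs (x - t)]
  ext v
  simp [ContinuousLinearMap.precompR_apply]

/-- `L^∞_loc → C¹`, with the formula for the derivative.
Proof: for fixed `s ∈ (0,1]`, `x ↦ s (ψ_s * G)(x)` is smooth with derivative
`((Dψ)_s * G)(x) = regAvg (fderiv ℝ regPsi) G s x`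
(`regAvg_eq_conv`, `HasCompactSupport.hasFDerivAt_convolution_right`, chain rule for `regScale`),
whose norm is `≤ ‖Dψ‖_{L¹} · C` for `x ∈ ball x₀ 1` (`C` = essential bound of `G` on
`closedBall 0 (‖x₀‖ + 3)`).  Then `hasFDerivAt_integral_of_dominated_of_fderiv_le` on
`volume.restrict (Ioc 0 1)`; continuity of `regT1 G` by `continuous_of_dominated`
(each `regAvg (fderiv ℝ regPsi) G s ·` is continuous). -/
theorem reg_T_C1 {G : E → ℝ} (hG : LocallyIntegrable G volume) (hb : RegLocBdd G) :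
    ContDiff ℝ 1 (regT G) ∧ ∀ x, fderiv ℝ (regT G) x = regT1 G x := by
  have hψ : ContDiff ℝ ∞ (regPsi : E → ℝ) := reg_psi_test.1
  have hψ0 : ∀ z : E, 2 ≤ ‖z‖ ^ 2 → regPsi z = 0 := fun z hz => reg_psi_zero hz
  have hnear : ∀ x₀ x : E, x ∈ Metric.ball x₀ 1 → ‖x‖ + 2 ≤ ‖x₀‖ + 3 := by
    intro x₀ x hx
    rw [Metric.mem_ball, dist_eq_norm] at hx
    have := norm_sub_norm_le x x₀
    linarith
  have hder : ∀ x₀, HasFDerivAt (regT G) (regT1 G x₀) x₀ := by
    intro x₀
    obtain ⟨C, hC⟩ := hb (‖x₀‖ + 3)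
    unfold regT regT1
    refine hasFDerivAt_integral_of_dominated_of_fderiv_le (𝕜 := ℝ)
      (F := fun x s => s * regAvg regPsi G s x) (F' := fun x s => regAvg (fderiv ℝ regPsi) G s x)
      (bound := fun _ => |C| * ∫ z : E, ‖fderiv ℝ (regPsi : E → ℝ) z‖)
      (Metric.ball_mem_nhds x₀ one_pos) ?_ ?_ ?_ ?_ (integrable_const _) ?_
    · exact Eventually.of_forall fun x =>
        (measurable_id.aestronglyMeasurable).mul (regpa_avg_meas hψ hψ0 hG x)
    · refine (integrable_const (|C| * ∫ z : E, ‖(regPsi : E → ℝ) z‖)).mono'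
        ((measurable_id.aestronglyMeasurable).mul (regpa_avg_meas hψ hψ0 hG x₀)) ?_
      refine ae_restrict_of_forall_mem measurableSet_Ioc fun s hs => ?_
      have h1 := regpa_bound hψ hψ0 hC hs.1 hs.2 (hnear x₀ x₀ (Metric.mem_ball_self one_pos))
      rw [norm_mul, Real.norm_of_nonneg hs.1.le]
      calc s * ‖regAvg regPsi G s x₀‖ ≤ 1 * ‖regAvg regPsi G s x₀‖ :=
            mul_le_mul_of_nonneg_right hs.2 (norm_nonneg _)
        _ ≤ _ := by rw [one_mul]; exact h1
    · exact regpa_avg_meas regpa_dpsi_contDiff regpa_dpsi_zero hG x₀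
    · refine ae_restrict_of_forall_mem measurableSet_Ioc fun s hs x hx => ?_
      exact regpa_bound regpa_dpsi_contDiff regpa_dpsi_zero hC hs.1 hs.2 (hnear x₀ x hx)
    · refine ae_restrict_of_forall_mem measurableSet_Ioc fun s hs x _ => ?_
      exact regpa_hasFDerivAt hG hs.1 x
  have hfd : ∀ x, fderiv ℝ (regT G) x = regT1 G x := fun x => (hder x).fderiv
  refine ⟨?_, hfd⟩
  rw [contDiff_one_iff_fderiv]
  refine ⟨fun x => (hder x).differentiableAt, ?_⟩
  have : fderiv ℝ (regT G) = regT1 G := funext hfd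
  rw [this, continuous_iff_continuousAt]
  intro x₀
  obtain ⟨C, hC⟩ := hb (‖x₀‖ + 3)
  unfold regT1
  refine continuousAt_of_dominated (bound := fun _ => |C| * ∫ z : E, ‖fderiv ℝ (regPsi : E → ℝ) z‖)
    ?_ ?_ (integrable_const _) ?_
  · exact Eventually.of_forall fun x => regpa_avg_meas regpa_dpsi_contDiff regpa_dpsi_zero hG x
  · filter_upwards [Metric.ball_mem_nhds x₀ one_pos] with x hx
    refine ae_restrict_of_forall_mem measurableSet_Ioc fun s hs => ?_
    exact regpa_bound regpa_dpsi_contDiff regpa_dpsi_zero hC hs.1 hs.2 (hnear x₀ x hx)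
  · refine ae_restrict_of_forall_mem measurableSet_Ioc fun s hs => ?_
    exact (regpa_avg_continuous regpa_dpsi_contDiff regpa_dpsi_zero hG hs.1).continuousAt

end Claimed.Agent.R259
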