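/-
Row 259, kit REG: `regT1` preserves `C^k` (package L-reg-potB).  Owner of the statements: helper204.
Proofs: helper47 (helper lemmas: prefix `regpb_`).
-/
import Claimed.Agent.R259.RegKerB

set_option autoImplicit false

open MeasureTheory Filter Topology
open scoped ContDiff ENNReal Convolution

namespace Claimed.Agent.R259

variable {E : Type} [NormedAddCommGroup E] [InnerProductSpace ℝ E] [FiniteDimensional ℝ E]
  [MeasurableSpace E] [BorelSpace E]

theorem regpb_dpsi_continuous : Continuous (fderiv ℝ (regPsi : E → ℝ)) :=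
  (reg_psi_test.1.fderiv_right (m := 0) (by simp)).continuous

theorem regpb_dpsi_zero (z : E) (hz : 2 ≤ ‖z‖ ^ 2) : fderiv ℝ (regPsi : E → ℝ) z = 0 := by
  ext v
  rw [reg_psi_fderiv, reg_rho_zero hz]
  simp

/-- the cutoff on `ℝ × E`. -/
noncomputable def regpbTheta (E : Type) [NormedAddCommGroup E] [InnerProductSpace ℝ E]
    [FiniteDimensional ℝ E] : ContDiffBump (0 : ℝ × E) := ⟨4, 5, by norm_num, by norm_num⟩

/-- the representation of `regT1 G x` as a convolution on `ℝ × E`, evaluated at `0`. -/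
theorem regpb_eq_conv {G : E → ℝ} (hG : Continuous G) (x : E) :
    regT1 G x = (((Set.Ioc (0 : ℝ) 1) ×ˢ (Set.univ : Set E)).indicator
        (fun p : ℝ × E => fderiv ℝ (regPsi : E → ℝ) p.2)
      ⋆[(ContinuousLinearMap.lsmul ℝ ℝ : ℝ →L[ℝ] (E →L[ℝ] ℝ) →L[ℝ] (E →L[ℝ] ℝ)).flip, volume]
        fun p : ℝ × E => regpbTheta E p * G (x - p.1 • p.2)) 0 := by
  set S : Set (ℝ × E) := (Set.Ioc (0 : ℝ) 1) ×ˢ (Set.univ : Set E) with hS
  have hSm : MeasurableSet S := measurableSet_Ioc.prod MeasurableSet.univ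
  set Ψ : ℝ × E → (E →L[ℝ] ℝ) := fun t =>
    (regpbTheta E (-t) * G (x - t.1 • t.2)) • fderiv ℝ (regPsi : E → ℝ) t.2 with hΨ
  have hΨc : Continuous Ψ := by
    have c1 : Continuous fun t : ℝ × E => regpbTheta E (-t) :=
      (regpbTheta E).continuous.comp (continuous_neg : Continuous fun t : ℝ × E => -t)
    have c2 : Continuous fun t : ℝ × E => G (x - t.1 • t.2) :=
      hG.comp (continuous_const.sub (continuous_fst.smul continuous_snd))
    have c3 : Continuous fun t : ℝ × E => fderiv ℝ (regPsi : E → ℝ) t.2 :=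
      regpb_dpsi_continuous.comp (continuous_snd : Continuous fun t : ℝ × E => t.2)
    exact (c1.mul c2).smul c3
  have hΨs : HasCompactSupport Ψ := by
    have h1 : HasCompactSupport fun t : ℝ × E => regpbTheta E (-t) :=
      (regpbTheta E).hasCompactSupport.comp_homeomorph (Homeomorph.neg (ℝ × E))
    exact (h1.mul_right (f' := fun t : ℝ × E => G (x - t.1 • t.2))).smul_right
  have hΨi : Integrable Ψ (volume : Measure (ℝ × E)) := hΨc.integrable_of_hasCompactSupport hΨs
  rw [convolution_def]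
  have e1 : ∀ t : ℝ × E,
      ((ContinuousLinearMap.lsmul ℝ ℝ : ℝ →L[ℝ] (E →L[ℝ] ℝ) →L[ℝ] (E →L[ℝ] ℝ)).flip
        (S.indicator (fun p : ℝ × E => fderiv ℝ (regPsi : E → ℝ) p.2) t))
        (regpbTheta E (0 - t) * G (x - (0 - t).1 • (0 - t).2)) = S.indicator Ψ t := by
    intro t
    by_cases ht : t ∈ S
    · rw [Set.indicator_of_mem ht, Set.indicator_of_mem ht]
      simp [hΨ]
    · rw [Set.indicator_of_notMem ht, Set.indicator_of_notMem ht]
      simp
  simp only [e1]
  rw [integral_indicator hSm, Measure.volume_eq_prod, hS, setIntegral_prod _ (by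
    rw [← Measure.volume_eq_prod]; exact hΨi.integrableOn)]
  unfold regT1
  refine setIntegral_congr_fun measurableSet_Ioc fun s hs => ?_
  simp only [Measure.restrict_univ, regAvg]
  refine integral_congr_ae (Eventually.of_forall fun z => ?_)
  simp only [hΨ]
  by_cases hz : 2 ≤ ‖z‖ ^ 2
  · rw [regpb_dpsi_zero z hz, smul_zero, smul_zero]
  · push Not at hz
    have hz2 : ‖z‖ ≤ 4 := by nlinarith [norm_nonneg z]
    have h1 : regpbTheta E (-(s, z)) = 1 := by
      apply (regpbTheta E).one_of_mem_closedBall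
      rw [Metric.mem_closedBall, dist_zero_right, norm_neg, Prod.norm_def]
      refine max_le ?_ hz2
      rw [Real.norm_of_nonneg hs.1.le]
      exact hs.2.trans (by norm_num [regpbTheta])
    rw [h1, one_mul]

/-- `regT1` preserves `C^k`.
Proof: ONE application of `contDiffOn_convolution_right_with_param` on the group `ℝ × E`:
`regT1 G x = (f ⋆ g_x) 0`, `f (s,z) = 1_{(0,1]}(s) • fderiv ℝ regPsi z` (integrable),
`g_x (s', z') = θ (s', z') * G (x - s' • z')`, `θ` a smooth cutoff equal to `1` on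
`[-1,0] × closedBall 0 2` (note `(-s) • (-z) = s • z`), plus Fubini
(`Measure.volume_eq_prod`, `integral_prod`). -/
theorem reg_T1_contDiff {k : ℕ} {G : E → ℝ} (hG : ContDiff ℝ k G) :
    ContDiff ℝ k (regT1 G) := by
  have hfun : regT1 G = fun x => (((Set.Ioc (0 : ℝ) 1) ×ˢ (Set.univ : Set E)).indicator
        (fun p : ℝ × E => fderiv ℝ (regPsi : E → ℝ) p.2)
      ⋆[(ContinuousLinearMap.lsmul ℝ ℝ : ℝ →L[ℝ] (E →L[ℝ] ℝ) →L[ℝ] (E →L[ℝ] ℝ)).flip, volume]
        fun p : ℝ × E => regpbTheta E p * G (x - p.1 • p.2)) 0 :=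
    funext fun x => regpb_eq_conv hG.continuous x
  rw [hfun, ← contDiffOn_univ]
  have hloc : LocallyIntegrable (((Set.Ioc (0 : ℝ) 1) ×ˢ (Set.univ : Set E)).indicator
      (fun p : ℝ × E => fderiv ℝ (regPsi : E → ℝ) p.2)) (volume : Measure (ℝ × E)) :=
    ((regpb_dpsi_continuous.comp
      (continuous_snd : Continuous fun t : ℝ × E => t.2)).locallyIntegrable).indicator
      (measurableSet_Ioc.prod MeasurableSet.univ)
  refine contDiffOn_convolution_right_with_param_comp (n := (k : ℕ∞)) (𝕜 := ℝ) _ (v := fun _ : E => (0 : ℝ × E))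
    contDiffOn_const (g := fun (x : E) (p : ℝ × E) => regpbTheta E p * G (x - p.1 • p.2))
    isOpen_univ (isCompact_closedBall (0 : ℝ × E) 5) ?_ hloc ?_
  · intro x p _ hp
    rw [Metric.mem_closedBall, not_le] at hp
    rw [(regpbTheta E).zero_of_le_dist (le_of_lt hp), zero_mul]
  · apply ContDiff.contDiffOn
    have h1 : ContDiff ℝ k fun q : E × (ℝ × E) => regpbTheta E q.2 :=
      ((regpbTheta E).contDiff (n := (k : ℕ∞))).comp contDiff_snd
    have h2 : ContDiff ℝ k fun q : E × (ℝ × E) => G (q.1 - q.2.1 • q.2.2) :=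
      hG.comp (contDiff_fst.sub ((contDiff_fst.comp contDiff_snd).smul (contDiff_snd.comp contDiff_snd)))
    exact h1.mul h2

end Claimed.Agent.R259
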