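/-
Row 259, kit REG: Lebesgue points and a.e. integrability of the potential (package L-reg-repB).
Owner of the statements: helper204.   Proofs: helper47 (helper lemmas: prefix `regrb_`).
-/
import Claimed.Agent.R259.RegRepA

set_option autoImplicit false

open MeasureTheory Filter Topology
open scoped ContDiff ENNReal Convolution

namespace Claimed.Agent.R259

variable {E : Type} [NormedAddCommGroup E] [InnerProductSpace ℝ E] [FiniteDimensional ℝ E]
  [MeasurableSpace E] [BorelSpace E]

/-- Lebesgue points, for a general kernel of integral one. -/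
theorem regrb_tendsto {κ : E → ℝ} (hκ : IsTest κ) (hc : ∀ z, 2 ≤ ‖z‖ ^ 2 → κ z = 0)
    (h1 : ∫ z, κ z = 1) {u : E → ℝ} (hu : LocallyIntegrable u volume) :
    ∀ᵐ x, Tendsto (fun s => regAvg κ u s x) (𝓝[>] 0) (𝓝 (u x)) := by
  obtain ⟨M, hM⟩ := hκ.2.exists_bound_of_continuous hκ.1.continuous
  filter_upwards [(Besicovitch.vitaliFamily (volume : Measure E)).ae_tendsto_average_norm_sub hu]
    with x h₀
  have h2 : Tendsto (fun s : ℝ => 2 * s) (𝓝[>] 0) (𝓝[>] 0) := by
    refine tendsto_nhdsWithin_iff.2 ⟨?_, ?_⟩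
    · have : Tendsto (fun s : ℝ => 2 * s) (𝓝 0) (𝓝 (2 * 0)) := (continuous_const.mul continuous_id).tendsto 0
      rw [mul_zero] at this
      exact this.mono_left nhdsWithin_le_nhds
    · filter_upwards [self_mem_nhdsWithin] with s hs
      have hs' : 0 < s := hs
      show 0 < 2 * s
      linarith
  have hav := (h₀.comp (Besicovitch.tendsto_filterAt (volume : Measure E) x)).comp h2
  have key := tendsto_integral_smul_of_tendsto_average_norm_sub (μ := (volume : Measure E))
    (g := fun s y => regScale κ s (x - y))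
    (M * 2 ^ Module.finrank ℝ E * (volume : Measure E).real (Metric.closedBall 0 1)) hav ?_ ?_ ?_ ?_
  · refine key.congr' ?_
    filter_upwards [self_mem_nhdsWithin] with s hs
    rw [regAvg_eq_conv κ u hs x, convolution_def]
    refine integral_congr_ae (Eventually.of_forall fun t => ?_)
    simp only [ContinuousLinearMap.lsmul_apply, smul_eq_mul]
    ring
  · exact Eventually.of_forall fun s => hu.integrableOn_isCompact (isCompact_closedBall _ _)
  · refine tendsto_const_nhds.congr' ?_
    filter_upwards [self_mem_nhdsWithin] with s hs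
    rw [integral_sub_left_eq_self (fun w => regScale κ s w) volume x, reg_scale_integral κ hs, h1]
  · filter_upwards [self_mem_nhdsWithin] with s hs
    intro y hy
    by_contra hcon
    apply hy
    simp only [Metric.mem_closedBall, not_le] at hcon
    refine reg_scale_zero hc hs ?_
    rw [dist_eq_norm, norm_sub_rev] at hcon
    exact hcon.le
  · filter_upwards [self_mem_nhdsWithin] with s hs y
    have hs' : 0 < s := hs
    rw [Measure.addHaar_real_closedBall' volume x (by positivity : (0 : ℝ) ≤ 2 * s)]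
    have hpos : 0 < (volume : Measure E).real (Metric.closedBall 0 1) := by
      rw [measureReal_def]
      refine ENNReal.toReal_pos ?_ (isCompact_closedBall _ _).measure_lt_top.ne
      exact (Metric.measure_closedBall_pos volume 0 one_pos).ne'
    have e : M * 2 ^ Module.finrank ℝ E * (volume : Measure E).real (Metric.closedBall 0 1) /
        ((2 * s) ^ Module.finrank ℝ E * (volume : Measure E).real (Metric.closedBall 0 1))
        = (s ^ Module.finrank ℝ E)⁻¹ * M := by
      rw [mul_pow]
      field_simp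
    rw [e]
    unfold regScale
    rw [smul_eq_mul, abs_mul, abs_of_pos (by positivity : 0 < (s ^ Module.finrank ℝ E)⁻¹)]
    exact mul_le_mul_of_nonneg_left (hM _) (by positivity)

/-- Lebesgue points: copy the proof of
`ContDiffBump.ae_convolution_tendsto_right_of_locallyIntegrable`
(`tendsto_integral_smul_of_tendsto_average_norm_sub`, sets `closedBall x (2 s)`). -/
theorem reg_avg_tendsto_ae {u : E → ℝ} (hu : LocallyIntegrable u volume) :
    ∀ᵐ x, Tendsto (fun s => regAvg regRho u s x) (𝓝[>] 0) (𝓝 (u x)) :=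
  regrb_tendsto reg_rho_test (fun _ hz => reg_rho_zero hz) reg_rho_integral hu

theorem regrb_psi_integral_pos : 0 < ∫ z : E, regPsi z := by
  have hint : Integrable (regPsi : E → ℝ) volume :=
    reg_psi_test.1.continuous.integrable_of_hasCompactSupport reg_psi_test.2
  rw [integral_pos_iff_support_of_nonneg (fun z => reg_psi_nonneg z) hint]
  refine lt_of_lt_of_le (Metric.measure_ball_pos volume (0 : E) one_pos) (measure_mono fun z hz => ?_)
  rw [Metric.mem_ball, dist_zero_right] at hz
  have : 0 < regPsi z := reg_psi_pos (by nlinarith [norm_nonneg z])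
  exact this.ne'

/-- a function on `(0, 1]` which is continuous and has a limit at `0` is bounded. -/
theorem regrb_bounded {f : ℝ → ℝ} (hf : ContinuousOn f (Set.Ioi 0)) {L : ℝ}
    (hL : Tendsto f (𝓝[>] 0) (𝓝 L)) : ∃ M, ∀ s ∈ Set.Ioc (0 : ℝ) 1, ‖f s‖ ≤ M := by
  have h1 : ∀ᶠ s in 𝓝[>] (0 : ℝ), ‖f s‖ < ‖L‖ + 1 :=
    (hL.norm).eventually (gt_mem_nhds (by linarith))
  obtain ⟨δ, hδ, hδ'⟩ := (mem_nhdsGT_iff_exists_Ioo_subset).1 h1
  have hδ0 : 0 < δ := hδ
  obtain ⟨M, hM⟩ := (isCompact_Icc (a := δ / 2) (b := 1)).exists_bound_of_continuousOn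
    (hf.mono fun s hs => lt_of_lt_of_le (half_pos hδ0) hs.1)
  refine ⟨max M (‖L‖ + 1), fun s hs => ?_⟩
  by_cases hsδ : s < δ
  · exact (le_of_lt (hδ' ⟨hs.1, hsδ⟩)).trans (le_max_right _ _)
  · push Not at hsδ
    exact (hM s ⟨by linarith, hs.2⟩).trans (le_max_left _ _)

/-- Tonelli: `∫_K ∫_0^1 s (ψ_s * |G|)(x) ds dx ≤ ∫_{K + B(0,2)} |G|`. -/
theorem reg_pot_integrableOn_ae {G : E → ℝ} (hG : LocallyIntegrable G volume) :
    ∀ᵐ x, IntegrableOn (fun s => s * regAvg regPsi G s x) (Set.Ioc 0 1) := by
  set c : ℝ := ∫ z : E, regPsi z with hc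
  have hc0 : 0 < c := regrb_psi_integral_pos
  have htest : IsTest (fun z : E => c⁻¹ * regPsi z) :=
    ⟨contDiff_const.mul reg_psi_test.1, reg_psi_test.2.mul_left⟩
  have hlim := regrb_tendsto htest (fun z hz => by simp only [reg_psi_zero hz, mul_zero])
    (by rw [integral_const_mul, ← hc, inv_mul_cancel₀ hc0.ne']) hG
  filter_upwards [hlim] with x hx
  have hcont : ContinuousOn (fun s => regAvg regPsi G s x) (Set.Ioi 0) :=
    reg_avg_continuousOn reg_psi_test.1 (fun z hz => reg_psi_zero hz) hG x
  have heq : ∀ s, regAvg (fun z : E => c⁻¹ * regPsi z) G s x = c⁻¹ * regAvg regPsi G s x := by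
    intro s
    unfold regAvg
    rw [← integral_const_mul]
    refine integral_congr_ae (Eventually.of_forall fun z => ?_)
    simp only [smul_eq_mul]
    ring
  have hlim2 : Tendsto (fun s => regAvg regPsi G s x) (𝓝[>] 0) (𝓝 (c * G x)) := by
    have := hx.const_mul c
    refine this.congr fun s => ?_
    rw [heq, ← mul_assoc, mul_inv_cancel₀ hc0.ne', one_mul]
  obtain ⟨M, hM⟩ := regrb_bounded hcont hlim2
  show Integrable _ (volume.restrict (Set.Ioc (0 : ℝ) 1))
  refine (integrable_const M).mono' ?_ ?_
  · exact (measurable_id.aestronglyMeasurable).mul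
      ((hcont.mono fun s hs => hs.1).aestronglyMeasurable measurableSet_Ioc)
  · refine ae_restrict_of_forall_mem measurableSet_Ioc fun s hs => ?_
    rw [norm_mul, Real.norm_of_nonneg hs.1.le]
    calc s * ‖regAvg regPsi G s x‖ ≤ 1 * ‖regAvg regPsi G s x‖ :=
          mul_le_mul_of_nonneg_right hs.2 (norm_nonneg _)
      _ ≤ M := by rw [one_mul]; exact hM s hs

end Claimed.Agent.R259
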