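/-
Row 259, kit REG: the representation formula `u = ρ₁ * u + T G`.  GLUE ONLY (no `sorry` here).
Owner: helper204.
-/
import Claimed.Agent.R259.RegRepB

set_option autoImplicit false

open MeasureTheory Filter Topology
open scoped ContDiff ENNReal Convolution

namespace Claimed.Agent.R259

variable {E : Type} [NormedAddCommGroup E] [InnerProductSpace ℝ E] [FiniteDimensional ℝ E]
  [MeasurableSpace E] [BorelSpace E]

/-- GLUE: the difference of two averages. -/
theorem reg_avg_sub {u G : E → ℝ} (h : RegVW u G) {τ : ℝ} (hτ : 0 < τ) (hτ1 : τ ≤ 1) (x : E) :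
    regAvg regRho u 1 x - regAvg regRho u τ x = ∫ s in τ..1, -(s * regAvg regPsi G s x) := by
  have hcont : ContinuousOn (fun s => -(s * regAvg regPsi G s x)) (Set.uIcc τ 1) := by
    have h1 : ContinuousOn (fun s => regAvg regPsi G s x) (Set.Ioi 0) :=
      reg_avg_continuousOn reg_psi_test.1 (fun z hz => reg_psi_zero hz) h.2.1 x
    have h2 : Set.uIcc τ 1 ⊆ Set.Ioi (0 : ℝ) := by
      intro s hs
      rw [Set.uIcc_of_le hτ1] at hs
      exact lt_of_lt_of_le hτ hs.1
    exact ((continuousOn_id.mul h1).neg).mono h2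
  symm
  refine intervalIntegral.integral_eq_sub_of_hasDerivAt (f := fun t => regAvg regRho u t x)
    (fun s hs => ?_) hcont.intervalIntegrable
  rw [Set.uIcc_of_le hτ1] at hs
  exact reg_avg_hasDerivAt h (lt_of_lt_of_le hτ hs.1) x

/-- GLUE: THE REPRESENTATION FORMULA. -/
theorem reg_repr {u G : E → ℝ} (h : RegVW u G) :
    ∀ᵐ x, u x = regAvg regRho u 1 x + regT G x := by
  filter_upwards [reg_avg_tendsto_ae h.1, reg_pot_integrableOn_ae h.2.1] with x hx1 hx2
  set F : ℝ → ℝ := fun s => -(s * regAvg regPsi G s x) with hF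
  have hFint : IntervalIntegrable F volume 0 1 := by
    rw [intervalIntegrable_iff_integrableOn_Ioc_of_le zero_le_one]
    exact hx2.neg
  -- the primitive is continuous at `0`
  have hprim : ContinuousOn (fun b => ∫ s in (1 : ℝ)..b, F s) (Set.uIcc 0 1) :=
    intervalIntegral.continuousOn_primitive_interval' hFint (by simp)
  have h0 : Tendsto (fun b => ∫ s in (1 : ℝ)..b, F s) (𝓝[Set.uIcc 0 1] 0)
      (𝓝 (∫ s in (1 : ℝ)..0, F s)) := hprim 0 (by simp)
  have hle : 𝓝[Set.Ioc (0 : ℝ) 1] 0 ≤ 𝓝[Set.uIcc 0 1] 0 := by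
    apply nhdsWithin_mono
    rw [Set.uIcc_of_le zero_le_one]
    exact Set.Ioc_subset_Icc_self
  have hle' : 𝓝[Set.Ioc (0 : ℝ) 1] 0 ≤ 𝓝[>] 0 := nhdsWithin_mono _ Set.Ioc_subset_Ioi_self
  have hne : (𝓝[Set.Ioc (0 : ℝ) 1] 0).NeBot := by
    have : 𝓝[Set.Ioc (0 : ℝ) 1] 0 = 𝓝[>] 0 := nhdsWithin_Ioc_eq_nhdsGT zero_lt_one
    rw [this]; infer_instance
  have t1 : Tendsto (fun τ => regAvg regRho u 1 x - regAvg regRho u τ x)
      (𝓝[Set.Ioc (0 : ℝ) 1] 0) (𝓝 (regAvg regRho u 1 x - u x)) :=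
    tendsto_const_nhds.sub (hx1.mono_left hle')
  have t2 : Tendsto (fun τ => regAvg regRho u 1 x - regAvg regRho u τ x)
      (𝓝[Set.Ioc (0 : ℝ) 1] 0) (𝓝 (-(∫ s in (1 : ℝ)..0, F s))) := by
    refine ((h0.mono_left hle).neg).congr' ?_
    filter_upwards [self_mem_nhdsWithin] with τ hτ
    rw [reg_avg_sub h hτ.1 hτ.2 x, intervalIntegral.integral_symm, neg_neg]
  have heq := tendsto_nhds_unique t1 t2
  have hT : regT G x = -(∫ s in (0 : ℝ)..1, F s) := by
    rw [intervalIntegral.integral_of_le zero_le_one, hF, integral_neg, neg_neg]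
    rfl
  rw [hT, intervalIntegral.integral_symm 1 0]
  linarith

end Claimed.Agent.R259
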