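/-
Row 259, kit REG: mapping properties of the local potential `regT` in classical spaces:
`L^∞_loc → C¹`, `C^k → C^{k+1}`.  GLUE ONLY (no `sorry` here).  Owner: helper204.
-/
import Claimed.Agent.R259.RegRep
import Claimed.Agent.R259.RegPotA
import Claimed.Agent.R259.RegPotB

set_option autoImplicit false

open MeasureTheory Filter Topology
open scoped ContDiff ENNReal Convolution

namespace Claimed.Agent.R259

variable {E : Type} [NormedAddCommGroup E] [InnerProductSpace ℝ E] [FiniteDimensional ℝ E]
  [MeasurableSpace E] [BorelSpace E]

/-- continuous functions are locally bounded and locally integrable. -/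
theorem reg_locBdd_of_continuous {G : E → ℝ} (hG : Continuous G) : RegLocBdd G := by
  intro r
  obtain ⟨C, hC⟩ := (isCompact_closedBall (0 : E) r).exists_bound_of_continuousOn hG.continuousOn
  exact ⟨C, Eventually.of_forall fun y hy => by simpa using hC y hy⟩

/-- GLUE: `regT` depends only on the a.e. class. -/
theorem regT_congr_ae {G G' : E → ℝ} (h : G =ᵐ[volume] G') : regT G = regT G' := by
  funext x
  unfold regT
  refine setIntegral_congr_fun measurableSet_Ioc (fun s hs => ?_)
  rw [regAvg_congr_ae regPsi h hs.1 x]

/-- GLUE: gain of one classical derivative. -/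
theorem reg_T_contDiff_succ {k : ℕ} {G : E → ℝ} (hG : ContDiff ℝ k G) :
    ContDiff ℝ (k + 1) (regT G) := by
  have hc : Continuous G := hG.continuous
  obtain ⟨h1, h2⟩ := reg_T_C1 hc.locallyIntegrable (reg_locBdd_of_continuous hc)
  rw [contDiff_succ_iff_fderiv]
  refine ⟨h1.differentiable (by norm_num), fun h => ?_, ?_⟩
  · exact absurd h (by simp)
  · have : fderiv ℝ (regT G) = regT1 G := funext h2
    rw [this]
    exact reg_T1_contDiff hG

/-- GLUE: for continuous solutions the representation formula holds everywhere. -/
theorem reg_fix {u G : E → ℝ} (h : RegVW u G) (hu : Continuous u) (hb : RegLocBdd G) :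
    ∀ x, u x = regAvg regRho u 1 x + regT G x := by
  have hc : Continuous (fun x => regAvg regRho u 1 x + regT G x) :=
    (reg_avg_rho_contDiff h.1).continuous.add (reg_T_C1 h.2.1 hb).1.continuous
  have := (hu.ae_eq_iff_eq (μ := (volume : Measure E)) hc).1 (reg_repr h)
  exact fun x => congrFun this x

end Claimed.Agent.R259
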