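/-
Row 259, kit WS: extension of LSI and Poincare from test functions to `H¹(η)`.
Blueprint: helper217.  LEAF `L-ws-ineq`: proved by helper108.

Plan.  `wsh_dense` (WsH1) gives tests `φ_k → u`, `∇φ_k → g` in `L²(η)`.  `ws_tendsto_sq`,
`ws_tendsto_norm_sq` (WsLim) give `∫ φ_k² → ∫ u²`, `nrg (dm η) (φ k) = ∫ ‖∇φ_k‖² → ∫ ‖g‖²`;
`∫ φ_k → ∫ u` because the measure is finite (`ws_tendsto_mul` with the constant `1`).  This is
Poincare.  LSI: pass to a subsequence converging a.e.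
(`tendstoInMeasure_of_tendsto_eLpNorm`, `TendstoInMeasure.exists_seq_tendsto_ae`; the dictionary
`∫ (..)² → 0 ↔ eLpNorm → 0` is `ws_tendsto_sq_iff_real`), Fatou (`lintegral_liminf_le`) for the
nonnegative functions `φ_k² log φ_k² + 1` (`t log t ≥ -1/e ≥ -1`, `Real.mul_log_ge`-type bound, or
`Real.add_one_le_exp`), continuity of `t ↦ t log t` (`Real.continuous_mul_log`) for the term
`(∫ φ_k²) log ∫ φ_k²`.  `R` may have any sign: only limits of both sides are used.
-/
import Claimed.Agent.R259.WsH1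
import Claimed.Agent.R259.WsLim

set_option autoImplicit false
set_option linter.unusedSectionVars false

open MeasureTheory Filter Topology
open scoped ContDiff ENNReal

namespace Claimed.Agent.R259

variable {E : Type} [NormedAddCommGroup E] [InnerProductSpace ℝ E] [FiniteDimensional ℝ E]
  [MeasurableSpace E] [BorelSpace E]
variable {η : E → ℝ}

/-- Poincare extends from test functions to `H¹`. -/
theorem wsh_PI_H1 (hη : Continuous η) (hpos : ∀ x, 0 < η x) [IsFiniteMeasure (dm η)] {R : ℝ}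
    (hR : PI (dm η) R) {u : E → ℝ} {g : E → E} (h : H1 (dm η) u g) :
    vari (dm η) u ≤ R * ∫ x, ‖g x‖ ^ 2 ∂(dm η) := by
  obtain ⟨φ, h1, -, -, h4, h5⟩ := wsh_dense hη hpos h
  have hm : ∀ k, MemLp (φ k) 2 (dm η) := fun k => (wsh_of_test hη (h1 k)).2.1
  have hmg : ∀ k, MemLp (gradient (φ k)) 2 (dm η) := fun k => (wsh_of_test hη (h1 k)).2.2
  have t1 := ws_tendsto_sq hm h.2.1 h4
  have hone : MemLp (fun _ : E => (1 : ℝ)) 2 (dm η) := memLp_const 1
  have t2 := ws_tendsto_mul hm h.2.1 (fun _ => hone) hone h4 (by simp)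
  simp only [mul_one] at t2
  have t3 := ws_tendsto_norm_sq hmg h.2.2 h5
  have tL : Tendsto (fun k => vari (dm η) (φ k)) atTop (𝓝 (vari (dm η) u)) := by
    unfold vari; exact t1.sub (t2.pow 2)
  exact le_of_tendsto_of_tendsto' tL (t3.const_mul R) fun k => hR (φ k) (h1 k)

/-- Fatou's lemma for Bochner integrals of nonnegative functions. -/
theorem wsi_fatou {α : Type} [MeasurableSpace α] {m : Measure α} {F : ℕ → α → ℝ} {F' : α → ℝ}
    {c : ℕ → ℝ} {c' : ℝ} (hF : ∀ k, Integrable (F k) m) (h0 : ∀ k x, 0 ≤ F k x)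
    (hlim : ∀ᵐ x ∂m, Tendsto (fun k => F k x) atTop (𝓝 (F' x))) (hc : ∀ k, ∫ x, F k x ∂m ≤ c k)
    (hcl : Tendsto c atTop (𝓝 c')) : Integrable F' m ∧ ∫ x, F' x ∂m ≤ c' := by
  have hc0 : 0 ≤ c' := ge_of_tendsto' hcl fun k => (integral_nonneg (h0 k)).trans (hc k)
  have hF'0 : ∀ᵐ x ∂m, 0 ≤ F' x := by
    filter_upwards [hlim] with x hx
    exact ge_of_tendsto' hx fun k => h0 k x
  have hmeas : AEStronglyMeasurable F' m :=
    aestronglyMeasurable_of_tendsto_ae atTop (fun k => (hF k).aestronglyMeasurable) hlim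
  have key : ∫⁻ x, ENNReal.ofReal (F' x) ∂m ≤ ENNReal.ofReal c' := by
    calc ∫⁻ x, ENNReal.ofReal (F' x) ∂m
        = ∫⁻ x, liminf (fun k => ENNReal.ofReal (F k x)) atTop ∂m := by
          refine lintegral_congr_ae ?_
          filter_upwards [hlim] with x hx
          exact (((ENNReal.continuous_ofReal.tendsto _).comp hx).liminf_eq).symm
      _ ≤ liminf (fun k => ∫⁻ x, ENNReal.ofReal (F k x) ∂m) atTop :=
          lintegral_liminf_le' fun k => (hF k).aestronglyMeasurable.aemeasurable.ennreal_ofReal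
      _ ≤ liminf (fun k => ENNReal.ofReal (c k)) atTop := by
          refine liminf_le_liminf (Eventually.of_forall fun k => ?_)
          rw [← ofReal_integral_eq_lintegral_ofReal (hF k) (Eventually.of_forall (h0 k))]
          exact ENNReal.ofReal_le_ofReal (hc k)
      _ = ENNReal.ofReal c' := ((ENNReal.continuous_ofReal.tendsto _).comp hcl).liminf_eq
  have hint : Integrable F' m := by
    refine ⟨hmeas, ?_⟩
    rw [hasFiniteIntegral_iff_ofReal hF'0]
    exact key.trans_lt ENNReal.ofReal_lt_top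
  refine ⟨hint, ?_⟩
  rw [integral_eq_lintegral_of_nonneg_ae hF'0 hmeas]
  exact ENNReal.toReal_le_of_le_ofReal hc0 key

theorem wsi_mul_log_ge (t : ℝ) (ht : 0 ≤ t) : 0 ≤ t * Real.log t + 1 := by
  rcases ht.eq_or_lt with rfl | ht
  · simp
  · have h2 : Real.log (1 / t) ≤ 1 / t - 1 := Real.log_le_sub_one_of_pos (by positivity)
    rw [one_div, Real.log_inv] at h2
    have h3 : t * (-Real.log t) ≤ t * (t⁻¹ - 1) := mul_le_mul_of_nonneg_left h2 ht.le
    rw [mul_sub, mul_inv_cancel₀ ht.ne'] at h3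
    nlinarith

/-- LSI extends from test functions to `H¹`. -/
theorem wsh_LSI_H1 (hη : Continuous η) (hpos : ∀ x, 0 < η x) [IsFiniteMeasure (dm η)] {R : ℝ}
    (hR : LSI (dm η) R) {u : E → ℝ} {g : E → E} (h : H1 (dm η) u g) :
    Integrable (fun x => u x ^ 2 * Real.log (u x ^ 2)) (dm η) ∧
      ent (dm η) (fun x => u x ^ 2) ≤ 2 * R * ∫ x, ‖g x‖ ^ 2 ∂(dm η) := by
  obtain ⟨φ, h1, -, -, h4, h5⟩ := wsh_dense hη hpos h
  have hm : ∀ k, MemLp (φ k) 2 (dm η) := fun k => (wsh_of_test hη (h1 k)).2.1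
  have hmg : ∀ k, MemLp (gradient (φ k)) 2 (dm η) := fun k => (wsh_of_test hη (h1 k)).2.2
  have t1 := ws_tendsto_sq hm h.2.1 h4
  have t3 := ws_tendsto_norm_sq hmg h.2.2 h5
  -- a.e. convergent subsequence
  have h4' : Tendsto (fun k => eLpNorm (φ k - u) 2 (dm η)) atTop (𝓝 0) :=
    (ws_tendsto_sq_iff_real (g := fun k x => φ k x - u x) (fun k => (hm k).sub h.2.1)).1 h4
  have hmeasure := tendstoInMeasure_of_tendsto_eLpNorm (by norm_num) (fun k => (hm k).1) h.2.1.1 h4'
  obtain ⟨ns, hns, hae⟩ := hmeasure.exists_seq_tendsto_ae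
  have hφl : Continuous (fun t : ℝ => t * Real.log t) := Real.continuous_mul_log
  have : IsLocallyFiniteMeasure (dm η) := ws_dm_locallyFinite hη
  have hint : ∀ k, Integrable (fun x => φ k x ^ 2 * Real.log (φ k x ^ 2)) (dm η) := fun k =>
    Continuous.integrable_of_hasCompactSupport
      (hφl.comp ((h1 k).1.continuous.pow 2))
      ((h1 k).2.comp_left (g := fun t : ℝ => t ^ 2 * Real.log (t ^ 2)) (by simp))
  set M : ℝ := (dm η).real Set.univ with hM
  have a1 : ∀ j, Integrable (fun x => φ (ns j) x ^ 2 * Real.log (φ (ns j) x ^ 2) + 1) (dm η) :=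
    fun j => (hint (ns j)).add (integrable_const 1)
  have a2 : ∀ (j : ℕ) (x : E), 0 ≤ φ (ns j) x ^ 2 * Real.log (φ (ns j) x ^ 2) + 1 :=
    fun j x => wsi_mul_log_ge _ (sq_nonneg _)
  have a3 : ∀ᵐ x ∂(dm η), Tendsto (fun j => φ (ns j) x ^ 2 * Real.log (φ (ns j) x ^ 2) + 1) atTop
      (𝓝 (u x ^ 2 * Real.log (u x ^ 2) + 1)) := by
    filter_upwards [hae] with x hx
    exact ((hφl.tendsto _).comp (hx.pow 2)).add_const 1
  have a4 : ∀ j, ∫ x, (φ (ns j) x ^ 2 * Real.log (φ (ns j) x ^ 2) + 1) ∂(dm η) ≤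
      2 * R * ∫ x, ‖gradient (φ (ns j)) x‖ ^ 2 ∂(dm η) +
      (∫ x, φ (ns j) x ^ 2 ∂(dm η)) * Real.log (∫ x, φ (ns j) x ^ 2 ∂(dm η)) + M := by
    intro j
    rw [integral_add (hint (ns j)) (integrable_const 1)]
    have := hR (φ (ns j)) (h1 (ns j))
    unfold ent nrg at this
    simp only [integral_const, smul_eq_mul, mul_one]
    linarith
  have a5 : Tendsto (fun j => 2 * R * ∫ x, ‖gradient (φ (ns j)) x‖ ^ 2 ∂(dm η) +
      (∫ x, φ (ns j) x ^ 2 ∂(dm η)) * Real.log (∫ x, φ (ns j) x ^ 2 ∂(dm η)) + M) atTop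
      (𝓝 (2 * R * ∫ x, ‖g x‖ ^ 2 ∂(dm η) +
      (∫ x, u x ^ 2 ∂(dm η)) * Real.log (∫ x, u x ^ 2 ∂(dm η)) + M)) := by
    have b1 := (t3.comp hns.tendsto_atTop).const_mul (2 * R)
    have b2 := (hφl.tendsto _).comp (t1.comp hns.tendsto_atTop)
    exact (b1.add b2).add_const M
  have hfat := wsi_fatou a1 a2 a3 a4 a5
  have hI : Integrable (fun x => u x ^ 2 * Real.log (u x ^ 2)) (dm η) := by
    have := hfat.1.sub (integrable_const 1)
    refine this.congr (Eventually.of_forall fun x => ?_)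
    simp
  refine ⟨hI, ?_⟩
  have h6 := hfat.2
  rw [integral_add hI (integrable_const 1)] at h6
  simp only [integral_const, smul_eq_mul, mul_one] at h6
  unfold ent
  linarith

end Claimed.Agent.R259
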